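import Vale.Agent.Lib.P154.PChain.BA.R7_0

set_option linter.all false

namespace Vale.Agent.Lib.P154.PChain.BA.S8

open Vale.Agent.Lib.P154.Chain

noncomputable def pc0 : PT := (PT.nd (nat_lit 5380752) (PT.nd (nat_lit 5221632) (PT.nd (nat_lit 5115552) (PT.nd (nat_lit 5115396) (PT.nd (nat_lit 5062434) (PT.nd (nat_lit 5062356) PT.nil (PT.lf (nat_lit 9804) (nat_lit 6) (nat_lit 129) (nat_lit 3) (nat_lit 207) (nat_lit 95) (nat_lit 208))) (PT.lf (nat_lit 9804) (nat_lit 6) (nat_lit 129) (nat_lit 1) (nat_lit 208) (nat_lit 95) (nat_lit 207))) (PT.nd (nat_lit 78) (PT.lf (nat_lit 9880) (nat_lit 6) (nat_lit 130) (nat_lit 3) (nat_lit 206) (nat_lit 96) (nat_lit 208)) (PT.lf (nat_lit 9956) (nat_lit 3) (nat_lit 131) (nat_lit 1) (nat_lit 207) (nat_lit 96) (nat_lit 207)))) (PT.nd (nat_lit 53040) (PT.nd (nat_lit 52962) (PT.lf (nat_lit 9880) (nat_lit 6) (nat_lit 130) (nat_lit 1) (nat_lit 208) (nat_lit 96) (nat_lit 206))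 (PT.lf (nat_lit 10108) (nat_lit 6) (nat_lit 133) (nat_lit 3) (nat_lit 206) (nat_lit 97) (nat_lit 207))) (PT.nd (nat_lit 52962) (PT.lf (nat_lit 10108) (nat_lit 6) (nat_lit 133) (nat_lit 1) (nat_lit 207) (nat_lit 97) (nat_lit 206)) (PT.lf (nat_lit 10184) (nat_lit 6) (nat_lit 134) (nat_lit 3) (nat_lit 205) (nat_lit 98) (nat_lit 207))))) (PT.nd (nat_lit 53118) (PT.nd (nat_lit 52962) (PT.nd (nat_lit 78) (PT.lf (nat_lit 10260) (nat_lit 3) (nat_lit 135) (nat_lit 1) (nat_lit 206) (nat_lit 98) (nat_lit 206)) (PT.lf (nat_lit 10184) (nat_lit 6) (nat_lit 134) (nat_lit 1) (nat_lit 207) (nat_lit 98) (nat_lit 205))) (PT.nd (nat_lit 78) (PT.lf (nat_lit 10336) (nat_lit 6) (nat_lit 136) (nat_lit 3) (nat_lit 204) (nat_lit 99) (nat_lit 207)) (PT.lf (nat_lit 10412) (nat_lit 6) (nat_lit 137) (nat_lit 3) (nat_lit 205) (nat_lit 99) (nat_lit 206)))) (PT.nd (nat_lit 52962) (PT.nd (nat_lit 78) (PT.lf (nat_lit 10412) (nat_lit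 6) (nat_lit 137) (nat_lit 1) (nat_lit 206) (nat_lit 99) (nat_lit 205)) (PT.lf (nat_lit 10336) (nat_lit 6) (nat_lit 136) (nat_lit 1) (nat_lit 207) (nat_lit 99) (nat_lit 204))) (PT.nd (nat_lit 78) (PT.lf (nat_lit 10488) (nat_lit 6) (nat_lit 138) (nat_lit 3) (nat_lit 204) (nat_lit 100) (nat_lit 206)) (PT.nd (nat_lit 78) (PT.lf (nat_lit 10564) (nat_lit 3) (nat_lit 139) (nat_lit 1) (nat_lit 205) (nat_lit 100) (nat_lit 205)) (PT.lf (nat_lit 10488) (nat_lit 6) (nat_lit 138) (nat_lit 1) (nat_lit 206) (nat_lit 100) (nat_lit 204))))))) (PT.nd (nat_lit 106236) (PT.nd (nat_lit 53118) (PT.nd (nat_lit 156) (PT.nd (nat_lit 78) (PT.lf (nat_lit 10640) (nat_lit 6) (nat_lit 140) (nat_lit 3) (nat_lit 203) (nat_lit 101) (nat_lit 206)) (PT.lf (nat_lit 10716) (nat_lit 6) (nat_lit 141) (nat_lit 3) (nat_lit 204) (nat_lit 101) (nat_lit 205))) (PT.nd (nat_lit 78) (PT.lf (nat_lit 10716) (nat_lit 6) (nat_lit 141) (nat_lit 1)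 (nat_lit 205) (nat_lit 101) (nat_lit 204)) (PT.lf (nat_lit 10640) (nat_lit 6) (nat_lit 140) (nat_lit 1) (nat_lit 206) (nat_lit 101) (nat_lit 203)))) (PT.nd (nat_lit 156) (PT.nd (nat_lit 78) (PT.lf (nat_lit 10792) (nat_lit 6) (nat_lit 142) (nat_lit 3) (nat_lit 203) (nat_lit 102) (nat_lit 205)) (PT.lf (nat_lit 10868) (nat_lit 3) (nat_lit 143) (nat_lit 1) (nat_lit 204) (nat_lit 102) (nat_lit 204))) (PT.nd (nat_lit 52884) (PT.lf (nat_lit 10792) (nat_lit 6) (nat_lit 142) (nat_lit 1) (nat_lit 205) (nat_lit 102) (nat_lit 203)) (PT.lf (nat_lit 10944) (nat_lit 6) (nat_lit 144) (nat_lit 3) (nat_lit 202) (nat_lit 103) (nat_lit 205))))) (PT.nd (nat_lit 53118) (PT.nd (nat_lit 156) (PT.nd (nat_lit 78) (PT.lf (nat_lit 11020) (nat_lit 6) (nat_lit 145) (nat_lit 3) (nat_lit 203) (nat_lit 103) (nat_lit 204)) (PT.lf (nat_lit 11020) (nat_lit 6) (nat_lit 145) (nat_lit 1) (nat_lit 204) (nat_lit 103) (nat_lit 203))) (PT.nd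 (nat_lit 52884) (PT.lf (nat_lit 10944) (nat_lit 6) (nat_lit 144) (nat_lit 1) (nat_lit 205) (nat_lit 103) (nat_lit 202)) (PT.lf (nat_lit 11096) (nat_lit 6) (nat_lit 146) (nat_lit 3) (nat_lit 202) (nat_lit 104) (nat_lit 204)))) (PT.nd (nat_lit 52962) (PT.nd (nat_lit 78) (PT.lf (nat_lit 11172) (nat_lit 3) (nat_lit 147) (nat_lit 1) (nat_lit 203) (nat_lit 104) (nat_lit 203)) (PT.lf (nat_lit 11096) (nat_lit 6) (nat_lit 146) (nat_lit 1) (nat_lit 204) (nat_lit 104) (nat_lit 202))) (PT.nd (nat_lit 78) (PT.lf (nat_lit 11248) (nat_lit 6) (nat_lit 148) (nat_lit 3) (nat_lit 201) (nat_lit 105) (nat_lit 204)) (PT.nd (nat_lit 78) (PT.lf (nat_lit 11324) (nat_lit 6) (nat_lit 149) (nat_lit 3) (nat_lit 202) (nat_lit 105) (nat_lit 203)) (PT.lf (nat_lit 11324) (nat_lit 6) (nat_lit 149) (nat_lit 1) (nat_lit 203) (nat_lit 105) (nat_lit 202))))))))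
noncomputable def pc1 : PT := (PT.nd (nat_lit 265122) (PT.nd (nat_lit 158964) (PT.nd (nat_lit 105924) (PT.nd (nat_lit 52962) (PT.nd (nat_lit 52884) (PT.lf (nat_lit 11248) (nat_lit 6) (nat_lit 148) (nat_lit 1) (nat_lit 204) (nat_lit 105) (nat_lit 201)) (PT.lf (nat_lit 11400) (nat_lit 6) (nat_lit 150) (nat_lit 3) (nat_lit 201) (nat_lit 106) (nat_lit 203))) (PT.nd (nat_lit 78) (PT.lf (nat_lit 11476) (nat_lit 3) (nat_lit 151) (nat_lit 1) (nat_lit 202) (nat_lit 106) (nat_lit 202)) (PT.lf (nat_lit 11400) (nat_lit 6) (nat_lit 150) (nat_lit 1) (nat_lit 203) (nat_lit 106) (nat_lit 201)))) (PT.nd (nat_lit 156) (PT.nd (nat_lit 78) (PT.lf (nat_lit 11552) (nat_lit 6) (nat_lit 152) (nat_lit 3) (nat_lit 200) (nat_lit 107) (nat_lit 203)) (PT.lf (nat_lit 11628) (nat_lit 6) (nat_lit 153) (nat_lit 3) (nat_lit 201) (nat_lit 107) (nat_lit 202))) (PT.nd (nat_lit 78) (PT.lf (nat_lit 11628) (nat_lit 6) (nat_lit 153) (nat_lit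 1) (nat_lit 202) (nat_lit 107) (nat_lit 201)) (PT.lf (nat_lit 11552) (nat_lit 6) (nat_lit 152) (nat_lit 1) (nat_lit 203) (nat_lit 107) (nat_lit 200))))) (PT.nd (nat_lit 312) (PT.nd (nat_lit 156) (PT.nd (nat_lit 78) (PT.lf (nat_lit 11704) (nat_lit 6) (nat_lit 154) (nat_lit 3) (nat_lit 199) (nat_lit 108) (nat_lit 203)) (PT.lf (nat_lit 11780) (nat_lit 6) (nat_lit 155) (nat_lit 3) (nat_lit 200) (nat_lit 108) (nat_lit 202))) (PT.nd (nat_lit 78) (PT.lf (nat_lit 11856) (nat_lit 3) (nat_lit 156) (nat_lit 1) (nat_lit 201) (nat_lit 108) (nat_lit 201)) (PT.lf (nat_lit 11780) (nat_lit 6) (nat_lit 155) (nat_lit 1) (nat_lit 202) (nat_lit 108) (nat_lit 200)))) (PT.nd (nat_lit 52884) (PT.nd (nat_lit 52806) (PT.lf (nat_lit 11704) (nat_lit 6) (nat_lit 154) (nat_lit 1) (nat_lit 203) (nat_lit 108) (nat_lit 199)) (PT.lf (nat_lit 11932) (nat_lit 6) (nat_lit 157) (nat_lit 3) (nat_lit 199) (nat_lit 109) (nat_lit 202)))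 (PT.nd (nat_lit 78) (PT.lf (nat_lit 12008) (nat_lit 6) (nat_lit 158) (nat_lit 3) (nat_lit 200) (nat_lit 109) (nat_lit 201)) (PT.nd (nat_lit 78) (PT.lf (nat_lit 12008) (nat_lit 6) (nat_lit 158) (nat_lit 1) (nat_lit 201) (nat_lit 109) (nat_lit 200)) (PT.lf (nat_lit 11932) (nat_lit 6) (nat_lit 157) (nat_lit 1) (nat_lit 202) (nat_lit 109) (nat_lit 199))))))) (PT.nd (nat_lit 53352) (PT.nd (nat_lit 312) (PT.nd (nat_lit 156) (PT.nd (nat_lit 78) (PT.lf (nat_lit 12084) (nat_lit 6) (nat_lit 159) (nat_lit 3) (nat_lit 198) (nat_lit 110) (nat_lit 202)) (PT.lf (nat_lit 12160) (nat_lit 6) (nat_lit 160) (nat_lit 3) (nat_lit 199) (nat_lit 110) (nat_lit 201))) (PT.nd (nat_lit 78) (PT.lf (nat_lit 12236) (nat_lit 3) (nat_lit 161) (nat_lit 1) (nat_lit 200) (nat_lit 110) (nat_lit 200)) (PT.lf (nat_lit 12160) (nat_lit 6) (nat_lit 160) (nat_lit 1) (nat_lit 201) (nat_lit 110) (nat_lit 199)))) (PT.nd (nat_lit 52884) (PT.nd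 (nat_lit 52806) (PT.lf (nat_lit 12084) (nat_lit 6) (nat_lit 159) (nat_lit 1) (nat_lit 202) (nat_lit 110) (nat_lit 198)) (PT.lf (nat_lit 12312) (nat_lit 6) (nat_lit 162) (nat_lit 3) (nat_lit 198) (nat_lit 111) (nat_lit 201))) (PT.nd (nat_lit 78) (PT.lf (nat_lit 12388) (nat_lit 6) (nat_lit 163) (nat_lit 3) (nat_lit 199) (nat_lit 111) (nat_lit 200)) (PT.lf (nat_lit 12388) (nat_lit 6) (nat_lit 163) (nat_lit 1) (nat_lit 200) (nat_lit 111) (nat_lit 199))))) (PT.nd (nat_lit 53040) (PT.nd (nat_lit 52884) (PT.nd (nat_lit 52806) (PT.lf (nat_lit 12312) (nat_lit 6) (nat_lit 162) (nat_lit 1) (nat_lit 201) (nat_lit 111) (nat_lit 198)) (PT.lf (nat_lit 12464) (nat_lit 6) (nat_lit 164) (nat_lit 3) (nat_lit 197) (nat_lit 112) (nat_lit 201))) (PT.nd (nat_lit 78) (PT.lf (nat_lit 12540) (nat_lit 6) (nat_lit 165) (nat_lit 3) (nat_lit 198) (nat_lit 112) (nat_lit 200)) (PT.lf (nat_lit 12616) (nat_lit 3) (nat_lit 166) (nat_lit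 1) (nat_lit 199) (nat_lit 112) (nat_lit 199)))) (PT.nd (nat_lit 52884) (PT.nd (nat_lit 78) (PT.lf (nat_lit 12540) (nat_lit 6) (nat_lit 165) (nat_lit 1) (nat_lit 200) (nat_lit 112) (nat_lit 198)) (PT.lf (nat_lit 12464) (nat_lit 6) (nat_lit 164) (nat_lit 1) (nat_lit 201) (nat_lit 112) (nat_lit 197))) (PT.nd (nat_lit 78) (PT.lf (nat_lit 12692) (nat_lit 6) (nat_lit 167) (nat_lit 3) (nat_lit 197) (nat_lit 113) (nat_lit 200)) (PT.nd (nat_lit 78) (PT.lf (nat_lit 12768) (nat_lit 6) (nat_lit 168) (nat_lit 3) (nat_lit 198) (nat_lit 113) (nat_lit 199)) (PT.lf (nat_lit 12768) (nat_lit 6) (nat_lit 168) (nat_lit 1) (nat_lit 199) (nat_lit 113) (nat_lit 198))))))))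
noncomputable def pc2 : PT := (PT.nd (nat_lit 212160) (PT.nd (nat_lit 106080) (PT.nd (nat_lit 53040) (PT.nd (nat_lit 52884) (PT.nd (nat_lit 52806) (PT.lf (nat_lit 12692) (nat_lit 6) (nat_lit 167) (nat_lit 1) (nat_lit 200) (nat_lit 113) (nat_lit 197)) (PT.lf (nat_lit 12844) (nat_lit 6) (nat_lit 169) (nat_lit 3) (nat_lit 196) (nat_lit 114) (nat_lit 200))) (PT.nd (nat_lit 78) (PT.lf (nat_lit 12920) (nat_lit 6) (nat_lit 170) (nat_lit 3) (nat_lit 197) (nat_lit 114) (nat_lit 199)) (PT.lf (nat_lit 12996) (nat_lit 3) (nat_lit 171) (nat_lit 1) (nat_lit 198) (nat_lit 114) (nat_lit 198)))) (PT.nd (nat_lit 52884) (PT.nd (nat_lit 78) (PT.lf (nat_lit 12920) (nat_lit 6) (nat_lit 170) (nat_lit 1) (nat_lit 199) (nat_lit 114) (nat_lit 197)) (PT.lf (nat_lit 12844) (nat_lit 6) (nat_lit 169) (nat_lit 1) (nat_lit 200) (nat_lit 114) (nat_lit 196))) (PT.nd (nat_lit 78) (PT.lf (nat_lit 13072) (nat_lit 6) (nat_lit 172) (nat_lit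 3) (nat_lit 196) (nat_lit 115) (nat_lit 199)) (PT.lf (nat_lit 13148) (nat_lit 6) (nat_lit 173) (nat_lit 3) (nat_lit 197) (nat_lit 115) (nat_lit 198))))) (PT.nd (nat_lit 53040) (PT.nd (nat_lit 52884) (PT.nd (nat_lit 78) (PT.lf (nat_lit 13148) (nat_lit 6) (nat_lit 173) (nat_lit 1) (nat_lit 198) (nat_lit 115) (nat_lit 197)) (PT.lf (nat_lit 13072) (nat_lit 6) (nat_lit 172) (nat_lit 1) (nat_lit 199) (nat_lit 115) (nat_lit 196))) (PT.nd (nat_lit 78) (PT.lf (nat_lit 13224) (nat_lit 6) (nat_lit 174) (nat_lit 3) (nat_lit 195) (nat_lit 116) (nat_lit 199)) (PT.lf (nat_lit 13300) (nat_lit 6) (nat_lit 175) (nat_lit 3) (nat_lit 196) (nat_lit 116) (nat_lit 198)))) (PT.nd (nat_lit 156) (PT.nd (nat_lit 78) (PT.lf (nat_lit 13376) (nat_lit 3) (nat_lit 176) (nat_lit 1) (nat_lit 197) (nat_lit 116) (nat_lit 197)) (PT.lf (nat_lit 13300) (nat_lit 6) (nat_lit 175) (nat_lit 1) (nat_lit 198) (nat_lit 116) (nat_lit 196))) (PT.nd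 (nat_lit 52728) (PT.lf (nat_lit 13224) (nat_lit 6) (nat_lit 174) (nat_lit 1) (nat_lit 199) (nat_lit 116) (nat_lit 195)) (PT.nd (nat_lit 78) (PT.lf (nat_lit 13452) (nat_lit 6) (nat_lit 177) (nat_lit 3) (nat_lit 194) (nat_lit 117) (nat_lit 199)) (PT.lf (nat_lit 13528) (nat_lit 6) (nat_lit 178) (nat_lit 3) (nat_lit 195) (nat_lit 117) (nat_lit 198))))))) (PT.nd (nat_lit 53274) (PT.nd (nat_lit 52962) (PT.nd (nat_lit 156) (PT.nd (nat_lit 78) (PT.lf (nat_lit 13604) (nat_lit 6) (nat_lit 179) (nat_lit 3) (nat_lit 196) (nat_lit 117) (nat_lit 197)) (PT.lf (nat_lit 13604) (nat_lit 6) (nat_lit 179) (nat_lit 1) (nat_lit 197) (nat_lit 117) (nat_lit 196))) (PT.nd (nat_lit 78) (PT.lf (nat_lit 13528) (nat_lit 6) (nat_lit 178) (nat_lit 1) (nat_lit 198) (nat_lit 117) (nat_lit 195)) (PT.lf (nat_lit 13452) (nat_lit 6) (nat_lit 177) (nat_lit 1) (nat_lit 199) (nat_lit 117) (nat_lit 194)))) (PT.nd (nat_lit 156) (PT.nd (nat_lit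 78) (PT.lf (nat_lit 13680) (nat_lit 6) (nat_lit 180) (nat_lit 3) (nat_lit 194) (nat_lit 118) (nat_lit 198)) (PT.lf (nat_lit 13756) (nat_lit 6) (nat_lit 181) (nat_lit 3) (nat_lit 195) (nat_lit 118) (nat_lit 197))) (PT.nd (nat_lit 78) (PT.lf (nat_lit 13832) (nat_lit 3) (nat_lit 182) (nat_lit 1) (nat_lit 196) (nat_lit 118) (nat_lit 196)) (PT.lf (nat_lit 13756) (nat_lit 6) (nat_lit 181) (nat_lit 1) (nat_lit 197) (nat_lit 118) (nat_lit 195))))) (PT.nd (nat_lit 52962) (PT.nd (nat_lit 52806) (PT.nd (nat_lit 52728) (PT.lf (nat_lit 13680) (nat_lit 6) (nat_lit 180) (nat_lit 1) (nat_lit 198) (nat_lit 118) (nat_lit 194)) (PT.lf (nat_lit 13908) (nat_lit 6) (nat_lit 183) (nat_lit 3) (nat_lit 193) (nat_lit 119) (nat_lit 198))) (PT.nd (nat_lit 78) (PT.lf (nat_lit 13984) (nat_lit 6) (nat_lit 184) (nat_lit 3) (nat_lit 194) (nat_lit 119) (nat_lit 197)) (PT.lf (nat_lit 14060) (nat_lit 6) (nat_lit 185) (nat_lit 3) (nat_lit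 195) (nat_lit 119) (nat_lit 196)))) (PT.nd (nat_lit 156) (PT.nd (nat_lit 78) (PT.lf (nat_lit 14060) (nat_lit 6) (nat_lit 185) (nat_lit 1) (nat_lit 196) (nat_lit 119) (nat_lit 195)) (PT.lf (nat_lit 13984) (nat_lit 6) (nat_lit 184) (nat_lit 1) (nat_lit 197) (nat_lit 119) (nat_lit 194))) (PT.nd (nat_lit 52728) (PT.lf (nat_lit 13908) (nat_lit 6) (nat_lit 183) (nat_lit 1) (nat_lit 198) (nat_lit 119) (nat_lit 193)) (PT.nd (nat_lit 78) (PT.lf (nat_lit 14136) (nat_lit 6) (nat_lit 186) (nat_lit 3) (nat_lit 193) (nat_lit 120) (nat_lit 197)) (PT.lf (nat_lit 14212) (nat_lit 6) (nat_lit 187) (nat_lit 3) (nat_lit 194) (nat_lit 120) (nat_lit 196))))))))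
noncomputable def pc3 : PT := (PT.nd (nat_lit 159120) (PT.nd (nat_lit 53274) (PT.nd (nat_lit 52962) (PT.nd (nat_lit 156) (PT.nd (nat_lit 78) (PT.lf (nat_lit 14288) (nat_lit 3) (nat_lit 188) (nat_lit 1) (nat_lit 195) (nat_lit 120) (nat_lit 195)) (PT.lf (nat_lit 14212) (nat_lit 6) (nat_lit 187) (nat_lit 1) (nat_lit 196) (nat_lit 120) (nat_lit 194))) (PT.nd (nat_lit 52728) (PT.lf (nat_lit 14136) (nat_lit 6) (nat_lit 186) (nat_lit 1) (nat_lit 197) (nat_lit 120) (nat_lit 193)) (PT.lf (nat_lit 14364) (nat_lit 6) (nat_lit 189) (nat_lit 3) (nat_lit 192) (nat_lit 121) (nat_lit 197)))) (PT.nd (nat_lit 156) (PT.nd (nat_lit 78) (PT.lf (nat_lit 14440) (nat_lit 6) (nat_lit 190) (nat_lit 3) (nat_lit 193) (nat_lit 121) (nat_lit 196)) (PT.lf (nat_lit 14516) (nat_lit 6) (nat_lit 191) (nat_lit 3) (nat_lit 194) (nat_lit 121) (nat_lit 195))) (PT.nd (nat_lit 78) (PT.lf (nat_lit 14516) (nat_lit 6) (nat_lit 191) (nat_lit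 1) (nat_lit 195) (nat_lit 121) (nat_lit 194)) (PT.lf (nat_lit 14440) (nat_lit 6) (nat_lit 190) (nat_lit 1) (nat_lit 196) (nat_lit 121) (nat_lit 193))))) (PT.nd (nat_lit 52884) (PT.nd (nat_lit 52728) (PT.nd (nat_lit 52650) (PT.lf (nat_lit 14364) (nat_lit 6) (nat_lit 189) (nat_lit 1) (nat_lit 197) (nat_lit 121) (nat_lit 192)) (PT.lf (nat_lit 14592) (nat_lit 6) (nat_lit 192) (nat_lit 3) (nat_lit 191) (nat_lit 122) (nat_lit 197))) (PT.nd (nat_lit 78) (PT.lf (nat_lit 14668) (nat_lit 6) (nat_lit 193) (nat_lit 3) (nat_lit 192) (nat_lit 122) (nat_lit 196)) (PT.lf (nat_lit 14744) (nat_lit 6) (nat_lit 194) (nat_lit 3) (nat_lit 193) (nat_lit 122) (nat_lit 195)))) (PT.nd (nat_lit 156) (PT.nd (nat_lit 78) (PT.lf (nat_lit 14820) (nat_lit 3) (nat_lit 195) (nat_lit 1) (nat_lit 194) (nat_lit 122) (nat_lit 194)) (PT.lf (nat_lit 14744) (nat_lit 6) (nat_lit 194) (nat_lit 1) (nat_lit 195) (nat_lit 122) (nat_lit 193)))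 (PT.nd (nat_lit 78) (PT.lf (nat_lit 14668) (nat_lit 6) (nat_lit 193) (nat_lit 1) (nat_lit 196) (nat_lit 122) (nat_lit 192)) (PT.nd (nat_lit 52650) (PT.lf (nat_lit 14592) (nat_lit 6) (nat_lit 192) (nat_lit 1) (nat_lit 197) (nat_lit 122) (nat_lit 191)) (PT.lf (nat_lit 14896) (nat_lit 6) (nat_lit 196) (nat_lit 3) (nat_lit 191) (nat_lit 123) (nat_lit 196))))))) (PT.nd (nat_lit 53274) (PT.nd (nat_lit 312) (PT.nd (nat_lit 156) (PT.nd (nat_lit 78) (PT.lf (nat_lit 14972) (nat_lit 6) (nat_lit 197) (nat_lit 3) (nat_lit 192) (nat_lit 123) (nat_lit 195)) (PT.lf (nat_lit 15048) (nat_lit 6) (nat_lit 198) (nat_lit 3) (nat_lit 193) (nat_lit 123) (nat_lit 194))) (PT.nd (nat_lit 78) (PT.lf (nat_lit 15048) (nat_lit 6) (nat_lit 198) (nat_lit 1) (nat_lit 194) (nat_lit 123) (nat_lit 193)) (PT.lf (nat_lit 14972) (nat_lit 6) (nat_lit 197) (nat_lit 1) (nat_lit 195) (nat_lit 123) (nat_lit 192)))) (PT.nd (nat_lit 52728) (PT.nd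 (nat_lit 52650) (PT.lf (nat_lit 14896) (nat_lit 6) (nat_lit 196) (nat_lit 1) (nat_lit 196) (nat_lit 123) (nat_lit 191)) (PT.lf (nat_lit 15124) (nat_lit 6) (nat_lit 199) (nat_lit 3) (nat_lit 190) (nat_lit 124) (nat_lit 196))) (PT.nd (nat_lit 78) (PT.lf (nat_lit 15200) (nat_lit 6) (nat_lit 200) (nat_lit 3) (nat_lit 191) (nat_lit 124) (nat_lit 195)) (PT.nd (nat_lit 78) (PT.lf (nat_lit 15276) (nat_lit 6) (nat_lit 201) (nat_lit 3) (nat_lit 192) (nat_lit 124) (nat_lit 194)) (PT.lf (nat_lit 15352) (nat_lit 3) (nat_lit 202) (nat_lit 1) (nat_lit 193) (nat_lit 124) (nat_lit 193)))))) (PT.nd (nat_lit 52884) (PT.nd (nat_lit 156) (PT.nd (nat_lit 78) (PT.lf (nat_lit 15276) (nat_lit 6) (nat_lit 201) (nat_lit 1) (nat_lit 194) (nat_lit 124) (nat_lit 192)) (PT.lf (nat_lit 15200) (nat_lit 6) (nat_lit 200) (nat_lit 1) (nat_lit 195) (nat_lit 124) (nat_lit 191))) (PT.nd (nat_lit 52650) (PT.lf (nat_lit 15124) (nat_lit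 6) (nat_lit 199) (nat_lit 1) (nat_lit 196) (nat_lit 124) (nat_lit 190)) (PT.lf (nat_lit 15428) (nat_lit 6) (nat_lit 203) (nat_lit 3) (nat_lit 190) (nat_lit 125) (nat_lit 195)))) (PT.nd (nat_lit 156) (PT.nd (nat_lit 78) (PT.lf (nat_lit 15504) (nat_lit 6) (nat_lit 204) (nat_lit 3) (nat_lit 191) (nat_lit 125) (nat_lit 194)) (PT.lf (nat_lit 15580) (nat_lit 6) (nat_lit 205) (nat_lit 3) (nat_lit 192) (nat_lit 125) (nat_lit 193))) (PT.nd (nat_lit 78) (PT.lf (nat_lit 15580) (nat_lit 6) (nat_lit 205) (nat_lit 1) (nat_lit 193) (nat_lit 125) (nat_lit 192)) (PT.nd (nat_lit 78) (PT.lf (nat_lit 15504) (nat_lit 6) (nat_lit 204) (nat_lit 1) (nat_lit 194) (nat_lit 125) (nat_lit 191)) (PT.lf (nat_lit 15428) (nat_lit 6) (nat_lit 203) (nat_lit 1) (nat_lit 195) (nat_lit 125) (nat_lit 190))))))))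
noncomputable def pc4 : PT := (PT.nd (nat_lit 106314) (PT.nd (nat_lit 53118) (PT.nd (nat_lit 312) (PT.nd (nat_lit 156) (PT.nd (nat_lit 78) (PT.lf (nat_lit 15656) (nat_lit 6) (nat_lit 206) (nat_lit 3) (nat_lit 189) (nat_lit 126) (nat_lit 195)) (PT.lf (nat_lit 15732) (nat_lit 6) (nat_lit 207) (nat_lit 3) (nat_lit 190) (nat_lit 126) (nat_lit 194))) (PT.nd (nat_lit 78) (PT.lf (nat_lit 15808) (nat_lit 6) (nat_lit 208) (nat_lit 3) (nat_lit 191) (nat_lit 126) (nat_lit 193)) (PT.lf (nat_lit 15884) (nat_lit 3) (nat_lit 209) (nat_lit 1) (nat_lit 192) (nat_lit 126) (nat_lit 192)))) (PT.nd (nat_lit 156) (PT.nd (nat_lit 78) (PT.lf (nat_lit 15808) (nat_lit 6) (nat_lit 208) (nat_lit 1) (nat_lit 193) (nat_lit 126) (nat_lit 191)) (PT.lf (nat_lit 15732) (nat_lit 6) (nat_lit 207) (nat_lit 1) (nat_lit 194) (nat_lit 126) (nat_lit 190))) (PT.nd (nat_lit 52572) (PT.lf (nat_lit 15656) (nat_lit 6) (nat_lit 206) (nat_lit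 1) (nat_lit 195) (nat_lit 126) (nat_lit 189)) (PT.lf (nat_lit 15960) (nat_lit 6) (nat_lit 210) (nat_lit 3) (nat_lit 188) (nat_lit 127) (nat_lit 195))))) (PT.nd (nat_lit 312) (PT.nd (nat_lit 156) (PT.nd (nat_lit 78) (PT.lf (nat_lit 16036) (nat_lit 6) (nat_lit 211) (nat_lit 3) (nat_lit 189) (nat_lit 127) (nat_lit 194)) (PT.lf (nat_lit 16112) (nat_lit 6) (nat_lit 212) (nat_lit 3) (nat_lit 190) (nat_lit 127) (nat_lit 193))) (PT.nd (nat_lit 78) (PT.lf (nat_lit 16188) (nat_lit 6) (nat_lit 213) (nat_lit 3) (nat_lit 191) (nat_lit 127) (nat_lit 192)) (PT.lf (nat_lit 16188) (nat_lit 6) (nat_lit 213) (nat_lit 1) (nat_lit 192) (nat_lit 127) (nat_lit 191)))) (PT.nd (nat_lit 156) (PT.nd (nat_lit 78) (PT.lf (nat_lit 16112) (nat_lit 6) (nat_lit 212) (nat_lit 1) (nat_lit 193) (nat_lit 127) (nat_lit 190)) (PT.lf (nat_lit 16036) (nat_lit 6) (nat_lit 211) (nat_lit 1) (nat_lit 194) (nat_lit 127) (nat_lit 189))) (PT.nd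 (nat_lit 52572) (PT.lf (nat_lit 15960) (nat_lit 6) (nat_lit 210) (nat_lit 1) (nat_lit 195) (nat_lit 127) (nat_lit 188)) (PT.nd (nat_lit 78) (PT.lf (nat_lit 16264) (nat_lit 6) (nat_lit 214) (nat_lit 3) (nat_lit 188) (nat_lit 128) (nat_lit 194)) (PT.lf (nat_lit 16340) (nat_lit 6) (nat_lit 215) (nat_lit 3) (nat_lit 189) (nat_lit 128) (nat_lit 193))))))) (PT.nd (nat_lit 53118) (PT.nd (nat_lit 312) (PT.nd (nat_lit 156) (PT.nd (nat_lit 78) (PT.lf (nat_lit 16416) (nat_lit 6) (nat_lit 216) (nat_lit 3) (nat_lit 190) (nat_lit 128) (nat_lit 192)) (PT.lf (nat_lit 16492) (nat_lit 3) (nat_lit 217) (nat_lit 1) (nat_lit 191) (nat_lit 128) (nat_lit 191))) (PT.nd (nat_lit 78) (PT.lf (nat_lit 16416) (nat_lit 6) (nat_lit 216) (nat_lit 1) (nat_lit 192) (nat_lit 128) (nat_lit 190)) (PT.lf (nat_lit 16340) (nat_lit 6) (nat_lit 215) (nat_lit 1) (nat_lit 193) (nat_lit 128) (nat_lit 189)))) (PT.nd (nat_lit 52650) (PT.nd (nat_lit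 52572) (PT.lf (nat_lit 16264) (nat_lit 6) (nat_lit 214) (nat_lit 1) (nat_lit 194) (nat_lit 128) (nat_lit 188)) (PT.lf (nat_lit 16568) (nat_lit 6) (nat_lit 218) (nat_lit 3) (nat_lit 187) (nat_lit 129) (nat_lit 194))) (PT.nd (nat_lit 78) (PT.lf (nat_lit 16644) (nat_lit 6) (nat_lit 219) (nat_lit 3) (nat_lit 188) (nat_lit 129) (nat_lit 193)) (PT.lf (nat_lit 16720) (nat_lit 6) (nat_lit 220) (nat_lit 3) (nat_lit 189) (nat_lit 129) (nat_lit 192))))) (PT.nd (nat_lit 312) (PT.nd (nat_lit 156) (PT.nd (nat_lit 78) (PT.lf (nat_lit 16796) (nat_lit 6) (nat_lit 221) (nat_lit 3) (nat_lit 190) (nat_lit 129) (nat_lit 191)) (PT.lf (nat_lit 16796) (nat_lit 6) (nat_lit 221) (nat_lit 1) (nat_lit 191) (nat_lit 129) (nat_lit 190))) (PT.nd (nat_lit 78) (PT.lf (nat_lit 16720) (nat_lit 6) (nat_lit 220) (nat_lit 1) (nat_lit 192) (nat_lit 129) (nat_lit 189)) (PT.lf (nat_lit 16644) (nat_lit 6) (nat_lit 219) (nat_lit 1) (nat_lit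 193) (nat_lit 129) (nat_lit 188)))) (PT.nd (nat_lit 52650) (PT.nd (nat_lit 52572) (PT.lf (nat_lit 16568) (nat_lit 6) (nat_lit 218) (nat_lit 1) (nat_lit 194) (nat_lit 129) (nat_lit 187)) (PT.lf (nat_lit 16872) (nat_lit 6) (nat_lit 222) (nat_lit 3) (nat_lit 187) (nat_lit 130) (nat_lit 193))) (PT.nd (nat_lit 78) (PT.lf (nat_lit 16948) (nat_lit 6) (nat_lit 223) (nat_lit 3) (nat_lit 188) (nat_lit 130) (nat_lit 192)) (PT.nd (nat_lit 78) (PT.lf (nat_lit 17024) (nat_lit 6) (nat_lit 224) (nat_lit 3) (nat_lit 189) (nat_lit 130) (nat_lit 191)) (PT.lf (nat_lit 17100) (nat_lit 3) (nat_lit 225) (nat_lit 1) (nat_lit 190) (nat_lit 130) (nat_lit 190))))))))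
noncomputable def pc5 : PT := (PT.nd (nat_lit 106236) (PT.nd (nat_lit 53118) (PT.nd (nat_lit 52806) (PT.nd (nat_lit 156) (PT.nd (nat_lit 78) (PT.lf (nat_lit 17024) (nat_lit 6) (nat_lit 224) (nat_lit 1) (nat_lit 191) (nat_lit 130) (nat_lit 189)) (PT.lf (nat_lit 16948) (nat_lit 6) (nat_lit 223) (nat_lit 1) (nat_lit 192) (nat_lit 130) (nat_lit 188))) (PT.nd (nat_lit 52572) (PT.lf (nat_lit 16872) (nat_lit 6) (nat_lit 222) (nat_lit 1) (nat_lit 193) (nat_lit 130) (nat_lit 187)) (PT.lf (nat_lit 17176) (nat_lit 6) (nat_lit 226) (nat_lit 3) (nat_lit 186) (nat_lit 131) (nat_lit 193)))) (PT.nd (nat_lit 156) (PT.nd (nat_lit 78) (PT.lf (nat_lit 17252) (nat_lit 6) (nat_lit 227) (nat_lit 3) (nat_lit 187) (nat_lit 131) (nat_lit 192)) (PT.lf (nat_lit 17328) (nat_lit 6) (nat_lit 228) (nat_lit 3) (nat_lit 188) (nat_lit 131) (nat_lit 191))) (PT.nd (nat_lit 78) (PT.lf (nat_lit 17404) (nat_lit 6) (nat_lit 229) (nat_lit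 3) (nat_lit 189) (nat_lit 131) (nat_lit 190)) (PT.lf (nat_lit 17404) (nat_lit 6) (nat_lit 229) (nat_lit 1) (nat_lit 190) (nat_lit 131) (nat_lit 189))))) (PT.nd (nat_lit 52728) (PT.nd (nat_lit 156) (PT.nd (nat_lit 78) (PT.lf (nat_lit 17328) (nat_lit 6) (nat_lit 228) (nat_lit 1) (nat_lit 191) (nat_lit 131) (nat_lit 188)) (PT.lf (nat_lit 17252) (nat_lit 6) (nat_lit 227) (nat_lit 1) (nat_lit 192) (nat_lit 131) (nat_lit 187))) (PT.nd (nat_lit 52494) (PT.lf (nat_lit 17176) (nat_lit 6) (nat_lit 226) (nat_lit 1) (nat_lit 193) (nat_lit 131) (nat_lit 186)) (PT.lf (nat_lit 17480) (nat_lit 6) (nat_lit 230) (nat_lit 3) (nat_lit 185) (nat_lit 132) (nat_lit 193)))) (PT.nd (nat_lit 156) (PT.nd (nat_lit 78) (PT.lf (nat_lit 17556) (nat_lit 6) (nat_lit 231) (nat_lit 3) (nat_lit 186) (nat_lit 132) (nat_lit 192)) (PT.lf (nat_lit 17632) (nat_lit 6) (nat_lit 232) (nat_lit 3) (nat_lit 187) (nat_lit 132) (nat_lit 191)))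 (PT.nd (nat_lit 78) (PT.lf (nat_lit 17708) (nat_lit 6) (nat_lit 233) (nat_lit 3) (nat_lit 188) (nat_lit 132) (nat_lit 190)) (PT.nd (nat_lit 78) (PT.lf (nat_lit 17784) (nat_lit 3) (nat_lit 234) (nat_lit 1) (nat_lit 189) (nat_lit 132) (nat_lit 189)) (PT.lf (nat_lit 17708) (nat_lit 6) (nat_lit 233) (nat_lit 1) (nat_lit 190) (nat_lit 132) (nat_lit 188))))))) (PT.nd (nat_lit 53040) (PT.nd (nat_lit 52728) (PT.nd (nat_lit 156) (PT.nd (nat_lit 78) (PT.lf (nat_lit 17632) (nat_lit 6) (nat_lit 232) (nat_lit 1) (nat_lit 191) (nat_lit 132) (nat_lit 187)) (PT.lf (nat_lit 17556) (nat_lit 6) (nat_lit 231) (nat_lit 1) (nat_lit 192) (nat_lit 132) (nat_lit 186))) (PT.nd (nat_lit 52494) (PT.lf (nat_lit 17480) (nat_lit 6) (nat_lit 230) (nat_lit 1) (nat_lit 193) (nat_lit 132) (nat_lit 185)) (PT.lf (nat_lit 17860) (nat_lit 6) (nat_lit 235) (nat_lit 3) (nat_lit 185) (nat_lit 133) (nat_lit 192)))) (PT.nd (nat_lit 156) (PT.nd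 (nat_lit 78) (PT.lf (nat_lit 17936) (nat_lit 6) (nat_lit 236) (nat_lit 3) (nat_lit 186) (nat_lit 133) (nat_lit 191)) (PT.lf (nat_lit 18012) (nat_lit 6) (nat_lit 237) (nat_lit 3) (nat_lit 187) (nat_lit 133) (nat_lit 190))) (PT.nd (nat_lit 78) (PT.lf (nat_lit 18088) (nat_lit 6) (nat_lit 238) (nat_lit 3) (nat_lit 188) (nat_lit 133) (nat_lit 189)) (PT.lf (nat_lit 18088) (nat_lit 6) (nat_lit 238) (nat_lit 1) (nat_lit 189) (nat_lit 133) (nat_lit 188))))) (PT.nd (nat_lit 52728) (PT.nd (nat_lit 156) (PT.nd (nat_lit 78) (PT.lf (nat_lit 18012) (nat_lit 6) (nat_lit 237) (nat_lit 1) (nat_lit 190) (nat_lit 133) (nat_lit 187)) (PT.lf (nat_lit 17936) (nat_lit 6) (nat_lit 236) (nat_lit 1) (nat_lit 191) (nat_lit 133) (nat_lit 186))) (PT.nd (nat_lit 52494) (PT.lf (nat_lit 17860) (nat_lit 6) (nat_lit 235) (nat_lit 1) (nat_lit 192) (nat_lit 133) (nat_lit 185)) (PT.lf (nat_lit 18164) (nat_lit 6) (nat_lit 239) (nat_lit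 3) (nat_lit 184) (nat_lit 134) (nat_lit 192)))) (PT.nd (nat_lit 156) (PT.nd (nat_lit 78) (PT.lf (nat_lit 18240) (nat_lit 6) (nat_lit 240) (nat_lit 3) (nat_lit 185) (nat_lit 134) (nat_lit 191)) (PT.lf (nat_lit 18316) (nat_lit 6) (nat_lit 241) (nat_lit 3) (nat_lit 186) (nat_lit 134) (nat_lit 190))) (PT.nd (nat_lit 78) (PT.lf (nat_lit 18392) (nat_lit 6) (nat_lit 242) (nat_lit 3) (nat_lit 187) (nat_lit 134) (nat_lit 189)) (PT.nd (nat_lit 78) (PT.lf (nat_lit 18468) (nat_lit 3) (nat_lit 243) (nat_lit 1) (nat_lit 188) (nat_lit 134) (nat_lit 188)) (PT.lf (nat_lit 18392) (nat_lit 6) (nat_lit 242) (nat_lit 1) (nat_lit 189) (nat_lit 134) (nat_lit 187))))))))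
noncomputable def pc6 : PT := (PT.nd (nat_lit 106002) (PT.nd (nat_lit 52962) (PT.nd (nat_lit 52650) (PT.nd (nat_lit 156) (PT.nd (nat_lit 78) (PT.lf (nat_lit 18316) (nat_lit 6) (nat_lit 241) (nat_lit 1) (nat_lit 190) (nat_lit 134) (nat_lit 186)) (PT.lf (nat_lit 18240) (nat_lit 6) (nat_lit 240) (nat_lit 1) (nat_lit 191) (nat_lit 134) (nat_lit 185))) (PT.nd (nat_lit 52416) (PT.lf (nat_lit 18164) (nat_lit 6) (nat_lit 239) (nat_lit 1) (nat_lit 192) (nat_lit 134) (nat_lit 184)) (PT.lf (nat_lit 18544) (nat_lit 6) (nat_lit 244) (nat_lit 3) (nat_lit 183) (nat_lit 135) (nat_lit 192)))) (PT.nd (nat_lit 156) (PT.nd (nat_lit 78) (PT.lf (nat_lit 18620) (nat_lit 6) (nat_lit 245) (nat_lit 3) (nat_lit 184) (nat_lit 135) (nat_lit 191)) (PT.lf (nat_lit 18696) (nat_lit 6) (nat_lit 246) (nat_lit 3) (nat_lit 185) (nat_lit 135) (nat_lit 190))) (PT.nd (nat_lit 78) (PT.lf (nat_lit 18772) (nat_lit 6) (nat_lit 247) (nat_lit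 3) (nat_lit 186) (nat_lit 135) (nat_lit 189)) (PT.lf (nat_lit 18848) (nat_lit 6) (nat_lit 248) (nat_lit 3) (nat_lit 187) (nat_lit 135) (nat_lit 188))))) (PT.nd (nat_lit 312) (PT.nd (nat_lit 156) (PT.nd (nat_lit 78) (PT.lf (nat_lit 18848) (nat_lit 6) (nat_lit 248) (nat_lit 1) (nat_lit 188) (nat_lit 135) (nat_lit 187)) (PT.lf (nat_lit 18772) (nat_lit 6) (nat_lit 247) (nat_lit 1) (nat_lit 189) (nat_lit 135) (nat_lit 186))) (PT.nd (nat_lit 78) (PT.lf (nat_lit 18696) (nat_lit 6) (nat_lit 246) (nat_lit 1) (nat_lit 190) (nat_lit 135) (nat_lit 185)) (PT.lf (nat_lit 18620) (nat_lit 6) (nat_lit 245) (nat_lit 1) (nat_lit 191) (nat_lit 135) (nat_lit 184)))) (PT.nd (nat_lit 52494) (PT.nd (nat_lit 52416) (PT.lf (nat_lit 18544) (nat_lit 6) (nat_lit 244) (nat_lit 1) (nat_lit 192) (nat_lit 135) (nat_lit 183)) (PT.lf (nat_lit 18924) (nat_lit 6) (nat_lit 249) (nat_lit 3) (nat_lit 183) (nat_lit 136) (nat_lit 191)))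 (PT.nd (nat_lit 78) (PT.lf (nat_lit 19000) (nat_lit 6) (nat_lit 250) (nat_lit 3) (nat_lit 184) (nat_lit 136) (nat_lit 190)) (PT.nd (nat_lit 78) (PT.lf (nat_lit 19076) (nat_lit 6) (nat_lit 251) (nat_lit 3) (nat_lit 185) (nat_lit 136) (nat_lit 189)) (PT.lf (nat_lit 19152) (nat_lit 6) (nat_lit 252) (nat_lit 3) (nat_lit 186) (nat_lit 136) (nat_lit 188))))))) (PT.nd (nat_lit 52962) (PT.nd (nat_lit 312) (PT.nd (nat_lit 156) (PT.nd (nat_lit 78) (PT.lf (nat_lit 19228) (nat_lit 3) (nat_lit 253) (nat_lit 1) (nat_lit 187) (nat_lit 136) (nat_lit 187)) (PT.lf (nat_lit 19152) (nat_lit 6) (nat_lit 252) (nat_lit 1) (nat_lit 188) (nat_lit 136) (nat_lit 186))) (PT.nd (nat_lit 78) (PT.lf (nat_lit 19076) (nat_lit 6) (nat_lit 251) (nat_lit 1) (nat_lit 189) (nat_lit 136) (nat_lit 185)) (PT.lf (nat_lit 19000) (nat_lit 6) (nat_lit 250) (nat_lit 1) (nat_lit 190) (nat_lit 136) (nat_lit 184)))) (PT.nd (nat_lit 52494) (PT.nd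 (nat_lit 52416) (PT.lf (nat_lit 18924) (nat_lit 6) (nat_lit 249) (nat_lit 1) (nat_lit 191) (nat_lit 136) (nat_lit 183)) (PT.lf (nat_lit 19304) (nat_lit 6) (nat_lit 254) (nat_lit 3) (nat_lit 182) (nat_lit 137) (nat_lit 191))) (PT.nd (nat_lit 78) (PT.lf (nat_lit 19380) (nat_lit 6) (nat_lit 255) (nat_lit 3) (nat_lit 183) (nat_lit 137) (nat_lit 190)) (PT.lf (nat_lit 19456) (nat_lit 6) (nat_lit 256) (nat_lit 3) (nat_lit 184) (nat_lit 137) (nat_lit 189))))) (PT.nd (nat_lit 312) (PT.nd (nat_lit 156) (PT.nd (nat_lit 78) (PT.lf (nat_lit 19532) (nat_lit 6) (nat_lit 257) (nat_lit 3) (nat_lit 185) (nat_lit 137) (nat_lit 188)) (PT.lf (nat_lit 19608) (nat_lit 6) (nat_lit 258) (nat_lit 3) (nat_lit 186) (nat_lit 137) (nat_lit 187))) (PT.nd (nat_lit 78) (PT.lf (nat_lit 19608) (nat_lit 6) (nat_lit 258) (nat_lit 1) (nat_lit 187) (nat_lit 137) (nat_lit 186)) (PT.lf (nat_lit 19532) (nat_lit 6) (nat_lit 257) (nat_lit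 1) (nat_lit 188) (nat_lit 137) (nat_lit 185)))) (PT.nd (nat_lit 156) (PT.nd (nat_lit 78) (PT.lf (nat_lit 19456) (nat_lit 6) (nat_lit 256) (nat_lit 1) (nat_lit 189) (nat_lit 137) (nat_lit 184)) (PT.lf (nat_lit 19380) (nat_lit 6) (nat_lit 255) (nat_lit 1) (nat_lit 190) (nat_lit 137) (nat_lit 183))) (PT.nd (nat_lit 52338) (PT.lf (nat_lit 19304) (nat_lit 6) (nat_lit 254) (nat_lit 1) (nat_lit 191) (nat_lit 137) (nat_lit 182)) (PT.nd (nat_lit 78) (PT.lf (nat_lit 19684) (nat_lit 6) (nat_lit 259) (nat_lit 3) (nat_lit 181) (nat_lit 138) (nat_lit 191)) (PT.lf (nat_lit 19760) (nat_lit 6) (nat_lit 260) (nat_lit 3) (nat_lit 182) (nat_lit 138) (nat_lit 190))))))))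
noncomputable def pc7 : PT := (PT.nd (nat_lit 53586) (PT.nd (nat_lit 624) (PT.nd (nat_lit 312) (PT.nd (nat_lit 156) (PT.nd (nat_lit 78) (PT.lf (nat_lit 19836) (nat_lit 6) (nat_lit 261) (nat_lit 3) (nat_lit 183) (nat_lit 138) (nat_lit 189)) (PT.lf (nat_lit 19912) (nat_lit 6) (nat_lit 262) (nat_lit 3) (nat_lit 184) (nat_lit 138) (nat_lit 188))) (PT.nd (nat_lit 78) (PT.lf (nat_lit 19988) (nat_lit 6) (nat_lit 263) (nat_lit 3) (nat_lit 185) (nat_lit 138) (nat_lit 187)) (PT.lf (nat_lit 20064) (nat_lit 3) (nat_lit 264) (nat_lit 1) (nat_lit 186) (nat_lit 138) (nat_lit 186)))) (PT.nd (nat_lit 156) (PT.nd (nat_lit 78) (PT.lf (nat_lit 19988) (nat_lit 6) (nat_lit 263) (nat_lit 1) (nat_lit 187) (nat_lit 138) (nat_lit 185)) (PT.lf (nat_lit 19912) (nat_lit 6) (nat_lit 262) (nat_lit 1) (nat_lit 188) (nat_lit 138) (nat_lit 184))) (PT.nd (nat_lit 78) (PT.lf (nat_lit 19836) (nat_lit 6) (nat_lit 261) (nat_lit 1) (nat_lit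 189) (nat_lit 138) (nat_lit 183)) (PT.lf (nat_lit 19760) (nat_lit 6) (nat_lit 260) (nat_lit 1) (nat_lit 190) (nat_lit 138) (nat_lit 182))))) (PT.nd (nat_lit 52572) (PT.nd (nat_lit 52416) (PT.nd (nat_lit 52338) (PT.lf (nat_lit 19684) (nat_lit 6) (nat_lit 259) (nat_lit 1) (nat_lit 191) (nat_lit 138) (nat_lit 181)) (PT.lf (nat_lit 20140) (nat_lit 6) (nat_lit 265) (nat_lit 3) (nat_lit 181) (nat_lit 139) (nat_lit 190))) (PT.nd (nat_lit 78) (PT.lf (nat_lit 20216) (nat_lit 6) (nat_lit 266) (nat_lit 3) (nat_lit 182) (nat_lit 139) (nat_lit 189)) (PT.lf (nat_lit 20292) (nat_lit 6) (nat_lit 267) (nat_lit 3) (nat_lit 183) (nat_lit 139) (nat_lit 188)))) (PT.nd (nat_lit 156) (PT.nd (nat_lit 78) (PT.lf (nat_lit 20368) (nat_lit 6) (nat_lit 268) (nat_lit 3) (nat_lit 184) (nat_lit 139) (nat_lit 187)) (PT.lf (nat_lit 20444) (nat_lit 6) (nat_lit 269) (nat_lit 3) (nat_lit 185) (nat_lit 139) (nat_lit 186))) (PT.nd (nat_lit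 78) (PT.lf (nat_lit 20444) (nat_lit 6) (nat_lit 269) (nat_lit 1) (nat_lit 186) (nat_lit 139) (nat_lit 185)) (PT.nd (nat_lit 78) (PT.lf (nat_lit 20368) (nat_lit 6) (nat_lit 268) (nat_lit 1) (nat_lit 187) (nat_lit 139) (nat_lit 184)) (PT.lf (nat_lit 20292) (nat_lit 6) (nat_lit 267) (nat_lit 1) (nat_lit 188) (nat_lit 139) (nat_lit 183))))))) (PT.nd (nat_lit 52962) (PT.nd (nat_lit 52572) (PT.nd (nat_lit 52416) (PT.nd (nat_lit 78) (PT.lf (nat_lit 20216) (nat_lit 6) (nat_lit 266) (nat_lit 1) (nat_lit 189) (nat_lit 139) (nat_lit 182)) (PT.lf (nat_lit 20140) (nat_lit 6) (nat_lit 265) (nat_lit 1) (nat_lit 190) (nat_lit 139) (nat_lit 181))) (PT.nd (nat_lit 78) (PT.lf (nat_lit 20520) (nat_lit 6) (nat_lit 270) (nat_lit 3) (nat_lit 180) (nat_lit 140) (nat_lit 190)) (PT.lf (nat_lit 20596) (nat_lit 6) (nat_lit 271) (nat_lit 3) (nat_lit 181) (nat_lit 140) (nat_lit 189)))) (PT.nd (nat_lit 156) (PT.nd (nat_lit 78)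 (PT.lf (nat_lit 20672) (nat_lit 6) (nat_lit 272) (nat_lit 3) (nat_lit 182) (nat_lit 140) (nat_lit 188)) (PT.lf (nat_lit 20748) (nat_lit 6) (nat_lit 273) (nat_lit 3) (nat_lit 183) (nat_lit 140) (nat_lit 187))) (PT.nd (nat_lit 78) (PT.lf (nat_lit 20824) (nat_lit 6) (nat_lit 274) (nat_lit 3) (nat_lit 184) (nat_lit 140) (nat_lit 186)) (PT.nd (nat_lit 78) (PT.lf (nat_lit 20900) (nat_lit 3) (nat_lit 275) (nat_lit 1) (nat_lit 185) (nat_lit 140) (nat_lit 185)) (PT.lf (nat_lit 20824) (nat_lit 6) (nat_lit 274) (nat_lit 1) (nat_lit 186) (nat_lit 140) (nat_lit 184)))))) (PT.nd (nat_lit 52494) (PT.nd (nat_lit 156) (PT.nd (nat_lit 78) (PT.lf (nat_lit 20748) (nat_lit 6) (nat_lit 273) (nat_lit 1) (nat_lit 187) (nat_lit 140) (nat_lit 183)) (PT.lf (nat_lit 20672) (nat_lit 6) (nat_lit 272) (nat_lit 1) (nat_lit 188) (nat_lit 140) (nat_lit 182))) (PT.nd (nat_lit 78) (PT.lf (nat_lit 20596) (nat_lit 6) (nat_lit 271) (nat_lit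 1) (nat_lit 189) (nat_lit 140) (nat_lit 181)) (PT.lf (nat_lit 20520) (nat_lit 6) (nat_lit 270) (nat_lit 1) (nat_lit 190) (nat_lit 140) (nat_lit 180)))) (PT.nd (nat_lit 156) (PT.nd (nat_lit 78) (PT.lf (nat_lit 20976) (nat_lit 6) (nat_lit 276) (nat_lit 3) (nat_lit 179) (nat_lit 141) (nat_lit 190)) (PT.lf (nat_lit 21052) (nat_lit 6) (nat_lit 277) (nat_lit 3) (nat_lit 180) (nat_lit 141) (nat_lit 189))) (PT.nd (nat_lit 78) (PT.lf (nat_lit 21128) (nat_lit 6) (nat_lit 278) (nat_lit 3) (nat_lit 181) (nat_lit 141) (nat_lit 188)) (PT.nd (nat_lit 78) (PT.lf (nat_lit 21204) (nat_lit 6) (nat_lit 279) (nat_lit 3) (nat_lit 182) (nat_lit 141) (nat_lit 187)) (PT.lf (nat_lit 21280) (nat_lit 6) (nat_lit 280) (nat_lit 3) (nat_lit 183) (nat_lit 141) (nat_lit 186))))))))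
noncomputable def pc8 : PT := (PT.nd (nat_lit 53508) (PT.nd (nat_lit 52806) (PT.nd (nat_lit 312) (PT.nd (nat_lit 156) (PT.nd (nat_lit 78) (PT.lf (nat_lit 21356) (nat_lit 6) (nat_lit 281) (nat_lit 3) (nat_lit 184) (nat_lit 141) (nat_lit 185)) (PT.lf (nat_lit 21356) (nat_lit 6) (nat_lit 281) (nat_lit 1) (nat_lit 185) (nat_lit 141) (nat_lit 184))) (PT.nd (nat_lit 78) (PT.lf (nat_lit 21280) (nat_lit 6) (nat_lit 280) (nat_lit 1) (nat_lit 186) (nat_lit 141) (nat_lit 183)) (PT.lf (nat_lit 21204) (nat_lit 6) (nat_lit 279) (nat_lit 1) (nat_lit 187) (nat_lit 141) (nat_lit 182)))) (PT.nd (nat_lit 156) (PT.nd (nat_lit 78) (PT.lf (nat_lit 21128) (nat_lit 6) (nat_lit 278) (nat_lit 1) (nat_lit 188) (nat_lit 141) (nat_lit 181)) (PT.lf (nat_lit 21052) (nat_lit 6) (nat_lit 277) (nat_lit 1) (nat_lit 189) (nat_lit 141) (nat_lit 180))) (PT.nd (nat_lit 52260) (PT.lf (nat_lit 20976) (nat_lit 6) (nat_lit 276) (nat_lit 1)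 (nat_lit 190) (nat_lit 141) (nat_lit 179)) (PT.lf (nat_lit 21432) (nat_lit 6) (nat_lit 282) (nat_lit 3) (nat_lit 179) (nat_lit 142) (nat_lit 189))))) (PT.nd (nat_lit 312) (PT.nd (nat_lit 156) (PT.nd (nat_lit 78) (PT.lf (nat_lit 21508) (nat_lit 6) (nat_lit 283) (nat_lit 3) (nat_lit 180) (nat_lit 142) (nat_lit 188)) (PT.lf (nat_lit 21584) (nat_lit 6) (nat_lit 284) (nat_lit 3) (nat_lit 181) (nat_lit 142) (nat_lit 187))) (PT.nd (nat_lit 78) (PT.lf (nat_lit 21660) (nat_lit 6) (nat_lit 285) (nat_lit 3) (nat_lit 182) (nat_lit 142) (nat_lit 186)) (PT.lf (nat_lit 21736) (nat_lit 6) (nat_lit 286) (nat_lit 3) (nat_lit 183) (nat_lit 142) (nat_lit 185)))) (PT.nd (nat_lit 156) (PT.nd (nat_lit 78) (PT.lf (nat_lit 21812) (nat_lit 3) (nat_lit 287) (nat_lit 1) (nat_lit 184) (nat_lit 142) (nat_lit 184)) (PT.lf (nat_lit 21736) (nat_lit 6) (nat_lit 286) (nat_lit 1) (nat_lit 185) (nat_lit 142) (nat_lit 183))) (PT.nd (nat_lit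 78) (PT.lf (nat_lit 21660) (nat_lit 6) (nat_lit 285) (nat_lit 1) (nat_lit 186) (nat_lit 142) (nat_lit 182)) (PT.nd (nat_lit 78) (PT.lf (nat_lit 21584) (nat_lit 6) (nat_lit 284) (nat_lit 1) (nat_lit 187) (nat_lit 142) (nat_lit 181)) (PT.lf (nat_lit 21508) (nat_lit 6) (nat_lit 283) (nat_lit 1) (nat_lit 188) (nat_lit 142) (nat_lit 180))))))) (PT.nd (nat_lit 52806) (PT.nd (nat_lit 52494) (PT.nd (nat_lit 52338) (PT.nd (nat_lit 52260) (PT.lf (nat_lit 21432) (nat_lit 6) (nat_lit 282) (nat_lit 1) (nat_lit 189) (nat_lit 142) (nat_lit 179)) (PT.lf (nat_lit 21888) (nat_lit 6) (nat_lit 288) (nat_lit 3) (nat_lit 178) (nat_lit 143) (nat_lit 189))) (PT.nd (nat_lit 78) (PT.lf (nat_lit 21964) (nat_lit 6) (nat_lit 289) (nat_lit 3) (nat_lit 179) (nat_lit 143) (nat_lit 188)) (PT.lf (nat_lit 22040) (nat_lit 6) (nat_lit 290) (nat_lit 3) (nat_lit 180) (nat_lit 143) (nat_lit 187)))) (PT.nd (nat_lit 156) (PT.nd (nat_lit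 78) (PT.lf (nat_lit 22116) (nat_lit 6) (nat_lit 291) (nat_lit 3) (nat_lit 181) (nat_lit 143) (nat_lit 186)) (PT.lf (nat_lit 22192) (nat_lit 6) (nat_lit 292) (nat_lit 3) (nat_lit 182) (nat_lit 143) (nat_lit 185))) (PT.nd (nat_lit 78) (PT.lf (nat_lit 22268) (nat_lit 6) (nat_lit 293) (nat_lit 3) (nat_lit 183) (nat_lit 143) (nat_lit 184)) (PT.lf (nat_lit 22268) (nat_lit 6) (nat_lit 293) (nat_lit 1) (nat_lit 184) (nat_lit 143) (nat_lit 183))))) (PT.nd (nat_lit 312) (PT.nd (nat_lit 156) (PT.nd (nat_lit 78) (PT.lf (nat_lit 22192) (nat_lit 6) (nat_lit 292) (nat_lit 1) (nat_lit 185) (nat_lit 143) (nat_lit 182)) (PT.lf (nat_lit 22116) (nat_lit 6) (nat_lit 291) (nat_lit 1) (nat_lit 186) (nat_lit 143) (nat_lit 181))) (PT.nd (nat_lit 78) (PT.lf (nat_lit 22040) (nat_lit 6) (nat_lit 290) (nat_lit 1) (nat_lit 187) (nat_lit 143) (nat_lit 180)) (PT.lf (nat_lit 21964) (nat_lit 6) (nat_lit 289) (nat_lit 1) (nat_lit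 188) (nat_lit 143) (nat_lit 179)))) (PT.nd (nat_lit 52260) (PT.nd (nat_lit 52182) (PT.lf (nat_lit 21888) (nat_lit 6) (nat_lit 288) (nat_lit 1) (nat_lit 189) (nat_lit 143) (nat_lit 178)) (PT.lf (nat_lit 22344) (nat_lit 6) (nat_lit 294) (nat_lit 3) (nat_lit 177) (nat_lit 144) (nat_lit 189))) (PT.nd (nat_lit 78) (PT.lf (nat_lit 22420) (nat_lit 6) (nat_lit 295) (nat_lit 3) (nat_lit 178) (nat_lit 144) (nat_lit 188)) (PT.nd (nat_lit 78) (PT.lf (nat_lit 22496) (nat_lit 6) (nat_lit 296) (nat_lit 3) (nat_lit 179) (nat_lit 144) (nat_lit 187)) (PT.lf (nat_lit 22572) (nat_lit 6) (nat_lit 297) (nat_lit 3) (nat_lit 180) (nat_lit 144) (nat_lit 186))))))))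
noncomputable def pc9 : PT := (PT.nd (nat_lit 53352) (PT.nd (nat_lit 624) (PT.nd (nat_lit 312) (PT.nd (nat_lit 156) (PT.nd (nat_lit 78) (PT.lf (nat_lit 22648) (nat_lit 6) (nat_lit 298) (nat_lit 3) (nat_lit 181) (nat_lit 144) (nat_lit 185)) (PT.lf (nat_lit 22724) (nat_lit 6) (nat_lit 299) (nat_lit 3) (nat_lit 182) (nat_lit 144) (nat_lit 184))) (PT.nd (nat_lit 78) (PT.lf (nat_lit 22800) (nat_lit 3) (nat_lit 300) (nat_lit 1) (nat_lit 183) (nat_lit 144) (nat_lit 183)) (PT.lf (nat_lit 22724) (nat_lit 6) (nat_lit 299) (nat_lit 1) (nat_lit 184) (nat_lit 144) (nat_lit 182)))) (PT.nd (nat_lit 156) (PT.nd (nat_lit 78) (PT.lf (nat_lit 22648) (nat_lit 6) (nat_lit 298) (nat_lit 1) (nat_lit 185) (nat_lit 144) (nat_lit 181)) (PT.lf (nat_lit 22572) (nat_lit 6) (nat_lit 297) (nat_lit 1) (nat_lit 186) (nat_lit 144) (nat_lit 180))) (PT.nd (nat_lit 78) (PT.lf (nat_lit 22496) (nat_lit 6) (nat_lit 296) (nat_lit 1) (nat_lit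 187) (nat_lit 144) (nat_lit 179)) (PT.lf (nat_lit 22420) (nat_lit 6) (nat_lit 295) (nat_lit 1) (nat_lit 188) (nat_lit 144) (nat_lit 178))))) (PT.nd (nat_lit 52338) (PT.nd (nat_lit 52182) (PT.nd (nat_lit 52104) (PT.lf (nat_lit 22344) (nat_lit 6) (nat_lit 294) (nat_lit 1) (nat_lit 189) (nat_lit 144) (nat_lit 177)) (PT.lf (nat_lit 22876) (nat_lit 6) (nat_lit 301) (nat_lit 3) (nat_lit 176) (nat_lit 145) (nat_lit 189))) (PT.nd (nat_lit 78) (PT.lf (nat_lit 22952) (nat_lit 6) (nat_lit 302) (nat_lit 3) (nat_lit 177) (nat_lit 145) (nat_lit 188)) (PT.lf (nat_lit 23028) (nat_lit 6) (nat_lit 303) (nat_lit 3) (nat_lit 178) (nat_lit 145) (nat_lit 187)))) (PT.nd (nat_lit 156) (PT.nd (nat_lit 78) (PT.lf (nat_lit 23104) (nat_lit 6) (nat_lit 304) (nat_lit 3) (nat_lit 179) (nat_lit 145) (nat_lit 186)) (PT.lf (nat_lit 23180) (nat_lit 6) (nat_lit 305) (nat_lit 3) (nat_lit 180) (nat_lit 145) (nat_lit 185))) (PT.nd (nat_lit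 78) (PT.lf (nat_lit 23256) (nat_lit 6) (nat_lit 306) (nat_lit 3) (nat_lit 181) (nat_lit 145) (nat_lit 184)) (PT.nd (nat_lit 78) (PT.lf (nat_lit 23332) (nat_lit 6) (nat_lit 307) (nat_lit 3) (nat_lit 182) (nat_lit 145) (nat_lit 183)) (PT.lf (nat_lit 23332) (nat_lit 6) (nat_lit 307) (nat_lit 1) (nat_lit 183) (nat_lit 145) (nat_lit 182))))))) (PT.nd (nat_lit 52650) (PT.nd (nat_lit 312) (PT.nd (nat_lit 156) (PT.nd (nat_lit 78) (PT.lf (nat_lit 23256) (nat_lit 6) (nat_lit 306) (nat_lit 1) (nat_lit 184) (nat_lit 145) (nat_lit 181)) (PT.lf (nat_lit 23180) (nat_lit 6) (nat_lit 305) (nat_lit 1) (nat_lit 185) (nat_lit 145) (nat_lit 180))) (PT.nd (nat_lit 78) (PT.lf (nat_lit 23104) (nat_lit 6) (nat_lit 304) (nat_lit 1) (nat_lit 186) (nat_lit 145) (nat_lit 179)) (PT.lf (nat_lit 23028) (nat_lit 6) (nat_lit 303) (nat_lit 1) (nat_lit 187) (nat_lit 145) (nat_lit 178)))) (PT.nd (nat_lit 52182) (PT.nd (nat_lit 78) (PT.lf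 (nat_lit 22952) (nat_lit 6) (nat_lit 302) (nat_lit 1) (nat_lit 188) (nat_lit 145) (nat_lit 177)) (PT.lf (nat_lit 22876) (nat_lit 6) (nat_lit 301) (nat_lit 1) (nat_lit 189) (nat_lit 145) (nat_lit 176))) (PT.nd (nat_lit 78) (PT.lf (nat_lit 23408) (nat_lit 6) (nat_lit 308) (nat_lit 3) (nat_lit 176) (nat_lit 146) (nat_lit 188)) (PT.lf (nat_lit 23484) (nat_lit 6) (nat_lit 309) (nat_lit 3) (nat_lit 177) (nat_lit 146) (nat_lit 187))))) (PT.nd (nat_lit 312) (PT.nd (nat_lit 156) (PT.nd (nat_lit 78) (PT.lf (nat_lit 23560) (nat_lit 6) (nat_lit 310) (nat_lit 3) (nat_lit 178) (nat_lit 146) (nat_lit 186)) (PT.lf (nat_lit 23636) (nat_lit 6) (nat_lit 311) (nat_lit 3) (nat_lit 179) (nat_lit 146) (nat_lit 185))) (PT.nd (nat_lit 78) (PT.lf (nat_lit 23712) (nat_lit 6) (nat_lit 312) (nat_lit 3) (nat_lit 180) (nat_lit 146) (nat_lit 184)) (PT.lf (nat_lit 23788) (nat_lit 6) (nat_lit 313) (nat_lit 3) (nat_lit 181) (nat_lit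 146) (nat_lit 183)))) (PT.nd (nat_lit 156) (PT.nd (nat_lit 78) (PT.lf (nat_lit 23864) (nat_lit 3) (nat_lit 314) (nat_lit 1) (nat_lit 182) (nat_lit 146) (nat_lit 182)) (PT.lf (nat_lit 23788) (nat_lit 6) (nat_lit 313) (nat_lit 1) (nat_lit 183) (nat_lit 146) (nat_lit 181))) (PT.nd (nat_lit 78) (PT.lf (nat_lit 23712) (nat_lit 6) (nat_lit 312) (nat_lit 1) (nat_lit 184) (nat_lit 146) (nat_lit 180)) (PT.nd (nat_lit 78) (PT.lf (nat_lit 23636) (nat_lit 6) (nat_lit 311) (nat_lit 1) (nat_lit 185) (nat_lit 146) (nat_lit 179)) (PT.lf (nat_lit 23560) (nat_lit 6) (nat_lit 310) (nat_lit 1) (nat_lit 186) (nat_lit 146) (nat_lit 178))))))))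
noncomputable def pc10 : PT := (PT.nd (nat_lit 105300) (PT.nd (nat_lit 52650) (PT.nd (nat_lit 52338) (PT.nd (nat_lit 52182) (PT.nd (nat_lit 78) (PT.lf (nat_lit 23484) (nat_lit 6) (nat_lit 309) (nat_lit 1) (nat_lit 187) (nat_lit 146) (nat_lit 177)) (PT.lf (nat_lit 23408) (nat_lit 6) (nat_lit 308) (nat_lit 1) (nat_lit 188) (nat_lit 146) (nat_lit 176))) (PT.nd (nat_lit 78) (PT.lf (nat_lit 23940) (nat_lit 6) (nat_lit 315) (nat_lit 3) (nat_lit 175) (nat_lit 147) (nat_lit 188)) (PT.lf (nat_lit 24016) (nat_lit 6) (nat_lit 316) (nat_lit 3) (nat_lit 176) (nat_lit 147) (nat_lit 187)))) (PT.nd (nat_lit 156) (PT.nd (nat_lit 78) (PT.lf (nat_lit 24092) (nat_lit 6) (nat_lit 317) (nat_lit 3) (nat_lit 177) (nat_lit 147) (nat_lit 186)) (PT.lf (nat_lit 24168) (nat_lit 6) (nat_lit 318) (nat_lit 3) (nat_lit 178) (nat_lit 147) (nat_lit 185))) (PT.nd (nat_lit 78) (PT.lf (nat_lit 24244) (nat_lit 6) (nat_lit 319) (nat_lit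 3) (nat_lit 179) (nat_lit 147) (nat_lit 184)) (PT.lf (nat_lit 24320) (nat_lit 6) (nat_lit 320) (nat_lit 3) (nat_lit 180) (nat_lit 147) (nat_lit 183))))) (PT.nd (nat_lit 312) (PT.nd (nat_lit 156) (PT.nd (nat_lit 78) (PT.lf (nat_lit 24396) (nat_lit 6) (nat_lit 321) (nat_lit 3) (nat_lit 181) (nat_lit 147) (nat_lit 182)) (PT.lf (nat_lit 24396) (nat_lit 6) (nat_lit 321) (nat_lit 1) (nat_lit 182) (nat_lit 147) (nat_lit 181))) (PT.nd (nat_lit 78) (PT.lf (nat_lit 24320) (nat_lit 6) (nat_lit 320) (nat_lit 1) (nat_lit 183) (nat_lit 147) (nat_lit 180)) (PT.lf (nat_lit 24244) (nat_lit 6) (nat_lit 319) (nat_lit 1) (nat_lit 184) (nat_lit 147) (nat_lit 179)))) (PT.nd (nat_lit 156) (PT.nd (nat_lit 78) (PT.lf (nat_lit 24168) (nat_lit 6) (nat_lit 318) (nat_lit 1) (nat_lit 185) (nat_lit 147) (nat_lit 178)) (PT.lf (nat_lit 24092) (nat_lit 6) (nat_lit 317) (nat_lit 1) (nat_lit 186) (nat_lit 147) (nat_lit 177))) (PT.nd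 (nat_lit 78) (PT.lf (nat_lit 24016) (nat_lit 6) (nat_lit 316) (nat_lit 1) (nat_lit 187) (nat_lit 147) (nat_lit 176)) (PT.nd (nat_lit 52026) (PT.lf (nat_lit 23940) (nat_lit 6) (nat_lit 315) (nat_lit 1) (nat_lit 188) (nat_lit 147) (nat_lit 175)) (PT.lf (nat_lit 24472) (nat_lit 6) (nat_lit 322) (nat_lit 3) (nat_lit 174) (nat_lit 148) (nat_lit 188))))))) (PT.nd (nat_lit 624) (PT.nd (nat_lit 312) (PT.nd (nat_lit 156) (PT.nd (nat_lit 78) (PT.lf (nat_lit 24548) (nat_lit 6) (nat_lit 323) (nat_lit 3) (nat_lit 175) (nat_lit 148) (nat_lit 187)) (PT.lf (nat_lit 24624) (nat_lit 6) (nat_lit 324) (nat_lit 3) (nat_lit 176) (nat_lit 148) (nat_lit 186))) (PT.nd (nat_lit 78) (PT.lf (nat_lit 24700) (nat_lit 6) (nat_lit 325) (nat_lit 3) (nat_lit 177) (nat_lit 148) (nat_lit 185)) (PT.lf (nat_lit 24776) (nat_lit 6) (nat_lit 326) (nat_lit 3) (nat_lit 178) (nat_lit 148) (nat_lit 184)))) (PT.nd (nat_lit 156) (PT.nd (nat_lit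 78) (PT.lf (nat_lit 24852) (nat_lit 6) (nat_lit 327) (nat_lit 3) (nat_lit 179) (nat_lit 148) (nat_lit 183)) (PT.lf (nat_lit 24928) (nat_lit 6) (nat_lit 328) (nat_lit 3) (nat_lit 180) (nat_lit 148) (nat_lit 182))) (PT.nd (nat_lit 78) (PT.lf (nat_lit 25004) (nat_lit 3) (nat_lit 329) (nat_lit 1) (nat_lit 181) (nat_lit 148) (nat_lit 181)) (PT.lf (nat_lit 24928) (nat_lit 6) (nat_lit 328) (nat_lit 1) (nat_lit 182) (nat_lit 148) (nat_lit 180))))) (PT.nd (nat_lit 312) (PT.nd (nat_lit 156) (PT.nd (nat_lit 78) (PT.lf (nat_lit 24852) (nat_lit 6) (nat_lit 327) (nat_lit 1) (nat_lit 183) (nat_lit 148) (nat_lit 179)) (PT.lf (nat_lit 24776) (nat_lit 6) (nat_lit 326) (nat_lit 1) (nat_lit 184) (nat_lit 148) (nat_lit 178))) (PT.nd (nat_lit 78) (PT.lf (nat_lit 24700) (nat_lit 6) (nat_lit 325) (nat_lit 1) (nat_lit 185) (nat_lit 148) (nat_lit 177)) (PT.lf (nat_lit 24624) (nat_lit 6) (nat_lit 324) (nat_lit 1) (nat_lit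 186) (nat_lit 148) (nat_lit 176)))) (PT.nd (nat_lit 52026) (PT.nd (nat_lit 78) (PT.lf (nat_lit 24548) (nat_lit 6) (nat_lit 323) (nat_lit 1) (nat_lit 187) (nat_lit 148) (nat_lit 175)) (PT.lf (nat_lit 24472) (nat_lit 6) (nat_lit 322) (nat_lit 1) (nat_lit 188) (nat_lit 148) (nat_lit 174))) (PT.nd (nat_lit 78) (PT.lf (nat_lit 25080) (nat_lit 6) (nat_lit 330) (nat_lit 3) (nat_lit 173) (nat_lit 149) (nat_lit 188)) (PT.nd (nat_lit 78) (PT.lf (nat_lit 25156) (nat_lit 6) (nat_lit 331) (nat_lit 3) (nat_lit 174) (nat_lit 149) (nat_lit 187)) (PT.lf (nat_lit 25232) (nat_lit 6) (nat_lit 332) (nat_lit 3) (nat_lit 175) (nat_lit 149) (nat_lit 186))))))))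
noncomputable def pc11 : PT := (PT.nd (nat_lit 53196) (PT.nd (nat_lit 624) (PT.nd (nat_lit 312) (PT.nd (nat_lit 156) (PT.nd (nat_lit 78) (PT.lf (nat_lit 25308) (nat_lit 6) (nat_lit 333) (nat_lit 3) (nat_lit 176) (nat_lit 149) (nat_lit 185)) (PT.lf (nat_lit 25384) (nat_lit 6) (nat_lit 334) (nat_lit 3) (nat_lit 177) (nat_lit 149) (nat_lit 184))) (PT.nd (nat_lit 78) (PT.lf (nat_lit 25460) (nat_lit 6) (nat_lit 335) (nat_lit 3) (nat_lit 178) (nat_lit 149) (nat_lit 183)) (PT.lf (nat_lit 25536) (nat_lit 6) (nat_lit 336) (nat_lit 3) (nat_lit 179) (nat_lit 149) (nat_lit 182)))) (PT.nd (nat_lit 156) (PT.nd (nat_lit 78) (PT.lf (nat_lit 25612) (nat_lit 6) (nat_lit 337) (nat_lit 3) (nat_lit 180) (nat_lit 149) (nat_lit 181)) (PT.lf (nat_lit 25612) (nat_lit 6) (nat_lit 337) (nat_lit 1) (nat_lit 181) (nat_lit 149) (nat_lit 180))) (PT.nd (nat_lit 78) (PT.lf (nat_lit 25536) (nat_lit 6) (nat_lit 336) (nat_lit 1) (nat_lit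 182) (nat_lit 149) (nat_lit 179)) (PT.lf (nat_lit 25460) (nat_lit 6) (nat_lit 335) (nat_lit 1) (nat_lit 183) (nat_lit 149) (nat_lit 178))))) (PT.nd (nat_lit 312) (PT.nd (nat_lit 156) (PT.nd (nat_lit 78) (PT.lf (nat_lit 25384) (nat_lit 6) (nat_lit 334) (nat_lit 1) (nat_lit 184) (nat_lit 149) (nat_lit 177)) (PT.lf (nat_lit 25308) (nat_lit 6) (nat_lit 333) (nat_lit 1) (nat_lit 185) (nat_lit 149) (nat_lit 176))) (PT.nd (nat_lit 78) (PT.lf (nat_lit 25232) (nat_lit 6) (nat_lit 332) (nat_lit 1) (nat_lit 186) (nat_lit 149) (nat_lit 175)) (PT.lf (nat_lit 25156) (nat_lit 6) (nat_lit 331) (nat_lit 1) (nat_lit 187) (nat_lit 149) (nat_lit 174)))) (PT.nd (nat_lit 52026) (PT.nd (nat_lit 51948) (PT.lf (nat_lit 25080) (nat_lit 6) (nat_lit 330) (nat_lit 1) (nat_lit 188) (nat_lit 149) (nat_lit 173)) (PT.lf (nat_lit 25688) (nat_lit 6) (nat_lit 338) (nat_lit 3) (nat_lit 173) (nat_lit 150) (nat_lit 187))) (PT.nd (nat_lit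 78) (PT.lf (nat_lit 25764) (nat_lit 6) (nat_lit 339) (nat_lit 3) (nat_lit 174) (nat_lit 150) (nat_lit 186)) (PT.nd (nat_lit 78) (PT.lf (nat_lit 25840) (nat_lit 6) (nat_lit 340) (nat_lit 3) (nat_lit 175) (nat_lit 150) (nat_lit 185)) (PT.lf (nat_lit 25916) (nat_lit 6) (nat_lit 341) (nat_lit 3) (nat_lit 176) (nat_lit 150) (nat_lit 184))))))) (PT.nd (nat_lit 702) (PT.nd (nat_lit 312) (PT.nd (nat_lit 156) (PT.nd (nat_lit 78) (PT.lf (nat_lit 25992) (nat_lit 6) (nat_lit 342) (nat_lit 3) (nat_lit 177) (nat_lit 150) (nat_lit 183)) (PT.lf (nat_lit 26068) (nat_lit 6) (nat_lit 343) (nat_lit 3) (nat_lit 178) (nat_lit 150) (nat_lit 182))) (PT.nd (nat_lit 78) (PT.lf (nat_lit 26144) (nat_lit 6) (nat_lit 344) (nat_lit 3) (nat_lit 179) (nat_lit 150) (nat_lit 181)) (PT.lf (nat_lit 26220) (nat_lit 3) (nat_lit 345) (nat_lit 1) (nat_lit 180) (nat_lit 150) (nat_lit 180)))) (PT.nd (nat_lit 156) (PT.nd (nat_lit 78) (PT.lf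 (nat_lit 26144) (nat_lit 6) (nat_lit 344) (nat_lit 1) (nat_lit 181) (nat_lit 150) (nat_lit 179)) (PT.lf (nat_lit 26068) (nat_lit 6) (nat_lit 343) (nat_lit 1) (nat_lit 182) (nat_lit 150) (nat_lit 178))) (PT.nd (nat_lit 78) (PT.lf (nat_lit 25992) (nat_lit 6) (nat_lit 342) (nat_lit 1) (nat_lit 183) (nat_lit 150) (nat_lit 177)) (PT.nd (nat_lit 78) (PT.lf (nat_lit 25916) (nat_lit 6) (nat_lit 341) (nat_lit 1) (nat_lit 184) (nat_lit 150) (nat_lit 176)) (PT.lf (nat_lit 25840) (nat_lit 6) (nat_lit 340) (nat_lit 1) (nat_lit 185) (nat_lit 150) (nat_lit 175)))))) (PT.nd (nat_lit 52182) (PT.nd (nat_lit 52026) (PT.nd (nat_lit 78) (PT.lf (nat_lit 25764) (nat_lit 6) (nat_lit 339) (nat_lit 1) (nat_lit 186) (nat_lit 150) (nat_lit 174)) (PT.lf (nat_lit 25688) (nat_lit 6) (nat_lit 338) (nat_lit 1) (nat_lit 187) (nat_lit 150) (nat_lit 173))) (PT.nd (nat_lit 78) (PT.lf (nat_lit 26296) (nat_lit 6) (nat_lit 346) (nat_lit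 3) (nat_lit 172) (nat_lit 151) (nat_lit 187)) (PT.lf (nat_lit 26372) (nat_lit 6) (nat_lit 347) (nat_lit 3) (nat_lit 173) (nat_lit 151) (nat_lit 186)))) (PT.nd (nat_lit 156) (PT.nd (nat_lit 78) (PT.lf (nat_lit 26448) (nat_lit 6) (nat_lit 348) (nat_lit 3) (nat_lit 174) (nat_lit 151) (nat_lit 185)) (PT.lf (nat_lit 26524) (nat_lit 6) (nat_lit 349) (nat_lit 3) (nat_lit 175) (nat_lit 151) (nat_lit 184))) (PT.nd (nat_lit 78) (PT.lf (nat_lit 26600) (nat_lit 6) (nat_lit 350) (nat_lit 3) (nat_lit 176) (nat_lit 151) (nat_lit 183)) (PT.nd (nat_lit 78) (PT.lf (nat_lit 26676) (nat_lit 6) (nat_lit 351) (nat_lit 3) (nat_lit 177) (nat_lit 151) (nat_lit 182)) (PT.lf (nat_lit 26752) (nat_lit 6) (nat_lit 352) (nat_lit 3) (nat_lit 178) (nat_lit 151) (nat_lit 181))))))))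
noncomputable def pc12 : PT := (PT.nd (nat_lit 53118) (PT.nd (nat_lit 624) (PT.nd (nat_lit 312) (PT.nd (nat_lit 156) (PT.nd (nat_lit 78) (PT.lf (nat_lit 26828) (nat_lit 6) (nat_lit 353) (nat_lit 3) (nat_lit 179) (nat_lit 151) (nat_lit 180)) (PT.lf (nat_lit 26828) (nat_lit 6) (nat_lit 353) (nat_lit 1) (nat_lit 180) (nat_lit 151) (nat_lit 179))) (PT.nd (nat_lit 78) (PT.lf (nat_lit 26752) (nat_lit 6) (nat_lit 352) (nat_lit 1) (nat_lit 181) (nat_lit 151) (nat_lit 178)) (PT.lf (nat_lit 26676) (nat_lit 6) (nat_lit 351) (nat_lit 1) (nat_lit 182) (nat_lit 151) (nat_lit 177)))) (PT.nd (nat_lit 156) (PT.nd (nat_lit 78) (PT.lf (nat_lit 26600) (nat_lit 6) (nat_lit 350) (nat_lit 1) (nat_lit 183) (nat_lit 151) (nat_lit 176)) (PT.lf (nat_lit 26524) (nat_lit 6) (nat_lit 349) (nat_lit 1) (nat_lit 184) (nat_lit 151) (nat_lit 175))) (PT.nd (nat_lit 78) (PT.lf (nat_lit 26448) (nat_lit 6) (nat_lit 348) (nat_lit 1) (nat_lit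 185) (nat_lit 151) (nat_lit 174)) (PT.lf (nat_lit 26372) (nat_lit 6) (nat_lit 347) (nat_lit 1) (nat_lit 186) (nat_lit 151) (nat_lit 173))))) (PT.nd (nat_lit 52104) (PT.nd (nat_lit 51948) (PT.nd (nat_lit 51870) (PT.lf (nat_lit 26296) (nat_lit 6) (nat_lit 346) (nat_lit 1) (nat_lit 187) (nat_lit 151) (nat_lit 172)) (PT.lf (nat_lit 26904) (nat_lit 6) (nat_lit 354) (nat_lit 3) (nat_lit 171) (nat_lit 152) (nat_lit 187))) (PT.nd (nat_lit 78) (PT.lf (nat_lit 26980) (nat_lit 6) (nat_lit 355) (nat_lit 3) (nat_lit 172) (nat_lit 152) (nat_lit 186)) (PT.lf (nat_lit 27056) (nat_lit 6) (nat_lit 356) (nat_lit 3) (nat_lit 173) (nat_lit 152) (nat_lit 185)))) (PT.nd (nat_lit 156) (PT.nd (nat_lit 78) (PT.lf (nat_lit 27132) (nat_lit 6) (nat_lit 357) (nat_lit 3) (nat_lit 174) (nat_lit 152) (nat_lit 184)) (PT.lf (nat_lit 27208) (nat_lit 6) (nat_lit 358) (nat_lit 3) (nat_lit 175) (nat_lit 152) (nat_lit 183))) (PT.nd (nat_lit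 78) (PT.lf (nat_lit 27284) (nat_lit 6) (nat_lit 359) (nat_lit 3) (nat_lit 176) (nat_lit 152) (nat_lit 182)) (PT.nd (nat_lit 78) (PT.lf (nat_lit 27360) (nat_lit 6) (nat_lit 360) (nat_lit 3) (nat_lit 177) (nat_lit 152) (nat_lit 181)) (PT.lf (nat_lit 27436) (nat_lit 6) (nat_lit 361) (nat_lit 3) (nat_lit 178) (nat_lit 152) (nat_lit 180))))))) (PT.nd (nat_lit 624) (PT.nd (nat_lit 312) (PT.nd (nat_lit 156) (PT.nd (nat_lit 78) (PT.lf (nat_lit 27512) (nat_lit 3) (nat_lit 362) (nat_lit 1) (nat_lit 179) (nat_lit 152) (nat_lit 179)) (PT.lf (nat_lit 27436) (nat_lit 6) (nat_lit 361) (nat_lit 1) (nat_lit 180) (nat_lit 152) (nat_lit 178))) (PT.nd (nat_lit 78) (PT.lf (nat_lit 27360) (nat_lit 6) (nat_lit 360) (nat_lit 1) (nat_lit 181) (nat_lit 152) (nat_lit 177)) (PT.lf (nat_lit 27284) (nat_lit 6) (nat_lit 359) (nat_lit 1) (nat_lit 182) (nat_lit 152) (nat_lit 176)))) (PT.nd (nat_lit 156) (PT.nd (nat_lit 78) (PT.lf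 (nat_lit 27208) (nat_lit 6) (nat_lit 358) (nat_lit 1) (nat_lit 183) (nat_lit 152) (nat_lit 175)) (PT.lf (nat_lit 27132) (nat_lit 6) (nat_lit 357) (nat_lit 1) (nat_lit 184) (nat_lit 152) (nat_lit 174))) (PT.nd (nat_lit 78) (PT.lf (nat_lit 27056) (nat_lit 6) (nat_lit 356) (nat_lit 1) (nat_lit 185) (nat_lit 152) (nat_lit 173)) (PT.lf (nat_lit 26980) (nat_lit 6) (nat_lit 355) (nat_lit 1) (nat_lit 186) (nat_lit 152) (nat_lit 172))))) (PT.nd (nat_lit 52026) (PT.nd (nat_lit 51870) (PT.nd (nat_lit 51792) (PT.lf (nat_lit 26904) (nat_lit 6) (nat_lit 354) (nat_lit 1) (nat_lit 187) (nat_lit 152) (nat_lit 171)) (PT.lf (nat_lit 27740) (nat_lit 6) (nat_lit 365) (nat_lit 3) (nat_lit 170) (nat_lit 153) (nat_lit 187))) (PT.nd (nat_lit 78) (PT.lf (nat_lit 27816) (nat_lit 6) (nat_lit 366) (nat_lit 3) (nat_lit 171) (nat_lit 153) (nat_lit 186)) (PT.lf (nat_lit 27892) (nat_lit 6) (nat_lit 367) (nat_lit 3) (nat_lit 172)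 (nat_lit 153) (nat_lit 185)))) (PT.nd (nat_lit 156) (PT.nd (nat_lit 78) (PT.lf (nat_lit 27968) (nat_lit 6) (nat_lit 368) (nat_lit 3) (nat_lit 173) (nat_lit 153) (nat_lit 184)) (PT.lf (nat_lit 28044) (nat_lit 6) (nat_lit 369) (nat_lit 3) (nat_lit 174) (nat_lit 153) (nat_lit 183))) (PT.nd (nat_lit 78) (PT.lf (nat_lit 28120) (nat_lit 6) (nat_lit 370) (nat_lit 3) (nat_lit 175) (nat_lit 153) (nat_lit 182)) (PT.nd (nat_lit 78) (PT.lf (nat_lit 28196) (nat_lit 6) (nat_lit 371) (nat_lit 3) (nat_lit 176) (nat_lit 153) (nat_lit 181)) (PT.lf (nat_lit 28272) (nat_lit 6) (nat_lit 372) (nat_lit 3) (nat_lit 177) (nat_lit 153) (nat_lit 180))))))))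
noncomputable def pc13 : PT := (PT.nd (nat_lit 52962) (PT.nd (nat_lit 624) (PT.nd (nat_lit 312) (PT.nd (nat_lit 156) (PT.nd (nat_lit 78) (PT.lf (nat_lit 28348) (nat_lit 6) (nat_lit 373) (nat_lit 3) (nat_lit 178) (nat_lit 153) (nat_lit 179)) (PT.lf (nat_lit 28348) (nat_lit 6) (nat_lit 373) (nat_lit 1) (nat_lit 179) (nat_lit 153) (nat_lit 178))) (PT.nd (nat_lit 78) (PT.lf (nat_lit 28272) (nat_lit 6) (nat_lit 372) (nat_lit 1) (nat_lit 180) (nat_lit 153) (nat_lit 177)) (PT.lf (nat_lit 28196) (nat_lit 6) (nat_lit 371) (nat_lit 1) (nat_lit 181) (nat_lit 153) (nat_lit 176)))) (PT.nd (nat_lit 156) (PT.nd (nat_lit 78) (PT.lf (nat_lit 28120) (nat_lit 6) (nat_lit 370) (nat_lit 1) (nat_lit 182) (nat_lit 153) (nat_lit 175)) (PT.lf (nat_lit 28044) (nat_lit 6) (nat_lit 369) (nat_lit 1) (nat_lit 183) (nat_lit 153) (nat_lit 174))) (PT.nd (nat_lit 78) (PT.lf (nat_lit 27968) (nat_lit 6) (nat_lit 368) (nat_lit 1) (nat_lit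 184) (nat_lit 153) (nat_lit 173)) (PT.lf (nat_lit 27892) (nat_lit 6) (nat_lit 367) (nat_lit 1) (nat_lit 185) (nat_lit 153) (nat_lit 172))))) (PT.nd (nat_lit 51948) (PT.nd (nat_lit 51792) (PT.nd (nat_lit 78) (PT.lf (nat_lit 27816) (nat_lit 6) (nat_lit 366) (nat_lit 1) (nat_lit 186) (nat_lit 153) (nat_lit 171)) (PT.lf (nat_lit 27740) (nat_lit 6) (nat_lit 365) (nat_lit 1) (nat_lit 187) (nat_lit 153) (nat_lit 170))) (PT.nd (nat_lit 78) (PT.lf (nat_lit 27664) (nat_lit 6) (nat_lit 364) (nat_lit 3) (nat_lit 169) (nat_lit 154) (nat_lit 187)) (PT.lf (nat_lit 29032) (nat_lit 6) (nat_lit 382) (nat_lit 3) (nat_lit 170) (nat_lit 154) (nat_lit 186)))) (PT.nd (nat_lit 156) (PT.nd (nat_lit 78) (PT.lf (nat_lit 29108) (nat_lit 6) (nat_lit 383) (nat_lit 3) (nat_lit 171) (nat_lit 154) (nat_lit 185)) (PT.lf (nat_lit 29184) (nat_lit 6) (nat_lit 384) (nat_lit 3) (nat_lit 172) (nat_lit 154) (nat_lit 184))) (PT.nd (nat_lit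 78) (PT.lf (nat_lit 29260) (nat_lit 6) (nat_lit 385) (nat_lit 3) (nat_lit 173) (nat_lit 154) (nat_lit 183)) (PT.nd (nat_lit 78) (PT.lf (nat_lit 29336) (nat_lit 6) (nat_lit 386) (nat_lit 3) (nat_lit 174) (nat_lit 154) (nat_lit 182)) (PT.lf (nat_lit 29412) (nat_lit 6) (nat_lit 387) (nat_lit 3) (nat_lit 175) (nat_lit 154) (nat_lit 181))))))) (PT.nd (nat_lit 624) (PT.nd (nat_lit 312) (PT.nd (nat_lit 156) (PT.nd (nat_lit 78) (PT.lf (nat_lit 29488) (nat_lit 6) (nat_lit 388) (nat_lit 3) (nat_lit 176) (nat_lit 154) (nat_lit 180)) (PT.lf (nat_lit 29564) (nat_lit 6) (nat_lit 389) (nat_lit 3) (nat_lit 177) (nat_lit 154) (nat_lit 179))) (PT.nd (nat_lit 78) (PT.lf (nat_lit 29640) (nat_lit 3) (nat_lit 390) (nat_lit 1) (nat_lit 178) (nat_lit 154) (nat_lit 178)) (PT.lf (nat_lit 29564) (nat_lit 6) (nat_lit 389) (nat_lit 1) (nat_lit 179) (nat_lit 154) (nat_lit 177)))) (PT.nd (nat_lit 156) (PT.nd (nat_lit 78) (PT.lf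 (nat_lit 29488) (nat_lit 6) (nat_lit 388) (nat_lit 1) (nat_lit 180) (nat_lit 154) (nat_lit 176)) (PT.lf (nat_lit 29412) (nat_lit 6) (nat_lit 387) (nat_lit 1) (nat_lit 181) (nat_lit 154) (nat_lit 175))) (PT.nd (nat_lit 78) (PT.lf (nat_lit 29336) (nat_lit 6) (nat_lit 386) (nat_lit 1) (nat_lit 182) (nat_lit 154) (nat_lit 174)) (PT.lf (nat_lit 29260) (nat_lit 6) (nat_lit 385) (nat_lit 1) (nat_lit 183) (nat_lit 154) (nat_lit 173))))) (PT.nd (nat_lit 51870) (PT.nd (nat_lit 156) (PT.nd (nat_lit 78) (PT.lf (nat_lit 29184) (nat_lit 6) (nat_lit 384) (nat_lit 1) (nat_lit 184) (nat_lit 154) (nat_lit 172)) (PT.lf (nat_lit 29108) (nat_lit 6) (nat_lit 383) (nat_lit 1) (nat_lit 185) (nat_lit 154) (nat_lit 171))) (PT.nd (nat_lit 78) (PT.lf (nat_lit 29032) (nat_lit 6) (nat_lit 382) (nat_lit 1) (nat_lit 186) (nat_lit 154) (nat_lit 170)) (PT.lf (nat_lit 27664) (nat_lit 6) (nat_lit 364) (nat_lit 1) (nat_lit 187) (nat_lit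 154) (nat_lit 169)))) (PT.nd (nat_lit 156) (PT.nd (nat_lit 78) (PT.lf (nat_lit 27588) (nat_lit 6) (nat_lit 363) (nat_lit 3) (nat_lit 168) (nat_lit 155) (nat_lit 187)) (PT.lf (nat_lit 28956) (nat_lit 6) (nat_lit 381) (nat_lit 3) (nat_lit 169) (nat_lit 155) (nat_lit 186))) (PT.nd (nat_lit 78) (PT.lf (nat_lit 30248) (nat_lit 6) (nat_lit 398) (nat_lit 3) (nat_lit 170) (nat_lit 155) (nat_lit 185)) (PT.nd (nat_lit 78) (PT.lf (nat_lit 30324) (nat_lit 6) (nat_lit 399) (nat_lit 3) (nat_lit 171) (nat_lit 155) (nat_lit 184)) (PT.lf (nat_lit 30400) (nat_lit 6) (nat_lit 400) (nat_lit 3) (nat_lit 172) (nat_lit 155) (nat_lit 183))))))))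
noncomputable def pc14 : PT := (PT.nd (nat_lit 52884) (PT.nd (nat_lit 624) (PT.nd (nat_lit 312) (PT.nd (nat_lit 156) (PT.nd (nat_lit 78) (PT.lf (nat_lit 30476) (nat_lit 6) (nat_lit 401) (nat_lit 3) (nat_lit 173) (nat_lit 155) (nat_lit 182)) (PT.lf (nat_lit 30552) (nat_lit 6) (nat_lit 402) (nat_lit 3) (nat_lit 174) (nat_lit 155) (nat_lit 181))) (PT.nd (nat_lit 78) (PT.lf (nat_lit 30628) (nat_lit 6) (nat_lit 403) (nat_lit 3) (nat_lit 175) (nat_lit 155) (nat_lit 180)) (PT.lf (nat_lit 30704) (nat_lit 6) (nat_lit 404) (nat_lit 3) (nat_lit 176) (nat_lit 155) (nat_lit 179)))) (PT.nd (nat_lit 156) (PT.nd (nat_lit 78) (PT.lf (nat_lit 30780) (nat_lit 6) (nat_lit 405) (nat_lit 3) (nat_lit 177) (nat_lit 155) (nat_lit 178)) (PT.lf (nat_lit 30780) (nat_lit 6) (nat_lit 405) (nat_lit 1) (nat_lit 178) (nat_lit 155) (nat_lit 177))) (PT.nd (nat_lit 78) (PT.lf (nat_lit 30704) (nat_lit 6) (nat_lit 404) (nat_lit 1) (nat_lit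 179) (nat_lit 155) (nat_lit 176)) (PT.lf (nat_lit 30628) (nat_lit 6) (nat_lit 403) (nat_lit 1) (nat_lit 180) (nat_lit 155) (nat_lit 175))))) (PT.nd (nat_lit 312) (PT.nd (nat_lit 156) (PT.nd (nat_lit 78) (PT.lf (nat_lit 30552) (nat_lit 6) (nat_lit 402) (nat_lit 1) (nat_lit 181) (nat_lit 155) (nat_lit 174)) (PT.lf (nat_lit 30476) (nat_lit 6) (nat_lit 401) (nat_lit 1) (nat_lit 182) (nat_lit 155) (nat_lit 173))) (PT.nd (nat_lit 78) (PT.lf (nat_lit 30400) (nat_lit 6) (nat_lit 400) (nat_lit 1) (nat_lit 183) (nat_lit 155) (nat_lit 172)) (PT.lf (nat_lit 30324) (nat_lit 6) (nat_lit 399) (nat_lit 1) (nat_lit 184) (nat_lit 155) (nat_lit 171)))) (PT.nd (nat_lit 156) (PT.nd (nat_lit 78) (PT.lf (nat_lit 30248) (nat_lit 6) (nat_lit 398) (nat_lit 1) (nat_lit 185) (nat_lit 155) (nat_lit 170)) (PT.lf (nat_lit 28956) (nat_lit 6) (nat_lit 381) (nat_lit 1) (nat_lit 186) (nat_lit 155) (nat_lit 169))) (PT.nd (nat_lit 51636)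 (PT.lf (nat_lit 27588) (nat_lit 6) (nat_lit 363) (nat_lit 1) (nat_lit 187) (nat_lit 155) (nat_lit 168)) (PT.nd (nat_lit 78) (PT.lf (nat_lit 28880) (nat_lit 6) (nat_lit 380) (nat_lit 3) (nat_lit 168) (nat_lit 156) (nat_lit 186)) (PT.lf (nat_lit 30172) (nat_lit 6) (nat_lit 397) (nat_lit 3) (nat_lit 169) (nat_lit 156) (nat_lit 185))))))) (PT.nd (nat_lit 624) (PT.nd (nat_lit 312) (PT.nd (nat_lit 156) (PT.nd (nat_lit 78) (PT.lf (nat_lit 31388) (nat_lit 6) (nat_lit 413) (nat_lit 3) (nat_lit 170) (nat_lit 156) (nat_lit 184)) (PT.lf (nat_lit 31464) (nat_lit 6) (nat_lit 414) (nat_lit 3) (nat_lit 171) (nat_lit 156) (nat_lit 183))) (PT.nd (nat_lit 78) (PT.lf (nat_lit 31540) (nat_lit 6) (nat_lit 415) (nat_lit 3) (nat_lit 172) (nat_lit 156) (nat_lit 182)) (PT.lf (nat_lit 31616) (nat_lit 6) (nat_lit 416) (nat_lit 3) (nat_lit 173) (nat_lit 156) (nat_lit 181)))) (PT.nd (nat_lit 156) (PT.nd (nat_lit 78) (PT.lf (nat_lit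 31692) (nat_lit 6) (nat_lit 417) (nat_lit 3) (nat_lit 174) (nat_lit 156) (nat_lit 180)) (PT.lf (nat_lit 31768) (nat_lit 6) (nat_lit 418) (nat_lit 3) (nat_lit 175) (nat_lit 156) (nat_lit 179))) (PT.nd (nat_lit 78) (PT.lf (nat_lit 31844) (nat_lit 6) (nat_lit 419) (nat_lit 3) (nat_lit 176) (nat_lit 156) (nat_lit 178)) (PT.lf (nat_lit 31920) (nat_lit 3) (nat_lit 420) (nat_lit 1) (nat_lit 177) (nat_lit 156) (nat_lit 177))))) (PT.nd (nat_lit 312) (PT.nd (nat_lit 156) (PT.nd (nat_lit 78) (PT.lf (nat_lit 31844) (nat_lit 6) (nat_lit 419) (nat_lit 1) (nat_lit 178) (nat_lit 156) (nat_lit 176)) (PT.lf (nat_lit 31768) (nat_lit 6) (nat_lit 418) (nat_lit 1) (nat_lit 179) (nat_lit 156) (nat_lit 175))) (PT.nd (nat_lit 78) (PT.lf (nat_lit 31692) (nat_lit 6) (nat_lit 417) (nat_lit 1) (nat_lit 180) (nat_lit 156) (nat_lit 174)) (PT.lf (nat_lit 31616) (nat_lit 6) (nat_lit 416) (nat_lit 1) (nat_lit 181) (nat_lit 156) (nat_lit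 173)))) (PT.nd (nat_lit 156) (PT.nd (nat_lit 78) (PT.lf (nat_lit 31540) (nat_lit 6) (nat_lit 415) (nat_lit 1) (nat_lit 182) (nat_lit 156) (nat_lit 172)) (PT.lf (nat_lit 31464) (nat_lit 6) (nat_lit 414) (nat_lit 1) (nat_lit 183) (nat_lit 156) (nat_lit 171))) (PT.nd (nat_lit 78) (PT.lf (nat_lit 31388) (nat_lit 6) (nat_lit 413) (nat_lit 1) (nat_lit 184) (nat_lit 156) (nat_lit 170)) (PT.nd (nat_lit 78) (PT.lf (nat_lit 30172) (nat_lit 6) (nat_lit 397) (nat_lit 1) (nat_lit 185) (nat_lit 156) (nat_lit 169)) (PT.lf (nat_lit 28880) (nat_lit 6) (nat_lit 380) (nat_lit 1) (nat_lit 186) (nat_lit 156) (nat_lit 168))))))))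
noncomputable def pc15 : PT := (PT.nd (nat_lit 1326) (PT.nd (nat_lit 624) (PT.nd (nat_lit 312) (PT.nd (nat_lit 156) (PT.nd (nat_lit 78) (PT.lf (nat_lit 28804) (nat_lit 6) (nat_lit 379) (nat_lit 3) (nat_lit 167) (nat_lit 157) (nat_lit 186)) (PT.lf (nat_lit 30096) (nat_lit 6) (nat_lit 396) (nat_lit 3) (nat_lit 168) (nat_lit 157) (nat_lit 185))) (PT.nd (nat_lit 78) (PT.lf (nat_lit 31312) (nat_lit 6) (nat_lit 412) (nat_lit 3) (nat_lit 169) (nat_lit 157) (nat_lit 184)) (PT.lf (nat_lit 32452) (nat_lit 6) (nat_lit 427) (nat_lit 3) (nat_lit 170) (nat_lit 157) (nat_lit 183)))) (PT.nd (nat_lit 156) (PT.nd (nat_lit 78) (PT.lf (nat_lit 32528) (nat_lit 6) (nat_lit 428) (nat_lit 3) (nat_lit 171) (nat_lit 157) (nat_lit 182)) (PT.lf (nat_lit 32604) (nat_lit 6) (nat_lit 429) (nat_lit 3) (nat_lit 172) (nat_lit 157) (nat_lit 181))) (PT.nd (nat_lit 78) (PT.lf (nat_lit 32680) (nat_lit 6) (nat_lit 430) (nat_lit 3) (nat_lit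 173) (nat_lit 157) (nat_lit 180)) (PT.lf (nat_lit 32756) (nat_lit 6) (nat_lit 431) (nat_lit 3) (nat_lit 174) (nat_lit 157) (nat_lit 179))))) (PT.nd (nat_lit 312) (PT.nd (nat_lit 156) (PT.nd (nat_lit 78) (PT.lf (nat_lit 32832) (nat_lit 6) (nat_lit 432) (nat_lit 3) (nat_lit 175) (nat_lit 157) (nat_lit 178)) (PT.lf (nat_lit 32908) (nat_lit 6) (nat_lit 433) (nat_lit 3) (nat_lit 176) (nat_lit 157) (nat_lit 177))) (PT.nd (nat_lit 78) (PT.lf (nat_lit 32908) (nat_lit 6) (nat_lit 433) (nat_lit 1) (nat_lit 177) (nat_lit 157) (nat_lit 176)) (PT.lf (nat_lit 32832) (nat_lit 6) (nat_lit 432) (nat_lit 1) (nat_lit 178) (nat_lit 157) (nat_lit 175)))) (PT.nd (nat_lit 156) (PT.nd (nat_lit 78) (PT.lf (nat_lit 32756) (nat_lit 6) (nat_lit 431) (nat_lit 1) (nat_lit 179) (nat_lit 157) (nat_lit 174)) (PT.lf (nat_lit 32680) (nat_lit 6) (nat_lit 430) (nat_lit 1) (nat_lit 180) (nat_lit 157) (nat_lit 173))) (PT.nd (nat_lit 78)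 (PT.lf (nat_lit 32604) (nat_lit 6) (nat_lit 429) (nat_lit 1) (nat_lit 181) (nat_lit 157) (nat_lit 172)) (PT.nd (nat_lit 78) (PT.lf (nat_lit 32528) (nat_lit 6) (nat_lit 428) (nat_lit 1) (nat_lit 182) (nat_lit 157) (nat_lit 171)) (PT.lf (nat_lit 32452) (nat_lit 6) (nat_lit 427) (nat_lit 1) (nat_lit 183) (nat_lit 157) (nat_lit 170))))))) (PT.nd (nat_lit 52182) (PT.nd (nat_lit 51792) (PT.nd (nat_lit 156) (PT.nd (nat_lit 78) (PT.lf (nat_lit 31312) (nat_lit 6) (nat_lit 412) (nat_lit 1) (nat_lit 184) (nat_lit 157) (nat_lit 169)) (PT.lf (nat_lit 30096) (nat_lit 6) (nat_lit 396) (nat_lit 1) (nat_lit 185) (nat_lit 157) (nat_lit 168))) (PT.nd (nat_lit 51558) (PT.lf (nat_lit 28804) (nat_lit 6) (nat_lit 379) (nat_lit 1) (nat_lit 186) (nat_lit 157) (nat_lit 167)) (PT.lf (nat_lit 28728) (nat_lit 6) (nat_lit 378) (nat_lit 3) (nat_lit 166) (nat_lit 158) (nat_lit 186)))) (PT.nd (nat_lit 156) (PT.nd (nat_lit 78) (PT.lf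 (nat_lit 30020) (nat_lit 6) (nat_lit 395) (nat_lit 3) (nat_lit 167) (nat_lit 158) (nat_lit 185)) (PT.lf (nat_lit 31236) (nat_lit 6) (nat_lit 411) (nat_lit 3) (nat_lit 168) (nat_lit 158) (nat_lit 184))) (PT.nd (nat_lit 78) (PT.lf (nat_lit 32376) (nat_lit 6) (nat_lit 426) (nat_lit 3) (nat_lit 169) (nat_lit 158) (nat_lit 183)) (PT.nd (nat_lit 78) (PT.lf (nat_lit 33440) (nat_lit 6) (nat_lit 440) (nat_lit 3) (nat_lit 170) (nat_lit 158) (nat_lit 182)) (PT.lf (nat_lit 33516) (nat_lit 6) (nat_lit 441) (nat_lit 3) (nat_lit 171) (nat_lit 158) (nat_lit 181)))))) (PT.nd (nat_lit 312) (PT.nd (nat_lit 156) (PT.nd (nat_lit 78) (PT.lf (nat_lit 33592) (nat_lit 6) (nat_lit 442) (nat_lit 3) (nat_lit 172) (nat_lit 158) (nat_lit 180)) (PT.lf (nat_lit 33668) (nat_lit 6) (nat_lit 443) (nat_lit 3) (nat_lit 173) (nat_lit 158) (nat_lit 179))) (PT.nd (nat_lit 78) (PT.lf (nat_lit 33744) (nat_lit 6) (nat_lit 444) (nat_lit 3)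 (nat_lit 174) (nat_lit 158) (nat_lit 178)) (PT.lf (nat_lit 33820) (nat_lit 6) (nat_lit 445) (nat_lit 3) (nat_lit 175) (nat_lit 158) (nat_lit 177)))) (PT.nd (nat_lit 156) (PT.nd (nat_lit 78) (PT.lf (nat_lit 33896) (nat_lit 3) (nat_lit 446) (nat_lit 1) (nat_lit 176) (nat_lit 158) (nat_lit 176)) (PT.lf (nat_lit 33820) (nat_lit 6) (nat_lit 445) (nat_lit 1) (nat_lit 177) (nat_lit 158) (nat_lit 175))) (PT.nd (nat_lit 78) (PT.lf (nat_lit 33744) (nat_lit 6) (nat_lit 444) (nat_lit 1) (nat_lit 178) (nat_lit 158) (nat_lit 174)) (PT.nd (nat_lit 78) (PT.lf (nat_lit 33668) (nat_lit 6) (nat_lit 443) (nat_lit 1) (nat_lit 179) (nat_lit 158) (nat_lit 173)) (PT.lf (nat_lit 33592) (nat_lit 6) (nat_lit 442) (nat_lit 1) (nat_lit 180) (nat_lit 158) (nat_lit 172))))))))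
noncomputable def pc16 : PT := (PT.nd (nat_lit 52728) (PT.nd (nat_lit 52026) (PT.nd (nat_lit 312) (PT.nd (nat_lit 156) (PT.nd (nat_lit 78) (PT.lf (nat_lit 33516) (nat_lit 6) (nat_lit 441) (nat_lit 1) (nat_lit 181) (nat_lit 158) (nat_lit 171)) (PT.lf (nat_lit 33440) (nat_lit 6) (nat_lit 440) (nat_lit 1) (nat_lit 182) (nat_lit 158) (nat_lit 170))) (PT.nd (nat_lit 78) (PT.lf (nat_lit 32376) (nat_lit 6) (nat_lit 426) (nat_lit 1) (nat_lit 183) (nat_lit 158) (nat_lit 169)) (PT.lf (nat_lit 31236) (nat_lit 6) (nat_lit 411) (nat_lit 1) (nat_lit 184) (nat_lit 158) (nat_lit 168)))) (PT.nd (nat_lit 51558) (PT.nd (nat_lit 78) (PT.lf (nat_lit 30020) (nat_lit 6) (nat_lit 395) (nat_lit 1) (nat_lit 185) (nat_lit 158) (nat_lit 167)) (PT.lf (nat_lit 28728) (nat_lit 6) (nat_lit 378) (nat_lit 1) (nat_lit 186) (nat_lit 158) (nat_lit 166))) (PT.nd (nat_lit 78) (PT.lf (nat_lit 28652) (nat_lit 6) (nat_lit 377) (nat_lit 3)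 (nat_lit 165) (nat_lit 159) (nat_lit 186)) (PT.lf (nat_lit 29944) (nat_lit 6) (nat_lit 394) (nat_lit 3) (nat_lit 166) (nat_lit 159) (nat_lit 185))))) (PT.nd (nat_lit 312) (PT.nd (nat_lit 156) (PT.nd (nat_lit 78) (PT.lf (nat_lit 31160) (nat_lit 6) (nat_lit 410) (nat_lit 3) (nat_lit 167) (nat_lit 159) (nat_lit 184)) (PT.lf (nat_lit 32300) (nat_lit 6) (nat_lit 425) (nat_lit 3) (nat_lit 168) (nat_lit 159) (nat_lit 183))) (PT.nd (nat_lit 78) (PT.lf (nat_lit 33364) (nat_lit 6) (nat_lit 439) (nat_lit 3) (nat_lit 169) (nat_lit 159) (nat_lit 182)) (PT.lf (nat_lit 34352) (nat_lit 6) (nat_lit 452) (nat_lit 3) (nat_lit 170) (nat_lit 159) (nat_lit 181)))) (PT.nd (nat_lit 156) (PT.nd (nat_lit 78) (PT.lf (nat_lit 34428) (nat_lit 6) (nat_lit 453) (nat_lit 3) (nat_lit 171) (nat_lit 159) (nat_lit 180)) (PT.lf (nat_lit 34504) (nat_lit 6) (nat_lit 454) (nat_lit 3) (nat_lit 172) (nat_lit 159) (nat_lit 179))) (PT.nd (nat_lit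 78) (PT.lf (nat_lit 34580) (nat_lit 6) (nat_lit 455) (nat_lit 3) (nat_lit 173) (nat_lit 159) (nat_lit 178)) (PT.nd (nat_lit 78) (PT.lf (nat_lit 34656) (nat_lit 6) (nat_lit 456) (nat_lit 3) (nat_lit 174) (nat_lit 159) (nat_lit 177)) (PT.lf (nat_lit 34732) (nat_lit 6) (nat_lit 457) (nat_lit 3) (nat_lit 175) (nat_lit 159) (nat_lit 176))))))) (PT.nd (nat_lit 624) (PT.nd (nat_lit 312) (PT.nd (nat_lit 156) (PT.nd (nat_lit 78) (PT.lf (nat_lit 34732) (nat_lit 6) (nat_lit 457) (nat_lit 1) (nat_lit 176) (nat_lit 159) (nat_lit 175)) (PT.lf (nat_lit 34656) (nat_lit 6) (nat_lit 456) (nat_lit 1) (nat_lit 177) (nat_lit 159) (nat_lit 174))) (PT.nd (nat_lit 78) (PT.lf (nat_lit 34580) (nat_lit 6) (nat_lit 455) (nat_lit 1) (nat_lit 178) (nat_lit 159) (nat_lit 173)) (PT.lf (nat_lit 34504) (nat_lit 6) (nat_lit 454) (nat_lit 1) (nat_lit 179) (nat_lit 159) (nat_lit 172)))) (PT.nd (nat_lit 156) (PT.nd (nat_lit 78) (PT.lf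 (nat_lit 34428) (nat_lit 6) (nat_lit 453) (nat_lit 1) (nat_lit 180) (nat_lit 159) (nat_lit 171)) (PT.lf (nat_lit 34352) (nat_lit 6) (nat_lit 452) (nat_lit 1) (nat_lit 181) (nat_lit 159) (nat_lit 170))) (PT.nd (nat_lit 78) (PT.lf (nat_lit 33364) (nat_lit 6) (nat_lit 439) (nat_lit 1) (nat_lit 182) (nat_lit 159) (nat_lit 169)) (PT.lf (nat_lit 32300) (nat_lit 6) (nat_lit 425) (nat_lit 1) (nat_lit 183) (nat_lit 159) (nat_lit 168))))) (PT.nd (nat_lit 51636) (PT.nd (nat_lit 156) (PT.nd (nat_lit 78) (PT.lf (nat_lit 31160) (nat_lit 6) (nat_lit 410) (nat_lit 1) (nat_lit 184) (nat_lit 159) (nat_lit 167)) (PT.lf (nat_lit 29944) (nat_lit 6) (nat_lit 394) (nat_lit 1) (nat_lit 185) (nat_lit 159) (nat_lit 166))) (PT.nd (nat_lit 51402) (PT.lf (nat_lit 28652) (nat_lit 6) (nat_lit 377) (nat_lit 1) (nat_lit 186) (nat_lit 159) (nat_lit 165)) (PT.lf (nat_lit 28576) (nat_lit 6) (nat_lit 376) (nat_lit 3) (nat_lit 164) (nat_lit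 160) (nat_lit 186)))) (PT.nd (nat_lit 156) (PT.nd (nat_lit 78) (PT.lf (nat_lit 29868) (nat_lit 6) (nat_lit 393) (nat_lit 3) (nat_lit 165) (nat_lit 160) (nat_lit 185)) (PT.lf (nat_lit 31084) (nat_lit 6) (nat_lit 409) (nat_lit 3) (nat_lit 166) (nat_lit 160) (nat_lit 184))) (PT.nd (nat_lit 78) (PT.lf (nat_lit 32224) (nat_lit 6) (nat_lit 424) (nat_lit 3) (nat_lit 167) (nat_lit 160) (nat_lit 183)) (PT.nd (nat_lit 78) (PT.lf (nat_lit 33288) (nat_lit 6) (nat_lit 438) (nat_lit 3) (nat_lit 168) (nat_lit 160) (nat_lit 182)) (PT.lf (nat_lit 34276) (nat_lit 6) (nat_lit 451) (nat_lit 3) (nat_lit 169) (nat_lit 160) (nat_lit 181))))))))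
noncomputable def pc17 : PT := (PT.nd (nat_lit 52572) (PT.nd (nat_lit 624) (PT.nd (nat_lit 312) (PT.nd (nat_lit 156) (PT.nd (nat_lit 78) (PT.lf (nat_lit 35188) (nat_lit 6) (nat_lit 463) (nat_lit 3) (nat_lit 170) (nat_lit 160) (nat_lit 180)) (PT.lf (nat_lit 35264) (nat_lit 6) (nat_lit 464) (nat_lit 3) (nat_lit 171) (nat_lit 160) (nat_lit 179))) (PT.nd (nat_lit 78) (PT.lf (nat_lit 35340) (nat_lit 6) (nat_lit 465) (nat_lit 3) (nat_lit 172) (nat_lit 160) (nat_lit 178)) (PT.lf (nat_lit 35416) (nat_lit 6) (nat_lit 466) (nat_lit 3) (nat_lit 173) (nat_lit 160) (nat_lit 177)))) (PT.nd (nat_lit 156) (PT.nd (nat_lit 78) (PT.lf (nat_lit 35492) (nat_lit 6) (nat_lit 467) (nat_lit 3) (nat_lit 174) (nat_lit 160) (nat_lit 176)) (PT.lf (nat_lit 35568) (nat_lit 3) (nat_lit 468) (nat_lit 1) (nat_lit 175) (nat_lit 160) (nat_lit 175))) (PT.nd (nat_lit 78) (PT.lf (nat_lit 35492) (nat_lit 6) (nat_lit 467) (nat_lit 1) (nat_lit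 176) (nat_lit 160) (nat_lit 174)) (PT.lf (nat_lit 35416) (nat_lit 6) (nat_lit 466) (nat_lit 1) (nat_lit 177) (nat_lit 160) (nat_lit 173))))) (PT.nd (nat_lit 312) (PT.nd (nat_lit 156) (PT.nd (nat_lit 78) (PT.lf (nat_lit 35340) (nat_lit 6) (nat_lit 465) (nat_lit 1) (nat_lit 178) (nat_lit 160) (nat_lit 172)) (PT.lf (nat_lit 35264) (nat_lit 6) (nat_lit 464) (nat_lit 1) (nat_lit 179) (nat_lit 160) (nat_lit 171))) (PT.nd (nat_lit 78) (PT.lf (nat_lit 35188) (nat_lit 6) (nat_lit 463) (nat_lit 1) (nat_lit 180) (nat_lit 160) (nat_lit 170)) (PT.lf (nat_lit 34276) (nat_lit 6) (nat_lit 451) (nat_lit 1) (nat_lit 181) (nat_lit 160) (nat_lit 169)))) (PT.nd (nat_lit 156) (PT.nd (nat_lit 78) (PT.lf (nat_lit 33288) (nat_lit 6) (nat_lit 438) (nat_lit 1) (nat_lit 182) (nat_lit 160) (nat_lit 168)) (PT.lf (nat_lit 32224) (nat_lit 6) (nat_lit 424) (nat_lit 1) (nat_lit 183) (nat_lit 160) (nat_lit 167))) (PT.nd (nat_lit 78)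 (PT.lf (nat_lit 31084) (nat_lit 6) (nat_lit 409) (nat_lit 1) (nat_lit 184) (nat_lit 160) (nat_lit 166)) (PT.nd (nat_lit 78) (PT.lf (nat_lit 29868) (nat_lit 6) (nat_lit 393) (nat_lit 1) (nat_lit 185) (nat_lit 160) (nat_lit 165)) (PT.lf (nat_lit 28576) (nat_lit 6) (nat_lit 376) (nat_lit 1) (nat_lit 186) (nat_lit 160) (nat_lit 164))))))) (PT.nd (nat_lit 624) (PT.nd (nat_lit 312) (PT.nd (nat_lit 156) (PT.nd (nat_lit 78) (PT.lf (nat_lit 28500) (nat_lit 6) (nat_lit 375) (nat_lit 3) (nat_lit 163) (nat_lit 161) (nat_lit 186)) (PT.lf (nat_lit 29792) (nat_lit 6) (nat_lit 392) (nat_lit 3) (nat_lit 164) (nat_lit 161) (nat_lit 185))) (PT.nd (nat_lit 78) (PT.lf (nat_lit 31008) (nat_lit 6) (nat_lit 408) (nat_lit 3) (nat_lit 165) (nat_lit 161) (nat_lit 184)) (PT.lf (nat_lit 32148) (nat_lit 6) (nat_lit 423) (nat_lit 3) (nat_lit 166) (nat_lit 161) (nat_lit 183)))) (PT.nd (nat_lit 156) (PT.nd (nat_lit 78) (PT.lf (nat_lit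 33212) (nat_lit 6) (nat_lit 437) (nat_lit 3) (nat_lit 167) (nat_lit 161) (nat_lit 182)) (PT.lf (nat_lit 34200) (nat_lit 6) (nat_lit 450) (nat_lit 3) (nat_lit 168) (nat_lit 161) (nat_lit 181))) (PT.nd (nat_lit 78) (PT.lf (nat_lit 35112) (nat_lit 6) (nat_lit 462) (nat_lit 3) (nat_lit 169) (nat_lit 161) (nat_lit 180)) (PT.lf (nat_lit 35948) (nat_lit 6) (nat_lit 473) (nat_lit 3) (nat_lit 170) (nat_lit 161) (nat_lit 179))))) (PT.nd (nat_lit 312) (PT.nd (nat_lit 156) (PT.nd (nat_lit 78) (PT.lf (nat_lit 36024) (nat_lit 6) (nat_lit 474) (nat_lit 3) (nat_lit 171) (nat_lit 161) (nat_lit 178)) (PT.lf (nat_lit 36100) (nat_lit 6) (nat_lit 475) (nat_lit 3) (nat_lit 172) (nat_lit 161) (nat_lit 177))) (PT.nd (nat_lit 78) (PT.lf (nat_lit 36176) (nat_lit 6) (nat_lit 476) (nat_lit 3) (nat_lit 173) (nat_lit 161) (nat_lit 176)) (PT.lf (nat_lit 36252) (nat_lit 6) (nat_lit 477) (nat_lit 3) (nat_lit 174) (nat_lit 161) (nat_lit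 175)))) (PT.nd (nat_lit 156) (PT.nd (nat_lit 78) (PT.lf (nat_lit 36252) (nat_lit 6) (nat_lit 477) (nat_lit 1) (nat_lit 175) (nat_lit 161) (nat_lit 174)) (PT.lf (nat_lit 36176) (nat_lit 6) (nat_lit 476) (nat_lit 1) (nat_lit 176) (nat_lit 161) (nat_lit 173))) (PT.nd (nat_lit 78) (PT.lf (nat_lit 36100) (nat_lit 6) (nat_lit 475) (nat_lit 1) (nat_lit 177) (nat_lit 161) (nat_lit 172)) (PT.nd (nat_lit 78) (PT.lf (nat_lit 36024) (nat_lit 6) (nat_lit 474) (nat_lit 1) (nat_lit 178) (nat_lit 161) (nat_lit 171)) (PT.lf (nat_lit 35948) (nat_lit 6) (nat_lit 473) (nat_lit 1) (nat_lit 179) (nat_lit 161) (nat_lit 170))))))))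
noncomputable def pc18 : PT := (PT.nd (nat_lit 52494) (PT.nd (nat_lit 51792) (PT.nd (nat_lit 312) (PT.nd (nat_lit 156) (PT.nd (nat_lit 78) (PT.lf (nat_lit 35112) (nat_lit 6) (nat_lit 462) (nat_lit 1) (nat_lit 180) (nat_lit 161) (nat_lit 169)) (PT.lf (nat_lit 34200) (nat_lit 6) (nat_lit 450) (nat_lit 1) (nat_lit 181) (nat_lit 161) (nat_lit 168))) (PT.nd (nat_lit 78) (PT.lf (nat_lit 33212) (nat_lit 6) (nat_lit 437) (nat_lit 1) (nat_lit 182) (nat_lit 161) (nat_lit 167)) (PT.lf (nat_lit 32148) (nat_lit 6) (nat_lit 423) (nat_lit 1) (nat_lit 183) (nat_lit 161) (nat_lit 166)))) (PT.nd (nat_lit 156) (PT.nd (nat_lit 78) (PT.lf (nat_lit 31008) (nat_lit 6) (nat_lit 408) (nat_lit 1) (nat_lit 184) (nat_lit 161) (nat_lit 165)) (PT.lf (nat_lit 29792) (nat_lit 6) (nat_lit 392) (nat_lit 1) (nat_lit 185) (nat_lit 161) (nat_lit 164))) (PT.nd (nat_lit 51246) (PT.lf (nat_lit 28500) (nat_lit 6) (nat_lit 375) (nat_lit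 1) (nat_lit 186) (nat_lit 161) (nat_lit 163)) (PT.lf (nat_lit 28424) (nat_lit 3) (nat_lit 374) (nat_lit 3) (nat_lit 162) (nat_lit 162) (nat_lit 186))))) (PT.nd (nat_lit 312) (PT.nd (nat_lit 156) (PT.nd (nat_lit 78) (PT.lf (nat_lit 29716) (nat_lit 6) (nat_lit 391) (nat_lit 3) (nat_lit 163) (nat_lit 162) (nat_lit 185)) (PT.lf (nat_lit 30932) (nat_lit 6) (nat_lit 407) (nat_lit 3) (nat_lit 164) (nat_lit 162) (nat_lit 184))) (PT.nd (nat_lit 78) (PT.lf (nat_lit 32072) (nat_lit 6) (nat_lit 422) (nat_lit 3) (nat_lit 165) (nat_lit 162) (nat_lit 183)) (PT.lf (nat_lit 33136) (nat_lit 6) (nat_lit 436) (nat_lit 3) (nat_lit 166) (nat_lit 162) (nat_lit 182)))) (PT.nd (nat_lit 156) (PT.nd (nat_lit 78) (PT.lf (nat_lit 34124) (nat_lit 6) (nat_lit 449) (nat_lit 3) (nat_lit 167) (nat_lit 162) (nat_lit 181)) (PT.lf (nat_lit 35036) (nat_lit 6) (nat_lit 461) (nat_lit 3) (nat_lit 168) (nat_lit 162) (nat_lit 180))) (PT.nd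 (nat_lit 78) (PT.lf (nat_lit 35872) (nat_lit 6) (nat_lit 472) (nat_lit 3) (nat_lit 169) (nat_lit 162) (nat_lit 179)) (PT.nd (nat_lit 78) (PT.lf (nat_lit 36632) (nat_lit 6) (nat_lit 482) (nat_lit 3) (nat_lit 170) (nat_lit 162) (nat_lit 178)) (PT.lf (nat_lit 36708) (nat_lit 6) (nat_lit 483) (nat_lit 3) (nat_lit 171) (nat_lit 162) (nat_lit 177))))))) (PT.nd (nat_lit 624) (PT.nd (nat_lit 312) (PT.nd (nat_lit 156) (PT.nd (nat_lit 78) (PT.lf (nat_lit 36784) (nat_lit 6) (nat_lit 484) (nat_lit 3) (nat_lit 172) (nat_lit 162) (nat_lit 176)) (PT.lf (nat_lit 36860) (nat_lit 6) (nat_lit 485) (nat_lit 3) (nat_lit 173) (nat_lit 162) (nat_lit 175))) (PT.nd (nat_lit 78) (PT.lf (nat_lit 36936) (nat_lit 3) (nat_lit 486) (nat_lit 1) (nat_lit 174) (nat_lit 162) (nat_lit 174)) (PT.lf (nat_lit 36860) (nat_lit 6) (nat_lit 485) (nat_lit 1) (nat_lit 175) (nat_lit 162) (nat_lit 173)))) (PT.nd (nat_lit 156) (PT.nd (nat_lit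 78) (PT.lf (nat_lit 36784) (nat_lit 6) (nat_lit 484) (nat_lit 1) (nat_lit 176) (nat_lit 162) (nat_lit 172)) (PT.lf (nat_lit 36708) (nat_lit 6) (nat_lit 483) (nat_lit 1) (nat_lit 177) (nat_lit 162) (nat_lit 171))) (PT.nd (nat_lit 78) (PT.lf (nat_lit 36632) (nat_lit 6) (nat_lit 482) (nat_lit 1) (nat_lit 178) (nat_lit 162) (nat_lit 170)) (PT.lf (nat_lit 35872) (nat_lit 6) (nat_lit 472) (nat_lit 1) (nat_lit 179) (nat_lit 162) (nat_lit 169))))) (PT.nd (nat_lit 312) (PT.nd (nat_lit 156) (PT.nd (nat_lit 78) (PT.lf (nat_lit 35036) (nat_lit 6) (nat_lit 461) (nat_lit 1) (nat_lit 180) (nat_lit 162) (nat_lit 168)) (PT.lf (nat_lit 34124) (nat_lit 6) (nat_lit 449) (nat_lit 1) (nat_lit 181) (nat_lit 162) (nat_lit 167))) (PT.nd (nat_lit 78) (PT.lf (nat_lit 33136) (nat_lit 6) (nat_lit 436) (nat_lit 1) (nat_lit 182) (nat_lit 162) (nat_lit 166)) (PT.lf (nat_lit 32072) (nat_lit 6) (nat_lit 422) (nat_lit 1) (nat_lit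 183) (nat_lit 162) (nat_lit 165)))) (PT.nd (nat_lit 156) (PT.nd (nat_lit 78) (PT.lf (nat_lit 30932) (nat_lit 6) (nat_lit 407) (nat_lit 1) (nat_lit 184) (nat_lit 162) (nat_lit 164)) (PT.lf (nat_lit 29716) (nat_lit 6) (nat_lit 391) (nat_lit 1) (nat_lit 185) (nat_lit 162) (nat_lit 163))) (PT.nd (nat_lit 51168) (PT.lf (nat_lit 28424) (nat_lit 3) (nat_lit 374) (nat_lit 0) (nat_lit 186) (nat_lit 162) (nat_lit 162)) (PT.nd (nat_lit 78) (PT.lf (nat_lit 28500) (nat_lit 6) (nat_lit 375) (nat_lit 5) (nat_lit 161) (nat_lit 163) (nat_lit 186)) (PT.lf (nat_lit 29716) (nat_lit 6) (nat_lit 391) (nat_lit 5) (nat_lit 162) (nat_lit 163) (nat_lit 185))))))))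
noncomputable def pc19 : PT := (PT.nd (nat_lit 1326) (PT.nd (nat_lit 624) (PT.nd (nat_lit 312) (PT.nd (nat_lit 156) (PT.nd (nat_lit 78) (PT.lf (nat_lit 30856) (nat_lit 3) (nat_lit 406) (nat_lit 3) (nat_lit 163) (nat_lit 163) (nat_lit 184)) (PT.lf (nat_lit 31996) (nat_lit 6) (nat_lit 421) (nat_lit 3) (nat_lit 164) (nat_lit 163) (nat_lit 183))) (PT.nd (nat_lit 78) (PT.lf (nat_lit 33060) (nat_lit 6) (nat_lit 435) (nat_lit 3) (nat_lit 165) (nat_lit 163) (nat_lit 182)) (PT.lf (nat_lit 34048) (nat_lit 6) (nat_lit 448) (nat_lit 3) (nat_lit 166) (nat_lit 163) (nat_lit 181)))) (PT.nd (nat_lit 156) (PT.nd (nat_lit 78) (PT.lf (nat_lit 34960) (nat_lit 6) (nat_lit 460) (nat_lit 3) (nat_lit 167) (nat_lit 163) (nat_lit 180)) (PT.lf (nat_lit 35796) (nat_lit 6) (nat_lit 471) (nat_lit 3) (nat_lit 168) (nat_lit 163) (nat_lit 179))) (PT.nd (nat_lit 78) (PT.lf (nat_lit 36556) (nat_lit 6) (nat_lit 481) (nat_lit 3) (nat_lit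 169) (nat_lit 163) (nat_lit 178)) (PT.lf (nat_lit 37240) (nat_lit 6) (nat_lit 490) (nat_lit 3) (nat_lit 170) (nat_lit 163) (nat_lit 177))))) (PT.nd (nat_lit 312) (PT.nd (nat_lit 156) (PT.nd (nat_lit 78) (PT.lf (nat_lit 37316) (nat_lit 6) (nat_lit 491) (nat_lit 3) (nat_lit 171) (nat_lit 163) (nat_lit 176)) (PT.lf (nat_lit 37392) (nat_lit 6) (nat_lit 492) (nat_lit 3) (nat_lit 172) (nat_lit 163) (nat_lit 175))) (PT.nd (nat_lit 78) (PT.lf (nat_lit 37468) (nat_lit 6) (nat_lit 493) (nat_lit 3) (nat_lit 173) (nat_lit 163) (nat_lit 174)) (PT.lf (nat_lit 37468) (nat_lit 6) (nat_lit 493) (nat_lit 1) (nat_lit 174) (nat_lit 163) (nat_lit 173)))) (PT.nd (nat_lit 156) (PT.nd (nat_lit 78) (PT.lf (nat_lit 37392) (nat_lit 6) (nat_lit 492) (nat_lit 1) (nat_lit 175) (nat_lit 163) (nat_lit 172)) (PT.lf (nat_lit 37316) (nat_lit 6) (nat_lit 491) (nat_lit 1) (nat_lit 176) (nat_lit 163) (nat_lit 171))) (PT.nd (nat_lit 78)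 (PT.lf (nat_lit 37240) (nat_lit 6) (nat_lit 490) (nat_lit 1) (nat_lit 177) (nat_lit 163) (nat_lit 170)) (PT.nd (nat_lit 78) (PT.lf (nat_lit 36556) (nat_lit 6) (nat_lit 481) (nat_lit 1) (nat_lit 178) (nat_lit 163) (nat_lit 169)) (PT.lf (nat_lit 35796) (nat_lit 6) (nat_lit 471) (nat_lit 1) (nat_lit 179) (nat_lit 163) (nat_lit 168))))))) (PT.nd (nat_lit 51714) (PT.nd (nat_lit 312) (PT.nd (nat_lit 156) (PT.nd (nat_lit 78) (PT.lf (nat_lit 34960) (nat_lit 6) (nat_lit 460) (nat_lit 1) (nat_lit 180) (nat_lit 163) (nat_lit 167)) (PT.lf (nat_lit 34048) (nat_lit 6) (nat_lit 448) (nat_lit 1) (nat_lit 181) (nat_lit 163) (nat_lit 166))) (PT.nd (nat_lit 78) (PT.lf (nat_lit 33060) (nat_lit 6) (nat_lit 435) (nat_lit 1) (nat_lit 182) (nat_lit 163) (nat_lit 165)) (PT.lf (nat_lit 31996) (nat_lit 6) (nat_lit 421) (nat_lit 1) (nat_lit 183) (nat_lit 163) (nat_lit 164)))) (PT.nd (nat_lit 156) (PT.nd (nat_lit 78) (PT.lf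 (nat_lit 30856) (nat_lit 3) (nat_lit 406) (nat_lit 0) (nat_lit 184) (nat_lit 163) (nat_lit 163)) (PT.lf (nat_lit 29716) (nat_lit 6) (nat_lit 391) (nat_lit 0) (nat_lit 185) (nat_lit 163) (nat_lit 162))) (PT.nd (nat_lit 51090) (PT.lf (nat_lit 28500) (nat_lit 6) (nat_lit 375) (nat_lit 0) (nat_lit 186) (nat_lit 163) (nat_lit 161)) (PT.nd (nat_lit 78) (PT.lf (nat_lit 28576) (nat_lit 6) (nat_lit 376) (nat_lit 5) (nat_lit 160) (nat_lit 164) (nat_lit 186)) (PT.lf (nat_lit 29792) (nat_lit 6) (nat_lit 392) (nat_lit 5) (nat_lit 161) (nat_lit 164) (nat_lit 185)))))) (PT.nd (nat_lit 312) (PT.nd (nat_lit 156) (PT.nd (nat_lit 78) (PT.lf (nat_lit 30932) (nat_lit 6) (nat_lit 407) (nat_lit 5) (nat_lit 162) (nat_lit 164) (nat_lit 184)) (PT.lf (nat_lit 31996) (nat_lit 6) (nat_lit 421) (nat_lit 5) (nat_lit 163) (nat_lit 164) (nat_lit 183))) (PT.nd (nat_lit 78) (PT.lf (nat_lit 32984) (nat_lit 3) (nat_lit 434) (nat_lit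 3) (nat_lit 164) (nat_lit 164) (nat_lit 182)) (PT.lf (nat_lit 33972) (nat_lit 6) (nat_lit 447) (nat_lit 3) (nat_lit 165) (nat_lit 164) (nat_lit 181)))) (PT.nd (nat_lit 156) (PT.nd (nat_lit 78) (PT.lf (nat_lit 34884) (nat_lit 6) (nat_lit 459) (nat_lit 3) (nat_lit 166) (nat_lit 164) (nat_lit 180)) (PT.lf (nat_lit 35720) (nat_lit 6) (nat_lit 470) (nat_lit 3) (nat_lit 167) (nat_lit 164) (nat_lit 179))) (PT.nd (nat_lit 78) (PT.lf (nat_lit 36480) (nat_lit 6) (nat_lit 480) (nat_lit 3) (nat_lit 168) (nat_lit 164) (nat_lit 178)) (PT.nd (nat_lit 78) (PT.lf (nat_lit 37164) (nat_lit 6) (nat_lit 489) (nat_lit 3) (nat_lit 169) (nat_lit 164) (nat_lit 177)) (PT.lf (nat_lit 37772) (nat_lit 6) (nat_lit 497) (nat_lit 3) (nat_lit 170) (nat_lit 164) (nat_lit 176))))))))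
noncomputable def pc20 : PT := (PT.nd (nat_lit 52260) (PT.nd (nat_lit 624) (PT.nd (nat_lit 312) (PT.nd (nat_lit 156) (PT.nd (nat_lit 78) (PT.lf (nat_lit 37848) (nat_lit 6) (nat_lit 498) (nat_lit 3) (nat_lit 171) (nat_lit 164) (nat_lit 175)) (PT.lf (nat_lit 37924) (nat_lit 6) (nat_lit 499) (nat_lit 3) (nat_lit 172) (nat_lit 164) (nat_lit 174))) (PT.nd (nat_lit 78) (PT.lf (nat_lit 38000) (nat_lit 3) (nat_lit 500) (nat_lit 1) (nat_lit 173) (nat_lit 164) (nat_lit 173)) (PT.lf (nat_lit 37924) (nat_lit 6) (nat_lit 499) (nat_lit 1) (nat_lit 174) (nat_lit 164) (nat_lit 172)))) (PT.nd (nat_lit 156) (PT.nd (nat_lit 78) (PT.lf (nat_lit 37848) (nat_lit 6) (nat_lit 498) (nat_lit 1) (nat_lit 175) (nat_lit 164) (nat_lit 171)) (PT.lf (nat_lit 37772) (nat_lit 6) (nat_lit 497) (nat_lit 1) (nat_lit 176) (nat_lit 164) (nat_lit 170))) (PT.nd (nat_lit 78) (PT.lf (nat_lit 37164) (nat_lit 6) (nat_lit 489) (nat_lit 1) (nat_lit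 177) (nat_lit 164) (nat_lit 169)) (PT.lf (nat_lit 36480) (nat_lit 6) (nat_lit 480) (nat_lit 1) (nat_lit 178) (nat_lit 164) (nat_lit 168))))) (PT.nd (nat_lit 312) (PT.nd (nat_lit 156) (PT.nd (nat_lit 78) (PT.lf (nat_lit 35720) (nat_lit 6) (nat_lit 470) (nat_lit 1) (nat_lit 179) (nat_lit 164) (nat_lit 167)) (PT.lf (nat_lit 34884) (nat_lit 6) (nat_lit 459) (nat_lit 1) (nat_lit 180) (nat_lit 164) (nat_lit 166))) (PT.nd (nat_lit 78) (PT.lf (nat_lit 33972) (nat_lit 6) (nat_lit 447) (nat_lit 1) (nat_lit 181) (nat_lit 164) (nat_lit 165)) (PT.lf (nat_lit 32984) (nat_lit 3) (nat_lit 434) (nat_lit 0) (nat_lit 182) (nat_lit 164) (nat_lit 164)))) (PT.nd (nat_lit 156) (PT.nd (nat_lit 78) (PT.lf (nat_lit 31996) (nat_lit 6) (nat_lit 421) (nat_lit 0) (nat_lit 183) (nat_lit 164) (nat_lit 163)) (PT.lf (nat_lit 30932) (nat_lit 6) (nat_lit 407) (nat_lit 0) (nat_lit 184) (nat_lit 164) (nat_lit 162))) (PT.nd (nat_lit 78)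 (PT.lf (nat_lit 29792) (nat_lit 6) (nat_lit 392) (nat_lit 0) (nat_lit 185) (nat_lit 164) (nat_lit 161)) (PT.nd (nat_lit 51012) (PT.lf (nat_lit 28576) (nat_lit 6) (nat_lit 376) (nat_lit 0) (nat_lit 186) (nat_lit 164) (nat_lit 160)) (PT.lf (nat_lit 28652) (nat_lit 6) (nat_lit 377) (nat_lit 5) (nat_lit 159) (nat_lit 165) (nat_lit 186))))))) (PT.nd (nat_lit 624) (PT.nd (nat_lit 312) (PT.nd (nat_lit 156) (PT.nd (nat_lit 78) (PT.lf (nat_lit 29868) (nat_lit 6) (nat_lit 393) (nat_lit 5) (nat_lit 160) (nat_lit 165) (nat_lit 185)) (PT.lf (nat_lit 31008) (nat_lit 6) (nat_lit 408) (nat_lit 5) (nat_lit 161) (nat_lit 165) (nat_lit 184))) (PT.nd (nat_lit 78) (PT.lf (nat_lit 32072) (nat_lit 6) (nat_lit 422) (nat_lit 5) (nat_lit 162) (nat_lit 165) (nat_lit 183)) (PT.lf (nat_lit 33060) (nat_lit 6) (nat_lit 435) (nat_lit 5) (nat_lit 163) (nat_lit 165) (nat_lit 182)))) (PT.nd (nat_lit 156) (PT.nd (nat_lit 78) (PT.lf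 (nat_lit 33972) (nat_lit 6) (nat_lit 447) (nat_lit 5) (nat_lit 164) (nat_lit 165) (nat_lit 181)) (PT.lf (nat_lit 34808) (nat_lit 3) (nat_lit 458) (nat_lit 3) (nat_lit 165) (nat_lit 165) (nat_lit 180))) (PT.nd (nat_lit 78) (PT.lf (nat_lit 35644) (nat_lit 6) (nat_lit 469) (nat_lit 3) (nat_lit 166) (nat_lit 165) (nat_lit 179)) (PT.lf (nat_lit 36404) (nat_lit 6) (nat_lit 479) (nat_lit 3) (nat_lit 167) (nat_lit 165) (nat_lit 178))))) (PT.nd (nat_lit 312) (PT.nd (nat_lit 156) (PT.nd (nat_lit 78) (PT.lf (nat_lit 37088) (nat_lit 6) (nat_lit 488) (nat_lit 3) (nat_lit 168) (nat_lit 165) (nat_lit 177)) (PT.lf (nat_lit 37696) (nat_lit 6) (nat_lit 496) (nat_lit 3) (nat_lit 169) (nat_lit 165) (nat_lit 176))) (PT.nd (nat_lit 78) (PT.lf (nat_lit 38228) (nat_lit 6) (nat_lit 503) (nat_lit 3) (nat_lit 170) (nat_lit 165) (nat_lit 175)) (PT.lf (nat_lit 38304) (nat_lit 6) (nat_lit 504) (nat_lit 3) (nat_lit 171) (nat_lit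 165) (nat_lit 174)))) (PT.nd (nat_lit 156) (PT.nd (nat_lit 78) (PT.lf (nat_lit 38380) (nat_lit 6) (nat_lit 505) (nat_lit 3) (nat_lit 172) (nat_lit 165) (nat_lit 173)) (PT.lf (nat_lit 38380) (nat_lit 6) (nat_lit 505) (nat_lit 1) (nat_lit 173) (nat_lit 165) (nat_lit 172))) (PT.nd (nat_lit 78) (PT.lf (nat_lit 38304) (nat_lit 6) (nat_lit 504) (nat_lit 1) (nat_lit 174) (nat_lit 165) (nat_lit 171)) (PT.nd (nat_lit 78) (PT.lf (nat_lit 38228) (nat_lit 6) (nat_lit 503) (nat_lit 1) (nat_lit 175) (nat_lit 165) (nat_lit 170)) (PT.lf (nat_lit 37696) (nat_lit 6) (nat_lit 496) (nat_lit 1) (nat_lit 176) (nat_lit 165) (nat_lit 169))))))))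
noncomputable def pc21 : PT := (PT.nd (nat_lit 52182) (PT.nd (nat_lit 624) (PT.nd (nat_lit 312) (PT.nd (nat_lit 156) (PT.nd (nat_lit 78) (PT.lf (nat_lit 37088) (nat_lit 6) (nat_lit 488) (nat_lit 1) (nat_lit 177) (nat_lit 165) (nat_lit 168)) (PT.lf (nat_lit 36404) (nat_lit 6) (nat_lit 479) (nat_lit 1) (nat_lit 178) (nat_lit 165) (nat_lit 167))) (PT.nd (nat_lit 78) (PT.lf (nat_lit 35644) (nat_lit 6) (nat_lit 469) (nat_lit 1) (nat_lit 179) (nat_lit 165) (nat_lit 166)) (PT.lf (nat_lit 34808) (nat_lit 3) (nat_lit 458) (nat_lit 0) (nat_lit 180) (nat_lit 165) (nat_lit 165)))) (PT.nd (nat_lit 156) (PT.nd (nat_lit 78) (PT.lf (nat_lit 33972) (nat_lit 6) (nat_lit 447) (nat_lit 0) (nat_lit 181) (nat_lit 165) (nat_lit 164)) (PT.lf (nat_lit 33060) (nat_lit 6) (nat_lit 435) (nat_lit 0) (nat_lit 182) (nat_lit 165) (nat_lit 163))) (PT.nd (nat_lit 78) (PT.lf (nat_lit 32072) (nat_lit 6) (nat_lit 422) (nat_lit 0) (nat_lit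 183) (nat_lit 165) (nat_lit 162)) (PT.lf (nat_lit 31008) (nat_lit 6) (nat_lit 408) (nat_lit 0) (nat_lit 184) (nat_lit 165) (nat_lit 161))))) (PT.nd (nat_lit 51168) (PT.nd (nat_lit 51012) (PT.nd (nat_lit 78) (PT.lf (nat_lit 29868) (nat_lit 6) (nat_lit 393) (nat_lit 0) (nat_lit 185) (nat_lit 165) (nat_lit 160)) (PT.lf (nat_lit 28652) (nat_lit 6) (nat_lit 377) (nat_lit 0) (nat_lit 186) (nat_lit 165) (nat_lit 159))) (PT.nd (nat_lit 78) (PT.lf (nat_lit 28728) (nat_lit 6) (nat_lit 378) (nat_lit 5) (nat_lit 158) (nat_lit 166) (nat_lit 186)) (PT.lf (nat_lit 29944) (nat_lit 6) (nat_lit 394) (nat_lit 5) (nat_lit 159) (nat_lit 166) (nat_lit 185)))) (PT.nd (nat_lit 156) (PT.nd (nat_lit 78) (PT.lf (nat_lit 31084) (nat_lit 6) (nat_lit 409) (nat_lit 5) (nat_lit 160) (nat_lit 166) (nat_lit 184)) (PT.lf (nat_lit 32148) (nat_lit 6) (nat_lit 423) (nat_lit 5) (nat_lit 161) (nat_lit 166) (nat_lit 183))) (PT.nd (nat_lit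 78) (PT.lf (nat_lit 33136) (nat_lit 6) (nat_lit 436) (nat_lit 5) (nat_lit 162) (nat_lit 166) (nat_lit 182)) (PT.nd (nat_lit 78) (PT.lf (nat_lit 34048) (nat_lit 6) (nat_lit 448) (nat_lit 5) (nat_lit 163) (nat_lit 166) (nat_lit 181)) (PT.lf (nat_lit 34884) (nat_lit 6) (nat_lit 459) (nat_lit 5) (nat_lit 164) (nat_lit 166) (nat_lit 180))))))) (PT.nd (nat_lit 624) (PT.nd (nat_lit 312) (PT.nd (nat_lit 156) (PT.nd (nat_lit 78) (PT.lf (nat_lit 35644) (nat_lit 6) (nat_lit 469) (nat_lit 5) (nat_lit 165) (nat_lit 166) (nat_lit 179)) (PT.lf (nat_lit 36328) (nat_lit 3) (nat_lit 478) (nat_lit 3) (nat_lit 166) (nat_lit 166) (nat_lit 178))) (PT.nd (nat_lit 78) (PT.lf (nat_lit 37012) (nat_lit 6) (nat_lit 487) (nat_lit 3) (nat_lit 167) (nat_lit 166) (nat_lit 177)) (PT.lf (nat_lit 37620) (nat_lit 6) (nat_lit 495) (nat_lit 3) (nat_lit 168) (nat_lit 166) (nat_lit 176)))) (PT.nd (nat_lit 156) (PT.nd (nat_lit 78) (PT.lf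 (nat_lit 38152) (nat_lit 6) (nat_lit 502) (nat_lit 3) (nat_lit 169) (nat_lit 166) (nat_lit 175)) (PT.lf (nat_lit 38608) (nat_lit 6) (nat_lit 508) (nat_lit 3) (nat_lit 170) (nat_lit 166) (nat_lit 174))) (PT.nd (nat_lit 78) (PT.lf (nat_lit 38684) (nat_lit 6) (nat_lit 509) (nat_lit 3) (nat_lit 171) (nat_lit 166) (nat_lit 173)) (PT.lf (nat_lit 38760) (nat_lit 3) (nat_lit 510) (nat_lit 1) (nat_lit 172) (nat_lit 166) (nat_lit 172))))) (PT.nd (nat_lit 312) (PT.nd (nat_lit 156) (PT.nd (nat_lit 78) (PT.lf (nat_lit 38684) (nat_lit 6) (nat_lit 509) (nat_lit 1) (nat_lit 173) (nat_lit 166) (nat_lit 171)) (PT.lf (nat_lit 38608) (nat_lit 6) (nat_lit 508) (nat_lit 1) (nat_lit 174) (nat_lit 166) (nat_lit 170))) (PT.nd (nat_lit 78) (PT.lf (nat_lit 38152) (nat_lit 6) (nat_lit 502) (nat_lit 1) (nat_lit 175) (nat_lit 166) (nat_lit 169)) (PT.lf (nat_lit 37620) (nat_lit 6) (nat_lit 495) (nat_lit 1) (nat_lit 176) (nat_lit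 166) (nat_lit 168)))) (PT.nd (nat_lit 156) (PT.nd (nat_lit 78) (PT.lf (nat_lit 37012) (nat_lit 6) (nat_lit 487) (nat_lit 1) (nat_lit 177) (nat_lit 166) (nat_lit 167)) (PT.lf (nat_lit 36328) (nat_lit 3) (nat_lit 478) (nat_lit 0) (nat_lit 178) (nat_lit 166) (nat_lit 166))) (PT.nd (nat_lit 78) (PT.lf (nat_lit 35644) (nat_lit 6) (nat_lit 469) (nat_lit 0) (nat_lit 179) (nat_lit 166) (nat_lit 165)) (PT.nd (nat_lit 78) (PT.lf (nat_lit 34884) (nat_lit 6) (nat_lit 459) (nat_lit 0) (nat_lit 180) (nat_lit 166) (nat_lit 164)) (PT.lf (nat_lit 34048) (nat_lit 6) (nat_lit 448) (nat_lit 0) (nat_lit 181) (nat_lit 166) (nat_lit 163))))))))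
noncomputable def pc22 : PT := (PT.nd (nat_lit 52104) (PT.nd (nat_lit 51402) (PT.nd (nat_lit 312) (PT.nd (nat_lit 156) (PT.nd (nat_lit 78) (PT.lf (nat_lit 33136) (nat_lit 6) (nat_lit 436) (nat_lit 0) (nat_lit 182) (nat_lit 166) (nat_lit 162)) (PT.lf (nat_lit 32148) (nat_lit 6) (nat_lit 423) (nat_lit 0) (nat_lit 183) (nat_lit 166) (nat_lit 161))) (PT.nd (nat_lit 78) (PT.lf (nat_lit 31084) (nat_lit 6) (nat_lit 409) (nat_lit 0) (nat_lit 184) (nat_lit 166) (nat_lit 160)) (PT.lf (nat_lit 29944) (nat_lit 6) (nat_lit 394) (nat_lit 0) (nat_lit 185) (nat_lit 166) (nat_lit 159)))) (PT.nd (nat_lit 50934) (PT.nd (nat_lit 50856) (PT.lf (nat_lit 28728) (nat_lit 6) (nat_lit 378) (nat_lit 0) (nat_lit 186) (nat_lit 166) (nat_lit 158)) (PT.lf (nat_lit 28804) (nat_lit 6) (nat_lit 379) (nat_lit 5) (nat_lit 157) (nat_lit 167) (nat_lit 186))) (PT.nd (nat_lit 78) (PT.lf (nat_lit 30020) (nat_lit 6) (nat_lit 395) (nat_lit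 5) (nat_lit 158) (nat_lit 167) (nat_lit 185)) (PT.lf (nat_lit 31160) (nat_lit 6) (nat_lit 410) (nat_lit 5) (nat_lit 159) (nat_lit 167) (nat_lit 184))))) (PT.nd (nat_lit 312) (PT.nd (nat_lit 156) (PT.nd (nat_lit 78) (PT.lf (nat_lit 32224) (nat_lit 6) (nat_lit 424) (nat_lit 5) (nat_lit 160) (nat_lit 167) (nat_lit 183)) (PT.lf (nat_lit 33212) (nat_lit 6) (nat_lit 437) (nat_lit 5) (nat_lit 161) (nat_lit 167) (nat_lit 182))) (PT.nd (nat_lit 78) (PT.lf (nat_lit 34124) (nat_lit 6) (nat_lit 449) (nat_lit 5) (nat_lit 162) (nat_lit 167) (nat_lit 181)) (PT.lf (nat_lit 34960) (nat_lit 6) (nat_lit 460) (nat_lit 5) (nat_lit 163) (nat_lit 167) (nat_lit 180)))) (PT.nd (nat_lit 156) (PT.nd (nat_lit 78) (PT.lf (nat_lit 35720) (nat_lit 6) (nat_lit 470) (nat_lit 5) (nat_lit 164) (nat_lit 167) (nat_lit 179)) (PT.lf (nat_lit 36404) (nat_lit 6) (nat_lit 479) (nat_lit 5) (nat_lit 165) (nat_lit 167) (nat_lit 178))) (PT.nd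 (nat_lit 78) (PT.lf (nat_lit 37012) (nat_lit 6) (nat_lit 487) (nat_lit 5) (nat_lit 166) (nat_lit 167) (nat_lit 177)) (PT.nd (nat_lit 78) (PT.lf (nat_lit 37544) (nat_lit 3) (nat_lit 494) (nat_lit 3) (nat_lit 167) (nat_lit 167) (nat_lit 176)) (PT.lf (nat_lit 38076) (nat_lit 6) (nat_lit 501) (nat_lit 3) (nat_lit 168) (nat_lit 167) (nat_lit 175))))))) (PT.nd (nat_lit 624) (PT.nd (nat_lit 312) (PT.nd (nat_lit 156) (PT.nd (nat_lit 78) (PT.lf (nat_lit 38532) (nat_lit 6) (nat_lit 507) (nat_lit 3) (nat_lit 169) (nat_lit 167) (nat_lit 174)) (PT.lf (nat_lit 38912) (nat_lit 6) (nat_lit 512) (nat_lit 3) (nat_lit 170) (nat_lit 167) (nat_lit 173))) (PT.nd (nat_lit 78) (PT.lf (nat_lit 38988) (nat_lit 6) (nat_lit 513) (nat_lit 3) (nat_lit 171) (nat_lit 167) (nat_lit 172)) (PT.lf (nat_lit 38988) (nat_lit 6) (nat_lit 513) (nat_lit 1) (nat_lit 172) (nat_lit 167) (nat_lit 171)))) (PT.nd (nat_lit 156) (PT.nd (nat_lit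 78) (PT.lf (nat_lit 38912) (nat_lit 6) (nat_lit 512) (nat_lit 1) (nat_lit 173) (nat_lit 167) (nat_lit 170)) (PT.lf (nat_lit 38532) (nat_lit 6) (nat_lit 507) (nat_lit 1) (nat_lit 174) (nat_lit 167) (nat_lit 169))) (PT.nd (nat_lit 78) (PT.lf (nat_lit 38076) (nat_lit 6) (nat_lit 501) (nat_lit 1) (nat_lit 175) (nat_lit 167) (nat_lit 168)) (PT.lf (nat_lit 37544) (nat_lit 3) (nat_lit 494) (nat_lit 0) (nat_lit 176) (nat_lit 167) (nat_lit 167))))) (PT.nd (nat_lit 312) (PT.nd (nat_lit 156) (PT.nd (nat_lit 78) (PT.lf (nat_lit 37012) (nat_lit 6) (nat_lit 487) (nat_lit 0) (nat_lit 177) (nat_lit 167) (nat_lit 166)) (PT.lf (nat_lit 36404) (nat_lit 6) (nat_lit 479) (nat_lit 0) (nat_lit 178) (nat_lit 167) (nat_lit 165))) (PT.nd (nat_lit 78) (PT.lf (nat_lit 35720) (nat_lit 6) (nat_lit 470) (nat_lit 0) (nat_lit 179) (nat_lit 167) (nat_lit 164)) (PT.lf (nat_lit 34960) (nat_lit 6) (nat_lit 460) (nat_lit 0) (nat_lit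 180) (nat_lit 167) (nat_lit 163)))) (PT.nd (nat_lit 156) (PT.nd (nat_lit 78) (PT.lf (nat_lit 34124) (nat_lit 6) (nat_lit 449) (nat_lit 0) (nat_lit 181) (nat_lit 167) (nat_lit 162)) (PT.lf (nat_lit 33212) (nat_lit 6) (nat_lit 437) (nat_lit 0) (nat_lit 182) (nat_lit 167) (nat_lit 161))) (PT.nd (nat_lit 78) (PT.lf (nat_lit 32224) (nat_lit 6) (nat_lit 424) (nat_lit 0) (nat_lit 183) (nat_lit 167) (nat_lit 160)) (PT.nd (nat_lit 78) (PT.lf (nat_lit 31160) (nat_lit 6) (nat_lit 410) (nat_lit 0) (nat_lit 184) (nat_lit 167) (nat_lit 159)) (PT.lf (nat_lit 30020) (nat_lit 6) (nat_lit 395) (nat_lit 0) (nat_lit 185) (nat_lit 167) (nat_lit 158))))))))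
noncomputable def pc23 : PT := (PT.nd (nat_lit 51948) (PT.nd (nat_lit 51246) (PT.nd (nat_lit 50934) (PT.nd (nat_lit 50778) (PT.nd (nat_lit 50700) (PT.lf (nat_lit 28804) (nat_lit 6) (nat_lit 379) (nat_lit 0) (nat_lit 186) (nat_lit 167) (nat_lit 157)) (PT.lf (nat_lit 27588) (nat_lit 6) (nat_lit 363) (nat_lit 5) (nat_lit 155) (nat_lit 168) (nat_lit 187))) (PT.nd (nat_lit 78) (PT.lf (nat_lit 28880) (nat_lit 6) (nat_lit 380) (nat_lit 5) (nat_lit 156) (nat_lit 168) (nat_lit 186)) (PT.lf (nat_lit 30096) (nat_lit 6) (nat_lit 396) (nat_lit 5) (nat_lit 157) (nat_lit 168) (nat_lit 185)))) (PT.nd (nat_lit 156) (PT.nd (nat_lit 78) (PT.lf (nat_lit 31236) (nat_lit 6) (nat_lit 411) (nat_lit 5) (nat_lit 158) (nat_lit 168) (nat_lit 184)) (PT.lf (nat_lit 32300) (nat_lit 6) (nat_lit 425) (nat_lit 5) (nat_lit 159) (nat_lit 168) (nat_lit 183))) (PT.nd (nat_lit 78) (PT.lf (nat_lit 33288) (nat_lit 6) (nat_lit 438) (nat_lit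 5) (nat_lit 160) (nat_lit 168) (nat_lit 182)) (PT.lf (nat_lit 34200) (nat_lit 6) (nat_lit 450) (nat_lit 5) (nat_lit 161) (nat_lit 168) (nat_lit 181))))) (PT.nd (nat_lit 312) (PT.nd (nat_lit 156) (PT.nd (nat_lit 78) (PT.lf (nat_lit 35036) (nat_lit 6) (nat_lit 461) (nat_lit 5) (nat_lit 162) (nat_lit 168) (nat_lit 180)) (PT.lf (nat_lit 35796) (nat_lit 6) (nat_lit 471) (nat_lit 5) (nat_lit 163) (nat_lit 168) (nat_lit 179))) (PT.nd (nat_lit 78) (PT.lf (nat_lit 36480) (nat_lit 6) (nat_lit 480) (nat_lit 5) (nat_lit 164) (nat_lit 168) (nat_lit 178)) (PT.lf (nat_lit 37088) (nat_lit 6) (nat_lit 488) (nat_lit 5) (nat_lit 165) (nat_lit 168) (nat_lit 177)))) (PT.nd (nat_lit 156) (PT.nd (nat_lit 78) (PT.lf (nat_lit 37620) (nat_lit 6) (nat_lit 495) (nat_lit 5) (nat_lit 166) (nat_lit 168) (nat_lit 176)) (PT.lf (nat_lit 38076) (nat_lit 6) (nat_lit 501) (nat_lit 5) (nat_lit 167) (nat_lit 168) (nat_lit 175))) (PT.nd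 (nat_lit 78) (PT.lf (nat_lit 38456) (nat_lit 3) (nat_lit 506) (nat_lit 3) (nat_lit 168) (nat_lit 168) (nat_lit 174)) (PT.nd (nat_lit 78) (PT.lf (nat_lit 38836) (nat_lit 6) (nat_lit 511) (nat_lit 3) (nat_lit 169) (nat_lit 168) (nat_lit 173)) (PT.lf (nat_lit 39140) (nat_lit 6) (nat_lit 515) (nat_lit 3) (nat_lit 170) (nat_lit 168) (nat_lit 172))))))) (PT.nd (nat_lit 702) (PT.nd (nat_lit 312) (PT.nd (nat_lit 156) (PT.nd (nat_lit 78) (PT.lf (nat_lit 39216) (nat_lit 3) (nat_lit 516) (nat_lit 1) (nat_lit 171) (nat_lit 168) (nat_lit 171)) (PT.lf (nat_lit 39140) (nat_lit 6) (nat_lit 515) (nat_lit 1) (nat_lit 172) (nat_lit 168) (nat_lit 170))) (PT.nd (nat_lit 78) (PT.lf (nat_lit 38836) (nat_lit 6) (nat_lit 511) (nat_lit 1) (nat_lit 173) (nat_lit 168) (nat_lit 169)) (PT.lf (nat_lit 38456) (nat_lit 3) (nat_lit 506) (nat_lit 0) (nat_lit 174) (nat_lit 168) (nat_lit 168)))) (PT.nd (nat_lit 156) (PT.nd (nat_lit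 78) (PT.lf (nat_lit 38076) (nat_lit 6) (nat_lit 501) (nat_lit 0) (nat_lit 175) (nat_lit 168) (nat_lit 167)) (PT.lf (nat_lit 37620) (nat_lit 6) (nat_lit 495) (nat_lit 0) (nat_lit 176) (nat_lit 168) (nat_lit 166))) (PT.nd (nat_lit 78) (PT.lf (nat_lit 37088) (nat_lit 6) (nat_lit 488) (nat_lit 0) (nat_lit 177) (nat_lit 168) (nat_lit 165)) (PT.nd (nat_lit 78) (PT.lf (nat_lit 36480) (nat_lit 6) (nat_lit 480) (nat_lit 0) (nat_lit 178) (nat_lit 168) (nat_lit 164)) (PT.lf (nat_lit 35796) (nat_lit 6) (nat_lit 471) (nat_lit 0) (nat_lit 179) (nat_lit 168) (nat_lit 163)))))) (PT.nd (nat_lit 312) (PT.nd (nat_lit 156) (PT.nd (nat_lit 78) (PT.lf (nat_lit 35036) (nat_lit 6) (nat_lit 461) (nat_lit 0) (nat_lit 180) (nat_lit 168) (nat_lit 162)) (PT.lf (nat_lit 34200) (nat_lit 6) (nat_lit 450) (nat_lit 0) (nat_lit 181) (nat_lit 168) (nat_lit 161))) (PT.nd (nat_lit 78) (PT.lf (nat_lit 33288) (nat_lit 6) (nat_lit 438)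 (nat_lit 0) (nat_lit 182) (nat_lit 168) (nat_lit 160)) (PT.lf (nat_lit 32300) (nat_lit 6) (nat_lit 425) (nat_lit 0) (nat_lit 183) (nat_lit 168) (nat_lit 159)))) (PT.nd (nat_lit 156) (PT.nd (nat_lit 78) (PT.lf (nat_lit 31236) (nat_lit 6) (nat_lit 411) (nat_lit 0) (nat_lit 184) (nat_lit 168) (nat_lit 158)) (PT.lf (nat_lit 30096) (nat_lit 6) (nat_lit 396) (nat_lit 0) (nat_lit 185) (nat_lit 168) (nat_lit 157))) (PT.nd (nat_lit 78) (PT.lf (nat_lit 28880) (nat_lit 6) (nat_lit 380) (nat_lit 0) (nat_lit 186) (nat_lit 168) (nat_lit 156)) (PT.nd (nat_lit 50544) (PT.lf (nat_lit 27588) (nat_lit 6) (nat_lit 363) (nat_lit 0) (nat_lit 187) (nat_lit 168) (nat_lit 155)) (PT.lf (nat_lit 27664) (nat_lit 6) (nat_lit 364) (nat_lit 5) (nat_lit 154) (nat_lit 169) (nat_lit 187))))))))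
noncomputable def pc24 : PT := (PT.nd (nat_lit 1326) (PT.nd (nat_lit 624) (PT.nd (nat_lit 312) (PT.nd (nat_lit 156) (PT.nd (nat_lit 78) (PT.lf (nat_lit 28956) (nat_lit 6) (nat_lit 381) (nat_lit 5) (nat_lit 155) (nat_lit 169) (nat_lit 186)) (PT.lf (nat_lit 30172) (nat_lit 6) (nat_lit 397) (nat_lit 5) (nat_lit 156) (nat_lit 169) (nat_lit 185))) (PT.nd (nat_lit 78) (PT.lf (nat_lit 31312) (nat_lit 6) (nat_lit 412) (nat_lit 5) (nat_lit 157) (nat_lit 169) (nat_lit 184)) (PT.lf (nat_lit 32376) (nat_lit 6) (nat_lit 426) (nat_lit 5) (nat_lit 158) (nat_lit 169) (nat_lit 183)))) (PT.nd (nat_lit 156) (PT.nd (nat_lit 78) (PT.lf (nat_lit 33364) (nat_lit 6) (nat_lit 439) (nat_lit 5) (nat_lit 159) (nat_lit 169) (nat_lit 182)) (PT.lf (nat_lit 34276) (nat_lit 6) (nat_lit 451) (nat_lit 5) (nat_lit 160) (nat_lit 169) (nat_lit 181))) (PT.nd (nat_lit 78) (PT.lf (nat_lit 35112) (nat_lit 6) (nat_lit 462) (nat_lit 5) (nat_lit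 161) (nat_lit 169) (nat_lit 180)) (PT.lf (nat_lit 35872) (nat_lit 6) (nat_lit 472) (nat_lit 5) (nat_lit 162) (nat_lit 169) (nat_lit 179))))) (PT.nd (nat_lit 312) (PT.nd (nat_lit 156) (PT.nd (nat_lit 78) (PT.lf (nat_lit 36556) (nat_lit 6) (nat_lit 481) (nat_lit 5) (nat_lit 163) (nat_lit 169) (nat_lit 178)) (PT.lf (nat_lit 37164) (nat_lit 6) (nat_lit 489) (nat_lit 5) (nat_lit 164) (nat_lit 169) (nat_lit 177))) (PT.nd (nat_lit 78) (PT.lf (nat_lit 37696) (nat_lit 6) (nat_lit 496) (nat_lit 5) (nat_lit 165) (nat_lit 169) (nat_lit 176)) (PT.lf (nat_lit 38152) (nat_lit 6) (nat_lit 502) (nat_lit 5) (nat_lit 166) (nat_lit 169) (nat_lit 175)))) (PT.nd (nat_lit 156) (PT.nd (nat_lit 78) (PT.lf (nat_lit 38532) (nat_lit 6) (nat_lit 507) (nat_lit 5) (nat_lit 167) (nat_lit 169) (nat_lit 174)) (PT.lf (nat_lit 38836) (nat_lit 6) (nat_lit 511) (nat_lit 5) (nat_lit 168) (nat_lit 169) (nat_lit 173))) (PT.nd (nat_lit 78)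 (PT.lf (nat_lit 39064) (nat_lit 3) (nat_lit 514) (nat_lit 3) (nat_lit 169) (nat_lit 169) (nat_lit 172)) (PT.nd (nat_lit 78) (PT.lf (nat_lit 39292) (nat_lit 6) (nat_lit 517) (nat_lit 3) (nat_lit 170) (nat_lit 169) (nat_lit 171)) (PT.lf (nat_lit 39292) (nat_lit 6) (nat_lit 517) (nat_lit 1) (nat_lit 171) (nat_lit 169) (nat_lit 170))))))) (PT.nd (nat_lit 624) (PT.nd (nat_lit 312) (PT.nd (nat_lit 156) (PT.nd (nat_lit 78) (PT.lf (nat_lit 39064) (nat_lit 3) (nat_lit 514) (nat_lit 0) (nat_lit 172) (nat_lit 169) (nat_lit 169)) (PT.lf (nat_lit 38836) (nat_lit 6) (nat_lit 511) (nat_lit 0) (nat_lit 173) (nat_lit 169) (nat_lit 168))) (PT.nd (nat_lit 78) (PT.lf (nat_lit 38532) (nat_lit 6) (nat_lit 507) (nat_lit 0) (nat_lit 174) (nat_lit 169) (nat_lit 167)) (PT.lf (nat_lit 38152) (nat_lit 6) (nat_lit 502) (nat_lit 0) (nat_lit 175) (nat_lit 169) (nat_lit 166)))) (PT.nd (nat_lit 156) (PT.nd (nat_lit 78) (PT.lf (nat_lit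 37696) (nat_lit 6) (nat_lit 496) (nat_lit 0) (nat_lit 176) (nat_lit 169) (nat_lit 165)) (PT.lf (nat_lit 37164) (nat_lit 6) (nat_lit 489) (nat_lit 0) (nat_lit 177) (nat_lit 169) (nat_lit 164))) (PT.nd (nat_lit 78) (PT.lf (nat_lit 36556) (nat_lit 6) (nat_lit 481) (nat_lit 0) (nat_lit 178) (nat_lit 169) (nat_lit 163)) (PT.lf (nat_lit 35872) (nat_lit 6) (nat_lit 472) (nat_lit 0) (nat_lit 179) (nat_lit 169) (nat_lit 162))))) (PT.nd (nat_lit 312) (PT.nd (nat_lit 156) (PT.nd (nat_lit 78) (PT.lf (nat_lit 35112) (nat_lit 6) (nat_lit 462) (nat_lit 0) (nat_lit 180) (nat_lit 169) (nat_lit 161)) (PT.lf (nat_lit 34276) (nat_lit 6) (nat_lit 451) (nat_lit 0) (nat_lit 181) (nat_lit 169) (nat_lit 160))) (PT.nd (nat_lit 78) (PT.lf (nat_lit 33364) (nat_lit 6) (nat_lit 439) (nat_lit 0) (nat_lit 182) (nat_lit 169) (nat_lit 159)) (PT.lf (nat_lit 32376) (nat_lit 6) (nat_lit 426) (nat_lit 0) (nat_lit 183) (nat_lit 169) (nat_lit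 158)))) (PT.nd (nat_lit 156) (PT.nd (nat_lit 78) (PT.lf (nat_lit 31312) (nat_lit 6) (nat_lit 412) (nat_lit 0) (nat_lit 184) (nat_lit 169) (nat_lit 157)) (PT.lf (nat_lit 30172) (nat_lit 6) (nat_lit 397) (nat_lit 0) (nat_lit 185) (nat_lit 169) (nat_lit 156))) (PT.nd (nat_lit 78) (PT.lf (nat_lit 28956) (nat_lit 6) (nat_lit 381) (nat_lit 0) (nat_lit 186) (nat_lit 169) (nat_lit 155)) (PT.nd (nat_lit 50466) (PT.lf (nat_lit 27664) (nat_lit 6) (nat_lit 364) (nat_lit 0) (nat_lit 187) (nat_lit 169) (nat_lit 154)) (PT.lf (nat_lit 27740) (nat_lit 6) (nat_lit 365) (nat_lit 5) (nat_lit 153) (nat_lit 170) (nat_lit 187))))))))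
noncomputable def pc25 : PT := (PT.nd (nat_lit 1326) (PT.nd (nat_lit 624) (PT.nd (nat_lit 312) (PT.nd (nat_lit 156) (PT.nd (nat_lit 78) (PT.lf (nat_lit 29032) (nat_lit 6) (nat_lit 382) (nat_lit 5) (nat_lit 154) (nat_lit 170) (nat_lit 186)) (PT.lf (nat_lit 30248) (nat_lit 6) (nat_lit 398) (nat_lit 5) (nat_lit 155) (nat_lit 170) (nat_lit 185))) (PT.nd (nat_lit 78) (PT.lf (nat_lit 31388) (nat_lit 6) (nat_lit 413) (nat_lit 5) (nat_lit 156) (nat_lit 170) (nat_lit 184)) (PT.lf (nat_lit 32452) (nat_lit 6) (nat_lit 427) (nat_lit 5) (nat_lit 157) (nat_lit 170) (nat_lit 183)))) (PT.nd (nat_lit 156) (PT.nd (nat_lit 78) (PT.lf (nat_lit 33440) (nat_lit 6) (nat_lit 440) (nat_lit 5) (nat_lit 158) (nat_lit 170) (nat_lit 182)) (PT.lf (nat_lit 34352) (nat_lit 6) (nat_lit 452) (nat_lit 5) (nat_lit 159) (nat_lit 170) (nat_lit 181))) (PT.nd (nat_lit 78) (PT.lf (nat_lit 35188) (nat_lit 6) (nat_lit 463) (nat_lit 5) (nat_lit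 160) (nat_lit 170) (nat_lit 180)) (PT.lf (nat_lit 35948) (nat_lit 6) (nat_lit 473) (nat_lit 5) (nat_lit 161) (nat_lit 170) (nat_lit 179))))) (PT.nd (nat_lit 312) (PT.nd (nat_lit 156) (PT.nd (nat_lit 78) (PT.lf (nat_lit 36632) (nat_lit 6) (nat_lit 482) (nat_lit 5) (nat_lit 162) (nat_lit 170) (nat_lit 178)) (PT.lf (nat_lit 37240) (nat_lit 6) (nat_lit 490) (nat_lit 5) (nat_lit 163) (nat_lit 170) (nat_lit 177))) (PT.nd (nat_lit 78) (PT.lf (nat_lit 37772) (nat_lit 6) (nat_lit 497) (nat_lit 5) (nat_lit 164) (nat_lit 170) (nat_lit 176)) (PT.lf (nat_lit 38228) (nat_lit 6) (nat_lit 503) (nat_lit 5) (nat_lit 165) (nat_lit 170) (nat_lit 175)))) (PT.nd (nat_lit 156) (PT.nd (nat_lit 78) (PT.lf (nat_lit 38608) (nat_lit 6) (nat_lit 508) (nat_lit 5) (nat_lit 166) (nat_lit 170) (nat_lit 174)) (PT.lf (nat_lit 38912) (nat_lit 6) (nat_lit 512) (nat_lit 5) (nat_lit 167) (nat_lit 170) (nat_lit 173))) (PT.nd (nat_lit 78)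 (PT.lf (nat_lit 39140) (nat_lit 6) (nat_lit 515) (nat_lit 5) (nat_lit 168) (nat_lit 170) (nat_lit 172)) (PT.nd (nat_lit 78) (PT.lf (nat_lit 39292) (nat_lit 6) (nat_lit 517) (nat_lit 5) (nat_lit 169) (nat_lit 170) (nat_lit 171)) (PT.lf (nat_lit 39368) (nat_lit 1) (nat_lit 518) (nat_lit 0) (nat_lit 170) (nat_lit 170) (nat_lit 170))))))) (PT.nd (nat_lit 624) (PT.nd (nat_lit 312) (PT.nd (nat_lit 156) (PT.nd (nat_lit 78) (PT.lf (nat_lit 39292) (nat_lit 6) (nat_lit 517) (nat_lit 0) (nat_lit 171) (nat_lit 170) (nat_lit 169)) (PT.lf (nat_lit 39140) (nat_lit 6) (nat_lit 515) (nat_lit 0) (nat_lit 172) (nat_lit 170) (nat_lit 168))) (PT.nd (nat_lit 78) (PT.lf (nat_lit 38912) (nat_lit 6) (nat_lit 512) (nat_lit 0) (nat_lit 173) (nat_lit 170) (nat_lit 167)) (PT.lf (nat_lit 38608) (nat_lit 6) (nat_lit 508) (nat_lit 0) (nat_lit 174) (nat_lit 170) (nat_lit 166)))) (PT.nd (nat_lit 156) (PT.nd (nat_lit 78) (PT.lf (nat_lit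 38228) (nat_lit 6) (nat_lit 503) (nat_lit 0) (nat_lit 175) (nat_lit 170) (nat_lit 165)) (PT.lf (nat_lit 37772) (nat_lit 6) (nat_lit 497) (nat_lit 0) (nat_lit 176) (nat_lit 170) (nat_lit 164))) (PT.nd (nat_lit 78) (PT.lf (nat_lit 37240) (nat_lit 6) (nat_lit 490) (nat_lit 0) (nat_lit 177) (nat_lit 170) (nat_lit 163)) (PT.lf (nat_lit 36632) (nat_lit 6) (nat_lit 482) (nat_lit 0) (nat_lit 178) (nat_lit 170) (nat_lit 162))))) (PT.nd (nat_lit 312) (PT.nd (nat_lit 156) (PT.nd (nat_lit 78) (PT.lf (nat_lit 35948) (nat_lit 6) (nat_lit 473) (nat_lit 0) (nat_lit 179) (nat_lit 170) (nat_lit 161)) (PT.lf (nat_lit 35188) (nat_lit 6) (nat_lit 463) (nat_lit 0) (nat_lit 180) (nat_lit 170) (nat_lit 160))) (PT.nd (nat_lit 78) (PT.lf (nat_lit 34352) (nat_lit 6) (nat_lit 452) (nat_lit 0) (nat_lit 181) (nat_lit 170) (nat_lit 159)) (PT.lf (nat_lit 33440) (nat_lit 6) (nat_lit 440) (nat_lit 0) (nat_lit 182) (nat_lit 170) (nat_lit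 158)))) (PT.nd (nat_lit 156) (PT.nd (nat_lit 78) (PT.lf (nat_lit 32452) (nat_lit 6) (nat_lit 427) (nat_lit 0) (nat_lit 183) (nat_lit 170) (nat_lit 157)) (PT.lf (nat_lit 31388) (nat_lit 6) (nat_lit 413) (nat_lit 0) (nat_lit 184) (nat_lit 170) (nat_lit 156))) (PT.nd (nat_lit 78) (PT.lf (nat_lit 30248) (nat_lit 6) (nat_lit 398) (nat_lit 0) (nat_lit 185) (nat_lit 170) (nat_lit 155)) (PT.nd (nat_lit 78) (PT.lf (nat_lit 29032) (nat_lit 6) (nat_lit 382) (nat_lit 0) (nat_lit 186) (nat_lit 170) (nat_lit 154)) (PT.lf (nat_lit 27740) (nat_lit 6) (nat_lit 365) (nat_lit 0) (nat_lit 187) (nat_lit 170) (nat_lit 153))))))))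
noncomputable def pc26 : PT := (PT.nd (nat_lit 1326) (PT.nd (nat_lit 624) (PT.nd (nat_lit 312) (PT.nd (nat_lit 156) (PT.nd (nat_lit 78) (PT.lf (nat_lit 26904) (nat_lit 6) (nat_lit 354) (nat_lit 5) (nat_lit 152) (nat_lit 171) (nat_lit 187)) (PT.lf (nat_lit 27816) (nat_lit 6) (nat_lit 366) (nat_lit 5) (nat_lit 153) (nat_lit 171) (nat_lit 186))) (PT.nd (nat_lit 78) (PT.lf (nat_lit 29108) (nat_lit 6) (nat_lit 383) (nat_lit 5) (nat_lit 154) (nat_lit 171) (nat_lit 185)) (PT.lf (nat_lit 30324) (nat_lit 6) (nat_lit 399) (nat_lit 5) (nat_lit 155) (nat_lit 171) (nat_lit 184)))) (PT.nd (nat_lit 156) (PT.nd (nat_lit 78) (PT.lf (nat_lit 31464) (nat_lit 6) (nat_lit 414) (nat_lit 5) (nat_lit 156) (nat_lit 171) (nat_lit 183)) (PT.lf (nat_lit 32528) (nat_lit 6) (nat_lit 428) (nat_lit 5) (nat_lit 157) (nat_lit 171) (nat_lit 182))) (PT.nd (nat_lit 78) (PT.lf (nat_lit 33516) (nat_lit 6) (nat_lit 441) (nat_lit 5) (nat_lit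 158) (nat_lit 171) (nat_lit 181)) (PT.lf (nat_lit 34428) (nat_lit 6) (nat_lit 453) (nat_lit 5) (nat_lit 159) (nat_lit 171) (nat_lit 180))))) (PT.nd (nat_lit 312) (PT.nd (nat_lit 156) (PT.nd (nat_lit 78) (PT.lf (nat_lit 35264) (nat_lit 6) (nat_lit 464) (nat_lit 5) (nat_lit 160) (nat_lit 171) (nat_lit 179)) (PT.lf (nat_lit 36024) (nat_lit 6) (nat_lit 474) (nat_lit 5) (nat_lit 161) (nat_lit 171) (nat_lit 178))) (PT.nd (nat_lit 78) (PT.lf (nat_lit 36708) (nat_lit 6) (nat_lit 483) (nat_lit 5) (nat_lit 162) (nat_lit 171) (nat_lit 177)) (PT.lf (nat_lit 37316) (nat_lit 6) (nat_lit 491) (nat_lit 5) (nat_lit 163) (nat_lit 171) (nat_lit 176)))) (PT.nd (nat_lit 156) (PT.nd (nat_lit 78) (PT.lf (nat_lit 37848) (nat_lit 6) (nat_lit 498) (nat_lit 5) (nat_lit 164) (nat_lit 171) (nat_lit 175)) (PT.lf (nat_lit 38304) (nat_lit 6) (nat_lit 504) (nat_lit 5) (nat_lit 165) (nat_lit 171) (nat_lit 174))) (PT.nd (nat_lit 78)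 (PT.lf (nat_lit 38684) (nat_lit 6) (nat_lit 509) (nat_lit 5) (nat_lit 166) (nat_lit 171) (nat_lit 173)) (PT.nd (nat_lit 78) (PT.lf (nat_lit 38988) (nat_lit 6) (nat_lit 513) (nat_lit 5) (nat_lit 167) (nat_lit 171) (nat_lit 172)) (PT.lf (nat_lit 39216) (nat_lit 3) (nat_lit 516) (nat_lit 4) (nat_lit 168) (nat_lit 171) (nat_lit 171))))))) (PT.nd (nat_lit 624) (PT.nd (nat_lit 312) (PT.nd (nat_lit 156) (PT.nd (nat_lit 78) (PT.lf (nat_lit 39292) (nat_lit 6) (nat_lit 517) (nat_lit 4) (nat_lit 169) (nat_lit 171) (nat_lit 170)) (PT.lf (nat_lit 39292) (nat_lit 6) (nat_lit 517) (nat_lit 2) (nat_lit 170) (nat_lit 171) (nat_lit 169))) (PT.nd (nat_lit 78) (PT.lf (nat_lit 39216) (nat_lit 3) (nat_lit 516) (nat_lit 0) (nat_lit 171) (nat_lit 171) (nat_lit 168)) (PT.lf (nat_lit 38988) (nat_lit 6) (nat_lit 513) (nat_lit 0) (nat_lit 172) (nat_lit 171) (nat_lit 167)))) (PT.nd (nat_lit 156) (PT.nd (nat_lit 78) (PT.lf (nat_lit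 38684) (nat_lit 6) (nat_lit 509) (nat_lit 0) (nat_lit 173) (nat_lit 171) (nat_lit 166)) (PT.lf (nat_lit 38304) (nat_lit 6) (nat_lit 504) (nat_lit 0) (nat_lit 174) (nat_lit 171) (nat_lit 165))) (PT.nd (nat_lit 78) (PT.lf (nat_lit 37848) (nat_lit 6) (nat_lit 498) (nat_lit 0) (nat_lit 175) (nat_lit 171) (nat_lit 164)) (PT.lf (nat_lit 37316) (nat_lit 6) (nat_lit 491) (nat_lit 0) (nat_lit 176) (nat_lit 171) (nat_lit 163))))) (PT.nd (nat_lit 312) (PT.nd (nat_lit 156) (PT.nd (nat_lit 78) (PT.lf (nat_lit 36708) (nat_lit 6) (nat_lit 483) (nat_lit 0) (nat_lit 177) (nat_lit 171) (nat_lit 162)) (PT.lf (nat_lit 36024) (nat_lit 6) (nat_lit 474) (nat_lit 0) (nat_lit 178) (nat_lit 171) (nat_lit 161))) (PT.nd (nat_lit 78) (PT.lf (nat_lit 35264) (nat_lit 6) (nat_lit 464) (nat_lit 0) (nat_lit 179) (nat_lit 171) (nat_lit 160)) (PT.lf (nat_lit 34428) (nat_lit 6) (nat_lit 453) (nat_lit 0) (nat_lit 180) (nat_lit 171) (nat_lit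 159)))) (PT.nd (nat_lit 156) (PT.nd (nat_lit 78) (PT.lf (nat_lit 33516) (nat_lit 6) (nat_lit 441) (nat_lit 0) (nat_lit 181) (nat_lit 171) (nat_lit 158)) (PT.lf (nat_lit 32528) (nat_lit 6) (nat_lit 428) (nat_lit 0) (nat_lit 182) (nat_lit 171) (nat_lit 157))) (PT.nd (nat_lit 78) (PT.lf (nat_lit 31464) (nat_lit 6) (nat_lit 414) (nat_lit 0) (nat_lit 183) (nat_lit 171) (nat_lit 156)) (PT.nd (nat_lit 78) (PT.lf (nat_lit 30324) (nat_lit 6) (nat_lit 399) (nat_lit 0) (nat_lit 184) (nat_lit 171) (nat_lit 155)) (PT.lf (nat_lit 29108) (nat_lit 6) (nat_lit 383) (nat_lit 0) (nat_lit 185) (nat_lit 171) (nat_lit 154))))))))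
noncomputable def pc27 : PT := (PT.nd (nat_lit 51558) (PT.nd (nat_lit 50856) (PT.nd (nat_lit 50544) (PT.nd (nat_lit 50388) (PT.nd (nat_lit 78) (PT.lf (nat_lit 27816) (nat_lit 6) (nat_lit 366) (nat_lit 0) (nat_lit 186) (nat_lit 171) (nat_lit 153)) (PT.lf (nat_lit 26904) (nat_lit 6) (nat_lit 354) (nat_lit 0) (nat_lit 187) (nat_lit 171) (nat_lit 152))) (PT.nd (nat_lit 78) (PT.lf (nat_lit 26296) (nat_lit 6) (nat_lit 346) (nat_lit 5) (nat_lit 151) (nat_lit 172) (nat_lit 187)) (PT.lf (nat_lit 26980) (nat_lit 6) (nat_lit 355) (nat_lit 5) (nat_lit 152) (nat_lit 172) (nat_lit 186)))) (PT.nd (nat_lit 156) (PT.nd (nat_lit 78) (PT.lf (nat_lit 27892) (nat_lit 6) (nat_lit 367) (nat_lit 5) (nat_lit 153) (nat_lit 172) (nat_lit 185)) (PT.lf (nat_lit 29184) (nat_lit 6) (nat_lit 384) (nat_lit 5) (nat_lit 154) (nat_lit 172) (nat_lit 184))) (PT.nd (nat_lit 78) (PT.lf (nat_lit 30400) (nat_lit 6) (nat_lit 400) (nat_lit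 5) (nat_lit 155) (nat_lit 172) (nat_lit 183)) (PT.lf (nat_lit 31540) (nat_lit 6) (nat_lit 415) (nat_lit 5) (nat_lit 156) (nat_lit 172) (nat_lit 182))))) (PT.nd (nat_lit 312) (PT.nd (nat_lit 156) (PT.nd (nat_lit 78) (PT.lf (nat_lit 32604) (nat_lit 6) (nat_lit 429) (nat_lit 5) (nat_lit 157) (nat_lit 172) (nat_lit 181)) (PT.lf (nat_lit 33592) (nat_lit 6) (nat_lit 442) (nat_lit 5) (nat_lit 158) (nat_lit 172) (nat_lit 180))) (PT.nd (nat_lit 78) (PT.lf (nat_lit 34504) (nat_lit 6) (nat_lit 454) (nat_lit 5) (nat_lit 159) (nat_lit 172) (nat_lit 179)) (PT.lf (nat_lit 35340) (nat_lit 6) (nat_lit 465) (nat_lit 5) (nat_lit 160) (nat_lit 172) (nat_lit 178)))) (PT.nd (nat_lit 156) (PT.nd (nat_lit 78) (PT.lf (nat_lit 36100) (nat_lit 6) (nat_lit 475) (nat_lit 5) (nat_lit 161) (nat_lit 172) (nat_lit 177)) (PT.lf (nat_lit 36784) (nat_lit 6) (nat_lit 484) (nat_lit 5) (nat_lit 162) (nat_lit 172) (nat_lit 176))) (PT.nd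 (nat_lit 78) (PT.lf (nat_lit 37392) (nat_lit 6) (nat_lit 492) (nat_lit 5) (nat_lit 163) (nat_lit 172) (nat_lit 175)) (PT.nd (nat_lit 78) (PT.lf (nat_lit 37924) (nat_lit 6) (nat_lit 499) (nat_lit 5) (nat_lit 164) (nat_lit 172) (nat_lit 174)) (PT.lf (nat_lit 38380) (nat_lit 6) (nat_lit 505) (nat_lit 5) (nat_lit 165) (nat_lit 172) (nat_lit 173))))))) (PT.nd (nat_lit 702) (PT.nd (nat_lit 312) (PT.nd (nat_lit 156) (PT.nd (nat_lit 78) (PT.lf (nat_lit 38760) (nat_lit 3) (nat_lit 510) (nat_lit 4) (nat_lit 166) (nat_lit 172) (nat_lit 172)) (PT.lf (nat_lit 38988) (nat_lit 6) (nat_lit 513) (nat_lit 4) (nat_lit 167) (nat_lit 172) (nat_lit 171))) (PT.nd (nat_lit 78) (PT.lf (nat_lit 39140) (nat_lit 6) (nat_lit 515) (nat_lit 4) (nat_lit 168) (nat_lit 172) (nat_lit 170)) (PT.lf (nat_lit 39064) (nat_lit 3) (nat_lit 514) (nat_lit 2) (nat_lit 169) (nat_lit 172) (nat_lit 169)))) (PT.nd (nat_lit 156) (PT.nd (nat_lit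 78) (PT.lf (nat_lit 39140) (nat_lit 6) (nat_lit 515) (nat_lit 2) (nat_lit 170) (nat_lit 172) (nat_lit 168)) (PT.lf (nat_lit 38988) (nat_lit 6) (nat_lit 513) (nat_lit 2) (nat_lit 171) (nat_lit 172) (nat_lit 167))) (PT.nd (nat_lit 78) (PT.lf (nat_lit 38760) (nat_lit 3) (nat_lit 510) (nat_lit 0) (nat_lit 172) (nat_lit 172) (nat_lit 166)) (PT.nd (nat_lit 78) (PT.lf (nat_lit 38380) (nat_lit 6) (nat_lit 505) (nat_lit 0) (nat_lit 173) (nat_lit 172) (nat_lit 165)) (PT.lf (nat_lit 37924) (nat_lit 6) (nat_lit 499) (nat_lit 0) (nat_lit 174) (nat_lit 172) (nat_lit 164)))))) (PT.nd (nat_lit 312) (PT.nd (nat_lit 156) (PT.nd (nat_lit 78) (PT.lf (nat_lit 37392) (nat_lit 6) (nat_lit 492) (nat_lit 0) (nat_lit 175) (nat_lit 172) (nat_lit 163)) (PT.lf (nat_lit 36784) (nat_lit 6) (nat_lit 484) (nat_lit 0) (nat_lit 176) (nat_lit 172) (nat_lit 162))) (PT.nd (nat_lit 78) (PT.lf (nat_lit 36100) (nat_lit 6) (nat_lit 475)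 (nat_lit 0) (nat_lit 177) (nat_lit 172) (nat_lit 161)) (PT.lf (nat_lit 35340) (nat_lit 6) (nat_lit 465) (nat_lit 0) (nat_lit 178) (nat_lit 172) (nat_lit 160)))) (PT.nd (nat_lit 156) (PT.nd (nat_lit 78) (PT.lf (nat_lit 34504) (nat_lit 6) (nat_lit 454) (nat_lit 0) (nat_lit 179) (nat_lit 172) (nat_lit 159)) (PT.lf (nat_lit 33592) (nat_lit 6) (nat_lit 442) (nat_lit 0) (nat_lit 180) (nat_lit 172) (nat_lit 158))) (PT.nd (nat_lit 78) (PT.lf (nat_lit 32604) (nat_lit 6) (nat_lit 429) (nat_lit 0) (nat_lit 181) (nat_lit 172) (nat_lit 157)) (PT.nd (nat_lit 78) (PT.lf (nat_lit 31540) (nat_lit 6) (nat_lit 415) (nat_lit 0) (nat_lit 182) (nat_lit 172) (nat_lit 156)) (PT.lf (nat_lit 30400) (nat_lit 6) (nat_lit 400) (nat_lit 0) (nat_lit 183) (nat_lit 172) (nat_lit 155))))))))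
noncomputable def pc28 : PT := (PT.nd (nat_lit 51402) (PT.nd (nat_lit 50700) (PT.nd (nat_lit 50388) (PT.nd (nat_lit 156) (PT.nd (nat_lit 78) (PT.lf (nat_lit 29184) (nat_lit 6) (nat_lit 384) (nat_lit 0) (nat_lit 184) (nat_lit 172) (nat_lit 154)) (PT.lf (nat_lit 27892) (nat_lit 6) (nat_lit 367) (nat_lit 0) (nat_lit 185) (nat_lit 172) (nat_lit 153))) (PT.nd (nat_lit 78) (PT.lf (nat_lit 26980) (nat_lit 6) (nat_lit 355) (nat_lit 0) (nat_lit 186) (nat_lit 172) (nat_lit 152)) (PT.lf (nat_lit 26296) (nat_lit 6) (nat_lit 346) (nat_lit 0) (nat_lit 187) (nat_lit 172) (nat_lit 151)))) (PT.nd (nat_lit 156) (PT.nd (nat_lit 78) (PT.lf (nat_lit 25080) (nat_lit 6) (nat_lit 330) (nat_lit 5) (nat_lit 149) (nat_lit 173) (nat_lit 188)) (PT.lf (nat_lit 25688) (nat_lit 6) (nat_lit 338) (nat_lit 5) (nat_lit 150) (nat_lit 173) (nat_lit 187))) (PT.nd (nat_lit 78) (PT.lf (nat_lit 26372) (nat_lit 6) (nat_lit 347) (nat_lit 5)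 (nat_lit 151) (nat_lit 173) (nat_lit 186)) (PT.lf (nat_lit 27056) (nat_lit 6) (nat_lit 356) (nat_lit 5) (nat_lit 152) (nat_lit 173) (nat_lit 185))))) (PT.nd (nat_lit 312) (PT.nd (nat_lit 156) (PT.nd (nat_lit 78) (PT.lf (nat_lit 27968) (nat_lit 6) (nat_lit 368) (nat_lit 5) (nat_lit 153) (nat_lit 173) (nat_lit 184)) (PT.lf (nat_lit 29260) (nat_lit 6) (nat_lit 385) (nat_lit 5) (nat_lit 154) (nat_lit 173) (nat_lit 183))) (PT.nd (nat_lit 78) (PT.lf (nat_lit 30476) (nat_lit 6) (nat_lit 401) (nat_lit 5) (nat_lit 155) (nat_lit 173) (nat_lit 182)) (PT.lf (nat_lit 31616) (nat_lit 6) (nat_lit 416) (nat_lit 5) (nat_lit 156) (nat_lit 173) (nat_lit 181)))) (PT.nd (nat_lit 156) (PT.nd (nat_lit 78) (PT.lf (nat_lit 32680) (nat_lit 6) (nat_lit 430) (nat_lit 5) (nat_lit 157) (nat_lit 173) (nat_lit 180)) (PT.lf (nat_lit 33668) (nat_lit 6) (nat_lit 443) (nat_lit 5) (nat_lit 158) (nat_lit 173) (nat_lit 179))) (PT.nd (nat_lit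 78) (PT.lf (nat_lit 34580) (nat_lit 6) (nat_lit 455) (nat_lit 5) (nat_lit 159) (nat_lit 173) (nat_lit 178)) (PT.nd (nat_lit 78) (PT.lf (nat_lit 35416) (nat_lit 6) (nat_lit 466) (nat_lit 5) (nat_lit 160) (nat_lit 173) (nat_lit 177)) (PT.lf (nat_lit 36176) (nat_lit 6) (nat_lit 476) (nat_lit 5) (nat_lit 161) (nat_lit 173) (nat_lit 176))))))) (PT.nd (nat_lit 624) (PT.nd (nat_lit 312) (PT.nd (nat_lit 156) (PT.nd (nat_lit 78) (PT.lf (nat_lit 36860) (nat_lit 6) (nat_lit 485) (nat_lit 5) (nat_lit 162) (nat_lit 173) (nat_lit 175)) (PT.lf (nat_lit 37468) (nat_lit 6) (nat_lit 493) (nat_lit 5) (nat_lit 163) (nat_lit 173) (nat_lit 174))) (PT.nd (nat_lit 78) (PT.lf (nat_lit 38000) (nat_lit 3) (nat_lit 500) (nat_lit 4) (nat_lit 164) (nat_lit 173) (nat_lit 173)) (PT.lf (nat_lit 38380) (nat_lit 6) (nat_lit 505) (nat_lit 4) (nat_lit 165) (nat_lit 173) (nat_lit 172)))) (PT.nd (nat_lit 156) (PT.nd (nat_lit 78) (PT.lf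 (nat_lit 38684) (nat_lit 6) (nat_lit 509) (nat_lit 4) (nat_lit 166) (nat_lit 173) (nat_lit 171)) (PT.lf (nat_lit 38912) (nat_lit 6) (nat_lit 512) (nat_lit 4) (nat_lit 167) (nat_lit 173) (nat_lit 170))) (PT.nd (nat_lit 78) (PT.lf (nat_lit 38836) (nat_lit 6) (nat_lit 511) (nat_lit 4) (nat_lit 168) (nat_lit 173) (nat_lit 169)) (PT.lf (nat_lit 38836) (nat_lit 6) (nat_lit 511) (nat_lit 2) (nat_lit 169) (nat_lit 173) (nat_lit 168))))) (PT.nd (nat_lit 312) (PT.nd (nat_lit 156) (PT.nd (nat_lit 78) (PT.lf (nat_lit 38912) (nat_lit 6) (nat_lit 512) (nat_lit 2) (nat_lit 170) (nat_lit 173) (nat_lit 167)) (PT.lf (nat_lit 38684) (nat_lit 6) (nat_lit 509) (nat_lit 2) (nat_lit 171) (nat_lit 173) (nat_lit 166))) (PT.nd (nat_lit 78) (PT.lf (nat_lit 38380) (nat_lit 6) (nat_lit 505) (nat_lit 2) (nat_lit 172) (nat_lit 173) (nat_lit 165)) (PT.lf (nat_lit 38000) (nat_lit 3) (nat_lit 500) (nat_lit 0) (nat_lit 173) (nat_lit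 173) (nat_lit 164)))) (PT.nd (nat_lit 156) (PT.nd (nat_lit 78) (PT.lf (nat_lit 37468) (nat_lit 6) (nat_lit 493) (nat_lit 0) (nat_lit 174) (nat_lit 173) (nat_lit 163)) (PT.lf (nat_lit 36860) (nat_lit 6) (nat_lit 485) (nat_lit 0) (nat_lit 175) (nat_lit 173) (nat_lit 162))) (PT.nd (nat_lit 78) (PT.lf (nat_lit 36176) (nat_lit 6) (nat_lit 476) (nat_lit 0) (nat_lit 176) (nat_lit 173) (nat_lit 161)) (PT.nd (nat_lit 78) (PT.lf (nat_lit 35416) (nat_lit 6) (nat_lit 466) (nat_lit 0) (nat_lit 177) (nat_lit 173) (nat_lit 160)) (PT.lf (nat_lit 34580) (nat_lit 6) (nat_lit 455) (nat_lit 0) (nat_lit 178) (nat_lit 173) (nat_lit 159))))))))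
noncomputable def pc29 : PT := (PT.nd (nat_lit 51246) (PT.nd (nat_lit 624) (PT.nd (nat_lit 312) (PT.nd (nat_lit 156) (PT.nd (nat_lit 78) (PT.lf (nat_lit 33668) (nat_lit 6) (nat_lit 443) (nat_lit 0) (nat_lit 179) (nat_lit 173) (nat_lit 158)) (PT.lf (nat_lit 32680) (nat_lit 6) (nat_lit 430) (nat_lit 0) (nat_lit 180) (nat_lit 173) (nat_lit 157))) (PT.nd (nat_lit 78) (PT.lf (nat_lit 31616) (nat_lit 6) (nat_lit 416) (nat_lit 0) (nat_lit 181) (nat_lit 173) (nat_lit 156)) (PT.lf (nat_lit 30476) (nat_lit 6) (nat_lit 401) (nat_lit 0) (nat_lit 182) (nat_lit 173) (nat_lit 155)))) (PT.nd (nat_lit 156) (PT.nd (nat_lit 78) (PT.lf (nat_lit 29260) (nat_lit 6) (nat_lit 385) (nat_lit 0) (nat_lit 183) (nat_lit 173) (nat_lit 154)) (PT.lf (nat_lit 27968) (nat_lit 6) (nat_lit 368) (nat_lit 0) (nat_lit 184) (nat_lit 173) (nat_lit 153))) (PT.nd (nat_lit 78) (PT.lf (nat_lit 27056) (nat_lit 6) (nat_lit 356) (nat_lit 0) (nat_lit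 185) (nat_lit 173) (nat_lit 152)) (PT.lf (nat_lit 26372) (nat_lit 6) (nat_lit 347) (nat_lit 0) (nat_lit 186) (nat_lit 173) (nat_lit 151))))) (PT.nd (nat_lit 50232) (PT.nd (nat_lit 50076) (PT.nd (nat_lit 78) (PT.lf (nat_lit 25688) (nat_lit 6) (nat_lit 338) (nat_lit 0) (nat_lit 187) (nat_lit 173) (nat_lit 150)) (PT.lf (nat_lit 25080) (nat_lit 6) (nat_lit 330) (nat_lit 0) (nat_lit 188) (nat_lit 173) (nat_lit 149))) (PT.nd (nat_lit 78) (PT.lf (nat_lit 24472) (nat_lit 6) (nat_lit 322) (nat_lit 5) (nat_lit 148) (nat_lit 174) (nat_lit 188)) (PT.lf (nat_lit 25156) (nat_lit 6) (nat_lit 331) (nat_lit 5) (nat_lit 149) (nat_lit 174) (nat_lit 187)))) (PT.nd (nat_lit 156) (PT.nd (nat_lit 78) (PT.lf (nat_lit 25764) (nat_lit 6) (nat_lit 339) (nat_lit 5) (nat_lit 150) (nat_lit 174) (nat_lit 186)) (PT.lf (nat_lit 26448) (nat_lit 6) (nat_lit 348) (nat_lit 5) (nat_lit 151) (nat_lit 174) (nat_lit 185))) (PT.nd (nat_lit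 78) (PT.lf (nat_lit 27132) (nat_lit 6) (nat_lit 357) (nat_lit 5) (nat_lit 152) (nat_lit 174) (nat_lit 184)) (PT.nd (nat_lit 78) (PT.lf (nat_lit 28044) (nat_lit 6) (nat_lit 369) (nat_lit 5) (nat_lit 153) (nat_lit 174) (nat_lit 183)) (PT.lf (nat_lit 29336) (nat_lit 6) (nat_lit 386) (nat_lit 5) (nat_lit 154) (nat_lit 174) (nat_lit 182))))))) (PT.nd (nat_lit 702) (PT.nd (nat_lit 312) (PT.nd (nat_lit 156) (PT.nd (nat_lit 78) (PT.lf (nat_lit 30552) (nat_lit 6) (nat_lit 402) (nat_lit 5) (nat_lit 155) (nat_lit 174) (nat_lit 181)) (PT.lf (nat_lit 31692) (nat_lit 6) (nat_lit 417) (nat_lit 5) (nat_lit 156) (nat_lit 174) (nat_lit 180))) (PT.nd (nat_lit 78) (PT.lf (nat_lit 32756) (nat_lit 6) (nat_lit 431) (nat_lit 5) (nat_lit 157) (nat_lit 174) (nat_lit 179)) (PT.lf (nat_lit 33744) (nat_lit 6) (nat_lit 444) (nat_lit 5) (nat_lit 158) (nat_lit 174) (nat_lit 178)))) (PT.nd (nat_lit 156) (PT.nd (nat_lit 78) (PT.lf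 (nat_lit 34656) (nat_lit 6) (nat_lit 456) (nat_lit 5) (nat_lit 159) (nat_lit 174) (nat_lit 177)) (PT.lf (nat_lit 35492) (nat_lit 6) (nat_lit 467) (nat_lit 5) (nat_lit 160) (nat_lit 174) (nat_lit 176))) (PT.nd (nat_lit 78) (PT.lf (nat_lit 36252) (nat_lit 6) (nat_lit 477) (nat_lit 5) (nat_lit 161) (nat_lit 174) (nat_lit 175)) (PT.nd (nat_lit 78) (PT.lf (nat_lit 36936) (nat_lit 3) (nat_lit 486) (nat_lit 4) (nat_lit 162) (nat_lit 174) (nat_lit 174)) (PT.lf (nat_lit 37468) (nat_lit 6) (nat_lit 493) (nat_lit 4) (nat_lit 163) (nat_lit 174) (nat_lit 173)))))) (PT.nd (nat_lit 312) (PT.nd (nat_lit 156) (PT.nd (nat_lit 78) (PT.lf (nat_lit 37924) (nat_lit 6) (nat_lit 499) (nat_lit 4) (nat_lit 164) (nat_lit 174) (nat_lit 172)) (PT.lf (nat_lit 38304) (nat_lit 6) (nat_lit 504) (nat_lit 4) (nat_lit 165) (nat_lit 174) (nat_lit 171))) (PT.nd (nat_lit 78) (PT.lf (nat_lit 38608) (nat_lit 6) (nat_lit 508) (nat_lit 4)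 (nat_lit 166) (nat_lit 174) (nat_lit 170)) (PT.lf (nat_lit 38532) (nat_lit 6) (nat_lit 507) (nat_lit 4) (nat_lit 167) (nat_lit 174) (nat_lit 169)))) (PT.nd (nat_lit 156) (PT.nd (nat_lit 78) (PT.lf (nat_lit 38456) (nat_lit 3) (nat_lit 506) (nat_lit 2) (nat_lit 168) (nat_lit 174) (nat_lit 168)) (PT.lf (nat_lit 38532) (nat_lit 6) (nat_lit 507) (nat_lit 2) (nat_lit 169) (nat_lit 174) (nat_lit 167))) (PT.nd (nat_lit 78) (PT.lf (nat_lit 38608) (nat_lit 6) (nat_lit 508) (nat_lit 2) (nat_lit 170) (nat_lit 174) (nat_lit 166)) (PT.nd (nat_lit 78) (PT.lf (nat_lit 38304) (nat_lit 6) (nat_lit 504) (nat_lit 2) (nat_lit 171) (nat_lit 174) (nat_lit 165)) (PT.lf (nat_lit 37924) (nat_lit 6) (nat_lit 499) (nat_lit 2) (nat_lit 172) (nat_lit 174) (nat_lit 164))))))))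
noncomputable def pc30 : PT := (PT.nd (nat_lit 51168) (PT.nd (nat_lit 624) (PT.nd (nat_lit 312) (PT.nd (nat_lit 156) (PT.nd (nat_lit 78) (PT.lf (nat_lit 37468) (nat_lit 6) (nat_lit 493) (nat_lit 2) (nat_lit 173) (nat_lit 174) (nat_lit 163)) (PT.lf (nat_lit 36936) (nat_lit 3) (nat_lit 486) (nat_lit 0) (nat_lit 174) (nat_lit 174) (nat_lit 162))) (PT.nd (nat_lit 78) (PT.lf (nat_lit 36252) (nat_lit 6) (nat_lit 477) (nat_lit 0) (nat_lit 175) (nat_lit 174) (nat_lit 161)) (PT.lf (nat_lit 35492) (nat_lit 6) (nat_lit 467) (nat_lit 0) (nat_lit 176) (nat_lit 174) (nat_lit 160)))) (PT.nd (nat_lit 156) (PT.nd (nat_lit 78) (PT.lf (nat_lit 34656) (nat_lit 6) (nat_lit 456) (nat_lit 0) (nat_lit 177) (nat_lit 174) (nat_lit 159)) (PT.lf (nat_lit 33744) (nat_lit 6) (nat_lit 444) (nat_lit 0) (nat_lit 178) (nat_lit 174) (nat_lit 158))) (PT.nd (nat_lit 78) (PT.lf (nat_lit 32756) (nat_lit 6) (nat_lit 431) (nat_lit 0) (nat_lit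 179) (nat_lit 174) (nat_lit 157)) (PT.lf (nat_lit 31692) (nat_lit 6) (nat_lit 417) (nat_lit 0) (nat_lit 180) (nat_lit 174) (nat_lit 156))))) (PT.nd (nat_lit 312) (PT.nd (nat_lit 156) (PT.nd (nat_lit 78) (PT.lf (nat_lit 30552) (nat_lit 6) (nat_lit 402) (nat_lit 0) (nat_lit 181) (nat_lit 174) (nat_lit 155)) (PT.lf (nat_lit 29336) (nat_lit 6) (nat_lit 386) (nat_lit 0) (nat_lit 182) (nat_lit 174) (nat_lit 154))) (PT.nd (nat_lit 78) (PT.lf (nat_lit 28044) (nat_lit 6) (nat_lit 369) (nat_lit 0) (nat_lit 183) (nat_lit 174) (nat_lit 153)) (PT.lf (nat_lit 27132) (nat_lit 6) (nat_lit 357) (nat_lit 0) (nat_lit 184) (nat_lit 174) (nat_lit 152)))) (PT.nd (nat_lit 156) (PT.nd (nat_lit 78) (PT.lf (nat_lit 26448) (nat_lit 6) (nat_lit 348) (nat_lit 0) (nat_lit 185) (nat_lit 174) (nat_lit 151)) (PT.lf (nat_lit 25764) (nat_lit 6) (nat_lit 339) (nat_lit 0) (nat_lit 186) (nat_lit 174) (nat_lit 150))) (PT.nd (nat_lit 78)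 (PT.lf (nat_lit 25156) (nat_lit 6) (nat_lit 331) (nat_lit 0) (nat_lit 187) (nat_lit 174) (nat_lit 149)) (PT.nd (nat_lit 49920) (PT.lf (nat_lit 24472) (nat_lit 6) (nat_lit 322) (nat_lit 0) (nat_lit 188) (nat_lit 174) (nat_lit 148)) (PT.lf (nat_lit 23940) (nat_lit 6) (nat_lit 315) (nat_lit 5) (nat_lit 147) (nat_lit 175) (nat_lit 188))))))) (PT.nd (nat_lit 624) (PT.nd (nat_lit 312) (PT.nd (nat_lit 156) (PT.nd (nat_lit 78) (PT.lf (nat_lit 24548) (nat_lit 6) (nat_lit 323) (nat_lit 5) (nat_lit 148) (nat_lit 175) (nat_lit 187)) (PT.lf (nat_lit 25232) (nat_lit 6) (nat_lit 332) (nat_lit 5) (nat_lit 149) (nat_lit 175) (nat_lit 186))) (PT.nd (nat_lit 78) (PT.lf (nat_lit 25840) (nat_lit 6) (nat_lit 340) (nat_lit 5) (nat_lit 150) (nat_lit 175) (nat_lit 185)) (PT.lf (nat_lit 26524) (nat_lit 6) (nat_lit 349) (nat_lit 5) (nat_lit 151) (nat_lit 175) (nat_lit 184)))) (PT.nd (nat_lit 156) (PT.nd (nat_lit 78) (PT.lf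 (nat_lit 27208) (nat_lit 6) (nat_lit 358) (nat_lit 5) (nat_lit 152) (nat_lit 175) (nat_lit 183)) (PT.lf (nat_lit 28120) (nat_lit 6) (nat_lit 370) (nat_lit 5) (nat_lit 153) (nat_lit 175) (nat_lit 182))) (PT.nd (nat_lit 78) (PT.lf (nat_lit 29412) (nat_lit 6) (nat_lit 387) (nat_lit 5) (nat_lit 154) (nat_lit 175) (nat_lit 181)) (PT.lf (nat_lit 30628) (nat_lit 6) (nat_lit 403) (nat_lit 5) (nat_lit 155) (nat_lit 175) (nat_lit 180))))) (PT.nd (nat_lit 312) (PT.nd (nat_lit 156) (PT.nd (nat_lit 78) (PT.lf (nat_lit 31768) (nat_lit 6) (nat_lit 418) (nat_lit 5) (nat_lit 156) (nat_lit 175) (nat_lit 179)) (PT.lf (nat_lit 32832) (nat_lit 6) (nat_lit 432) (nat_lit 5) (nat_lit 157) (nat_lit 175) (nat_lit 178))) (PT.nd (nat_lit 78) (PT.lf (nat_lit 33820) (nat_lit 6) (nat_lit 445) (nat_lit 5) (nat_lit 158) (nat_lit 175) (nat_lit 177)) (PT.lf (nat_lit 34732) (nat_lit 6) (nat_lit 457) (nat_lit 5) (nat_lit 159) (nat_lit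 175) (nat_lit 176)))) (PT.nd (nat_lit 156) (PT.nd (nat_lit 78) (PT.lf (nat_lit 35568) (nat_lit 3) (nat_lit 468) (nat_lit 4) (nat_lit 160) (nat_lit 175) (nat_lit 175)) (PT.lf (nat_lit 36252) (nat_lit 6) (nat_lit 477) (nat_lit 4) (nat_lit 161) (nat_lit 175) (nat_lit 174))) (PT.nd (nat_lit 78) (PT.lf (nat_lit 36860) (nat_lit 6) (nat_lit 485) (nat_lit 4) (nat_lit 162) (nat_lit 175) (nat_lit 173)) (PT.nd (nat_lit 78) (PT.lf (nat_lit 37392) (nat_lit 6) (nat_lit 492) (nat_lit 4) (nat_lit 163) (nat_lit 175) (nat_lit 172)) (PT.lf (nat_lit 37848) (nat_lit 6) (nat_lit 498) (nat_lit 4) (nat_lit 164) (nat_lit 175) (nat_lit 171))))))))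
noncomputable def pc31 : PT := (PT.nd (nat_lit 1326) (PT.nd (nat_lit 624) (PT.nd (nat_lit 312) (PT.nd (nat_lit 156) (PT.nd (nat_lit 78) (PT.lf (nat_lit 38228) (nat_lit 6) (nat_lit 503) (nat_lit 4) (nat_lit 165) (nat_lit 175) (nat_lit 170)) (PT.lf (nat_lit 38152) (nat_lit 6) (nat_lit 502) (nat_lit 4) (nat_lit 166) (nat_lit 175) (nat_lit 169))) (PT.nd (nat_lit 78) (PT.lf (nat_lit 38076) (nat_lit 6) (nat_lit 501) (nat_lit 4) (nat_lit 167) (nat_lit 175) (nat_lit 168)) (PT.lf (nat_lit 38076) (nat_lit 6) (nat_lit 501) (nat_lit 2) (nat_lit 168) (nat_lit 175) (nat_lit 167)))) (PT.nd (nat_lit 156) (PT.nd (nat_lit 78) (PT.lf (nat_lit 38152) (nat_lit 6) (nat_lit 502) (nat_lit 2) (nat_lit 169) (nat_lit 175) (nat_lit 166)) (PT.lf (nat_lit 38228) (nat_lit 6) (nat_lit 503) (nat_lit 2) (nat_lit 170) (nat_lit 175) (nat_lit 165))) (PT.nd (nat_lit 78) (PT.lf (nat_lit 37848) (nat_lit 6) (nat_lit 498) (nat_lit 2) (nat_lit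 171) (nat_lit 175) (nat_lit 164)) (PT.lf (nat_lit 37392) (nat_lit 6) (nat_lit 492) (nat_lit 2) (nat_lit 172) (nat_lit 175) (nat_lit 163))))) (PT.nd (nat_lit 312) (PT.nd (nat_lit 156) (PT.nd (nat_lit 78) (PT.lf (nat_lit 36860) (nat_lit 6) (nat_lit 485) (nat_lit 2) (nat_lit 173) (nat_lit 175) (nat_lit 162)) (PT.lf (nat_lit 36252) (nat_lit 6) (nat_lit 477) (nat_lit 2) (nat_lit 174) (nat_lit 175) (nat_lit 161))) (PT.nd (nat_lit 78) (PT.lf (nat_lit 35568) (nat_lit 3) (nat_lit 468) (nat_lit 0) (nat_lit 175) (nat_lit 175) (nat_lit 160)) (PT.lf (nat_lit 34732) (nat_lit 6) (nat_lit 457) (nat_lit 0) (nat_lit 176) (nat_lit 175) (nat_lit 159)))) (PT.nd (nat_lit 156) (PT.nd (nat_lit 78) (PT.lf (nat_lit 33820) (nat_lit 6) (nat_lit 445) (nat_lit 0) (nat_lit 177) (nat_lit 175) (nat_lit 158)) (PT.lf (nat_lit 32832) (nat_lit 6) (nat_lit 432) (nat_lit 0) (nat_lit 178) (nat_lit 175) (nat_lit 157))) (PT.nd (nat_lit 78)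 (PT.lf (nat_lit 31768) (nat_lit 6) (nat_lit 418) (nat_lit 0) (nat_lit 179) (nat_lit 175) (nat_lit 156)) (PT.nd (nat_lit 78) (PT.lf (nat_lit 30628) (nat_lit 6) (nat_lit 403) (nat_lit 0) (nat_lit 180) (nat_lit 175) (nat_lit 155)) (PT.lf (nat_lit 29412) (nat_lit 6) (nat_lit 387) (nat_lit 0) (nat_lit 181) (nat_lit 175) (nat_lit 154))))))) (PT.nd (nat_lit 50388) (PT.nd (nat_lit 312) (PT.nd (nat_lit 156) (PT.nd (nat_lit 78) (PT.lf (nat_lit 28120) (nat_lit 6) (nat_lit 370) (nat_lit 0) (nat_lit 182) (nat_lit 175) (nat_lit 153)) (PT.lf (nat_lit 27208) (nat_lit 6) (nat_lit 358) (nat_lit 0) (nat_lit 183) (nat_lit 175) (nat_lit 152))) (PT.nd (nat_lit 78) (PT.lf (nat_lit 26524) (nat_lit 6) (nat_lit 349) (nat_lit 0) (nat_lit 184) (nat_lit 175) (nat_lit 151)) (PT.lf (nat_lit 25840) (nat_lit 6) (nat_lit 340) (nat_lit 0) (nat_lit 185) (nat_lit 175) (nat_lit 150)))) (PT.nd (nat_lit 156) (PT.nd (nat_lit 78) (PT.lf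 (nat_lit 25232) (nat_lit 6) (nat_lit 332) (nat_lit 0) (nat_lit 186) (nat_lit 175) (nat_lit 149)) (PT.lf (nat_lit 24548) (nat_lit 6) (nat_lit 323) (nat_lit 0) (nat_lit 187) (nat_lit 175) (nat_lit 148))) (PT.nd (nat_lit 49764) (PT.lf (nat_lit 23940) (nat_lit 6) (nat_lit 315) (nat_lit 0) (nat_lit 188) (nat_lit 175) (nat_lit 147)) (PT.nd (nat_lit 78) (PT.lf (nat_lit 22876) (nat_lit 6) (nat_lit 301) (nat_lit 5) (nat_lit 145) (nat_lit 176) (nat_lit 189)) (PT.lf (nat_lit 23408) (nat_lit 6) (nat_lit 308) (nat_lit 5) (nat_lit 146) (nat_lit 176) (nat_lit 188)))))) (PT.nd (nat_lit 312) (PT.nd (nat_lit 156) (PT.nd (nat_lit 78) (PT.lf (nat_lit 24016) (nat_lit 6) (nat_lit 316) (nat_lit 5) (nat_lit 147) (nat_lit 176) (nat_lit 187)) (PT.lf (nat_lit 24624) (nat_lit 6) (nat_lit 324) (nat_lit 5) (nat_lit 148) (nat_lit 176) (nat_lit 186))) (PT.nd (nat_lit 78) (PT.lf (nat_lit 25308) (nat_lit 6) (nat_lit 333) (nat_lit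 5) (nat_lit 149) (nat_lit 176) (nat_lit 185)) (PT.lf (nat_lit 25916) (nat_lit 6) (nat_lit 341) (nat_lit 5) (nat_lit 150) (nat_lit 176) (nat_lit 184)))) (PT.nd (nat_lit 156) (PT.nd (nat_lit 78) (PT.lf (nat_lit 26600) (nat_lit 6) (nat_lit 350) (nat_lit 5) (nat_lit 151) (nat_lit 176) (nat_lit 183)) (PT.lf (nat_lit 27284) (nat_lit 6) (nat_lit 359) (nat_lit 5) (nat_lit 152) (nat_lit 176) (nat_lit 182))) (PT.nd (nat_lit 78) (PT.lf (nat_lit 28196) (nat_lit 6) (nat_lit 371) (nat_lit 5) (nat_lit 153) (nat_lit 176) (nat_lit 181)) (PT.nd (nat_lit 78) (PT.lf (nat_lit 29488) (nat_lit 6) (nat_lit 388) (nat_lit 5) (nat_lit 154) (nat_lit 176) (nat_lit 180)) (PT.lf (nat_lit 30704) (nat_lit 6) (nat_lit 404) (nat_lit 5) (nat_lit 155) (nat_lit 176) (nat_lit 179))))))))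
noncomputable def pc32 : PT := (PT.nd (nat_lit 1326) (PT.nd (nat_lit 624) (PT.nd (nat_lit 312) (PT.nd (nat_lit 156) (PT.nd (nat_lit 78) (PT.lf (nat_lit 31844) (nat_lit 6) (nat_lit 419) (nat_lit 5) (nat_lit 156) (nat_lit 176) (nat_lit 178)) (PT.lf (nat_lit 32908) (nat_lit 6) (nat_lit 433) (nat_lit 5) (nat_lit 157) (nat_lit 176) (nat_lit 177))) (PT.nd (nat_lit 78) (PT.lf (nat_lit 33896) (nat_lit 3) (nat_lit 446) (nat_lit 4) (nat_lit 158) (nat_lit 176) (nat_lit 176)) (PT.lf (nat_lit 34732) (nat_lit 6) (nat_lit 457) (nat_lit 4) (nat_lit 159) (nat_lit 176) (nat_lit 175)))) (PT.nd (nat_lit 156) (PT.nd (nat_lit 78) (PT.lf (nat_lit 35492) (nat_lit 6) (nat_lit 467) (nat_lit 4) (nat_lit 160) (nat_lit 176) (nat_lit 174)) (PT.lf (nat_lit 36176) (nat_lit 6) (nat_lit 476) (nat_lit 4) (nat_lit 161) (nat_lit 176) (nat_lit 173))) (PT.nd (nat_lit 78) (PT.lf (nat_lit 36784) (nat_lit 6) (nat_lit 484) (nat_lit 4) (nat_lit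 162) (nat_lit 176) (nat_lit 172)) (PT.lf (nat_lit 37316) (nat_lit 6) (nat_lit 491) (nat_lit 4) (nat_lit 163) (nat_lit 176) (nat_lit 171))))) (PT.nd (nat_lit 312) (PT.nd (nat_lit 156) (PT.nd (nat_lit 78) (PT.lf (nat_lit 37772) (nat_lit 6) (nat_lit 497) (nat_lit 4) (nat_lit 164) (nat_lit 176) (nat_lit 170)) (PT.lf (nat_lit 37696) (nat_lit 6) (nat_lit 496) (nat_lit 4) (nat_lit 165) (nat_lit 176) (nat_lit 169))) (PT.nd (nat_lit 78) (PT.lf (nat_lit 37620) (nat_lit 6) (nat_lit 495) (nat_lit 4) (nat_lit 166) (nat_lit 176) (nat_lit 168)) (PT.lf (nat_lit 37544) (nat_lit 3) (nat_lit 494) (nat_lit 2) (nat_lit 167) (nat_lit 176) (nat_lit 167)))) (PT.nd (nat_lit 156) (PT.nd (nat_lit 78) (PT.lf (nat_lit 37620) (nat_lit 6) (nat_lit 495) (nat_lit 2) (nat_lit 168) (nat_lit 176) (nat_lit 166)) (PT.lf (nat_lit 37696) (nat_lit 6) (nat_lit 496) (nat_lit 2) (nat_lit 169) (nat_lit 176) (nat_lit 165))) (PT.nd (nat_lit 78)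 (PT.lf (nat_lit 37772) (nat_lit 6) (nat_lit 497) (nat_lit 2) (nat_lit 170) (nat_lit 176) (nat_lit 164)) (PT.nd (nat_lit 78) (PT.lf (nat_lit 37316) (nat_lit 6) (nat_lit 491) (nat_lit 2) (nat_lit 171) (nat_lit 176) (nat_lit 163)) (PT.lf (nat_lit 36784) (nat_lit 6) (nat_lit 484) (nat_lit 2) (nat_lit 172) (nat_lit 176) (nat_lit 162))))))) (PT.nd (nat_lit 624) (PT.nd (nat_lit 312) (PT.nd (nat_lit 156) (PT.nd (nat_lit 78) (PT.lf (nat_lit 36176) (nat_lit 6) (nat_lit 476) (nat_lit 2) (nat_lit 173) (nat_lit 176) (nat_lit 161)) (PT.lf (nat_lit 35492) (nat_lit 6) (nat_lit 467) (nat_lit 2) (nat_lit 174) (nat_lit 176) (nat_lit 160))) (PT.nd (nat_lit 78) (PT.lf (nat_lit 34732) (nat_lit 6) (nat_lit 457) (nat_lit 2) (nat_lit 175) (nat_lit 176) (nat_lit 159)) (PT.lf (nat_lit 33896) (nat_lit 3) (nat_lit 446) (nat_lit 0) (nat_lit 176) (nat_lit 176) (nat_lit 158)))) (PT.nd (nat_lit 156) (PT.nd (nat_lit 78) (PT.lf (nat_lit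 32908) (nat_lit 6) (nat_lit 433) (nat_lit 0) (nat_lit 177) (nat_lit 176) (nat_lit 157)) (PT.lf (nat_lit 31844) (nat_lit 6) (nat_lit 419) (nat_lit 0) (nat_lit 178) (nat_lit 176) (nat_lit 156))) (PT.nd (nat_lit 78) (PT.lf (nat_lit 30704) (nat_lit 6) (nat_lit 404) (nat_lit 0) (nat_lit 179) (nat_lit 176) (nat_lit 155)) (PT.lf (nat_lit 29488) (nat_lit 6) (nat_lit 388) (nat_lit 0) (nat_lit 180) (nat_lit 176) (nat_lit 154))))) (PT.nd (nat_lit 312) (PT.nd (nat_lit 156) (PT.nd (nat_lit 78) (PT.lf (nat_lit 28196) (nat_lit 6) (nat_lit 371) (nat_lit 0) (nat_lit 181) (nat_lit 176) (nat_lit 153)) (PT.lf (nat_lit 27284) (nat_lit 6) (nat_lit 359) (nat_lit 0) (nat_lit 182) (nat_lit 176) (nat_lit 152))) (PT.nd (nat_lit 78) (PT.lf (nat_lit 26600) (nat_lit 6) (nat_lit 350) (nat_lit 0) (nat_lit 183) (nat_lit 176) (nat_lit 151)) (PT.lf (nat_lit 25916) (nat_lit 6) (nat_lit 341) (nat_lit 0) (nat_lit 184) (nat_lit 176) (nat_lit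 150)))) (PT.nd (nat_lit 156) (PT.nd (nat_lit 78) (PT.lf (nat_lit 25308) (nat_lit 6) (nat_lit 333) (nat_lit 0) (nat_lit 185) (nat_lit 176) (nat_lit 149)) (PT.lf (nat_lit 24624) (nat_lit 6) (nat_lit 324) (nat_lit 0) (nat_lit 186) (nat_lit 176) (nat_lit 148))) (PT.nd (nat_lit 78) (PT.lf (nat_lit 24016) (nat_lit 6) (nat_lit 316) (nat_lit 0) (nat_lit 187) (nat_lit 176) (nat_lit 147)) (PT.nd (nat_lit 78) (PT.lf (nat_lit 23408) (nat_lit 6) (nat_lit 308) (nat_lit 0) (nat_lit 188) (nat_lit 176) (nat_lit 146)) (PT.lf (nat_lit 22876) (nat_lit 6) (nat_lit 301) (nat_lit 0) (nat_lit 189) (nat_lit 176) (nat_lit 145))))))))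
noncomputable def pc33 : PT := (PT.nd (nat_lit 1326) (PT.nd (nat_lit 624) (PT.nd (nat_lit 312) (PT.nd (nat_lit 156) (PT.nd (nat_lit 78) (PT.lf (nat_lit 22344) (nat_lit 6) (nat_lit 294) (nat_lit 5) (nat_lit 144) (nat_lit 177) (nat_lit 189)) (PT.lf (nat_lit 22952) (nat_lit 6) (nat_lit 302) (nat_lit 5) (nat_lit 145) (nat_lit 177) (nat_lit 188))) (PT.nd (nat_lit 78) (PT.lf (nat_lit 23484) (nat_lit 6) (nat_lit 309) (nat_lit 5) (nat_lit 146) (nat_lit 177) (nat_lit 187)) (PT.lf (nat_lit 24092) (nat_lit 6) (nat_lit 317) (nat_lit 5) (nat_lit 147) (nat_lit 177) (nat_lit 186)))) (PT.nd (nat_lit 156) (PT.nd (nat_lit 78) (PT.lf (nat_lit 24700) (nat_lit 6) (nat_lit 325) (nat_lit 5) (nat_lit 148) (nat_lit 177) (nat_lit 185)) (PT.lf (nat_lit 25384) (nat_lit 6) (nat_lit 334) (nat_lit 5) (nat_lit 149) (nat_lit 177) (nat_lit 184))) (PT.nd (nat_lit 78) (PT.lf (nat_lit 25992) (nat_lit 6) (nat_lit 342) (nat_lit 5) (nat_lit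 150) (nat_lit 177) (nat_lit 183)) (PT.lf (nat_lit 26676) (nat_lit 6) (nat_lit 351) (nat_lit 5) (nat_lit 151) (nat_lit 177) (nat_lit 182))))) (PT.nd (nat_lit 312) (PT.nd (nat_lit 156) (PT.nd (nat_lit 78) (PT.lf (nat_lit 27360) (nat_lit 6) (nat_lit 360) (nat_lit 5) (nat_lit 152) (nat_lit 177) (nat_lit 181)) (PT.lf (nat_lit 28272) (nat_lit 6) (nat_lit 372) (nat_lit 5) (nat_lit 153) (nat_lit 177) (nat_lit 180))) (PT.nd (nat_lit 78) (PT.lf (nat_lit 29564) (nat_lit 6) (nat_lit 389) (nat_lit 5) (nat_lit 154) (nat_lit 177) (nat_lit 179)) (PT.lf (nat_lit 30780) (nat_lit 6) (nat_lit 405) (nat_lit 5) (nat_lit 155) (nat_lit 177) (nat_lit 178)))) (PT.nd (nat_lit 156) (PT.nd (nat_lit 78) (PT.lf (nat_lit 31920) (nat_lit 3) (nat_lit 420) (nat_lit 4) (nat_lit 156) (nat_lit 177) (nat_lit 177)) (PT.lf (nat_lit 32908) (nat_lit 6) (nat_lit 433) (nat_lit 4) (nat_lit 157) (nat_lit 177) (nat_lit 176))) (PT.nd (nat_lit 78)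 (PT.lf (nat_lit 33820) (nat_lit 6) (nat_lit 445) (nat_lit 4) (nat_lit 158) (nat_lit 177) (nat_lit 175)) (PT.nd (nat_lit 78) (PT.lf (nat_lit 34656) (nat_lit 6) (nat_lit 456) (nat_lit 4) (nat_lit 159) (nat_lit 177) (nat_lit 174)) (PT.lf (nat_lit 35416) (nat_lit 6) (nat_lit 466) (nat_lit 4) (nat_lit 160) (nat_lit 177) (nat_lit 173))))))) (PT.nd (nat_lit 624) (PT.nd (nat_lit 312) (PT.nd (nat_lit 156) (PT.nd (nat_lit 78) (PT.lf (nat_lit 36100) (nat_lit 6) (nat_lit 475) (nat_lit 4) (nat_lit 161) (nat_lit 177) (nat_lit 172)) (PT.lf (nat_lit 36708) (nat_lit 6) (nat_lit 483) (nat_lit 4) (nat_lit 162) (nat_lit 177) (nat_lit 171))) (PT.nd (nat_lit 78) (PT.lf (nat_lit 37240) (nat_lit 6) (nat_lit 490) (nat_lit 4) (nat_lit 163) (nat_lit 177) (nat_lit 170)) (PT.lf (nat_lit 37164) (nat_lit 6) (nat_lit 489) (nat_lit 4) (nat_lit 164) (nat_lit 177) (nat_lit 169)))) (PT.nd (nat_lit 156) (PT.nd (nat_lit 78) (PT.lf (nat_lit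 37088) (nat_lit 6) (nat_lit 488) (nat_lit 4) (nat_lit 165) (nat_lit 177) (nat_lit 168)) (PT.lf (nat_lit 37012) (nat_lit 6) (nat_lit 487) (nat_lit 4) (nat_lit 166) (nat_lit 177) (nat_lit 167))) (PT.nd (nat_lit 78) (PT.lf (nat_lit 37012) (nat_lit 6) (nat_lit 487) (nat_lit 2) (nat_lit 167) (nat_lit 177) (nat_lit 166)) (PT.lf (nat_lit 37088) (nat_lit 6) (nat_lit 488) (nat_lit 2) (nat_lit 168) (nat_lit 177) (nat_lit 165))))) (PT.nd (nat_lit 312) (PT.nd (nat_lit 156) (PT.nd (nat_lit 78) (PT.lf (nat_lit 37164) (nat_lit 6) (nat_lit 489) (nat_lit 2) (nat_lit 169) (nat_lit 177) (nat_lit 164)) (PT.lf (nat_lit 37240) (nat_lit 6) (nat_lit 490) (nat_lit 2) (nat_lit 170) (nat_lit 177) (nat_lit 163))) (PT.nd (nat_lit 78) (PT.lf (nat_lit 36708) (nat_lit 6) (nat_lit 483) (nat_lit 2) (nat_lit 171) (nat_lit 177) (nat_lit 162)) (PT.lf (nat_lit 36100) (nat_lit 6) (nat_lit 475) (nat_lit 2) (nat_lit 172) (nat_lit 177) (nat_lit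 161)))) (PT.nd (nat_lit 156) (PT.nd (nat_lit 78) (PT.lf (nat_lit 35416) (nat_lit 6) (nat_lit 466) (nat_lit 2) (nat_lit 173) (nat_lit 177) (nat_lit 160)) (PT.lf (nat_lit 34656) (nat_lit 6) (nat_lit 456) (nat_lit 2) (nat_lit 174) (nat_lit 177) (nat_lit 159))) (PT.nd (nat_lit 78) (PT.lf (nat_lit 33820) (nat_lit 6) (nat_lit 445) (nat_lit 2) (nat_lit 175) (nat_lit 177) (nat_lit 158)) (PT.nd (nat_lit 78) (PT.lf (nat_lit 32908) (nat_lit 6) (nat_lit 433) (nat_lit 2) (nat_lit 176) (nat_lit 177) (nat_lit 157)) (PT.lf (nat_lit 31920) (nat_lit 3) (nat_lit 420) (nat_lit 0) (nat_lit 177) (nat_lit 177) (nat_lit 156))))))))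
noncomputable def pc34 : PT := (PT.nd (nat_lit 50778) (PT.nd (nat_lit 624) (PT.nd (nat_lit 312) (PT.nd (nat_lit 156) (PT.nd (nat_lit 78) (PT.lf (nat_lit 30780) (nat_lit 6) (nat_lit 405) (nat_lit 0) (nat_lit 178) (nat_lit 177) (nat_lit 155)) (PT.lf (nat_lit 29564) (nat_lit 6) (nat_lit 389) (nat_lit 0) (nat_lit 179) (nat_lit 177) (nat_lit 154))) (PT.nd (nat_lit 78) (PT.lf (nat_lit 28272) (nat_lit 6) (nat_lit 372) (nat_lit 0) (nat_lit 180) (nat_lit 177) (nat_lit 153)) (PT.lf (nat_lit 27360) (nat_lit 6) (nat_lit 360) (nat_lit 0) (nat_lit 181) (nat_lit 177) (nat_lit 152)))) (PT.nd (nat_lit 156) (PT.nd (nat_lit 78) (PT.lf (nat_lit 26676) (nat_lit 6) (nat_lit 351) (nat_lit 0) (nat_lit 182) (nat_lit 177) (nat_lit 151)) (PT.lf (nat_lit 25992) (nat_lit 6) (nat_lit 342) (nat_lit 0) (nat_lit 183) (nat_lit 177) (nat_lit 150))) (PT.nd (nat_lit 78) (PT.lf (nat_lit 25384) (nat_lit 6) (nat_lit 334) (nat_lit 0) (nat_lit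 184) (nat_lit 177) (nat_lit 149)) (PT.lf (nat_lit 24700) (nat_lit 6) (nat_lit 325) (nat_lit 0) (nat_lit 185) (nat_lit 177) (nat_lit 148))))) (PT.nd (nat_lit 49764) (PT.nd (nat_lit 156) (PT.nd (nat_lit 78) (PT.lf (nat_lit 24092) (nat_lit 6) (nat_lit 317) (nat_lit 0) (nat_lit 186) (nat_lit 177) (nat_lit 147)) (PT.lf (nat_lit 23484) (nat_lit 6) (nat_lit 309) (nat_lit 0) (nat_lit 187) (nat_lit 177) (nat_lit 146))) (PT.nd (nat_lit 78) (PT.lf (nat_lit 22952) (nat_lit 6) (nat_lit 302) (nat_lit 0) (nat_lit 188) (nat_lit 177) (nat_lit 145)) (PT.lf (nat_lit 22344) (nat_lit 6) (nat_lit 294) (nat_lit 0) (nat_lit 189) (nat_lit 177) (nat_lit 144)))) (PT.nd (nat_lit 156) (PT.nd (nat_lit 78) (PT.lf (nat_lit 21888) (nat_lit 6) (nat_lit 288) (nat_lit 5) (nat_lit 143) (nat_lit 178) (nat_lit 189)) (PT.lf (nat_lit 22420) (nat_lit 6) (nat_lit 295) (nat_lit 5) (nat_lit 144) (nat_lit 178) (nat_lit 188))) (PT.nd (nat_lit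 78) (PT.lf (nat_lit 23028) (nat_lit 6) (nat_lit 303) (nat_lit 5) (nat_lit 145) (nat_lit 178) (nat_lit 187)) (PT.nd (nat_lit 78) (PT.lf (nat_lit 23560) (nat_lit 6) (nat_lit 310) (nat_lit 5) (nat_lit 146) (nat_lit 178) (nat_lit 186)) (PT.lf (nat_lit 24168) (nat_lit 6) (nat_lit 318) (nat_lit 5) (nat_lit 147) (nat_lit 178) (nat_lit 185))))))) (PT.nd (nat_lit 624) (PT.nd (nat_lit 312) (PT.nd (nat_lit 156) (PT.nd (nat_lit 78) (PT.lf (nat_lit 24776) (nat_lit 6) (nat_lit 326) (nat_lit 5) (nat_lit 148) (nat_lit 178) (nat_lit 184)) (PT.lf (nat_lit 25460) (nat_lit 6) (nat_lit 335) (nat_lit 5) (nat_lit 149) (nat_lit 178) (nat_lit 183))) (PT.nd (nat_lit 78) (PT.lf (nat_lit 26068) (nat_lit 6) (nat_lit 343) (nat_lit 5) (nat_lit 150) (nat_lit 178) (nat_lit 182)) (PT.lf (nat_lit 26752) (nat_lit 6) (nat_lit 352) (nat_lit 5) (nat_lit 151) (nat_lit 178) (nat_lit 181)))) (PT.nd (nat_lit 156) (PT.nd (nat_lit 78) (PT.lf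 (nat_lit 27436) (nat_lit 6) (nat_lit 361) (nat_lit 5) (nat_lit 152) (nat_lit 178) (nat_lit 180)) (PT.lf (nat_lit 28348) (nat_lit 6) (nat_lit 373) (nat_lit 5) (nat_lit 153) (nat_lit 178) (nat_lit 179))) (PT.nd (nat_lit 78) (PT.lf (nat_lit 29640) (nat_lit 3) (nat_lit 390) (nat_lit 4) (nat_lit 154) (nat_lit 178) (nat_lit 178)) (PT.lf (nat_lit 30780) (nat_lit 6) (nat_lit 405) (nat_lit 4) (nat_lit 155) (nat_lit 178) (nat_lit 177))))) (PT.nd (nat_lit 312) (PT.nd (nat_lit 156) (PT.nd (nat_lit 78) (PT.lf (nat_lit 31844) (nat_lit 6) (nat_lit 419) (nat_lit 4) (nat_lit 156) (nat_lit 178) (nat_lit 176)) (PT.lf (nat_lit 32832) (nat_lit 6) (nat_lit 432) (nat_lit 4) (nat_lit 157) (nat_lit 178) (nat_lit 175))) (PT.nd (nat_lit 78) (PT.lf (nat_lit 33744) (nat_lit 6) (nat_lit 444) (nat_lit 4) (nat_lit 158) (nat_lit 178) (nat_lit 174)) (PT.lf (nat_lit 34580) (nat_lit 6) (nat_lit 455) (nat_lit 4) (nat_lit 159) (nat_lit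 178) (nat_lit 173)))) (PT.nd (nat_lit 156) (PT.nd (nat_lit 78) (PT.lf (nat_lit 35340) (nat_lit 6) (nat_lit 465) (nat_lit 4) (nat_lit 160) (nat_lit 178) (nat_lit 172)) (PT.lf (nat_lit 36024) (nat_lit 6) (nat_lit 474) (nat_lit 4) (nat_lit 161) (nat_lit 178) (nat_lit 171))) (PT.nd (nat_lit 78) (PT.lf (nat_lit 36632) (nat_lit 6) (nat_lit 482) (nat_lit 4) (nat_lit 162) (nat_lit 178) (nat_lit 170)) (PT.nd (nat_lit 78) (PT.lf (nat_lit 36556) (nat_lit 6) (nat_lit 481) (nat_lit 4) (nat_lit 163) (nat_lit 178) (nat_lit 169)) (PT.lf (nat_lit 36480) (nat_lit 6) (nat_lit 480) (nat_lit 4) (nat_lit 164) (nat_lit 178) (nat_lit 168))))))))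
noncomputable def pc35 : PT := (PT.nd (nat_lit 1326) (PT.nd (nat_lit 624) (PT.nd (nat_lit 312) (PT.nd (nat_lit 156) (PT.nd (nat_lit 78) (PT.lf (nat_lit 36404) (nat_lit 6) (nat_lit 479) (nat_lit 4) (nat_lit 165) (nat_lit 178) (nat_lit 167)) (PT.lf (nat_lit 36328) (nat_lit 3) (nat_lit 478) (nat_lit 2) (nat_lit 166) (nat_lit 178) (nat_lit 166))) (PT.nd (nat_lit 78) (PT.lf (nat_lit 36404) (nat_lit 6) (nat_lit 479) (nat_lit 2) (nat_lit 167) (nat_lit 178) (nat_lit 165)) (PT.lf (nat_lit 36480) (nat_lit 6) (nat_lit 480) (nat_lit 2) (nat_lit 168) (nat_lit 178) (nat_lit 164)))) (PT.nd (nat_lit 156) (PT.nd (nat_lit 78) (PT.lf (nat_lit 36556) (nat_lit 6) (nat_lit 481) (nat_lit 2) (nat_lit 169) (nat_lit 178) (nat_lit 163)) (PT.lf (nat_lit 36632) (nat_lit 6) (nat_lit 482) (nat_lit 2) (nat_lit 170) (nat_lit 178) (nat_lit 162))) (PT.nd (nat_lit 78) (PT.lf (nat_lit 36024) (nat_lit 6) (nat_lit 474) (nat_lit 2) (nat_lit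 171) (nat_lit 178) (nat_lit 161)) (PT.lf (nat_lit 35340) (nat_lit 6) (nat_lit 465) (nat_lit 2) (nat_lit 172) (nat_lit 178) (nat_lit 160))))) (PT.nd (nat_lit 312) (PT.nd (nat_lit 156) (PT.nd (nat_lit 78) (PT.lf (nat_lit 34580) (nat_lit 6) (nat_lit 455) (nat_lit 2) (nat_lit 173) (nat_lit 178) (nat_lit 159)) (PT.lf (nat_lit 33744) (nat_lit 6) (nat_lit 444) (nat_lit 2) (nat_lit 174) (nat_lit 178) (nat_lit 158))) (PT.nd (nat_lit 78) (PT.lf (nat_lit 32832) (nat_lit 6) (nat_lit 432) (nat_lit 2) (nat_lit 175) (nat_lit 178) (nat_lit 157)) (PT.lf (nat_lit 31844) (nat_lit 6) (nat_lit 419) (nat_lit 2) (nat_lit 176) (nat_lit 178) (nat_lit 156)))) (PT.nd (nat_lit 156) (PT.nd (nat_lit 78) (PT.lf (nat_lit 30780) (nat_lit 6) (nat_lit 405) (nat_lit 2) (nat_lit 177) (nat_lit 178) (nat_lit 155)) (PT.lf (nat_lit 29640) (nat_lit 3) (nat_lit 390) (nat_lit 0) (nat_lit 178) (nat_lit 178) (nat_lit 154))) (PT.nd (nat_lit 78)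 (PT.lf (nat_lit 28348) (nat_lit 6) (nat_lit 373) (nat_lit 0) (nat_lit 179) (nat_lit 178) (nat_lit 153)) (PT.nd (nat_lit 78) (PT.lf (nat_lit 27436) (nat_lit 6) (nat_lit 361) (nat_lit 0) (nat_lit 180) (nat_lit 178) (nat_lit 152)) (PT.lf (nat_lit 26752) (nat_lit 6) (nat_lit 352) (nat_lit 0) (nat_lit 181) (nat_lit 178) (nat_lit 151))))))) (PT.nd (nat_lit 49998) (PT.nd (nat_lit 312) (PT.nd (nat_lit 156) (PT.nd (nat_lit 78) (PT.lf (nat_lit 26068) (nat_lit 6) (nat_lit 343) (nat_lit 0) (nat_lit 182) (nat_lit 178) (nat_lit 150)) (PT.lf (nat_lit 25460) (nat_lit 6) (nat_lit 335) (nat_lit 0) (nat_lit 183) (nat_lit 178) (nat_lit 149))) (PT.nd (nat_lit 78) (PT.lf (nat_lit 24776) (nat_lit 6) (nat_lit 326) (nat_lit 0) (nat_lit 184) (nat_lit 178) (nat_lit 148)) (PT.lf (nat_lit 24168) (nat_lit 6) (nat_lit 318) (nat_lit 0) (nat_lit 185) (nat_lit 178) (nat_lit 147)))) (PT.nd (nat_lit 156) (PT.nd (nat_lit 78) (PT.lf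 (nat_lit 23560) (nat_lit 6) (nat_lit 310) (nat_lit 0) (nat_lit 186) (nat_lit 178) (nat_lit 146)) (PT.lf (nat_lit 23028) (nat_lit 6) (nat_lit 303) (nat_lit 0) (nat_lit 187) (nat_lit 178) (nat_lit 145))) (PT.nd (nat_lit 78) (PT.lf (nat_lit 22420) (nat_lit 6) (nat_lit 295) (nat_lit 0) (nat_lit 188) (nat_lit 178) (nat_lit 144)) (PT.nd (nat_lit 49374) (PT.lf (nat_lit 21888) (nat_lit 6) (nat_lit 288) (nat_lit 0) (nat_lit 189) (nat_lit 178) (nat_lit 143)) (PT.lf (nat_lit 20976) (nat_lit 6) (nat_lit 276) (nat_lit 5) (nat_lit 141) (nat_lit 179) (nat_lit 190)))))) (PT.nd (nat_lit 312) (PT.nd (nat_lit 156) (PT.nd (nat_lit 78) (PT.lf (nat_lit 21432) (nat_lit 6) (nat_lit 282) (nat_lit 5) (nat_lit 142) (nat_lit 179) (nat_lit 189)) (PT.lf (nat_lit 21964) (nat_lit 6) (nat_lit 289) (nat_lit 5) (nat_lit 143) (nat_lit 179) (nat_lit 188))) (PT.nd (nat_lit 78) (PT.lf (nat_lit 22496) (nat_lit 6) (nat_lit 296) (nat_lit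 5) (nat_lit 144) (nat_lit 179) (nat_lit 187)) (PT.lf (nat_lit 23104) (nat_lit 6) (nat_lit 304) (nat_lit 5) (nat_lit 145) (nat_lit 179) (nat_lit 186)))) (PT.nd (nat_lit 156) (PT.nd (nat_lit 78) (PT.lf (nat_lit 23636) (nat_lit 6) (nat_lit 311) (nat_lit 5) (nat_lit 146) (nat_lit 179) (nat_lit 185)) (PT.lf (nat_lit 24244) (nat_lit 6) (nat_lit 319) (nat_lit 5) (nat_lit 147) (nat_lit 179) (nat_lit 184))) (PT.nd (nat_lit 78) (PT.lf (nat_lit 24852) (nat_lit 6) (nat_lit 327) (nat_lit 5) (nat_lit 148) (nat_lit 179) (nat_lit 183)) (PT.nd (nat_lit 78) (PT.lf (nat_lit 25536) (nat_lit 6) (nat_lit 336) (nat_lit 5) (nat_lit 149) (nat_lit 179) (nat_lit 182)) (PT.lf (nat_lit 26144) (nat_lit 6) (nat_lit 344) (nat_lit 5) (nat_lit 150) (nat_lit 179) (nat_lit 181))))))))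
noncomputable def pc36 : PT := (PT.nd (nat_lit 1326) (PT.nd (nat_lit 624) (PT.nd (nat_lit 312) (PT.nd (nat_lit 156) (PT.nd (nat_lit 78) (PT.lf (nat_lit 26828) (nat_lit 6) (nat_lit 353) (nat_lit 5) (nat_lit 151) (nat_lit 179) (nat_lit 180)) (PT.lf (nat_lit 27512) (nat_lit 3) (nat_lit 362) (nat_lit 4) (nat_lit 152) (nat_lit 179) (nat_lit 179))) (PT.nd (nat_lit 78) (PT.lf (nat_lit 28348) (nat_lit 6) (nat_lit 373) (nat_lit 4) (nat_lit 153) (nat_lit 179) (nat_lit 178)) (PT.lf (nat_lit 29564) (nat_lit 6) (nat_lit 389) (nat_lit 4) (nat_lit 154) (nat_lit 179) (nat_lit 177)))) (PT.nd (nat_lit 156) (PT.nd (nat_lit 78) (PT.lf (nat_lit 30704) (nat_lit 6) (nat_lit 404) (nat_lit 4) (nat_lit 155) (nat_lit 179) (nat_lit 176)) (PT.lf (nat_lit 31768) (nat_lit 6) (nat_lit 418) (nat_lit 4) (nat_lit 156) (nat_lit 179) (nat_lit 175))) (PT.nd (nat_lit 78) (PT.lf (nat_lit 32756) (nat_lit 6) (nat_lit 431) (nat_lit 4) (nat_lit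 157) (nat_lit 179) (nat_lit 174)) (PT.lf (nat_lit 33668) (nat_lit 6) (nat_lit 443) (nat_lit 4) (nat_lit 158) (nat_lit 179) (nat_lit 173))))) (PT.nd (nat_lit 312) (PT.nd (nat_lit 156) (PT.nd (nat_lit 78) (PT.lf (nat_lit 34504) (nat_lit 6) (nat_lit 454) (nat_lit 4) (nat_lit 159) (nat_lit 179) (nat_lit 172)) (PT.lf (nat_lit 35264) (nat_lit 6) (nat_lit 464) (nat_lit 4) (nat_lit 160) (nat_lit 179) (nat_lit 171))) (PT.nd (nat_lit 78) (PT.lf (nat_lit 35948) (nat_lit 6) (nat_lit 473) (nat_lit 4) (nat_lit 161) (nat_lit 179) (nat_lit 170)) (PT.lf (nat_lit 35872) (nat_lit 6) (nat_lit 472) (nat_lit 4) (nat_lit 162) (nat_lit 179) (nat_lit 169)))) (PT.nd (nat_lit 156) (PT.nd (nat_lit 78) (PT.lf (nat_lit 35796) (nat_lit 6) (nat_lit 471) (nat_lit 4) (nat_lit 163) (nat_lit 179) (nat_lit 168)) (PT.lf (nat_lit 35720) (nat_lit 6) (nat_lit 470) (nat_lit 4) (nat_lit 164) (nat_lit 179) (nat_lit 167))) (PT.nd (nat_lit 78)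 (PT.lf (nat_lit 35644) (nat_lit 6) (nat_lit 469) (nat_lit 4) (nat_lit 165) (nat_lit 179) (nat_lit 166)) (PT.nd (nat_lit 78) (PT.lf (nat_lit 35644) (nat_lit 6) (nat_lit 469) (nat_lit 2) (nat_lit 166) (nat_lit 179) (nat_lit 165)) (PT.lf (nat_lit 35720) (nat_lit 6) (nat_lit 470) (nat_lit 2) (nat_lit 167) (nat_lit 179) (nat_lit 164))))))) (PT.nd (nat_lit 624) (PT.nd (nat_lit 312) (PT.nd (nat_lit 156) (PT.nd (nat_lit 78) (PT.lf (nat_lit 35796) (nat_lit 6) (nat_lit 471) (nat_lit 2) (nat_lit 168) (nat_lit 179) (nat_lit 163)) (PT.lf (nat_lit 35872) (nat_lit 6) (nat_lit 472) (nat_lit 2) (nat_lit 169) (nat_lit 179) (nat_lit 162))) (PT.nd (nat_lit 78) (PT.lf (nat_lit 35948) (nat_lit 6) (nat_lit 473) (nat_lit 2) (nat_lit 170) (nat_lit 179) (nat_lit 161)) (PT.lf (nat_lit 35264) (nat_lit 6) (nat_lit 464) (nat_lit 2) (nat_lit 171) (nat_lit 179) (nat_lit 160)))) (PT.nd (nat_lit 156) (PT.nd (nat_lit 78) (PT.lf (nat_lit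 34504) (nat_lit 6) (nat_lit 454) (nat_lit 2) (nat_lit 172) (nat_lit 179) (nat_lit 159)) (PT.lf (nat_lit 33668) (nat_lit 6) (nat_lit 443) (nat_lit 2) (nat_lit 173) (nat_lit 179) (nat_lit 158))) (PT.nd (nat_lit 78) (PT.lf (nat_lit 32756) (nat_lit 6) (nat_lit 431) (nat_lit 2) (nat_lit 174) (nat_lit 179) (nat_lit 157)) (PT.lf (nat_lit 31768) (nat_lit 6) (nat_lit 418) (nat_lit 2) (nat_lit 175) (nat_lit 179) (nat_lit 156))))) (PT.nd (nat_lit 312) (PT.nd (nat_lit 156) (PT.nd (nat_lit 78) (PT.lf (nat_lit 30704) (nat_lit 6) (nat_lit 404) (nat_lit 2) (nat_lit 176) (nat_lit 179) (nat_lit 155)) (PT.lf (nat_lit 29564) (nat_lit 6) (nat_lit 389) (nat_lit 2) (nat_lit 177) (nat_lit 179) (nat_lit 154))) (PT.nd (nat_lit 78) (PT.lf (nat_lit 28348) (nat_lit 6) (nat_lit 373) (nat_lit 2) (nat_lit 178) (nat_lit 179) (nat_lit 153)) (PT.lf (nat_lit 27512) (nat_lit 3) (nat_lit 362) (nat_lit 0) (nat_lit 179) (nat_lit 179) (nat_lit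 152)))) (PT.nd (nat_lit 156) (PT.nd (nat_lit 78) (PT.lf (nat_lit 26828) (nat_lit 6) (nat_lit 353) (nat_lit 0) (nat_lit 180) (nat_lit 179) (nat_lit 151)) (PT.lf (nat_lit 26144) (nat_lit 6) (nat_lit 344) (nat_lit 0) (nat_lit 181) (nat_lit 179) (nat_lit 150))) (PT.nd (nat_lit 78) (PT.lf (nat_lit 25536) (nat_lit 6) (nat_lit 336) (nat_lit 0) (nat_lit 182) (nat_lit 179) (nat_lit 149)) (PT.nd (nat_lit 78) (PT.lf (nat_lit 24852) (nat_lit 6) (nat_lit 327) (nat_lit 0) (nat_lit 183) (nat_lit 179) (nat_lit 148)) (PT.lf (nat_lit 24244) (nat_lit 6) (nat_lit 319) (nat_lit 0) (nat_lit 184) (nat_lit 179) (nat_lit 147))))))))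
noncomputable def pc37 : PT := (PT.nd (nat_lit 50466) (PT.nd (nat_lit 49764) (PT.nd (nat_lit 312) (PT.nd (nat_lit 156) (PT.nd (nat_lit 78) (PT.lf (nat_lit 23636) (nat_lit 6) (nat_lit 311) (nat_lit 0) (nat_lit 185) (nat_lit 179) (nat_lit 146)) (PT.lf (nat_lit 23104) (nat_lit 6) (nat_lit 304) (nat_lit 0) (nat_lit 186) (nat_lit 179) (nat_lit 145))) (PT.nd (nat_lit 78) (PT.lf (nat_lit 22496) (nat_lit 6) (nat_lit 296) (nat_lit 0) (nat_lit 187) (nat_lit 179) (nat_lit 144)) (PT.lf (nat_lit 21964) (nat_lit 6) (nat_lit 289) (nat_lit 0) (nat_lit 188) (nat_lit 179) (nat_lit 143)))) (PT.nd (nat_lit 49296) (PT.nd (nat_lit 78) (PT.lf (nat_lit 21432) (nat_lit 6) (nat_lit 282) (nat_lit 0) (nat_lit 189) (nat_lit 179) (nat_lit 142)) (PT.lf (nat_lit 20976) (nat_lit 6) (nat_lit 276) (nat_lit 0) (nat_lit 190) (nat_lit 179) (nat_lit 141))) (PT.nd (nat_lit 78) (PT.lf (nat_lit 20520) (nat_lit 6) (nat_lit 270) (nat_lit 5)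 (nat_lit 140) (nat_lit 180) (nat_lit 190)) (PT.lf (nat_lit 21052) (nat_lit 6) (nat_lit 277) (nat_lit 5) (nat_lit 141) (nat_lit 180) (nat_lit 189))))) (PT.nd (nat_lit 312) (PT.nd (nat_lit 156) (PT.nd (nat_lit 78) (PT.lf (nat_lit 21508) (nat_lit 6) (nat_lit 283) (nat_lit 5) (nat_lit 142) (nat_lit 180) (nat_lit 188)) (PT.lf (nat_lit 22040) (nat_lit 6) (nat_lit 290) (nat_lit 5) (nat_lit 143) (nat_lit 180) (nat_lit 187))) (PT.nd (nat_lit 78) (PT.lf (nat_lit 22572) (nat_lit 6) (nat_lit 297) (nat_lit 5) (nat_lit 144) (nat_lit 180) (nat_lit 186)) (PT.lf (nat_lit 23180) (nat_lit 6) (nat_lit 305) (nat_lit 5) (nat_lit 145) (nat_lit 180) (nat_lit 185)))) (PT.nd (nat_lit 156) (PT.nd (nat_lit 78) (PT.lf (nat_lit 23712) (nat_lit 6) (nat_lit 312) (nat_lit 5) (nat_lit 146) (nat_lit 180) (nat_lit 184)) (PT.lf (nat_lit 24320) (nat_lit 6) (nat_lit 320) (nat_lit 5) (nat_lit 147) (nat_lit 180) (nat_lit 183))) (PT.nd (nat_lit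 78) (PT.lf (nat_lit 24928) (nat_lit 6) (nat_lit 328) (nat_lit 5) (nat_lit 148) (nat_lit 180) (nat_lit 182)) (PT.nd (nat_lit 78) (PT.lf (nat_lit 25612) (nat_lit 6) (nat_lit 337) (nat_lit 5) (nat_lit 149) (nat_lit 180) (nat_lit 181)) (PT.lf (nat_lit 26220) (nat_lit 3) (nat_lit 345) (nat_lit 4) (nat_lit 150) (nat_lit 180) (nat_lit 180))))))) (PT.nd (nat_lit 624) (PT.nd (nat_lit 312) (PT.nd (nat_lit 156) (PT.nd (nat_lit 78) (PT.lf (nat_lit 26828) (nat_lit 6) (nat_lit 353) (nat_lit 4) (nat_lit 151) (nat_lit 180) (nat_lit 179)) (PT.lf (nat_lit 27436) (nat_lit 6) (nat_lit 361) (nat_lit 4) (nat_lit 152) (nat_lit 180) (nat_lit 178))) (PT.nd (nat_lit 78) (PT.lf (nat_lit 28272) (nat_lit 6) (nat_lit 372) (nat_lit 4) (nat_lit 153) (nat_lit 180) (nat_lit 177)) (PT.lf (nat_lit 29488) (nat_lit 6) (nat_lit 388) (nat_lit 4) (nat_lit 154) (nat_lit 180) (nat_lit 176)))) (PT.nd (nat_lit 156) (PT.nd (nat_lit 78) (PT.lf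 (nat_lit 30628) (nat_lit 6) (nat_lit 403) (nat_lit 4) (nat_lit 155) (nat_lit 180) (nat_lit 175)) (PT.lf (nat_lit 31692) (nat_lit 6) (nat_lit 417) (nat_lit 4) (nat_lit 156) (nat_lit 180) (nat_lit 174))) (PT.nd (nat_lit 78) (PT.lf (nat_lit 32680) (nat_lit 6) (nat_lit 430) (nat_lit 4) (nat_lit 157) (nat_lit 180) (nat_lit 173)) (PT.lf (nat_lit 33592) (nat_lit 6) (nat_lit 442) (nat_lit 4) (nat_lit 158) (nat_lit 180) (nat_lit 172))))) (PT.nd (nat_lit 312) (PT.nd (nat_lit 156) (PT.nd (nat_lit 78) (PT.lf (nat_lit 34428) (nat_lit 6) (nat_lit 453) (nat_lit 4) (nat_lit 159) (nat_lit 180) (nat_lit 171)) (PT.lf (nat_lit 35188) (nat_lit 6) (nat_lit 463) (nat_lit 4) (nat_lit 160) (nat_lit 180) (nat_lit 170))) (PT.nd (nat_lit 78) (PT.lf (nat_lit 35112) (nat_lit 6) (nat_lit 462) (nat_lit 4) (nat_lit 161) (nat_lit 180) (nat_lit 169)) (PT.lf (nat_lit 35036) (nat_lit 6) (nat_lit 461) (nat_lit 4) (nat_lit 162) (nat_lit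 180) (nat_lit 168)))) (PT.nd (nat_lit 156) (PT.nd (nat_lit 78) (PT.lf (nat_lit 34960) (nat_lit 6) (nat_lit 460) (nat_lit 4) (nat_lit 163) (nat_lit 180) (nat_lit 167)) (PT.lf (nat_lit 34884) (nat_lit 6) (nat_lit 459) (nat_lit 4) (nat_lit 164) (nat_lit 180) (nat_lit 166))) (PT.nd (nat_lit 78) (PT.lf (nat_lit 34808) (nat_lit 3) (nat_lit 458) (nat_lit 2) (nat_lit 165) (nat_lit 180) (nat_lit 165)) (PT.nd (nat_lit 78) (PT.lf (nat_lit 34884) (nat_lit 6) (nat_lit 459) (nat_lit 2) (nat_lit 166) (nat_lit 180) (nat_lit 164)) (PT.lf (nat_lit 34960) (nat_lit 6) (nat_lit 460) (nat_lit 2) (nat_lit 167) (nat_lit 180) (nat_lit 163))))))))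
noncomputable def pc38 : PT := (PT.nd (nat_lit 1326) (PT.nd (nat_lit 624) (PT.nd (nat_lit 312) (PT.nd (nat_lit 156) (PT.nd (nat_lit 78) (PT.lf (nat_lit 35036) (nat_lit 6) (nat_lit 461) (nat_lit 2) (nat_lit 168) (nat_lit 180) (nat_lit 162)) (PT.lf (nat_lit 35112) (nat_lit 6) (nat_lit 462) (nat_lit 2) (nat_lit 169) (nat_lit 180) (nat_lit 161))) (PT.nd (nat_lit 78) (PT.lf (nat_lit 35188) (nat_lit 6) (nat_lit 463) (nat_lit 2) (nat_lit 170) (nat_lit 180) (nat_lit 160)) (PT.lf (nat_lit 34428) (nat_lit 6) (nat_lit 453) (nat_lit 2) (nat_lit 171) (nat_lit 180) (nat_lit 159)))) (PT.nd (nat_lit 156) (PT.nd (nat_lit 78) (PT.lf (nat_lit 33592) (nat_lit 6) (nat_lit 442) (nat_lit 2) (nat_lit 172) (nat_lit 180) (nat_lit 158)) (PT.lf (nat_lit 32680) (nat_lit 6) (nat_lit 430) (nat_lit 2) (nat_lit 173) (nat_lit 180) (nat_lit 157))) (PT.nd (nat_lit 78) (PT.lf (nat_lit 31692) (nat_lit 6) (nat_lit 417) (nat_lit 2) (nat_lit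 174) (nat_lit 180) (nat_lit 156)) (PT.lf (nat_lit 30628) (nat_lit 6) (nat_lit 403) (nat_lit 2) (nat_lit 175) (nat_lit 180) (nat_lit 155))))) (PT.nd (nat_lit 312) (PT.nd (nat_lit 156) (PT.nd (nat_lit 78) (PT.lf (nat_lit 29488) (nat_lit 6) (nat_lit 388) (nat_lit 2) (nat_lit 176) (nat_lit 180) (nat_lit 154)) (PT.lf (nat_lit 28272) (nat_lit 6) (nat_lit 372) (nat_lit 2) (nat_lit 177) (nat_lit 180) (nat_lit 153))) (PT.nd (nat_lit 78) (PT.lf (nat_lit 27436) (nat_lit 6) (nat_lit 361) (nat_lit 2) (nat_lit 178) (nat_lit 180) (nat_lit 152)) (PT.lf (nat_lit 26828) (nat_lit 6) (nat_lit 353) (nat_lit 2) (nat_lit 179) (nat_lit 180) (nat_lit 151)))) (PT.nd (nat_lit 156) (PT.nd (nat_lit 78) (PT.lf (nat_lit 26220) (nat_lit 3) (nat_lit 345) (nat_lit 0) (nat_lit 180) (nat_lit 180) (nat_lit 150)) (PT.lf (nat_lit 25612) (nat_lit 6) (nat_lit 337) (nat_lit 0) (nat_lit 181) (nat_lit 180) (nat_lit 149))) (PT.nd (nat_lit 78)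 (PT.lf (nat_lit 24928) (nat_lit 6) (nat_lit 328) (nat_lit 0) (nat_lit 182) (nat_lit 180) (nat_lit 148)) (PT.nd (nat_lit 78) (PT.lf (nat_lit 24320) (nat_lit 6) (nat_lit 320) (nat_lit 0) (nat_lit 183) (nat_lit 180) (nat_lit 147)) (PT.lf (nat_lit 23712) (nat_lit 6) (nat_lit 312) (nat_lit 0) (nat_lit 184) (nat_lit 180) (nat_lit 146))))))) (PT.nd (nat_lit 49608) (PT.nd (nat_lit 312) (PT.nd (nat_lit 156) (PT.nd (nat_lit 78) (PT.lf (nat_lit 23180) (nat_lit 6) (nat_lit 305) (nat_lit 0) (nat_lit 185) (nat_lit 180) (nat_lit 145)) (PT.lf (nat_lit 22572) (nat_lit 6) (nat_lit 297) (nat_lit 0) (nat_lit 186) (nat_lit 180) (nat_lit 144))) (PT.nd (nat_lit 78) (PT.lf (nat_lit 22040) (nat_lit 6) (nat_lit 290) (nat_lit 0) (nat_lit 187) (nat_lit 180) (nat_lit 143)) (PT.lf (nat_lit 21508) (nat_lit 6) (nat_lit 283) (nat_lit 0) (nat_lit 188) (nat_lit 180) (nat_lit 142)))) (PT.nd (nat_lit 49140) (PT.nd (nat_lit 78) (PT.lf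 (nat_lit 21052) (nat_lit 6) (nat_lit 277) (nat_lit 0) (nat_lit 189) (nat_lit 180) (nat_lit 141)) (PT.lf (nat_lit 20520) (nat_lit 6) (nat_lit 270) (nat_lit 0) (nat_lit 190) (nat_lit 180) (nat_lit 140))) (PT.nd (nat_lit 78) (PT.lf (nat_lit 19684) (nat_lit 6) (nat_lit 259) (nat_lit 5) (nat_lit 138) (nat_lit 181) (nat_lit 191)) (PT.lf (nat_lit 20140) (nat_lit 6) (nat_lit 265) (nat_lit 5) (nat_lit 139) (nat_lit 181) (nat_lit 190))))) (PT.nd (nat_lit 312) (PT.nd (nat_lit 156) (PT.nd (nat_lit 78) (PT.lf (nat_lit 20596) (nat_lit 6) (nat_lit 271) (nat_lit 5) (nat_lit 140) (nat_lit 181) (nat_lit 189)) (PT.lf (nat_lit 21128) (nat_lit 6) (nat_lit 278) (nat_lit 5) (nat_lit 141) (nat_lit 181) (nat_lit 188))) (PT.nd (nat_lit 78) (PT.lf (nat_lit 21584) (nat_lit 6) (nat_lit 284) (nat_lit 5) (nat_lit 142) (nat_lit 181) (nat_lit 187)) (PT.lf (nat_lit 22116) (nat_lit 6) (nat_lit 291) (nat_lit 5) (nat_lit 143) (nat_lit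 181) (nat_lit 186)))) (PT.nd (nat_lit 156) (PT.nd (nat_lit 78) (PT.lf (nat_lit 22648) (nat_lit 6) (nat_lit 298) (nat_lit 5) (nat_lit 144) (nat_lit 181) (nat_lit 185)) (PT.lf (nat_lit 23256) (nat_lit 6) (nat_lit 306) (nat_lit 5) (nat_lit 145) (nat_lit 181) (nat_lit 184))) (PT.nd (nat_lit 78) (PT.lf (nat_lit 23788) (nat_lit 6) (nat_lit 313) (nat_lit 5) (nat_lit 146) (nat_lit 181) (nat_lit 183)) (PT.nd (nat_lit 78) (PT.lf (nat_lit 24396) (nat_lit 6) (nat_lit 321) (nat_lit 5) (nat_lit 147) (nat_lit 181) (nat_lit 182)) (PT.lf (nat_lit 25004) (nat_lit 3) (nat_lit 329) (nat_lit 4) (nat_lit 148) (nat_lit 181) (nat_lit 181))))))))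
noncomputable def pc39 : PT := (PT.nd (nat_lit 1326) (PT.nd (nat_lit 624) (PT.nd (nat_lit 312) (PT.nd (nat_lit 156) (PT.nd (nat_lit 78) (PT.lf (nat_lit 25612) (nat_lit 6) (nat_lit 337) (nat_lit 4) (nat_lit 149) (nat_lit 181) (nat_lit 180)) (PT.lf (nat_lit 26144) (nat_lit 6) (nat_lit 344) (nat_lit 4) (nat_lit 150) (nat_lit 181) (nat_lit 179))) (PT.nd (nat_lit 78) (PT.lf (nat_lit 26752) (nat_lit 6) (nat_lit 352) (nat_lit 4) (nat_lit 151) (nat_lit 181) (nat_lit 178)) (PT.lf (nat_lit 27360) (nat_lit 6) (nat_lit 360) (nat_lit 4) (nat_lit 152) (nat_lit 181) (nat_lit 177)))) (PT.nd (nat_lit 156) (PT.nd (nat_lit 78) (PT.lf (nat_lit 28196) (nat_lit 6) (nat_lit 371) (nat_lit 4) (nat_lit 153) (nat_lit 181) (nat_lit 176)) (PT.lf (nat_lit 29412) (nat_lit 6) (nat_lit 387) (nat_lit 4) (nat_lit 154) (nat_lit 181) (nat_lit 175))) (PT.nd (nat_lit 78) (PT.lf (nat_lit 30552) (nat_lit 6) (nat_lit 402) (nat_lit 4) (nat_lit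 155) (nat_lit 181) (nat_lit 174)) (PT.lf (nat_lit 31616) (nat_lit 6) (nat_lit 416) (nat_lit 4) (nat_lit 156) (nat_lit 181) (nat_lit 173))))) (PT.nd (nat_lit 312) (PT.nd (nat_lit 156) (PT.nd (nat_lit 78) (PT.lf (nat_lit 32604) (nat_lit 6) (nat_lit 429) (nat_lit 4) (nat_lit 157) (nat_lit 181) (nat_lit 172)) (PT.lf (nat_lit 33516) (nat_lit 6) (nat_lit 441) (nat_lit 4) (nat_lit 158) (nat_lit 181) (nat_lit 171))) (PT.nd (nat_lit 78) (PT.lf (nat_lit 34352) (nat_lit 6) (nat_lit 452) (nat_lit 4) (nat_lit 159) (nat_lit 181) (nat_lit 170)) (PT.lf (nat_lit 34276) (nat_lit 6) (nat_lit 451) (nat_lit 4) (nat_lit 160) (nat_lit 181) (nat_lit 169)))) (PT.nd (nat_lit 156) (PT.nd (nat_lit 78) (PT.lf (nat_lit 34200) (nat_lit 6) (nat_lit 450) (nat_lit 4) (nat_lit 161) (nat_lit 181) (nat_lit 168)) (PT.lf (nat_lit 34124) (nat_lit 6) (nat_lit 449) (nat_lit 4) (nat_lit 162) (nat_lit 181) (nat_lit 167))) (PT.nd (nat_lit 78)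 (PT.lf (nat_lit 34048) (nat_lit 6) (nat_lit 448) (nat_lit 4) (nat_lit 163) (nat_lit 181) (nat_lit 166)) (PT.nd (nat_lit 78) (PT.lf (nat_lit 33972) (nat_lit 6) (nat_lit 447) (nat_lit 4) (nat_lit 164) (nat_lit 181) (nat_lit 165)) (PT.lf (nat_lit 33972) (nat_lit 6) (nat_lit 447) (nat_lit 2) (nat_lit 165) (nat_lit 181) (nat_lit 164))))))) (PT.nd (nat_lit 702) (PT.nd (nat_lit 312) (PT.nd (nat_lit 156) (PT.nd (nat_lit 78) (PT.lf (nat_lit 34048) (nat_lit 6) (nat_lit 448) (nat_lit 2) (nat_lit 166) (nat_lit 181) (nat_lit 163)) (PT.lf (nat_lit 34124) (nat_lit 6) (nat_lit 449) (nat_lit 2) (nat_lit 167) (nat_lit 181) (nat_lit 162))) (PT.nd (nat_lit 78) (PT.lf (nat_lit 34200) (nat_lit 6) (nat_lit 450) (nat_lit 2) (nat_lit 168) (nat_lit 181) (nat_lit 161)) (PT.lf (nat_lit 34276) (nat_lit 6) (nat_lit 451) (nat_lit 2) (nat_lit 169) (nat_lit 181) (nat_lit 160)))) (PT.nd (nat_lit 156) (PT.nd (nat_lit 78) (PT.lf (nat_lit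 34352) (nat_lit 6) (nat_lit 452) (nat_lit 2) (nat_lit 170) (nat_lit 181) (nat_lit 159)) (PT.lf (nat_lit 33516) (nat_lit 6) (nat_lit 441) (nat_lit 2) (nat_lit 171) (nat_lit 181) (nat_lit 158))) (PT.nd (nat_lit 78) (PT.lf (nat_lit 32604) (nat_lit 6) (nat_lit 429) (nat_lit 2) (nat_lit 172) (nat_lit 181) (nat_lit 157)) (PT.nd (nat_lit 78) (PT.lf (nat_lit 31616) (nat_lit 6) (nat_lit 416) (nat_lit 2) (nat_lit 173) (nat_lit 181) (nat_lit 156)) (PT.lf (nat_lit 30552) (nat_lit 6) (nat_lit 402) (nat_lit 2) (nat_lit 174) (nat_lit 181) (nat_lit 155)))))) (PT.nd (nat_lit 312) (PT.nd (nat_lit 156) (PT.nd (nat_lit 78) (PT.lf (nat_lit 29412) (nat_lit 6) (nat_lit 387) (nat_lit 2) (nat_lit 175) (nat_lit 181) (nat_lit 154)) (PT.lf (nat_lit 28196) (nat_lit 6) (nat_lit 371) (nat_lit 2) (nat_lit 176) (nat_lit 181) (nat_lit 153))) (PT.nd (nat_lit 78) (PT.lf (nat_lit 27360) (nat_lit 6) (nat_lit 360) (nat_lit 2) (nat_lit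 177) (nat_lit 181) (nat_lit 152)) (PT.lf (nat_lit 26752) (nat_lit 6) (nat_lit 352) (nat_lit 2) (nat_lit 178) (nat_lit 181) (nat_lit 151)))) (PT.nd (nat_lit 156) (PT.nd (nat_lit 78) (PT.lf (nat_lit 26144) (nat_lit 6) (nat_lit 344) (nat_lit 2) (nat_lit 179) (nat_lit 181) (nat_lit 150)) (PT.lf (nat_lit 25612) (nat_lit 6) (nat_lit 337) (nat_lit 2) (nat_lit 180) (nat_lit 181) (nat_lit 149))) (PT.nd (nat_lit 78) (PT.lf (nat_lit 25004) (nat_lit 3) (nat_lit 329) (nat_lit 0) (nat_lit 181) (nat_lit 181) (nat_lit 148)) (PT.nd (nat_lit 78) (PT.lf (nat_lit 24396) (nat_lit 6) (nat_lit 321) (nat_lit 0) (nat_lit 182) (nat_lit 181) (nat_lit 147)) (PT.lf (nat_lit 23788) (nat_lit 6) (nat_lit 313) (nat_lit 0) (nat_lit 183) (nat_lit 181) (nat_lit 146))))))))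
noncomputable def pc40 : PT := (PT.nd (nat_lit 50154) (PT.nd (nat_lit 49452) (PT.nd (nat_lit 312) (PT.nd (nat_lit 156) (PT.nd (nat_lit 78) (PT.lf (nat_lit 23256) (nat_lit 6) (nat_lit 306) (nat_lit 0) (nat_lit 184) (nat_lit 181) (nat_lit 145)) (PT.lf (nat_lit 22648) (nat_lit 6) (nat_lit 298) (nat_lit 0) (nat_lit 185) (nat_lit 181) (nat_lit 144))) (PT.nd (nat_lit 78) (PT.lf (nat_lit 22116) (nat_lit 6) (nat_lit 291) (nat_lit 0) (nat_lit 186) (nat_lit 181) (nat_lit 143)) (PT.lf (nat_lit 21584) (nat_lit 6) (nat_lit 284) (nat_lit 0) (nat_lit 187) (nat_lit 181) (nat_lit 142)))) (PT.nd (nat_lit 156) (PT.nd (nat_lit 78) (PT.lf (nat_lit 21128) (nat_lit 6) (nat_lit 278) (nat_lit 0) (nat_lit 188) (nat_lit 181) (nat_lit 141)) (PT.lf (nat_lit 20596) (nat_lit 6) (nat_lit 271) (nat_lit 0) (nat_lit 189) (nat_lit 181) (nat_lit 140))) (PT.nd (nat_lit 78) (PT.lf (nat_lit 20140) (nat_lit 6) (nat_lit 265) (nat_lit 0)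 (nat_lit 190) (nat_lit 181) (nat_lit 139)) (PT.lf (nat_lit 19684) (nat_lit 6) (nat_lit 259) (nat_lit 0) (nat_lit 191) (nat_lit 181) (nat_lit 138))))) (PT.nd (nat_lit 312) (PT.nd (nat_lit 156) (PT.nd (nat_lit 78) (PT.lf (nat_lit 19304) (nat_lit 6) (nat_lit 254) (nat_lit 5) (nat_lit 137) (nat_lit 182) (nat_lit 191)) (PT.lf (nat_lit 19760) (nat_lit 6) (nat_lit 260) (nat_lit 5) (nat_lit 138) (nat_lit 182) (nat_lit 190))) (PT.nd (nat_lit 78) (PT.lf (nat_lit 20216) (nat_lit 6) (nat_lit 266) (nat_lit 5) (nat_lit 139) (nat_lit 182) (nat_lit 189)) (PT.lf (nat_lit 20672) (nat_lit 6) (nat_lit 272) (nat_lit 5) (nat_lit 140) (nat_lit 182) (nat_lit 188)))) (PT.nd (nat_lit 156) (PT.nd (nat_lit 78) (PT.lf (nat_lit 21204) (nat_lit 6) (nat_lit 279) (nat_lit 5) (nat_lit 141) (nat_lit 182) (nat_lit 187)) (PT.lf (nat_lit 21660) (nat_lit 6) (nat_lit 285) (nat_lit 5) (nat_lit 142) (nat_lit 182) (nat_lit 186))) (PT.nd (nat_lit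 78) (PT.lf (nat_lit 22192) (nat_lit 6) (nat_lit 292) (nat_lit 5) (nat_lit 143) (nat_lit 182) (nat_lit 185)) (PT.nd (nat_lit 78) (PT.lf (nat_lit 22724) (nat_lit 6) (nat_lit 299) (nat_lit 5) (nat_lit 144) (nat_lit 182) (nat_lit 184)) (PT.lf (nat_lit 23332) (nat_lit 6) (nat_lit 307) (nat_lit 5) (nat_lit 145) (nat_lit 182) (nat_lit 183))))))) (PT.nd (nat_lit 624) (PT.nd (nat_lit 312) (PT.nd (nat_lit 156) (PT.nd (nat_lit 78) (PT.lf (nat_lit 23864) (nat_lit 3) (nat_lit 314) (nat_lit 4) (nat_lit 146) (nat_lit 182) (nat_lit 182)) (PT.lf (nat_lit 24396) (nat_lit 6) (nat_lit 321) (nat_lit 4) (nat_lit 147) (nat_lit 182) (nat_lit 181))) (PT.nd (nat_lit 78) (PT.lf (nat_lit 24928) (nat_lit 6) (nat_lit 328) (nat_lit 4) (nat_lit 148) (nat_lit 182) (nat_lit 180)) (PT.lf (nat_lit 25536) (nat_lit 6) (nat_lit 336) (nat_lit 4) (nat_lit 149) (nat_lit 182) (nat_lit 179)))) (PT.nd (nat_lit 156) (PT.nd (nat_lit 78) (PT.lf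 (nat_lit 26068) (nat_lit 6) (nat_lit 343) (nat_lit 4) (nat_lit 150) (nat_lit 182) (nat_lit 178)) (PT.lf (nat_lit 26676) (nat_lit 6) (nat_lit 351) (nat_lit 4) (nat_lit 151) (nat_lit 182) (nat_lit 177))) (PT.nd (nat_lit 78) (PT.lf (nat_lit 27284) (nat_lit 6) (nat_lit 359) (nat_lit 4) (nat_lit 152) (nat_lit 182) (nat_lit 176)) (PT.lf (nat_lit 28120) (nat_lit 6) (nat_lit 370) (nat_lit 4) (nat_lit 153) (nat_lit 182) (nat_lit 175))))) (PT.nd (nat_lit 312) (PT.nd (nat_lit 156) (PT.nd (nat_lit 78) (PT.lf (nat_lit 29336) (nat_lit 6) (nat_lit 386) (nat_lit 4) (nat_lit 154) (nat_lit 182) (nat_lit 174)) (PT.lf (nat_lit 30476) (nat_lit 6) (nat_lit 401) (nat_lit 4) (nat_lit 155) (nat_lit 182) (nat_lit 173))) (PT.nd (nat_lit 78) (PT.lf (nat_lit 31540) (nat_lit 6) (nat_lit 415) (nat_lit 4) (nat_lit 156) (nat_lit 182) (nat_lit 172)) (PT.lf (nat_lit 32528) (nat_lit 6) (nat_lit 428) (nat_lit 4) (nat_lit 157) (nat_lit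 182) (nat_lit 171)))) (PT.nd (nat_lit 156) (PT.nd (nat_lit 78) (PT.lf (nat_lit 33440) (nat_lit 6) (nat_lit 440) (nat_lit 4) (nat_lit 158) (nat_lit 182) (nat_lit 170)) (PT.lf (nat_lit 33364) (nat_lit 6) (nat_lit 439) (nat_lit 4) (nat_lit 159) (nat_lit 182) (nat_lit 169))) (PT.nd (nat_lit 78) (PT.lf (nat_lit 33288) (nat_lit 6) (nat_lit 438) (nat_lit 4) (nat_lit 160) (nat_lit 182) (nat_lit 168)) (PT.nd (nat_lit 78) (PT.lf (nat_lit 33212) (nat_lit 6) (nat_lit 437) (nat_lit 4) (nat_lit 161) (nat_lit 182) (nat_lit 167)) (PT.lf (nat_lit 33136) (nat_lit 6) (nat_lit 436) (nat_lit 4) (nat_lit 162) (nat_lit 182) (nat_lit 166))))))))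
noncomputable def pc41 : PT := (PT.nd (nat_lit 1326) (PT.nd (nat_lit 624) (PT.nd (nat_lit 312) (PT.nd (nat_lit 156) (PT.nd (nat_lit 78) (PT.lf (nat_lit 33060) (nat_lit 6) (nat_lit 435) (nat_lit 4) (nat_lit 163) (nat_lit 182) (nat_lit 165)) (PT.lf (nat_lit 32984) (nat_lit 3) (nat_lit 434) (nat_lit 2) (nat_lit 164) (nat_lit 182) (nat_lit 164))) (PT.nd (nat_lit 78) (PT.lf (nat_lit 33060) (nat_lit 6) (nat_lit 435) (nat_lit 2) (nat_lit 165) (nat_lit 182) (nat_lit 163)) (PT.lf (nat_lit 33136) (nat_lit 6) (nat_lit 436) (nat_lit 2) (nat_lit 166) (nat_lit 182) (nat_lit 162)))) (PT.nd (nat_lit 156) (PT.nd (nat_lit 78) (PT.lf (nat_lit 33212) (nat_lit 6) (nat_lit 437) (nat_lit 2) (nat_lit 167) (nat_lit 182) (nat_lit 161)) (PT.lf (nat_lit 33288) (nat_lit 6) (nat_lit 438) (nat_lit 2) (nat_lit 168) (nat_lit 182) (nat_lit 160))) (PT.nd (nat_lit 78) (PT.lf (nat_lit 33364) (nat_lit 6) (nat_lit 439) (nat_lit 2) (nat_lit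 169) (nat_lit 182) (nat_lit 159)) (PT.lf (nat_lit 33440) (nat_lit 6) (nat_lit 440) (nat_lit 2) (nat_lit 170) (nat_lit 182) (nat_lit 158))))) (PT.nd (nat_lit 312) (PT.nd (nat_lit 156) (PT.nd (nat_lit 78) (PT.lf (nat_lit 32528) (nat_lit 6) (nat_lit 428) (nat_lit 2) (nat_lit 171) (nat_lit 182) (nat_lit 157)) (PT.lf (nat_lit 31540) (nat_lit 6) (nat_lit 415) (nat_lit 2) (nat_lit 172) (nat_lit 182) (nat_lit 156))) (PT.nd (nat_lit 78) (PT.lf (nat_lit 30476) (nat_lit 6) (nat_lit 401) (nat_lit 2) (nat_lit 173) (nat_lit 182) (nat_lit 155)) (PT.lf (nat_lit 29336) (nat_lit 6) (nat_lit 386) (nat_lit 2) (nat_lit 174) (nat_lit 182) (nat_lit 154)))) (PT.nd (nat_lit 156) (PT.nd (nat_lit 78) (PT.lf (nat_lit 28120) (nat_lit 6) (nat_lit 370) (nat_lit 2) (nat_lit 175) (nat_lit 182) (nat_lit 153)) (PT.lf (nat_lit 27284) (nat_lit 6) (nat_lit 359) (nat_lit 2) (nat_lit 176) (nat_lit 182) (nat_lit 152))) (PT.nd (nat_lit 78)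 (PT.lf (nat_lit 26676) (nat_lit 6) (nat_lit 351) (nat_lit 2) (nat_lit 177) (nat_lit 182) (nat_lit 151)) (PT.nd (nat_lit 78) (PT.lf (nat_lit 26068) (nat_lit 6) (nat_lit 343) (nat_lit 2) (nat_lit 178) (nat_lit 182) (nat_lit 150)) (PT.lf (nat_lit 25536) (nat_lit 6) (nat_lit 336) (nat_lit 2) (nat_lit 179) (nat_lit 182) (nat_lit 149))))))) (PT.nd (nat_lit 624) (PT.nd (nat_lit 312) (PT.nd (nat_lit 156) (PT.nd (nat_lit 78) (PT.lf (nat_lit 24928) (nat_lit 6) (nat_lit 328) (nat_lit 2) (nat_lit 180) (nat_lit 182) (nat_lit 148)) (PT.lf (nat_lit 24396) (nat_lit 6) (nat_lit 321) (nat_lit 2) (nat_lit 181) (nat_lit 182) (nat_lit 147))) (PT.nd (nat_lit 78) (PT.lf (nat_lit 23864) (nat_lit 3) (nat_lit 314) (nat_lit 0) (nat_lit 182) (nat_lit 182) (nat_lit 146)) (PT.lf (nat_lit 23332) (nat_lit 6) (nat_lit 307) (nat_lit 0) (nat_lit 183) (nat_lit 182) (nat_lit 145)))) (PT.nd (nat_lit 156) (PT.nd (nat_lit 78) (PT.lf (nat_lit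 22724) (nat_lit 6) (nat_lit 299) (nat_lit 0) (nat_lit 184) (nat_lit 182) (nat_lit 144)) (PT.lf (nat_lit 22192) (nat_lit 6) (nat_lit 292) (nat_lit 0) (nat_lit 185) (nat_lit 182) (nat_lit 143))) (PT.nd (nat_lit 78) (PT.lf (nat_lit 21660) (nat_lit 6) (nat_lit 285) (nat_lit 0) (nat_lit 186) (nat_lit 182) (nat_lit 142)) (PT.lf (nat_lit 21204) (nat_lit 6) (nat_lit 279) (nat_lit 0) (nat_lit 187) (nat_lit 182) (nat_lit 141))))) (PT.nd (nat_lit 48984) (PT.nd (nat_lit 156) (PT.nd (nat_lit 78) (PT.lf (nat_lit 20672) (nat_lit 6) (nat_lit 272) (nat_lit 0) (nat_lit 188) (nat_lit 182) (nat_lit 140)) (PT.lf (nat_lit 20216) (nat_lit 6) (nat_lit 266) (nat_lit 0) (nat_lit 189) (nat_lit 182) (nat_lit 139))) (PT.nd (nat_lit 78) (PT.lf (nat_lit 19760) (nat_lit 6) (nat_lit 260) (nat_lit 0) (nat_lit 190) (nat_lit 182) (nat_lit 138)) (PT.lf (nat_lit 19304) (nat_lit 6) (nat_lit 254) (nat_lit 0) (nat_lit 191) (nat_lit 182)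 (nat_lit 137)))) (PT.nd (nat_lit 156) (PT.nd (nat_lit 78) (PT.lf (nat_lit 18544) (nat_lit 6) (nat_lit 244) (nat_lit 5) (nat_lit 135) (nat_lit 183) (nat_lit 192)) (PT.lf (nat_lit 18924) (nat_lit 6) (nat_lit 249) (nat_lit 5) (nat_lit 136) (nat_lit 183) (nat_lit 191))) (PT.nd (nat_lit 78) (PT.lf (nat_lit 19380) (nat_lit 6) (nat_lit 255) (nat_lit 5) (nat_lit 137) (nat_lit 183) (nat_lit 190)) (PT.nd (nat_lit 78) (PT.lf (nat_lit 19836) (nat_lit 6) (nat_lit 261) (nat_lit 5) (nat_lit 138) (nat_lit 183) (nat_lit 189)) (PT.lf (nat_lit 20292) (nat_lit 6) (nat_lit 267) (nat_lit 5) (nat_lit 139) (nat_lit 183) (nat_lit 188))))))))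
noncomputable def pc42 : PT := (PT.nd (nat_lit 1326) (PT.nd (nat_lit 624) (PT.nd (nat_lit 312) (PT.nd (nat_lit 156) (PT.nd (nat_lit 78) (PT.lf (nat_lit 20748) (nat_lit 6) (nat_lit 273) (nat_lit 5) (nat_lit 140) (nat_lit 183) (nat_lit 187)) (PT.lf (nat_lit 21280) (nat_lit 6) (nat_lit 280) (nat_lit 5) (nat_lit 141) (nat_lit 183) (nat_lit 186))) (PT.nd (nat_lit 78) (PT.lf (nat_lit 21736) (nat_lit 6) (nat_lit 286) (nat_lit 5) (nat_lit 142) (nat_lit 183) (nat_lit 185)) (PT.lf (nat_lit 22268) (nat_lit 6) (nat_lit 293) (nat_lit 5) (nat_lit 143) (nat_lit 183) (nat_lit 184)))) (PT.nd (nat_lit 156) (PT.nd (nat_lit 78) (PT.lf (nat_lit 22800) (nat_lit 3) (nat_lit 300) (nat_lit 4) (nat_lit 144) (nat_lit 183) (nat_lit 183)) (PT.lf (nat_lit 23332) (nat_lit 6) (nat_lit 307) (nat_lit 4) (nat_lit 145) (nat_lit 183) (nat_lit 182))) (PT.nd (nat_lit 78) (PT.lf (nat_lit 23788) (nat_lit 6) (nat_lit 313) (nat_lit 4) (nat_lit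 146) (nat_lit 183) (nat_lit 181)) (PT.lf (nat_lit 24320) (nat_lit 6) (nat_lit 320) (nat_lit 4) (nat_lit 147) (nat_lit 183) (nat_lit 180))))) (PT.nd (nat_lit 312) (PT.nd (nat_lit 156) (PT.nd (nat_lit 78) (PT.lf (nat_lit 24852) (nat_lit 6) (nat_lit 327) (nat_lit 4) (nat_lit 148) (nat_lit 183) (nat_lit 179)) (PT.lf (nat_lit 25460) (nat_lit 6) (nat_lit 335) (nat_lit 4) (nat_lit 149) (nat_lit 183) (nat_lit 178))) (PT.nd (nat_lit 78) (PT.lf (nat_lit 25992) (nat_lit 6) (nat_lit 342) (nat_lit 4) (nat_lit 150) (nat_lit 183) (nat_lit 177)) (PT.lf (nat_lit 26600) (nat_lit 6) (nat_lit 350) (nat_lit 4) (nat_lit 151) (nat_lit 183) (nat_lit 176)))) (PT.nd (nat_lit 156) (PT.nd (nat_lit 78) (PT.lf (nat_lit 27208) (nat_lit 6) (nat_lit 358) (nat_lit 4) (nat_lit 152) (nat_lit 183) (nat_lit 175)) (PT.lf (nat_lit 28044) (nat_lit 6) (nat_lit 369) (nat_lit 4) (nat_lit 153) (nat_lit 183) (nat_lit 174))) (PT.nd (nat_lit 78)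 (PT.lf (nat_lit 29260) (nat_lit 6) (nat_lit 385) (nat_lit 4) (nat_lit 154) (nat_lit 183) (nat_lit 173)) (PT.nd (nat_lit 78) (PT.lf (nat_lit 30400) (nat_lit 6) (nat_lit 400) (nat_lit 4) (nat_lit 155) (nat_lit 183) (nat_lit 172)) (PT.lf (nat_lit 31464) (nat_lit 6) (nat_lit 414) (nat_lit 4) (nat_lit 156) (nat_lit 183) (nat_lit 171))))))) (PT.nd (nat_lit 624) (PT.nd (nat_lit 312) (PT.nd (nat_lit 156) (PT.nd (nat_lit 78) (PT.lf (nat_lit 32452) (nat_lit 6) (nat_lit 427) (nat_lit 4) (nat_lit 157) (nat_lit 183) (nat_lit 170)) (PT.lf (nat_lit 32376) (nat_lit 6) (nat_lit 426) (nat_lit 4) (nat_lit 158) (nat_lit 183) (nat_lit 169))) (PT.nd (nat_lit 78) (PT.lf (nat_lit 32300) (nat_lit 6) (nat_lit 425) (nat_lit 4) (nat_lit 159) (nat_lit 183) (nat_lit 168)) (PT.lf (nat_lit 32224) (nat_lit 6) (nat_lit 424) (nat_lit 4) (nat_lit 160) (nat_lit 183) (nat_lit 167)))) (PT.nd (nat_lit 156) (PT.nd (nat_lit 78) (PT.lf (nat_lit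 32148) (nat_lit 6) (nat_lit 423) (nat_lit 4) (nat_lit 161) (nat_lit 183) (nat_lit 166)) (PT.lf (nat_lit 32072) (nat_lit 6) (nat_lit 422) (nat_lit 4) (nat_lit 162) (nat_lit 183) (nat_lit 165))) (PT.nd (nat_lit 78) (PT.lf (nat_lit 31996) (nat_lit 6) (nat_lit 421) (nat_lit 4) (nat_lit 163) (nat_lit 183) (nat_lit 164)) (PT.lf (nat_lit 31996) (nat_lit 6) (nat_lit 421) (nat_lit 2) (nat_lit 164) (nat_lit 183) (nat_lit 163))))) (PT.nd (nat_lit 312) (PT.nd (nat_lit 156) (PT.nd (nat_lit 78) (PT.lf (nat_lit 32072) (nat_lit 6) (nat_lit 422) (nat_lit 2) (nat_lit 165) (nat_lit 183) (nat_lit 162)) (PT.lf (nat_lit 32148) (nat_lit 6) (nat_lit 423) (nat_lit 2) (nat_lit 166) (nat_lit 183) (nat_lit 161))) (PT.nd (nat_lit 78) (PT.lf (nat_lit 32224) (nat_lit 6) (nat_lit 424) (nat_lit 2) (nat_lit 167) (nat_lit 183) (nat_lit 160)) (PT.lf (nat_lit 32300) (nat_lit 6) (nat_lit 425) (nat_lit 2) (nat_lit 168) (nat_lit 183) (nat_lit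 159)))) (PT.nd (nat_lit 156) (PT.nd (nat_lit 78) (PT.lf (nat_lit 32376) (nat_lit 6) (nat_lit 426) (nat_lit 2) (nat_lit 169) (nat_lit 183) (nat_lit 158)) (PT.lf (nat_lit 32452) (nat_lit 6) (nat_lit 427) (nat_lit 2) (nat_lit 170) (nat_lit 183) (nat_lit 157))) (PT.nd (nat_lit 78) (PT.lf (nat_lit 31464) (nat_lit 6) (nat_lit 414) (nat_lit 2) (nat_lit 171) (nat_lit 183) (nat_lit 156)) (PT.nd (nat_lit 78) (PT.lf (nat_lit 30400) (nat_lit 6) (nat_lit 400) (nat_lit 2) (nat_lit 172) (nat_lit 183) (nat_lit 155)) (PT.lf (nat_lit 29260) (nat_lit 6) (nat_lit 385) (nat_lit 2) (nat_lit 173) (nat_lit 183) (nat_lit 154))))))))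
noncomputable def pc43 : PT := (PT.nd (nat_lit 1326) (PT.nd (nat_lit 624) (PT.nd (nat_lit 312) (PT.nd (nat_lit 156) (PT.nd (nat_lit 78) (PT.lf (nat_lit 28044) (nat_lit 6) (nat_lit 369) (nat_lit 2) (nat_lit 174) (nat_lit 183) (nat_lit 153)) (PT.lf (nat_lit 27208) (nat_lit 6) (nat_lit 358) (nat_lit 2) (nat_lit 175) (nat_lit 183) (nat_lit 152))) (PT.nd (nat_lit 78) (PT.lf (nat_lit 26600) (nat_lit 6) (nat_lit 350) (nat_lit 2) (nat_lit 176) (nat_lit 183) (nat_lit 151)) (PT.lf (nat_lit 25992) (nat_lit 6) (nat_lit 342) (nat_lit 2) (nat_lit 177) (nat_lit 183) (nat_lit 150)))) (PT.nd (nat_lit 156) (PT.nd (nat_lit 78) (PT.lf (nat_lit 25460) (nat_lit 6) (nat_lit 335) (nat_lit 2) (nat_lit 178) (nat_lit 183) (nat_lit 149)) (PT.lf (nat_lit 24852) (nat_lit 6) (nat_lit 327) (nat_lit 2) (nat_lit 179) (nat_lit 183) (nat_lit 148))) (PT.nd (nat_lit 78) (PT.lf (nat_lit 24320) (nat_lit 6) (nat_lit 320) (nat_lit 2) (nat_lit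 180) (nat_lit 183) (nat_lit 147)) (PT.lf (nat_lit 23788) (nat_lit 6) (nat_lit 313) (nat_lit 2) (nat_lit 181) (nat_lit 183) (nat_lit 146))))) (PT.nd (nat_lit 312) (PT.nd (nat_lit 156) (PT.nd (nat_lit 78) (PT.lf (nat_lit 23332) (nat_lit 6) (nat_lit 307) (nat_lit 2) (nat_lit 182) (nat_lit 183) (nat_lit 145)) (PT.lf (nat_lit 22800) (nat_lit 3) (nat_lit 300) (nat_lit 0) (nat_lit 183) (nat_lit 183) (nat_lit 144))) (PT.nd (nat_lit 78) (PT.lf (nat_lit 22268) (nat_lit 6) (nat_lit 293) (nat_lit 0) (nat_lit 184) (nat_lit 183) (nat_lit 143)) (PT.lf (nat_lit 21736) (nat_lit 6) (nat_lit 286) (nat_lit 0) (nat_lit 185) (nat_lit 183) (nat_lit 142)))) (PT.nd (nat_lit 156) (PT.nd (nat_lit 78) (PT.lf (nat_lit 21280) (nat_lit 6) (nat_lit 280) (nat_lit 0) (nat_lit 186) (nat_lit 183) (nat_lit 141)) (PT.lf (nat_lit 20748) (nat_lit 6) (nat_lit 273) (nat_lit 0) (nat_lit 187) (nat_lit 183) (nat_lit 140))) (PT.nd (nat_lit 78)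 (PT.lf (nat_lit 20292) (nat_lit 6) (nat_lit 267) (nat_lit 0) (nat_lit 188) (nat_lit 183) (nat_lit 139)) (PT.nd (nat_lit 78) (PT.lf (nat_lit 19836) (nat_lit 6) (nat_lit 261) (nat_lit 0) (nat_lit 189) (nat_lit 183) (nat_lit 138)) (PT.lf (nat_lit 19380) (nat_lit 6) (nat_lit 255) (nat_lit 0) (nat_lit 190) (nat_lit 183) (nat_lit 137))))))) (PT.nd (nat_lit 49218) (PT.nd (nat_lit 48828) (PT.nd (nat_lit 48672) (PT.nd (nat_lit 78) (PT.lf (nat_lit 18924) (nat_lit 6) (nat_lit 249) (nat_lit 0) (nat_lit 191) (nat_lit 183) (nat_lit 136)) (PT.lf (nat_lit 18544) (nat_lit 6) (nat_lit 244) (nat_lit 0) (nat_lit 192) (nat_lit 183) (nat_lit 135))) (PT.nd (nat_lit 78) (PT.lf (nat_lit 18164) (nat_lit 6) (nat_lit 239) (nat_lit 5) (nat_lit 134) (nat_lit 184) (nat_lit 192)) (PT.lf (nat_lit 18620) (nat_lit 6) (nat_lit 245) (nat_lit 5) (nat_lit 135) (nat_lit 184) (nat_lit 191)))) (PT.nd (nat_lit 156) (PT.nd (nat_lit 78) (PT.lf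 (nat_lit 19000) (nat_lit 6) (nat_lit 250) (nat_lit 5) (nat_lit 136) (nat_lit 184) (nat_lit 190)) (PT.lf (nat_lit 19456) (nat_lit 6) (nat_lit 256) (nat_lit 5) (nat_lit 137) (nat_lit 184) (nat_lit 189))) (PT.nd (nat_lit 78) (PT.lf (nat_lit 19912) (nat_lit 6) (nat_lit 262) (nat_lit 5) (nat_lit 138) (nat_lit 184) (nat_lit 188)) (PT.nd (nat_lit 78) (PT.lf (nat_lit 20368) (nat_lit 6) (nat_lit 268) (nat_lit 5) (nat_lit 139) (nat_lit 184) (nat_lit 187)) (PT.lf (nat_lit 20824) (nat_lit 6) (nat_lit 274) (nat_lit 5) (nat_lit 140) (nat_lit 184) (nat_lit 186)))))) (PT.nd (nat_lit 312) (PT.nd (nat_lit 156) (PT.nd (nat_lit 78) (PT.lf (nat_lit 21356) (nat_lit 6) (nat_lit 281) (nat_lit 5) (nat_lit 141) (nat_lit 184) (nat_lit 185)) (PT.lf (nat_lit 21812) (nat_lit 3) (nat_lit 287) (nat_lit 4) (nat_lit 142) (nat_lit 184) (nat_lit 184))) (PT.nd (nat_lit 78) (PT.lf (nat_lit 22268) (nat_lit 6) (nat_lit 293) (nat_lit 4)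 (nat_lit 143) (nat_lit 184) (nat_lit 183)) (PT.lf (nat_lit 22724) (nat_lit 6) (nat_lit 299) (nat_lit 4) (nat_lit 144) (nat_lit 184) (nat_lit 182)))) (PT.nd (nat_lit 156) (PT.nd (nat_lit 78) (PT.lf (nat_lit 23256) (nat_lit 6) (nat_lit 306) (nat_lit 4) (nat_lit 145) (nat_lit 184) (nat_lit 181)) (PT.lf (nat_lit 23712) (nat_lit 6) (nat_lit 312) (nat_lit 4) (nat_lit 146) (nat_lit 184) (nat_lit 180))) (PT.nd (nat_lit 78) (PT.lf (nat_lit 24244) (nat_lit 6) (nat_lit 319) (nat_lit 4) (nat_lit 147) (nat_lit 184) (nat_lit 179)) (PT.nd (nat_lit 78) (PT.lf (nat_lit 24776) (nat_lit 6) (nat_lit 326) (nat_lit 4) (nat_lit 148) (nat_lit 184) (nat_lit 178)) (PT.lf (nat_lit 25384) (nat_lit 6) (nat_lit 334) (nat_lit 4) (nat_lit 149) (nat_lit 184) (nat_lit 177))))))))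
noncomputable def pc44 : PT := (PT.nd (nat_lit 1326) (PT.nd (nat_lit 624) (PT.nd (nat_lit 312) (PT.nd (nat_lit 156) (PT.nd (nat_lit 78) (PT.lf (nat_lit 25916) (nat_lit 6) (nat_lit 341) (nat_lit 4) (nat_lit 150) (nat_lit 184) (nat_lit 176)) (PT.lf (nat_lit 26524) (nat_lit 6) (nat_lit 349) (nat_lit 4) (nat_lit 151) (nat_lit 184) (nat_lit 175))) (PT.nd (nat_lit 78) (PT.lf (nat_lit 27132) (nat_lit 6) (nat_lit 357) (nat_lit 4) (nat_lit 152) (nat_lit 184) (nat_lit 174)) (PT.lf (nat_lit 27968) (nat_lit 6) (nat_lit 368) (nat_lit 4) (nat_lit 153) (nat_lit 184) (nat_lit 173)))) (PT.nd (nat_lit 156) (PT.nd (nat_lit 78) (PT.lf (nat_lit 29184) (nat_lit 6) (nat_lit 384) (nat_lit 4) (nat_lit 154) (nat_lit 184) (nat_lit 172)) (PT.lf (nat_lit 30324) (nat_lit 6) (nat_lit 399) (nat_lit 4) (nat_lit 155) (nat_lit 184) (nat_lit 171))) (PT.nd (nat_lit 78) (PT.lf (nat_lit 31388) (nat_lit 6) (nat_lit 413) (nat_lit 4) (nat_lit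 156) (nat_lit 184) (nat_lit 170)) (PT.lf (nat_lit 31312) (nat_lit 6) (nat_lit 412) (nat_lit 4) (nat_lit 157) (nat_lit 184) (nat_lit 169))))) (PT.nd (nat_lit 312) (PT.nd (nat_lit 156) (PT.nd (nat_lit 78) (PT.lf (nat_lit 31236) (nat_lit 6) (nat_lit 411) (nat_lit 4) (nat_lit 158) (nat_lit 184) (nat_lit 168)) (PT.lf (nat_lit 31160) (nat_lit 6) (nat_lit 410) (nat_lit 4) (nat_lit 159) (nat_lit 184) (nat_lit 167))) (PT.nd (nat_lit 78) (PT.lf (nat_lit 31084) (nat_lit 6) (nat_lit 409) (nat_lit 4) (nat_lit 160) (nat_lit 184) (nat_lit 166)) (PT.lf (nat_lit 31008) (nat_lit 6) (nat_lit 408) (nat_lit 4) (nat_lit 161) (nat_lit 184) (nat_lit 165)))) (PT.nd (nat_lit 156) (PT.nd (nat_lit 78) (PT.lf (nat_lit 30932) (nat_lit 6) (nat_lit 407) (nat_lit 4) (nat_lit 162) (nat_lit 184) (nat_lit 164)) (PT.lf (nat_lit 30856) (nat_lit 3) (nat_lit 406) (nat_lit 2) (nat_lit 163) (nat_lit 184) (nat_lit 163))) (PT.nd (nat_lit 78)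 (PT.lf (nat_lit 30932) (nat_lit 6) (nat_lit 407) (nat_lit 2) (nat_lit 164) (nat_lit 184) (nat_lit 162)) (PT.nd (nat_lit 78) (PT.lf (nat_lit 31008) (nat_lit 6) (nat_lit 408) (nat_lit 2) (nat_lit 165) (nat_lit 184) (nat_lit 161)) (PT.lf (nat_lit 31084) (nat_lit 6) (nat_lit 409) (nat_lit 2) (nat_lit 166) (nat_lit 184) (nat_lit 160))))))) (PT.nd (nat_lit 624) (PT.nd (nat_lit 312) (PT.nd (nat_lit 156) (PT.nd (nat_lit 78) (PT.lf (nat_lit 31160) (nat_lit 6) (nat_lit 410) (nat_lit 2) (nat_lit 167) (nat_lit 184) (nat_lit 159)) (PT.lf (nat_lit 31236) (nat_lit 6) (nat_lit 411) (nat_lit 2) (nat_lit 168) (nat_lit 184) (nat_lit 158))) (PT.nd (nat_lit 78) (PT.lf (nat_lit 31312) (nat_lit 6) (nat_lit 412) (nat_lit 2) (nat_lit 169) (nat_lit 184) (nat_lit 157)) (PT.lf (nat_lit 31388) (nat_lit 6) (nat_lit 413) (nat_lit 2) (nat_lit 170) (nat_lit 184) (nat_lit 156)))) (PT.nd (nat_lit 156) (PT.nd (nat_lit 78) (PT.lf (nat_lit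 30324) (nat_lit 6) (nat_lit 399) (nat_lit 2) (nat_lit 171) (nat_lit 184) (nat_lit 155)) (PT.lf (nat_lit 29184) (nat_lit 6) (nat_lit 384) (nat_lit 2) (nat_lit 172) (nat_lit 184) (nat_lit 154))) (PT.nd (nat_lit 78) (PT.lf (nat_lit 27968) (nat_lit 6) (nat_lit 368) (nat_lit 2) (nat_lit 173) (nat_lit 184) (nat_lit 153)) (PT.lf (nat_lit 27132) (nat_lit 6) (nat_lit 357) (nat_lit 2) (nat_lit 174) (nat_lit 184) (nat_lit 152))))) (PT.nd (nat_lit 312) (PT.nd (nat_lit 156) (PT.nd (nat_lit 78) (PT.lf (nat_lit 26524) (nat_lit 6) (nat_lit 349) (nat_lit 2) (nat_lit 175) (nat_lit 184) (nat_lit 151)) (PT.lf (nat_lit 25916) (nat_lit 6) (nat_lit 341) (nat_lit 2) (nat_lit 176) (nat_lit 184) (nat_lit 150))) (PT.nd (nat_lit 78) (PT.lf (nat_lit 25384) (nat_lit 6) (nat_lit 334) (nat_lit 2) (nat_lit 177) (nat_lit 184) (nat_lit 149)) (PT.lf (nat_lit 24776) (nat_lit 6) (nat_lit 326) (nat_lit 2) (nat_lit 178) (nat_lit 184) (nat_lit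 148)))) (PT.nd (nat_lit 156) (PT.nd (nat_lit 78) (PT.lf (nat_lit 24244) (nat_lit 6) (nat_lit 319) (nat_lit 2) (nat_lit 179) (nat_lit 184) (nat_lit 147)) (PT.lf (nat_lit 23712) (nat_lit 6) (nat_lit 312) (nat_lit 2) (nat_lit 180) (nat_lit 184) (nat_lit 146))) (PT.nd (nat_lit 78) (PT.lf (nat_lit 23256) (nat_lit 6) (nat_lit 306) (nat_lit 2) (nat_lit 181) (nat_lit 184) (nat_lit 145)) (PT.nd (nat_lit 78) (PT.lf (nat_lit 22724) (nat_lit 6) (nat_lit 299) (nat_lit 2) (nat_lit 182) (nat_lit 184) (nat_lit 144)) (PT.lf (nat_lit 22268) (nat_lit 6) (nat_lit 293) (nat_lit 2) (nat_lit 183) (nat_lit 184) (nat_lit 143))))))))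
noncomputable def pc45 : PT := (PT.nd (nat_lit 49686) (PT.nd (nat_lit 624) (PT.nd (nat_lit 312) (PT.nd (nat_lit 156) (PT.nd (nat_lit 78) (PT.lf (nat_lit 21812) (nat_lit 3) (nat_lit 287) (nat_lit 0) (nat_lit 184) (nat_lit 184) (nat_lit 142)) (PT.lf (nat_lit 21356) (nat_lit 6) (nat_lit 281) (nat_lit 0) (nat_lit 185) (nat_lit 184) (nat_lit 141))) (PT.nd (nat_lit 78) (PT.lf (nat_lit 20824) (nat_lit 6) (nat_lit 274) (nat_lit 0) (nat_lit 186) (nat_lit 184) (nat_lit 140)) (PT.lf (nat_lit 20368) (nat_lit 6) (nat_lit 268) (nat_lit 0) (nat_lit 187) (nat_lit 184) (nat_lit 139)))) (PT.nd (nat_lit 156) (PT.nd (nat_lit 78) (PT.lf (nat_lit 19912) (nat_lit 6) (nat_lit 262) (nat_lit 0) (nat_lit 188) (nat_lit 184) (nat_lit 138)) (PT.lf (nat_lit 19456) (nat_lit 6) (nat_lit 256) (nat_lit 0) (nat_lit 189) (nat_lit 184) (nat_lit 137))) (PT.nd (nat_lit 78) (PT.lf (nat_lit 19000) (nat_lit 6) (nat_lit 250) (nat_lit 0) (nat_lit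 190) (nat_lit 184) (nat_lit 136)) (PT.lf (nat_lit 18620) (nat_lit 6) (nat_lit 245) (nat_lit 0) (nat_lit 191) (nat_lit 184) (nat_lit 135))))) (PT.nd (nat_lit 48672) (PT.nd (nat_lit 48516) (PT.nd (nat_lit 48438) (PT.lf (nat_lit 18164) (nat_lit 6) (nat_lit 239) (nat_lit 0) (nat_lit 192) (nat_lit 184) (nat_lit 134)) (PT.lf (nat_lit 17480) (nat_lit 6) (nat_lit 230) (nat_lit 5) (nat_lit 132) (nat_lit 185) (nat_lit 193))) (PT.nd (nat_lit 78) (PT.lf (nat_lit 17860) (nat_lit 6) (nat_lit 235) (nat_lit 5) (nat_lit 133) (nat_lit 185) (nat_lit 192)) (PT.lf (nat_lit 18240) (nat_lit 6) (nat_lit 240) (nat_lit 5) (nat_lit 134) (nat_lit 185) (nat_lit 191)))) (PT.nd (nat_lit 156) (PT.nd (nat_lit 78) (PT.lf (nat_lit 18696) (nat_lit 6) (nat_lit 246) (nat_lit 5) (nat_lit 135) (nat_lit 185) (nat_lit 190)) (PT.lf (nat_lit 19076) (nat_lit 6) (nat_lit 251) (nat_lit 5) (nat_lit 136) (nat_lit 185) (nat_lit 189))) (PT.nd (nat_lit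 78) (PT.lf (nat_lit 19532) (nat_lit 6) (nat_lit 257) (nat_lit 5) (nat_lit 137) (nat_lit 185) (nat_lit 188)) (PT.nd (nat_lit 78) (PT.lf (nat_lit 19988) (nat_lit 6) (nat_lit 263) (nat_lit 5) (nat_lit 138) (nat_lit 185) (nat_lit 187)) (PT.lf (nat_lit 20444) (nat_lit 6) (nat_lit 269) (nat_lit 5) (nat_lit 139) (nat_lit 185) (nat_lit 186))))))) (PT.nd (nat_lit 624) (PT.nd (nat_lit 312) (PT.nd (nat_lit 156) (PT.nd (nat_lit 78) (PT.lf (nat_lit 20900) (nat_lit 3) (nat_lit 275) (nat_lit 4) (nat_lit 140) (nat_lit 185) (nat_lit 185)) (PT.lf (nat_lit 21356) (nat_lit 6) (nat_lit 281) (nat_lit 4) (nat_lit 141) (nat_lit 185) (nat_lit 184))) (PT.nd (nat_lit 78) (PT.lf (nat_lit 21736) (nat_lit 6) (nat_lit 286) (nat_lit 4) (nat_lit 142) (nat_lit 185) (nat_lit 183)) (PT.lf (nat_lit 22192) (nat_lit 6) (nat_lit 292) (nat_lit 4) (nat_lit 143) (nat_lit 185) (nat_lit 182)))) (PT.nd (nat_lit 156) (PT.nd (nat_lit 78) (PT.lf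 (nat_lit 22648) (nat_lit 6) (nat_lit 298) (nat_lit 4) (nat_lit 144) (nat_lit 185) (nat_lit 181)) (PT.lf (nat_lit 23180) (nat_lit 6) (nat_lit 305) (nat_lit 4) (nat_lit 145) (nat_lit 185) (nat_lit 180))) (PT.nd (nat_lit 78) (PT.lf (nat_lit 23636) (nat_lit 6) (nat_lit 311) (nat_lit 4) (nat_lit 146) (nat_lit 185) (nat_lit 179)) (PT.lf (nat_lit 24168) (nat_lit 6) (nat_lit 318) (nat_lit 4) (nat_lit 147) (nat_lit 185) (nat_lit 178))))) (PT.nd (nat_lit 312) (PT.nd (nat_lit 156) (PT.nd (nat_lit 78) (PT.lf (nat_lit 24700) (nat_lit 6) (nat_lit 325) (nat_lit 4) (nat_lit 148) (nat_lit 185) (nat_lit 177)) (PT.lf (nat_lit 25308) (nat_lit 6) (nat_lit 333) (nat_lit 4) (nat_lit 149) (nat_lit 185) (nat_lit 176))) (PT.nd (nat_lit 78) (PT.lf (nat_lit 25840) (nat_lit 6) (nat_lit 340) (nat_lit 4) (nat_lit 150) (nat_lit 185) (nat_lit 175)) (PT.lf (nat_lit 26448) (nat_lit 6) (nat_lit 348) (nat_lit 4) (nat_lit 151) (nat_lit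 185) (nat_lit 174)))) (PT.nd (nat_lit 156) (PT.nd (nat_lit 78) (PT.lf (nat_lit 27056) (nat_lit 6) (nat_lit 356) (nat_lit 4) (nat_lit 152) (nat_lit 185) (nat_lit 173)) (PT.lf (nat_lit 27892) (nat_lit 6) (nat_lit 367) (nat_lit 4) (nat_lit 153) (nat_lit 185) (nat_lit 172))) (PT.nd (nat_lit 78) (PT.lf (nat_lit 29108) (nat_lit 6) (nat_lit 383) (nat_lit 4) (nat_lit 154) (nat_lit 185) (nat_lit 171)) (PT.nd (nat_lit 78) (PT.lf (nat_lit 30248) (nat_lit 6) (nat_lit 398) (nat_lit 4) (nat_lit 155) (nat_lit 185) (nat_lit 170)) (PT.lf (nat_lit 30172) (nat_lit 6) (nat_lit 397) (nat_lit 4) (nat_lit 156) (nat_lit 185) (nat_lit 169))))))))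
noncomputable def pc46 : PT := (PT.nd (nat_lit 1326) (PT.nd (nat_lit 624) (PT.nd (nat_lit 312) (PT.nd (nat_lit 156) (PT.nd (nat_lit 78) (PT.lf (nat_lit 30096) (nat_lit 6) (nat_lit 396) (nat_lit 4) (nat_lit 157) (nat_lit 185) (nat_lit 168)) (PT.lf (nat_lit 30020) (nat_lit 6) (nat_lit 395) (nat_lit 4) (nat_lit 158) (nat_lit 185) (nat_lit 167))) (PT.nd (nat_lit 78) (PT.lf (nat_lit 29944) (nat_lit 6) (nat_lit 394) (nat_lit 4) (nat_lit 159) (nat_lit 185) (nat_lit 166)) (PT.lf (nat_lit 29868) (nat_lit 6) (nat_lit 393) (nat_lit 4) (nat_lit 160) (nat_lit 185) (nat_lit 165)))) (PT.nd (nat_lit 156) (PT.nd (nat_lit 78) (PT.lf (nat_lit 29792) (nat_lit 6) (nat_lit 392) (nat_lit 4) (nat_lit 161) (nat_lit 185) (nat_lit 164)) (PT.lf (nat_lit 29716) (nat_lit 6) (nat_lit 391) (nat_lit 4) (nat_lit 162) (nat_lit 185) (nat_lit 163))) (PT.nd (nat_lit 78) (PT.lf (nat_lit 29716) (nat_lit 6) (nat_lit 391) (nat_lit 2) (nat_lit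 163) (nat_lit 185) (nat_lit 162)) (PT.lf (nat_lit 29792) (nat_lit 6) (nat_lit 392) (nat_lit 2) (nat_lit 164) (nat_lit 185) (nat_lit 161))))) (PT.nd (nat_lit 312) (PT.nd (nat_lit 156) (PT.nd (nat_lit 78) (PT.lf (nat_lit 29868) (nat_lit 6) (nat_lit 393) (nat_lit 2) (nat_lit 165) (nat_lit 185) (nat_lit 160)) (PT.lf (nat_lit 29944) (nat_lit 6) (nat_lit 394) (nat_lit 2) (nat_lit 166) (nat_lit 185) (nat_lit 159))) (PT.nd (nat_lit 78) (PT.lf (nat_lit 30020) (nat_lit 6) (nat_lit 395) (nat_lit 2) (nat_lit 167) (nat_lit 185) (nat_lit 158)) (PT.lf (nat_lit 30096) (nat_lit 6) (nat_lit 396) (nat_lit 2) (nat_lit 168) (nat_lit 185) (nat_lit 157)))) (PT.nd (nat_lit 156) (PT.nd (nat_lit 78) (PT.lf (nat_lit 30172) (nat_lit 6) (nat_lit 397) (nat_lit 2) (nat_lit 169) (nat_lit 185) (nat_lit 156)) (PT.lf (nat_lit 30248) (nat_lit 6) (nat_lit 398) (nat_lit 2) (nat_lit 170) (nat_lit 185) (nat_lit 155))) (PT.nd (nat_lit 78)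 (PT.lf (nat_lit 29108) (nat_lit 6) (nat_lit 383) (nat_lit 2) (nat_lit 171) (nat_lit 185) (nat_lit 154)) (PT.nd (nat_lit 78) (PT.lf (nat_lit 27892) (nat_lit 6) (nat_lit 367) (nat_lit 2) (nat_lit 172) (nat_lit 185) (nat_lit 153)) (PT.lf (nat_lit 27056) (nat_lit 6) (nat_lit 356) (nat_lit 2) (nat_lit 173) (nat_lit 185) (nat_lit 152))))))) (PT.nd (nat_lit 624) (PT.nd (nat_lit 312) (PT.nd (nat_lit 156) (PT.nd (nat_lit 78) (PT.lf (nat_lit 26448) (nat_lit 6) (nat_lit 348) (nat_lit 2) (nat_lit 174) (nat_lit 185) (nat_lit 151)) (PT.lf (nat_lit 25840) (nat_lit 6) (nat_lit 340) (nat_lit 2) (nat_lit 175) (nat_lit 185) (nat_lit 150))) (PT.nd (nat_lit 78) (PT.lf (nat_lit 25308) (nat_lit 6) (nat_lit 333) (nat_lit 2) (nat_lit 176) (nat_lit 185) (nat_lit 149)) (PT.lf (nat_lit 24700) (nat_lit 6) (nat_lit 325) (nat_lit 2) (nat_lit 177) (nat_lit 185) (nat_lit 148)))) (PT.nd (nat_lit 156) (PT.nd (nat_lit 78) (PT.lf (nat_lit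 24168) (nat_lit 6) (nat_lit 318) (nat_lit 2) (nat_lit 178) (nat_lit 185) (nat_lit 147)) (PT.lf (nat_lit 23636) (nat_lit 6) (nat_lit 311) (nat_lit 2) (nat_lit 179) (nat_lit 185) (nat_lit 146))) (PT.nd (nat_lit 78) (PT.lf (nat_lit 23180) (nat_lit 6) (nat_lit 305) (nat_lit 2) (nat_lit 180) (nat_lit 185) (nat_lit 145)) (PT.lf (nat_lit 22648) (nat_lit 6) (nat_lit 298) (nat_lit 2) (nat_lit 181) (nat_lit 185) (nat_lit 144))))) (PT.nd (nat_lit 312) (PT.nd (nat_lit 156) (PT.nd (nat_lit 78) (PT.lf (nat_lit 22192) (nat_lit 6) (nat_lit 292) (nat_lit 2) (nat_lit 182) (nat_lit 185) (nat_lit 143)) (PT.lf (nat_lit 21736) (nat_lit 6) (nat_lit 286) (nat_lit 2) (nat_lit 183) (nat_lit 185) (nat_lit 142))) (PT.nd (nat_lit 78) (PT.lf (nat_lit 21356) (nat_lit 6) (nat_lit 281) (nat_lit 2) (nat_lit 184) (nat_lit 185) (nat_lit 141)) (PT.lf (nat_lit 20900) (nat_lit 3) (nat_lit 275) (nat_lit 0) (nat_lit 185) (nat_lit 185) (nat_lit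 140)))) (PT.nd (nat_lit 156) (PT.nd (nat_lit 78) (PT.lf (nat_lit 20444) (nat_lit 6) (nat_lit 269) (nat_lit 0) (nat_lit 186) (nat_lit 185) (nat_lit 139)) (PT.lf (nat_lit 19988) (nat_lit 6) (nat_lit 263) (nat_lit 0) (nat_lit 187) (nat_lit 185) (nat_lit 138))) (PT.nd (nat_lit 78) (PT.lf (nat_lit 19532) (nat_lit 6) (nat_lit 257) (nat_lit 0) (nat_lit 188) (nat_lit 185) (nat_lit 137)) (PT.nd (nat_lit 78) (PT.lf (nat_lit 19076) (nat_lit 6) (nat_lit 251) (nat_lit 0) (nat_lit 189) (nat_lit 185) (nat_lit 136)) (PT.lf (nat_lit 18696) (nat_lit 6) (nat_lit 246) (nat_lit 0) (nat_lit 190) (nat_lit 185) (nat_lit 135))))))))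
noncomputable def pc47 : PT := (PT.nd (nat_lit 49530) (PT.nd (nat_lit 48828) (PT.nd (nat_lit 48516) (PT.nd (nat_lit 156) (PT.nd (nat_lit 78) (PT.lf (nat_lit 18240) (nat_lit 6) (nat_lit 240) (nat_lit 0) (nat_lit 191) (nat_lit 185) (nat_lit 134)) (PT.lf (nat_lit 17860) (nat_lit 6) (nat_lit 235) (nat_lit 0) (nat_lit 192) (nat_lit 185) (nat_lit 133))) (PT.nd (nat_lit 48282) (PT.lf (nat_lit 17480) (nat_lit 6) (nat_lit 230) (nat_lit 0) (nat_lit 193) (nat_lit 185) (nat_lit 132)) (PT.lf (nat_lit 17176) (nat_lit 6) (nat_lit 226) (nat_lit 5) (nat_lit 131) (nat_lit 186) (nat_lit 193)))) (PT.nd (nat_lit 156) (PT.nd (nat_lit 78) (PT.lf (nat_lit 17556) (nat_lit 6) (nat_lit 231) (nat_lit 5) (nat_lit 132) (nat_lit 186) (nat_lit 192)) (PT.lf (nat_lit 17936) (nat_lit 6) (nat_lit 236) (nat_lit 5) (nat_lit 133) (nat_lit 186) (nat_lit 191))) (PT.nd (nat_lit 78) (PT.lf (nat_lit 18316) (nat_lit 6) (nat_lit 241) (nat_lit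 5) (nat_lit 134) (nat_lit 186) (nat_lit 190)) (PT.lf (nat_lit 18772) (nat_lit 6) (nat_lit 247) (nat_lit 5) (nat_lit 135) (nat_lit 186) (nat_lit 189))))) (PT.nd (nat_lit 312) (PT.nd (nat_lit 156) (PT.nd (nat_lit 78) (PT.lf (nat_lit 19152) (nat_lit 6) (nat_lit 252) (nat_lit 5) (nat_lit 136) (nat_lit 186) (nat_lit 188)) (PT.lf (nat_lit 19608) (nat_lit 6) (nat_lit 258) (nat_lit 5) (nat_lit 137) (nat_lit 186) (nat_lit 187))) (PT.nd (nat_lit 78) (PT.lf (nat_lit 20064) (nat_lit 3) (nat_lit 264) (nat_lit 4) (nat_lit 138) (nat_lit 186) (nat_lit 186)) (PT.lf (nat_lit 20444) (nat_lit 6) (nat_lit 269) (nat_lit 4) (nat_lit 139) (nat_lit 186) (nat_lit 185)))) (PT.nd (nat_lit 156) (PT.nd (nat_lit 78) (PT.lf (nat_lit 20824) (nat_lit 6) (nat_lit 274) (nat_lit 4) (nat_lit 140) (nat_lit 186) (nat_lit 184)) (PT.lf (nat_lit 21280) (nat_lit 6) (nat_lit 280) (nat_lit 4) (nat_lit 141) (nat_lit 186) (nat_lit 183))) (PT.nd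 (nat_lit 78) (PT.lf (nat_lit 21660) (nat_lit 6) (nat_lit 285) (nat_lit 4) (nat_lit 142) (nat_lit 186) (nat_lit 182)) (PT.nd (nat_lit 78) (PT.lf (nat_lit 22116) (nat_lit 6) (nat_lit 291) (nat_lit 4) (nat_lit 143) (nat_lit 186) (nat_lit 181)) (PT.lf (nat_lit 22572) (nat_lit 6) (nat_lit 297) (nat_lit 4) (nat_lit 144) (nat_lit 186) (nat_lit 180))))))) (PT.nd (nat_lit 702) (PT.nd (nat_lit 312) (PT.nd (nat_lit 156) (PT.nd (nat_lit 78) (PT.lf (nat_lit 23104) (nat_lit 6) (nat_lit 304) (nat_lit 4) (nat_lit 145) (nat_lit 186) (nat_lit 179)) (PT.lf (nat_lit 23560) (nat_lit 6) (nat_lit 310) (nat_lit 4) (nat_lit 146) (nat_lit 186) (nat_lit 178))) (PT.nd (nat_lit 78) (PT.lf (nat_lit 24092) (nat_lit 6) (nat_lit 317) (nat_lit 4) (nat_lit 147) (nat_lit 186) (nat_lit 177)) (PT.lf (nat_lit 24624) (nat_lit 6) (nat_lit 324) (nat_lit 4) (nat_lit 148) (nat_lit 186) (nat_lit 176)))) (PT.nd (nat_lit 156) (PT.nd (nat_lit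 78) (PT.lf (nat_lit 25232) (nat_lit 6) (nat_lit 332) (nat_lit 4) (nat_lit 149) (nat_lit 186) (nat_lit 175)) (PT.lf (nat_lit 25764) (nat_lit 6) (nat_lit 339) (nat_lit 4) (nat_lit 150) (nat_lit 186) (nat_lit 174))) (PT.nd (nat_lit 78) (PT.lf (nat_lit 26372) (nat_lit 6) (nat_lit 347) (nat_lit 4) (nat_lit 151) (nat_lit 186) (nat_lit 173)) (PT.nd (nat_lit 78) (PT.lf (nat_lit 26980) (nat_lit 6) (nat_lit 355) (nat_lit 4) (nat_lit 152) (nat_lit 186) (nat_lit 172)) (PT.lf (nat_lit 27816) (nat_lit 6) (nat_lit 366) (nat_lit 4) (nat_lit 153) (nat_lit 186) (nat_lit 171)))))) (PT.nd (nat_lit 312) (PT.nd (nat_lit 156) (PT.nd (nat_lit 78) (PT.lf (nat_lit 29032) (nat_lit 6) (nat_lit 382) (nat_lit 4) (nat_lit 154) (nat_lit 186) (nat_lit 170)) (PT.lf (nat_lit 28956) (nat_lit 6) (nat_lit 381) (nat_lit 4) (nat_lit 155) (nat_lit 186) (nat_lit 169))) (PT.nd (nat_lit 78) (PT.lf (nat_lit 28880) (nat_lit 6) (nat_lit 380)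 (nat_lit 4) (nat_lit 156) (nat_lit 186) (nat_lit 168)) (PT.lf (nat_lit 28804) (nat_lit 6) (nat_lit 379) (nat_lit 4) (nat_lit 157) (nat_lit 186) (nat_lit 167)))) (PT.nd (nat_lit 156) (PT.nd (nat_lit 78) (PT.lf (nat_lit 28728) (nat_lit 6) (nat_lit 378) (nat_lit 4) (nat_lit 158) (nat_lit 186) (nat_lit 166)) (PT.lf (nat_lit 28652) (nat_lit 6) (nat_lit 377) (nat_lit 4) (nat_lit 159) (nat_lit 186) (nat_lit 165))) (PT.nd (nat_lit 78) (PT.lf (nat_lit 28576) (nat_lit 6) (nat_lit 376) (nat_lit 4) (nat_lit 160) (nat_lit 186) (nat_lit 164)) (PT.nd (nat_lit 78) (PT.lf (nat_lit 28500) (nat_lit 6) (nat_lit 375) (nat_lit 4) (nat_lit 161) (nat_lit 186) (nat_lit 163)) (PT.lf (nat_lit 28424) (nat_lit 3) (nat_lit 374) (nat_lit 2) (nat_lit 162) (nat_lit 186) (nat_lit 162))))))))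
noncomputable def pc48 : PT := (PT.nd (nat_lit 1326) (PT.nd (nat_lit 624) (PT.nd (nat_lit 312) (PT.nd (nat_lit 156) (PT.nd (nat_lit 78) (PT.lf (nat_lit 28500) (nat_lit 6) (nat_lit 375) (nat_lit 2) (nat_lit 163) (nat_lit 186) (nat_lit 161)) (PT.lf (nat_lit 28576) (nat_lit 6) (nat_lit 376) (nat_lit 2) (nat_lit 164) (nat_lit 186) (nat_lit 160))) (PT.nd (nat_lit 78) (PT.lf (nat_lit 28652) (nat_lit 6) (nat_lit 377) (nat_lit 2) (nat_lit 165) (nat_lit 186) (nat_lit 159)) (PT.lf (nat_lit 28728) (nat_lit 6) (nat_lit 378) (nat_lit 2) (nat_lit 166) (nat_lit 186) (nat_lit 158)))) (PT.nd (nat_lit 156) (PT.nd (nat_lit 78) (PT.lf (nat_lit 28804) (nat_lit 6) (nat_lit 379) (nat_lit 2) (nat_lit 167) (nat_lit 186) (nat_lit 157)) (PT.lf (nat_lit 28880) (nat_lit 6) (nat_lit 380) (nat_lit 2) (nat_lit 168) (nat_lit 186) (nat_lit 156))) (PT.nd (nat_lit 78) (PT.lf (nat_lit 28956) (nat_lit 6) (nat_lit 381) (nat_lit 2) (nat_lit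 169) (nat_lit 186) (nat_lit 155)) (PT.lf (nat_lit 29032) (nat_lit 6) (nat_lit 382) (nat_lit 2) (nat_lit 170) (nat_lit 186) (nat_lit 154))))) (PT.nd (nat_lit 312) (PT.nd (nat_lit 156) (PT.nd (nat_lit 78) (PT.lf (nat_lit 27816) (nat_lit 6) (nat_lit 366) (nat_lit 2) (nat_lit 171) (nat_lit 186) (nat_lit 153)) (PT.lf (nat_lit 26980) (nat_lit 6) (nat_lit 355) (nat_lit 2) (nat_lit 172) (nat_lit 186) (nat_lit 152))) (PT.nd (nat_lit 78) (PT.lf (nat_lit 26372) (nat_lit 6) (nat_lit 347) (nat_lit 2) (nat_lit 173) (nat_lit 186) (nat_lit 151)) (PT.lf (nat_lit 25764) (nat_lit 6) (nat_lit 339) (nat_lit 2) (nat_lit 174) (nat_lit 186) (nat_lit 150)))) (PT.nd (nat_lit 156) (PT.nd (nat_lit 78) (PT.lf (nat_lit 25232) (nat_lit 6) (nat_lit 332) (nat_lit 2) (nat_lit 175) (nat_lit 186) (nat_lit 149)) (PT.lf (nat_lit 24624) (nat_lit 6) (nat_lit 324) (nat_lit 2) (nat_lit 176) (nat_lit 186) (nat_lit 148))) (PT.nd (nat_lit 78)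 (PT.lf (nat_lit 24092) (nat_lit 6) (nat_lit 317) (nat_lit 2) (nat_lit 177) (nat_lit 186) (nat_lit 147)) (PT.nd (nat_lit 78) (PT.lf (nat_lit 23560) (nat_lit 6) (nat_lit 310) (nat_lit 2) (nat_lit 178) (nat_lit 186) (nat_lit 146)) (PT.lf (nat_lit 23104) (nat_lit 6) (nat_lit 304) (nat_lit 2) (nat_lit 179) (nat_lit 186) (nat_lit 145))))))) (PT.nd (nat_lit 624) (PT.nd (nat_lit 312) (PT.nd (nat_lit 156) (PT.nd (nat_lit 78) (PT.lf (nat_lit 22572) (nat_lit 6) (nat_lit 297) (nat_lit 2) (nat_lit 180) (nat_lit 186) (nat_lit 144)) (PT.lf (nat_lit 22116) (nat_lit 6) (nat_lit 291) (nat_lit 2) (nat_lit 181) (nat_lit 186) (nat_lit 143))) (PT.nd (nat_lit 78) (PT.lf (nat_lit 21660) (nat_lit 6) (nat_lit 285) (nat_lit 2) (nat_lit 182) (nat_lit 186) (nat_lit 142)) (PT.lf (nat_lit 21280) (nat_lit 6) (nat_lit 280) (nat_lit 2) (nat_lit 183) (nat_lit 186) (nat_lit 141)))) (PT.nd (nat_lit 156) (PT.nd (nat_lit 78) (PT.lf (nat_lit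 20824) (nat_lit 6) (nat_lit 274) (nat_lit 2) (nat_lit 184) (nat_lit 186) (nat_lit 140)) (PT.lf (nat_lit 20444) (nat_lit 6) (nat_lit 269) (nat_lit 2) (nat_lit 185) (nat_lit 186) (nat_lit 139))) (PT.nd (nat_lit 78) (PT.lf (nat_lit 20064) (nat_lit 3) (nat_lit 264) (nat_lit 0) (nat_lit 186) (nat_lit 186) (nat_lit 138)) (PT.lf (nat_lit 19608) (nat_lit 6) (nat_lit 258) (nat_lit 0) (nat_lit 187) (nat_lit 186) (nat_lit 137))))) (PT.nd (nat_lit 312) (PT.nd (nat_lit 156) (PT.nd (nat_lit 78) (PT.lf (nat_lit 19152) (nat_lit 6) (nat_lit 252) (nat_lit 0) (nat_lit 188) (nat_lit 186) (nat_lit 136)) (PT.lf (nat_lit 18772) (nat_lit 6) (nat_lit 247) (nat_lit 0) (nat_lit 189) (nat_lit 186) (nat_lit 135))) (PT.nd (nat_lit 78) (PT.lf (nat_lit 18316) (nat_lit 6) (nat_lit 241) (nat_lit 0) (nat_lit 190) (nat_lit 186) (nat_lit 134)) (PT.lf (nat_lit 17936) (nat_lit 6) (nat_lit 236) (nat_lit 0) (nat_lit 191) (nat_lit 186) (nat_lit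 133)))) (PT.nd (nat_lit 48204) (PT.nd (nat_lit 78) (PT.lf (nat_lit 17556) (nat_lit 6) (nat_lit 231) (nat_lit 0) (nat_lit 192) (nat_lit 186) (nat_lit 132)) (PT.lf (nat_lit 17176) (nat_lit 6) (nat_lit 226) (nat_lit 0) (nat_lit 193) (nat_lit 186) (nat_lit 131))) (PT.nd (nat_lit 78) (PT.lf (nat_lit 16568) (nat_lit 6) (nat_lit 218) (nat_lit 5) (nat_lit 129) (nat_lit 187) (nat_lit 194)) (PT.nd (nat_lit 78) (PT.lf (nat_lit 16872) (nat_lit 6) (nat_lit 222) (nat_lit 5) (nat_lit 130) (nat_lit 187) (nat_lit 193)) (PT.lf (nat_lit 17252) (nat_lit 6) (nat_lit 227) (nat_lit 5) (nat_lit 131) (nat_lit 187) (nat_lit 192))))))))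
noncomputable def pc49 : PT := (PT.nd (nat_lit 1326) (PT.nd (nat_lit 624) (PT.nd (nat_lit 312) (PT.nd (nat_lit 156) (PT.nd (nat_lit 78) (PT.lf (nat_lit 17632) (nat_lit 6) (nat_lit 232) (nat_lit 5) (nat_lit 132) (nat_lit 187) (nat_lit 191)) (PT.lf (nat_lit 18012) (nat_lit 6) (nat_lit 237) (nat_lit 5) (nat_lit 133) (nat_lit 187) (nat_lit 190))) (PT.nd (nat_lit 78) (PT.lf (nat_lit 18392) (nat_lit 6) (nat_lit 242) (nat_lit 5) (nat_lit 134) (nat_lit 187) (nat_lit 189)) (PT.lf (nat_lit 18848) (nat_lit 6) (nat_lit 248) (nat_lit 5) (nat_lit 135) (nat_lit 187) (nat_lit 188)))) (PT.nd (nat_lit 156) (PT.nd (nat_lit 78) (PT.lf (nat_lit 19228) (nat_lit 3) (nat_lit 253) (nat_lit 4) (nat_lit 136) (nat_lit 187) (nat_lit 187)) (PT.lf (nat_lit 19608) (nat_lit 6) (nat_lit 258) (nat_lit 4) (nat_lit 137) (nat_lit 187) (nat_lit 186))) (PT.nd (nat_lit 78) (PT.lf (nat_lit 19988) (nat_lit 6) (nat_lit 263) (nat_lit 4) (nat_lit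 138) (nat_lit 187) (nat_lit 185)) (PT.lf (nat_lit 20368) (nat_lit 6) (nat_lit 268) (nat_lit 4) (nat_lit 139) (nat_lit 187) (nat_lit 184))))) (PT.nd (nat_lit 312) (PT.nd (nat_lit 156) (PT.nd (nat_lit 78) (PT.lf (nat_lit 20748) (nat_lit 6) (nat_lit 273) (nat_lit 4) (nat_lit 140) (nat_lit 187) (nat_lit 183)) (PT.lf (nat_lit 21204) (nat_lit 6) (nat_lit 279) (nat_lit 4) (nat_lit 141) (nat_lit 187) (nat_lit 182))) (PT.nd (nat_lit 78) (PT.lf (nat_lit 21584) (nat_lit 6) (nat_lit 284) (nat_lit 4) (nat_lit 142) (nat_lit 187) (nat_lit 181)) (PT.lf (nat_lit 22040) (nat_lit 6) (nat_lit 290) (nat_lit 4) (nat_lit 143) (nat_lit 187) (nat_lit 180)))) (PT.nd (nat_lit 156) (PT.nd (nat_lit 78) (PT.lf (nat_lit 22496) (nat_lit 6) (nat_lit 296) (nat_lit 4) (nat_lit 144) (nat_lit 187) (nat_lit 179)) (PT.lf (nat_lit 23028) (nat_lit 6) (nat_lit 303) (nat_lit 4) (nat_lit 145) (nat_lit 187) (nat_lit 178))) (PT.nd (nat_lit 78)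 (PT.lf (nat_lit 23484) (nat_lit 6) (nat_lit 309) (nat_lit 4) (nat_lit 146) (nat_lit 187) (nat_lit 177)) (PT.nd (nat_lit 78) (PT.lf (nat_lit 24016) (nat_lit 6) (nat_lit 316) (nat_lit 4) (nat_lit 147) (nat_lit 187) (nat_lit 176)) (PT.lf (nat_lit 24548) (nat_lit 6) (nat_lit 323) (nat_lit 4) (nat_lit 148) (nat_lit 187) (nat_lit 175))))))) (PT.nd (nat_lit 1560) (PT.nd (nat_lit 312) (PT.nd (nat_lit 156) (PT.nd (nat_lit 78) (PT.lf (nat_lit 25156) (nat_lit 6) (nat_lit 331) (nat_lit 4) (nat_lit 149) (nat_lit 187) (nat_lit 174)) (PT.lf (nat_lit 25688) (nat_lit 6) (nat_lit 338) (nat_lit 4) (nat_lit 150) (nat_lit 187) (nat_lit 173))) (PT.nd (nat_lit 78) (PT.lf (nat_lit 26296) (nat_lit 6) (nat_lit 346) (nat_lit 4) (nat_lit 151) (nat_lit 187) (nat_lit 172)) (PT.lf (nat_lit 26904) (nat_lit 6) (nat_lit 354) (nat_lit 4) (nat_lit 152) (nat_lit 187) (nat_lit 171)))) (PT.nd (nat_lit 156) (PT.nd (nat_lit 78) (PT.lf (nat_lit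 27740) (nat_lit 6) (nat_lit 365) (nat_lit 4) (nat_lit 153) (nat_lit 187) (nat_lit 170)) (PT.lf (nat_lit 27664) (nat_lit 6) (nat_lit 364) (nat_lit 4) (nat_lit 154) (nat_lit 187) (nat_lit 169))) (PT.nd (nat_lit 1014) (PT.lf (nat_lit 27588) (nat_lit 6) (nat_lit 363) (nat_lit 4) (nat_lit 155) (nat_lit 187) (nat_lit 168)) (PT.lf (nat_lit 27588) (nat_lit 6) (nat_lit 363) (nat_lit 2) (nat_lit 168) (nat_lit 187) (nat_lit 155))))) (PT.nd (nat_lit 312) (PT.nd (nat_lit 156) (PT.nd (nat_lit 78) (PT.lf (nat_lit 27664) (nat_lit 6) (nat_lit 364) (nat_lit 2) (nat_lit 169) (nat_lit 187) (nat_lit 154)) (PT.lf (nat_lit 27740) (nat_lit 6) (nat_lit 365) (nat_lit 2) (nat_lit 170) (nat_lit 187) (nat_lit 153))) (PT.nd (nat_lit 78) (PT.lf (nat_lit 26904) (nat_lit 6) (nat_lit 354) (nat_lit 2) (nat_lit 171) (nat_lit 187) (nat_lit 152)) (PT.lf (nat_lit 26296) (nat_lit 6) (nat_lit 346) (nat_lit 2) (nat_lit 172) (nat_lit 187)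 (nat_lit 151)))) (PT.nd (nat_lit 156) (PT.nd (nat_lit 78) (PT.lf (nat_lit 25688) (nat_lit 6) (nat_lit 338) (nat_lit 2) (nat_lit 173) (nat_lit 187) (nat_lit 150)) (PT.lf (nat_lit 25156) (nat_lit 6) (nat_lit 331) (nat_lit 2) (nat_lit 174) (nat_lit 187) (nat_lit 149))) (PT.nd (nat_lit 78) (PT.lf (nat_lit 24548) (nat_lit 6) (nat_lit 323) (nat_lit 2) (nat_lit 175) (nat_lit 187) (nat_lit 148)) (PT.nd (nat_lit 78) (PT.lf (nat_lit 24016) (nat_lit 6) (nat_lit 316) (nat_lit 2) (nat_lit 176) (nat_lit 187) (nat_lit 147)) (PT.lf (nat_lit 23484) (nat_lit 6) (nat_lit 309) (nat_lit 2) (nat_lit 177) (nat_lit 187) (nat_lit 146))))))))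
noncomputable def pc50 : PT := (PT.nd (nat_lit 49140) (PT.nd (nat_lit 624) (PT.nd (nat_lit 312) (PT.nd (nat_lit 156) (PT.nd (nat_lit 78) (PT.lf (nat_lit 23028) (nat_lit 6) (nat_lit 303) (nat_lit 2) (nat_lit 178) (nat_lit 187) (nat_lit 145)) (PT.lf (nat_lit 22496) (nat_lit 6) (nat_lit 296) (nat_lit 2) (nat_lit 179) (nat_lit 187) (nat_lit 144))) (PT.nd (nat_lit 78) (PT.lf (nat_lit 22040) (nat_lit 6) (nat_lit 290) (nat_lit 2) (nat_lit 180) (nat_lit 187) (nat_lit 143)) (PT.lf (nat_lit 21584) (nat_lit 6) (nat_lit 284) (nat_lit 2) (nat_lit 181) (nat_lit 187) (nat_lit 142)))) (PT.nd (nat_lit 156) (PT.nd (nat_lit 78) (PT.lf (nat_lit 21204) (nat_lit 6) (nat_lit 279) (nat_lit 2) (nat_lit 182) (nat_lit 187) (nat_lit 141)) (PT.lf (nat_lit 20748) (nat_lit 6) (nat_lit 273) (nat_lit 2) (nat_lit 183) (nat_lit 187) (nat_lit 140))) (PT.nd (nat_lit 78) (PT.lf (nat_lit 20368) (nat_lit 6) (nat_lit 268) (nat_lit 2) (nat_lit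 184) (nat_lit 187) (nat_lit 139)) (PT.lf (nat_lit 19988) (nat_lit 6) (nat_lit 263) (nat_lit 2) (nat_lit 185) (nat_lit 187) (nat_lit 138))))) (PT.nd (nat_lit 312) (PT.nd (nat_lit 156) (PT.nd (nat_lit 78) (PT.lf (nat_lit 19608) (nat_lit 6) (nat_lit 258) (nat_lit 2) (nat_lit 186) (nat_lit 187) (nat_lit 137)) (PT.lf (nat_lit 19228) (nat_lit 3) (nat_lit 253) (nat_lit 0) (nat_lit 187) (nat_lit 187) (nat_lit 136))) (PT.nd (nat_lit 78) (PT.lf (nat_lit 18848) (nat_lit 6) (nat_lit 248) (nat_lit 0) (nat_lit 188) (nat_lit 187) (nat_lit 135)) (PT.lf (nat_lit 18392) (nat_lit 6) (nat_lit 242) (nat_lit 0) (nat_lit 189) (nat_lit 187) (nat_lit 134)))) (PT.nd (nat_lit 156) (PT.nd (nat_lit 78) (PT.lf (nat_lit 18012) (nat_lit 6) (nat_lit 237) (nat_lit 0) (nat_lit 190) (nat_lit 187) (nat_lit 133)) (PT.lf (nat_lit 17632) (nat_lit 6) (nat_lit 232) (nat_lit 0) (nat_lit 191) (nat_lit 187) (nat_lit 132))) (PT.nd (nat_lit 78)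 (PT.lf (nat_lit 17252) (nat_lit 6) (nat_lit 227) (nat_lit 0) (nat_lit 192) (nat_lit 187) (nat_lit 131)) (PT.nd (nat_lit 78) (PT.lf (nat_lit 16872) (nat_lit 6) (nat_lit 222) (nat_lit 0) (nat_lit 193) (nat_lit 187) (nat_lit 130)) (PT.lf (nat_lit 16568) (nat_lit 6) (nat_lit 218) (nat_lit 0) (nat_lit 194) (nat_lit 187) (nat_lit 129))))))) (PT.nd (nat_lit 624) (PT.nd (nat_lit 312) (PT.nd (nat_lit 156) (PT.nd (nat_lit 78) (PT.lf (nat_lit 15960) (nat_lit 6) (nat_lit 210) (nat_lit 5) (nat_lit 127) (nat_lit 188) (nat_lit 195)) (PT.lf (nat_lit 16264) (nat_lit 6) (nat_lit 214) (nat_lit 5) (nat_lit 128) (nat_lit 188) (nat_lit 194))) (PT.nd (nat_lit 78) (PT.lf (nat_lit 16644) (nat_lit 6) (nat_lit 219) (nat_lit 5) (nat_lit 129) (nat_lit 188) (nat_lit 193)) (PT.lf (nat_lit 16948) (nat_lit 6) (nat_lit 223) (nat_lit 5) (nat_lit 130) (nat_lit 188) (nat_lit 192)))) (PT.nd (nat_lit 156) (PT.nd (nat_lit 78) (PT.lf (nat_lit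 17328) (nat_lit 6) (nat_lit 228) (nat_lit 5) (nat_lit 131) (nat_lit 188) (nat_lit 191)) (PT.lf (nat_lit 17708) (nat_lit 6) (nat_lit 233) (nat_lit 5) (nat_lit 132) (nat_lit 188) (nat_lit 190))) (PT.nd (nat_lit 78) (PT.lf (nat_lit 18088) (nat_lit 6) (nat_lit 238) (nat_lit 5) (nat_lit 133) (nat_lit 188) (nat_lit 189)) (PT.lf (nat_lit 18468) (nat_lit 3) (nat_lit 243) (nat_lit 4) (nat_lit 134) (nat_lit 188) (nat_lit 188))))) (PT.nd (nat_lit 312) (PT.nd (nat_lit 156) (PT.nd (nat_lit 78) (PT.lf (nat_lit 18848) (nat_lit 6) (nat_lit 248) (nat_lit 4) (nat_lit 135) (nat_lit 188) (nat_lit 187)) (PT.lf (nat_lit 19152) (nat_lit 6) (nat_lit 252) (nat_lit 4) (nat_lit 136) (nat_lit 188) (nat_lit 186))) (PT.nd (nat_lit 78) (PT.lf (nat_lit 19532) (nat_lit 6) (nat_lit 257) (nat_lit 4) (nat_lit 137) (nat_lit 188) (nat_lit 185)) (PT.lf (nat_lit 19912) (nat_lit 6) (nat_lit 262) (nat_lit 4) (nat_lit 138) (nat_lit 188) (nat_lit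 184)))) (PT.nd (nat_lit 156) (PT.nd (nat_lit 78) (PT.lf (nat_lit 20292) (nat_lit 6) (nat_lit 267) (nat_lit 4) (nat_lit 139) (nat_lit 188) (nat_lit 183)) (PT.lf (nat_lit 20672) (nat_lit 6) (nat_lit 272) (nat_lit 4) (nat_lit 140) (nat_lit 188) (nat_lit 182))) (PT.nd (nat_lit 78) (PT.lf (nat_lit 21128) (nat_lit 6) (nat_lit 278) (nat_lit 4) (nat_lit 141) (nat_lit 188) (nat_lit 181)) (PT.nd (nat_lit 78) (PT.lf (nat_lit 21508) (nat_lit 6) (nat_lit 283) (nat_lit 4) (nat_lit 142) (nat_lit 188) (nat_lit 180)) (PT.lf (nat_lit 21964) (nat_lit 6) (nat_lit 289) (nat_lit 4) (nat_lit 143) (nat_lit 188) (nat_lit 179))))))))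
noncomputable def pc51 : PT := (PT.nd (nat_lit 3120) (PT.nd (nat_lit 2418) (PT.nd (nat_lit 312) (PT.nd (nat_lit 156) (PT.nd (nat_lit 78) (PT.lf (nat_lit 22420) (nat_lit 6) (nat_lit 295) (nat_lit 4) (nat_lit 144) (nat_lit 188) (nat_lit 178)) (PT.lf (nat_lit 22952) (nat_lit 6) (nat_lit 302) (nat_lit 4) (nat_lit 145) (nat_lit 188) (nat_lit 177))) (PT.nd (nat_lit 78) (PT.lf (nat_lit 23408) (nat_lit 6) (nat_lit 308) (nat_lit 4) (nat_lit 146) (nat_lit 188) (nat_lit 176)) (PT.lf (nat_lit 23940) (nat_lit 6) (nat_lit 315) (nat_lit 4) (nat_lit 147) (nat_lit 188) (nat_lit 175)))) (PT.nd (nat_lit 1950) (PT.nd (nat_lit 78) (PT.lf (nat_lit 24472) (nat_lit 6) (nat_lit 322) (nat_lit 4) (nat_lit 148) (nat_lit 188) (nat_lit 174)) (PT.lf (nat_lit 25080) (nat_lit 6) (nat_lit 330) (nat_lit 4) (nat_lit 149) (nat_lit 188) (nat_lit 173))) (PT.nd (nat_lit 78) (PT.lf (nat_lit 25080) (nat_lit 6) (nat_lit 330) (nat_lit 2) (nat_lit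 173) (nat_lit 188) (nat_lit 149)) (PT.lf (nat_lit 24472) (nat_lit 6) (nat_lit 322) (nat_lit 2) (nat_lit 174) (nat_lit 188) (nat_lit 148))))) (PT.nd (nat_lit 312) (PT.nd (nat_lit 156) (PT.nd (nat_lit 78) (PT.lf (nat_lit 23940) (nat_lit 6) (nat_lit 315) (nat_lit 2) (nat_lit 175) (nat_lit 188) (nat_lit 147)) (PT.lf (nat_lit 23408) (nat_lit 6) (nat_lit 308) (nat_lit 2) (nat_lit 176) (nat_lit 188) (nat_lit 146))) (PT.nd (nat_lit 78) (PT.lf (nat_lit 22952) (nat_lit 6) (nat_lit 302) (nat_lit 2) (nat_lit 177) (nat_lit 188) (nat_lit 145)) (PT.lf (nat_lit 22420) (nat_lit 6) (nat_lit 295) (nat_lit 2) (nat_lit 178) (nat_lit 188) (nat_lit 144)))) (PT.nd (nat_lit 156) (PT.nd (nat_lit 78) (PT.lf (nat_lit 21964) (nat_lit 6) (nat_lit 289) (nat_lit 2) (nat_lit 179) (nat_lit 188) (nat_lit 143)) (PT.lf (nat_lit 21508) (nat_lit 6) (nat_lit 283) (nat_lit 2) (nat_lit 180) (nat_lit 188) (nat_lit 142))) (PT.nd (nat_lit 78)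 (PT.lf (nat_lit 21128) (nat_lit 6) (nat_lit 278) (nat_lit 2) (nat_lit 181) (nat_lit 188) (nat_lit 141)) (PT.nd (nat_lit 78) (PT.lf (nat_lit 20672) (nat_lit 6) (nat_lit 272) (nat_lit 2) (nat_lit 182) (nat_lit 188) (nat_lit 140)) (PT.lf (nat_lit 20292) (nat_lit 6) (nat_lit 267) (nat_lit 2) (nat_lit 183) (nat_lit 188) (nat_lit 139))))))) (PT.nd (nat_lit 702) (PT.nd (nat_lit 312) (PT.nd (nat_lit 156) (PT.nd (nat_lit 78) (PT.lf (nat_lit 19912) (nat_lit 6) (nat_lit 262) (nat_lit 2) (nat_lit 184) (nat_lit 188) (nat_lit 138)) (PT.lf (nat_lit 19532) (nat_lit 6) (nat_lit 257) (nat_lit 2) (nat_lit 185) (nat_lit 188) (nat_lit 137))) (PT.nd (nat_lit 78) (PT.lf (nat_lit 19152) (nat_lit 6) (nat_lit 252) (nat_lit 2) (nat_lit 186) (nat_lit 188) (nat_lit 136)) (PT.lf (nat_lit 18848) (nat_lit 6) (nat_lit 248) (nat_lit 2) (nat_lit 187) (nat_lit 188) (nat_lit 135)))) (PT.nd (nat_lit 156) (PT.nd (nat_lit 78) (PT.lf (nat_lit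 18468) (nat_lit 3) (nat_lit 243) (nat_lit 0) (nat_lit 188) (nat_lit 188) (nat_lit 134)) (PT.lf (nat_lit 18088) (nat_lit 6) (nat_lit 238) (nat_lit 0) (nat_lit 189) (nat_lit 188) (nat_lit 133))) (PT.nd (nat_lit 78) (PT.lf (nat_lit 17708) (nat_lit 6) (nat_lit 233) (nat_lit 0) (nat_lit 190) (nat_lit 188) (nat_lit 132)) (PT.nd (nat_lit 78) (PT.lf (nat_lit 17328) (nat_lit 6) (nat_lit 228) (nat_lit 0) (nat_lit 191) (nat_lit 188) (nat_lit 131)) (PT.lf (nat_lit 16948) (nat_lit 6) (nat_lit 223) (nat_lit 0) (nat_lit 192) (nat_lit 188) (nat_lit 130)))))) (PT.nd (nat_lit 47970) (PT.nd (nat_lit 156) (PT.nd (nat_lit 78) (PT.lf (nat_lit 16644) (nat_lit 6) (nat_lit 219) (nat_lit 0) (nat_lit 193) (nat_lit 188) (nat_lit 129)) (PT.lf (nat_lit 16264) (nat_lit 6) (nat_lit 214) (nat_lit 0) (nat_lit 194) (nat_lit 188) (nat_lit 128))) (PT.nd (nat_lit 47736) (PT.lf (nat_lit 15960) (nat_lit 6) (nat_lit 210) (nat_lit 0) (nat_lit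 195) (nat_lit 188) (nat_lit 127)) (PT.lf (nat_lit 15656) (nat_lit 6) (nat_lit 206) (nat_lit 5) (nat_lit 126) (nat_lit 189) (nat_lit 195)))) (PT.nd (nat_lit 156) (PT.nd (nat_lit 78) (PT.lf (nat_lit 16036) (nat_lit 6) (nat_lit 211) (nat_lit 5) (nat_lit 127) (nat_lit 189) (nat_lit 194)) (PT.lf (nat_lit 16340) (nat_lit 6) (nat_lit 215) (nat_lit 5) (nat_lit 128) (nat_lit 189) (nat_lit 193))) (PT.nd (nat_lit 78) (PT.lf (nat_lit 16720) (nat_lit 6) (nat_lit 220) (nat_lit 5) (nat_lit 129) (nat_lit 189) (nat_lit 192)) (PT.nd (nat_lit 78) (PT.lf (nat_lit 17024) (nat_lit 6) (nat_lit 224) (nat_lit 5) (nat_lit 130) (nat_lit 189) (nat_lit 191)) (PT.lf (nat_lit 17404) (nat_lit 6) (nat_lit 229) (nat_lit 5) (nat_lit 131) (nat_lit 189) (nat_lit 190))))))))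
noncomputable def pc52 : PT := (PT.nd (nat_lit 3666) (PT.nd (nat_lit 624) (PT.nd (nat_lit 312) (PT.nd (nat_lit 156) (PT.nd (nat_lit 78) (PT.lf (nat_lit 17784) (nat_lit 3) (nat_lit 234) (nat_lit 4) (nat_lit 132) (nat_lit 189) (nat_lit 189)) (PT.lf (nat_lit 18088) (nat_lit 6) (nat_lit 238) (nat_lit 4) (nat_lit 133) (nat_lit 189) (nat_lit 188))) (PT.nd (nat_lit 78) (PT.lf (nat_lit 18392) (nat_lit 6) (nat_lit 242) (nat_lit 4) (nat_lit 134) (nat_lit 189) (nat_lit 187)) (PT.lf (nat_lit 18772) (nat_lit 6) (nat_lit 247) (nat_lit 4) (nat_lit 135) (nat_lit 189) (nat_lit 186)))) (PT.nd (nat_lit 156) (PT.nd (nat_lit 78) (PT.lf (nat_lit 19076) (nat_lit 6) (nat_lit 251) (nat_lit 4) (nat_lit 136) (nat_lit 189) (nat_lit 185)) (PT.lf (nat_lit 19456) (nat_lit 6) (nat_lit 256) (nat_lit 4) (nat_lit 137) (nat_lit 189) (nat_lit 184))) (PT.nd (nat_lit 78) (PT.lf (nat_lit 19836) (nat_lit 6) (nat_lit 261) (nat_lit 4) (nat_lit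 138) (nat_lit 189) (nat_lit 183)) (PT.lf (nat_lit 20216) (nat_lit 6) (nat_lit 266) (nat_lit 4) (nat_lit 139) (nat_lit 189) (nat_lit 182))))) (PT.nd (nat_lit 312) (PT.nd (nat_lit 156) (PT.nd (nat_lit 78) (PT.lf (nat_lit 20596) (nat_lit 6) (nat_lit 271) (nat_lit 4) (nat_lit 140) (nat_lit 189) (nat_lit 181)) (PT.lf (nat_lit 21052) (nat_lit 6) (nat_lit 277) (nat_lit 4) (nat_lit 141) (nat_lit 189) (nat_lit 180))) (PT.nd (nat_lit 78) (PT.lf (nat_lit 21432) (nat_lit 6) (nat_lit 282) (nat_lit 4) (nat_lit 142) (nat_lit 189) (nat_lit 179)) (PT.lf (nat_lit 21888) (nat_lit 6) (nat_lit 288) (nat_lit 4) (nat_lit 143) (nat_lit 189) (nat_lit 178)))) (PT.nd (nat_lit 2496) (PT.nd (nat_lit 78) (PT.lf (nat_lit 22344) (nat_lit 6) (nat_lit 294) (nat_lit 4) (nat_lit 144) (nat_lit 189) (nat_lit 177)) (PT.lf (nat_lit 22876) (nat_lit 6) (nat_lit 301) (nat_lit 4) (nat_lit 145) (nat_lit 189) (nat_lit 176))) (PT.nd (nat_lit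 78) (PT.lf (nat_lit 22876) (nat_lit 6) (nat_lit 301) (nat_lit 2) (nat_lit 176) (nat_lit 189) (nat_lit 145)) (PT.nd (nat_lit 78) (PT.lf (nat_lit 22344) (nat_lit 6) (nat_lit 294) (nat_lit 2) (nat_lit 177) (nat_lit 189) (nat_lit 144)) (PT.lf (nat_lit 21888) (nat_lit 6) (nat_lit 288) (nat_lit 2) (nat_lit 178) (nat_lit 189) (nat_lit 143))))))) (PT.nd (nat_lit 624) (PT.nd (nat_lit 312) (PT.nd (nat_lit 156) (PT.nd (nat_lit 78) (PT.lf (nat_lit 21432) (nat_lit 6) (nat_lit 282) (nat_lit 2) (nat_lit 179) (nat_lit 189) (nat_lit 142)) (PT.lf (nat_lit 21052) (nat_lit 6) (nat_lit 277) (nat_lit 2) (nat_lit 180) (nat_lit 189) (nat_lit 141))) (PT.nd (nat_lit 78) (PT.lf (nat_lit 20596) (nat_lit 6) (nat_lit 271) (nat_lit 2) (nat_lit 181) (nat_lit 189) (nat_lit 140)) (PT.lf (nat_lit 20216) (nat_lit 6) (nat_lit 266) (nat_lit 2) (nat_lit 182) (nat_lit 189) (nat_lit 139)))) (PT.nd (nat_lit 156) (PT.nd (nat_lit 78) (PT.lf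 (nat_lit 19836) (nat_lit 6) (nat_lit 261) (nat_lit 2) (nat_lit 183) (nat_lit 189) (nat_lit 138)) (PT.lf (nat_lit 19456) (nat_lit 6) (nat_lit 256) (nat_lit 2) (nat_lit 184) (nat_lit 189) (nat_lit 137))) (PT.nd (nat_lit 78) (PT.lf (nat_lit 19076) (nat_lit 6) (nat_lit 251) (nat_lit 2) (nat_lit 185) (nat_lit 189) (nat_lit 136)) (PT.lf (nat_lit 18772) (nat_lit 6) (nat_lit 247) (nat_lit 2) (nat_lit 186) (nat_lit 189) (nat_lit 135))))) (PT.nd (nat_lit 312) (PT.nd (nat_lit 156) (PT.nd (nat_lit 78) (PT.lf (nat_lit 18392) (nat_lit 6) (nat_lit 242) (nat_lit 2) (nat_lit 187) (nat_lit 189) (nat_lit 134)) (PT.lf (nat_lit 18088) (nat_lit 6) (nat_lit 238) (nat_lit 2) (nat_lit 188) (nat_lit 189) (nat_lit 133))) (PT.nd (nat_lit 78) (PT.lf (nat_lit 17784) (nat_lit 3) (nat_lit 234) (nat_lit 0) (nat_lit 189) (nat_lit 189) (nat_lit 132)) (PT.lf (nat_lit 17404) (nat_lit 6) (nat_lit 229) (nat_lit 0) (nat_lit 190) (nat_lit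 189) (nat_lit 131)))) (PT.nd (nat_lit 156) (PT.nd (nat_lit 78) (PT.lf (nat_lit 17024) (nat_lit 6) (nat_lit 224) (nat_lit 0) (nat_lit 191) (nat_lit 189) (nat_lit 130)) (PT.lf (nat_lit 16720) (nat_lit 6) (nat_lit 220) (nat_lit 0) (nat_lit 192) (nat_lit 189) (nat_lit 129))) (PT.nd (nat_lit 78) (PT.lf (nat_lit 16340) (nat_lit 6) (nat_lit 215) (nat_lit 0) (nat_lit 193) (nat_lit 189) (nat_lit 128)) (PT.nd (nat_lit 78) (PT.lf (nat_lit 16036) (nat_lit 6) (nat_lit 211) (nat_lit 0) (nat_lit 194) (nat_lit 189) (nat_lit 127)) (PT.lf (nat_lit 15656) (nat_lit 6) (nat_lit 206) (nat_lit 0) (nat_lit 195) (nat_lit 189) (nat_lit 126))))))))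
noncomputable def pc53 : PT := (PT.nd (nat_lit 1326) (PT.nd (nat_lit 624) (PT.nd (nat_lit 312) (PT.nd (nat_lit 156) (PT.nd (nat_lit 78) (PT.lf (nat_lit 15124) (nat_lit 6) (nat_lit 199) (nat_lit 5) (nat_lit 124) (nat_lit 190) (nat_lit 196)) (PT.lf (nat_lit 15428) (nat_lit 6) (nat_lit 203) (nat_lit 5) (nat_lit 125) (nat_lit 190) (nat_lit 195))) (PT.nd (nat_lit 78) (PT.lf (nat_lit 15732) (nat_lit 6) (nat_lit 207) (nat_lit 5) (nat_lit 126) (nat_lit 190) (nat_lit 194)) (PT.lf (nat_lit 16112) (nat_lit 6) (nat_lit 212) (nat_lit 5) (nat_lit 127) (nat_lit 190) (nat_lit 193)))) (PT.nd (nat_lit 156) (PT.nd (nat_lit 78) (PT.lf (nat_lit 16416) (nat_lit 6) (nat_lit 216) (nat_lit 5) (nat_lit 128) (nat_lit 190) (nat_lit 192)) (PT.lf (nat_lit 16796) (nat_lit 6) (nat_lit 221) (nat_lit 5) (nat_lit 129) (nat_lit 190) (nat_lit 191))) (PT.nd (nat_lit 78) (PT.lf (nat_lit 17100) (nat_lit 3) (nat_lit 225) (nat_lit 4) (nat_lit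 130) (nat_lit 190) (nat_lit 190)) (PT.lf (nat_lit 17404) (nat_lit 6) (nat_lit 229) (nat_lit 4) (nat_lit 131) (nat_lit 190) (nat_lit 189))))) (PT.nd (nat_lit 312) (PT.nd (nat_lit 156) (PT.nd (nat_lit 78) (PT.lf (nat_lit 17708) (nat_lit 6) (nat_lit 233) (nat_lit 4) (nat_lit 132) (nat_lit 190) (nat_lit 188)) (PT.lf (nat_lit 18012) (nat_lit 6) (nat_lit 237) (nat_lit 4) (nat_lit 133) (nat_lit 190) (nat_lit 187))) (PT.nd (nat_lit 78) (PT.lf (nat_lit 18316) (nat_lit 6) (nat_lit 241) (nat_lit 4) (nat_lit 134) (nat_lit 190) (nat_lit 186)) (PT.lf (nat_lit 18696) (nat_lit 6) (nat_lit 246) (nat_lit 4) (nat_lit 135) (nat_lit 190) (nat_lit 185)))) (PT.nd (nat_lit 156) (PT.nd (nat_lit 78) (PT.lf (nat_lit 19000) (nat_lit 6) (nat_lit 250) (nat_lit 4) (nat_lit 136) (nat_lit 190) (nat_lit 184)) (PT.lf (nat_lit 19380) (nat_lit 6) (nat_lit 255) (nat_lit 4) (nat_lit 137) (nat_lit 190) (nat_lit 183))) (PT.nd (nat_lit 78)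 (PT.lf (nat_lit 19760) (nat_lit 6) (nat_lit 260) (nat_lit 4) (nat_lit 138) (nat_lit 190) (nat_lit 182)) (PT.nd (nat_lit 78) (PT.lf (nat_lit 20140) (nat_lit 6) (nat_lit 265) (nat_lit 4) (nat_lit 139) (nat_lit 190) (nat_lit 181)) (PT.lf (nat_lit 20520) (nat_lit 6) (nat_lit 270) (nat_lit 4) (nat_lit 140) (nat_lit 190) (nat_lit 180))))))) (PT.nd (nat_lit 3510) (PT.nd (nat_lit 3198) (PT.nd (nat_lit 3042) (PT.nd (nat_lit 2964) (PT.lf (nat_lit 20976) (nat_lit 6) (nat_lit 276) (nat_lit 4) (nat_lit 141) (nat_lit 190) (nat_lit 179)) (PT.lf (nat_lit 20976) (nat_lit 6) (nat_lit 276) (nat_lit 2) (nat_lit 179) (nat_lit 190) (nat_lit 141))) (PT.nd (nat_lit 78) (PT.lf (nat_lit 20520) (nat_lit 6) (nat_lit 270) (nat_lit 2) (nat_lit 180) (nat_lit 190) (nat_lit 140)) (PT.lf (nat_lit 20140) (nat_lit 6) (nat_lit 265) (nat_lit 2) (nat_lit 181) (nat_lit 190) (nat_lit 139)))) (PT.nd (nat_lit 156) (PT.nd (nat_lit 78) (PT.lf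 (nat_lit 19760) (nat_lit 6) (nat_lit 260) (nat_lit 2) (nat_lit 182) (nat_lit 190) (nat_lit 138)) (PT.lf (nat_lit 19380) (nat_lit 6) (nat_lit 255) (nat_lit 2) (nat_lit 183) (nat_lit 190) (nat_lit 137))) (PT.nd (nat_lit 78) (PT.lf (nat_lit 19000) (nat_lit 6) (nat_lit 250) (nat_lit 2) (nat_lit 184) (nat_lit 190) (nat_lit 136)) (PT.lf (nat_lit 18696) (nat_lit 6) (nat_lit 246) (nat_lit 2) (nat_lit 185) (nat_lit 190) (nat_lit 135))))) (PT.nd (nat_lit 312) (PT.nd (nat_lit 156) (PT.nd (nat_lit 78) (PT.lf (nat_lit 18316) (nat_lit 6) (nat_lit 241) (nat_lit 2) (nat_lit 186) (nat_lit 190) (nat_lit 134)) (PT.lf (nat_lit 18012) (nat_lit 6) (nat_lit 237) (nat_lit 2) (nat_lit 187) (nat_lit 190) (nat_lit 133))) (PT.nd (nat_lit 78) (PT.lf (nat_lit 17708) (nat_lit 6) (nat_lit 233) (nat_lit 2) (nat_lit 188) (nat_lit 190) (nat_lit 132)) (PT.lf (nat_lit 17404) (nat_lit 6) (nat_lit 229) (nat_lit 2) (nat_lit 189) (nat_lit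 190) (nat_lit 131)))) (PT.nd (nat_lit 156) (PT.nd (nat_lit 78) (PT.lf (nat_lit 17100) (nat_lit 3) (nat_lit 225) (nat_lit 0) (nat_lit 190) (nat_lit 190) (nat_lit 130)) (PT.lf (nat_lit 16796) (nat_lit 6) (nat_lit 221) (nat_lit 0) (nat_lit 191) (nat_lit 190) (nat_lit 129))) (PT.nd (nat_lit 78) (PT.lf (nat_lit 16416) (nat_lit 6) (nat_lit 216) (nat_lit 0) (nat_lit 192) (nat_lit 190) (nat_lit 128)) (PT.nd (nat_lit 78) (PT.lf (nat_lit 16112) (nat_lit 6) (nat_lit 212) (nat_lit 0) (nat_lit 193) (nat_lit 190) (nat_lit 127)) (PT.lf (nat_lit 15732) (nat_lit 6) (nat_lit 207) (nat_lit 0) (nat_lit 194) (nat_lit 190) (nat_lit 126))))))))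
noncomputable def pc54 : PT := (PT.nd (nat_lit 48594) (PT.nd (nat_lit 47892) (PT.nd (nat_lit 47580) (PT.nd (nat_lit 47424) (PT.nd (nat_lit 78) (PT.lf (nat_lit 15428) (nat_lit 6) (nat_lit 203) (nat_lit 0) (nat_lit 195) (nat_lit 190) (nat_lit 125)) (PT.lf (nat_lit 15124) (nat_lit 6) (nat_lit 199) (nat_lit 0) (nat_lit 196) (nat_lit 190) (nat_lit 124))) (PT.nd (nat_lit 78) (PT.lf (nat_lit 14592) (nat_lit 6) (nat_lit 192) (nat_lit 5) (nat_lit 122) (nat_lit 191) (nat_lit 197)) (PT.lf (nat_lit 14896) (nat_lit 6) (nat_lit 196) (nat_lit 5) (nat_lit 123) (nat_lit 191) (nat_lit 196)))) (PT.nd (nat_lit 156) (PT.nd (nat_lit 78) (PT.lf (nat_lit 15200) (nat_lit 6) (nat_lit 200) (nat_lit 5) (nat_lit 124) (nat_lit 191) (nat_lit 195)) (PT.lf (nat_lit 15504) (nat_lit 6) (nat_lit 204) (nat_lit 5) (nat_lit 125) (nat_lit 191) (nat_lit 194))) (PT.nd (nat_lit 78) (PT.lf (nat_lit 15808) (nat_lit 6) (nat_lit 208) (nat_lit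 5) (nat_lit 126) (nat_lit 191) (nat_lit 193)) (PT.lf (nat_lit 16188) (nat_lit 6) (nat_lit 213) (nat_lit 5) (nat_lit 127) (nat_lit 191) (nat_lit 192))))) (PT.nd (nat_lit 312) (PT.nd (nat_lit 156) (PT.nd (nat_lit 78) (PT.lf (nat_lit 16492) (nat_lit 3) (nat_lit 217) (nat_lit 4) (nat_lit 128) (nat_lit 191) (nat_lit 191)) (PT.lf (nat_lit 16796) (nat_lit 6) (nat_lit 221) (nat_lit 4) (nat_lit 129) (nat_lit 191) (nat_lit 190))) (PT.nd (nat_lit 78) (PT.lf (nat_lit 17024) (nat_lit 6) (nat_lit 224) (nat_lit 4) (nat_lit 130) (nat_lit 191) (nat_lit 189)) (PT.lf (nat_lit 17328) (nat_lit 6) (nat_lit 228) (nat_lit 4) (nat_lit 131) (nat_lit 191) (nat_lit 188)))) (PT.nd (nat_lit 156) (PT.nd (nat_lit 78) (PT.lf (nat_lit 17632) (nat_lit 6) (nat_lit 232) (nat_lit 4) (nat_lit 132) (nat_lit 191) (nat_lit 187)) (PT.lf (nat_lit 17936) (nat_lit 6) (nat_lit 236) (nat_lit 4) (nat_lit 133) (nat_lit 191) (nat_lit 186))) (PT.nd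 (nat_lit 78) (PT.lf (nat_lit 18240) (nat_lit 6) (nat_lit 240) (nat_lit 4) (nat_lit 134) (nat_lit 191) (nat_lit 185)) (PT.nd (nat_lit 78) (PT.lf (nat_lit 18620) (nat_lit 6) (nat_lit 245) (nat_lit 4) (nat_lit 135) (nat_lit 191) (nat_lit 184)) (PT.lf (nat_lit 18924) (nat_lit 6) (nat_lit 249) (nat_lit 4) (nat_lit 136) (nat_lit 191) (nat_lit 183))))))) (PT.nd (nat_lit 3900) (PT.nd (nat_lit 3588) (PT.nd (nat_lit 3432) (PT.nd (nat_lit 78) (PT.lf (nat_lit 19304) (nat_lit 6) (nat_lit 254) (nat_lit 4) (nat_lit 137) (nat_lit 191) (nat_lit 182)) (PT.lf (nat_lit 19684) (nat_lit 6) (nat_lit 259) (nat_lit 4) (nat_lit 138) (nat_lit 191) (nat_lit 181))) (PT.nd (nat_lit 78) (PT.lf (nat_lit 19684) (nat_lit 6) (nat_lit 259) (nat_lit 2) (nat_lit 181) (nat_lit 191) (nat_lit 138)) (PT.lf (nat_lit 19304) (nat_lit 6) (nat_lit 254) (nat_lit 2) (nat_lit 182) (nat_lit 191) (nat_lit 137)))) (PT.nd (nat_lit 156) (PT.nd (nat_lit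 78) (PT.lf (nat_lit 18924) (nat_lit 6) (nat_lit 249) (nat_lit 2) (nat_lit 183) (nat_lit 191) (nat_lit 136)) (PT.lf (nat_lit 18620) (nat_lit 6) (nat_lit 245) (nat_lit 2) (nat_lit 184) (nat_lit 191) (nat_lit 135))) (PT.nd (nat_lit 78) (PT.lf (nat_lit 18240) (nat_lit 6) (nat_lit 240) (nat_lit 2) (nat_lit 185) (nat_lit 191) (nat_lit 134)) (PT.lf (nat_lit 17936) (nat_lit 6) (nat_lit 236) (nat_lit 2) (nat_lit 186) (nat_lit 191) (nat_lit 133))))) (PT.nd (nat_lit 312) (PT.nd (nat_lit 156) (PT.nd (nat_lit 78) (PT.lf (nat_lit 17632) (nat_lit 6) (nat_lit 232) (nat_lit 2) (nat_lit 187) (nat_lit 191) (nat_lit 132)) (PT.lf (nat_lit 17328) (nat_lit 6) (nat_lit 228) (nat_lit 2) (nat_lit 188) (nat_lit 191) (nat_lit 131))) (PT.nd (nat_lit 78) (PT.lf (nat_lit 17024) (nat_lit 6) (nat_lit 224) (nat_lit 2) (nat_lit 189) (nat_lit 191) (nat_lit 130)) (PT.lf (nat_lit 16796) (nat_lit 6) (nat_lit 221) (nat_lit 2) (nat_lit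 190) (nat_lit 191) (nat_lit 129)))) (PT.nd (nat_lit 156) (PT.nd (nat_lit 78) (PT.lf (nat_lit 16492) (nat_lit 3) (nat_lit 217) (nat_lit 0) (nat_lit 191) (nat_lit 191) (nat_lit 128)) (PT.lf (nat_lit 16188) (nat_lit 6) (nat_lit 213) (nat_lit 0) (nat_lit 192) (nat_lit 191) (nat_lit 127))) (PT.nd (nat_lit 78) (PT.lf (nat_lit 15808) (nat_lit 6) (nat_lit 208) (nat_lit 0) (nat_lit 193) (nat_lit 191) (nat_lit 126)) (PT.nd (nat_lit 78) (PT.lf (nat_lit 15504) (nat_lit 6) (nat_lit 204) (nat_lit 0) (nat_lit 194) (nat_lit 191) (nat_lit 125)) (PT.lf (nat_lit 15200) (nat_lit 6) (nat_lit 200) (nat_lit 0) (nat_lit 195) (nat_lit 191) (nat_lit 124))))))))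
noncomputable def pc55 : PT := (PT.nd (nat_lit 52104) (PT.nd (nat_lit 47736) (PT.nd (nat_lit 47424) (PT.nd (nat_lit 47268) (PT.nd (nat_lit 78) (PT.lf (nat_lit 14896) (nat_lit 6) (nat_lit 196) (nat_lit 0) (nat_lit 196) (nat_lit 191) (nat_lit 123)) (PT.lf (nat_lit 14592) (nat_lit 6) (nat_lit 192) (nat_lit 0) (nat_lit 197) (nat_lit 191) (nat_lit 122))) (PT.nd (nat_lit 78) (PT.lf (nat_lit 14364) (nat_lit 6) (nat_lit 189) (nat_lit 5) (nat_lit 121) (nat_lit 192) (nat_lit 197)) (PT.lf (nat_lit 14668) (nat_lit 6) (nat_lit 193) (nat_lit 5) (nat_lit 122) (nat_lit 192) (nat_lit 196)))) (PT.nd (nat_lit 156) (PT.nd (nat_lit 78) (PT.lf (nat_lit 14972) (nat_lit 6) (nat_lit 197) (nat_lit 5) (nat_lit 123) (nat_lit 192) (nat_lit 195)) (PT.lf (nat_lit 15276) (nat_lit 6) (nat_lit 201) (nat_lit 5) (nat_lit 124) (nat_lit 192) (nat_lit 194))) (PT.nd (nat_lit 78) (PT.lf (nat_lit 15580) (nat_lit 6) (nat_lit 205) (nat_lit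 5) (nat_lit 125) (nat_lit 192) (nat_lit 193)) (PT.lf (nat_lit 15884) (nat_lit 3) (nat_lit 209) (nat_lit 4) (nat_lit 126) (nat_lit 192) (nat_lit 192))))) (PT.nd (nat_lit 312) (PT.nd (nat_lit 156) (PT.nd (nat_lit 78) (PT.lf (nat_lit 16188) (nat_lit 6) (nat_lit 213) (nat_lit 4) (nat_lit 127) (nat_lit 192) (nat_lit 191)) (PT.lf (nat_lit 16416) (nat_lit 6) (nat_lit 216) (nat_lit 4) (nat_lit 128) (nat_lit 192) (nat_lit 190))) (PT.nd (nat_lit 78) (PT.lf (nat_lit 16720) (nat_lit 6) (nat_lit 220) (nat_lit 4) (nat_lit 129) (nat_lit 192) (nat_lit 189)) (PT.lf (nat_lit 16948) (nat_lit 6) (nat_lit 223) (nat_lit 4) (nat_lit 130) (nat_lit 192) (nat_lit 188)))) (PT.nd (nat_lit 156) (PT.nd (nat_lit 78) (PT.lf (nat_lit 17252) (nat_lit 6) (nat_lit 227) (nat_lit 4) (nat_lit 131) (nat_lit 192) (nat_lit 187)) (PT.lf (nat_lit 17556) (nat_lit 6) (nat_lit 231) (nat_lit 4) (nat_lit 132) (nat_lit 192) (nat_lit 186))) (PT.nd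 (nat_lit 78) (PT.lf (nat_lit 17860) (nat_lit 6) (nat_lit 235) (nat_lit 4) (nat_lit 133) (nat_lit 192) (nat_lit 185)) (PT.nd (nat_lit 78) (PT.lf (nat_lit 18164) (nat_lit 6) (nat_lit 239) (nat_lit 4) (nat_lit 134) (nat_lit 192) (nat_lit 184)) (PT.lf (nat_lit 18544) (nat_lit 6) (nat_lit 244) (nat_lit 4) (nat_lit 135) (nat_lit 192) (nat_lit 183))))))) (PT.nd (nat_lit 702) (PT.nd (nat_lit 312) (PT.nd (nat_lit 156) (PT.nd (nat_lit 78) (PT.lf (nat_lit 18544) (nat_lit 6) (nat_lit 244) (nat_lit 2) (nat_lit 183) (nat_lit 192) (nat_lit 135)) (PT.lf (nat_lit 18164) (nat_lit 6) (nat_lit 239) (nat_lit 2) (nat_lit 184) (nat_lit 192) (nat_lit 134))) (PT.nd (nat_lit 78) (PT.lf (nat_lit 17860) (nat_lit 6) (nat_lit 235) (nat_lit 2) (nat_lit 185) (nat_lit 192) (nat_lit 133)) (PT.lf (nat_lit 17556) (nat_lit 6) (nat_lit 231) (nat_lit 2) (nat_lit 186) (nat_lit 192) (nat_lit 132)))) (PT.nd (nat_lit 156) (PT.nd (nat_lit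 78) (PT.lf (nat_lit 17252) (nat_lit 6) (nat_lit 227) (nat_lit 2) (nat_lit 187) (nat_lit 192) (nat_lit 131)) (PT.lf (nat_lit 16948) (nat_lit 6) (nat_lit 223) (nat_lit 2) (nat_lit 188) (nat_lit 192) (nat_lit 130))) (PT.nd (nat_lit 78) (PT.lf (nat_lit 16720) (nat_lit 6) (nat_lit 220) (nat_lit 2) (nat_lit 189) (nat_lit 192) (nat_lit 129)) (PT.nd (nat_lit 78) (PT.lf (nat_lit 16416) (nat_lit 6) (nat_lit 216) (nat_lit 2) (nat_lit 190) (nat_lit 192) (nat_lit 128)) (PT.lf (nat_lit 16188) (nat_lit 6) (nat_lit 213) (nat_lit 2) (nat_lit 191) (nat_lit 192) (nat_lit 127)))))) (PT.nd (nat_lit 312) (PT.nd (nat_lit 156) (PT.nd (nat_lit 78) (PT.lf (nat_lit 15884) (nat_lit 3) (nat_lit 209) (nat_lit 0) (nat_lit 192) (nat_lit 192) (nat_lit 126)) (PT.lf (nat_lit 15580) (nat_lit 6) (nat_lit 205) (nat_lit 0) (nat_lit 193) (nat_lit 192) (nat_lit 125))) (PT.nd (nat_lit 78) (PT.lf (nat_lit 15276) (nat_lit 6) (nat_lit 201)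 (nat_lit 0) (nat_lit 194) (nat_lit 192) (nat_lit 124)) (PT.lf (nat_lit 14972) (nat_lit 6) (nat_lit 197) (nat_lit 0) (nat_lit 195) (nat_lit 192) (nat_lit 123)))) (PT.nd (nat_lit 47112) (PT.nd (nat_lit 78) (PT.lf (nat_lit 14668) (nat_lit 6) (nat_lit 193) (nat_lit 0) (nat_lit 196) (nat_lit 192) (nat_lit 122)) (PT.lf (nat_lit 14364) (nat_lit 6) (nat_lit 189) (nat_lit 0) (nat_lit 197) (nat_lit 192) (nat_lit 121))) (PT.nd (nat_lit 78) (PT.lf (nat_lit 13908) (nat_lit 6) (nat_lit 183) (nat_lit 5) (nat_lit 119) (nat_lit 193) (nat_lit 198)) (PT.nd (nat_lit 78) (PT.lf (nat_lit 14136) (nat_lit 6) (nat_lit 186) (nat_lit 5) (nat_lit 120) (nat_lit 193) (nat_lit 197)) (PT.lf (nat_lit 14440) (nat_lit 6) (nat_lit 190) (nat_lit 5) (nat_lit 121) (nat_lit 193) (nat_lit 196))))))))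
noncomputable def pc56 : PT := (PT.nd (nat_lit 5382) (PT.nd (nat_lit 624) (PT.nd (nat_lit 312) (PT.nd (nat_lit 156) (PT.nd (nat_lit 78) (PT.lf (nat_lit 14744) (nat_lit 6) (nat_lit 194) (nat_lit 5) (nat_lit 122) (nat_lit 193) (nat_lit 195)) (PT.lf (nat_lit 15048) (nat_lit 6) (nat_lit 198) (nat_lit 5) (nat_lit 123) (nat_lit 193) (nat_lit 194))) (PT.nd (nat_lit 78) (PT.lf (nat_lit 15352) (nat_lit 3) (nat_lit 202) (nat_lit 4) (nat_lit 124) (nat_lit 193) (nat_lit 193)) (PT.lf (nat_lit 15580) (nat_lit 6) (nat_lit 205) (nat_lit 4) (nat_lit 125) (nat_lit 193) (nat_lit 192)))) (PT.nd (nat_lit 156) (PT.nd (nat_lit 78) (PT.lf (nat_lit 15808) (nat_lit 6) (nat_lit 208) (nat_lit 4) (nat_lit 126) (nat_lit 193) (nat_lit 191)) (PT.lf (nat_lit 16112) (nat_lit 6) (nat_lit 212) (nat_lit 4) (nat_lit 127) (nat_lit 193) (nat_lit 190))) (PT.nd (nat_lit 78) (PT.lf (nat_lit 16340) (nat_lit 6) (nat_lit 215) (nat_lit 4) (nat_lit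 128) (nat_lit 193) (nat_lit 189)) (PT.lf (nat_lit 16644) (nat_lit 6) (nat_lit 219) (nat_lit 4) (nat_lit 129) (nat_lit 193) (nat_lit 188))))) (PT.nd (nat_lit 4368) (PT.nd (nat_lit 156) (PT.nd (nat_lit 78) (PT.lf (nat_lit 16872) (nat_lit 6) (nat_lit 222) (nat_lit 4) (nat_lit 130) (nat_lit 193) (nat_lit 187)) (PT.lf (nat_lit 17176) (nat_lit 6) (nat_lit 226) (nat_lit 4) (nat_lit 131) (nat_lit 193) (nat_lit 186))) (PT.nd (nat_lit 4134) (PT.lf (nat_lit 17480) (nat_lit 6) (nat_lit 230) (nat_lit 4) (nat_lit 132) (nat_lit 193) (nat_lit 185)) (PT.lf (nat_lit 17480) (nat_lit 6) (nat_lit 230) (nat_lit 2) (nat_lit 185) (nat_lit 193) (nat_lit 132)))) (PT.nd (nat_lit 156) (PT.nd (nat_lit 78) (PT.lf (nat_lit 17176) (nat_lit 6) (nat_lit 226) (nat_lit 2) (nat_lit 186) (nat_lit 193) (nat_lit 131)) (PT.lf (nat_lit 16872) (nat_lit 6) (nat_lit 222) (nat_lit 2) (nat_lit 187) (nat_lit 193) (nat_lit 130))) (PT.nd (nat_lit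 78) (PT.lf (nat_lit 16644) (nat_lit 6) (nat_lit 219) (nat_lit 2) (nat_lit 188) (nat_lit 193) (nat_lit 129)) (PT.nd (nat_lit 78) (PT.lf (nat_lit 16340) (nat_lit 6) (nat_lit 215) (nat_lit 2) (nat_lit 189) (nat_lit 193) (nat_lit 128)) (PT.lf (nat_lit 16112) (nat_lit 6) (nat_lit 212) (nat_lit 2) (nat_lit 190) (nat_lit 193) (nat_lit 127))))))) (PT.nd (nat_lit 47346) (PT.nd (nat_lit 312) (PT.nd (nat_lit 156) (PT.nd (nat_lit 78) (PT.lf (nat_lit 15808) (nat_lit 6) (nat_lit 208) (nat_lit 2) (nat_lit 191) (nat_lit 193) (nat_lit 126)) (PT.lf (nat_lit 15580) (nat_lit 6) (nat_lit 205) (nat_lit 2) (nat_lit 192) (nat_lit 193) (nat_lit 125))) (PT.nd (nat_lit 78) (PT.lf (nat_lit 15352) (nat_lit 3) (nat_lit 202) (nat_lit 0) (nat_lit 193) (nat_lit 193) (nat_lit 124)) (PT.lf (nat_lit 15048) (nat_lit 6) (nat_lit 198) (nat_lit 0) (nat_lit 194) (nat_lit 193) (nat_lit 123)))) (PT.nd (nat_lit 156) (PT.nd (nat_lit 78) (PT.lf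 (nat_lit 14744) (nat_lit 6) (nat_lit 194) (nat_lit 0) (nat_lit 195) (nat_lit 193) (nat_lit 122)) (PT.lf (nat_lit 14440) (nat_lit 6) (nat_lit 190) (nat_lit 0) (nat_lit 196) (nat_lit 193) (nat_lit 121))) (PT.nd (nat_lit 78) (PT.lf (nat_lit 14136) (nat_lit 6) (nat_lit 186) (nat_lit 0) (nat_lit 197) (nat_lit 193) (nat_lit 120)) (PT.lf (nat_lit 13908) (nat_lit 6) (nat_lit 183) (nat_lit 0) (nat_lit 198) (nat_lit 193) (nat_lit 119))))) (PT.nd (nat_lit 312) (PT.nd (nat_lit 156) (PT.nd (nat_lit 78) (PT.lf (nat_lit 13452) (nat_lit 6) (nat_lit 177) (nat_lit 5) (nat_lit 117) (nat_lit 194) (nat_lit 199)) (PT.lf (nat_lit 13680) (nat_lit 6) (nat_lit 180) (nat_lit 5) (nat_lit 118) (nat_lit 194) (nat_lit 198))) (PT.nd (nat_lit 78) (PT.lf (nat_lit 13984) (nat_lit 6) (nat_lit 184) (nat_lit 5) (nat_lit 119) (nat_lit 194) (nat_lit 197)) (PT.lf (nat_lit 14212) (nat_lit 6) (nat_lit 187) (nat_lit 5) (nat_lit 120) (nat_lit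 194) (nat_lit 196)))) (PT.nd (nat_lit 156) (PT.nd (nat_lit 78) (PT.lf (nat_lit 14516) (nat_lit 6) (nat_lit 191) (nat_lit 5) (nat_lit 121) (nat_lit 194) (nat_lit 195)) (PT.lf (nat_lit 14820) (nat_lit 3) (nat_lit 195) (nat_lit 4) (nat_lit 122) (nat_lit 194) (nat_lit 194))) (PT.nd (nat_lit 78) (PT.lf (nat_lit 15048) (nat_lit 6) (nat_lit 198) (nat_lit 4) (nat_lit 123) (nat_lit 194) (nat_lit 193)) (PT.nd (nat_lit 78) (PT.lf (nat_lit 15276) (nat_lit 6) (nat_lit 201) (nat_lit 4) (nat_lit 124) (nat_lit 194) (nat_lit 192)) (PT.lf (nat_lit 15504) (nat_lit 6) (nat_lit 204) (nat_lit 4) (nat_lit 125) (nat_lit 194) (nat_lit 191))))))))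
noncomputable def pc57 : PT := (PT.nd (nat_lit 52338) (PT.nd (nat_lit 5070) (PT.nd (nat_lit 4758) (PT.nd (nat_lit 156) (PT.nd (nat_lit 78) (PT.lf (nat_lit 15732) (nat_lit 6) (nat_lit 207) (nat_lit 4) (nat_lit 126) (nat_lit 194) (nat_lit 190)) (PT.lf (nat_lit 16036) (nat_lit 6) (nat_lit 211) (nat_lit 4) (nat_lit 127) (nat_lit 194) (nat_lit 189))) (PT.nd (nat_lit 78) (PT.lf (nat_lit 16264) (nat_lit 6) (nat_lit 214) (nat_lit 4) (nat_lit 128) (nat_lit 194) (nat_lit 188)) (PT.lf (nat_lit 16568) (nat_lit 6) (nat_lit 218) (nat_lit 4) (nat_lit 129) (nat_lit 194) (nat_lit 187)))) (PT.nd (nat_lit 156) (PT.nd (nat_lit 78) (PT.lf (nat_lit 16568) (nat_lit 6) (nat_lit 218) (nat_lit 2) (nat_lit 187) (nat_lit 194) (nat_lit 129)) (PT.lf (nat_lit 16264) (nat_lit 6) (nat_lit 214) (nat_lit 2) (nat_lit 188) (nat_lit 194) (nat_lit 128))) (PT.nd (nat_lit 78) (PT.lf (nat_lit 16036) (nat_lit 6) (nat_lit 211) (nat_lit 2)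 (nat_lit 189) (nat_lit 194) (nat_lit 127)) (PT.lf (nat_lit 15732) (nat_lit 6) (nat_lit 207) (nat_lit 2) (nat_lit 190) (nat_lit 194) (nat_lit 126))))) (PT.nd (nat_lit 312) (PT.nd (nat_lit 156) (PT.nd (nat_lit 78) (PT.lf (nat_lit 15504) (nat_lit 6) (nat_lit 204) (nat_lit 2) (nat_lit 191) (nat_lit 194) (nat_lit 125)) (PT.lf (nat_lit 15276) (nat_lit 6) (nat_lit 201) (nat_lit 2) (nat_lit 192) (nat_lit 194) (nat_lit 124))) (PT.nd (nat_lit 78) (PT.lf (nat_lit 15048) (nat_lit 6) (nat_lit 198) (nat_lit 2) (nat_lit 193) (nat_lit 194) (nat_lit 123)) (PT.lf (nat_lit 14820) (nat_lit 3) (nat_lit 195) (nat_lit 0) (nat_lit 194) (nat_lit 194) (nat_lit 122)))) (PT.nd (nat_lit 156) (PT.nd (nat_lit 78) (PT.lf (nat_lit 14516) (nat_lit 6) (nat_lit 191) (nat_lit 0) (nat_lit 195) (nat_lit 194) (nat_lit 121)) (PT.lf (nat_lit 14212) (nat_lit 6) (nat_lit 187) (nat_lit 0) (nat_lit 196) (nat_lit 194) (nat_lit 120))) (PT.nd (nat_lit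 78) (PT.lf (nat_lit 13984) (nat_lit 6) (nat_lit 184) (nat_lit 0) (nat_lit 197) (nat_lit 194) (nat_lit 119)) (PT.nd (nat_lit 78) (PT.lf (nat_lit 13680) (nat_lit 6) (nat_lit 180) (nat_lit 0) (nat_lit 198) (nat_lit 194) (nat_lit 118)) (PT.lf (nat_lit 13452) (nat_lit 6) (nat_lit 177) (nat_lit 0) (nat_lit 199) (nat_lit 194) (nat_lit 117))))))) (PT.nd (nat_lit 624) (PT.nd (nat_lit 312) (PT.nd (nat_lit 156) (PT.nd (nat_lit 78) (PT.lf (nat_lit 13224) (nat_lit 6) (nat_lit 174) (nat_lit 5) (nat_lit 116) (nat_lit 195) (nat_lit 199)) (PT.lf (nat_lit 13528) (nat_lit 6) (nat_lit 178) (nat_lit 5) (nat_lit 117) (nat_lit 195) (nat_lit 198))) (PT.nd (nat_lit 78) (PT.lf (nat_lit 13756) (nat_lit 6) (nat_lit 181) (nat_lit 5) (nat_lit 118) (nat_lit 195) (nat_lit 197)) (PT.lf (nat_lit 14060) (nat_lit 6) (nat_lit 185) (nat_lit 5) (nat_lit 119) (nat_lit 195) (nat_lit 196)))) (PT.nd (nat_lit 156) (PT.nd (nat_lit 78) (PT.lf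 (nat_lit 14288) (nat_lit 3) (nat_lit 188) (nat_lit 4) (nat_lit 120) (nat_lit 195) (nat_lit 195)) (PT.lf (nat_lit 14516) (nat_lit 6) (nat_lit 191) (nat_lit 4) (nat_lit 121) (nat_lit 195) (nat_lit 194))) (PT.nd (nat_lit 78) (PT.lf (nat_lit 14744) (nat_lit 6) (nat_lit 194) (nat_lit 4) (nat_lit 122) (nat_lit 195) (nat_lit 193)) (PT.lf (nat_lit 14972) (nat_lit 6) (nat_lit 197) (nat_lit 4) (nat_lit 123) (nat_lit 195) (nat_lit 192))))) (PT.nd (nat_lit 4992) (PT.nd (nat_lit 156) (PT.nd (nat_lit 78) (PT.lf (nat_lit 15200) (nat_lit 6) (nat_lit 200) (nat_lit 4) (nat_lit 124) (nat_lit 195) (nat_lit 191)) (PT.lf (nat_lit 15428) (nat_lit 6) (nat_lit 203) (nat_lit 4) (nat_lit 125) (nat_lit 195) (nat_lit 190))) (PT.nd (nat_lit 78) (PT.lf (nat_lit 15656) (nat_lit 6) (nat_lit 206) (nat_lit 4) (nat_lit 126) (nat_lit 195) (nat_lit 189)) (PT.lf (nat_lit 15960) (nat_lit 6) (nat_lit 210) (nat_lit 4) (nat_lit 127) (nat_lit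 195) (nat_lit 188)))) (PT.nd (nat_lit 156) (PT.nd (nat_lit 78) (PT.lf (nat_lit 15960) (nat_lit 6) (nat_lit 210) (nat_lit 2) (nat_lit 188) (nat_lit 195) (nat_lit 127)) (PT.lf (nat_lit 15656) (nat_lit 6) (nat_lit 206) (nat_lit 2) (nat_lit 189) (nat_lit 195) (nat_lit 126))) (PT.nd (nat_lit 78) (PT.lf (nat_lit 15428) (nat_lit 6) (nat_lit 203) (nat_lit 2) (nat_lit 190) (nat_lit 195) (nat_lit 125)) (PT.nd (nat_lit 78) (PT.lf (nat_lit 15200) (nat_lit 6) (nat_lit 200) (nat_lit 2) (nat_lit 191) (nat_lit 195) (nat_lit 124)) (PT.lf (nat_lit 14972) (nat_lit 6) (nat_lit 197) (nat_lit 2) (nat_lit 192) (nat_lit 195) (nat_lit 123))))))))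
noncomputable def pc58 : PT := (PT.nd (nat_lit 47736) (PT.nd (nat_lit 47034) (PT.nd (nat_lit 312) (PT.nd (nat_lit 156) (PT.nd (nat_lit 78) (PT.lf (nat_lit 14744) (nat_lit 6) (nat_lit 194) (nat_lit 2) (nat_lit 193) (nat_lit 195) (nat_lit 122)) (PT.lf (nat_lit 14516) (nat_lit 6) (nat_lit 191) (nat_lit 2) (nat_lit 194) (nat_lit 195) (nat_lit 121))) (PT.nd (nat_lit 78) (PT.lf (nat_lit 14288) (nat_lit 3) (nat_lit 188) (nat_lit 0) (nat_lit 195) (nat_lit 195) (nat_lit 120)) (PT.lf (nat_lit 14060) (nat_lit 6) (nat_lit 185) (nat_lit 0) (nat_lit 196) (nat_lit 195) (nat_lit 119)))) (PT.nd (nat_lit 156) (PT.nd (nat_lit 78) (PT.lf (nat_lit 13756) (nat_lit 6) (nat_lit 181) (nat_lit 0) (nat_lit 197) (nat_lit 195) (nat_lit 118)) (PT.lf (nat_lit 13528) (nat_lit 6) (nat_lit 178) (nat_lit 0) (nat_lit 198) (nat_lit 195) (nat_lit 117))) (PT.nd (nat_lit 46488) (PT.lf (nat_lit 13224) (nat_lit 6) (nat_lit 174) (nat_lit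 0) (nat_lit 199) (nat_lit 195) (nat_lit 116)) (PT.lf (nat_lit 12844) (nat_lit 6) (nat_lit 169) (nat_lit 5) (nat_lit 114) (nat_lit 196) (nat_lit 200))))) (PT.nd (nat_lit 312) (PT.nd (nat_lit 156) (PT.nd (nat_lit 78) (PT.lf (nat_lit 13072) (nat_lit 6) (nat_lit 172) (nat_lit 5) (nat_lit 115) (nat_lit 196) (nat_lit 199)) (PT.lf (nat_lit 13300) (nat_lit 6) (nat_lit 175) (nat_lit 5) (nat_lit 116) (nat_lit 196) (nat_lit 198))) (PT.nd (nat_lit 78) (PT.lf (nat_lit 13604) (nat_lit 6) (nat_lit 179) (nat_lit 5) (nat_lit 117) (nat_lit 196) (nat_lit 197)) (PT.lf (nat_lit 13832) (nat_lit 3) (nat_lit 182) (nat_lit 4) (nat_lit 118) (nat_lit 196) (nat_lit 196)))) (PT.nd (nat_lit 156) (PT.nd (nat_lit 78) (PT.lf (nat_lit 14060) (nat_lit 6) (nat_lit 185) (nat_lit 4) (nat_lit 119) (nat_lit 196) (nat_lit 195)) (PT.lf (nat_lit 14212) (nat_lit 6) (nat_lit 187) (nat_lit 4) (nat_lit 120) (nat_lit 196) (nat_lit 194))) (PT.nd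 (nat_lit 78) (PT.lf (nat_lit 14440) (nat_lit 6) (nat_lit 190) (nat_lit 4) (nat_lit 121) (nat_lit 196) (nat_lit 193)) (PT.nd (nat_lit 78) (PT.lf (nat_lit 14668) (nat_lit 6) (nat_lit 193) (nat_lit 4) (nat_lit 122) (nat_lit 196) (nat_lit 192)) (PT.lf (nat_lit 14896) (nat_lit 6) (nat_lit 196) (nat_lit 4) (nat_lit 123) (nat_lit 196) (nat_lit 191))))))) (PT.nd (nat_lit 5694) (PT.nd (nat_lit 5382) (PT.nd (nat_lit 5226) (PT.nd (nat_lit 5148) (PT.lf (nat_lit 15124) (nat_lit 6) (nat_lit 199) (nat_lit 4) (nat_lit 124) (nat_lit 196) (nat_lit 190)) (PT.lf (nat_lit 15124) (nat_lit 6) (nat_lit 199) (nat_lit 2) (nat_lit 190) (nat_lit 196) (nat_lit 124))) (PT.nd (nat_lit 78) (PT.lf (nat_lit 14896) (nat_lit 6) (nat_lit 196) (nat_lit 2) (nat_lit 191) (nat_lit 196) (nat_lit 123)) (PT.lf (nat_lit 14668) (nat_lit 6) (nat_lit 193) (nat_lit 2) (nat_lit 192) (nat_lit 196) (nat_lit 122)))) (PT.nd (nat_lit 156) (PT.nd (nat_lit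 78) (PT.lf (nat_lit 14440) (nat_lit 6) (nat_lit 190) (nat_lit 2) (nat_lit 193) (nat_lit 196) (nat_lit 121)) (PT.lf (nat_lit 14212) (nat_lit 6) (nat_lit 187) (nat_lit 2) (nat_lit 194) (nat_lit 196) (nat_lit 120))) (PT.nd (nat_lit 78) (PT.lf (nat_lit 14060) (nat_lit 6) (nat_lit 185) (nat_lit 2) (nat_lit 195) (nat_lit 196) (nat_lit 119)) (PT.lf (nat_lit 13832) (nat_lit 3) (nat_lit 182) (nat_lit 0) (nat_lit 196) (nat_lit 196) (nat_lit 118))))) (PT.nd (nat_lit 46488) (PT.nd (nat_lit 156) (PT.nd (nat_lit 78) (PT.lf (nat_lit 13604) (nat_lit 6) (nat_lit 179) (nat_lit 0) (nat_lit 197) (nat_lit 196) (nat_lit 117)) (PT.lf (nat_lit 13300) (nat_lit 6) (nat_lit 175) (nat_lit 0) (nat_lit 198) (nat_lit 196) (nat_lit 116))) (PT.nd (nat_lit 78) (PT.lf (nat_lit 13072) (nat_lit 6) (nat_lit 172) (nat_lit 0) (nat_lit 199) (nat_lit 196) (nat_lit 115)) (PT.lf (nat_lit 12844) (nat_lit 6) (nat_lit 169) (nat_lit 0) (nat_lit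 200) (nat_lit 196) (nat_lit 114)))) (PT.nd (nat_lit 156) (PT.nd (nat_lit 78) (PT.lf (nat_lit 12464) (nat_lit 6) (nat_lit 164) (nat_lit 5) (nat_lit 112) (nat_lit 197) (nat_lit 201)) (PT.lf (nat_lit 12692) (nat_lit 6) (nat_lit 167) (nat_lit 5) (nat_lit 113) (nat_lit 197) (nat_lit 200))) (PT.nd (nat_lit 78) (PT.lf (nat_lit 12920) (nat_lit 6) (nat_lit 170) (nat_lit 5) (nat_lit 114) (nat_lit 197) (nat_lit 199)) (PT.nd (nat_lit 78) (PT.lf (nat_lit 13148) (nat_lit 6) (nat_lit 173) (nat_lit 5) (nat_lit 115) (nat_lit 197) (nat_lit 198)) (PT.lf (nat_lit 13376) (nat_lit 3) (nat_lit 176) (nat_lit 4) (nat_lit 116) (nat_lit 197) (nat_lit 197))))))))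
noncomputable def pc59 : PT := (PT.nd (nat_lit 52572) (PT.nd (nat_lit 5928) (PT.nd (nat_lit 312) (PT.nd (nat_lit 156) (PT.nd (nat_lit 78) (PT.lf (nat_lit 13604) (nat_lit 6) (nat_lit 179) (nat_lit 4) (nat_lit 117) (nat_lit 197) (nat_lit 196)) (PT.lf (nat_lit 13756) (nat_lit 6) (nat_lit 181) (nat_lit 4) (nat_lit 118) (nat_lit 197) (nat_lit 195))) (PT.nd (nat_lit 78) (PT.lf (nat_lit 13984) (nat_lit 6) (nat_lit 184) (nat_lit 4) (nat_lit 119) (nat_lit 197) (nat_lit 194)) (PT.lf (nat_lit 14136) (nat_lit 6) (nat_lit 186) (nat_lit 4) (nat_lit 120) (nat_lit 197) (nat_lit 193)))) (PT.nd (nat_lit 5460) (PT.nd (nat_lit 78) (PT.lf (nat_lit 14364) (nat_lit 6) (nat_lit 189) (nat_lit 4) (nat_lit 121) (nat_lit 197) (nat_lit 192)) (PT.lf (nat_lit 14592) (nat_lit 6) (nat_lit 192) (nat_lit 4) (nat_lit 122) (nat_lit 197) (nat_lit 191))) (PT.nd (nat_lit 78) (PT.lf (nat_lit 14592) (nat_lit 6) (nat_lit 192) (nat_lit 2)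 (nat_lit 191) (nat_lit 197) (nat_lit 122)) (PT.lf (nat_lit 14364) (nat_lit 6) (nat_lit 189) (nat_lit 2) (nat_lit 192) (nat_lit 197) (nat_lit 121))))) (PT.nd (nat_lit 312) (PT.nd (nat_lit 156) (PT.nd (nat_lit 78) (PT.lf (nat_lit 14136) (nat_lit 6) (nat_lit 186) (nat_lit 2) (nat_lit 193) (nat_lit 197) (nat_lit 120)) (PT.lf (nat_lit 13984) (nat_lit 6) (nat_lit 184) (nat_lit 2) (nat_lit 194) (nat_lit 197) (nat_lit 119))) (PT.nd (nat_lit 78) (PT.lf (nat_lit 13756) (nat_lit 6) (nat_lit 181) (nat_lit 2) (nat_lit 195) (nat_lit 197) (nat_lit 118)) (PT.lf (nat_lit 13604) (nat_lit 6) (nat_lit 179) (nat_lit 2) (nat_lit 196) (nat_lit 197) (nat_lit 117)))) (PT.nd (nat_lit 156) (PT.nd (nat_lit 78) (PT.lf (nat_lit 13376) (nat_lit 3) (nat_lit 176) (nat_lit 0) (nat_lit 197) (nat_lit 197) (nat_lit 116)) (PT.lf (nat_lit 13148) (nat_lit 6) (nat_lit 173) (nat_lit 0) (nat_lit 198) (nat_lit 197) (nat_lit 115))) (PT.nd (nat_lit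 78) (PT.lf (nat_lit 12920) (nat_lit 6) (nat_lit 170) (nat_lit 0) (nat_lit 199) (nat_lit 197) (nat_lit 114)) (PT.nd (nat_lit 78) (PT.lf (nat_lit 12692) (nat_lit 6) (nat_lit 167) (nat_lit 0) (nat_lit 200) (nat_lit 197) (nat_lit 113)) (PT.lf (nat_lit 12464) (nat_lit 6) (nat_lit 164) (nat_lit 0) (nat_lit 201) (nat_lit 197) (nat_lit 112))))))) (PT.nd (nat_lit 702) (PT.nd (nat_lit 312) (PT.nd (nat_lit 156) (PT.nd (nat_lit 78) (PT.lf (nat_lit 12084) (nat_lit 6) (nat_lit 159) (nat_lit 5) (nat_lit 110) (nat_lit 198) (nat_lit 202)) (PT.lf (nat_lit 12312) (nat_lit 6) (nat_lit 162) (nat_lit 5) (nat_lit 111) (nat_lit 198) (nat_lit 201))) (PT.nd (nat_lit 78) (PT.lf (nat_lit 12540) (nat_lit 6) (nat_lit 165) (nat_lit 5) (nat_lit 112) (nat_lit 198) (nat_lit 200)) (PT.lf (nat_lit 12768) (nat_lit 6) (nat_lit 168) (nat_lit 5) (nat_lit 113) (nat_lit 198) (nat_lit 199)))) (PT.nd (nat_lit 156) (PT.nd (nat_lit 78) (PT.lf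 (nat_lit 12996) (nat_lit 3) (nat_lit 171) (nat_lit 4) (nat_lit 114) (nat_lit 198) (nat_lit 198)) (PT.lf (nat_lit 13148) (nat_lit 6) (nat_lit 173) (nat_lit 4) (nat_lit 115) (nat_lit 198) (nat_lit 197))) (PT.nd (nat_lit 78) (PT.lf (nat_lit 13300) (nat_lit 6) (nat_lit 175) (nat_lit 4) (nat_lit 116) (nat_lit 198) (nat_lit 196)) (PT.nd (nat_lit 78) (PT.lf (nat_lit 13528) (nat_lit 6) (nat_lit 178) (nat_lit 4) (nat_lit 117) (nat_lit 198) (nat_lit 195)) (PT.lf (nat_lit 13680) (nat_lit 6) (nat_lit 180) (nat_lit 4) (nat_lit 118) (nat_lit 198) (nat_lit 194)))))) (PT.nd (nat_lit 6006) (PT.nd (nat_lit 5850) (PT.nd (nat_lit 5772) (PT.lf (nat_lit 13908) (nat_lit 6) (nat_lit 183) (nat_lit 4) (nat_lit 119) (nat_lit 198) (nat_lit 193)) (PT.lf (nat_lit 13908) (nat_lit 6) (nat_lit 183) (nat_lit 2) (nat_lit 193) (nat_lit 198) (nat_lit 119))) (PT.nd (nat_lit 78) (PT.lf (nat_lit 13680) (nat_lit 6) (nat_lit 180) (nat_lit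 2) (nat_lit 194) (nat_lit 198) (nat_lit 118)) (PT.lf (nat_lit 13528) (nat_lit 6) (nat_lit 178) (nat_lit 2) (nat_lit 195) (nat_lit 198) (nat_lit 117)))) (PT.nd (nat_lit 156) (PT.nd (nat_lit 78) (PT.lf (nat_lit 13300) (nat_lit 6) (nat_lit 175) (nat_lit 2) (nat_lit 196) (nat_lit 198) (nat_lit 116)) (PT.lf (nat_lit 13148) (nat_lit 6) (nat_lit 173) (nat_lit 2) (nat_lit 197) (nat_lit 198) (nat_lit 115))) (PT.nd (nat_lit 78) (PT.lf (nat_lit 12996) (nat_lit 3) (nat_lit 171) (nat_lit 0) (nat_lit 198) (nat_lit 198) (nat_lit 114)) (PT.nd (nat_lit 78) (PT.lf (nat_lit 12768) (nat_lit 6) (nat_lit 168) (nat_lit 0) (nat_lit 199) (nat_lit 198) (nat_lit 113)) (PT.lf (nat_lit 12540) (nat_lit 6) (nat_lit 165) (nat_lit 0) (nat_lit 200) (nat_lit 198) (nat_lit 112))))))))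
noncomputable def pc60 : PT := (PT.nd (nat_lit 52962) (PT.nd (nat_lit 46332) (PT.nd (nat_lit 46020) (PT.nd (nat_lit 45864) (PT.nd (nat_lit 78) (PT.lf (nat_lit 12312) (nat_lit 6) (nat_lit 162) (nat_lit 0) (nat_lit 201) (nat_lit 198) (nat_lit 111)) (PT.lf (nat_lit 12084) (nat_lit 6) (nat_lit 159) (nat_lit 0) (nat_lit 202) (nat_lit 198) (nat_lit 110))) (PT.nd (nat_lit 78) (PT.lf (nat_lit 11704) (nat_lit 6) (nat_lit 154) (nat_lit 5) (nat_lit 108) (nat_lit 199) (nat_lit 203)) (PT.lf (nat_lit 11932) (nat_lit 6) (nat_lit 157) (nat_lit 5) (nat_lit 109) (nat_lit 199) (nat_lit 202)))) (PT.nd (nat_lit 156) (PT.nd (nat_lit 78) (PT.lf (nat_lit 12160) (nat_lit 6) (nat_lit 160) (nat_lit 5) (nat_lit 110) (nat_lit 199) (nat_lit 201)) (PT.lf (nat_lit 12388) (nat_lit 6) (nat_lit 163) (nat_lit 5) (nat_lit 111) (nat_lit 199) (nat_lit 200))) (PT.nd (nat_lit 78) (PT.lf (nat_lit 12616) (nat_lit 3) (nat_lit 166) (nat_lit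 4) (nat_lit 112) (nat_lit 199) (nat_lit 199)) (PT.lf (nat_lit 12768) (nat_lit 6) (nat_lit 168) (nat_lit 4) (nat_lit 113) (nat_lit 199) (nat_lit 198))))) (PT.nd (nat_lit 6240) (PT.nd (nat_lit 156) (PT.nd (nat_lit 78) (PT.lf (nat_lit 12920) (nat_lit 6) (nat_lit 170) (nat_lit 4) (nat_lit 114) (nat_lit 199) (nat_lit 197)) (PT.lf (nat_lit 13072) (nat_lit 6) (nat_lit 172) (nat_lit 4) (nat_lit 115) (nat_lit 199) (nat_lit 196))) (PT.nd (nat_lit 78) (PT.lf (nat_lit 13224) (nat_lit 6) (nat_lit 174) (nat_lit 4) (nat_lit 116) (nat_lit 199) (nat_lit 195)) (PT.lf (nat_lit 13452) (nat_lit 6) (nat_lit 177) (nat_lit 4) (nat_lit 117) (nat_lit 199) (nat_lit 194)))) (PT.nd (nat_lit 156) (PT.nd (nat_lit 78) (PT.lf (nat_lit 13452) (nat_lit 6) (nat_lit 177) (nat_lit 2) (nat_lit 194) (nat_lit 199) (nat_lit 117)) (PT.lf (nat_lit 13224) (nat_lit 6) (nat_lit 174) (nat_lit 2) (nat_lit 195) (nat_lit 199) (nat_lit 116))) (PT.nd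 (nat_lit 78) (PT.lf (nat_lit 13072) (nat_lit 6) (nat_lit 172) (nat_lit 2) (nat_lit 196) (nat_lit 199) (nat_lit 115)) (PT.nd (nat_lit 78) (PT.lf (nat_lit 12920) (nat_lit 6) (nat_lit 170) (nat_lit 2) (nat_lit 197) (nat_lit 199) (nat_lit 114)) (PT.lf (nat_lit 12768) (nat_lit 6) (nat_lit 168) (nat_lit 2) (nat_lit 198) (nat_lit 199) (nat_lit 113))))))) (PT.nd (nat_lit 46176) (PT.nd (nat_lit 312) (PT.nd (nat_lit 156) (PT.nd (nat_lit 78) (PT.lf (nat_lit 12616) (nat_lit 3) (nat_lit 166) (nat_lit 0) (nat_lit 199) (nat_lit 199) (nat_lit 112)) (PT.lf (nat_lit 12388) (nat_lit 6) (nat_lit 163) (nat_lit 0) (nat_lit 200) (nat_lit 199) (nat_lit 111))) (PT.nd (nat_lit 78) (PT.lf (nat_lit 12160) (nat_lit 6) (nat_lit 160) (nat_lit 0) (nat_lit 201) (nat_lit 199) (nat_lit 110)) (PT.lf (nat_lit 11932) (nat_lit 6) (nat_lit 157) (nat_lit 0) (nat_lit 202) (nat_lit 199) (nat_lit 109)))) (PT.nd (nat_lit 45708) (PT.nd (nat_lit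 45630) (PT.lf (nat_lit 11704) (nat_lit 6) (nat_lit 154) (nat_lit 0) (nat_lit 203) (nat_lit 199) (nat_lit 108)) (PT.lf (nat_lit 11552) (nat_lit 6) (nat_lit 152) (nat_lit 5) (nat_lit 107) (nat_lit 200) (nat_lit 203))) (PT.nd (nat_lit 78) (PT.lf (nat_lit 11780) (nat_lit 6) (nat_lit 155) (nat_lit 5) (nat_lit 108) (nat_lit 200) (nat_lit 202)) (PT.lf (nat_lit 12008) (nat_lit 6) (nat_lit 158) (nat_lit 5) (nat_lit 109) (nat_lit 200) (nat_lit 201))))) (PT.nd (nat_lit 312) (PT.nd (nat_lit 156) (PT.nd (nat_lit 78) (PT.lf (nat_lit 12236) (nat_lit 3) (nat_lit 161) (nat_lit 4) (nat_lit 110) (nat_lit 200) (nat_lit 200)) (PT.lf (nat_lit 12388) (nat_lit 6) (nat_lit 163) (nat_lit 4) (nat_lit 111) (nat_lit 200) (nat_lit 199))) (PT.nd (nat_lit 78) (PT.lf (nat_lit 12540) (nat_lit 6) (nat_lit 165) (nat_lit 4) (nat_lit 112) (nat_lit 200) (nat_lit 198)) (PT.lf (nat_lit 12692) (nat_lit 6) (nat_lit 167) (nat_lit 4) (nat_lit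 113) (nat_lit 200) (nat_lit 197)))) (PT.nd (nat_lit 6474) (PT.nd (nat_lit 6396) (PT.lf (nat_lit 12844) (nat_lit 6) (nat_lit 169) (nat_lit 4) (nat_lit 114) (nat_lit 200) (nat_lit 196)) (PT.lf (nat_lit 12844) (nat_lit 6) (nat_lit 169) (nat_lit 2) (nat_lit 196) (nat_lit 200) (nat_lit 114))) (PT.nd (nat_lit 78) (PT.lf (nat_lit 12692) (nat_lit 6) (nat_lit 167) (nat_lit 2) (nat_lit 197) (nat_lit 200) (nat_lit 113)) (PT.nd (nat_lit 78) (PT.lf (nat_lit 12540) (nat_lit 6) (nat_lit 165) (nat_lit 2) (nat_lit 198) (nat_lit 200) (nat_lit 112)) (PT.lf (nat_lit 12388) (nat_lit 6) (nat_lit 163) (nat_lit 2) (nat_lit 199) (nat_lit 200) (nat_lit 111))))))))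
noncomputable def pc61 : PT := (PT.nd (nat_lit 53274) (PT.nd (nat_lit 46020) (PT.nd (nat_lit 45708) (PT.nd (nat_lit 156) (PT.nd (nat_lit 78) (PT.lf (nat_lit 12236) (nat_lit 3) (nat_lit 161) (nat_lit 0) (nat_lit 200) (nat_lit 200) (nat_lit 110)) (PT.lf (nat_lit 12008) (nat_lit 6) (nat_lit 158) (nat_lit 0) (nat_lit 201) (nat_lit 200) (nat_lit 109))) (PT.nd (nat_lit 78) (PT.lf (nat_lit 11780) (nat_lit 6) (nat_lit 155) (nat_lit 0) (nat_lit 202) (nat_lit 200) (nat_lit 108)) (PT.lf (nat_lit 11552) (nat_lit 6) (nat_lit 152) (nat_lit 0) (nat_lit 203) (nat_lit 200) (nat_lit 107)))) (PT.nd (nat_lit 156) (PT.nd (nat_lit 78) (PT.lf (nat_lit 11248) (nat_lit 6) (nat_lit 148) (nat_lit 5) (nat_lit 105) (nat_lit 201) (nat_lit 204)) (PT.lf (nat_lit 11400) (nat_lit 6) (nat_lit 150) (nat_lit 5) (nat_lit 106) (nat_lit 201) (nat_lit 203))) (PT.nd (nat_lit 78) (PT.lf (nat_lit 11628) (nat_lit 6) (nat_lit 153) (nat_lit 5)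 (nat_lit 107) (nat_lit 201) (nat_lit 202)) (PT.lf (nat_lit 11856) (nat_lit 3) (nat_lit 156) (nat_lit 4) (nat_lit 108) (nat_lit 201) (nat_lit 201))))) (PT.nd (nat_lit 6864) (PT.nd (nat_lit 156) (PT.nd (nat_lit 78) (PT.lf (nat_lit 12008) (nat_lit 6) (nat_lit 158) (nat_lit 4) (nat_lit 109) (nat_lit 201) (nat_lit 200)) (PT.lf (nat_lit 12160) (nat_lit 6) (nat_lit 160) (nat_lit 4) (nat_lit 110) (nat_lit 201) (nat_lit 199))) (PT.nd (nat_lit 78) (PT.lf (nat_lit 12312) (nat_lit 6) (nat_lit 162) (nat_lit 4) (nat_lit 111) (nat_lit 201) (nat_lit 198)) (PT.lf (nat_lit 12464) (nat_lit 6) (nat_lit 164) (nat_lit 4) (nat_lit 112) (nat_lit 201) (nat_lit 197)))) (PT.nd (nat_lit 156) (PT.nd (nat_lit 78) (PT.lf (nat_lit 12464) (nat_lit 6) (nat_lit 164) (nat_lit 2) (nat_lit 197) (nat_lit 201) (nat_lit 112)) (PT.lf (nat_lit 12312) (nat_lit 6) (nat_lit 162) (nat_lit 2) (nat_lit 198) (nat_lit 201) (nat_lit 111))) (PT.nd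 (nat_lit 78) (PT.lf (nat_lit 12160) (nat_lit 6) (nat_lit 160) (nat_lit 2) (nat_lit 199) (nat_lit 201) (nat_lit 110)) (PT.nd (nat_lit 78) (PT.lf (nat_lit 12008) (nat_lit 6) (nat_lit 158) (nat_lit 2) (nat_lit 200) (nat_lit 201) (nat_lit 109)) (PT.lf (nat_lit 11856) (nat_lit 3) (nat_lit 156) (nat_lit 0) (nat_lit 201) (nat_lit 201) (nat_lit 108))))))) (PT.nd (nat_lit 45864) (PT.nd (nat_lit 45474) (PT.nd (nat_lit 156) (PT.nd (nat_lit 78) (PT.lf (nat_lit 11628) (nat_lit 6) (nat_lit 153) (nat_lit 0) (nat_lit 202) (nat_lit 201) (nat_lit 107)) (PT.lf (nat_lit 11400) (nat_lit 6) (nat_lit 150) (nat_lit 0) (nat_lit 203) (nat_lit 201) (nat_lit 106))) (PT.nd (nat_lit 45240) (PT.lf (nat_lit 11248) (nat_lit 6) (nat_lit 148) (nat_lit 0) (nat_lit 204) (nat_lit 201) (nat_lit 105)) (PT.lf (nat_lit 10944) (nat_lit 6) (nat_lit 144) (nat_lit 5) (nat_lit 103) (nat_lit 202) (nat_lit 205)))) (PT.nd (nat_lit 156) (PT.nd (nat_lit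 78) (PT.lf (nat_lit 11096) (nat_lit 6) (nat_lit 146) (nat_lit 5) (nat_lit 104) (nat_lit 202) (nat_lit 204)) (PT.lf (nat_lit 11324) (nat_lit 6) (nat_lit 149) (nat_lit 5) (nat_lit 105) (nat_lit 202) (nat_lit 203))) (PT.nd (nat_lit 78) (PT.lf (nat_lit 11476) (nat_lit 3) (nat_lit 151) (nat_lit 4) (nat_lit 106) (nat_lit 202) (nat_lit 202)) (PT.nd (nat_lit 78) (PT.lf (nat_lit 11628) (nat_lit 6) (nat_lit 153) (nat_lit 4) (nat_lit 107) (nat_lit 202) (nat_lit 201)) (PT.lf (nat_lit 11780) (nat_lit 6) (nat_lit 155) (nat_lit 4) (nat_lit 108) (nat_lit 202) (nat_lit 200)))))) (PT.nd (nat_lit 7098) (PT.nd (nat_lit 6942) (PT.nd (nat_lit 78) (PT.lf (nat_lit 11932) (nat_lit 6) (nat_lit 157) (nat_lit 4) (nat_lit 109) (nat_lit 202) (nat_lit 199)) (PT.lf (nat_lit 12084) (nat_lit 6) (nat_lit 159) (nat_lit 4) (nat_lit 110) (nat_lit 202) (nat_lit 198))) (PT.nd (nat_lit 78) (PT.lf (nat_lit 12084) (nat_lit 6) (nat_lit 159)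 (nat_lit 2) (nat_lit 198) (nat_lit 202) (nat_lit 110)) (PT.lf (nat_lit 11932) (nat_lit 6) (nat_lit 157) (nat_lit 2) (nat_lit 199) (nat_lit 202) (nat_lit 109)))) (PT.nd (nat_lit 156) (PT.nd (nat_lit 78) (PT.lf (nat_lit 11780) (nat_lit 6) (nat_lit 155) (nat_lit 2) (nat_lit 200) (nat_lit 202) (nat_lit 108)) (PT.lf (nat_lit 11628) (nat_lit 6) (nat_lit 153) (nat_lit 2) (nat_lit 201) (nat_lit 202) (nat_lit 107))) (PT.nd (nat_lit 78) (PT.lf (nat_lit 11476) (nat_lit 3) (nat_lit 151) (nat_lit 0) (nat_lit 202) (nat_lit 202) (nat_lit 106)) (PT.nd (nat_lit 78) (PT.lf (nat_lit 11324) (nat_lit 6) (nat_lit 149) (nat_lit 0) (nat_lit 203) (nat_lit 202) (nat_lit 105)) (PT.lf (nat_lit 11096) (nat_lit 6) (nat_lit 146) (nat_lit 0) (nat_lit 204) (nat_lit 202) (nat_lit 104))))))))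
noncomputable def pc62 : PT := (PT.nd (nat_lit 97968) (PT.nd (nat_lit 45552) (PT.nd (nat_lit 45240) (PT.nd (nat_lit 45084) (PT.nd (nat_lit 45006) (PT.lf (nat_lit 10944) (nat_lit 6) (nat_lit 144) (nat_lit 0) (nat_lit 205) (nat_lit 202) (nat_lit 103)) (PT.lf (nat_lit 10640) (nat_lit 6) (nat_lit 140) (nat_lit 5) (nat_lit 101) (nat_lit 203) (nat_lit 206))) (PT.nd (nat_lit 78) (PT.lf (nat_lit 10792) (nat_lit 6) (nat_lit 142) (nat_lit 5) (nat_lit 102) (nat_lit 203) (nat_lit 205)) (PT.lf (nat_lit 11020) (nat_lit 6) (nat_lit 145) (nat_lit 5) (nat_lit 103) (nat_lit 203) (nat_lit 204)))) (PT.nd (nat_lit 156) (PT.nd (nat_lit 78) (PT.lf (nat_lit 11172) (nat_lit 3) (nat_lit 147) (nat_lit 4) (nat_lit 104) (nat_lit 203) (nat_lit 203)) (PT.lf (nat_lit 11324) (nat_lit 6) (nat_lit 149) (nat_lit 4) (nat_lit 105) (nat_lit 203) (nat_lit 202))) (PT.nd (nat_lit 78) (PT.lf (nat_lit 11400) (nat_lit 6) (nat_lit 150) (nat_lit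 4) (nat_lit 106) (nat_lit 203) (nat_lit 201)) (PT.lf (nat_lit 11552) (nat_lit 6) (nat_lit 152) (nat_lit 4) (nat_lit 107) (nat_lit 203) (nat_lit 200))))) (PT.nd (nat_lit 7332) (PT.nd (nat_lit 7176) (PT.nd (nat_lit 7098) (PT.lf (nat_lit 11704) (nat_lit 6) (nat_lit 154) (nat_lit 4) (nat_lit 108) (nat_lit 203) (nat_lit 199)) (PT.lf (nat_lit 11704) (nat_lit 6) (nat_lit 154) (nat_lit 2) (nat_lit 199) (nat_lit 203) (nat_lit 108))) (PT.nd (nat_lit 78) (PT.lf (nat_lit 11552) (nat_lit 6) (nat_lit 152) (nat_lit 2) (nat_lit 200) (nat_lit 203) (nat_lit 107)) (PT.lf (nat_lit 11400) (nat_lit 6) (nat_lit 150) (nat_lit 2) (nat_lit 201) (nat_lit 203) (nat_lit 106)))) (PT.nd (nat_lit 156) (PT.nd (nat_lit 78) (PT.lf (nat_lit 11324) (nat_lit 6) (nat_lit 149) (nat_lit 2) (nat_lit 202) (nat_lit 203) (nat_lit 105)) (PT.lf (nat_lit 11172) (nat_lit 3) (nat_lit 147) (nat_lit 0) (nat_lit 203) (nat_lit 203) (nat_lit 104))) (PT.nd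 (nat_lit 78) (PT.lf (nat_lit 11020) (nat_lit 6) (nat_lit 145) (nat_lit 0) (nat_lit 204) (nat_lit 203) (nat_lit 103)) (PT.nd (nat_lit 78) (PT.lf (nat_lit 10792) (nat_lit 6) (nat_lit 142) (nat_lit 0) (nat_lit 205) (nat_lit 203) (nat_lit 102)) (PT.lf (nat_lit 10640) (nat_lit 6) (nat_lit 140) (nat_lit 0) (nat_lit 206) (nat_lit 203) (nat_lit 101))))))) (PT.nd (nat_lit 8034) (PT.nd (nat_lit 312) (PT.nd (nat_lit 156) (PT.nd (nat_lit 78) (PT.lf (nat_lit 10336) (nat_lit 6) (nat_lit 136) (nat_lit 5) (nat_lit 99) (nat_lit 204) (nat_lit 207)) (PT.lf (nat_lit 10488) (nat_lit 6) (nat_lit 138) (nat_lit 5) (nat_lit 100) (nat_lit 204) (nat_lit 206))) (PT.nd (nat_lit 78) (PT.lf (nat_lit 10716) (nat_lit 6) (nat_lit 141) (nat_lit 5) (nat_lit 101) (nat_lit 204) (nat_lit 205)) (PT.lf (nat_lit 10868) (nat_lit 3) (nat_lit 143) (nat_lit 4) (nat_lit 102) (nat_lit 204) (nat_lit 204)))) (PT.nd (nat_lit 156) (PT.nd (nat_lit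 78) (PT.lf (nat_lit 11020) (nat_lit 6) (nat_lit 145) (nat_lit 4) (nat_lit 103) (nat_lit 204) (nat_lit 203)) (PT.lf (nat_lit 11096) (nat_lit 6) (nat_lit 146) (nat_lit 4) (nat_lit 104) (nat_lit 204) (nat_lit 202))) (PT.nd (nat_lit 7488) (PT.lf (nat_lit 11248) (nat_lit 6) (nat_lit 148) (nat_lit 4) (nat_lit 105) (nat_lit 204) (nat_lit 201)) (PT.lf (nat_lit 11248) (nat_lit 6) (nat_lit 148) (nat_lit 2) (nat_lit 201) (nat_lit 204) (nat_lit 105))))) (PT.nd (nat_lit 312) (PT.nd (nat_lit 156) (PT.nd (nat_lit 78) (PT.lf (nat_lit 11096) (nat_lit 6) (nat_lit 146) (nat_lit 2) (nat_lit 202) (nat_lit 204) (nat_lit 104)) (PT.lf (nat_lit 11020) (nat_lit 6) (nat_lit 145) (nat_lit 2) (nat_lit 203) (nat_lit 204) (nat_lit 103))) (PT.nd (nat_lit 78) (PT.lf (nat_lit 10868) (nat_lit 3) (nat_lit 143) (nat_lit 0) (nat_lit 204) (nat_lit 204) (nat_lit 102)) (PT.lf (nat_lit 10716) (nat_lit 6) (nat_lit 141) (nat_lit 0) (nat_lit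 205) (nat_lit 204) (nat_lit 101)))) (PT.nd (nat_lit 44694) (PT.nd (nat_lit 78) (PT.lf (nat_lit 10488) (nat_lit 6) (nat_lit 138) (nat_lit 0) (nat_lit 206) (nat_lit 204) (nat_lit 100)) (PT.lf (nat_lit 10336) (nat_lit 6) (nat_lit 136) (nat_lit 0) (nat_lit 207) (nat_lit 204) (nat_lit 99))) (PT.nd (nat_lit 78) (PT.lf (nat_lit 10184) (nat_lit 6) (nat_lit 134) (nat_lit 5) (nat_lit 98) (nat_lit 205) (nat_lit 207)) (PT.nd (nat_lit 78) (PT.lf (nat_lit 10412) (nat_lit 6) (nat_lit 137) (nat_lit 5) (nat_lit 99) (nat_lit 205) (nat_lit 206)) (PT.lf (nat_lit 10564) (nat_lit 3) (nat_lit 139) (nat_lit 4) (nat_lit 100) (nat_lit 205) (nat_lit 205))))))))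
noncomputable def pc63 : PT := (PT.nd (nat_lit 61230) (PT.nd (nat_lit 8268) (PT.nd (nat_lit 7956) (PT.nd (nat_lit 156) (PT.nd (nat_lit 78) (PT.lf (nat_lit 10716) (nat_lit 6) (nat_lit 141) (nat_lit 4) (nat_lit 101) (nat_lit 205) (nat_lit 204)) (PT.lf (nat_lit 10792) (nat_lit 6) (nat_lit 142) (nat_lit 4) (nat_lit 102) (nat_lit 205) (nat_lit 203))) (PT.nd (nat_lit 7722) (PT.lf (nat_lit 10944) (nat_lit 6) (nat_lit 144) (nat_lit 4) (nat_lit 103) (nat_lit 205) (nat_lit 202)) (PT.lf (nat_lit 10944) (nat_lit 6) (nat_lit 144) (nat_lit 2) (nat_lit 202) (nat_lit 205) (nat_lit 103)))) (PT.nd (nat_lit 156) (PT.nd (nat_lit 78) (PT.lf (nat_lit 10792) (nat_lit 6) (nat_lit 142) (nat_lit 2) (nat_lit 203) (nat_lit 205) (nat_lit 102)) (PT.lf (nat_lit 10716) (nat_lit 6) (nat_lit 141) (nat_lit 2) (nat_lit 204) (nat_lit 205) (nat_lit 101))) (PT.nd (nat_lit 78) (PT.lf (nat_lit 10564) (nat_lit 3) (nat_lit 139) (nat_lit 0)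 (nat_lit 205) (nat_lit 205) (nat_lit 100)) (PT.lf (nat_lit 10412) (nat_lit 6) (nat_lit 137) (nat_lit 0) (nat_lit 206) (nat_lit 205) (nat_lit 99))))) (PT.nd (nat_lit 44694) (PT.nd (nat_lit 44538) (PT.nd (nat_lit 44460) (PT.lf (nat_lit 10184) (nat_lit 6) (nat_lit 134) (nat_lit 0) (nat_lit 207) (nat_lit 205) (nat_lit 98)) (PT.lf (nat_lit 9880) (nat_lit 6) (nat_lit 130) (nat_lit 5) (nat_lit 96) (nat_lit 206) (nat_lit 208))) (PT.nd (nat_lit 78) (PT.lf (nat_lit 10108) (nat_lit 6) (nat_lit 133) (nat_lit 5) (nat_lit 97) (nat_lit 206) (nat_lit 207)) (PT.lf (nat_lit 10260) (nat_lit 3) (nat_lit 135) (nat_lit 4) (nat_lit 98) (nat_lit 206) (nat_lit 206)))) (PT.nd (nat_lit 156) (PT.nd (nat_lit 78) (PT.lf (nat_lit 10412) (nat_lit 6) (nat_lit 137) (nat_lit 4) (nat_lit 99) (nat_lit 206) (nat_lit 205)) (PT.lf (nat_lit 10488) (nat_lit 6) (nat_lit 138) (nat_lit 4) (nat_lit 100) (nat_lit 206) (nat_lit 204))) (PT.nd (nat_lit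 7956) (PT.lf (nat_lit 10640) (nat_lit 6) (nat_lit 140) (nat_lit 4) (nat_lit 101) (nat_lit 206) (nat_lit 203)) (PT.nd (nat_lit 78) (PT.lf (nat_lit 10640) (nat_lit 6) (nat_lit 140) (nat_lit 2) (nat_lit 203) (nat_lit 206) (nat_lit 101)) (PT.lf (nat_lit 10488) (nat_lit 6) (nat_lit 138) (nat_lit 2) (nat_lit 204) (nat_lit 206) (nat_lit 100))))))) (PT.nd (nat_lit 53040) (PT.nd (nat_lit 44538) (PT.nd (nat_lit 156) (PT.nd (nat_lit 78) (PT.lf (nat_lit 10412) (nat_lit 6) (nat_lit 137) (nat_lit 2) (nat_lit 205) (nat_lit 206) (nat_lit 99)) (PT.lf (nat_lit 10260) (nat_lit 3) (nat_lit 135) (nat_lit 0) (nat_lit 206) (nat_lit 206) (nat_lit 98))) (PT.nd (nat_lit 78) (PT.lf (nat_lit 10108) (nat_lit 6) (nat_lit 133) (nat_lit 0) (nat_lit 207) (nat_lit 206) (nat_lit 97)) (PT.lf (nat_lit 9880) (nat_lit 6) (nat_lit 130) (nat_lit 0) (nat_lit 208) (nat_lit 206) (nat_lit 96)))) (PT.nd (nat_lit 156) (PT.nd (nat_lit 78) (PT.lf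 (nat_lit 9804) (nat_lit 6) (nat_lit 129) (nat_lit 5) (nat_lit 95) (nat_lit 207) (nat_lit 208)) (PT.lf (nat_lit 9956) (nat_lit 3) (nat_lit 131) (nat_lit 4) (nat_lit 96) (nat_lit 207) (nat_lit 207))) (PT.nd (nat_lit 78) (PT.lf (nat_lit 10108) (nat_lit 6) (nat_lit 133) (nat_lit 4) (nat_lit 97) (nat_lit 207) (nat_lit 206)) (PT.nd (nat_lit 78) (PT.lf (nat_lit 10184) (nat_lit 6) (nat_lit 134) (nat_lit 4) (nat_lit 98) (nat_lit 207) (nat_lit 205)) (PT.lf (nat_lit 10336) (nat_lit 6) (nat_lit 136) (nat_lit 4) (nat_lit 99) (nat_lit 207) (nat_lit 204)))))) (PT.nd (nat_lit 312) (PT.nd (nat_lit 156) (PT.nd (nat_lit 78) (PT.lf (nat_lit 10336) (nat_lit 6) (nat_lit 136) (nat_lit 2) (nat_lit 204) (nat_lit 207) (nat_lit 99)) (PT.lf (nat_lit 10184) (nat_lit 6) (nat_lit 134) (nat_lit 2) (nat_lit 205) (nat_lit 207) (nat_lit 98))) (PT.nd (nat_lit 78) (PT.lf (nat_lit 10108) (nat_lit 6) (nat_lit 133) (nat_lit 2) (nat_lit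 206) (nat_lit 207) (nat_lit 97)) (PT.lf (nat_lit 9956) (nat_lit 3) (nat_lit 131) (nat_lit 0) (nat_lit 207) (nat_lit 207) (nat_lit 96)))) (PT.nd (nat_lit 44382) (PT.nd (nat_lit 44304) (PT.lf (nat_lit 9804) (nat_lit 6) (nat_lit 129) (nat_lit 0) (nat_lit 208) (nat_lit 207) (nat_lit 95)) (PT.lf (nat_lit 9804) (nat_lit 6) (nat_lit 129) (nat_lit 4) (nat_lit 95) (nat_lit 208) (nat_lit 207))) (PT.nd (nat_lit 8580) (PT.lf (nat_lit 9880) (nat_lit 6) (nat_lit 130) (nat_lit 4) (nat_lit 96) (nat_lit 208) (nat_lit 206)) (PT.nd (nat_lit 78) (PT.lf (nat_lit 9880) (nat_lit 6) (nat_lit 130) (nat_lit 2) (nat_lit 206) (nat_lit 208) (nat_lit 96)) (PT.lf (nat_lit 9804) (nat_lit 6) (nat_lit 129) (nat_lit 2) (nat_lit 207) (nat_lit 208) (nat_lit 95))))))))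
noncomputable def xc0 : XT := (XT.nd (nat_lit 159198) (nat_lit 0) (nat_lit 0) (XT.nd (nat_lit 106002) (nat_lit 0) (nat_lit 0) (XT.nd (nat_lit 53040) (nat_lit 0) (nat_lit 0) (XT.nd (nat_lit 156) (nat_lit 76) (nat_lit 0) (XT.nd (nat_lit 78) (nat_lit 304) (nat_lit 0) (XT.lf (nat_lit 0) (nat_lit 2616880751) (nat_lit 152) (nat_lit 2316211670) (nat_lit 0) (nat_lit 2616880751) (nat_lit 15) (nat_lit 5) (nat_lit 17) (nat_lit 4) (nat_lit 15) (nat_lit 4) (nat_lit 428) (nat_lit 296) (nat_lit 296)) (XT.lf (nat_lit 0) (nat_lit 1393036379) (nat_lit 152) (nat_lit 12960855607) (nat_lit 0) (nat_lit 963076606) (nat_lit 11) (nat_lit 5) (nat_lit 13) (nat_lit 4) (nat_lit 11) (nat_lit 4) (nat_lit 429) (nat_lit 296) (nat_lit 295))) (XT.nd (nat_lit 52806) (nat_lit 0) (nat_lit 836) (XT.lf (nat_lit 0) (nat_lit 9448948878) (nat_lit 76) (nat_lit 3468210703) (nat_lit 76) (nat_lit 2620814257) (nat_lit 10) (nat_lit 4) (nat_lit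 11) (nat_lit 5) (nat_lit 11) (nat_lit 4) (nat_lit 430) (nat_lit 296) (nat_lit 294)) (XT.lf (nat_lit 0) (nat_lit 5652942112) (nat_lit 152) (nat_lit 843119320) (nat_lit 152) (nat_lit 843119320) (nat_lit 21) (nat_lit 4) (nat_lit 23) (nat_lit 5) (nat_lit 23) (nat_lit 4) (nat_lit 426) (nat_lit 297) (nat_lit 297)))) (XT.nd (nat_lit 156) (nat_lit 380) (nat_lit 0) (XT.nd (nat_lit 78) (nat_lit 152) (nat_lit 0) (XT.lf (nat_lit 0) (nat_lit 3377191851) (nat_lit 152) (nat_lit 5985732603) (nat_lit 152) (nat_lit 5524982550) (nat_lit 17) (nat_lit 4) (nat_lit 19) (nat_lit 5) (nat_lit 19) (nat_lit 4) (nat_lit 427) (nat_lit 297) (nat_lit 296)) (XT.lf (nat_lit 0) (nat_lit 5571227623) (nat_lit 152) (nat_lit 4850050796) (nat_lit 0) (nat_lit 4680952917) (nat_lit 15) (nat_lit 5) (nat_lit 17) (nat_lit 4) (nat_lit 15) (nat_lit 4) (nat_lit 428) (nat_lit 297) (nat_lit 295))) (XT.nd (nat_lit 78) (nat_lit 76) (nat_lit 0) (XT.lf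 (nat_lit 0) (nat_lit 1602141680) (nat_lit 152) (nat_lit 13407615310) (nat_lit 0) (nat_lit 311886668) (nat_lit 11) (nat_lit 5) (nat_lit 13) (nat_lit 4) (nat_lit 11) (nat_lit 4) (nat_lit 429) (nat_lit 297) (nat_lit 294)) (XT.nd (nat_lit 52650) (nat_lit 0) (nat_lit 1368) (XT.lf (nat_lit 0) (nat_lit 8779743818) (nat_lit 76) (nat_lit 4230380614) (nat_lit 76) (nat_lit 2534847279) (nat_lit 10) (nat_lit 4) (nat_lit 11) (nat_lit 5) (nat_lit 11) (nat_lit 4) (nat_lit 430) (nat_lit 297) (nat_lit 293)) (XT.lf (nat_lit 0) (nat_lit 3035837374) (nat_lit 228) (nat_lit 1063145494) (nat_lit 0) (nat_lit 3035837374) (nat_lit 28) (nat_lit 5) (nat_lit 31) (nat_lit 4) (nat_lit 28) (nat_lit 4) (nat_lit 424) (nat_lit 298) (nat_lit 298)))))) (XT.nd (nat_lit 390) (nat_lit 76) (nat_lit 0) (XT.nd (nat_lit 156) (nat_lit 760) (nat_lit 0) (XT.nd (nat_lit 78) (nat_lit 152) (nat_lit 0) (XT.lf (nat_lit 0) (nat_lit 2463388503) (nat_lit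 228) (nat_lit 10030210454) (nat_lit 0) (nat_lit 1979324498) (nat_lit 23) (nat_lit 5) (nat_lit 26) (nat_lit 4) (nat_lit 23) (nat_lit 4) (nat_lit 425) (nat_lit 298) (nat_lit 297)) (XT.lf (nat_lit 0) (nat_lit 11096576370) (nat_lit 152) (nat_lit 2269013072) (nat_lit 152) (nat_lit 1314984013) (nat_lit 21) (nat_lit 4) (nat_lit 23) (nat_lit 5) (nat_lit 23) (nat_lit 4) (nat_lit 426) (nat_lit 298) (nat_lit 296))) (XT.nd (nat_lit 78) (nat_lit 456) (nat_lit 0) (XT.lf (nat_lit 0) (nat_lit 2947447231) (nat_lit 152) (nat_lit 6663818576) (nat_lit 152) (nat_lit 5281165821) (nat_lit 17) (nat_lit 4) (nat_lit 19) (nat_lit 5) (nat_lit 19) (nat_lit 4) (nat_lit 427) (nat_lit 298) (nat_lit 295)) (XT.nd (nat_lit 78) (nat_lit 304) (nat_lit 0) (XT.lf (nat_lit 0) (nat_lit 5693646155) (nat_lit 152) (nat_lit 5503123321) (nat_lit 0) (nat_lit 3912318833) (nat_lit 15) (nat_lit 5) (nat_lit 17) (nat_lit 4) (nat_lit 15) (nat_lit 4)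 (nat_lit 428) (nat_lit 298) (nat_lit 294)) (XT.lf (nat_lit 0) (nat_lit 1025707494) (nat_lit 76) (nat_lit 568559192) (nat_lit 152) (nat_lit 13736657359) (nat_lit 11) (nat_lit 5) (nat_lit 12) (nat_lit 5) (nat_lit 13) (nat_lit 4) (nat_lit 429) (nat_lit 298) (nat_lit 293))))) (XT.nd (nat_lit 52572) (nat_lit 0) (nat_lit 988) (XT.nd (nat_lit 52494) (nat_lit 0) (nat_lit 1976) (XT.lf (nat_lit 0) (nat_lit 7663752356) (nat_lit 76) (nat_lit 5219020516) (nat_lit 76) (nat_lit 2673868757) (nat_lit 10) (nat_lit 4) (nat_lit 11) (nat_lit 5) (nat_lit 11) (nat_lit 4) (nat_lit 430) (nat_lit 298) (nat_lit 292)) (XT.lf (nat_lit 0) (nat_lit 6521582368) (nat_lit 152) (nat_lit 207869963) (nat_lit 152) (nat_lit 207869963) (nat_lit 36) (nat_lit 4) (nat_lit 38) (nat_lit 5) (nat_lit 38) (nat_lit 4) (nat_lit 422) (nat_lit 299) (nat_lit 299))) (XT.nd (nat_lit 78) (nat_lit 608) (nat_lit 0) (XT.lf (nat_lit 0) (nat_lit 5510463289)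 (nat_lit 152) (nat_lit 4539533683) (nat_lit 152) (nat_lit 4020804887) (nat_lit 31) (nat_lit 4) (nat_lit 33) (nat_lit 5) (nat_lit 33) (nat_lit 4) (nat_lit 423) (nat_lit 299) (nat_lit 298)) (XT.nd (nat_lit 78) (nat_lit 380) (nat_lit 0) (XT.lf (nat_lit 0) (nat_lit 6471803000) (nat_lit 228) (nat_lit 2330506006) (nat_lit 0) (nat_lit 5469500071) (nat_lit 28) (nat_lit 5) (nat_lit 31) (nat_lit 4) (nat_lit 28) (nat_lit 4) (nat_lit 424) (nat_lit 299) (nat_lit 297)) (XT.lf (nat_lit 0) (nat_lit 2740220348) (nat_lit 228) (nat_lit 10449532825) (nat_lit 0) (nat_lit 1287605364) (nat_lit 23) (nat_lit 5) (nat_lit 26) (nat_lit 4) (nat_lit 23) (nat_lit 4) (nat_lit 425) (nat_lit 299) (nat_lit 296))))))) (XT.nd (nat_lit 53040) (nat_lit 0) (nat_lit 0) (XT.nd (nat_lit 52650) (nat_lit 0) (nat_lit 1368) (XT.nd (nat_lit 156) (nat_lit 532) (nat_lit 0) (XT.nd (nat_lit 78) (nat_lit 304) (nat_lit 0) (XT.lf (nat_lit 0) (nat_lit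 10468469916) (nat_lit 152) (nat_lit 3063816526) (nat_lit 152) (nat_lit 1154924791) (nat_lit 21) (nat_lit 4) (nat_lit 23) (nat_lit 5) (nat_lit 23) (nat_lit 4) (nat_lit 426) (nat_lit 299) (nat_lit 295)) (XT.lf (nat_lit 0) (nat_lit 2087582485) (nat_lit 152) (nat_lit 7559832972) (nat_lit 152) (nat_lit 5254069372) (nat_lit 17) (nat_lit 4) (nat_lit 19) (nat_lit 5) (nat_lit 19) (nat_lit 4) (nat_lit 427) (nat_lit 299) (nat_lit 294))) (XT.nd (nat_lit 78) (nat_lit 380) (nat_lit 0) (XT.lf (nat_lit 0) (nat_lit 5601124066) (nat_lit 152) (nat_lit 6592211563) (nat_lit 0) (nat_lit 2927187628) (nat_lit 15) (nat_lit 5) (nat_lit 17) (nat_lit 4) (nat_lit 15) (nat_lit 4) (nat_lit 428) (nat_lit 299) (nat_lit 293)) (XT.nd (nat_lit 78) (nat_lit 152) (nat_lit 0) (XT.lf (nat_lit 0) (nat_lit 1371235049) (nat_lit 228) (nat_lit 305385220) (nat_lit 76) (nat_lit 13668160981) (nat_lit 12) (nat_lit 5) (nat_lit 15) (nat_lit 5) (nat_lit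 13) (nat_lit 4) (nat_lit 429) (nat_lit 299) (nat_lit 292)) (XT.lf (nat_lit 0) (nat_lit 6099999355) (nat_lit 76) (nat_lit 6434994266) (nat_lit 76) (nat_lit 3038000165) (nat_lit 10) (nat_lit 4) (nat_lit 11) (nat_lit 5) (nat_lit 11) (nat_lit 4) (nat_lit 430) (nat_lit 299) (nat_lit 291))))) (XT.nd (nat_lit 156) (nat_lit 760) (nat_lit 0) (XT.nd (nat_lit 78) (nat_lit 228) (nat_lit 0) (XT.lf (nat_lit 0) (nat_lit 223978755) (nat_lit 152) (nat_lit 3260896407) (nat_lit 152) (nat_lit 3260896407) (nat_lit 41) (nat_lit 4) (nat_lit 43) (nat_lit 5) (nat_lit 43) (nat_lit 4) (nat_lit 420) (nat_lit 300) (nat_lit 300)) (XT.lf (nat_lit 0) (nat_lit 3578395182) (nat_lit 228) (nat_lit 7069966486) (nat_lit 0) (nat_lit 3033418708) (nat_lit 38) (nat_lit 5) (nat_lit 41) (nat_lit 4) (nat_lit 38) (nat_lit 4) (nat_lit 421) (nat_lit 300) (nat_lit 299))) (XT.nd (nat_lit 78) (nat_lit 532) (nat_lit 0) (XT.lf (nat_lit 0) (nat_lit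 21805405) (nat_lit 228) (nat_lit 1030032926) (nat_lit 76) (nat_lit 12824904200) (nat_lit 35) (nat_lit 5) (nat_lit 38) (nat_lit 5) (nat_lit 36) (nat_lit 4) (nat_lit 422) (nat_lit 300) (nat_lit 298)) (XT.nd (nat_lit 78) (nat_lit 228) (nat_lit 0) (XT.lf (nat_lit 0) (nat_lit 5107302779) (nat_lit 152) (nat_lit 5262217042) (nat_lit 152) (nat_lit 3705577394) (nat_lit 31) (nat_lit 4) (nat_lit 33) (nat_lit 5) (nat_lit 33) (nat_lit 4) (nat_lit 423) (nat_lit 300) (nat_lit 297)) (XT.lf (nat_lit 0) (nat_lit 6670234448) (nat_lit 228) (nat_lit 2943329495) (nat_lit 0) (nat_lit 4664752792) (nat_lit 28) (nat_lit 5) (nat_lit 31) (nat_lit 4) (nat_lit 28) (nat_lit 4) (nat_lit 424) (nat_lit 300) (nat_lit 296)))))) (XT.nd (nat_lit 390) (nat_lit 152) (nat_lit 0) (XT.nd (nat_lit 156) (nat_lit 684) (nat_lit 0) (XT.nd (nat_lit 78) (nat_lit 152) (nat_lit 0) (XT.lf (nat_lit 0) (nat_lit 2810061924) (nat_lit 228) (nat_lit 11288543965)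 (nat_lit 0) (nat_lit 387626686) (nat_lit 23) (nat_lit 5) (nat_lit 26) (nat_lit 4) (nat_lit 23) (nat_lit 4) (nat_lit 425) (nat_lit 300) (nat_lit 295)) (XT.lf (nat_lit 0) (nat_lit 9421016032) (nat_lit 152) (nat_lit 4071343492) (nat_lit 152) (nat_lit 1205921118) (nat_lit 21) (nat_lit 4) (nat_lit 23) (nat_lit 5) (nat_lit 23) (nat_lit 4) (nat_lit 426) (nat_lit 300) (nat_lit 294))) (XT.nd (nat_lit 78) (nat_lit 380) (nat_lit 0) (XT.lf (nat_lit 0) (nat_lit 796846276) (nat_lit 152) (nat_lit 8674558716) (nat_lit 152) (nat_lit 5443669527) (nat_lit 17) (nat_lit 4) (nat_lit 19) (nat_lit 5) (nat_lit 19) (nat_lit 4) (nat_lit 427) (nat_lit 300) (nat_lit 293)) (XT.nd (nat_lit 78) (nat_lit 228) (nat_lit 0) (XT.lf (nat_lit 0) (nat_lit 5293580510) (nat_lit 152) (nat_lit 8118267151) (nat_lit 0) (nat_lit 1724698506) (nat_lit 15) (nat_lit 5) (nat_lit 17) (nat_lit 4) (nat_lit 15) (nat_lit 4) (nat_lit 428) (nat_lit 300)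 (nat_lit 292)) (XT.lf (nat_lit 0) (nat_lit 938343811) (nat_lit 228) (nat_lit 2063081468) (nat_lit 76) (nat_lit 12361692267) (nat_lit 12) (nat_lit 5) (nat_lit 15) (nat_lit 5) (nat_lit 13) (nat_lit 4) (nat_lit 429) (nat_lit 300) (nat_lit 291))))) (XT.nd (nat_lit 52260) (nat_lit 0) (nat_lit 2128) (XT.nd (nat_lit 52182) (nat_lit 0) (nat_lit 2964) (XT.lf (nat_lit 0) (nat_lit 4087118429) (nat_lit 76) (nat_lit 7879364368) (nat_lit 76) (nat_lit 3627559677) (nat_lit 10) (nat_lit 4) (nat_lit 11) (nat_lit 5) (nat_lit 11) (nat_lit 4) (nat_lit 430) (nat_lit 300) (nat_lit 290)) (XT.lf (nat_lit 0) (nat_lit 449261534) (nat_lit 228) (nat_lit 5662224394) (nat_lit 0) (nat_lit 449261534) (nat_lit 49) (nat_lit 5) (nat_lit 52) (nat_lit 4) (nat_lit 49) (nat_lit 4) (nat_lit 418) (nat_lit 301) (nat_lit 301))) (XT.nd (nat_lit 78) (nat_lit 608) (nat_lit 0) (XT.lf (nat_lit 0) (nat_lit 7738817256) (nat_lit 228) (nat_lit 3075261686)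 (nat_lit 228) (nat_lit 2491258357) (nat_lit 46) (nat_lit 4) (nat_lit 49) (nat_lit 5) (nat_lit 49) (nat_lit 4) (nat_lit 419) (nat_lit 301) (nat_lit 300)) (XT.nd (nat_lit 78) (nat_lit 228) (nat_lit 0) (XT.lf (nat_lit 0) (nat_lit 253933764) (nat_lit 152) (nat_lit 7184061901) (nat_lit 152) (nat_lit 6055633614) (nat_lit 41) (nat_lit 4) (nat_lit 43) (nat_lit 5) (nat_lit 43) (nat_lit 4) (nat_lit 420) (nat_lit 301) (nat_lit 299)) (XT.lf (nat_lit 0) (nat_lit 3929076009) (nat_lit 228) (nat_lit 7463246871) (nat_lit 0) (nat_lit 2293670395) (nat_lit 38) (nat_lit 5) (nat_lit 41) (nat_lit 4) (nat_lit 38) (nat_lit 4) (nat_lit 421) (nat_lit 301) (nat_lit 298))))))))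
noncomputable def xc1 : XT := (XT.nd (nat_lit 53430) (nat_lit 0) (nat_lit 76) (XT.nd (nat_lit 52650) (nat_lit 0) (nat_lit 988) (XT.nd (nat_lit 312) (nat_lit 988) (nat_lit 0) (XT.nd (nat_lit 156) (nat_lit 608) (nat_lit 0) (XT.nd (nat_lit 78) (nat_lit 304) (nat_lit 0) (XT.lf (nat_lit 0) (nat_lit 258468352) (nat_lit 228) (nat_lit 1626992136) (nat_lit 76) (nat_lit 11997555172) (nat_lit 35) (nat_lit 5) (nat_lit 38) (nat_lit 5) (nat_lit 36) (nat_lit 4) (nat_lit 422) (nat_lit 301) (nat_lit 297)) (XT.lf (nat_lit 0) (nat_lit 4300629482) (nat_lit 152) (nat_lit 6189486434) (nat_lit 152) (nat_lit 3593575764) (nat_lit 31) (nat_lit 4) (nat_lit 33) (nat_lit 5) (nat_lit 33) (nat_lit 4) (nat_lit 423) (nat_lit 301) (nat_lit 296))) (XT.nd (nat_lit 78) (nat_lit 380) (nat_lit 0) (XT.lf (nat_lit 0) (nat_lit 6667142482) (nat_lit 228) (nat_lit 3965296933) (nat_lit 0) (nat_lit 3656729735) (nat_lit 28) (nat_lit 5) (nat_lit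 31) (nat_lit 4) (nat_lit 28) (nat_lit 4) (nat_lit 424) (nat_lit 301) (nat_lit 295)) (XT.lf (nat_lit 0) (nat_lit 1946735375) (nat_lit 152) (nat_lit 730984922) (nat_lit 228) (nat_lit 11821738107) (nat_lit 23) (nat_lit 5) (nat_lit 25) (nat_lit 5) (nat_lit 26) (nat_lit 4) (nat_lit 425) (nat_lit 301) (nat_lit 294)))) (XT.nd (nat_lit 156) (nat_lit 684) (nat_lit 0) (XT.nd (nat_lit 78) (nat_lit 152) (nat_lit 0) (XT.lf (nat_lit 0) (nat_lit 7953299467) (nat_lit 152) (nat_lit 5292474333) (nat_lit 152) (nat_lit 1468017552) (nat_lit 21) (nat_lit 4) (nat_lit 23) (nat_lit 5) (nat_lit 23) (nat_lit 4) (nat_lit 426) (nat_lit 301) (nat_lit 293)) (XT.lf (nat_lit 0) (nat_lit 9089092104) (nat_lit 152) (nat_lit 913746020) (nat_lit 0) (nat_lit 4930254218) (nat_lit 19) (nat_lit 5) (nat_lit 21) (nat_lit 4) (nat_lit 19) (nat_lit 4) (nat_lit 427) (nat_lit 301) (nat_lit 292))) (XT.nd (nat_lit 78) (nat_lit 380) (nat_lit 0) (XT.lf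 (nat_lit 0) (nat_lit 4770746759) (nat_lit 152) (nat_lit 10082623533) (nat_lit 0) (nat_lit 303800751) (nat_lit 15) (nat_lit 5) (nat_lit 17) (nat_lit 4) (nat_lit 15) (nat_lit 4) (nat_lit 428) (nat_lit 301) (nat_lit 291)) (XT.nd (nat_lit 78) (nat_lit 152) (nat_lit 0) (XT.lf (nat_lit 0) (nat_lit 288555143) (nat_lit 228) (nat_lit 4262369438) (nat_lit 76) (nat_lit 10835157562) (nat_lit 12) (nat_lit 5) (nat_lit 15) (nat_lit 5) (nat_lit 13) (nat_lit 4) (nat_lit 429) (nat_lit 301) (nat_lit 290)) (XT.lf (nat_lit 0) (nat_lit 1623350749) (nat_lit 76) (nat_lit 9553392891) (nat_lit 76) (nat_lit 4443062441) (nat_lit 10) (nat_lit 4) (nat_lit 11) (nat_lit 5) (nat_lit 11) (nat_lit 4) (nat_lit 430) (nat_lit 301) (nat_lit 289)))))) (XT.nd (nat_lit 390) (nat_lit 1520) (nat_lit 0) (XT.nd (nat_lit 156) (nat_lit 912) (nat_lit 0) (XT.nd (nat_lit 78) (nat_lit 228) (nat_lit 0) (XT.lf (nat_lit 0) (nat_lit 1570310606) (nat_lit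 228) (nat_lit 2405594421) (nat_lit 228) (nat_lit 2405594421) (nat_lit 58) (nat_lit 4) (nat_lit 61) (nat_lit 5) (nat_lit 61) (nat_lit 4) (nat_lit 416) (nat_lit 302) (nat_lit 302)) (XT.lf (nat_lit 0) (nat_lit 4751073444) (nat_lit 228) (nat_lit 4052468046) (nat_lit 0) (nat_lit 4137519547) (nat_lit 55) (nat_lit 5) (nat_lit 58) (nat_lit 4) (nat_lit 55) (nat_lit 4) (nat_lit 417) (nat_lit 302) (nat_lit 301))) (XT.nd (nat_lit 78) (nat_lit 456) (nat_lit 0) (XT.lf (nat_lit 0) (nat_lit 1397694751) (nat_lit 228) (nat_lit 11513679214) (nat_lit 0) (nat_lit 212167993) (nat_lit 49) (nat_lit 5) (nat_lit 52) (nat_lit 4) (nat_lit 49) (nat_lit 4) (nat_lit 418) (nat_lit 302) (nat_lit 300)) (XT.nd (nat_lit 78) (nat_lit 228) (nat_lit 0) (XT.lf (nat_lit 0) (nat_lit 7360911668) (nat_lit 228) (nat_lit 3850514716) (nat_lit 228) (nat_lit 2097994435) (nat_lit 46) (nat_lit 4) (nat_lit 49) (nat_lit 5) (nat_lit 49) (nat_lit 4)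 (nat_lit 419) (nat_lit 302) (nat_lit 299)) (XT.lf (nat_lit 0) (nat_lit 7716844130) (nat_lit 228) (nat_lit 324001205) (nat_lit 0) (nat_lit 5459001552) (nat_lit 43) (nat_lit 5) (nat_lit 46) (nat_lit 4) (nat_lit 43) (nat_lit 4) (nat_lit 420) (nat_lit 302) (nat_lit 298))))) (XT.nd (nat_lit 156) (nat_lit 912) (nat_lit 0) (XT.nd (nat_lit 78) (nat_lit 228) (nat_lit 0) (XT.lf (nat_lit 0) (nat_lit 4085767609) (nat_lit 228) (nat_lit 8250151286) (nat_lit 0) (nat_lit 1358503859) (nat_lit 38) (nat_lit 5) (nat_lit 41) (nat_lit 4) (nat_lit 38) (nat_lit 4) (nat_lit 421) (nat_lit 302) (nat_lit 297)) (XT.lf (nat_lit 0) (nat_lit 299908210) (nat_lit 228) (nat_lit 2620179839) (nat_lit 76) (nat_lit 10973435394) (nat_lit 35) (nat_lit 5) (nat_lit 38) (nat_lit 5) (nat_lit 36) (nat_lit 4) (nat_lit 422) (nat_lit 302) (nat_lit 296))) (XT.nd (nat_lit 78) (nat_lit 608) (nat_lit 0) (XT.lf (nat_lit 0) (nat_lit 3089738539) (nat_lit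 152) (nat_lit 7322152095) (nat_lit 152) (nat_lit 3684702132) (nat_lit 31) (nat_lit 4) (nat_lit 33) (nat_lit 5) (nat_lit 33) (nat_lit 4) (nat_lit 423) (nat_lit 302) (nat_lit 295)) (XT.nd (nat_lit 78) (nat_lit 380) (nat_lit 0) (XT.lf (nat_lit 0) (nat_lit 6462524399) (nat_lit 228) (nat_lit 5397301303) (nat_lit 0) (nat_lit 2444550104) (nat_lit 28) (nat_lit 5) (nat_lit 31) (nat_lit 4) (nat_lit 28) (nat_lit 4) (nat_lit 424) (nat_lit 302) (nat_lit 294)) (XT.lf (nat_lit 0) (nat_lit 274707638) (nat_lit 152) (nat_lit 2067553858) (nat_lit 228) (nat_lit 12174802450) (nat_lit 23) (nat_lit 5) (nat_lit 25) (nat_lit 5) (nat_lit 26) (nat_lit 4) (nat_lit 425) (nat_lit 302) (nat_lit 293))))))) (XT.nd (nat_lit 52572) (nat_lit 0) (nat_lit 380) (XT.nd (nat_lit 52182) (nat_lit 0) (nat_lit 2888) (XT.nd (nat_lit 156) (nat_lit 608) (nat_lit 0) (XT.nd (nat_lit 78) (nat_lit 152) (nat_lit 0) (XT.lf (nat_lit 0) (nat_lit 6064037751)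 (nat_lit 152) (nat_lit 6728276057) (nat_lit 152) (nat_lit 1941443111) (nat_lit 21) (nat_lit 4) (nat_lit 23) (nat_lit 5) (nat_lit 23) (nat_lit 4) (nat_lit 426) (nat_lit 302) (nat_lit 292)) (XT.lf (nat_lit 0) (nat_lit 8502114246) (nat_lit 152) (nat_lit 3041706638) (nat_lit 0) (nat_lit 3411693727) (nat_lit 19) (nat_lit 5) (nat_lit 21) (nat_lit 4) (nat_lit 19) (nat_lit 4) (nat_lit 427) (nat_lit 302) (nat_lit 291))) (XT.nd (nat_lit 78) (nat_lit 304) (nat_lit 0) (XT.lf (nat_lit 0) (nat_lit 2686448493) (nat_lit 76) (nat_lit 1354511866) (nat_lit 152) (nat_lit 11141279658) (nat_lit 15) (nat_lit 5) (nat_lit 16) (nat_lit 5) (nat_lit 17) (nat_lit 4) (nat_lit 428) (nat_lit 302) (nat_lit 290)) (XT.nd (nat_lit 78) (nat_lit 152) (nat_lit 0) (XT.lf (nat_lit 0) (nat_lit 8504640898) (nat_lit 152) (nat_lit 6322588735) (nat_lit 152) (nat_lit 586389331) (nat_lit 13) (nat_lit 4) (nat_lit 15) (nat_lit 5) (nat_lit 15) (nat_lit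 4) (nat_lit 429) (nat_lit 302) (nat_lit 289)) (XT.lf (nat_lit 0) (nat_lit 10173484066) (nat_lit 152) (nat_lit 1276492576) (nat_lit 0) (nat_lit 4200162519) (nat_lit 11) (nat_lit 5) (nat_lit 13) (nat_lit 4) (nat_lit 11) (nat_lit 4) (nat_lit 430) (nat_lit 302) (nat_lit 288))))) (XT.nd (nat_lit 156) (nat_lit 1140) (nat_lit 0) (XT.nd (nat_lit 78) (nat_lit 228) (nat_lit 0) (XT.lf (nat_lit 0) (nat_lit 1133815868) (nat_lit 228) (nat_lit 3940779051) (nat_lit 0) (nat_lit 1133815868) (nat_lit 67) (nat_lit 5) (nat_lit 70) (nat_lit 4) (nat_lit 67) (nat_lit 4) (nat_lit 414) (nat_lit 303) (nat_lit 303)) (XT.lf (nat_lit 0) (nat_lit 10088513136) (nat_lit 228) (nat_lit 1579061104) (nat_lit 228) (nat_lit 921569385) (nat_lit 64) (nat_lit 4) (nat_lit 67) (nat_lit 5) (nat_lit 67) (nat_lit 4) (nat_lit 415) (nat_lit 303) (nat_lit 302))) (XT.nd (nat_lit 78) (nat_lit 684) (nat_lit 0) (XT.lf (nat_lit 0) (nat_lit 2958869714)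 (nat_lit 228) (nat_lit 5538269645) (nat_lit 228) (nat_lit 4267844945) (nat_lit 58) (nat_lit 4) (nat_lit 61) (nat_lit 5) (nat_lit 61) (nat_lit 4) (nat_lit 416) (nat_lit 303) (nat_lit 301)) (XT.nd (nat_lit 78) (nat_lit 456) (nat_lit 0) (XT.lf (nat_lit 0) (nat_lit 5182635193) (nat_lit 228) (nat_lit 4420996434) (nat_lit 0) (nat_lit 3341437386) (nat_lit 55) (nat_lit 5) (nat_lit 58) (nat_lit 4) (nat_lit 55) (nat_lit 4) (nat_lit 417) (nat_lit 303) (nat_lit 300)) (XT.lf (nat_lit 0) (nat_lit 1043706842) (nat_lit 152) (nat_lit 670767436) (nat_lit 228) (nat_lit 11415123473) (nat_lit 49) (nat_lit 5) (nat_lit 51) (nat_lit 5) (nat_lit 52) (nat_lit 4) (nat_lit 418) (nat_lit 303) (nat_lit 299)))))) (XT.nd (nat_lit 390) (nat_lit 1140) (nat_lit 0) (XT.nd (nat_lit 156) (nat_lit 912) (nat_lit 0) (XT.nd (nat_lit 78) (nat_lit 228) (nat_lit 0) (XT.lf (nat_lit 0) (nat_lit 6604770285) (nat_lit 228) (nat_lit 4817694852) (nat_lit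 228) (nat_lit 1895126290) (nat_lit 46) (nat_lit 4) (nat_lit 49) (nat_lit 5) (nat_lit 49) (nat_lit 4) (nat_lit 419) (nat_lit 303) (nat_lit 298)) (XT.lf (nat_lit 0) (nat_lit 7808578497) (nat_lit 228) (nat_lit 1282233361) (nat_lit 0) (nat_lit 4419348755) (nat_lit 43) (nat_lit 5) (nat_lit 46) (nat_lit 4) (nat_lit 43) (nat_lit 4) (nat_lit 420) (nat_lit 303) (nat_lit 297))) (XT.nd (nat_lit 78) (nat_lit 532) (nat_lit 0) (XT.lf (nat_lit 0) (nat_lit 4048606897) (nat_lit 228) (nat_lit 9431367316) (nat_lit 0) (nat_lit 227101965) (nat_lit 38) (nat_lit 5) (nat_lit 41) (nat_lit 4) (nat_lit 38) (nat_lit 4) (nat_lit 421) (nat_lit 303) (nat_lit 296)) (XT.nd (nat_lit 78) (nat_lit 304) (nat_lit 0) (XT.lf (nat_lit 0) (nat_lit 146161188) (nat_lit 228) (nat_lit 4010463868) (nat_lit 76) (nat_lit 9751650003) (nat_lit 35) (nat_lit 5) (nat_lit 38) (nat_lit 5) (nat_lit 36) (nat_lit 4) (nat_lit 422) (nat_lit 303) (nat_lit 295))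 (XT.lf (nat_lit 0) (nat_lit 1473571890) (nat_lit 152) (nat_lit 8661203732) (nat_lit 152) (nat_lit 3979036121) (nat_lit 31) (nat_lit 4) (nat_lit 33) (nat_lit 5) (nat_lit 33) (nat_lit 4) (nat_lit 423) (nat_lit 303) (nat_lit 294))))) (XT.nd (nat_lit 156) (nat_lit 684) (nat_lit 0) (XT.nd (nat_lit 78) (nat_lit 228) (nat_lit 0) (XT.lf (nat_lit 0) (nat_lit 6056201406) (nat_lit 228) (nat_lit 7240593869) (nat_lit 0) (nat_lit 1027154712) (nat_lit 28) (nat_lit 5) (nat_lit 31) (nat_lit 4) (nat_lit 28) (nat_lit 4) (nat_lit 424) (nat_lit 303) (nat_lit 293)) (XT.lf (nat_lit 0) (nat_lit 1812641048) (nat_lit 228) (nat_lit 1793420796) (nat_lit 76) (nat_lit 10932817769) (nat_lit 25) (nat_lit 5) (nat_lit 28) (nat_lit 5) (nat_lit 26) (nat_lit 4) (nat_lit 425) (nat_lit 303) (nat_lit 292))) (XT.nd (nat_lit 78) (nat_lit 380) (nat_lit 0) (XT.lf (nat_lit 0) (nat_lit 3751580071) (nat_lit 152) (nat_lit 8380003248) (nat_lit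 152) (nat_lit 2626611467) (nat_lit 21) (nat_lit 4) (nat_lit 23) (nat_lit 5) (nat_lit 23) (nat_lit 4) (nat_lit 426) (nat_lit 303) (nat_lit 291)) (XT.nd (nat_lit 78) (nat_lit 228) (nat_lit 0) (XT.lf (nat_lit 0) (nat_lit 7704784871) (nat_lit 152) (nat_lit 5599345742) (nat_lit 0) (nat_lit 1678333778) (nat_lit 19) (nat_lit 5) (nat_lit 21) (nat_lit 4) (nat_lit 19) (nat_lit 4) (nat_lit 427) (nat_lit 303) (nat_lit 290)) (XT.lf (nat_lit 0) (nat_lit 3099160918) (nat_lit 228) (nat_lit 140777993) (nat_lit 76) (nat_lit 11971924539) (nat_lit 16) (nat_lit 5) (nat_lit 19) (nat_lit 5) (nat_lit 17) (nat_lit 4) (nat_lit 428) (nat_lit 303) (nat_lit 289))))))))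
noncomputable def xc2 : XT := (XT.nd (nat_lit 53118) (nat_lit 0) (nat_lit 0) (XT.nd (nat_lit 52338) (nat_lit 0) (nat_lit 380) (XT.nd (nat_lit 51948) (nat_lit 0) (nat_lit 2888) (XT.nd (nat_lit 51792) (nat_lit 0) (nat_lit 4712) (XT.nd (nat_lit 78) (nat_lit 152) (nat_lit 0) (XT.lf (nat_lit 0) (nat_lit 5441018166) (nat_lit 152) (nat_lit 8318451814) (nat_lit 152) (nat_lit 1686291622) (nat_lit 13) (nat_lit 4) (nat_lit 15) (nat_lit 5) (nat_lit 15) (nat_lit 4) (nat_lit 429) (nat_lit 303) (nat_lit 288)) (XT.lf (nat_lit 0) (nat_lit 8960919974) (nat_lit 152) (nat_lit 4604658471) (nat_lit 0) (nat_lit 2119387924) (nat_lit 11) (nat_lit 5) (nat_lit 13) (nat_lit 4) (nat_lit 11) (nat_lit 4) (nat_lit 430) (nat_lit 303) (nat_lit 287))) (XT.nd (nat_lit 78) (nat_lit 228) (nat_lit 0) (XT.lf (nat_lit 0) (nat_lit 2976293138) (nat_lit 228) (nat_lit 1532371817) (nat_lit 228) (nat_lit 1532371817) (nat_lit 76) (nat_lit 4) (nat_lit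 79) (nat_lit 5) (nat_lit 79) (nat_lit 4) (nat_lit 412) (nat_lit 304) (nat_lit 304)) (XT.lf (nat_lit 0) (nat_lit 5995525043) (nat_lit 228) (nat_lit 948210490) (nat_lit 0) (nat_lit 5304764243) (nat_lit 73) (nat_lit 5) (nat_lit 76) (nat_lit 4) (nat_lit 73) (nat_lit 4) (nat_lit 413) (nat_lit 304) (nat_lit 303)))) (XT.nd (nat_lit 156) (nat_lit 1140) (nat_lit 0) (XT.nd (nat_lit 78) (nat_lit 228) (nat_lit 0) (XT.lf (nat_lit 0) (nat_lit 2847361652) (nat_lit 228) (nat_lit 8058756195) (nat_lit 0) (nat_lit 1512653462) (nat_lit 67) (nat_lit 5) (nat_lit 70) (nat_lit 4) (nat_lit 67) (nat_lit 4) (nat_lit 414) (nat_lit 304) (nat_lit 302)) (XT.lf (nat_lit 0) (nat_lit 9734636912) (nat_lit 228) (nat_lit 2415722502) (nat_lit 228) (nat_lit 442672837) (nat_lit 64) (nat_lit 4) (nat_lit 67) (nat_lit 5) (nat_lit 67) (nat_lit 4) (nat_lit 415) (nat_lit 304) (nat_lit 301))) (XT.nd (nat_lit 78) (nat_lit 684) (nat_lit 0) (XT.lf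 (nat_lit 0) (nat_lit 2413456409) (nat_lit 228) (nat_lit 6449722668) (nat_lit 228) (nat_lit 3907763188) (nat_lit 58) (nat_lit 4) (nat_lit 61) (nat_lit 5) (nat_lit 61) (nat_lit 4) (nat_lit 416) (nat_lit 304) (nat_lit 300)) (XT.nd (nat_lit 78) (nat_lit 456) (nat_lit 0) (XT.lf (nat_lit 0) (nat_lit 5432581886) (nat_lit 228) (nat_lit 5158375224) (nat_lit 0) (nat_lit 2362131355) (nat_lit 55) (nat_lit 5) (nat_lit 58) (nat_lit 4) (nat_lit 55) (nat_lit 4) (nat_lit 417) (nat_lit 304) (nat_lit 299)) (XT.lf (nat_lit 0) (nat_lit 99840772) (nat_lit 152) (nat_lit 1747575086) (nat_lit 228) (nat_lit 11292286185) (nat_lit 49) (nat_lit 5) (nat_lit 51) (nat_lit 5) (nat_lit 52) (nat_lit 4) (nat_lit 418) (nat_lit 304) (nat_lit 298)))))) (XT.nd (nat_lit 390) (nat_lit 1292) (nat_lit 0) (XT.nd (nat_lit 156) (nat_lit 760) (nat_lit 0) (XT.nd (nat_lit 78) (nat_lit 228) (nat_lit 0) (XT.lf (nat_lit 0) (nat_lit 5469732399) (nat_lit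 228) (nat_lit 5977647202) (nat_lit 228) (nat_lit 1882476660) (nat_lit 46) (nat_lit 4) (nat_lit 49) (nat_lit 5) (nat_lit 49) (nat_lit 4) (nat_lit 419) (nat_lit 304) (nat_lit 297)) (XT.lf (nat_lit 0) (nat_lit 7711630216) (nat_lit 228) (nat_lit 2624930382) (nat_lit 0) (nat_lit 3188051848) (nat_lit 43) (nat_lit 5) (nat_lit 46) (nat_lit 4) (nat_lit 43) (nat_lit 4) (nat_lit 420) (nat_lit 304) (nat_lit 296))) (XT.nd (nat_lit 78) (nat_lit 380) (nat_lit 0) (XT.lf (nat_lit 0) (nat_lit 2708645708) (nat_lit 152) (nat_lit 1116162561) (nat_lit 228) (nat_lit 9899011397) (nat_lit 38) (nat_lit 5) (nat_lit 40) (nat_lit 5) (nat_lit 41) (nat_lit 4) (nat_lit 421) (nat_lit 304) (nat_lit 295)) (XT.nd (nat_lit 78) (nat_lit 228) (nat_lit 0) (XT.lf (nat_lit 0) (nat_lit 8126862754) (nat_lit 152) (nat_lit 5594790367) (nat_lit 152) (nat_lit 205603582) (nat_lit 36) (nat_lit 4) (nat_lit 38) (nat_lit 5) (nat_lit 38) (nat_lit 4)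 (nat_lit 422) (nat_lit 304) (nat_lit 294)) (XT.lf (nat_lit 0) (nat_lit 9662095048) (nat_lit 228) (nat_lit 542078708) (nat_lit 0) (nat_lit 3931118575) (nat_lit 33) (nat_lit 5) (nat_lit 36) (nat_lit 4) (nat_lit 33) (nat_lit 4) (nat_lit 423) (nat_lit 304) (nat_lit 293))))) (XT.nd (nat_lit 156) (nat_lit 684) (nat_lit 0) (XT.nd (nat_lit 78) (nat_lit 228) (nat_lit 0) (XT.lf (nat_lit 0) (nat_lit 4847119388) (nat_lit 152) (nat_lit 604624701) (nat_lit 228) (nat_lit 8896086198) (nat_lit 28) (nat_lit 5) (nat_lit 30) (nat_lit 5) (nat_lit 31) (nat_lit 4) (nat_lit 424) (nat_lit 304) (nat_lit 292)) (XT.lf (nat_lit 0) (nat_lit 1081108990) (nat_lit 228) (nat_lit 4274177148) (nat_lit 76) (nat_lit 9209784071) (nat_lit 25) (nat_lit 5) (nat_lit 28) (nat_lit 5) (nat_lit 26) (nat_lit 4) (nat_lit 425) (nat_lit 304) (nat_lit 291))) (XT.nd (nat_lit 78) (nat_lit 380) (nat_lit 0) (XT.lf (nat_lit 0) (nat_lit 1013905834) (nat_lit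 152) (nat_lit 10249099162) (nat_lit 152) (nat_lit 3524121310) (nat_lit 21) (nat_lit 4) (nat_lit 23) (nat_lit 5) (nat_lit 23) (nat_lit 4) (nat_lit 426) (nat_lit 304) (nat_lit 290)) (XT.nd (nat_lit 78) (nat_lit 228) (nat_lit 0) (XT.lf (nat_lit 0) (nat_lit 6423246234) (nat_lit 76) (nat_lit 274946182) (nat_lit 152) (nat_lit 8315737113) (nat_lit 19) (nat_lit 5) (nat_lit 20) (nat_lit 5) (nat_lit 21) (nat_lit 4) (nat_lit 427) (nat_lit 304) (nat_lit 289)) (XT.lf (nat_lit 0) (nat_lit 1961908105) (nat_lit 228) (nat_lit 3368413469) (nat_lit 76) (nat_lit 9915398000) (nat_lit 16) (nat_lit 5) (nat_lit 19) (nat_lit 5) (nat_lit 17) (nat_lit 4) (nat_lit 428) (nat_lit 304) (nat_lit 288))))))) (XT.nd (nat_lit 52260) (nat_lit 0) (nat_lit 608) (XT.nd (nat_lit 51870) (nat_lit 0) (nat_lit 3344) (XT.nd (nat_lit 51636) (nat_lit 0) (nat_lit 4940) (XT.nd (nat_lit 78) (nat_lit 152) (nat_lit 0) (XT.lf (nat_lit 0) (nat_lit 1932103913)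 (nat_lit 152) (nat_lit 10542194133) (nat_lit 152) (nat_lit 3008278062) (nat_lit 13) (nat_lit 4) (nat_lit 15) (nat_lit 5) (nat_lit 15) (nat_lit 4) (nat_lit 429) (nat_lit 304) (nat_lit 287)) (XT.lf (nat_lit 0) (nat_lit 7337919975) (nat_lit 76) (nat_lit 190770608) (nat_lit 152) (nat_lit 8195813578) (nat_lit 11) (nat_lit 5) (nat_lit 12) (nat_lit 5) (nat_lit 13) (nat_lit 4) (nat_lit 430) (nat_lit 304) (nat_lit 286))) (XT.nd (nat_lit 78) (nat_lit 760) (nat_lit 0) (XT.lf (nat_lit 0) (nat_lit 1851965263) (nat_lit 304) (nat_lit 2175435077) (nat_lit 0) (nat_lit 1851965263) (nat_lit 86) (nat_lit 5) (nat_lit 90) (nat_lit 4) (nat_lit 86) (nat_lit 4) (nat_lit 410) (nat_lit 305) (nat_lit 305)) (XT.nd (nat_lit 78) (nat_lit 228) (nat_lit 0) (XT.lf (nat_lit 0) (nat_lit 672226343) (nat_lit 228) (nat_lit 27008263) (nat_lit 304) (nat_lit 11220648764) (nat_lit 79) (nat_lit 5) (nat_lit 82) (nat_lit 5) (nat_lit 83) (nat_lit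 4) (nat_lit 411) (nat_lit 305) (nat_lit 304)) (XT.lf (nat_lit 0) (nat_lit 5782525238) (nat_lit 228) (nat_lit 3865865337) (nat_lit 228) (nat_lit 2435576024) (nat_lit 76) (nat_lit 4) (nat_lit 79) (nat_lit 5) (nat_lit 79) (nat_lit 4) (nat_lit 412) (nat_lit 305) (nat_lit 303))))) (XT.nd (nat_lit 156) (nat_lit 912) (nat_lit 0) (XT.nd (nat_lit 78) (nat_lit 456) (nat_lit 0) (XT.lf (nat_lit 0) (nat_lit 6516015543) (nat_lit 228) (nat_lit 1293174530) (nat_lit 0) (nat_lit 4443129565) (nat_lit 73) (nat_lit 5) (nat_lit 76) (nat_lit 4) (nat_lit 73) (nat_lit 4) (nat_lit 413) (nat_lit 305) (nat_lit 302)) (XT.lf (nat_lit 0) (nat_lit 3252349767) (nat_lit 228) (nat_lit 8590505302) (nat_lit 0) (nat_lit 581767137) (nat_lit 67) (nat_lit 5) (nat_lit 70) (nat_lit 4) (nat_lit 67) (nat_lit 4) (nat_lit 414) (nat_lit 305) (nat_lit 301))) (XT.nd (nat_lit 78) (nat_lit 684) (nat_lit 0) (XT.lf (nat_lit 0) (nat_lit 9026575253) (nat_lit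 228) (nat_lit 3432284641) (nat_lit 228) (nat_lit 141953007) (nat_lit 64) (nat_lit 4) (nat_lit 67) (nat_lit 5) (nat_lit 67) (nat_lit 4) (nat_lit 415) (nat_lit 305) (nat_lit 300)) (XT.nd (nat_lit 78) (nat_lit 228) (nat_lit 0) (XT.lf (nat_lit 0) (nat_lit 1503904722) (nat_lit 228) (nat_lit 7546344325) (nat_lit 228) (nat_lit 3730628936) (nat_lit 58) (nat_lit 4) (nat_lit 61) (nat_lit 5) (nat_lit 61) (nat_lit 4) (nat_lit 416) (nat_lit 305) (nat_lit 299)) (XT.lf (nat_lit 0) (nat_lit 5501131923) (nat_lit 228) (nat_lit 6265248729) (nat_lit 0) (nat_lit 1198745751) (nat_lit 55) (nat_lit 5) (nat_lit 58) (nat_lit 4) (nat_lit 55) (nat_lit 4) (nat_lit 417) (nat_lit 305) (nat_lit 298)))))) (XT.nd (nat_lit 390) (nat_lit 1292) (nat_lit 0) (XT.nd (nat_lit 156) (nat_lit 760) (nat_lit 0) (XT.nd (nat_lit 78) (nat_lit 380) (nat_lit 0) (XT.lf (nat_lit 0) (nat_lit 1803168239) (nat_lit 304) (nat_lit 1205121019) (nat_lit 76)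 (nat_lit 10145443756) (nat_lit 51) (nat_lit 5) (nat_lit 55) (nat_lit 5) (nat_lit 52) (nat_lit 4) (nat_lit 418) (nat_lit 305) (nat_lit 297)) (XT.lf (nat_lit 0) (nat_lit 3954806230) (nat_lit 228) (nat_lit 7331385319) (nat_lit 228) (nat_lit 2060034491) (nat_lit 46) (nat_lit 4) (nat_lit 49) (nat_lit 5) (nat_lit 49) (nat_lit 4) (nat_lit 419) (nat_lit 305) (nat_lit 296))) (XT.nd (nat_lit 78) (nat_lit 532) (nat_lit 0) (XT.lf (nat_lit 0) (nat_lit 7425914575) (nat_lit 228) (nat_lit 4353265497) (nat_lit 0) (nat_lit 1764034939) (nat_lit 43) (nat_lit 5) (nat_lit 46) (nat_lit 4) (nat_lit 43) (nat_lit 4) (nat_lit 420) (nat_lit 305) (nat_lit 295)) (XT.nd (nat_lit 78) (nat_lit 152) (nat_lit 0) (XT.lf (nat_lit 0) (nat_lit 746255749) (nat_lit 152) (nat_lit 2663466482) (nat_lit 228) (nat_lit 10335034698) (nat_lit 38) (nat_lit 5) (nat_lit 40) (nat_lit 5) (nat_lit 41) (nat_lit 4) (nat_lit 421) (nat_lit 305) (nat_lit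 294)) (XT.lf (nat_lit 0) (nat_lit 5958020089) (nat_lit 152) (nat_lit 7234909859) (nat_lit 152) (nat_lit 757536760) (nat_lit 36) (nat_lit 4) (nat_lit 38) (nat_lit 5) (nat_lit 38) (nat_lit 4) (nat_lit 422) (nat_lit 305) (nat_lit 293))))) (XT.nd (nat_lit 156) (nat_lit 684) (nat_lit 0) (XT.nd (nat_lit 78) (nat_lit 380) (nat_lit 0) (XT.lf (nat_lit 0) (nat_lit 9002085835) (nat_lit 228) (nat_lit 2941501615) (nat_lit 0) (nat_lit 2217292851) (nat_lit 33) (nat_lit 5) (nat_lit 36) (nat_lit 4) (nat_lit 33) (nat_lit 4) (nat_lit 423) (nat_lit 305) (nat_lit 292)) (XT.lf (nat_lit 0) (nat_lit 2192130264) (nat_lit 152) (nat_lit 2460690146) (nat_lit 228) (nat_lit 9723133239) (nat_lit 28) (nat_lit 5) (nat_lit 30) (nat_lit 5) (nat_lit 31) (nat_lit 4) (nat_lit 424) (nat_lit 305) (nat_lit 291))) (XT.nd (nat_lit 78) (nat_lit 456) (nat_lit 0) (XT.lf (nat_lit 0) (nat_lit 145242535) (nat_lit 228) (nat_lit 7173331908) (nat_lit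 76) (nat_lit 7277119847) (nat_lit 25) (nat_lit 5) (nat_lit 28) (nat_lit 5) (nat_lit 26) (nat_lit 4) (nat_lit 425) (nat_lit 305) (nat_lit 290)) (XT.nd (nat_lit 78) (nat_lit 304) (nat_lit 0) (XT.lf (nat_lit 0) (nat_lit 10199788055) (nat_lit 228) (nat_lit 2123161404) (nat_lit 0) (nat_lit 2497347939) (nat_lit 23) (nat_lit 5) (nat_lit 26) (nat_lit 4) (nat_lit 23) (nat_lit 4) (nat_lit 426) (nat_lit 305) (nat_lit 289)) (XT.lf (nat_lit 0) (nat_lit 3020701340) (nat_lit 76) (nat_lit 2471445297) (nat_lit 152) (nat_lit 9557577095) (nat_lit 19) (nat_lit 5) (nat_lit 20) (nat_lit 5) (nat_lit 21) (nat_lit 4) (nat_lit 427) (nat_lit 305) (nat_lit 288))))))))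
noncomputable def xc3 : XT := (XT.nd (nat_lit 52806) (nat_lit 0) (nat_lit 76) (XT.nd (nat_lit 52026) (nat_lit 0) (nat_lit 1672) (XT.nd (nat_lit 51636) (nat_lit 0) (nat_lit 4712) (XT.nd (nat_lit 156) (nat_lit 304) (nat_lit 0) (XT.nd (nat_lit 78) (nat_lit 76) (nat_lit 0) (XT.lf (nat_lit 0) (nat_lit 610766000) (nat_lit 228) (nat_lit 7034511452) (nat_lit 76) (nat_lit 7638909364) (nat_lit 16) (nat_lit 5) (nat_lit 19) (nat_lit 5) (nat_lit 17) (nat_lit 4) (nat_lit 428) (nat_lit 305) (nat_lit 287)) (XT.lf (nat_lit 0) (nat_lit 10983739601) (nat_lit 152) (nat_lit 1998607460) (nat_lit 0) (nat_lit 2541484616) (nat_lit 15) (nat_lit 5) (nat_lit 17) (nat_lit 4) (nat_lit 15) (nat_lit 4) (nat_lit 429) (nat_lit 305) (nat_lit 286))) (XT.nd (nat_lit 51402) (nat_lit 0) (nat_lit 6536) (XT.lf (nat_lit 0) (nat_lit 3128719015) (nat_lit 76) (nat_lit 2761034974) (nat_lit 152) (nat_lit 9878748903) (nat_lit 11) (nat_lit 5) (nat_lit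 12) (nat_lit 5) (nat_lit 13) (nat_lit 4) (nat_lit 430) (nat_lit 305) (nat_lit 285)) (XT.lf (nat_lit 0) (nat_lit 4457700456) (nat_lit 228) (nat_lit 632840190) (nat_lit 228) (nat_lit 632840190) (nat_lit 97) (nat_lit 4) (nat_lit 100) (nat_lit 5) (nat_lit 100) (nat_lit 4) (nat_lit 408) (nat_lit 306) (nat_lit 306)))) (XT.nd (nat_lit 156) (nat_lit 988) (nat_lit 0) (XT.nd (nat_lit 78) (nat_lit 304) (nat_lit 0) (XT.lf (nat_lit 0) (nat_lit 2304727881) (nat_lit 228) (nat_lit 5037348074) (nat_lit 228) (nat_lit 4259664997) (nat_lit 90) (nat_lit 4) (nat_lit 93) (nat_lit 5) (nat_lit 93) (nat_lit 4) (nat_lit 409) (nat_lit 306) (nat_lit 305)) (XT.lf (nat_lit 0) (nat_lit 4373327438) (nat_lit 304) (nat_lit 4516599031) (nat_lit 0) (nat_lit 2870665487) (nat_lit 86) (nat_lit 5) (nat_lit 90) (nat_lit 4) (nat_lit 86) (nat_lit 4) (nat_lit 410) (nat_lit 306) (nat_lit 304))) (XT.nd (nat_lit 78) (nat_lit 456) (nat_lit 0) (XT.lf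 (nat_lit 0) (nat_lit 329325752) (nat_lit 228) (nat_lit 933374861) (nat_lit 304) (nat_lit 10660863131) (nat_lit 79) (nat_lit 5) (nat_lit 82) (nat_lit 5) (nat_lit 83) (nat_lit 4) (nat_lit 411) (nat_lit 306) (nat_lit 303)) (XT.nd (nat_lit 78) (nat_lit 228) (nat_lit 0) (XT.lf (nat_lit 0) (nat_lit 5272193530) (nat_lit 228) (nat_lit 4839641137) (nat_lit 228) (nat_lit 1977812744) (nat_lit 76) (nat_lit 4) (nat_lit 79) (nat_lit 5) (nat_lit 79) (nat_lit 4) (nat_lit 412) (nat_lit 306) (nat_lit 302)) (XT.lf (nat_lit 0) (nat_lit 6866690540) (nat_lit 228) (nat_lit 1983404036) (nat_lit 0) (nat_lit 3409868126) (nat_lit 73) (nat_lit 5) (nat_lit 76) (nat_lit 4) (nat_lit 73) (nat_lit 4) (nat_lit 413) (nat_lit 306) (nat_lit 301)))))) (XT.nd (nat_lit 390) (nat_lit 1368) (nat_lit 0) (XT.nd (nat_lit 156) (nat_lit 988) (nat_lit 0) (XT.nd (nat_lit 78) (nat_lit 228) (nat_lit 0) (XT.lf (nat_lit 0) (nat_lit 2953580654) (nat_lit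 152) (nat_lit 532828778) (nat_lit 228) (nat_lit 8947900760) (nat_lit 67) (nat_lit 5) (nat_lit 69) (nat_lit 5) (nat_lit 70) (nat_lit 4) (nat_lit 414) (nat_lit 306) (nat_lit 300)) (XT.lf (nat_lit 0) (nat_lit 7963709463) (nat_lit 228) (nat_lit 4629635780) (nat_lit 228) (nat_lit 19147130) (nat_lit 64) (nat_lit 4) (nat_lit 67) (nat_lit 5) (nat_lit 67) (nat_lit 4) (nat_lit 415) (nat_lit 306) (nat_lit 299))) (XT.nd (nat_lit 78) (nat_lit 532) (nat_lit 0) (XT.lf (nat_lit 0) (nat_lit 229419899) (nat_lit 228) (nat_lit 8829092830) (nat_lit 228) (nat_lit 3736287411) (nat_lit 58) (nat_lit 4) (nat_lit 61) (nat_lit 5) (nat_lit 61) (nat_lit 4) (nat_lit 416) (nat_lit 306) (nat_lit 298)) (XT.nd (nat_lit 78) (nat_lit 304) (nat_lit 0) (XT.lf (nat_lit 0) (nat_lit 5237604417) (nat_lit 152) (nat_lit 151725889) (nat_lit 228) (nat_lit 7591843335) (nat_lit 55) (nat_lit 5) (nat_lit 57) (nat_lit 5) (nat_lit 58) (nat_lit 4) (nat_lit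 417) (nat_lit 306) (nat_lit 297)) (XT.lf (nat_lit 0) (nat_lit 1576861584) (nat_lit 304) (nat_lit 2882077761) (nat_lit 76) (nat_lit 8712860200) (nat_lit 51) (nat_lit 5) (nat_lit 55) (nat_lit 5) (nat_lit 52) (nat_lit 4) (nat_lit 418) (nat_lit 306) (nat_lit 296))))) (XT.nd (nat_lit 156) (nat_lit 760) (nat_lit 0) (XT.nd (nat_lit 78) (nat_lit 228) (nat_lit 0) (XT.lf (nat_lit 0) (nat_lit 2058668057) (nat_lit 228) (nat_lit 8880092079) (nat_lit 228) (nat_lit 2427954931) (nat_lit 46) (nat_lit 4) (nat_lit 49) (nat_lit 5) (nat_lit 49) (nat_lit 4) (nat_lit 419) (nat_lit 306) (nat_lit 295)) (XT.lf (nat_lit 0) (nat_lit 6951181920) (nat_lit 228) (nat_lit 6468748903) (nat_lit 0) (nat_lit 146053742) (nat_lit 43) (nat_lit 5) (nat_lit 46) (nat_lit 4) (nat_lit 43) (nat_lit 4) (nat_lit 420) (nat_lit 306) (nat_lit 294))) (XT.nd (nat_lit 78) (nat_lit 532) (nat_lit 0) (XT.lf (nat_lit 0) (nat_lit 2811955907) (nat_lit 228)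 (nat_lit 1590514646) (nat_lit 76) (nat_lit 9367256311) (nat_lit 40) (nat_lit 5) (nat_lit 43) (nat_lit 5) (nat_lit 41) (nat_lit 4) (nat_lit 421) (nat_lit 306) (nat_lit 293)) (XT.nd (nat_lit 78) (nat_lit 228) (nat_lit 0) (XT.lf (nat_lit 0) (nat_lit 3390368910) (nat_lit 152) (nat_lit 9079397466) (nat_lit 152) (nat_lit 1508178212) (nat_lit 36) (nat_lit 4) (nat_lit 38) (nat_lit 5) (nat_lit 38) (nat_lit 4) (nat_lit 422) (nat_lit 306) (nat_lit 292)) (XT.lf (nat_lit 0) (nat_lit 8144603872) (nat_lit 228) (nat_lit 5746119572) (nat_lit 0) (nat_lit 300065916) (nat_lit 33) (nat_lit 5) (nat_lit 36) (nat_lit 4) (nat_lit 33) (nat_lit 4) (nat_lit 423) (nat_lit 306) (nat_lit 291))))))) (XT.nd (nat_lit 51948) (nat_lit 0) (nat_lit 2964) (XT.nd (nat_lit 390) (nat_lit 380) (nat_lit 0) (XT.nd (nat_lit 156) (nat_lit 684) (nat_lit 0) (XT.nd (nat_lit 78) (nat_lit 304) (nat_lit 0) (XT.lf (nat_lit 0) (nat_lit 3657668999) (nat_lit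 228) (nat_lit 865535878) (nat_lit 76) (nat_lit 9885161036) (nat_lit 30) (nat_lit 5) (nat_lit 33) (nat_lit 5) (nat_lit 31) (nat_lit 4) (nat_lit 424) (nat_lit 306) (nat_lit 290)) (XT.lf (nat_lit 0) (nat_lit 4130678118) (nat_lit 152) (nat_lit 9490960075) (nat_lit 152) (nat_lit 1009009402) (nat_lit 26) (nat_lit 4) (nat_lit 28) (nat_lit 5) (nat_lit 28) (nat_lit 4) (nat_lit 425) (nat_lit 306) (nat_lit 289))) (XT.nd (nat_lit 78) (nat_lit 456) (nat_lit 0) (XT.lf (nat_lit 0) (nat_lit 8936400325) (nat_lit 228) (nat_lit 5671661128) (nat_lit 0) (nat_lit 249767656) (nat_lit 23) (nat_lit 5) (nat_lit 26) (nat_lit 4) (nat_lit 23) (nat_lit 4) (nat_lit 426) (nat_lit 306) (nat_lit 288)) (XT.nd (nat_lit 78) (nat_lit 228) (nat_lit 0) (XT.lf (nat_lit 0) (nat_lit 4079851525) (nat_lit 228) (nat_lit 805521666) (nat_lit 76) (nat_lit 10204619929) (nat_lit 20) (nat_lit 5) (nat_lit 23) (nat_lit 5) (nat_lit 21) (nat_lit 4) (nat_lit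 427) (nat_lit 306) (nat_lit 287)) (XT.lf (nat_lit 0) (nat_lit 4178611914) (nat_lit 152) (nat_lit 10180417778) (nat_lit 152) (nat_lit 968143380) (nat_lit 17) (nat_lit 4) (nat_lit 19) (nat_lit 5) (nat_lit 19) (nat_lit 4) (nat_lit 428) (nat_lit 306) (nat_lit 286))))) (XT.nd (nat_lit 51324) (nat_lit 0) (nat_lit 6460) (XT.nd (nat_lit 78) (nat_lit 228) (nat_lit 0) (XT.lf (nat_lit 0) (nat_lit 9219185220) (nat_lit 76) (nat_lit 70079759) (nat_lit 152) (nat_lit 6280243922) (nat_lit 15) (nat_lit 5) (nat_lit 16) (nat_lit 5) (nat_lit 17) (nat_lit 4) (nat_lit 429) (nat_lit 306) (nat_lit 285)) (XT.lf (nat_lit 0) (nat_lit 4038712377) (nat_lit 228) (nat_lit 1516595952) (nat_lit 76) (nat_lit 10261771994) (nat_lit 12) (nat_lit 5) (nat_lit 15) (nat_lit 5) (nat_lit 13) (nat_lit 4) (nat_lit 430) (nat_lit 306) (nat_lit 284))) (XT.nd (nat_lit 78) (nat_lit 836) (nat_lit 0) (XT.lf (nat_lit 0) (nat_lit 2611905036) (nat_lit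 304) (nat_lit 348849795) (nat_lit 0) (nat_lit 2611905036) (nat_lit 108) (nat_lit 5) (nat_lit 112) (nat_lit 4) (nat_lit 108) (nat_lit 4) (nat_lit 406) (nat_lit 307) (nat_lit 307)) (XT.nd (nat_lit 78) (nat_lit 228) (nat_lit 0) (XT.lf (nat_lit 0) (nat_lit 2407845020) (nat_lit 304) (nat_lit 7296444058) (nat_lit 0) (nat_lit 1590811180) (nat_lit 100) (nat_lit 5) (nat_lit 104) (nat_lit 4) (nat_lit 100) (nat_lit 4) (nat_lit 407) (nat_lit 307) (nat_lit 306)) (XT.lf (nat_lit 0) (nat_lit 8756498546) (nat_lit 228) (nat_lit 2151171306) (nat_lit 228) (nat_lit 540900727) (nat_lit 97) (nat_lit 4) (nat_lit 100) (nat_lit 5) (nat_lit 100) (nat_lit 4) (nat_lit 408) (nat_lit 307) (nat_lit 305)))))) (XT.nd (nat_lit 390) (nat_lit 1672) (nat_lit 0) (XT.nd (nat_lit 156) (nat_lit 988) (nat_lit 0) (XT.nd (nat_lit 78) (nat_lit 304) (nat_lit 0) (XT.lf (nat_lit 0) (nat_lit 1977954725) (nat_lit 228) (nat_lit 5980602814) (nat_lit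 228) (nat_lit 3646874053) (nat_lit 90) (nat_lit 4) (nat_lit 93) (nat_lit 5) (nat_lit 93) (nat_lit 4) (nat_lit 409) (nat_lit 307) (nat_lit 304)) (XT.lf (nat_lit 0) (nat_lit 4879441134) (nat_lit 304) (nat_lit 5013930471) (nat_lit 0) (nat_lit 1872804225) (nat_lit 86) (nat_lit 5) (nat_lit 90) (nat_lit 4) (nat_lit 86) (nat_lit 4) (nat_lit 410) (nat_lit 307) (nat_lit 303))) (XT.nd (nat_lit 78) (nat_lit 684) (nat_lit 0) (XT.lf (nat_lit 0) (nat_lit 1661922052) (nat_lit 304) (nat_lit 347289835) (nat_lit 76) (nat_lit 9921765613) (nat_lit 82) (nat_lit 5) (nat_lit 86) (nat_lit 5) (nat_lit 83) (nat_lit 4) (nat_lit 411) (nat_lit 307) (nat_lit 302)) (XT.nd (nat_lit 78) (nat_lit 228) (nat_lit 0) (XT.lf (nat_lit 0) (nat_lit 4421145228) (nat_lit 228) (nat_lit 5986921908) (nat_lit 228) (nat_lit 1691053809) (nat_lit 76) (nat_lit 4) (nat_lit 79) (nat_lit 5) (nat_lit 79) (nat_lit 4) (nat_lit 412) (nat_lit 307) (nat_lit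 301)) (XT.lf (nat_lit 0) (nat_lit 7047856450) (nat_lit 228) (nat_lit 3019502120) (nat_lit 0) (nat_lit 2204077074) (nat_lit 73) (nat_lit 5) (nat_lit 76) (nat_lit 4) (nat_lit 73) (nat_lit 4) (nat_lit 413) (nat_lit 307) (nat_lit 300))))) (XT.nd (nat_lit 156) (nat_lit 988) (nat_lit 0) (XT.nd (nat_lit 78) (nat_lit 228) (nat_lit 0) (XT.lf (nat_lit 0) (nat_lit 1716072361) (nat_lit 152) (nat_lit 1835206728) (nat_lit 228) (nat_lit 8896533964) (nat_lit 67) (nat_lit 5) (nat_lit 69) (nat_lit 5) (nat_lit 70) (nat_lit 4) (nat_lit 414) (nat_lit 307) (nat_lit 299)) (XT.lf (nat_lit 0) (nat_lit 6545110825) (nat_lit 228) (nat_lit 6008822149) (nat_lit 228) (nat_lit 74147899) (nat_lit 64) (nat_lit 4) (nat_lit 67) (nat_lit 5) (nat_lit 67) (nat_lit 4) (nat_lit 415) (nat_lit 307) (nat_lit 298))) (XT.nd (nat_lit 78) (nat_lit 760) (nat_lit 0) (XT.lf (nat_lit 0) (nat_lit 8897139216) (nat_lit 228) (nat_lit 1392604704) (nat_lit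 0) (nat_lit 2522793743) (nat_lit 61) (nat_lit 5) (nat_lit 64) (nat_lit 4) (nat_lit 61) (nat_lit 4) (nat_lit 416) (nat_lit 307) (nat_lit 297)) (XT.nd (nat_lit 78) (nat_lit 304) (nat_lit 0) (XT.lf (nat_lit 0) (nat_lit 3398327227) (nat_lit 152) (nat_lit 1706878129) (nat_lit 228) (nat_lit 7895876327) (nat_lit 55) (nat_lit 5) (nat_lit 57) (nat_lit 5) (nat_lit 58) (nat_lit 4) (nat_lit 417) (nat_lit 307) (nat_lit 296)) (XT.lf (nat_lit 0) (nat_lit 1167649917) (nat_lit 304) (nat_lit 4933804184) (nat_lit 76) (nat_lit 7092476288) (nat_lit 51) (nat_lit 5) (nat_lit 55) (nat_lit 5) (nat_lit 52) (nat_lit 4) (nat_lit 418) (nat_lit 307) (nat_lit 295))))))))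
noncomputable def xc4 : XT := (XT.nd (nat_lit 52494) (nat_lit 0) (nat_lit 76) (XT.nd (nat_lit 702) (nat_lit 608) (nat_lit 0) (XT.nd (nat_lit 312) (nat_lit 1216) (nat_lit 0) (XT.nd (nat_lit 156) (nat_lit 532) (nat_lit 0) (XT.nd (nat_lit 78) (nat_lit 456) (nat_lit 0) (XT.lf (nat_lit 0) (nat_lit 10406212367) (nat_lit 228) (nat_lit 217449156) (nat_lit 0) (nat_lit 2767651110) (nat_lit 49) (nat_lit 5) (nat_lit 52) (nat_lit 4) (nat_lit 49) (nat_lit 4) (nat_lit 419) (nat_lit 307) (nat_lit 294)) (XT.lf (nat_lit 0) (nat_lit 4608523425) (nat_lit 152) (nat_lit 1689463125) (nat_lit 228) (nat_lit 7294735070) (nat_lit 43) (nat_lit 5) (nat_lit 45) (nat_lit 5) (nat_lit 46) (nat_lit 4) (nat_lit 420) (nat_lit 307) (nat_lit 293))) (XT.nd (nat_lit 78) (nat_lit 304) (nat_lit 0) (XT.lf (nat_lit 0) (nat_lit 2027940445) (nat_lit 228) (nat_lit 4309861307) (nat_lit 76) (nat_lit 7461010468) (nat_lit 40) (nat_lit 5) (nat_lit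 43) (nat_lit 5) (nat_lit 41) (nat_lit 4) (nat_lit 421) (nat_lit 307) (nat_lit 292)) (XT.lf (nat_lit 0) (nat_lit 421665637) (nat_lit 152) (nat_lit 11129864876) (nat_lit 152) (nat_lit 2458183839) (nat_lit 36) (nat_lit 4) (nat_lit 38) (nat_lit 5) (nat_lit 38) (nat_lit 4) (nat_lit 422) (nat_lit 307) (nat_lit 291)))) (XT.nd (nat_lit 156) (nat_lit 760) (nat_lit 0) (XT.nd (nat_lit 78) (nat_lit 228) (nat_lit 0) (XT.lf (nat_lit 0) (nat_lit 5254434254) (nat_lit 152) (nat_lit 1846454052) (nat_lit 228) (nat_lit 7123917568) (nat_lit 33) (nat_lit 5) (nat_lit 35) (nat_lit 5) (nat_lit 36) (nat_lit 4) (nat_lit 423) (nat_lit 307) (nat_lit 290)) (XT.lf (nat_lit 0) (nat_lit 2476660319) (nat_lit 228) (nat_lit 4305845961) (nat_lit 76) (nat_lit 7662364318) (nat_lit 30) (nat_lit 5) (nat_lit 33) (nat_lit 5) (nat_lit 31) (nat_lit 4) (nat_lit 424) (nat_lit 307) (nat_lit 289))) (XT.nd (nat_lit 78) (nat_lit 456) (nat_lit 0)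 (XT.lf (nat_lit 0) (nat_lit 417294036) (nat_lit 152) (nat_lit 11878671230) (nat_lit 152) (nat_lit 2374080300) (nat_lit 26) (nat_lit 4) (nat_lit 28) (nat_lit 5) (nat_lit 28) (nat_lit 4) (nat_lit 425) (nat_lit 307) (nat_lit 288)) (XT.nd (nat_lit 78) (nat_lit 228) (nat_lit 0) (XT.lf (nat_lit 0) (nat_lit 5237042224) (nat_lit 152) (nat_lit 2242673625) (nat_lit 228) (nat_lit 7419878825) (nat_lit 23) (nat_lit 5) (nat_lit 25) (nat_lit 5) (nat_lit 26) (nat_lit 4) (nat_lit 426) (nat_lit 307) (nat_lit 287)) (XT.lf (nat_lit 0) (nat_lit 2477223386) (nat_lit 228) (nat_lit 5024122378) (nat_lit 76) (nat_lit 7633084111) (nat_lit 20) (nat_lit 5) (nat_lit 23) (nat_lit 5) (nat_lit 21) (nat_lit 4) (nat_lit 427) (nat_lit 307) (nat_lit 286)))))) (XT.nd (nat_lit 51402) (nat_lit 0) (nat_lit 5624) (XT.nd (nat_lit 156) (nat_lit 228) (nat_lit 0) (XT.nd (nat_lit 78) (nat_lit 304) (nat_lit 0) (XT.lf (nat_lit 0) (nat_lit 12602446831)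 (nat_lit 152) (nat_lit 334134839) (nat_lit 0) (nat_lit 2438107250) (nat_lit 19) (nat_lit 5) (nat_lit 21) (nat_lit 4) (nat_lit 19) (nat_lit 4) (nat_lit 428) (nat_lit 307) (nat_lit 285)) (XT.lf (nat_lit 0) (nat_lit 4449600856) (nat_lit 76) (nat_lit 2945003724) (nat_lit 152) (nat_lit 8224938892) (nat_lit 15) (nat_lit 5) (nat_lit 16) (nat_lit 5) (nat_lit 17) (nat_lit 4) (nat_lit 429) (nat_lit 307) (nat_lit 284))) (XT.nd (nat_lit 51090) (nat_lit 0) (nat_lit 7600) (XT.lf (nat_lit 0) (nat_lit 1987264594) (nat_lit 228) (nat_lit 6575185090) (nat_lit 76) (nat_lit 7307562893) (nat_lit 12) (nat_lit 5) (nat_lit 15) (nat_lit 5) (nat_lit 13) (nat_lit 4) (nat_lit 430) (nat_lit 307) (nat_lit 283)) (XT.nd (nat_lit 78) (nat_lit 304) (nat_lit 0) (XT.lf (nat_lit 0) (nat_lit 304035826) (nat_lit 304) (nat_lit 4819402251) (nat_lit 0) (nat_lit 304035826) (nat_lit 116) (nat_lit 5) (nat_lit 120) (nat_lit 4) (nat_lit 116) (nat_lit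 4) (nat_lit 404) (nat_lit 308) (nat_lit 308)) (XT.lf (nat_lit 0) (nat_lit 5725012784) (nat_lit 304) (nat_lit 3074810175) (nat_lit 304) (nat_lit 2199266906) (nat_lit 112) (nat_lit 4) (nat_lit 116) (nat_lit 5) (nat_lit 116) (nat_lit 4) (nat_lit 405) (nat_lit 308) (nat_lit 307))))) (XT.nd (nat_lit 156) (nat_lit 1064) (nat_lit 0) (XT.nd (nat_lit 78) (nat_lit 608) (nat_lit 0) (XT.lf (nat_lit 0) (nat_lit 5993188548) (nat_lit 304) (nat_lit 852472857) (nat_lit 0) (nat_lit 4301438278) (nat_lit 108) (nat_lit 5) (nat_lit 112) (nat_lit 4) (nat_lit 108) (nat_lit 4) (nat_lit 406) (nat_lit 308) (nat_lit 306)) (XT.lf (nat_lit 0) (nat_lit 3067880305) (nat_lit 304) (nat_lit 7614785275) (nat_lit 0) (nat_lit 616064870) (nat_lit 100) (nat_lit 5) (nat_lit 104) (nat_lit 4) (nat_lit 100) (nat_lit 4) (nat_lit 407) (nat_lit 308) (nat_lit 305))) (XT.nd (nat_lit 78) (nat_lit 760) (nat_lit 0) (XT.lf (nat_lit 0) (nat_lit 23488803)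 (nat_lit 304) (nat_lit 3174500808) (nat_lit 76) (nat_lit 8256006175) (nat_lit 96) (nat_lit 5) (nat_lit 100) (nat_lit 5) (nat_lit 97) (nat_lit 4) (nat_lit 408) (nat_lit 308) (nat_lit 304)) (XT.nd (nat_lit 78) (nat_lit 304) (nat_lit 0) (XT.lf (nat_lit 0) (nat_lit 1324122884) (nat_lit 228) (nat_lit 7090253418) (nat_lit 228) (nat_lit 3198439794) (nat_lit 90) (nat_lit 4) (nat_lit 93) (nat_lit 5) (nat_lit 93) (nat_lit 4) (nat_lit 409) (nat_lit 308) (nat_lit 303)) (XT.lf (nat_lit 0) (nat_lit 5222713848) (nat_lit 304) (nat_lit 5843299038) (nat_lit 0) (nat_lit 709474823) (nat_lit 86) (nat_lit 5) (nat_lit 90) (nat_lit 4) (nat_lit 86) (nat_lit 4) (nat_lit 410) (nat_lit 308) (nat_lit 302))))))) (XT.nd (nat_lit 780) (nat_lit 2280) (nat_lit 0) (XT.nd (nat_lit 390) (nat_lit 1596) (nat_lit 0) (XT.nd (nat_lit 156) (nat_lit 912) (nat_lit 0) (XT.nd (nat_lit 78) (nat_lit 456) (nat_lit 0) (XT.lf (nat_lit 0) (nat_lit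 1899299689) (nat_lit 304) (nat_lit 1354066731) (nat_lit 76) (nat_lit 8688723657) (nat_lit 82) (nat_lit 5) (nat_lit 86) (nat_lit 5) (nat_lit 83) (nat_lit 4) (nat_lit 411) (nat_lit 308) (nat_lit 301)) (XT.lf (nat_lit 0) (nat_lit 3228636700) (nat_lit 228) (nat_lit 7308710130) (nat_lit 228) (nat_lit 1575048653) (nat_lit 76) (nat_lit 4) (nat_lit 79) (nat_lit 5) (nat_lit 79) (nat_lit 4) (nat_lit 412) (nat_lit 308) (nat_lit 300))) (XT.nd (nat_lit 78) (nat_lit 684) (nat_lit 0) (XT.lf (nat_lit 0) (nat_lit 7059671572) (nat_lit 228) (nat_lit 4402374110) (nat_lit 0) (nat_lit 824702806) (nat_lit 73) (nat_lit 5) (nat_lit 76) (nat_lit 4) (nat_lit 73) (nat_lit 4) (nat_lit 413) (nat_lit 308) (nat_lit 299)) (XT.nd (nat_lit 78) (nat_lit 228) (nat_lit 0) (XT.lf (nat_lit 0) (nat_lit 124414672) (nat_lit 152) (nat_lit 3318773333) (nat_lit 228) (nat_lit 9022031132) (nat_lit 67) (nat_lit 5) (nat_lit 69) (nat_lit 5) (nat_lit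 70) (nat_lit 4) (nat_lit 414) (nat_lit 308) (nat_lit 298)) (XT.lf (nat_lit 0) (nat_lit 4769539786) (nat_lit 228) (nat_lit 7571048860) (nat_lit 228) (nat_lit 307003375) (nat_lit 64) (nat_lit 4) (nat_lit 67) (nat_lit 5) (nat_lit 67) (nat_lit 4) (nat_lit 415) (nat_lit 308) (nat_lit 297))))) (XT.nd (nat_lit 156) (nat_lit 912) (nat_lit 0) (XT.nd (nat_lit 78) (nat_lit 456) (nat_lit 0) (XT.lf (nat_lit 0) (nat_lit 8560693095) (nat_lit 228) (nat_lit 3374281092) (nat_lit 0) (nat_lit 899237753) (nat_lit 61) (nat_lit 5) (nat_lit 64) (nat_lit 4) (nat_lit 61) (nat_lit 4) (nat_lit 416) (nat_lit 308) (nat_lit 296)) (XT.lf (nat_lit 0) (nat_lit 1188483184) (nat_lit 152) (nat_lit 3452139137) (nat_lit 228) (nat_lit 8384403331) (nat_lit 55) (nat_lit 5) (nat_lit 57) (nat_lit 5) (nat_lit 58) (nat_lit 4) (nat_lit 417) (nat_lit 308) (nat_lit 295))) (XT.nd (nat_lit 78) (nat_lit 608) (nat_lit 0) (XT.lf (nat_lit 0) (nat_lit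 575175674) (nat_lit 304) (nat_lit 7362093060) (nat_lit 76) (nat_lit 5282876148) (nat_lit 51) (nat_lit 5) (nat_lit 55) (nat_lit 5) (nat_lit 52) (nat_lit 4) (nat_lit 418) (nat_lit 308) (nat_lit 294)) (XT.nd (nat_lit 78) (nat_lit 456) (nat_lit 0) (XT.lf (nat_lit 0) (nat_lit 9702516080) (nat_lit 228) (nat_lit 2846379246) (nat_lit 0) (nat_lit 870856241) (nat_lit 49) (nat_lit 5) (nat_lit 52) (nat_lit 4) (nat_lit 49) (nat_lit 4) (nat_lit 419) (nat_lit 308) (nat_lit 293)) (XT.lf (nat_lit 0) (nat_lit 1730534655) (nat_lit 152) (nat_lit 3726501045) (nat_lit 228) (nat_lit 8166588279) (nat_lit 43) (nat_lit 5) (nat_lit 45) (nat_lit 5) (nat_lit 46) (nat_lit 4) (nat_lit 420) (nat_lit 308) (nat_lit 292)))))) (XT.nd (nat_lit 390) (nat_lit 1140) (nat_lit 0) (XT.nd (nat_lit 156) (nat_lit 760) (nat_lit 0) (XT.nd (nat_lit 78) (nat_lit 152) (nat_lit 0) (XT.lf (nat_lit 0) (nat_lit 1052145598) (nat_lit 228) (nat_lit 7423947638)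 (nat_lit 76) (nat_lit 5356042079) (nat_lit 40) (nat_lit 5) (nat_lit 43) (nat_lit 5) (nat_lit 41) (nat_lit 4) (nat_lit 421) (nat_lit 308) (nat_lit 291)) (XT.lf (nat_lit 0) (nat_lit 10456577815) (nat_lit 228) (nat_lit 2911984991) (nat_lit 0) (nat_lit 676857798) (nat_lit 38) (nat_lit 5) (nat_lit 41) (nat_lit 4) (nat_lit 38) (nat_lit 4) (nat_lit 422) (nat_lit 308) (nat_lit 290))) (XT.nd (nat_lit 78) (nat_lit 380) (nat_lit 0) (XT.lf (nat_lit 0) (nat_lit 1654721139) (nat_lit 152) (nat_lit 4206642639) (nat_lit 228) (nat_lit 8401769054) (nat_lit 33) (nat_lit 5) (nat_lit 35) (nat_lit 5) (nat_lit 36) (nat_lit 4) (nat_lit 423) (nat_lit 308) (nat_lit 289)) (XT.nd (nat_lit 78) (nat_lit 152) (nat_lit 0) (XT.lf (nat_lit 0) (nat_lit 1094529657) (nat_lit 228) (nat_lit 8160556264) (nat_lit 76) (nat_lit 5230698339) (nat_lit 30) (nat_lit 5) (nat_lit 33) (nat_lit 5) (nat_lit 31) (nat_lit 4) (nat_lit 424) (nat_lit 308)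 (nat_lit 288)) (XT.lf (nat_lit 0) (nat_lit 10788862093) (nat_lit 228) (nat_lit 3671270660) (nat_lit 0) (nat_lit 253325925) (nat_lit 28) (nat_lit 5) (nat_lit 31) (nat_lit 4) (nat_lit 28) (nat_lit 4) (nat_lit 425) (nat_lit 308) (nat_lit 287))))) (XT.nd (nat_lit 156) (nat_lit 532) (nat_lit 0) (XT.nd (nat_lit 78) (nat_lit 228) (nat_lit 0) (XT.lf (nat_lit 0) (nat_lit 858036867) (nat_lit 152) (nat_lit 4958926070) (nat_lit 228) (nat_lit 9128897626) (nat_lit 23) (nat_lit 5) (nat_lit 25) (nat_lit 5) (nat_lit 26) (nat_lit 4) (nat_lit 426) (nat_lit 308) (nat_lit 286)) (XT.lf (nat_lit 0) (nat_lit 663249468) (nat_lit 228) (nat_lit 9678403990) (nat_lit 76) (nat_lit 4841811611) (nat_lit 20) (nat_lit 5) (nat_lit 23) (nat_lit 5) (nat_lit 21) (nat_lit 4) (nat_lit 427) (nat_lit 308) (nat_lit 285))) (XT.nd (nat_lit 78) (nat_lit 456) (nat_lit 0) (XT.lf (nat_lit 0) (nat_lit 10190973736) (nat_lit 76) (nat_lit 471781553)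 (nat_lit 152) (nat_lit 4763483177) (nat_lit 19) (nat_lit 5) (nat_lit 20) (nat_lit 5) (nat_lit 21) (nat_lit 4) (nat_lit 428) (nat_lit 308) (nat_lit 284)) (XT.nd (nat_lit 78) (nat_lit 228) (nat_lit 0) (XT.lf (nat_lit 0) (nat_lit 5286386100) (nat_lit 228) (nat_lit 760534667) (nat_lit 76) (nat_lit 9627292679) (nat_lit 16) (nat_lit 5) (nat_lit 19) (nat_lit 5) (nat_lit 17) (nat_lit 4) (nat_lit 429) (nat_lit 308) (nat_lit 283)) (XT.lf (nat_lit 0) (nat_lit 3833326065) (nat_lit 152) (nat_lit 11803882751) (nat_lit 152) (nat_lit 290505638) (nat_lit 13) (nat_lit 4) (nat_lit 15) (nat_lit 5) (nat_lit 15) (nat_lit 4) (nat_lit 430) (nat_lit 308) (nat_lit 282))))))))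
noncomputable def xc5 : XT := (XT.nd (nat_lit 1482) (nat_lit 2280) (nat_lit 0) (XT.nd (nat_lit 702) (nat_lit 3116) (nat_lit 0) (XT.nd (nat_lit 312) (nat_lit 1976) (nat_lit 0) (XT.nd (nat_lit 156) (nat_lit 912) (nat_lit 0) (XT.nd (nat_lit 78) (nat_lit 304) (nat_lit 0) (XT.lf (nat_lit 0) (nat_lit 1578414713) (nat_lit 304) (nat_lit 1854412513) (nat_lit 304) (nat_lit 1854412513) (nat_lit 128) (nat_lit 4) (nat_lit 132) (nat_lit 5) (nat_lit 132) (nat_lit 4) (nat_lit 402) (nat_lit 309) (nat_lit 309)) (XT.lf (nat_lit 0) (nat_lit 4208729159) (nat_lit 304) (nat_lit 3216074177) (nat_lit 0) (nat_lit 3288883401) (nat_lit 124) (nat_lit 5) (nat_lit 128) (nat_lit 4) (nat_lit 124) (nat_lit 4) (nat_lit 403) (nat_lit 309) (nat_lit 308))) (XT.nd (nat_lit 78) (nat_lit 304) (nat_lit 0) (XT.lf (nat_lit 0) (nat_lit 1062801521) (nat_lit 228) (nat_lit 360813039) (nat_lit 304) (nat_lit 9433058579) (nat_lit 116) (nat_lit 5)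 (nat_lit 119) (nat_lit 5) (nat_lit 120) (nat_lit 4) (nat_lit 404) (nat_lit 309) (nat_lit 307)) (XT.lf (nat_lit 0) (nat_lit 5420011971) (nat_lit 304) (nat_lit 4105002548) (nat_lit 304) (nat_lit 1477607706) (nat_lit 112) (nat_lit 4) (nat_lit 116) (nat_lit 5) (nat_lit 116) (nat_lit 4) (nat_lit 405) (nat_lit 309) (nat_lit 306)))) (XT.nd (nat_lit 156) (nat_lit 1064) (nat_lit 0) (XT.nd (nat_lit 78) (nat_lit 608) (nat_lit 0) (XT.lf (nat_lit 0) (nat_lit 6610245977) (nat_lit 304) (nat_lit 1316927891) (nat_lit 0) (nat_lit 3225267207) (nat_lit 108) (nat_lit 5) (nat_lit 112) (nat_lit 4) (nat_lit 108) (nat_lit 4) (nat_lit 406) (nat_lit 309) (nat_lit 305)) (XT.lf (nat_lit 0) (nat_lit 3050777145) (nat_lit 228) (nat_lit 524119551) (nat_lit 304) (nat_lit 7731029250) (nat_lit 100) (nat_lit 5) (nat_lit 103) (nat_lit 5) (nat_lit 104) (nat_lit 4) (nat_lit 407) (nat_lit 309) (nat_lit 304))) (XT.nd (nat_lit 78) (nat_lit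 760) (nat_lit 0) (XT.lf (nat_lit 0) (nat_lit 423292762) (nat_lit 304) (nat_lit 3981389717) (nat_lit 76) (nat_lit 7058313134) (nat_lit 96) (nat_lit 5) (nat_lit 100) (nat_lit 5) (nat_lit 97) (nat_lit 4) (nat_lit 408) (nat_lit 309) (nat_lit 303)) (XT.nd (nat_lit 78) (nat_lit 304) (nat_lit 0) (XT.lf (nat_lit 0) (nat_lit 342661048) (nat_lit 228) (nat_lit 8367269486) (nat_lit 228) (nat_lit 2913970385) (nat_lit 90) (nat_lit 4) (nat_lit 93) (nat_lit 5) (nat_lit 93) (nat_lit 4) (nat_lit 409) (nat_lit 309) (nat_lit 302)) (XT.lf (nat_lit 0) (nat_lit 4778943505) (nat_lit 228) (nat_lit 628583201) (nat_lit 304) (nat_lit 6380927399) (nat_lit 86) (nat_lit 5) (nat_lit 89) (nat_lit 5) (nat_lit 90) (nat_lit 4) (nat_lit 410) (nat_lit 309) (nat_lit 301)))))) (XT.nd (nat_lit 390) (nat_lit 1444) (nat_lit 0) (XT.nd (nat_lit 156) (nat_lit 912) (nat_lit 0) (XT.nd (nat_lit 78) (nat_lit 456) (nat_lit 0) (XT.lf (nat_lit 0) (nat_lit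 1972902741) (nat_lit 304) (nat_lit 2696203812) (nat_lit 76) (nat_lit 7287847398) (nat_lit 82) (nat_lit 5) (nat_lit 86) (nat_lit 5) (nat_lit 83) (nat_lit 4) (nat_lit 411) (nat_lit 309) (nat_lit 300)) (XT.lf (nat_lit 0) (nat_lit 1693625948) (nat_lit 228) (nat_lit 8806160761) (nat_lit 228) (nat_lit 1629695910) (nat_lit 76) (nat_lit 4) (nat_lit 79) (nat_lit 5) (nat_lit 79) (nat_lit 4) (nat_lit 412) (nat_lit 309) (nat_lit 299))) (XT.nd (nat_lit 78) (nat_lit 684) (nat_lit 0) (XT.lf (nat_lit 0) (nat_lit 6167791214) (nat_lit 152) (nat_lit 739154095) (nat_lit 228) (nat_lit 5398873326) (nat_lit 73) (nat_lit 5) (nat_lit 75) (nat_lit 5) (nat_lit 76) (nat_lit 4) (nat_lit 413) (nat_lit 309) (nat_lit 298)) (XT.nd (nat_lit 78) (nat_lit 380) (nat_lit 0) (XT.lf (nat_lit 0) (nat_lit 3173876450) (nat_lit 304) (nat_lit 1798877053) (nat_lit 76) (nat_lit 7513553456) (nat_lit 69) (nat_lit 5) (nat_lit 73) (nat_lit 5) (nat_lit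 70) (nat_lit 4) (nat_lit 414) (nat_lit 309) (nat_lit 297)) (XT.lf (nat_lit 0) (nat_lit 2635444878) (nat_lit 228) (nat_lit 9317680968) (nat_lit 228) (nat_lit 717917022) (nat_lit 64) (nat_lit 4) (nat_lit 67) (nat_lit 5) (nat_lit 67) (nat_lit 4) (nat_lit 415) (nat_lit 309) (nat_lit 296))))) (XT.nd (nat_lit 156) (nat_lit 912) (nat_lit 0) (XT.nd (nat_lit 78) (nat_lit 304) (nat_lit 0) (XT.lf (nat_lit 0) (nat_lit 7133429713) (nat_lit 152) (nat_lit 919933947) (nat_lit 228) (nat_lit 4806388585) (nat_lit 61) (nat_lit 5) (nat_lit 63) (nat_lit 5) (nat_lit 64) (nat_lit 4) (nat_lit 416) (nat_lit 309) (nat_lit 295)) (XT.lf (nat_lit 0) (nat_lit 4004225111) (nat_lit 304) (nat_lit 1375577937) (nat_lit 76) (nat_lit 7673042426) (nat_lit 57) (nat_lit 5) (nat_lit 61) (nat_lit 5) (nat_lit 58) (nat_lit 4) (nat_lit 417) (nat_lit 309) (nat_lit 294))) (XT.nd (nat_lit 78) (nat_lit 532) (nat_lit 0) (XT.lf (nat_lit 0) (nat_lit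 3080050393) (nat_lit 228) (nat_lit 9966638010) (nat_lit 228) (nat_lit 203751071) (nat_lit 52) (nat_lit 4) (nat_lit 55) (nat_lit 5) (nat_lit 55) (nat_lit 4) (nat_lit 418) (nat_lit 309) (nat_lit 293)) (XT.nd (nat_lit 78) (nat_lit 304) (nat_lit 0) (XT.lf (nat_lit 0) (nat_lit 7586726215) (nat_lit 152) (nat_lit 1234982263) (nat_lit 228) (nat_lit 4630455200) (nat_lit 49) (nat_lit 5) (nat_lit 51) (nat_lit 5) (nat_lit 52) (nat_lit 4) (nat_lit 419) (nat_lit 309) (nat_lit 292)) (XT.lf (nat_lit 0) (nat_lit 4436621115) (nat_lit 304) (nat_lit 1518090673) (nat_lit 76) (nat_lit 7703826324) (nat_lit 45) (nat_lit 5) (nat_lit 49) (nat_lit 5) (nat_lit 46) (nat_lit 4) (nat_lit 420) (nat_lit 309) (nat_lit 291))))))) (XT.nd (nat_lit 51480) (nat_lit 0) (nat_lit 5928) (XT.nd (nat_lit 390) (nat_lit 988) (nat_lit 0) (XT.nd (nat_lit 156) (nat_lit 760) (nat_lit 0) (XT.nd (nat_lit 78) (nat_lit 228) (nat_lit 0) (XT.lf (nat_lit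 0) (nat_lit 2933450271) (nat_lit 152) (nat_lit 10818433107) (nat_lit 152) (nat_lit 117826587) (nat_lit 41) (nat_lit 4) (nat_lit 43) (nat_lit 5) (nat_lit 43) (nat_lit 4) (nat_lit 421) (nat_lit 309) (nat_lit 290)) (XT.lf (nat_lit 0) (nat_lit 7432421428) (nat_lit 152) (nat_lit 1749089413) (nat_lit 228) (nat_lit 4903632516) (nat_lit 38) (nat_lit 5) (nat_lit 40) (nat_lit 5) (nat_lit 41) (nat_lit 4) (nat_lit 422) (nat_lit 309) (nat_lit 289))) (XT.nd (nat_lit 78) (nat_lit 532) (nat_lit 0) (XT.lf (nat_lit 0) (nat_lit 4438267219) (nat_lit 228) (nat_lit 2324707199) (nat_lit 76) (nat_lit 7542562908) (nat_lit 35) (nat_lit 5) (nat_lit 38) (nat_lit 5) (nat_lit 36) (nat_lit 4) (nat_lit 423) (nat_lit 309) (nat_lit 288)) (XT.nd (nat_lit 78) (nat_lit 228) (nat_lit 0) (XT.lf (nat_lit 0) (nat_lit 2094819974) (nat_lit 152) (nat_lit 11939816612) (nat_lit 152) (nat_lit 496441595) (nat_lit 31) (nat_lit 4) (nat_lit 33) (nat_lit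 5) (nat_lit 33) (nat_lit 4) (nat_lit 424) (nat_lit 309) (nat_lit 287)) (XT.lf (nat_lit 0) (nat_lit 6568213782) (nat_lit 152) (nat_lit 2528526188) (nat_lit 228) (nat_lit 5664230329) (nat_lit 28) (nat_lit 5) (nat_lit 30) (nat_lit 5) (nat_lit 31) (nat_lit 4) (nat_lit 425) (nat_lit 309) (nat_lit 286))))) (XT.nd (nat_lit 156) (nat_lit 456) (nat_lit 0) (XT.nd (nat_lit 78) (nat_lit 304) (nat_lit 0) (XT.lf (nat_lit 0) (nat_lit 3970710977) (nat_lit 228) (nat_lit 3901154047) (nat_lit 76) (nat_lit 7124321733) (nat_lit 25) (nat_lit 5) (nat_lit 28) (nat_lit 5) (nat_lit 26) (nat_lit 4) (nat_lit 426) (nat_lit 309) (nat_lit 285)) (XT.lf (nat_lit 0) (nat_lit 455557356) (nat_lit 152) (nat_lit 13399627255) (nat_lit 152) (nat_lit 1381777513) (nat_lit 21) (nat_lit 4) (nat_lit 23) (nat_lit 5) (nat_lit 23) (nat_lit 4) (nat_lit 427) (nat_lit 309) (nat_lit 284))) (XT.nd (nat_lit 78) (nat_lit 304) (nat_lit 0) (XT.lf (nat_lit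 0) (nat_lit 4883803946) (nat_lit 76) (nat_lit 3641778737) (nat_lit 152) (nat_lit 6956537624) (nat_lit 19) (nat_lit 5) (nat_lit 20) (nat_lit 5) (nat_lit 21) (nat_lit 4) (nat_lit 428) (nat_lit 309) (nat_lit 283)) (XT.nd (nat_lit 78) (nat_lit 76) (nat_lit 0) (XT.lf (nat_lit 0) (nat_lit 2989604864) (nat_lit 228) (nat_lit 6361562231) (nat_lit 76) (nat_lit 6381862748) (nat_lit 16) (nat_lit 5) (nat_lit 19) (nat_lit 5) (nat_lit 17) (nat_lit 4) (nat_lit 429) (nat_lit 309) (nat_lit 282)) (XT.lf (nat_lit 0) (nat_lit 13181460373) (nat_lit 152) (nat_lit 2074144337) (nat_lit 0) (nat_lit 734105486) (nat_lit 15) (nat_lit 5) (nat_lit 17) (nat_lit 4) (nat_lit 15) (nat_lit 4) (nat_lit 430) (nat_lit 309) (nat_lit 281)))))) (XT.nd (nat_lit 390) (nat_lit 1748) (nat_lit 0) (XT.nd (nat_lit 156) (nat_lit 1596) (nat_lit 0) (XT.nd (nat_lit 78) (nat_lit 304) (nat_lit 0) (XT.lf (nat_lit 0) (nat_lit 1290535868) (nat_lit 380)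 (nat_lit 2571250980) (nat_lit 0) (nat_lit 1290535868) (nat_lit 141) (nat_lit 5) (nat_lit 146) (nat_lit 4) (nat_lit 141) (nat_lit 4) (nat_lit 400) (nat_lit 310) (nat_lit 310)) (XT.lf (nat_lit 0) (nat_lit 9337784820) (nat_lit 304) (nat_lit 1043478378) (nat_lit 304) (nat_lit 57760626) (nat_lit 137) (nat_lit 4) (nat_lit 141) (nat_lit 5) (nat_lit 141) (nat_lit 4) (nat_lit 401) (nat_lit 310) (nat_lit 309))) (XT.nd (nat_lit 78) (nat_lit 912) (nat_lit 0) (XT.lf (nat_lit 0) (nat_lit 3010629501) (nat_lit 304) (nat_lit 4735104407) (nat_lit 304) (nat_lit 2830471782) (nat_lit 128) (nat_lit 4) (nat_lit 132) (nat_lit 5) (nat_lit 132) (nat_lit 4) (nat_lit 402) (nat_lit 310) (nat_lit 308)) (XT.nd (nat_lit 78) (nat_lit 608) (nat_lit 0) (XT.lf (nat_lit 0) (nat_lit 4982239544) (nat_lit 304) (nat_lit 3513027286) (nat_lit 0) (nat_lit 2221898522) (nat_lit 124) (nat_lit 5) (nat_lit 128) (nat_lit 4) (nat_lit 124) (nat_lit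 4) (nat_lit 403) (nat_lit 310) (nat_lit 307)) (XT.lf (nat_lit 0) (nat_lit 602324148) (nat_lit 228) (nat_lit 1491590712) (nat_lit 304) (nat_lit 8767929550) (nat_lit 116) (nat_lit 5) (nat_lit 119) (nat_lit 5) (nat_lit 120) (nat_lit 4) (nat_lit 404) (nat_lit 310) (nat_lit 306))))) (XT.nd (nat_lit 156) (nat_lit 1140) (nat_lit 0) (XT.nd (nat_lit 78) (nat_lit 304) (nat_lit 0) (XT.lf (nat_lit 0) (nat_lit 4809743841) (nat_lit 304) (nat_lit 5290744195) (nat_lit 304) (nat_lit 909201996) (nat_lit 112) (nat_lit 4) (nat_lit 116) (nat_lit 5) (nat_lit 116) (nat_lit 4) (nat_lit 405) (nat_lit 310) (nat_lit 305)) (XT.lf (nat_lit 0) (nat_lit 7075521535) (nat_lit 304) (nat_lit 2091470528) (nat_lit 0) (nat_lit 1994356517) (nat_lit 108) (nat_lit 5) (nat_lit 112) (nat_lit 4) (nat_lit 108) (nat_lit 4) (nat_lit 406) (nat_lit 310) (nat_lit 304))) (XT.nd (nat_lit 78) (nat_lit 532) (nat_lit 0) (XT.lf (nat_lit 0) (nat_lit 2096868064)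 (nat_lit 228) (nat_lit 1834166005) (nat_lit 304) (nat_lit 7385625028) (nat_lit 100) (nat_lit 5) (nat_lit 103) (nat_lit 5) (nat_lit 104) (nat_lit 4) (nat_lit 407) (nat_lit 310) (nat_lit 303)) (XT.nd (nat_lit 78) (nat_lit 228) (nat_lit 0) (XT.lf (nat_lit 0) (nat_lit 665954504) (nat_lit 304) (nat_lit 5109931921) (nat_lit 76) (nat_lit 5699761736) (nat_lit 96) (nat_lit 5) (nat_lit 100) (nat_lit 5) (nat_lit 97) (nat_lit 4) (nat_lit 408) (nat_lit 310) (nat_lit 302)) (XT.lf (nat_lit 0) (nat_lit 8851758762) (nat_lit 304) (nat_lit 954602210) (nat_lit 0) (nat_lit 1832209165) (nat_lit 93) (nat_lit 5) (nat_lit 97) (nat_lit 4) (nat_lit 93) (nat_lit 4) (nat_lit 409) (nat_lit 310) (nat_lit 301))))))))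
noncomputable def xc6 : XT := (XT.nd (nat_lit 1482) (nat_lit 304) (nat_lit 0) (XT.nd (nat_lit 702) (nat_lit 2660) (nat_lit 0) (XT.nd (nat_lit 312) (nat_lit 1368) (nat_lit 0) (XT.nd (nat_lit 156) (nat_lit 684) (nat_lit 0) (XT.nd (nat_lit 78) (nat_lit 304) (nat_lit 0) (XT.lf (nat_lit 0) (nat_lit 3289782664) (nat_lit 228) (nat_lit 2145944323) (nat_lit 304) (nat_lit 6369325645) (nat_lit 86) (nat_lit 5) (nat_lit 89) (nat_lit 5) (nat_lit 90) (nat_lit 4) (nat_lit 410) (nat_lit 310) (nat_lit 300)) (XT.lf (nat_lit 0) (nat_lit 1882795520) (nat_lit 304) (nat_lit 4374873817) (nat_lit 76) (nat_lit 5717912770) (nat_lit 82) (nat_lit 5) (nat_lit 86) (nat_lit 5) (nat_lit 83) (nat_lit 4) (nat_lit 411) (nat_lit 310) (nat_lit 299))) (XT.nd (nat_lit 78) (nat_lit 456) (nat_lit 0) (XT.lf (nat_lit 0) (nat_lit 10296556579) (nat_lit 304) (nat_lit 182798997) (nat_lit 0) (nat_lit 1671017658) (nat_lit 79) (nat_lit 5) (nat_lit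 83) (nat_lit 4) (nat_lit 79) (nat_lit 4) (nat_lit 412) (nat_lit 310) (nat_lit 298)) (XT.lf (nat_lit 0) (nat_lit 4098867217) (nat_lit 152) (nat_lit 2492458257) (nat_lit 228) (nat_lit 5737301648) (nat_lit 73) (nat_lit 5) (nat_lit 75) (nat_lit 5) (nat_lit 76) (nat_lit 4) (nat_lit 413) (nat_lit 310) (nat_lit 297)))) (XT.nd (nat_lit 156) (nat_lit 684) (nat_lit 0) (XT.nd (nat_lit 78) (nat_lit 380) (nat_lit 0) (XT.lf (nat_lit 0) (nat_lit 2734391274) (nat_lit 304) (nat_lit 4073093370) (nat_lit 76) (nat_lit 5703784655) (nat_lit 69) (nat_lit 5) (nat_lit 73) (nat_lit 5) (nat_lit 70) (nat_lit 4) (nat_lit 414) (nat_lit 310) (nat_lit 296)) (XT.lf (nat_lit 0) (nat_lit 140961356) (nat_lit 228) (nat_lit 11250244655) (nat_lit 228) (nat_lit 1307247891) (nat_lit 64) (nat_lit 4) (nat_lit 67) (nat_lit 5) (nat_lit 67) (nat_lit 4) (nat_lit 415) (nat_lit 310) (nat_lit 295))) (XT.nd (nat_lit 78) (nat_lit 456) (nat_lit 0)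 (XT.lf (nat_lit 0) (nat_lit 4437217612) (nat_lit 152) (nat_lit 2938645957) (nat_lit 228) (nat_lit 5513294204) (nat_lit 61) (nat_lit 5) (nat_lit 63) (nat_lit 5) (nat_lit 64) (nat_lit 4) (nat_lit 416) (nat_lit 310) (nat_lit 294)) (XT.nd (nat_lit 78) (nat_lit 152) (nat_lit 0) (XT.lf (nat_lit 0) (nat_lit 3196549462) (nat_lit 304) (nat_lit 4293891119) (nat_lit 76) (nat_lit 5594103041) (nat_lit 57) (nat_lit 5) (nat_lit 61) (nat_lit 5) (nat_lit 58) (nat_lit 4) (nat_lit 417) (nat_lit 310) (nat_lit 293)) (XT.lf (nat_lit 0) (nat_lit 12108055410) (nat_lit 228) (nat_lit 79002581) (nat_lit 0) (nat_lit 1097698777) (nat_lit 55) (nat_lit 5) (nat_lit 58) (nat_lit 4) (nat_lit 55) (nat_lit 4) (nat_lit 418) (nat_lit 310) (nat_lit 292)))))) (XT.nd (nat_lit 390) (nat_lit 1140) (nat_lit 0) (XT.nd (nat_lit 156) (nat_lit 760) (nat_lit 0) (XT.nd (nat_lit 78) (nat_lit 304) (nat_lit 0) (XT.lf (nat_lit 0) (nat_lit 4212351045)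 (nat_lit 152) (nat_lit 3549653607) (nat_lit 228) (nat_lit 5726592940) (nat_lit 49) (nat_lit 5) (nat_lit 51) (nat_lit 5) (nat_lit 52) (nat_lit 4) (nat_lit 419) (nat_lit 310) (nat_lit 291)) (XT.lf (nat_lit 0) (nat_lit 3239646735) (nat_lit 304) (nat_lit 5132524126) (nat_lit 76) (nat_lit 5325247756) (nat_lit 45) (nat_lit 5) (nat_lit 49) (nat_lit 5) (nat_lit 46) (nat_lit 4) (nat_lit 420) (nat_lit 310) (nat_lit 290))) (XT.nd (nat_lit 78) (nat_lit 608) (nat_lit 0) (XT.lf (nat_lit 0) (nat_lit 12419553897) (nat_lit 228) (nat_lit 933471116) (nat_lit 0) (nat_lit 558272560) (nat_lit 43) (nat_lit 5) (nat_lit 46) (nat_lit 4) (nat_lit 43) (nat_lit 4) (nat_lit 421) (nat_lit 310) (nat_lit 289)) (XT.nd (nat_lit 78) (nat_lit 228) (nat_lit 0) (XT.lf (nat_lit 0) (nat_lit 3325304823) (nat_lit 152) (nat_lit 4391607459) (nat_lit 228) (nat_lit 6412171102) (nat_lit 38) (nat_lit 5) (nat_lit 40) (nat_lit 5) (nat_lit 41) (nat_lit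 4) (nat_lit 422) (nat_lit 310) (nat_lit 288)) (XT.lf (nat_lit 0) (nat_lit 2828479901) (nat_lit 228) (nat_lit 6691115925) (nat_lit 76) (nat_lit 4832498086) (nat_lit 35) (nat_lit 5) (nat_lit 38) (nat_lit 5) (nat_lit 36) (nat_lit 4) (nat_lit 423) (nat_lit 310) (nat_lit 287))))) (XT.nd (nat_lit 156) (nat_lit 608) (nat_lit 0) (XT.nd (nat_lit 78) (nat_lit 380) (nat_lit 0) (XT.lf (nat_lit 0) (nat_lit 12051042198) (nat_lit 152) (nat_lit 239447893) (nat_lit 228) (nat_lit 2289831859) (nat_lit 33) (nat_lit 5) (nat_lit 35) (nat_lit 5) (nat_lit 36) (nat_lit 4) (nat_lit 424) (nat_lit 310) (nat_lit 286)) (XT.lf (nat_lit 0) (nat_lit 1669700972) (nat_lit 152) (nat_lit 5532364854) (nat_lit 228) (nat_lit 7610877210) (nat_lit 28) (nat_lit 5) (nat_lit 30) (nat_lit 5) (nat_lit 31) (nat_lit 4) (nat_lit 425) (nat_lit 310) (nat_lit 285))) (XT.nd (nat_lit 78) (nat_lit 380) (nat_lit 0) (XT.lf (nat_lit 0) (nat_lit 1922062089)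 (nat_lit 228) (nat_lit 9079604031) (nat_lit 76) (nat_lit 4049296806) (nat_lit 25) (nat_lit 5) (nat_lit 28) (nat_lit 5) (nat_lit 26) (nat_lit 4) (nat_lit 426) (nat_lit 310) (nat_lit 284)) (XT.nd (nat_lit 78) (nat_lit 228) (nat_lit 0) (XT.lf (nat_lit 0) (nat_lit 10312038498) (nat_lit 152) (nat_lit 1371442566) (nat_lit 228) (nat_lit 3610718322) (nat_lit 23) (nat_lit 5) (nat_lit 25) (nat_lit 5) (nat_lit 26) (nat_lit 4) (nat_lit 427) (nat_lit 310) (nat_lit 283)) (XT.lf (nat_lit 0) (nat_lit 6178665027) (nat_lit 228) (nat_lit 857831508) (nat_lit 76) (nat_lit 8506094665) (nat_lit 20) (nat_lit 5) (nat_lit 23) (nat_lit 5) (nat_lit 21) (nat_lit 4) (nat_lit 428) (nat_lit 310) (nat_lit 282))))))) (XT.nd (nat_lit 51402) (nat_lit 0) (nat_lit 3420) (XT.nd (nat_lit 51012) (nat_lit 0) (nat_lit 6992) (XT.nd (nat_lit 50778) (nat_lit 0) (nat_lit 9120) (XT.nd (nat_lit 50700) (nat_lit 0) (nat_lit 10564) (XT.lf (nat_lit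 0) (nat_lit 473364216) (nat_lit 228) (nat_lit 12416733252) (nat_lit 76) (nat_lit 2906524384) (nat_lit 16) (nat_lit 5) (nat_lit 19) (nat_lit 5) (nat_lit 17) (nat_lit 4) (nat_lit 429) (nat_lit 310) (nat_lit 281)) (XT.lf (nat_lit 0) (nat_lit 3611984486) (nat_lit 380) (nat_lit 705260520) (nat_lit 380) (nat_lit 705260520) (nat_lit 155) (nat_lit 4) (nat_lit 160) (nat_lit 5) (nat_lit 160) (nat_lit 4) (nat_lit 398) (nat_lit 311) (nat_lit 311))) (XT.nd (nat_lit 78) (nat_lit 760) (nat_lit 0) (XT.lf (nat_lit 0) (nat_lit 1048215888) (nat_lit 304) (nat_lit 5080671285) (nat_lit 304) (nat_lit 4045076215) (nat_lit 146) (nat_lit 4) (nat_lit 150) (nat_lit 5) (nat_lit 150) (nat_lit 4) (nat_lit 399) (nat_lit 311) (nat_lit 310)) (XT.nd (nat_lit 78) (nat_lit 380) (nat_lit 0) (XT.lf (nat_lit 0) (nat_lit 3511288261) (nat_lit 380) (nat_lit 5284777403) (nat_lit 0) (nat_lit 1510281225) (nat_lit 141) (nat_lit 5) (nat_lit 146)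 (nat_lit 4) (nat_lit 141) (nat_lit 4) (nat_lit 400) (nat_lit 311) (nat_lit 309)) (XT.lf (nat_lit 0) (nat_lit 774335443) (nat_lit 380) (nat_lit 1393856967) (nat_lit 76) (nat_lit 8274119778) (nat_lit 136) (nat_lit 5) (nat_lit 141) (nat_lit 5) (nat_lit 137) (nat_lit 4) (nat_lit 401) (nat_lit 311) (nat_lit 308))))) (XT.nd (nat_lit 156) (nat_lit 1216) (nat_lit 0) (XT.nd (nat_lit 78) (nat_lit 304) (nat_lit 0) (XT.lf (nat_lit 0) (nat_lit 2571901980) (nat_lit 304) (nat_lit 5910206671) (nat_lit 304) (nat_lit 2099277177) (nat_lit 128) (nat_lit 4) (nat_lit 132) (nat_lit 5) (nat_lit 132) (nat_lit 4) (nat_lit 402) (nat_lit 311) (nat_lit 307)) (XT.lf (nat_lit 0) (nat_lit 5610090439) (nat_lit 304) (nat_lit 4107192978) (nat_lit 0) (nat_lit 1006842205) (nat_lit 124) (nat_lit 5) (nat_lit 128) (nat_lit 4) (nat_lit 124) (nat_lit 4) (nat_lit 403) (nat_lit 311) (nat_lit 306))) (XT.nd (nat_lit 78) (nat_lit 836) (nat_lit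 0) (XT.lf (nat_lit 0) (nat_lit 2616607063) (nat_lit 380) (nat_lit 159491139) (nat_lit 76) (nat_lit 8094426959) (nat_lit 119) (nat_lit 5) (nat_lit 124) (nat_lit 5) (nat_lit 120) (nat_lit 4) (nat_lit 404) (nat_lit 311) (nat_lit 305)) (XT.nd (nat_lit 78) (nat_lit 304) (nat_lit 0) (XT.lf (nat_lit 0) (nat_lit 3893675148) (nat_lit 304) (nat_lit 6633071200) (nat_lit 304) (nat_lit 493553113) (nat_lit 112) (nat_lit 4) (nat_lit 116) (nat_lit 5) (nat_lit 116) (nat_lit 4) (nat_lit 405) (nat_lit 311) (nat_lit 304)) (XT.lf (nat_lit 0) (nat_lit 7389421773) (nat_lit 304) (nat_lit 3176777554) (nat_lit 0) (nat_lit 607630655) (nat_lit 108) (nat_lit 5) (nat_lit 112) (nat_lit 4) (nat_lit 108) (nat_lit 4) (nat_lit 406) (nat_lit 311) (nat_lit 303)))))) (XT.nd (nat_lit 390) (nat_lit 1596) (nat_lit 0) (XT.nd (nat_lit 156) (nat_lit 1064) (nat_lit 0) (XT.nd (nat_lit 78) (nat_lit 304) (nat_lit 0) (XT.lf (nat_lit 0) (nat_lit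 825518540) (nat_lit 228) (nat_lit 3307032015) (nat_lit 304) (nat_lit 7198469788) (nat_lit 100) (nat_lit 5) (nat_lit 103) (nat_lit 5) (nat_lit 104) (nat_lit 4) (nat_lit 407) (nat_lit 311) (nat_lit 302)) (XT.lf (nat_lit 0) (nat_lit 751686063) (nat_lit 304) (nat_lit 6561113526) (nat_lit 76) (nat_lit 4179164897) (nat_lit 96) (nat_lit 5) (nat_lit 100) (nat_lit 5) (nat_lit 97) (nat_lit 4) (nat_lit 408) (nat_lit 311) (nat_lit 301))) (XT.nd (nat_lit 78) (nat_lit 836) (nat_lit 0) (XT.lf (nat_lit 0) (nat_lit 8838064123) (nat_lit 304) (nat_lit 2572680420) (nat_lit 0) (nat_lit 246130443) (nat_lit 93) (nat_lit 5) (nat_lit 97) (nat_lit 4) (nat_lit 93) (nat_lit 4) (nat_lit 409) (nat_lit 311) (nat_lit 300)) (XT.nd (nat_lit 78) (nat_lit 304) (nat_lit 0) (XT.lf (nat_lit 0) (nat_lit 1468165888) (nat_lit 228) (nat_lit 3834505845) (nat_lit 304) (nat_lit 6522719412) (nat_lit 86) (nat_lit 5) (nat_lit 89) (nat_lit 5) (nat_lit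 90) (nat_lit 4) (nat_lit 410) (nat_lit 311) (nat_lit 299)) (XT.lf (nat_lit 0) (nat_lit 1628899293) (nat_lit 304) (nat_lit 6391543547) (nat_lit 76) (nat_lit 3977547984) (nat_lit 82) (nat_lit 5) (nat_lit 86) (nat_lit 5) (nat_lit 83) (nat_lit 4) (nat_lit 411) (nat_lit 311) (nat_lit 298))))) (XT.nd (nat_lit 156) (nat_lit 912) (nat_lit 0) (XT.nd (nat_lit 78) (nat_lit 456) (nat_lit 0) (XT.lf (nat_lit 0) (nat_lit 9795921864) (nat_lit 228) (nat_lit 144530973) (nat_lit 304) (nat_lit 2234373265) (nat_lit 79) (nat_lit 5) (nat_lit 82) (nat_lit 5) (nat_lit 83) (nat_lit 4) (nat_lit 412) (nat_lit 311) (nat_lit 297)) (XT.lf (nat_lit 0) (nat_lit 1681328779) (nat_lit 152) (nat_lit 4425781828) (nat_lit 228) (nat_lit 6248191786) (nat_lit 73) (nat_lit 5) (nat_lit 75) (nat_lit 5) (nat_lit 76) (nat_lit 4) (nat_lit 413) (nat_lit 311) (nat_lit 296))) (XT.nd (nat_lit 78) (nat_lit 608) (nat_lit 0) (XT.lf (nat_lit 0) (nat_lit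 2123540680) (nat_lit 304) (nat_lit 6701853179) (nat_lit 76) (nat_lit 3714750269) (nat_lit 69) (nat_lit 5) (nat_lit 73) (nat_lit 5) (nat_lit 70) (nat_lit 4) (nat_lit 414) (nat_lit 311) (nat_lit 295)) (XT.nd (nat_lit 78) (nat_lit 456) (nat_lit 0) (XT.lf (nat_lit 0) (nat_lit 10044847685) (nat_lit 152) (nat_lit 631223440) (nat_lit 228) (nat_lit 2053343290) (nat_lit 67) (nat_lit 5) (nat_lit 69) (nat_lit 5) (nat_lit 70) (nat_lit 4) (nat_lit 415) (nat_lit 311) (nat_lit 294)) (XT.lf (nat_lit 0) (nat_lit 1374972993) (nat_lit 152) (nat_lit 5146711801) (nat_lit 228) (nat_lit 6400887748) (nat_lit 61) (nat_lit 5) (nat_lit 63) (nat_lit 5) (nat_lit 64) (nat_lit 4) (nat_lit 416) (nat_lit 311) (nat_lit 293))))))))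
noncomputable def xc7 : XT := (XT.nd (nat_lit 52026) (nat_lit 0) (nat_lit 1596) (XT.nd (nat_lit 780) (nat_lit 532) (nat_lit 0) (XT.nd (nat_lit 390) (nat_lit 1292) (nat_lit 0) (XT.nd (nat_lit 156) (nat_lit 912) (nat_lit 0) (XT.nd (nat_lit 78) (nat_lit 152) (nat_lit 0) (XT.lf (nat_lit 0) (nat_lit 2209173215) (nat_lit 304) (nat_lit 7584593515) (nat_lit 76) (nat_lit 3326535390) (nat_lit 57) (nat_lit 5) (nat_lit 61) (nat_lit 5) (nat_lit 58) (nat_lit 4) (nat_lit 417) (nat_lit 311) (nat_lit 292)) (XT.lf (nat_lit 0) (nat_lit 9740647490) (nat_lit 152) (nat_lit 1275908676) (nat_lit 228) (nat_lit 2306041560) (nat_lit 55) (nat_lit 5) (nat_lit 57) (nat_lit 5) (nat_lit 58) (nat_lit 4) (nat_lit 418) (nat_lit 311) (nat_lit 291))) (XT.nd (nat_lit 78) (nat_lit 456) (nat_lit 0) (XT.lf (nat_lit 0) (nat_lit 453142234) (nat_lit 152) (nat_lit 6063607097) (nat_lit 228) (nat_lit 7012450400) (nat_lit 49) (nat_lit 5) (nat_lit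 51) (nat_lit 5) (nat_lit 52) (nat_lit 4) (nat_lit 419) (nat_lit 311) (nat_lit 290)) (XT.nd (nat_lit 78) (nat_lit 152) (nat_lit 0) (XT.lf (nat_lit 0) (nat_lit 1853830882) (nat_lit 304) (nat_lit 9138620220) (nat_lit 76) (nat_lit 2748073080) (nat_lit 45) (nat_lit 5) (nat_lit 49) (nat_lit 5) (nat_lit 46) (nat_lit 4) (nat_lit 420) (nat_lit 311) (nat_lit 289)) (XT.lf (nat_lit 0) (nat_lit 8784979348) (nat_lit 152) (nat_lit 2144696956) (nat_lit 228) (nat_lit 3026808068) (nat_lit 43) (nat_lit 5) (nat_lit 45) (nat_lit 5) (nat_lit 46) (nat_lit 4) (nat_lit 421) (nat_lit 311) (nat_lit 288))))) (XT.nd (nat_lit 156) (nat_lit 684) (nat_lit 0) (XT.nd (nat_lit 78) (nat_lit 380) (nat_lit 0) (XT.lf (nat_lit 0) (nat_lit 6064755920) (nat_lit 228) (nat_lit 1171393665) (nat_lit 76) (nat_lit 6941064424) (nat_lit 40) (nat_lit 5) (nat_lit 43) (nat_lit 5) (nat_lit 41) (nat_lit 4) (nat_lit 422) (nat_lit 311) (nat_lit 287)) (XT.lf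 (nat_lit 0) (nat_lit 1019851667) (nat_lit 228) (nat_lit 11470022312) (nat_lit 76) (nat_lit 1913184163) (nat_lit 35) (nat_lit 5) (nat_lit 38) (nat_lit 5) (nat_lit 36) (nat_lit 4) (nat_lit 423) (nat_lit 311) (nat_lit 286))) (XT.nd (nat_lit 78) (nat_lit 532) (nat_lit 0) (XT.lf (nat_lit 0) (nat_lit 7072203848) (nat_lit 152) (nat_lit 3305330893) (nat_lit 228) (nat_lit 4255837980) (nat_lit 33) (nat_lit 5) (nat_lit 35) (nat_lit 5) (nat_lit 36) (nat_lit 4) (nat_lit 424) (nat_lit 311) (nat_lit 285)) (XT.nd (nat_lit 78) (nat_lit 304) (nat_lit 0) (XT.lf (nat_lit 0) (nat_lit 5125254229) (nat_lit 228) (nat_lit 3607982526) (nat_lit 76) (nat_lit 6135744145) (nat_lit 30) (nat_lit 5) (nat_lit 33) (nat_lit 5) (nat_lit 31) (nat_lit 4) (nat_lit 425) (nat_lit 311) (nat_lit 284)) (XT.lf (nat_lit 0) (nat_lit 415000049) (nat_lit 152) (nat_lit 14354489447) (nat_lit 152) (nat_lit 340814598) (nat_lit 26) (nat_lit 4) (nat_lit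 28) (nat_lit 5) (nat_lit 28) (nat_lit 4) (nat_lit 426) (nat_lit 311) (nat_lit 283)))))) (XT.nd (nat_lit 50856) (nat_lit 0) (nat_lit 8284) (XT.nd (nat_lit 156) (nat_lit 76) (nat_lit 0) (XT.nd (nat_lit 78) (nat_lit 228) (nat_lit 0) (XT.lf (nat_lit 0) (nat_lit 4488410988) (nat_lit 152) (nat_lit 4827926708) (nat_lit 228) (nat_lit 6039421843) (nat_lit 23) (nat_lit 5) (nat_lit 25) (nat_lit 5) (nat_lit 26) (nat_lit 4) (nat_lit 427) (nat_lit 311) (nat_lit 282)) (XT.lf (nat_lit 0) (nat_lit 3648939447) (nat_lit 228) (nat_lit 6980394175) (nat_lit 76) (nat_lit 4977790605) (nat_lit 20) (nat_lit 5) (nat_lit 23) (nat_lit 5) (nat_lit 21) (nat_lit 4) (nat_lit 428) (nat_lit 311) (nat_lit 281))) (XT.nd (nat_lit 50544) (nat_lit 0) (nat_lit 10716) (XT.lf (nat_lit 0) (nat_lit 12818125399) (nat_lit 76) (nat_lit 777044869) (nat_lit 152) (nat_lit 2269075762) (nat_lit 19) (nat_lit 5) (nat_lit 20) (nat_lit 5) (nat_lit 21)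 (nat_lit 4) (nat_lit 429) (nat_lit 311) (nat_lit 280)) (XT.nd (nat_lit 78) (nat_lit 760) (nat_lit 0) (XT.lf (nat_lit 0) (nat_lit 2333204399) (nat_lit 380) (nat_lit 231152664) (nat_lit 0) (nat_lit 2333204399) (nat_lit 170) (nat_lit 5) (nat_lit 175) (nat_lit 4) (nat_lit 170) (nat_lit 4) (nat_lit 396) (nat_lit 312) (nat_lit 312)) (XT.lf (nat_lit 0) (nat_lit 2186895867) (nat_lit 380) (nat_lit 6633450507) (nat_lit 0) (nat_lit 1098899687) (nat_lit 160) (nat_lit 5) (nat_lit 165) (nat_lit 4) (nat_lit 160) (nat_lit 4) (nat_lit 397) (nat_lit 312) (nat_lit 311))))) (XT.nd (nat_lit 156) (nat_lit 1368) (nat_lit 0) (XT.nd (nat_lit 78) (nat_lit 684) (nat_lit 0) (XT.lf (nat_lit 0) (nat_lit 7087977213) (nat_lit 380) (nat_lit 2551498600) (nat_lit 380) (nat_lit 407195447) (nat_lit 155) (nat_lit 4) (nat_lit 160) (nat_lit 5) (nat_lit 160) (nat_lit 4) (nat_lit 398) (nat_lit 312) (nat_lit 310)) (XT.lf (nat_lit 0) (nat_lit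 768107691) (nat_lit 304) (nat_lit 6258462696) (nat_lit 304) (nat_lit 3150772596) (nat_lit 146) (nat_lit 4) (nat_lit 150) (nat_lit 5) (nat_lit 150) (nat_lit 4) (nat_lit 399) (nat_lit 312) (nat_lit 309))) (XT.nd (nat_lit 78) (nat_lit 988) (nat_lit 0) (XT.lf (nat_lit 0) (nat_lit 4301743609) (nat_lit 380) (nat_lit 5711728048) (nat_lit 0) (nat_lit 297981084) (nat_lit 141) (nat_lit 5) (nat_lit 146) (nat_lit 4) (nat_lit 141) (nat_lit 4) (nat_lit 400) (nat_lit 312) (nat_lit 308)) (XT.nd (nat_lit 78) (nat_lit 608) (nat_lit 0) (XT.lf (nat_lit 0) (nat_lit 1464949027) (nat_lit 380) (nat_lit 1973699010) (nat_lit 76) (nat_lit 7010356741) (nat_lit 136) (nat_lit 5) (nat_lit 141) (nat_lit 5) (nat_lit 137) (nat_lit 4) (nat_lit 401) (nat_lit 312) (nat_lit 307)) (XT.lf (nat_lit 0) (nat_lit 1840263508) (nat_lit 304) (nat_lit 7235158606) (nat_lit 304) (nat_lit 1514602307) (nat_lit 128) (nat_lit 4) (nat_lit 132) (nat_lit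 5) (nat_lit 132) (nat_lit 4) (nat_lit 402) (nat_lit 312) (nat_lit 306))))))) (XT.nd (nat_lit 780) (nat_lit 2964) (nat_lit 0) (XT.nd (nat_lit 390) (nat_lit 1824) (nat_lit 0) (XT.nd (nat_lit 156) (nat_lit 1216) (nat_lit 0) (XT.nd (nat_lit 78) (nat_lit 380) (nat_lit 0) (XT.lf (nat_lit 0) (nat_lit 5733085214) (nat_lit 228) (nat_lit 362096206) (nat_lit 304) (nat_lit 4639345188) (nat_lit 124) (nat_lit 5) (nat_lit 127) (nat_lit 5) (nat_lit 128) (nat_lit 4) (nat_lit 403) (nat_lit 312) (nat_lit 305)) (XT.lf (nat_lit 0) (nat_lit 2996982959) (nat_lit 380) (nat_lit 1213543166) (nat_lit 76) (nat_lit 6672100152) (nat_lit 119) (nat_lit 5) (nat_lit 124) (nat_lit 5) (nat_lit 120) (nat_lit 4) (nat_lit 404) (nat_lit 312) (nat_lit 304))) (XT.nd (nat_lit 78) (nat_lit 684) (nat_lit 0) (XT.lf (nat_lit 0) (nat_lit 2671005445) (nat_lit 304) (nat_lit 8133156470) (nat_lit 304) (nat_lit 230297868) (nat_lit 112) (nat_lit 4)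 (nat_lit 116) (nat_lit 5) (nat_lit 116) (nat_lit 4) (nat_lit 405) (nat_lit 312) (nat_lit 303)) (XT.nd (nat_lit 78) (nat_lit 380) (nat_lit 0) (XT.lf (nat_lit 0) (nat_lit 6609817022) (nat_lit 228) (nat_lit 948562650) (nat_lit 304) (nat_lit 3631393342) (nat_lit 108) (nat_lit 5) (nat_lit 111) (nat_lit 5) (nat_lit 112) (nat_lit 4) (nat_lit 406) (nat_lit 312) (nat_lit 302)) (XT.lf (nat_lit 0) (nat_lit 4184585115) (nat_lit 380) (nat_lit 754357302) (nat_lit 76) (nat_lit 6409980558) (nat_lit 103) (nat_lit 5) (nat_lit 108) (nat_lit 5) (nat_lit 104) (nat_lit 4) (nat_lit 407) (nat_lit 312) (nat_lit 301))))) (XT.nd (nat_lit 156) (nat_lit 1064) (nat_lit 0) (XT.nd (nat_lit 78) (nat_lit 228) (nat_lit 0) (XT.lf (nat_lit 0) (nat_lit 680562350) (nat_lit 304) (nat_lit 8336202554) (nat_lit 76) (nat_lit 2495193941) (nat_lit 96) (nat_lit 5) (nat_lit 100) (nat_lit 5) (nat_lit 97) (nat_lit 4) (nat_lit 408) (nat_lit 312)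 (nat_lit 300)) (XT.lf (nat_lit 0) (nat_lit 7151293670) (nat_lit 228) (nat_lit 1525218930) (nat_lit 304) (nat_lit 3002165301) (nat_lit 93) (nat_lit 5) (nat_lit 96) (nat_lit 5) (nat_lit 97) (nat_lit 4) (nat_lit 409) (nat_lit 312) (nat_lit 299))) (XT.nd (nat_lit 78) (nat_lit 760) (nat_lit 0) (XT.lf (nat_lit 0) (nat_lit 5012708380) (nat_lit 304) (nat_lit 678481858) (nat_lit 76) (nat_lit 6158207905) (nat_lit 89) (nat_lit 5) (nat_lit 93) (nat_lit 5) (nat_lit 90) (nat_lit 4) (nat_lit 410) (nat_lit 312) (nat_lit 298)) (XT.nd (nat_lit 78) (nat_lit 228) (nat_lit 0) (XT.lf (nat_lit 0) (nat_lit 1210992208) (nat_lit 304) (nat_lit 8747975139) (nat_lit 76) (nat_lit 2065232335) (nat_lit 82) (nat_lit 5) (nat_lit 86) (nat_lit 5) (nat_lit 83) (nat_lit 4) (nat_lit 411) (nat_lit 312) (nat_lit 297)) (XT.lf (nat_lit 0) (nat_lit 7272839028) (nat_lit 228) (nat_lit 2158527755) (nat_lit 304) (nat_lit 2771491756) (nat_lit 79)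 (nat_lit 5) (nat_lit 82) (nat_lit 5) (nat_lit 83) (nat_lit 4) (nat_lit 412) (nat_lit 312) (nat_lit 296)))))) (XT.nd (nat_lit 390) (nat_lit 1292) (nat_lit 0) (XT.nd (nat_lit 156) (nat_lit 912) (nat_lit 0) (XT.nd (nat_lit 78) (nat_lit 456) (nat_lit 0) (XT.lf (nat_lit 0) (nat_lit 5460934720) (nat_lit 304) (nat_lit 1072681143) (nat_lit 76) (nat_lit 5852110749) (nat_lit 75) (nat_lit 5) (nat_lit 79) (nat_lit 5) (nat_lit 76) (nat_lit 4) (nat_lit 413) (nat_lit 312) (nat_lit 295)) (XT.lf (nat_lit 0) (nat_lit 1340790915) (nat_lit 304) (nat_lit 9687453455) (nat_lit 76) (nat_lit 1544712305) (nat_lit 69) (nat_lit 5) (nat_lit 73) (nat_lit 5) (nat_lit 70) (nat_lit 4) (nat_lit 414) (nat_lit 312) (nat_lit 294))) (XT.nd (nat_lit 78) (nat_lit 760) (nat_lit 0) (XT.lf (nat_lit 0) (nat_lit 6884857144) (nat_lit 152) (nat_lit 2914498873) (nat_lit 228) (nat_lit 2964750252) (nat_lit 67) (nat_lit 5) (nat_lit 69) (nat_lit 5)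 (nat_lit 70) (nat_lit 4) (nat_lit 415) (nat_lit 312) (nat_lit 293)) (XT.nd (nat_lit 78) (nat_lit 456) (nat_lit 0) (XT.lf (nat_lit 0) (nat_lit 5503429750) (nat_lit 304) (nat_lit 2029015347) (nat_lit 76) (nat_lit 5427313675) (nat_lit 63) (nat_lit 5) (nat_lit 67) (nat_lit 5) (nat_lit 64) (nat_lit 4) (nat_lit 416) (nat_lit 312) (nat_lit 292)) (XT.lf (nat_lit 0) (nat_lit 1041233616) (nat_lit 304) (nat_lit 11250560496) (nat_lit 76) (nat_lit 868358103) (nat_lit 57) (nat_lit 5) (nat_lit 61) (nat_lit 5) (nat_lit 58) (nat_lit 4) (nat_lit 417) (nat_lit 312) (nat_lit 291))))) (XT.nd (nat_lit 156) (nat_lit 836) (nat_lit 0) (XT.nd (nat_lit 78) (nat_lit 304) (nat_lit 0) (XT.lf (nat_lit 0) (nat_lit 5891943549) (nat_lit 152) (nat_lit 3859494682) (nat_lit 228) (nat_lit 3612953156) (nat_lit 55) (nat_lit 5) (nat_lit 57) (nat_lit 5) (nat_lit 58) (nat_lit 4) (nat_lit 418) (nat_lit 312) (nat_lit 290)) (XT.lf (nat_lit 0)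 (nat_lit 5108839525) (nat_lit 304) (nat_lit 3645735065) (nat_lit 76) (nat_lit 4818951281) (nat_lit 51) (nat_lit 5) (nat_lit 55) (nat_lit 5) (nat_lit 52) (nat_lit 4) (nat_lit 419) (nat_lit 312) (nat_lit 289))) (XT.nd (nat_lit 78) (nat_lit 380) (nat_lit 0) (XT.lf (nat_lit 0) (nat_lit 247812068) (nat_lit 228) (nat_lit 30347616) (nat_lit 304) (nat_lit 13509728847) (nat_lit 45) (nat_lit 5) (nat_lit 48) (nat_lit 5) (nat_lit 49) (nat_lit 5) (nat_lit 420) (nat_lit 312) (nat_lit 288)) (XT.nd (nat_lit 78) (nat_lit 228) (nat_lit 0) (XT.lf (nat_lit 0) (nat_lit 4191969130) (nat_lit 152) (nat_lit 5061006590) (nat_lit 228) (nat_lit 4752893589) (nat_lit 43) (nat_lit 5) (nat_lit 45) (nat_lit 5) (nat_lit 46) (nat_lit 4) (nat_lit 421) (nat_lit 312) (nat_lit 287)) (XT.lf (nat_lit 0) (nat_lit 4240131029) (nat_lit 228) (nat_lit 6028206718) (nat_lit 76) (nat_lit 3960908883) (nat_lit 40) (nat_lit 5) (nat_lit 43) (nat_lit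 5) (nat_lit 41) (nat_lit 4) (nat_lit 422) (nat_lit 312) (nat_lit 286))))))))
noncomputable def xc8 : XT := (XT.nd (nat_lit 51792) (nat_lit 0) (nat_lit 988) (XT.nd (nat_lit 51012) (nat_lit 0) (nat_lit 7068) (XT.nd (nat_lit 312) (nat_lit 684) (nat_lit 0) (XT.nd (nat_lit 156) (nat_lit 380) (nat_lit 0) (XT.nd (nat_lit 78) (nat_lit 380) (nat_lit 0) (XT.lf (nat_lit 0) (nat_lit 12265292440) (nat_lit 152) (nat_lit 1212956748) (nat_lit 228) (nat_lit 979650230) (nat_lit 38) (nat_lit 5) (nat_lit 40) (nat_lit 5) (nat_lit 41) (nat_lit 4) (nat_lit 423) (nat_lit 312) (nat_lit 285)) (XT.lf (nat_lit 0) (nat_lit 1675128205) (nat_lit 152) (nat_lit 6588411565) (nat_lit 228) (nat_lit 6427348265) (nat_lit 33) (nat_lit 5) (nat_lit 35) (nat_lit 5) (nat_lit 36) (nat_lit 4) (nat_lit 424) (nat_lit 312) (nat_lit 284))) (XT.nd (nat_lit 78) (nat_lit 152) (nat_lit 0) (XT.lf (nat_lit 0) (nat_lit 2854377180) (nat_lit 228) (nat_lit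 9289877166) (nat_lit 76) (nat_lit 2785080775) (nat_lit 30) (nat_lit 5) (nat_lit 33) (nat_lit 5) (nat_lit 31) (nat_lit 4) (nat_lit 425) (nat_lit 312) (nat_lit 283)) (XT.lf (nat_lit 0) (nat_lit 9637475891) (nat_lit 152) (nat_lit 2746905098) (nat_lit 228) (nat_lit 2788561955) (nat_lit 28) (nat_lit 5) (nat_lit 30) (nat_lit 5) (nat_lit 31) (nat_lit 4) (nat_lit 426) (nat_lit 312) (nat_lit 282)))) (XT.nd (nat_lit 156) (nat_lit 76) (nat_lit 0) (XT.nd (nat_lit 78) (nat_lit 380) (nat_lit 0) (XT.lf (nat_lit 0) (nat_lit 6748197916) (nat_lit 228) (nat_lit 1753751150) (nat_lit 76) (nat_lit 6919817073) (nat_lit 25) (nat_lit 5) (nat_lit 28) (nat_lit 5) (nat_lit 26) (nat_lit 4) (nat_lit 427) (nat_lit 312) (nat_lit 281)) (XT.lf (nat_lit 0) (nat_lit 902486608) (nat_lit 228) (nat_lit 13553285835) (nat_lit 76) (nat_lit 1220637513) (nat_lit 20) (nat_lit 5) (nat_lit 23) (nat_lit 5) (nat_lit 21) (nat_lit 4) (nat_lit 428)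 (nat_lit 312) (nat_lit 280))) (XT.nd (nat_lit 50388) (nat_lit 0) (nat_lit 11856) (XT.lf (nat_lit 0) (nat_lit 6028658839) (nat_lit 76) (nat_lit 4708620472) (nat_lit 152) (nat_lit 5198481210) (nat_lit 19) (nat_lit 5) (nat_lit 20) (nat_lit 5) (nat_lit 21) (nat_lit 4) (nat_lit 429) (nat_lit 312) (nat_lit 279)) (XT.nd (nat_lit 78) (nat_lit 380) (nat_lit 0) (XT.lf (nat_lit 0) (nat_lit 499229963) (nat_lit 456) (nat_lit 3779138815) (nat_lit 0) (nat_lit 499229963) (nat_lit 180) (nat_lit 5) (nat_lit 186) (nat_lit 4) (nat_lit 180) (nat_lit 4) (nat_lit 394) (nat_lit 313) (nat_lit 313)) (XT.lf (nat_lit 0) (nat_lit 5572640042) (nat_lit 380) (nat_lit 2633772703) (nat_lit 380) (nat_lit 1467862940) (nat_lit 175) (nat_lit 4) (nat_lit 180) (nat_lit 5) (nat_lit 180) (nat_lit 4) (nat_lit 395) (nat_lit 313) (nat_lit 312)))))) (XT.nd (nat_lit 390) (nat_lit 2204) (nat_lit 0) (XT.nd (nat_lit 156) (nat_lit 1444) (nat_lit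 0) (XT.nd (nat_lit 78) (nat_lit 760) (nat_lit 0) (XT.lf (nat_lit 0) (nat_lit 5727515270) (nat_lit 380) (nat_lit 594536124) (nat_lit 0) (nat_lit 3474710378) (nat_lit 170) (nat_lit 5) (nat_lit 175) (nat_lit 4) (nat_lit 170) (nat_lit 4) (nat_lit 396) (nat_lit 313) (nat_lit 311)) (XT.lf (nat_lit 0) (nat_lit 3015854326) (nat_lit 304) (nat_lit 125775539) (nat_lit 380) (nat_lit 6780934237) (nat_lit 160) (nat_lit 5) (nat_lit 164) (nat_lit 5) (nat_lit 165) (nat_lit 4) (nat_lit 397) (nat_lit 313) (nat_lit 310))) (XT.nd (nat_lit 78) (nat_lit 988) (nat_lit 0) (XT.lf (nat_lit 0) (nat_lit 453330348) (nat_lit 456) (nat_lit 3374752663) (nat_lit 76) (nat_lit 6223510674) (nat_lit 154) (nat_lit 5) (nat_lit 160) (nat_lit 5) (nat_lit 155) (nat_lit 4) (nat_lit 398) (nat_lit 313) (nat_lit 309)) (XT.nd (nat_lit 78) (nat_lit 380) (nat_lit 0) (XT.lf (nat_lit 0) (nat_lit 207646542) (nat_lit 304) (nat_lit 7579479584) (nat_lit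 304) (nat_lit 2396978998) (nat_lit 146) (nat_lit 4) (nat_lit 150) (nat_lit 5) (nat_lit 150) (nat_lit 4) (nat_lit 399) (nat_lit 313) (nat_lit 308)) (XT.lf (nat_lit 0) (nat_lit 3889148218) (nat_lit 304) (nat_lit 1070933462) (nat_lit 380) (nat_lit 5359746708) (nat_lit 141) (nat_lit 5) (nat_lit 145) (nat_lit 5) (nat_lit 146) (nat_lit 4) (nat_lit 400) (nat_lit 313) (nat_lit 307))))) (XT.nd (nat_lit 156) (nat_lit 1216) (nat_lit 0) (XT.nd (nat_lit 78) (nat_lit 608) (nat_lit 0) (XT.lf (nat_lit 0) (nat_lit 2015441115) (nat_lit 380) (nat_lit 2840896774) (nat_lit 76) (nat_lit 5602777056) (nat_lit 136) (nat_lit 5) (nat_lit 141) (nat_lit 5) (nat_lit 137) (nat_lit 4) (nat_lit 401) (nat_lit 313) (nat_lit 306)) (XT.lf (nat_lit 0) (nat_lit 815074790) (nat_lit 304) (nat_lit 8711117939) (nat_lit 304) (nat_lit 1075936288) (nat_lit 128) (nat_lit 4) (nat_lit 132) (nat_lit 5) (nat_lit 132) (nat_lit 4) (nat_lit 402) (nat_lit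 313) (nat_lit 305))) (XT.nd (nat_lit 78) (nat_lit 912) (nat_lit 0) (XT.lf (nat_lit 0) (nat_lit 4546458363) (nat_lit 228) (nat_lit 1896737911) (nat_lit 304) (nat_lit 4305075927) (nat_lit 124) (nat_lit 5) (nat_lit 127) (nat_lit 5) (nat_lit 128) (nat_lit 4) (nat_lit 403) (nat_lit 313) (nat_lit 304)) (XT.nd (nat_lit 78) (nat_lit 532) (nat_lit 0) (XT.lf (nat_lit 0) (nat_lit 3231464227) (nat_lit 380) (nat_lit 2568652539) (nat_lit 76) (nat_lit 5098119777) (nat_lit 119) (nat_lit 5) (nat_lit 124) (nat_lit 5) (nat_lit 120) (nat_lit 4) (nat_lit 404) (nat_lit 313) (nat_lit 303)) (XT.lf (nat_lit 0) (nat_lit 1140666379) (nat_lit 304) (nat_lit 9792310760) (nat_lit 304) (nat_lit 119206232) (nat_lit 112) (nat_lit 4) (nat_lit 116) (nat_lit 5) (nat_lit 116) (nat_lit 4) (nat_lit 405) (nat_lit 313) (nat_lit 302))))))) (XT.nd (nat_lit 780) (nat_lit 2660) (nat_lit 0) (XT.nd (nat_lit 390) (nat_lit 1672) (nat_lit 0) (XT.nd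 (nat_lit 156) (nat_lit 1064) (nat_lit 0) (XT.nd (nat_lit 78) (nat_lit 380) (nat_lit 0) (XT.lf (nat_lit 0) (nat_lit 4908106738) (nat_lit 228) (nat_lit 2673311563) (nat_lit 304) (nat_lit 3627795795) (nat_lit 108) (nat_lit 5) (nat_lit 111) (nat_lit 5) (nat_lit 112) (nat_lit 4) (nat_lit 406) (nat_lit 313) (nat_lit 301)) (XT.lf (nat_lit 0) (nat_lit 4089653079) (nat_lit 380) (nat_lit 2639150808) (nat_lit 76) (nat_lit 4641529350) (nat_lit 103) (nat_lit 5) (nat_lit 108) (nat_lit 5) (nat_lit 104) (nat_lit 4) (nat_lit 407) (nat_lit 313) (nat_lit 300))) (XT.nd (nat_lit 78) (nat_lit 532) (nat_lit 0) (XT.lf (nat_lit 0) (nat_lit 452521219) (nat_lit 304) (nat_lit 10436750055) (nat_lit 76) (nat_lit 646377437) (nat_lit 96) (nat_lit 5) (nat_lit 100) (nat_lit 5) (nat_lit 97) (nat_lit 4) (nat_lit 408) (nat_lit 313) (nat_lit 299)) (XT.nd (nat_lit 78) (nat_lit 304) (nat_lit 0) (XT.lf (nat_lit 0) (nat_lit 4890914947) (nat_lit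 228) (nat_lit 3468853331) (nat_lit 304) (nat_lit 3344373552) (nat_lit 93) (nat_lit 5) (nat_lit 96) (nat_lit 5) (nat_lit 97) (nat_lit 4) (nat_lit 409) (nat_lit 313) (nat_lit 298)) (XT.lf (nat_lit 0) (nat_lit 4572829359) (nat_lit 304) (nat_lit 3137399775) (nat_lit 76) (nat_lit 4166720552) (nat_lit 89) (nat_lit 5) (nat_lit 93) (nat_lit 5) (nat_lit 90) (nat_lit 4) (nat_lit 410) (nat_lit 313) (nat_lit 297))))) (XT.nd (nat_lit 156) (nat_lit 912) (nat_lit 0) (XT.nd (nat_lit 78) (nat_lit 228) (nat_lit 0) (XT.lf (nat_lit 0) (nat_lit 607865029) (nat_lit 228) (nat_lit 20980293) (nat_lit 304) (nat_lit 11425383536) (nat_lit 82) (nat_lit 5) (nat_lit 85) (nat_lit 5) (nat_lit 86) (nat_lit 5) (nat_lit 411) (nat_lit 313) (nat_lit 296)) (XT.lf (nat_lit 0) (nat_lit 4407334504) (nat_lit 228) (nat_lit 4350525544) (nat_lit 304) (nat_lit 3476854864) (nat_lit 79) (nat_lit 5) (nat_lit 82) (nat_lit 5) (nat_lit 83) (nat_lit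 4) (nat_lit 412) (nat_lit 313) (nat_lit 295))) (XT.nd (nat_lit 78) (nat_lit 608) (nat_lit 0) (XT.lf (nat_lit 0) (nat_lit 4658379071) (nat_lit 304) (nat_lit 4153154294) (nat_lit 76) (nat_lit 3608270084) (nat_lit 75) (nat_lit 5) (nat_lit 79) (nat_lit 5) (nat_lit 76) (nat_lit 4) (nat_lit 413) (nat_lit 313) (nat_lit 294)) (XT.nd (nat_lit 78) (nat_lit 380) (nat_lit 0) (XT.lf (nat_lit 0) (nat_lit 393555395) (nat_lit 228) (nat_lit 422575178) (nat_lit 76) (nat_lit 11793443090) (nat_lit 72) (nat_lit 5) (nat_lit 75) (nat_lit 5) (nat_lit 73) (nat_lit 5) (nat_lit 414) (nat_lit 313) (nat_lit 293)) (XT.lf (nat_lit 0) (nat_lit 3364564154) (nat_lit 152) (nat_lit 5385293585) (nat_lit 228) (nat_lit 4052910774) (nat_lit 67) (nat_lit 5) (nat_lit 69) (nat_lit 5) (nat_lit 70) (nat_lit 4) (nat_lit 415) (nat_lit 313) (nat_lit 292)))))) (XT.nd (nat_lit 390) (nat_lit 1292) (nat_lit 0) (XT.nd (nat_lit 156) (nat_lit 912) (nat_lit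 0) (XT.nd (nat_lit 78) (nat_lit 152) (nat_lit 0) (XT.lf (nat_lit 0) (nat_lit 4318188849) (nat_lit 304) (nat_lit 5781801864) (nat_lit 76) (nat_lit 2900798639) (nat_lit 63) (nat_lit 5) (nat_lit 67) (nat_lit 5) (nat_lit 64) (nat_lit 4) (nat_lit 416) (nat_lit 313) (nat_lit 291)) (XT.lf (nat_lit 0) (nat_lit 11126472988) (nat_lit 152) (nat_lit 1790441760) (nat_lit 228) (nat_lit 286669145) (nat_lit 61) (nat_lit 5) (nat_lit 63) (nat_lit 5) (nat_lit 64) (nat_lit 4) (nat_lit 417) (nat_lit 313) (nat_lit 290))) (XT.nd (nat_lit 78) (nat_lit 456) (nat_lit 0) (XT.lf (nat_lit 0) (nat_lit 1663645554) (nat_lit 152) (nat_lit 6640728904) (nat_lit 228) (nat_lit 5105944246) (nat_lit 55) (nat_lit 5) (nat_lit 57) (nat_lit 5) (nat_lit 58) (nat_lit 4) (nat_lit 418) (nat_lit 313) (nat_lit 289)) (XT.nd (nat_lit 78) (nat_lit 152) (nat_lit 0) (XT.lf (nat_lit 0) (nat_lit 3518524516) (nat_lit 304) (nat_lit 8125273818) (nat_lit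 76) (nat_lit 1978186819) (nat_lit 51) (nat_lit 5) (nat_lit 55) (nat_lit 5) (nat_lit 52) (nat_lit 4) (nat_lit 419) (nat_lit 313) (nat_lit 288)) (XT.lf (nat_lit 0) (nat_lit 9367418593) (nat_lit 152) (nat_lit 3011662269) (nat_lit 228) (nat_lit 1459311263) (nat_lit 49) (nat_lit 5) (nat_lit 51) (nat_lit 5) (nat_lit 52) (nat_lit 4) (nat_lit 420) (nat_lit 313) (nat_lit 287))))) (XT.nd (nat_lit 156) (nat_lit 608) (nat_lit 0) (XT.nd (nat_lit 78) (nat_lit 380) (nat_lit 0) (XT.lf (nat_lit 0) (nat_lit 7389517904) (nat_lit 304) (nat_lit 790959762) (nat_lit 76) (nat_lit 5878987253) (nat_lit 45) (nat_lit 5) (nat_lit 49) (nat_lit 5) (nat_lit 46) (nat_lit 4) (nat_lit 421) (nat_lit 313) (nat_lit 286)) (XT.lf (nat_lit 0) (nat_lit 2219853193) (nat_lit 228) (nat_lit 11292990121) (nat_lit 76) (nat_lit 772815199) (nat_lit 40) (nat_lit 5) (nat_lit 43) (nat_lit 5) (nat_lit 41) (nat_lit 4) (nat_lit 422) (nat_lit 313) (nat_lit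 285))) (XT.nd (nat_lit 78) (nat_lit 456) (nat_lit 0) (XT.lf (nat_lit 0) (nat_lit 6803443818) (nat_lit 152) (nat_lit 4551671549) (nat_lit 228) (nat_lit 3161253053) (nat_lit 38) (nat_lit 5) (nat_lit 40) (nat_lit 5) (nat_lit 41) (nat_lit 4) (nat_lit 423) (nat_lit 313) (nat_lit 284)) (XT.nd (nat_lit 78) (nat_lit 228) (nat_lit 0) (XT.lf (nat_lit 0) (nat_lit 5973569441) (nat_lit 228) (nat_lit 4090539505) (nat_lit 76) (nat_lit 4688270972) (nat_lit 35) (nat_lit 5) (nat_lit 38) (nat_lit 5) (nat_lit 36) (nat_lit 4) (nat_lit 424) (nat_lit 313) (nat_lit 283)) (XT.lf (nat_lit 0) (nat_lit 384462195) (nat_lit 228) (nat_lit 408412274) (nat_lit 76) (nat_lit 14201243733) (nat_lit 32) (nat_lit 5) (nat_lit 35) (nat_lit 5) (nat_lit 33) (nat_lit 5) (nat_lit 425) (nat_lit 313) (nat_lit 282))))))))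
noncomputable def xc9 : XT := (XT.nd (nat_lit 51636) (nat_lit 0) (nat_lit 760) (XT.nd (nat_lit 50856) (nat_lit 0) (nat_lit 6688) (XT.nd (nat_lit 50466) (nat_lit 0) (nat_lit 11400) (XT.nd (nat_lit 156) (nat_lit 380) (nat_lit 0) (XT.nd (nat_lit 78) (nat_lit 228) (nat_lit 0) (XT.lf (nat_lit 0) (nat_lit 3316968637) (nat_lit 152) (nat_lit 6482242078) (nat_lit 228) (nat_lit 5440820416) (nat_lit 28) (nat_lit 5) (nat_lit 30) (nat_lit 5) (nat_lit 31) (nat_lit 4) (nat_lit 426) (nat_lit 313) (nat_lit 281)) (XT.lf (nat_lit 0) (nat_lit 3997315812) (nat_lit 228) (nat_lit 8378496084) (nat_lit 76) (nat_lit 3116055004) (nat_lit 25) (nat_lit 5) (nat_lit 28) (nat_lit 5) (nat_lit 26) (nat_lit 4) (nat_lit 427) (nat_lit 313) (nat_lit 280))) (XT.nd (nat_lit 78) (nat_lit 228) (nat_lit 0) (XT.lf (nat_lit 0) (nat_lit 10949296788) (nat_lit 152) (nat_lit 2759809217) (nat_lit 228) (nat_lit 2040143875) (nat_lit 23) (nat_lit 5)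 (nat_lit 25) (nat_lit 5) (nat_lit 26) (nat_lit 4) (nat_lit 428) (nat_lit 313) (nat_lit 279)) (XT.lf (nat_lit 0) (nat_lit 7667162788) (nat_lit 228) (nat_lit 1203187423) (nat_lit 76) (nat_lit 7141600012) (nat_lit 20) (nat_lit 5) (nat_lit 23) (nat_lit 5) (nat_lit 21) (nat_lit 4) (nat_lit 429) (nat_lit 313) (nat_lit 278)))) (XT.nd (nat_lit 156) (nat_lit 1596) (nat_lit 0) (XT.nd (nat_lit 78) (nat_lit 456) (nat_lit 0) (XT.lf (nat_lit 0) (nat_lit 2254555729) (nat_lit 456) (nat_lit 1203874239) (nat_lit 456) (nat_lit 1203874239) (nat_lit 197) (nat_lit 4) (nat_lit 203) (nat_lit 5) (nat_lit 203) (nat_lit 4) (nat_lit 392) (nat_lit 314) (nat_lit 314)) (XT.lf (nat_lit 0) (nat_lit 4572838646) (nat_lit 456) (nat_lit 1518257286) (nat_lit 0) (nat_lit 3347933848) (nat_lit 191) (nat_lit 5) (nat_lit 197) (nat_lit 4) (nat_lit 191) (nat_lit 4) (nat_lit 393) (nat_lit 314) (nat_lit 313))) (XT.nd (nat_lit 78) (nat_lit 760)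 (nat_lit 0) (XT.lf (nat_lit 0) (nat_lit 1866642159) (nat_lit 380) (nat_lit 252553343) (nat_lit 456) (nat_lit 7437605011) (nat_lit 180) (nat_lit 5) (nat_lit 185) (nat_lit 5) (nat_lit 186) (nat_lit 4) (nat_lit 394) (nat_lit 314) (nat_lit 312)) (XT.nd (nat_lit 78) (nat_lit 380) (nat_lit 0) (XT.lf (nat_lit 0) (nat_lit 5312540256) (nat_lit 380) (nat_lit 3931870627) (nat_lit 380) (nat_lit 433122581) (nat_lit 175) (nat_lit 4) (nat_lit 180) (nat_lit 5) (nat_lit 180) (nat_lit 4) (nat_lit 395) (nat_lit 314) (nat_lit 311)) (XT.lf (nat_lit 0) (nat_lit 6658956974) (nat_lit 380) (nat_lit 991344048) (nat_lit 0) (nat_lit 2151378720) (nat_lit 170) (nat_lit 5) (nat_lit 175) (nat_lit 4) (nat_lit 170) (nat_lit 4) (nat_lit 396) (nat_lit 314) (nat_lit 310)))))) (XT.nd (nat_lit 390) (nat_lit 2128) (nat_lit 0) (XT.nd (nat_lit 156) (nat_lit 1368) (nat_lit 0) (XT.nd (nat_lit 78) (nat_lit 456) (nat_lit 0) (XT.lf (nat_lit 0)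 (nat_lit 2468282191) (nat_lit 304) (nat_lit 1502961377) (nat_lit 380) (nat_lit 5957813363) (nat_lit 160) (nat_lit 5) (nat_lit 164) (nat_lit 5) (nat_lit 165) (nat_lit 4) (nat_lit 397) (nat_lit 314) (nat_lit 309)) (XT.lf (nat_lit 0) (nat_lit 1174281510) (nat_lit 456) (nat_lit 4068357094) (nat_lit 76) (nat_lit 4817168511) (nat_lit 154) (nat_lit 5) (nat_lit 160) (nat_lit 5) (nat_lit 155) (nat_lit 4) (nat_lit 398) (nat_lit 314) (nat_lit 308))) (XT.nd (nat_lit 78) (nat_lit 1064) (nat_lit 0) (XT.lf (nat_lit 0) (nat_lit 8415333079) (nat_lit 380) (nat_lit 625346752) (nat_lit 0) (nat_lit 1153493608) (nat_lit 150) (nat_lit 5) (nat_lit 155) (nat_lit 4) (nat_lit 150) (nat_lit 4) (nat_lit 399) (nat_lit 314) (nat_lit 307)) (XT.nd (nat_lit 78) (nat_lit 380) (nat_lit 0) (XT.lf (nat_lit 0) (nat_lit 2893353373) (nat_lit 304) (nat_lit 2589471206) (nat_lit 380) (nat_lit 4848737631) (nat_lit 141) (nat_lit 5) (nat_lit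 145) (nat_lit 5) (nat_lit 146) (nat_lit 4) (nat_lit 400) (nat_lit 314) (nat_lit 306)) (XT.lf (nat_lit 0) (nat_lit 2426292720) (nat_lit 380) (nat_lit 3996208002) (nat_lit 76) (nat_lit 4050150799) (nat_lit 136) (nat_lit 5) (nat_lit 141) (nat_lit 5) (nat_lit 137) (nat_lit 4) (nat_lit 401) (nat_lit 314) (nat_lit 305))))) (XT.nd (nat_lit 156) (nat_lit 1216) (nat_lit 0) (XT.nd (nat_lit 78) (nat_lit 608) (nat_lit 0) (XT.lf (nat_lit 0) (nat_lit 9838090308) (nat_lit 380) (nat_lit 497942576) (nat_lit 0) (nat_lit 281611790) (nat_lit 132) (nat_lit 5) (nat_lit 137) (nat_lit 4) (nat_lit 132) (nat_lit 4) (nat_lit 402) (nat_lit 314) (nat_lit 304)) (XT.lf (nat_lit 0) (nat_lit 3062771674) (nat_lit 228) (nat_lit 3585043456) (nat_lit 304) (nat_lit 4117691761) (nat_lit 124) (nat_lit 5) (nat_lit 127) (nat_lit 5) (nat_lit 128) (nat_lit 4) (nat_lit 403) (nat_lit 314) (nat_lit 303))) (XT.nd (nat_lit 78) (nat_lit 836) (nat_lit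 0) (XT.lf (nat_lit 0) (nat_lit 3320255753) (nat_lit 380) (nat_lit 4226003335) (nat_lit 76) (nat_lit 3371110513) (nat_lit 119) (nat_lit 5) (nat_lit 124) (nat_lit 5) (nat_lit 120) (nat_lit 4) (nat_lit 404) (nat_lit 314) (nat_lit 302)) (XT.nd (nat_lit 78) (nat_lit 608) (nat_lit 0) (XT.lf (nat_lit 0) (nat_lit 10380295886) (nat_lit 228) (nat_lit 541057886) (nat_lit 304) (nat_lit 151970954) (nat_lit 116) (nat_lit 5) (nat_lit 119) (nat_lit 5) (nat_lit 120) (nat_lit 4) (nat_lit 405) (nat_lit 314) (nat_lit 301)) (XT.lf (nat_lit 0) (nat_lit 2894512167) (nat_lit 228) (nat_lit 4560048054) (nat_lit 304) (nat_lit 3777689948) (nat_lit 108) (nat_lit 5) (nat_lit 111) (nat_lit 5) (nat_lit 112) (nat_lit 4) (nat_lit 406) (nat_lit 314) (nat_lit 300))))))) (XT.nd (nat_lit 780) (nat_lit 2508) (nat_lit 0) (XT.nd (nat_lit 390) (nat_lit 1748) (nat_lit 0) (XT.nd (nat_lit 156) (nat_lit 988) (nat_lit 0) (XT.nd (nat_lit 78) (nat_lit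 304) (nat_lit 0) (XT.lf (nat_lit 0) (nat_lit 3842311686) (nat_lit 380) (nat_lit 4841335708) (nat_lit 76) (nat_lit 2711729643) (nat_lit 103) (nat_lit 5) (nat_lit 108) (nat_lit 5) (nat_lit 104) (nat_lit 4) (nat_lit 407) (nat_lit 314) (nat_lit 299)) (XT.lf (nat_lit 0) (nat_lit 84879412) (nat_lit 304) (nat_lit 1293532352) (nat_lit 76) (nat_lit 10184292696) (nat_lit 99) (nat_lit 5) (nat_lit 103) (nat_lit 5) (nat_lit 100) (nat_lit 5) (nat_lit 408) (nat_lit 314) (nat_lit 298))) (XT.nd (nat_lit 78) (nat_lit 532) (nat_lit 0) (XT.lf (nat_lit 0) (nat_lit 2302734973) (nat_lit 228) (nat_lit 5583200137) (nat_lit 304) (nat_lit 3847386296) (nat_lit 93) (nat_lit 5) (nat_lit 96) (nat_lit 5) (nat_lit 97) (nat_lit 4) (nat_lit 409) (nat_lit 314) (nat_lit 297)) (XT.nd (nat_lit 78) (nat_lit 228) (nat_lit 0) (XT.lf (nat_lit 0) (nat_lit 3973118003) (nat_lit 304) (nat_lit 5929991691) (nat_lit 76) (nat_lit 2005150800) (nat_lit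 89) (nat_lit 5) (nat_lit 93) (nat_lit 5) (nat_lit 90) (nat_lit 4) (nat_lit 410) (nat_lit 314) (nat_lit 296)) (XT.lf (nat_lit 0) (nat_lit 9702734408) (nat_lit 228) (nat_lit 2295826835) (nat_lit 304) (nat_lit 88925993) (nat_lit 86) (nat_lit 5) (nat_lit 89) (nat_lit 5) (nat_lit 90) (nat_lit 4) (nat_lit 411) (nat_lit 314) (nat_lit 295))))) (XT.nd (nat_lit 156) (nat_lit 912) (nat_lit 0) (XT.nd (nat_lit 78) (nat_lit 304) (nat_lit 0) (XT.lf (nat_lit 0) (nat_lit 1196904451) (nat_lit 228) (nat_lit 6722439678) (nat_lit 304) (nat_lit 4351078925) (nat_lit 79) (nat_lit 5) (nat_lit 82) (nat_lit 5) (nat_lit 83) (nat_lit 4) (nat_lit 412) (nat_lit 314) (nat_lit 294)) (XT.lf (nat_lit 0) (nat_lit 3687826097) (nat_lit 304) (nat_lit 7584833276) (nat_lit 76) (nat_lit 1185121631) (nat_lit 75) (nat_lit 5) (nat_lit 79) (nat_lit 5) (nat_lit 76) (nat_lit 4) (nat_lit 413) (nat_lit 314) (nat_lit 293))) (XT.nd (nat_lit 78) (nat_lit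 760) (nat_lit 0) (XT.lf (nat_lit 0) (nat_lit 8586939964) (nat_lit 152) (nat_lit 3358695016) (nat_lit 228) (nat_lit 703812481) (nat_lit 73) (nat_lit 5) (nat_lit 75) (nat_lit 5) (nat_lit 76) (nat_lit 4) (nat_lit 414) (nat_lit 314) (nat_lit 292)) (XT.nd (nat_lit 78) (nat_lit 456) (nat_lit 0) (XT.lf (nat_lit 0) (nat_lit 7530029642) (nat_lit 304) (nat_lit 512299082) (nat_lit 76) (nat_lit 4803038797) (nat_lit 69) (nat_lit 5) (nat_lit 73) (nat_lit 5) (nat_lit 70) (nat_lit 4) (nat_lit 415) (nat_lit 314) (nat_lit 291)) (XT.lf (nat_lit 0) (nat_lit 2955999209) (nat_lit 304) (nat_lit 9904698707) (nat_lit 76) (nat_lit 185180764) (nat_lit 63) (nat_lit 5) (nat_lit 67) (nat_lit 5) (nat_lit 64) (nat_lit 4) (nat_lit 416) (nat_lit 314) (nat_lit 290)))))) (XT.nd (nat_lit 390) (nat_lit 1140) (nat_lit 0) (XT.nd (nat_lit 156) (nat_lit 912) (nat_lit 0) (XT.nd (nat_lit 78) (nat_lit 304) (nat_lit 0) (XT.lf (nat_lit 0) (nat_lit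 6823982716) (nat_lit 152) (nat_lit 4635185449) (nat_lit 228) (nat_lit 1791416195) (nat_lit 61) (nat_lit 5) (nat_lit 63) (nat_lit 5) (nat_lit 64) (nat_lit 4) (nat_lit 417) (nat_lit 314) (nat_lit 289)) (XT.lf (nat_lit 0) (nat_lit 6693240413) (nat_lit 304) (nat_lit 2909278345) (nat_lit 76) (nat_lit 3857518251) (nat_lit 57) (nat_lit 5) (nat_lit 61) (nat_lit 5) (nat_lit 58) (nat_lit 4) (nat_lit 418) (nat_lit 314) (nat_lit 288))) (XT.nd (nat_lit 78) (nat_lit 456) (nat_lit 0) (XT.lf (nat_lit 0) (nat_lit 672220119) (nat_lit 228) (nat_lit 1076240154) (nat_lit 304) (nat_lit 11926078737) (nat_lit 51) (nat_lit 5) (nat_lit 54) (nat_lit 5) (nat_lit 55) (nat_lit 5) (nat_lit 419) (nat_lit 314) (nat_lit 287)) (XT.nd (nat_lit 78) (nat_lit 304) (nat_lit 0) (XT.lf (nat_lit 0) (nat_lit 4308514060) (nat_lit 152) (nat_lit 6194177453) (nat_lit 228) (nat_lit 3390380971) (nat_lit 49) (nat_lit 5) (nat_lit 51) (nat_lit 5) (nat_lit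 52) (nat_lit 4) (nat_lit 420) (nat_lit 314) (nat_lit 286)) (XT.lf (nat_lit 0) (nat_lit 5362311591) (nat_lit 304) (nat_lit 6118394604) (nat_lit 76) (nat_lit 2636119096) (nat_lit 45) (nat_lit 5) (nat_lit 49) (nat_lit 5) (nat_lit 46) (nat_lit 4) (nat_lit 421) (nat_lit 314) (nat_lit 285))))) (XT.nd (nat_lit 156) (nat_lit 608) (nat_lit 0) (XT.nd (nat_lit 78) (nat_lit 304) (nat_lit 0) (XT.lf (nat_lit 0) (nat_lit 36583608) (nat_lit 228) (nat_lit 2606823762) (nat_lit 76) (nat_lit 11702403052) (nat_lit 42) (nat_lit 5) (nat_lit 45) (nat_lit 5) (nat_lit 43) (nat_lit 5) (nat_lit 422) (nat_lit 314) (nat_lit 284)) (XT.lf (nat_lit 0) (nat_lit 927243616) (nat_lit 152) (nat_lit 8106592383) (nat_lit 228) (nat_lit 5545444525) (nat_lit 38) (nat_lit 5) (nat_lit 40) (nat_lit 5) (nat_lit 41) (nat_lit 4) (nat_lit 423) (nat_lit 314) (nat_lit 283))) (XT.nd (nat_lit 78) (nat_lit 380) (nat_lit 0) (XT.lf (nat_lit 0) (nat_lit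 3492343003) (nat_lit 228) (nat_lit 10256662453) (nat_lit 76) (nat_lit 1069162242) (nat_lit 35) (nat_lit 5) (nat_lit 38) (nat_lit 5) (nat_lit 36) (nat_lit 4) (nat_lit 424) (nat_lit 314) (nat_lit 282)) (XT.nd (nat_lit 78) (nat_lit 228) (nat_lit 0) (XT.lf (nat_lit 0) (nat_lit 8219008495) (nat_lit 152) (nat_lit 4578179652) (nat_lit 228) (nat_lit 2264874937) (nat_lit 33) (nat_lit 5) (nat_lit 35) (nat_lit 5) (nat_lit 36) (nat_lit 4) (nat_lit 425) (nat_lit 314) (nat_lit 281)) (XT.lf (nat_lit 0) (nat_lit 7026418831) (nat_lit 228) (nat_lit 3396932029) (nat_lit 76) (nat_lit 4887982433) (nat_lit 30) (nat_lit 5) (nat_lit 33) (nat_lit 5) (nat_lit 31) (nat_lit 4) (nat_lit 426) (nat_lit 314) (nat_lit 280))))))))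
noncomputable def xc10 : XT := (XT.nd (nat_lit 51480) (nat_lit 0) (nat_lit 988) (XT.nd (nat_lit 50700) (nat_lit 0) (nat_lit 7296) (XT.nd (nat_lit 50310) (nat_lit 0) (nat_lit 11704) (XT.nd (nat_lit 156) (nat_lit 228) (nat_lit 0) (XT.nd (nat_lit 78) (nat_lit 152) (nat_lit 0) (XT.lf (nat_lit 0) (nat_lit 110080869) (nat_lit 152) (nat_lit 928090871) (nat_lit 228) (nat_lit 14528413654) (nat_lit 25) (nat_lit 5) (nat_lit 27) (nat_lit 5) (nat_lit 28) (nat_lit 5) (nat_lit 427) (nat_lit 314) (nat_lit 279)) (XT.lf (nat_lit 0) (nat_lit 3662905666) (nat_lit 152) (nat_lit 6970705861) (nat_lit 228) (nat_lit 5192683856) (nat_lit 23) (nat_lit 5) (nat_lit 25) (nat_lit 5) (nat_lit 26) (nat_lit 4) (nat_lit 428) (nat_lit 314) (nat_lit 278))) (XT.nd (nat_lit 50076) (nat_lit 0) (nat_lit 14820) (XT.lf (nat_lit 0) (nat_lit 4416374656) (nat_lit 228) (nat_lit 8814574577) (nat_lit 76) (nat_lit 2861247744) (nat_lit 20) (nat_lit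 5) (nat_lit 23) (nat_lit 5) (nat_lit 21) (nat_lit 4) (nat_lit 429) (nat_lit 314) (nat_lit 277)) (XT.lf (nat_lit 0) (nat_lit 1773497371) (nat_lit 532) (nat_lit 1004842424) (nat_lit 0) (nat_lit 1773497371) (nat_lit 215) (nat_lit 5) (nat_lit 222) (nat_lit 4) (nat_lit 215) (nat_lit 4) (nat_lit 390) (nat_lit 315) (nat_lit 315)))) (XT.nd (nat_lit 156) (nat_lit 1748) (nat_lit 0) (XT.nd (nat_lit 78) (nat_lit 456) (nat_lit 0) (XT.lf (nat_lit 0) (nat_lit 1156817343) (nat_lit 380) (nat_lit 65677717) (nat_lit 456) (nat_lit 7991106636) (nat_lit 203) (nat_lit 5) (nat_lit 208) (nat_lit 5) (nat_lit 209) (nat_lit 4) (nat_lit 391) (nat_lit 315) (nat_lit 314)) (XT.lf (nat_lit 0) (nat_lit 4384941153) (nat_lit 456) (nat_lit 3738777828) (nat_lit 456) (nat_lit 1202489955) (nat_lit 197) (nat_lit 4) (nat_lit 203) (nat_lit 5) (nat_lit 203) (nat_lit 4) (nat_lit 392) (nat_lit 315) (nat_lit 313))) (XT.nd (nat_lit 78) (nat_lit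 1292) (nat_lit 0) (XT.lf (nat_lit 0) (nat_lit 5673518596) (nat_lit 456) (nat_lit 1770996724) (nat_lit 0) (nat_lit 1997733899) (nat_lit 191) (nat_lit 5) (nat_lit 197) (nat_lit 4) (nat_lit 191) (nat_lit 4) (nat_lit 393) (nat_lit 315) (nat_lit 312)) (XT.nd (nat_lit 78) (nat_lit 456) (nat_lit 0) (XT.lf (nat_lit 0) (nat_lit 1471471268) (nat_lit 380) (nat_lit 1648254581) (nat_lit 456) (nat_lit 6441802330) (nat_lit 180) (nat_lit 5) (nat_lit 185) (nat_lit 5) (nat_lit 186) (nat_lit 4) (nat_lit 394) (nat_lit 315) (nat_lit 311)) (XT.lf (nat_lit 0) (nat_lit 465170642) (nat_lit 456) (nat_lit 4894998789) (nat_lit 76) (nat_lit 4323821230) (nat_lit 174) (nat_lit 5) (nat_lit 180) (nat_lit 5) (nat_lit 175) (nat_lit 4) (nat_lit 395) (nat_lit 315) (nat_lit 310)))))) (XT.nd (nat_lit 390) (nat_lit 1900) (nat_lit 0) (XT.nd (nat_lit 156) (nat_lit 1444) (nat_lit 0) (XT.nd (nat_lit 78) (nat_lit 760) (nat_lit 0) (XT.lf (nat_lit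 0) (nat_lit 7461547792) (nat_lit 380) (nat_lit 1653075828) (nat_lit 0) (nat_lit 695257515) (nat_lit 170) (nat_lit 5) (nat_lit 175) (nat_lit 4) (nat_lit 170) (nat_lit 4) (nat_lit 396) (nat_lit 315) (nat_lit 309)) (XT.lf (nat_lit 0) (nat_lit 1649974883) (nat_lit 304) (nat_lit 3019257395) (nat_lit 380) (nat_lit 5269642535) (nat_lit 160) (nat_lit 5) (nat_lit 164) (nat_lit 5) (nat_lit 165) (nat_lit 4) (nat_lit 397) (nat_lit 315) (nat_lit 308))) (XT.nd (nat_lit 78) (nat_lit 988) (nat_lit 0) (XT.lf (nat_lit 0) (nat_lit 1761628437) (nat_lit 456) (nat_lit 5037469620) (nat_lit 76) (nat_lit 3272273547) (nat_lit 154) (nat_lit 5) (nat_lit 160) (nat_lit 5) (nat_lit 155) (nat_lit 4) (nat_lit 398) (nat_lit 315) (nat_lit 307)) (XT.nd (nat_lit 78) (nat_lit 684) (nat_lit 0) (XT.lf (nat_lit 0) (nat_lit 8471143322) (nat_lit 304) (nat_lit 442528681) (nat_lit 380) (nat_lit 1293846084) (nat_lit 150) (nat_lit 5) (nat_lit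 154) (nat_lit 5) (nat_lit 155) (nat_lit 4) (nat_lit 399) (nat_lit 315) (nat_lit 306)) (XT.lf (nat_lit 0) (nat_lit 1613469655) (nat_lit 304) (nat_lit 4254999014) (nat_lit 380) (nat_lit 4478235000) (nat_lit 141) (nat_lit 5) (nat_lit 145) (nat_lit 5) (nat_lit 146) (nat_lit 4) (nat_lit 400) (nat_lit 315) (nat_lit 305))))) (XT.nd (nat_lit 156) (nat_lit 1216) (nat_lit 0) (XT.nd (nat_lit 78) (nat_lit 304) (nat_lit 0) (XT.lf (nat_lit 0) (nat_lit 2697862837) (nat_lit 380) (nat_lit 5440642191) (nat_lit 76) (nat_lit 2351121306) (nat_lit 136) (nat_lit 5) (nat_lit 141) (nat_lit 5) (nat_lit 137) (nat_lit 4) (nat_lit 401) (nat_lit 315) (nat_lit 304)) (XT.lf (nat_lit 0) (nat_lit 8534644043) (nat_lit 304) (nat_lit 1490352127) (nat_lit 380) (nat_lit 611316602) (nat_lit 132) (nat_lit 5) (nat_lit 136) (nat_lit 5) (nat_lit 137) (nat_lit 4) (nat_lit 402) (nat_lit 315) (nat_lit 303))) (XT.nd (nat_lit 78) (nat_lit 608)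 (nat_lit 0) (XT.lf (nat_lit 0) (nat_lit 1280728721) (nat_lit 228) (nat_lit 5428488059) (nat_lit 304) (nat_lit 4077028957) (nat_lit 124) (nat_lit 5) (nat_lit 127) (nat_lit 5) (nat_lit 128) (nat_lit 4) (nat_lit 403) (nat_lit 315) (nat_lit 302)) (XT.nd (nat_lit 78) (nat_lit 228) (nat_lit 0) (XT.lf (nat_lit 0) (nat_lit 3263435124) (nat_lit 380) (nat_lit 6187043723) (nat_lit 76) (nat_lit 1489563323) (nat_lit 119) (nat_lit 5) (nat_lit 124) (nat_lit 5) (nat_lit 120) (nat_lit 4) (nat_lit 404) (nat_lit 315) (nat_lit 301)) (XT.lf (nat_lit 0) (nat_lit 8270116115) (nat_lit 228) (nat_lit 2509801471) (nat_lit 304) (nat_lit 317772020) (nat_lit 116) (nat_lit 5) (nat_lit 119) (nat_lit 5) (nat_lit 120) (nat_lit 4) (nat_lit 405) (nat_lit 315) (nat_lit 300))))))) (XT.nd (nat_lit 780) (nat_lit 2736) (nat_lit 0) (XT.nd (nat_lit 390) (nat_lit 1520) (nat_lit 0) (XT.nd (nat_lit 156) (nat_lit 1064) (nat_lit 0) (XT.nd (nat_lit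 78) (nat_lit 380) (nat_lit 0) (XT.lf (nat_lit 0) (nat_lit 567273859) (nat_lit 228) (nat_lit 6610420727) (nat_lit 304) (nat_lit 4081206774) (nat_lit 108) (nat_lit 5) (nat_lit 111) (nat_lit 5) (nat_lit 112) (nat_lit 4) (nat_lit 406) (nat_lit 315) (nat_lit 299)) (XT.lf (nat_lit 0) (nat_lit 3442344811) (nat_lit 380) (nat_lit 7362836241) (nat_lit 76) (nat_lit 618895203) (nat_lit 103) (nat_lit 5) (nat_lit 108) (nat_lit 5) (nat_lit 104) (nat_lit 4) (nat_lit 407) (nat_lit 315) (nat_lit 298))) (XT.nd (nat_lit 78) (nat_lit 836) (nat_lit 0) (XT.lf (nat_lit 0) (nat_lit 7592001990) (nat_lit 228) (nat_lit 3569922230) (nat_lit 304) (nat_lit 431227265) (nat_lit 100) (nat_lit 5) (nat_lit 103) (nat_lit 5) (nat_lit 104) (nat_lit 4) (nat_lit 408) (nat_lit 315) (nat_lit 297)) (XT.nd (nat_lit 78) (nat_lit 532) (nat_lit 0) (XT.lf (nat_lit 0) (nat_lit 7258595353) (nat_lit 304) (nat_lit 607435272) (nat_lit 76) (nat_lit 3900131578)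 (nat_lit 96) (nat_lit 5) (nat_lit 100) (nat_lit 5) (nat_lit 97) (nat_lit 4) (nat_lit 409) (nat_lit 315) (nat_lit 296)) (XT.lf (nat_lit 0) (nat_lit 2882456523) (nat_lit 228) (nat_lit 332754232) (nat_lit 304) (nat_lit 8728103964) (nat_lit 89) (nat_lit 5) (nat_lit 92) (nat_lit 5) (nat_lit 93) (nat_lit 5) (nat_lit 410) (nat_lit 315) (nat_lit 295))))) (XT.nd (nat_lit 156) (nat_lit 988) (nat_lit 0) (XT.nd (nat_lit 78) (nat_lit 304) (nat_lit 0) (XT.lf (nat_lit 0) (nat_lit 6410162555) (nat_lit 228) (nat_lit 4738865506) (nat_lit 304) (nat_lit 975345917) (nat_lit 86) (nat_lit 5) (nat_lit 89) (nat_lit 5) (nat_lit 90) (nat_lit 4) (nat_lit 411) (nat_lit 315) (nat_lit 294)) (XT.lf (nat_lit 0) (nat_lit 6930417188) (nat_lit 304) (nat_lit 2330288057) (nat_lit 76) (nat_lit 3049002308) (nat_lit 82) (nat_lit 5) (nat_lit 86) (nat_lit 5) (nat_lit 83) (nat_lit 4) (nat_lit 412) (nat_lit 315) (nat_lit 293))) (XT.nd (nat_lit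 78) (nat_lit 456) (nat_lit 0) (XT.lf (nat_lit 0) (nat_lit 1119450547) (nat_lit 228) (nat_lit 1438315693) (nat_lit 304) (nat_lit 9941739450) (nat_lit 75) (nat_lit 5) (nat_lit 78) (nat_lit 5) (nat_lit 79) (nat_lit 5) (nat_lit 413) (nat_lit 315) (nat_lit 292)) (XT.nd (nat_lit 78) (nat_lit 304) (nat_lit 0) (XT.lf (nat_lit 0) (nat_lit 4628981775) (nat_lit 152) (nat_lit 6084730056) (nat_lit 228) (nat_lit 1979497583) (nat_lit 73) (nat_lit 5) (nat_lit 75) (nat_lit 5) (nat_lit 76) (nat_lit 4) (nat_lit 414) (nat_lit 315) (nat_lit 291)) (XT.lf (nat_lit 0) (nat_lit 6159658831) (nat_lit 304) (nat_lit 4706997109) (nat_lit 76) (nat_lit 2024867517) (nat_lit 69) (nat_lit 5) (nat_lit 73) (nat_lit 5) (nat_lit 70) (nat_lit 4) (nat_lit 415) (nat_lit 315) (nat_lit 290)))))) (XT.nd (nat_lit 390) (nat_lit 1368) (nat_lit 0) (XT.nd (nat_lit 156) (nat_lit 760) (nat_lit 0) (XT.nd (nat_lit 78) (nat_lit 380) (nat_lit 0) (XT.lf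 (nat_lit 0) (nat_lit 1442177470) (nat_lit 228) (nat_lit 1307136564) (nat_lit 76) (nat_lit 10345221982) (nat_lit 66) (nat_lit 5) (nat_lit 69) (nat_lit 5) (nat_lit 67) (nat_lit 5) (nat_lit 416) (nat_lit 315) (nat_lit 289)) (XT.lf (nat_lit 0) (nat_lit 2146448157) (nat_lit 152) (nat_lit 7676368968) (nat_lit 228) (nat_lit 3478875157) (nat_lit 61) (nat_lit 5) (nat_lit 63) (nat_lit 5) (nat_lit 64) (nat_lit 4) (nat_lit 417) (nat_lit 315) (nat_lit 288))) (XT.nd (nat_lit 78) (nat_lit 456) (nat_lit 0) (XT.lf (nat_lit 0) (nat_lit 4910787811) (nat_lit 304) (nat_lit 7842621710) (nat_lit 76) (nat_lit 760297031) (nat_lit 57) (nat_lit 5) (nat_lit 61) (nat_lit 5) (nat_lit 58) (nat_lit 4) (nat_lit 418) (nat_lit 315) (nat_lit 287)) (XT.nd (nat_lit 78) (nat_lit 304) (nat_lit 0) (XT.lf (nat_lit 0) (nat_lit 9231755606) (nat_lit 152) (nat_lit 4330552281) (nat_lit 228) (nat_lit 168164826) (nat_lit 55) (nat_lit 5) (nat_lit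 57) (nat_lit 5) (nat_lit 58) (nat_lit 4) (nat_lit 419) (nat_lit 315) (nat_lit 286)) (XT.lf (nat_lit 0) (nat_lit 8444821185) (nat_lit 304) (nat_lit 1131755089) (nat_lit 76) (nat_lit 4375320764) (nat_lit 51) (nat_lit 5) (nat_lit 55) (nat_lit 5) (nat_lit 52) (nat_lit 4) (nat_lit 420) (nat_lit 315) (nat_lit 285))))) (XT.nd (nat_lit 156) (nat_lit 760) (nat_lit 0) (XT.nd (nat_lit 78) (nat_lit 152) (nat_lit 0) (XT.lf (nat_lit 0) (nat_lit 2323115050) (nat_lit 228) (nat_lit 824607241) (nat_lit 304) (nat_lit 11030715521) (nat_lit 45) (nat_lit 5) (nat_lit 48) (nat_lit 5) (nat_lit 49) (nat_lit 5) (nat_lit 421) (nat_lit 315) (nat_lit 284)) (XT.lf (nat_lit 0) (nat_lit 5813087979) (nat_lit 152) (nat_lit 6248284604) (nat_lit 228) (nat_lit 2348193634) (nat_lit 43) (nat_lit 5) (nat_lit 45) (nat_lit 5) (nat_lit 46) (nat_lit 4) (nat_lit 422) (nat_lit 315) (nat_lit 283))) (XT.nd (nat_lit 78) (nat_lit 532) (nat_lit 0)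 (XT.lf (nat_lit 0) (nat_lit 6547238272) (nat_lit 228) (nat_lit 5298034618) (nat_lit 76) (nat_lit 2800720701) (nat_lit 40) (nat_lit 5) (nat_lit 43) (nat_lit 5) (nat_lit 41) (nat_lit 4) (nat_lit 423) (nat_lit 315) (nat_lit 282)) (XT.nd (nat_lit 78) (nat_lit 304) (nat_lit 0) (XT.lf (nat_lit 0) (nat_lit 837892431) (nat_lit 228) (nat_lit 1954675821) (nat_lit 76) (nat_lit 12095336608) (nat_lit 37) (nat_lit 5) (nat_lit 40) (nat_lit 5) (nat_lit 38) (nat_lit 5) (nat_lit 424) (nat_lit 315) (nat_lit 281)) (XT.lf (nat_lit 0) (nat_lit 1419763378) (nat_lit 152) (nat_lit 8585644046) (nat_lit 228) (nat_lit 5129139423) (nat_lit 33) (nat_lit 5) (nat_lit 35) (nat_lit 5) (nat_lit 36) (nat_lit 4) (nat_lit 425) (nat_lit 315) (nat_lit 280))))))))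
noncomputable def xc11 : XT := (XT.nd (nat_lit 51402) (nat_lit 0) (nat_lit 1368) (XT.nd (nat_lit 50622) (nat_lit 0) (nat_lit 7980) (XT.nd (nat_lit 50232) (nat_lit 0) (nat_lit 12844) (XT.nd (nat_lit 156) (nat_lit 456) (nat_lit 0) (XT.nd (nat_lit 78) (nat_lit 152) (nat_lit 0) (XT.lf (nat_lit 0) (nat_lit 4065636322) (nat_lit 228) (nat_lit 10505943923) (nat_lit 76) (nat_lit 815290413) (nat_lit 30) (nat_lit 5) (nat_lit 33) (nat_lit 5) (nat_lit 31) (nat_lit 4) (nat_lit 426) (nat_lit 315) (nat_lit 279)) (XT.lf (nat_lit 0) (nat_lit 8363129272) (nat_lit 152) (nat_lit 5185814353) (nat_lit 228) (nat_lit 2095495023) (nat_lit 28) (nat_lit 5) (nat_lit 30) (nat_lit 5) (nat_lit 31) (nat_lit 4) (nat_lit 427) (nat_lit 315) (nat_lit 278))) (XT.nd (nat_lit 78) (nat_lit 228) (nat_lit 0) (XT.lf (nat_lit 0) (nat_lit 7366599879) (nat_lit 228) (nat_lit 4025918380) (nat_lit 76) (nat_lit 4515119037) (nat_lit 25) (nat_lit 5)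 (nat_lit 28) (nat_lit 5) (nat_lit 26) (nat_lit 4) (nat_lit 428) (nat_lit 315) (nat_lit 277)) (XT.nd (nat_lit 49920) (nat_lit 0) (nat_lit 15656) (XT.lf (nat_lit 0) (nat_lit 958539445) (nat_lit 228) (nat_lit 715476236) (nat_lit 76) (nat_lit 14503025924) (nat_lit 22) (nat_lit 5) (nat_lit 25) (nat_lit 5) (nat_lit 23) (nat_lit 5) (nat_lit 429) (nat_lit 315) (nat_lit 276)) (XT.lf (nat_lit 0) (nat_lit 222100109) (nat_lit 532) (nat_lit 4001992191) (nat_lit 0) (nat_lit 222100109) (nat_lit 228) (nat_lit 5) (nat_lit 235) (nat_lit 4) (nat_lit 228) (nat_lit 4) (nat_lit 388) (nat_lit 316) (nat_lit 316))))) (XT.nd (nat_lit 156) (nat_lit 1824) (nat_lit 0) (XT.nd (nat_lit 78) (nat_lit 532) (nat_lit 0) (XT.lf (nat_lit 0) (nat_lit 3901144254) (nat_lit 456) (nat_lit 3237511329) (nat_lit 456) (nat_lit 1858469941) (nat_lit 222) (nat_lit 4) (nat_lit 228) (nat_lit 5) (nat_lit 228) (nat_lit 4) (nat_lit 389) (nat_lit 316)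 (nat_lit 315)) (XT.lf (nat_lit 0) (nat_lit 4819816179) (nat_lit 532) (nat_lit 2130249614) (nat_lit 0) (nat_lit 2155192140) (nat_lit 215) (nat_lit 5) (nat_lit 222) (nat_lit 4) (nat_lit 215) (nat_lit 4) (nat_lit 390) (nat_lit 316) (nat_lit 314))) (XT.nd (nat_lit 78) (nat_lit 912) (nat_lit 0) (XT.lf (nat_lit 0) (nat_lit 901810521) (nat_lit 380) (nat_lit 1494637751) (nat_lit 456) (nat_lit 6820184190) (nat_lit 203) (nat_lit 5) (nat_lit 208) (nat_lit 5) (nat_lit 209) (nat_lit 4) (nat_lit 391) (nat_lit 316) (nat_lit 313)) (XT.nd (nat_lit 78) (nat_lit 456) (nat_lit 0) (XT.lf (nat_lit 0) (nat_lit 4012321739) (nat_lit 456) (nat_lit 5196741035) (nat_lit 456) (nat_lit 121949115) (nat_lit 197) (nat_lit 4) (nat_lit 203) (nat_lit 5) (nat_lit 203) (nat_lit 4) (nat_lit 392) (nat_lit 316) (nat_lit 312)) (XT.lf (nat_lit 0) (nat_lit 6650935459) (nat_lit 456) (nat_lit 2276696441) (nat_lit 0) (nat_lit 521059012) (nat_lit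 191) (nat_lit 5) (nat_lit 197) (nat_lit 4) (nat_lit 191) (nat_lit 4) (nat_lit 393) (nat_lit 316) (nat_lit 311)))))) (XT.nd (nat_lit 390) (nat_lit 2052) (nat_lit 0) (XT.nd (nat_lit 156) (nat_lit 1520) (nat_lit 0) (XT.nd (nat_lit 78) (nat_lit 456) (nat_lit 0) (XT.lf (nat_lit 0) (nat_lit 817762077) (nat_lit 380) (nat_lit 3176594325) (nat_lit 456) (nat_lit 5575159587) (nat_lit 180) (nat_lit 5) (nat_lit 185) (nat_lit 5) (nat_lit 186) (nat_lit 4) (nat_lit 394) (nat_lit 316) (nat_lit 310)) (XT.lf (nat_lit 0) (nat_lit 1230006528) (nat_lit 456) (nat_lit 5691023972) (nat_lit 76) (nat_lit 2772644248) (nat_lit 174) (nat_lit 5) (nat_lit 180) (nat_lit 5) (nat_lit 175) (nat_lit 4) (nat_lit 395) (nat_lit 316) (nat_lit 309))) (XT.nd (nat_lit 78) (nat_lit 1216) (nat_lit 0) (XT.lf (nat_lit 0) (nat_lit 7235058018) (nat_lit 304) (nat_lit 906818665) (nat_lit 380) (nat_lit 1679378678) (nat_lit 170) (nat_lit 5) (nat_lit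 174) (nat_lit 5) (nat_lit 175) (nat_lit 4) (nat_lit 396) (nat_lit 316) (nat_lit 308)) (XT.nd (nat_lit 78) (nat_lit 456) (nat_lit 0) (XT.lf (nat_lit 0) (nat_lit 560217377) (nat_lit 304) (nat_lit 4675988511) (nat_lit 380) (nat_lit 4715820439) (nat_lit 160) (nat_lit 5) (nat_lit 164) (nat_lit 5) (nat_lit 165) (nat_lit 4) (nat_lit 397) (nat_lit 316) (nat_lit 307)) (XT.lf (nat_lit 0) (nat_lit 2215884343) (nat_lit 456) (nat_lit 6282937038) (nat_lit 76) (nat_lit 1587475875) (nat_lit 154) (nat_lit 5) (nat_lit 160) (nat_lit 5) (nat_lit 155) (nat_lit 4) (nat_lit 398) (nat_lit 316) (nat_lit 306))))) (XT.nd (nat_lit 156) (nat_lit 1064) (nat_lit 0) (XT.nd (nat_lit 78) (nat_lit 684) (nat_lit 0) (XT.lf (nat_lit 0) (nat_lit 7089287023) (nat_lit 304) (nat_lit 2197589268) (nat_lit 380) (nat_lit 937188481) (nat_lit 150) (nat_lit 5) (nat_lit 154) (nat_lit 5) (nat_lit 155) (nat_lit 4) (nat_lit 399) (nat_lit 316) (nat_lit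 305)) (XT.lf (nat_lit 0) (nat_lit 48378721) (nat_lit 304) (nat_lit 6068972201) (nat_lit 380) (nat_lit 4247915073) (nat_lit 141) (nat_lit 5) (nat_lit 145) (nat_lit 5) (nat_lit 146) (nat_lit 4) (nat_lit 400) (nat_lit 316) (nat_lit 304))) (XT.nd (nat_lit 78) (nat_lit 684) (nat_lit 0) (XT.lf (nat_lit 0) (nat_lit 2830388762) (nat_lit 380) (nat_lit 7175461468) (nat_lit 76) (nat_lit 504203989) (nat_lit 136) (nat_lit 5) (nat_lit 141) (nat_lit 5) (nat_lit 137) (nat_lit 4) (nat_lit 401) (nat_lit 316) (nat_lit 303)) (XT.nd (nat_lit 78) (nat_lit 380) (nat_lit 0) (XT.lf (nat_lit 0) (nat_lit 6657043855) (nat_lit 304) (nat_lit 3417891471) (nat_lit 380) (nat_lit 583457067) (nat_lit 132) (nat_lit 5) (nat_lit 136) (nat_lit 5) (nat_lit 137) (nat_lit 4) (nat_lit 402) (nat_lit 316) (nat_lit 302)) (XT.lf (nat_lit 0) (nat_lit 6632656978) (nat_lit 380) (nat_lit 790719375) (nat_lit 76) (nat_lit 3387026466) (nat_lit 127)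 (nat_lit 5) (nat_lit 132) (nat_lit 5) (nat_lit 128) (nat_lit 4) (nat_lit 403) (nat_lit 316) (nat_lit 301))))))) (XT.nd (nat_lit 780) (nat_lit 2888) (nat_lit 0) (XT.nd (nat_lit 390) (nat_lit 1672) (nat_lit 0) (XT.nd (nat_lit 156) (nat_lit 1216) (nat_lit 0) (XT.nd (nat_lit 78) (nat_lit 228) (nat_lit 0) (XT.lf (nat_lit 0) (nat_lit 2509108343) (nat_lit 304) (nat_lit 555450700) (nat_lit 380) (nat_lit 7901642889) (nat_lit 119) (nat_lit 5) (nat_lit 123) (nat_lit 5) (nat_lit 124) (nat_lit 5) (nat_lit 404) (nat_lit 316) (nat_lit 300)) (XT.lf (nat_lit 0) (nat_lit 5854059375) (nat_lit 228) (nat_lit 4638839744) (nat_lit 304) (nat_lit 632713097) (nat_lit 116) (nat_lit 5) (nat_lit 119) (nat_lit 5) (nat_lit 120) (nat_lit 4) (nat_lit 405) (nat_lit 316) (nat_lit 299))) (XT.nd (nat_lit 78) (nat_lit 836) (nat_lit 0) (XT.lf (nat_lit 0) (nat_lit 6764055916) (nat_lit 380) (nat_lit 2048419281) (nat_lit 76) (nat_lit 2476446230)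 (nat_lit 111) (nat_lit 5) (nat_lit 116) (nat_lit 5) (nat_lit 112) (nat_lit 4) (nat_lit 406) (nat_lit 316) (nat_lit 298)) (XT.nd (nat_lit 78) (nat_lit 228) (nat_lit 0) (XT.lf (nat_lit 0) (nat_lit 1239603081) (nat_lit 304) (nat_lit 1660581484) (nat_lit 380) (nat_lit 8556055772) (nat_lit 103) (nat_lit 5) (nat_lit 107) (nat_lit 5) (nat_lit 108) (nat_lit 5) (nat_lit 407) (nat_lit 316) (nat_lit 297)) (XT.lf (nat_lit 0) (nat_lit 4592045237) (nat_lit 228) (nat_lit 5930035853) (nat_lit 304) (nat_lit 1105188135) (nat_lit 100) (nat_lit 5) (nat_lit 103) (nat_lit 5) (nat_lit 104) (nat_lit 4) (nat_lit 408) (nat_lit 316) (nat_lit 296))))) (XT.nd (nat_lit 156) (nat_lit 1064) (nat_lit 0) (XT.nd (nat_lit 78) (nat_lit 304) (nat_lit 0) (XT.lf (nat_lit 0) (nat_lit 6490311492) (nat_lit 304) (nat_lit 3815655147) (nat_lit 76) (nat_lit 1496464061) (nat_lit 96) (nat_lit 5) (nat_lit 100) (nat_lit 5) (nat_lit 97) (nat_lit 4)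 (nat_lit 409) (nat_lit 316) (nat_lit 295)) (XT.lf (nat_lit 0) (nat_lit 2314275033) (nat_lit 304) (nat_lit 555625757) (nat_lit 76) (nat_lit 9111925604) (nat_lit 92) (nat_lit 5) (nat_lit 96) (nat_lit 5) (nat_lit 93) (nat_lit 5) (nat_lit 410) (nat_lit 316) (nat_lit 294))) (XT.nd (nat_lit 78) (nat_lit 608) (nat_lit 0) (XT.lf (nat_lit 0) (nat_lit 2777801399) (nat_lit 228) (nat_lit 7360449995) (nat_lit 304) (nat_lit 2026831079) (nat_lit 86) (nat_lit 5) (nat_lit 89) (nat_lit 5) (nat_lit 90) (nat_lit 4) (nat_lit 411) (nat_lit 316) (nat_lit 293)) (XT.nd (nat_lit 78) (nat_lit 304) (nat_lit 0) (XT.lf (nat_lit 0) (nat_lit 5784919856) (nat_lit 304) (nat_lit 6188021452) (nat_lit 76) (nat_lit 379767331) (nat_lit 82) (nat_lit 5) (nat_lit 86) (nat_lit 5) (nat_lit 83) (nat_lit 4) (nat_lit 412) (nat_lit 316) (nat_lit 292)) (XT.lf (nat_lit 0) (nat_lit 1286327870) (nat_lit 304) (nat_lit 2957470837) (nat_lit 76) (nat_lit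 8300832945) (nat_lit 78) (nat_lit 5) (nat_lit 82) (nat_lit 5) (nat_lit 79) (nat_lit 5) (nat_lit 413) (nat_lit 316) (nat_lit 291)))))) (XT.nd (nat_lit 390) (nat_lit 1292) (nat_lit 0) (XT.nd (nat_lit 156) (nat_lit 912) (nat_lit 0) (XT.nd (nat_lit 78) (nat_lit 304) (nat_lit 0) (XT.lf (nat_lit 0) (nat_lit 312306473) (nat_lit 152) (nat_lit 8999258628) (nat_lit 228) (nat_lit 3429384442) (nat_lit 73) (nat_lit 5) (nat_lit 75) (nat_lit 5) (nat_lit 76) (nat_lit 4) (nat_lit 414) (nat_lit 316) (nat_lit 290)) (XT.lf (nat_lit 0) (nat_lit 3668074798) (nat_lit 228) (nat_lit 953820953) (nat_lit 304) (nat_lit 8319693942) (nat_lit 69) (nat_lit 5) (nat_lit 72) (nat_lit 5) (nat_lit 73) (nat_lit 5) (nat_lit 415) (nat_lit 316) (nat_lit 289))) (XT.nd (nat_lit 78) (nat_lit 760) (nat_lit 0) (XT.lf (nat_lit 0) (nat_lit 7059943157) (nat_lit 152) (nat_lit 5858055938) (nat_lit 228) (nat_lit 228799055) (nat_lit 67) (nat_lit 5)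 (nat_lit 69) (nat_lit 5) (nat_lit 70) (nat_lit 4) (nat_lit 416) (nat_lit 316) (nat_lit 288)) (XT.nd (nat_lit 78) (nat_lit 456) (nat_lit 0) (XT.lf (nat_lit 0) (nat_lit 8025326872) (nat_lit 304) (nat_lit 2872049825) (nat_lit 76) (nat_lit 2459197719) (nat_lit 63) (nat_lit 5) (nat_lit 67) (nat_lit 5) (nat_lit 64) (nat_lit 4) (nat_lit 417) (nat_lit 316) (nat_lit 287)) (XT.lf (nat_lit 0) (nat_lit 392060935) (nat_lit 228) (nat_lit 2569278203) (nat_lit 304) (nat_lit 10609917494) (nat_lit 57) (nat_lit 5) (nat_lit 60) (nat_lit 5) (nat_lit 61) (nat_lit 5) (nat_lit 418) (nat_lit 316) (nat_lit 286))))) (XT.nd (nat_lit 156) (nat_lit 836) (nat_lit 0) (XT.nd (nat_lit 78) (nat_lit 304) (nat_lit 0) (XT.lf (nat_lit 0) (nat_lit 3725559238) (nat_lit 152) (nat_lit 7772596913) (nat_lit 228) (nat_lit 2292160703) (nat_lit 55) (nat_lit 5) (nat_lit 57) (nat_lit 5) (nat_lit 58) (nat_lit 4) (nat_lit 419) (nat_lit 316) (nat_lit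 285)) (XT.lf (nat_lit 0) (nat_lit 6226797880) (nat_lit 304) (nat_lit 6911427684) (nat_lit 76) (nat_lit 876229103) (nat_lit 51) (nat_lit 5) (nat_lit 55) (nat_lit 5) (nat_lit 52) (nat_lit 4) (nat_lit 420) (nat_lit 316) (nat_lit 284))) (XT.nd (nat_lit 78) (nat_lit 608) (nat_lit 0) (XT.lf (nat_lit 0) (nat_lit 781697717) (nat_lit 228) (nat_lit 3726510997) (nat_lit 76) (nat_lit 9735389945) (nat_lit 48) (nat_lit 5) (nat_lit 51) (nat_lit 5) (nat_lit 49) (nat_lit 5) (nat_lit 421) (nat_lit 316) (nat_lit 283)) (XT.nd (nat_lit 78) (nat_lit 380) (nat_lit 0) (XT.lf (nat_lit 0) (nat_lit 9547755195) (nat_lit 304) (nat_lit 517317709) (nat_lit 76) (nat_lit 4412606017) (nat_lit 45) (nat_lit 5) (nat_lit 49) (nat_lit 5) (nat_lit 46) (nat_lit 4) (nat_lit 422) (nat_lit 316) (nat_lit 282)) (XT.lf (nat_lit 0) (nat_lit 2779271868) (nat_lit 152) (nat_lit 1094879879) (nat_lit 228) (nat_lit 10842794120) (nat_lit 40) (nat_lit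 5) (nat_lit 42) (nat_lit 5) (nat_lit 43) (nat_lit 5) (nat_lit 423) (nat_lit 316) (nat_lit 281))))))))
noncomputable def xc12 : XT := (XT.nd (nat_lit 51168) (nat_lit 0) (nat_lit 2812) (XT.nd (nat_lit 50388) (nat_lit 0) (nat_lit 9956) (XT.nd (nat_lit 312) (nat_lit 380) (nat_lit 0) (XT.nd (nat_lit 156) (nat_lit 532) (nat_lit 0) (XT.nd (nat_lit 78) (nat_lit 228) (nat_lit 0) (XT.lf (nat_lit 0) (nat_lit 6105252370) (nat_lit 152) (nat_lit 6847348116) (nat_lit 228) (nat_lit 2008594011) (nat_lit 38) (nat_lit 5) (nat_lit 40) (nat_lit 5) (nat_lit 41) (nat_lit 4) (nat_lit 424) (nat_lit 316) (nat_lit 280)) (XT.lf (nat_lit 0) (nat_lit 7043716072) (nat_lit 228) (nat_lit 5739120670) (nat_lit 76) (nat_lit 2428091525) (nat_lit 35) (nat_lit 5) (nat_lit 38) (nat_lit 5) (nat_lit 36) (nat_lit 4) (nat_lit 425) (nat_lit 316) (nat_lit 279))) (XT.nd (nat_lit 78) (nat_lit 304) (nat_lit 0) (XT.lf (nat_lit 0) (nat_lit 932655281)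 (nat_lit 228) (nat_lit 2581720530) (nat_lit 76) (nat_lit 11951965834) (nat_lit 32) (nat_lit 5) (nat_lit 35) (nat_lit 5) (nat_lit 33) (nat_lit 5) (nat_lit 426) (nat_lit 316) (nat_lit 278)) (XT.lf (nat_lit 0) (nat_lit 596689191) (nat_lit 152) (nat_lit 9669968232) (nat_lit 228) (nat_lit 5460238315) (nat_lit 28) (nat_lit 5) (nat_lit 30) (nat_lit 5) (nat_lit 31) (nat_lit 4) (nat_lit 427) (nat_lit 316) (nat_lit 277)))) (XT.nd (nat_lit 49842) (nat_lit 0) (nat_lit 15580) (XT.nd (nat_lit 78) (nat_lit 152) (nat_lit 0) (XT.lf (nat_lit 0) (nat_lit 3869768264) (nat_lit 152) (nat_lit 35958314) (nat_lit 228) (nat_lit 12087609915) (nat_lit 25) (nat_lit 5) (nat_lit 27) (nat_lit 5) (nat_lit 28) (nat_lit 5) (nat_lit 428) (nat_lit 316) (nat_lit 276)) (XT.lf (nat_lit 0) (nat_lit 7152764464) (nat_lit 152) (nat_lit 6422917358) (nat_lit 228) (nat_lit 2689422915) (nat_lit 23) (nat_lit 5) (nat_lit 25) (nat_lit 5) (nat_lit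 26) (nat_lit 4) (nat_lit 429) (nat_lit 316) (nat_lit 275))) (XT.nd (nat_lit 78) (nat_lit 1596) (nat_lit 0) (XT.lf (nat_lit 0) (nat_lit 1933773470) (nat_lit 532) (nat_lit 1205564395) (nat_lit 532) (nat_lit 1205564395) (nat_lit 249) (nat_lit 4) (nat_lit 256) (nat_lit 5) (nat_lit 256) (nat_lit 4) (nat_lit 386) (nat_lit 317) (nat_lit 317)) (XT.nd (nat_lit 78) (nat_lit 1064) (nat_lit 0) (XT.lf (nat_lit 0) (nat_lit 4087958577) (nat_lit 532) (nat_lit 2063102156) (nat_lit 0) (nat_lit 2639137695) (nat_lit 242) (nat_lit 5) (nat_lit 249) (nat_lit 4) (nat_lit 242) (nat_lit 4) (nat_lit 387) (nat_lit 317) (nat_lit 316)) (XT.lf (nat_lit 0) (nat_lit 764609951) (nat_lit 456) (nat_lit 1027495517) (nat_lit 532) (nat_lit 7101729498) (nat_lit 228) (nat_lit 5) (nat_lit 234) (nat_lit 5) (nat_lit 235) (nat_lit 4) (nat_lit 388) (nat_lit 317) (nat_lit 315)))))) (XT.nd (nat_lit 390) (nat_lit 2812) (nat_lit 0) (XT.nd (nat_lit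 156) (nat_lit 1824) (nat_lit 0) (XT.nd (nat_lit 78) (nat_lit 532) (nat_lit 0) (XT.lf (nat_lit 0) (nat_lit 3664353276) (nat_lit 456) (nat_lit 4737126582) (nat_lit 456) (nat_lit 598797433) (nat_lit 222) (nat_lit 4) (nat_lit 228) (nat_lit 5) (nat_lit 228) (nat_lit 4) (nat_lit 389) (nat_lit 317) (nat_lit 314)) (XT.lf (nat_lit 0) (nat_lit 5974768622) (nat_lit 532) (nat_lit 2492049260) (nat_lit 0) (nat_lit 643192230) (nat_lit 215) (nat_lit 5) (nat_lit 222) (nat_lit 4) (nat_lit 215) (nat_lit 4) (nat_lit 390) (nat_lit 317) (nat_lit 313))) (XT.nd (nat_lit 78) (nat_lit 912) (nat_lit 0) (XT.lf (nat_lit 0) (nat_lit 400209731) (nat_lit 380) (nat_lit 3049819422) (nat_lit 456) (nat_lit 5772836817) (nat_lit 203) (nat_lit 5) (nat_lit 208) (nat_lit 5) (nat_lit 209) (nat_lit 4) (nat_lit 391) (nat_lit 317) (nat_lit 312)) (XT.nd (nat_lit 78) (nat_lit 380) (nat_lit 0) (XT.lf (nat_lit 0) (nat_lit 823869410) (nat_lit 532)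 (nat_lit 5953514043) (nat_lit 76) (nat_lit 2561529621) (nat_lit 196) (nat_lit 5) (nat_lit 203) (nat_lit 5) (nat_lit 197) (nat_lit 4) (nat_lit 392) (nat_lit 317) (nat_lit 311)) (XT.lf (nat_lit 0) (nat_lit 6415292120) (nat_lit 380) (nat_lit 1097778676) (nat_lit 456) (nat_lit 1945147141) (nat_lit 191) (nat_lit 5) (nat_lit 196) (nat_lit 5) (nat_lit 197) (nat_lit 4) (nat_lit 393) (nat_lit 317) (nat_lit 310))))) (XT.nd (nat_lit 156) (nat_lit 1520) (nat_lit 0) (XT.nd (nat_lit 78) (nat_lit 836) (nat_lit 0) (XT.lf (nat_lit 0) (nat_lit 4744468571) (nat_lit 456) (nat_lit 93809933) (nat_lit 76) (nat_lit 4742480076) (nat_lit 185) (nat_lit 5) (nat_lit 191) (nat_lit 5) (nat_lit 186) (nat_lit 4) (nat_lit 394) (nat_lit 317) (nat_lit 309)) (XT.lf (nat_lit 0) (nat_lit 1867733860) (nat_lit 456) (nat_lit 6750952195) (nat_lit 76) (nat_lit 1087964376) (nat_lit 174) (nat_lit 5) (nat_lit 180) (nat_lit 5) (nat_lit 175) (nat_lit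 4) (nat_lit 395) (nat_lit 317) (nat_lit 308))) (XT.nd (nat_lit 78) (nat_lit 1216) (nat_lit 0) (XT.lf (nat_lit 0) (nat_lit 6044724594) (nat_lit 304) (nat_lit 2655385897) (nat_lit 380) (nat_lit 1135710425) (nat_lit 170) (nat_lit 5) (nat_lit 174) (nat_lit 5) (nat_lit 175) (nat_lit 4) (nat_lit 396) (nat_lit 317) (nat_lit 307)) (XT.nd (nat_lit 78) (nat_lit 760) (nat_lit 0) (XT.lf (nat_lit 0) (nat_lit 5677866554) (nat_lit 456) (nat_lit 791424921) (nat_lit 76) (nat_lit 3499127353) (nat_lit 164) (nat_lit 5) (nat_lit 170) (nat_lit 5) (nat_lit 165) (nat_lit 4) (nat_lit 397) (nat_lit 317) (nat_lit 306)) (XT.lf (nat_lit 0) (nat_lit 2297147713) (nat_lit 380) (nat_lit 241868812) (nat_lit 456) (nat_lit 7565549181) (nat_lit 154) (nat_lit 5) (nat_lit 159) (nat_lit 5) (nat_lit 160) (nat_lit 5) (nat_lit 398) (nat_lit 317) (nat_lit 305))))))) (XT.nd (nat_lit 780) (nat_lit 3040) (nat_lit 0) (XT.nd (nat_lit 390) (nat_lit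 2052) (nat_lit 0) (XT.nd (nat_lit 156) (nat_lit 1368) (nat_lit 0) (XT.nd (nat_lit 78) (nat_lit 380) (nat_lit 0) (XT.lf (nat_lit 0) (nat_lit 5429790891) (nat_lit 304) (nat_lit 4097892376) (nat_lit 380) (nat_lit 716296459) (nat_lit 150) (nat_lit 5) (nat_lit 154) (nat_lit 5) (nat_lit 155) (nat_lit 4) (nat_lit 399) (nat_lit 317) (nat_lit 304)) (XT.lf (nat_lit 0) (nat_lit 6241396942) (nat_lit 380) (nat_lit 1779636551) (nat_lit 76) (nat_lit 2365997752) (nat_lit 145) (nat_lit 5) (nat_lit 150) (nat_lit 5) (nat_lit 146) (nat_lit 4) (nat_lit 400) (nat_lit 317) (nat_lit 303))) (XT.nd (nat_lit 78) (nat_lit 684) (nat_lit 0) (XT.lf (nat_lit 0) (nat_lit 1321757782) (nat_lit 304) (nat_lit 1512045714) (nat_lit 380) (nat_lit 7699953183) (nat_lit 136) (nat_lit 5) (nat_lit 140) (nat_lit 5) (nat_lit 141) (nat_lit 5) (nat_lit 401) (nat_lit 317) (nat_lit 302)) (XT.nd (nat_lit 78) (nat_lit 380) (nat_lit 0) (XT.lf (nat_lit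 0) (nat_lit 4487150675) (nat_lit 304) (nat_lit 5498948026) (nat_lit 380) (nat_lit 697841179) (nat_lit 132) (nat_lit 5) (nat_lit 136) (nat_lit 5) (nat_lit 137) (nat_lit 4) (nat_lit 402) (nat_lit 317) (nat_lit 301)) (XT.lf (nat_lit 0) (nat_lit 6423136567) (nat_lit 380) (nat_lit 3143145780) (nat_lit 76) (nat_lit 1271615541) (nat_lit 127) (nat_lit 5) (nat_lit 132) (nat_lit 5) (nat_lit 128) (nat_lit 4) (nat_lit 403) (nat_lit 317) (nat_lit 300))))) (XT.nd (nat_lit 156) (nat_lit 1216) (nat_lit 0) (XT.nd (nat_lit 78) (nat_lit 532) (nat_lit 0) (XT.lf (nat_lit 0) (nat_lit 2731005504) (nat_lit 304) (nat_lit 48987773) (nat_lit 76) (nat_lit 8215727433) (nat_lit 123) (nat_lit 5) (nat_lit 127) (nat_lit 5) (nat_lit 124) (nat_lit 5) (nat_lit 404) (nat_lit 317) (nat_lit 299)) (XT.lf (nat_lit 0) (nat_lit 3130014550) (nat_lit 228) (nat_lit 6930033030) (nat_lit 304) (nat_lit 1097069374) (nat_lit 116) (nat_lit 5) (nat_lit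 119) (nat_lit 5) (nat_lit 120) (nat_lit 4) (nat_lit 405) (nat_lit 317) (nat_lit 298))) (XT.nd (nat_lit 78) (nat_lit 836) (nat_lit 0) (XT.lf (nat_lit 0) (nat_lit 6205542259) (nat_lit 380) (nat_lit 4970488664) (nat_lit 76) (nat_lit 146460491) (nat_lit 111) (nat_lit 5) (nat_lit 116) (nat_lit 5) (nat_lit 112) (nat_lit 4) (nat_lit 406) (nat_lit 317) (nat_lit 297)) (XT.nd (nat_lit 78) (nat_lit 532) (nat_lit 0) (XT.lf (nat_lit 0) (nat_lit 2222120894) (nat_lit 304) (nat_lit 1882582283) (nat_lit 76) (nat_lit 7387058936) (nat_lit 107) (nat_lit 5) (nat_lit 111) (nat_lit 5) (nat_lit 108) (nat_lit 5) (nat_lit 407) (nat_lit 317) (nat_lit 296)) (XT.lf (nat_lit 0) (nat_lit 1267250112) (nat_lit 228) (nat_lit 8461384454) (nat_lit 304) (nat_lit 1936464092) (nat_lit 100) (nat_lit 5) (nat_lit 103) (nat_lit 5) (nat_lit 104) (nat_lit 4) (nat_lit 408) (nat_lit 317) (nat_lit 295)))))) (XT.nd (nat_lit 390) (nat_lit 1444)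 (nat_lit 0) (XT.nd (nat_lit 156) (nat_lit 988) (nat_lit 0) (XT.nd (nat_lit 78) (nat_lit 304) (nat_lit 0) (XT.lf (nat_lit 0) (nat_lit 4480295381) (nat_lit 228) (nat_lit 1092257609) (nat_lit 304) (nat_lit 6269762785) (nat_lit 96) (nat_lit 5) (nat_lit 99) (nat_lit 5) (nat_lit 100) (nat_lit 5) (nat_lit 409) (nat_lit 317) (nat_lit 294)) (XT.lf (nat_lit 0) (nat_lit 1273590393) (nat_lit 304) (nat_lit 4290664274) (nat_lit 76) (nat_lit 6459493170) (nat_lit 92) (nat_lit 5) (nat_lit 96) (nat_lit 5) (nat_lit 93) (nat_lit 5) (nat_lit 410) (nat_lit 317) (nat_lit 293))) (XT.nd (nat_lit 78) (nat_lit 760) (nat_lit 0) (XT.lf (nat_lit 0) (nat_lit 8973123153) (nat_lit 304) (nat_lit 1181817238) (nat_lit 76) (nat_lit 2054552397) (nat_lit 89) (nat_lit 5) (nat_lit 93) (nat_lit 5) (nat_lit 90) (nat_lit 4) (nat_lit 411) (nat_lit 317) (nat_lit 292)) (XT.nd (nat_lit 78) (nat_lit 228) (nat_lit 0) (XT.lf (nat_lit 0) (nat_lit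 1987681295) (nat_lit 228) (nat_lit 2502647667) (nat_lit 304) (nat_lit 7908965366) (nat_lit 82) (nat_lit 5) (nat_lit 85) (nat_lit 5) (nat_lit 86) (nat_lit 5) (nat_lit 412) (nat_lit 317) (nat_lit 291)) (XT.lf (nat_lit 0) (nat_lit 5219195292) (nat_lit 228) (nat_lit 7227130911) (nat_lit 304) (nat_lit 147206519) (nat_lit 79) (nat_lit 5) (nat_lit 82) (nat_lit 5) (nat_lit 83) (nat_lit 4) (nat_lit 413) (nat_lit 317) (nat_lit 290))))) (XT.nd (nat_lit 156) (nat_lit 912) (nat_lit 0) (XT.nd (nat_lit 78) (nat_lit 228) (nat_lit 0) (XT.lf (nat_lit 0) (nat_lit 7766322152) (nat_lit 304) (nat_lit 4309585668) (nat_lit 76) (nat_lit 716234693) (nat_lit 75) (nat_lit 5) (nat_lit 79) (nat_lit 5) (nat_lit 76) (nat_lit 4) (nat_lit 414) (nat_lit 317) (nat_lit 289)) (XT.lf (nat_lit 0) (nat_lit 2931751956) (nat_lit 228) (nat_lit 1212661725) (nat_lit 76) (nat_lit 8850869193) (nat_lit 72) (nat_lit 5) (nat_lit 75) (nat_lit 5) (nat_lit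 73) (nat_lit 5) (nat_lit 415) (nat_lit 317) (nat_lit 288))) (XT.nd (nat_lit 78) (nat_lit 532) (nat_lit 0) (XT.lf (nat_lit 0) (nat_lit 1951670081) (nat_lit 152) (nat_lit 9152760569) (nat_lit 228) (nat_lit 2098529174) (nat_lit 67) (nat_lit 5) (nat_lit 69) (nat_lit 5) (nat_lit 70) (nat_lit 4) (nat_lit 416) (nat_lit 317) (nat_lit 287)) (XT.nd (nat_lit 78) (nat_lit 228) (nat_lit 0) (XT.lf (nat_lit 0) (nat_lit 5168451604) (nat_lit 228) (nat_lit 900033644) (nat_lit 304) (nat_lit 7346726298) (nat_lit 63) (nat_lit 5) (nat_lit 66) (nat_lit 5) (nat_lit 67) (nat_lit 5) (nat_lit 417) (nat_lit 317) (nat_lit 286)) (XT.lf (nat_lit 0) (nat_lit 867106353) (nat_lit 228) (nat_lit 5211097515) (nat_lit 76) (nat_lit 7554055360) (nat_lit 60) (nat_lit 5) (nat_lit 63) (nat_lit 5) (nat_lit 61) (nat_lit 5) (nat_lit 418) (nat_lit 317) (nat_lit 285))))))))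
noncomputable def xc13 : XT := (XT.nd (nat_lit 51012) (nat_lit 0) (nat_lit 4864) (XT.nd (nat_lit 702) (nat_lit 380) (nat_lit 0) (XT.nd (nat_lit 312) (nat_lit 1140) (nat_lit 0) (XT.nd (nat_lit 156) (nat_lit 456) (nat_lit 0) (XT.nd (nat_lit 78) (nat_lit 456) (nat_lit 0) (XT.lf (nat_lit 0) (nat_lit 9261983726) (nat_lit 304) (nat_lit 2145158384) (nat_lit 76) (nat_lit 2447016133) (nat_lit 57) (nat_lit 5) (nat_lit 61) (nat_lit 5) (nat_lit 58) (nat_lit 4) (nat_lit 419) (nat_lit 317) (nat_lit 284)) (XT.lf (nat_lit 0) (nat_lit 970311811) (nat_lit 228) (nat_lit 2867012525) (nat_lit 304) (nat_lit 10243662881) (nat_lit 51) (nat_lit 5) (nat_lit 54) (nat_lit 5) (nat_lit 55) (nat_lit 5) (nat_lit 420) (nat_lit 317) (nat_lit 283))) (XT.nd (nat_lit 78) (nat_lit 304) (nat_lit 0) (XT.lf (nat_lit 0) (nat_lit 4149277831) (nat_lit 152) (nat_lit 8377966564) (nat_lit 228) (nat_lit 1785371061) (nat_lit 49) (nat_lit 5) (nat_lit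 51) (nat_lit 5) (nat_lit 52) (nat_lit 4) (nat_lit 421) (nat_lit 317) (nat_lit 282)) (XT.lf (nat_lit 0) (nat_lit 6876877856) (nat_lit 304) (nat_lit 7182692775) (nat_lit 76) (nat_lit 489901404) (nat_lit 45) (nat_lit 5) (nat_lit 49) (nat_lit 5) (nat_lit 46) (nat_lit 4) (nat_lit 422) (nat_lit 317) (nat_lit 281)))) (XT.nd (nat_lit 156) (nat_lit 760) (nat_lit 0) (XT.nd (nat_lit 78) (nat_lit 152) (nat_lit 0) (XT.lf (nat_lit 0) (nat_lit 1046436110) (nat_lit 228) (nat_lit 4174840538) (nat_lit 76) (nat_lit 9570238793) (nat_lit 42) (nat_lit 5) (nat_lit 45) (nat_lit 5) (nat_lit 43) (nat_lit 5) (nat_lit 423) (nat_lit 317) (nat_lit 280)) (XT.lf (nat_lit 0) (nat_lit 9972671556) (nat_lit 228) (nat_lit 1140757471) (nat_lit 76) (nat_lit 3925379310) (nat_lit 40) (nat_lit 5) (nat_lit 43) (nat_lit 5) (nat_lit 41) (nat_lit 4) (nat_lit 424) (nat_lit 317) (nat_lit 279))) (XT.nd (nat_lit 78) (nat_lit 380) (nat_lit 0) (XT.lf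 (nat_lit 0) (nat_lit 1963170278) (nat_lit 152) (nat_lit 1933206519) (nat_lit 228) (nat_lit 11395160276) (nat_lit 35) (nat_lit 5) (nat_lit 37) (nat_lit 5) (nat_lit 38) (nat_lit 5) (nat_lit 425) (nat_lit 317) (nat_lit 278)) (XT.nd (nat_lit 78) (nat_lit 228) (nat_lit 0) (XT.lf (nat_lit 0) (nat_lit 5105801547) (nat_lit 152) (nat_lit 8038437364) (nat_lit 228) (nat_lit 2405232977) (nat_lit 33) (nat_lit 5) (nat_lit 35) (nat_lit 5) (nat_lit 36) (nat_lit 4) (nat_lit 426) (nat_lit 317) (nat_lit 277)) (XT.lf (nat_lit 0) (nat_lit 6817753319) (nat_lit 228) (nat_lit 7523918820) (nat_lit 76) (nat_lit 1471517388) (nat_lit 30) (nat_lit 5) (nat_lit 33) (nat_lit 5) (nat_lit 31) (nat_lit 4) (nat_lit 427) (nat_lit 317) (nat_lit 276)))))) (XT.nd (nat_lit 49920) (nat_lit 0) (nat_lit 13908) (XT.nd (nat_lit 49686) (nat_lit 0) (nat_lit 17024) (XT.nd (nat_lit 78) (nat_lit 152) (nat_lit 0) (XT.lf (nat_lit 0) (nat_lit 285301381)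 (nat_lit 228) (nat_lit 4572111582) (nat_lit 76) (nat_lit 11225308218) (nat_lit 27) (nat_lit 5) (nat_lit 30) (nat_lit 5) (nat_lit 28) (nat_lit 5) (nat_lit 428) (nat_lit 317) (nat_lit 275)) (XT.lf (nat_lit 0) (nat_lit 9791243786) (nat_lit 228) (nat_lit 1607762376) (nat_lit 76) (nat_lit 4958763518) (nat_lit 25) (nat_lit 5) (nat_lit 28) (nat_lit 5) (nat_lit 26) (nat_lit 4) (nat_lit 429) (nat_lit 317) (nat_lit 274))) (XT.nd (nat_lit 78) (nat_lit 1672) (nat_lit 0) (XT.lf (nat_lit 0) (nat_lit 1733855840) (nat_lit 608) (nat_lit 780608000) (nat_lit 0) (nat_lit 1733855840) (nat_lit 271) (nat_lit 5) (nat_lit 279) (nat_lit 4) (nat_lit 271) (nat_lit 4) (nat_lit 384) (nat_lit 318) (nat_lit 318)) (XT.nd (nat_lit 78) (nat_lit 532) (nat_lit 0) (XT.lf (nat_lit 0) (nat_lit 1067513618) (nat_lit 532) (nat_lit 229559382) (nat_lit 608) (nat_lit 7295603562) (nat_lit 256) (nat_lit 5) (nat_lit 263) (nat_lit 5) (nat_lit 264)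 (nat_lit 4) (nat_lit 385) (nat_lit 318) (nat_lit 317)) (XT.lf (nat_lit 0) (nat_lit 3754887949) (nat_lit 532) (nat_lit 3968199737) (nat_lit 532) (nat_lit 968271219) (nat_lit 249) (nat_lit 4) (nat_lit 256) (nat_lit 5) (nat_lit 256) (nat_lit 4) (nat_lit 386) (nat_lit 318) (nat_lit 316))))) (XT.nd (nat_lit 156) (nat_lit 1520) (nat_lit 0) (XT.nd (nat_lit 78) (nat_lit 1064) (nat_lit 0) (XT.lf (nat_lit 0) (nat_lit 5424116999) (nat_lit 532) (nat_lit 2292815576) (nat_lit 0) (nat_lit 1076388395) (nat_lit 242) (nat_lit 5) (nat_lit 249) (nat_lit 4) (nat_lit 242) (nat_lit 4) (nat_lit 387) (nat_lit 318) (nat_lit 315)) (XT.lf (nat_lit 0) (nat_lit 402971082) (nat_lit 456) (nat_lit 2624926107) (nat_lit 532) (nat_lit 5870482444) (nat_lit 228) (nat_lit 5) (nat_lit 234) (nat_lit 5) (nat_lit 235) (nat_lit 4) (nat_lit 388) (nat_lit 318) (nat_lit 314))) (XT.nd (nat_lit 78) (nat_lit 988) (nat_lit 0) (XT.lf (nat_lit 0) (nat_lit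 535490494) (nat_lit 532) (nat_lit 5819542129) (nat_lit 76) (nat_lit 2651480497) (nat_lit 221) (nat_lit 5) (nat_lit 228) (nat_lit 5) (nat_lit 222) (nat_lit 4) (nat_lit 389) (nat_lit 318) (nat_lit 313)) (XT.nd (nat_lit 78) (nat_lit 532) (nat_lit 0) (XT.lf (nat_lit 0) (nat_lit 6015889494) (nat_lit 456) (nat_lit 1003487062) (nat_lit 532) (nat_lit 2098428163) (nat_lit 215) (nat_lit 5) (nat_lit 221) (nat_lit 5) (nat_lit 222) (nat_lit 4) (nat_lit 390) (nat_lit 318) (nat_lit 312)) (XT.lf (nat_lit 0) (nat_lit 4386420503) (nat_lit 532) (nat_lit 343853683) (nat_lit 76) (nat_lit 4501988237) (nat_lit 208) (nat_lit 5) (nat_lit 215) (nat_lit 5) (nat_lit 209) (nat_lit 4) (nat_lit 391) (nat_lit 318) (nat_lit 311))))))) (XT.nd (nat_lit 780) (nat_lit 3876) (nat_lit 0) (XT.nd (nat_lit 390) (nat_lit 2280) (nat_lit 0) (XT.nd (nat_lit 156) (nat_lit 1596) (nat_lit 0) (XT.nd (nat_lit 78) (nat_lit 380) (nat_lit 0) (XT.lf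 (nat_lit 0) (nat_lit 1646763385) (nat_lit 532) (nat_lit 6840862813) (nat_lit 76) (nat_lit 862401818) (nat_lit 196) (nat_lit 5) (nat_lit 203) (nat_lit 5) (nat_lit 197) (nat_lit 4) (nat_lit 392) (nat_lit 318) (nat_lit 310)) (XT.lf (nat_lit 0) (nat_lit 5403397293) (nat_lit 380) (nat_lit 2854424703) (nat_lit 456) (nat_lit 1213073739) (nat_lit 191) (nat_lit 5) (nat_lit 196) (nat_lit 5) (nat_lit 197) (nat_lit 4) (nat_lit 393) (nat_lit 318) (nat_lit 309))) (XT.nd (nat_lit 78) (nat_lit 1140) (nat_lit 0) (XT.lf (nat_lit 0) (nat_lit 5377097028) (nat_lit 456) (nat_lit 1251155230) (nat_lit 76) (nat_lit 2966885932) (nat_lit 185) (nat_lit 5) (nat_lit 191) (nat_lit 5) (nat_lit 186) (nat_lit 4) (nat_lit 394) (nat_lit 318) (nat_lit 308)) (XT.nd (nat_lit 78) (nat_lit 304) (nat_lit 0) (XT.lf (nat_lit 0) (nat_lit 1642309412) (nat_lit 380) (nat_lit 741414216) (nat_lit 456) (nat_lit 7339109144) (nat_lit 174) (nat_lit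 5) (nat_lit 179) (nat_lit 5) (nat_lit 180) (nat_lit 5) (nat_lit 395) (nat_lit 318) (nat_lit 307)) (XT.lf (nat_lit 0) (nat_lit 4589430479) (nat_lit 304) (nat_lit 4542732446) (nat_lit 380) (nat_lit 721519078) (nat_lit 170) (nat_lit 5) (nat_lit 174) (nat_lit 5) (nat_lit 175) (nat_lit 4) (nat_lit 396) (nat_lit 318) (nat_lit 306))))) (XT.nd (nat_lit 156) (nat_lit 1064) (nat_lit 0) (XT.nd (nat_lit 78) (nat_lit 760) (nat_lit 0) (XT.lf (nat_lit 0) (nat_lit 5994802550) (nat_lit 456) (nat_lit 2405724302) (nat_lit 76) (nat_lit 1587535744) (nat_lit 164) (nat_lit 5) (nat_lit 170) (nat_lit 5) (nat_lit 165) (nat_lit 4) (nat_lit 397) (nat_lit 318) (nat_lit 305)) (XT.lf (nat_lit 0) (nat_lit 503939332) (nat_lit 380) (nat_lit 2237180770) (nat_lit 456) (nat_lit 7384876558) (nat_lit 154) (nat_lit 5) (nat_lit 159) (nat_lit 5) (nat_lit 160) (nat_lit 5) (nat_lit 398) (nat_lit 318) (nat_lit 304))) (XT.nd (nat_lit 78) (nat_lit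 760) (nat_lit 0) (XT.lf (nat_lit 0) (nat_lit 3491204882) (nat_lit 304) (nat_lit 6145098465) (nat_lit 380) (nat_lit 630977004) (nat_lit 150) (nat_lit 5) (nat_lit 154) (nat_lit 5) (nat_lit 155) (nat_lit 4) (nat_lit 399) (nat_lit 318) (nat_lit 303)) (XT.nd (nat_lit 78) (nat_lit 380) (nat_lit 0) (XT.lf (nat_lit 0) (nat_lit 6231181998) (nat_lit 380) (nat_lit 3891430361) (nat_lit 76) (nat_lit 289596740) (nat_lit 145) (nat_lit 5) (nat_lit 150) (nat_lit 5) (nat_lit 146) (nat_lit 4) (nat_lit 400) (nat_lit 318) (nat_lit 302)) (XT.lf (nat_lit 0) (nat_lit 2708995945) (nat_lit 380) (nat_lit 972728617) (nat_lit 76) (nat_lit 6879012145) (nat_lit 140) (nat_lit 5) (nat_lit 145) (nat_lit 5) (nat_lit 141) (nat_lit 5) (nat_lit 401) (nat_lit 318) (nat_lit 301)))))) (XT.nd (nat_lit 390) (nat_lit 1672) (nat_lit 0) (XT.nd (nat_lit 156) (nat_lit 1216) (nat_lit 0) (XT.nd (nat_lit 78) (nat_lit 380) (nat_lit 0) (XT.lf (nat_lit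 0) (nat_lit 2023068479) (nat_lit 304) (nat_lit 7735340192) (nat_lit 380) (nat_lit 954568887) (nat_lit 132) (nat_lit 5) (nat_lit 136) (nat_lit 5) (nat_lit 137) (nat_lit 4) (nat_lit 402) (nat_lit 318) (nat_lit 300)) (XT.lf (nat_lit 0) (nat_lit 5066816886) (nat_lit 304) (nat_lit 1011910239) (nat_lit 380) (nat_lit 4790062753) (nat_lit 127) (nat_lit 5) (nat_lit 131) (nat_lit 5) (nat_lit 132) (nat_lit 5) (nat_lit 403) (nat_lit 318) (nat_lit 299))) (XT.nd (nat_lit 78) (nat_lit 912) (nat_lit 0) (XT.lf (nat_lit 0) (nat_lit 2270645398) (nat_lit 304) (nat_lit 2877245928) (nat_lit 76) (nat_lit 5880569724) (nat_lit 123) (nat_lit 5) (nat_lit 127) (nat_lit 5) (nat_lit 124) (nat_lit 5) (nat_lit 404) (nat_lit 318) (nat_lit 298)) (XT.nd (nat_lit 78) (nat_lit 380) (nat_lit 0) (XT.lf (nat_lit 0) (nat_lit 95601405) (nat_lit 228) (nat_lit 9385383343) (nat_lit 304) (nat_lit 1711246602) (nat_lit 116) (nat_lit 5) (nat_lit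 119) (nat_lit 5) (nat_lit 120) (nat_lit 4) (nat_lit 405) (nat_lit 318) (nat_lit 297)) (XT.lf (nat_lit 0) (nat_lit 3135035946) (nat_lit 304) (nat_lit 2378388606) (nat_lit 380) (nat_lit 5845980921) (nat_lit 111) (nat_lit 5) (nat_lit 115) (nat_lit 5) (nat_lit 116) (nat_lit 5) (nat_lit 406) (nat_lit 318) (nat_lit 296))))) (XT.nd (nat_lit 156) (nat_lit 1064) (nat_lit 0) (XT.nd (nat_lit 78) (nat_lit 304) (nat_lit 0) (XT.lf (nat_lit 0) (nat_lit 1401246416) (nat_lit 304) (nat_lit 5308422396) (nat_lit 76) (nat_lit 4821130110) (nat_lit 107) (nat_lit 5) (nat_lit 111) (nat_lit 5) (nat_lit 108) (nat_lit 5) (nat_lit 407) (nat_lit 318) (nat_lit 295)) (XT.lf (nat_lit 0) (nat_lit 8796378223) (nat_lit 380) (nat_lit 2354005055) (nat_lit 76) (nat_lit 555979825) (nat_lit 103) (nat_lit 5) (nat_lit 108) (nat_lit 5) (nat_lit 104) (nat_lit 4) (nat_lit 408) (nat_lit 318) (nat_lit 294))) (XT.nd (nat_lit 78) (nat_lit 532) (nat_lit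 0) (XT.lf (nat_lit 0) (nat_lit 632259476) (nat_lit 228) (nat_lit 3876143764) (nat_lit 304) (nat_lit 7377371333) (nat_lit 96) (nat_lit 5) (nat_lit 99) (nat_lit 5) (nat_lit 100) (nat_lit 5) (nat_lit 409) (nat_lit 318) (nat_lit 293)) (XT.nd (nat_lit 78) (nat_lit 228) (nat_lit 0) (XT.lf (nat_lit 0) (nat_lit 73532681) (nat_lit 304) (nat_lit 8363726587) (nat_lit 76) (nat_lit 3632230706) (nat_lit 92) (nat_lit 5) (nat_lit 96) (nat_lit 5) (nat_lit 93) (nat_lit 5) (nat_lit 410) (nat_lit 318) (nat_lit 292)) (XT.lf (nat_lit 0) (nat_lit 6804760918) (nat_lit 228) (nat_lit 865989643) (nat_lit 304) (nat_lit 4586530662) (nat_lit 89) (nat_lit 5) (nat_lit 92) (nat_lit 5) (nat_lit 93) (nat_lit 5) (nat_lit 411) (nat_lit 318) (nat_lit 291))))))))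
noncomputable def xc14 : XT := (XT.nd (nat_lit 50856) (nat_lit 0) (nat_lit 8436) (XT.nd (nat_lit 702) (nat_lit 2204) (nat_lit 0) (XT.nd (nat_lit 312) (nat_lit 1368) (nat_lit 0) (XT.nd (nat_lit 156) (nat_lit 532) (nat_lit 0) (XT.nd (nat_lit 78) (nat_lit 456) (nat_lit 0) (XT.lf (nat_lit 0) (nat_lit 3049458855) (nat_lit 304) (nat_lit 2509090626) (nat_lit 76) (nat_lit 6890876938) (nat_lit 85) (nat_lit 5) (nat_lit 89) (nat_lit 5) (nat_lit 86) (nat_lit 5) (nat_lit 412) (nat_lit 318) (nat_lit 290)) (XT.lf (nat_lit 0) (nat_lit 487918398) (nat_lit 228) (nat_lit 10389544509) (nat_lit 304) (nat_lit 1768761770) (nat_lit 79) (nat_lit 5) (nat_lit 82) (nat_lit 5) (nat_lit 83) (nat_lit 4) (nat_lit 413) (nat_lit 318) (nat_lit 289))) (XT.nd (nat_lit 78) (nat_lit 228) (nat_lit 0) (XT.lf (nat_lit 0) (nat_lit 3541421342) (nat_lit 228) (nat_lit 2527653081) (nat_lit 304) (nat_lit 6777909798) (nat_lit 75) (nat_lit 5) (nat_lit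 78) (nat_lit 5) (nat_lit 79) (nat_lit 5) (nat_lit 414) (nat_lit 318) (nat_lit 288)) (XT.lf (nat_lit 0) (nat_lit 1092669061) (nat_lit 228) (nat_lit 6411515341) (nat_lit 76) (nat_lit 5548367143) (nat_lit 72) (nat_lit 5) (nat_lit 75) (nat_lit 5) (nat_lit 73) (nat_lit 5) (nat_lit 415) (nat_lit 318) (nat_lit 287)))) (XT.nd (nat_lit 156) (nat_lit 912) (nat_lit 0) (XT.nd (nat_lit 78) (nat_lit 228) (nat_lit 0) (XT.lf (nat_lit 0) (nat_lit 9136712440) (nat_lit 304) (nat_lit 3485880035) (nat_lit 76) (nat_lit 640208726) (nat_lit 69) (nat_lit 5) (nat_lit 73) (nat_lit 5) (nat_lit 70) (nat_lit 4) (nat_lit 416) (nat_lit 318) (nat_lit 286)) (XT.lf (nat_lit 0) (nat_lit 3951815154) (nat_lit 228) (nat_lit 537321830) (nat_lit 76) (nat_lit 8988493271) (nat_lit 66) (nat_lit 5) (nat_lit 69) (nat_lit 5) (nat_lit 67) (nat_lit 5) (nat_lit 417) (nat_lit 318) (nat_lit 285))) (XT.nd (nat_lit 78) (nat_lit 532) (nat_lit 0) (XT.lf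 (nat_lit 0) (nat_lit 2490805495) (nat_lit 152) (nat_lit 9779793015) (nat_lit 228) (nat_lit 1426668209) (nat_lit 61) (nat_lit 5) (nat_lit 63) (nat_lit 5) (nat_lit 64) (nat_lit 4) (nat_lit 418) (nat_lit 318) (nat_lit 284)) (XT.nd (nat_lit 78) (nat_lit 228) (nat_lit 0) (XT.lf (nat_lit 0) (nat_lit 5553081818) (nat_lit 228) (nat_lit 1319973860) (nat_lit 304) (nat_lit 7048572604) (nat_lit 57) (nat_lit 5) (nat_lit 60) (nat_lit 5) (nat_lit 61) (nat_lit 5) (nat_lit 419) (nat_lit 318) (nat_lit 283)) (XT.lf (nat_lit 0) (nat_lit 1299001516) (nat_lit 228) (nat_lit 5498573414) (nat_lit 76) (nat_lit 7353484114) (nat_lit 54) (nat_lit 5) (nat_lit 57) (nat_lit 5) (nat_lit 55) (nat_lit 5) (nat_lit 420) (nat_lit 318) (nat_lit 282)))))) (XT.nd (nat_lit 390) (nat_lit 912) (nat_lit 0) (XT.nd (nat_lit 156) (nat_lit 608) (nat_lit 0) (XT.nd (nat_lit 78) (nat_lit 456) (nat_lit 0) (XT.lf (nat_lit 0) (nat_lit 9842691195) (nat_lit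 304) (nat_lit 2597803441) (nat_lit 76) (nat_lit 1945117255) (nat_lit 51) (nat_lit 5) (nat_lit 55) (nat_lit 5) (nat_lit 52) (nat_lit 4) (nat_lit 421) (nat_lit 318) (nat_lit 281)) (XT.lf (nat_lit 0) (nat_lit 336182099) (nat_lit 228) (nat_lit 3696482283) (nat_lit 304) (nat_lit 10592618757) (nat_lit 45) (nat_lit 5) (nat_lit 48) (nat_lit 5) (nat_lit 49) (nat_lit 5) (nat_lit 422) (nat_lit 318) (nat_lit 280))) (XT.nd (nat_lit 78) (nat_lit 456) (nat_lit 0) (XT.lf (nat_lit 0) (nat_lit 3341970170) (nat_lit 152) (nat_lit 9538477248) (nat_lit 228) (nat_lit 1989563514) (nat_lit 43) (nat_lit 5) (nat_lit 45) (nat_lit 5) (nat_lit 46) (nat_lit 4) (nat_lit 423) (nat_lit 318) (nat_lit 279)) (XT.nd (nat_lit 78) (nat_lit 228) (nat_lit 0) (XT.lf (nat_lit 0) (nat_lit 6382323907) (nat_lit 152) (nat_lit 450196211) (nat_lit 228) (nat_lit 8287646967) (nat_lit 40) (nat_lit 5) (nat_lit 42) (nat_lit 5) (nat_lit 43) (nat_lit 5)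 (nat_lit 424) (nat_lit 318) (nat_lit 278)) (XT.lf (nat_lit 0) (nat_lit 595300462) (nat_lit 228) (nat_lit 5922897404) (nat_lit 76) (nat_lit 8857552616) (nat_lit 37) (nat_lit 5) (nat_lit 40) (nat_lit 5) (nat_lit 38) (nat_lit 5) (nat_lit 425) (nat_lit 318) (nat_lit 277))))) (XT.nd (nat_lit 156) (nat_lit 532) (nat_lit 0) (XT.nd (nat_lit 78) (nat_lit 228) (nat_lit 0) (XT.lf (nat_lit 0) (nat_lit 9685836114) (nat_lit 228) (nat_lit 3084093151) (nat_lit 76) (nat_lit 2866902561) (nat_lit 35) (nat_lit 5) (nat_lit 38) (nat_lit 5) (nat_lit 36) (nat_lit 4) (nat_lit 426) (nat_lit 318) (nat_lit 276)) (XT.lf (nat_lit 0) (nat_lit 3179910950) (nat_lit 228) (nat_lit 207426927) (nat_lit 76) (nat_lit 12516443675) (nat_lit 32) (nat_lit 5) (nat_lit 35) (nat_lit 5) (nat_lit 33) (nat_lit 5) (nat_lit 427) (nat_lit 318) (nat_lit 275))) (XT.nd (nat_lit 78) (nat_lit 228) (nat_lit 0) (XT.lf (nat_lit 0) (nat_lit 2727893720) (nat_lit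 152) (nat_lit 9871751886) (nat_lit 228) (nat_lit 3576392412) (nat_lit 28) (nat_lit 5) (nat_lit 30) (nat_lit 5) (nat_lit 31) (nat_lit 4) (nat_lit 428) (nat_lit 318) (nat_lit 274)) (XT.nd (nat_lit 49452) (nat_lit 0) (nat_lit 19912) (XT.lf (nat_lit 0) (nat_lit 5711075173) (nat_lit 152) (nat_lit 120465279) (nat_lit 228) (nat_lit 10622908763) (nat_lit 25) (nat_lit 5) (nat_lit 27) (nat_lit 5) (nat_lit 28) (nat_lit 5) (nat_lit 429) (nat_lit 318) (nat_lit 273)) (XT.lf (nat_lit 0) (nat_lit 453636721) (nat_lit 608) (nat_lit 3249054386) (nat_lit 0) (nat_lit 453636721) (nat_lit 287) (nat_lit 5) (nat_lit 295) (nat_lit 4) (nat_lit 287) (nat_lit 4) (nat_lit 382) (nat_lit 319) (nat_lit 319))))))) (XT.nd (nat_lit 780) (nat_lit 4560) (nat_lit 0) (XT.nd (nat_lit 390) (nat_lit 3496) (nat_lit 0) (XT.nd (nat_lit 156) (nat_lit 2204) (nat_lit 0) (XT.nd (nat_lit 78) (nat_lit 608) (nat_lit 0) (XT.lf (nat_lit 0) (nat_lit 4293015546)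 (nat_lit 608) (nat_lit 2870981198) (nat_lit 608) (nat_lit 1239847119) (nat_lit 279) (nat_lit 4) (nat_lit 287) (nat_lit 5) (nat_lit 287) (nat_lit 4) (nat_lit 383) (nat_lit 319) (nat_lit 318)) (XT.lf (nat_lit 0) (nat_lit 4989754957) (nat_lit 608) (nat_lit 1670396503) (nat_lit 0) (nat_lit 1838030057) (nat_lit 271) (nat_lit 5) (nat_lit 279) (nat_lit 4) (nat_lit 271) (nat_lit 4) (nat_lit 384) (nat_lit 319) (nat_lit 317))) (XT.nd (nat_lit 78) (nat_lit 1064) (nat_lit 0) (XT.lf (nat_lit 0) (nat_lit 833975429) (nat_lit 532) (nat_lit 1885358023) (nat_lit 608) (nat_lit 5876253804) (nat_lit 256) (nat_lit 5) (nat_lit 263) (nat_lit 5) (nat_lit 264) (nat_lit 4) (nat_lit 385) (nat_lit 319) (nat_lit 316)) (XT.nd (nat_lit 78) (nat_lit 456) (nat_lit 0) (XT.lf (nat_lit 0) (nat_lit 356890832) (nat_lit 608) (nat_lit 5281558849) (nat_lit 76) (nat_lit 3057526779) (nat_lit 248) (nat_lit 5) (nat_lit 256) (nat_lit 5) (nat_lit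 249) (nat_lit 4) (nat_lit 386) (nat_lit 319) (nat_lit 315)) (XT.lf (nat_lit 0) (nat_lit 6043088224) (nat_lit 456) (nat_lit 609650510) (nat_lit 532) (nat_lit 2146750882) (nat_lit 242) (nat_lit 5) (nat_lit 248) (nat_lit 5) (nat_lit 249) (nat_lit 4) (nat_lit 387) (nat_lit 319) (nat_lit 314))))) (XT.nd (nat_lit 156) (nat_lit 1900) (nat_lit 0) (XT.nd (nat_lit 78) (nat_lit 988) (nat_lit 0) (XT.lf (nat_lit 0) (nat_lit 4150991438) (nat_lit 608) (nat_lit 191308953) (nat_lit 76) (nat_lit 4563755671) (nat_lit 234) (nat_lit 5) (nat_lit 242) (nat_lit 5) (nat_lit 235) (nat_lit 4) (nat_lit 388) (nat_lit 319) (nat_lit 313)) (XT.lf (nat_lit 0) (nat_lit 1546192263) (nat_lit 532) (nat_lit 6546858537) (nat_lit 76) (nat_lit 922795653) (nat_lit 221) (nat_lit 5) (nat_lit 228) (nat_lit 5) (nat_lit 222) (nat_lit 4) (nat_lit 389) (nat_lit 319) (nat_lit 312))) (XT.nd (nat_lit 78) (nat_lit 1444) (nat_lit 0) (XT.lf (nat_lit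 0) (nat_lit 5169778388) (nat_lit 456) (nat_lit 2783293744) (nat_lit 532) (nat_lit 1175606043) (nat_lit 215) (nat_lit 5) (nat_lit 221) (nat_lit 5) (nat_lit 222) (nat_lit 4) (nat_lit 390) (nat_lit 319) (nat_lit 311)) (XT.nd (nat_lit 78) (nat_lit 912) (nat_lit 0) (XT.lf (nat_lit 0) (nat_lit 5208382926) (nat_lit 532) (nat_lit 1327106229) (nat_lit 76) (nat_lit 2709302028) (nat_lit 208) (nat_lit 5) (nat_lit 215) (nat_lit 5) (nat_lit 209) (nat_lit 4) (nat_lit 391) (nat_lit 319) (nat_lit 310)) (XT.lf (nat_lit 0) (nat_lit 1377183960) (nat_lit 456) (nat_lit 978218512) (nat_lit 532) (nat_lit 7008852771) (nat_lit 196) (nat_lit 5) (nat_lit 202) (nat_lit 5) (nat_lit 203) (nat_lit 5) (nat_lit 392) (nat_lit 319) (nat_lit 309)))))) (XT.nd (nat_lit 390) (nat_lit 2128) (nat_lit 0) (XT.nd (nat_lit 156) (nat_lit 1596) (nat_lit 0) (XT.nd (nat_lit 78) (nat_lit 456) (nat_lit 0) (XT.lf (nat_lit 0) (nat_lit 4138922393) (nat_lit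 380) (nat_lit 4743489402) (nat_lit 456) (nat_lit 604392152) (nat_lit 191) (nat_lit 5) (nat_lit 196) (nat_lit 5) (nat_lit 197) (nat_lit 4) (nat_lit 393) (nat_lit 319) (nat_lit 308)) (XT.lf (nat_lit 0) (nat_lit 5887485100) (nat_lit 456) (nat_lit 2666010183) (nat_lit 76) (nat_lit 1059278291) (nat_lit 185) (nat_lit 5) (nat_lit 191) (nat_lit 5) (nat_lit 186) (nat_lit 4) (nat_lit 394) (nat_lit 319) (nat_lit 307))) (XT.nd (nat_lit 78) (nat_lit 760) (nat_lit 0) (XT.lf (nat_lit 0) (nat_lit 58033764) (nat_lit 380) (nat_lit 2723631090) (nat_lit 456) (nat_lit 6960506294) (nat_lit 174) (nat_lit 5) (nat_lit 179) (nat_lit 5) (nat_lit 180) (nat_lit 5) (nat_lit 395) (nat_lit 319) (nat_lit 306)) (XT.nd (nat_lit 78) (nat_lit 456) (nat_lit 0) (XT.lf (nat_lit 0) (nat_lit 2867904059) (nat_lit 304) (nat_lit 6570507451) (nat_lit 380) (nat_lit 436442722) (nat_lit 170) (nat_lit 5) (nat_lit 174) (nat_lit 5) (nat_lit 175) (nat_lit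 4) (nat_lit 396) (nat_lit 319) (nat_lit 305)) (XT.lf (nat_lit 0) (nat_lit 5716494885) (nat_lit 380) (nat_lit 470211545) (nat_lit 456) (nat_lit 3824280049) (nat_lit 164) (nat_lit 5) (nat_lit 169) (nat_lit 5) (nat_lit 170) (nat_lit 5) (nat_lit 397) (nat_lit 319) (nat_lit 304))))) (XT.nd (nat_lit 156) (nat_lit 1064) (nat_lit 0) (XT.nd (nat_lit 78) (nat_lit 684) (nat_lit 0) (XT.lf (nat_lit 0) (nat_lit 2822102916) (nat_lit 380) (nat_lit 1546625169) (nat_lit 76) (nat_lit 5781886136) (nat_lit 159) (nat_lit 5) (nat_lit 164) (nat_lit 5) (nat_lit 160) (nat_lit 5) (nat_lit 398) (nat_lit 319) (nat_lit 303)) (XT.lf (nat_lit 0) (nat_lit 1271835085) (nat_lit 304) (nat_lit 8340996356) (nat_lit 380) (nat_lit 681155565) (nat_lit 150) (nat_lit 5) (nat_lit 154) (nat_lit 5) (nat_lit 155) (nat_lit 4) (nat_lit 399) (nat_lit 319) (nat_lit 302))) (XT.nd (nat_lit 78) (nat_lit 684) (nat_lit 0) (XT.lf (nat_lit 0) (nat_lit 4138360258)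 (nat_lit 304) (nat_lit 1960753311) (nat_lit 380) (nat_lit 4341459660) (nat_lit 145) (nat_lit 5) (nat_lit 149) (nat_lit 5) (nat_lit 150) (nat_lit 5) (nat_lit 400) (nat_lit 319) (nat_lit 301)) (XT.nd (nat_lit 78) (nat_lit 304) (nat_lit 0) (XT.lf (nat_lit 0) (nat_lit 2456620249) (nat_lit 380) (nat_lit 3539245603) (nat_lit 76) (nat_lit 4595136763) (nat_lit 140) (nat_lit 5) (nat_lit 145) (nat_lit 5) (nat_lit 141) (nat_lit 5) (nat_lit 401) (nat_lit 319) (nat_lit 300)) (XT.lf (nat_lit 0) (nat_lit 9396453688) (nat_lit 380) (nat_lit 727685257) (nat_lit 76) (nat_lit 621296106) (nat_lit 136) (nat_lit 5) (nat_lit 141) (nat_lit 5) (nat_lit 137) (nat_lit 4) (nat_lit 402) (nat_lit 319) (nat_lit 299))))))))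
noncomputable def xc15 : XT := (XT.nd (nat_lit 1560) (nat_lit 1596) (nat_lit 0) (XT.nd (nat_lit 780) (nat_lit 2812) (nat_lit 0) (XT.nd (nat_lit 390) (nat_lit 1672) (nat_lit 0) (XT.nd (nat_lit 156) (nat_lit 1216) (nat_lit 0) (XT.nd (nat_lit 78) (nat_lit 304) (nat_lit 0) (XT.lf (nat_lit 0) (nat_lit 2130703169) (nat_lit 304) (nat_lit 3471246459) (nat_lit 380) (nat_lit 5301099716) (nat_lit 127) (nat_lit 5) (nat_lit 131) (nat_lit 5) (nat_lit 132) (nat_lit 5) (nat_lit 403) (nat_lit 319) (nat_lit 298)) (XT.lf (nat_lit 0) (nat_lit 1666785673) (nat_lit 304) (nat_lit 6011044823) (nat_lit 76) (nat_lit 3386946882) (nat_lit 123) (nat_lit 5) (nat_lit 127) (nat_lit 5) (nat_lit 124) (nat_lit 5) (nat_lit 404) (nat_lit 319) (nat_lit 297))) (XT.nd (nat_lit 78) (nat_lit 912) (nat_lit 0) (XT.lf (nat_lit 0) (nat_lit 8016314667) (nat_lit 304) (nat_lit 764969717) (nat_lit 380) (nat_lit 2449180106) (nat_lit 119) (nat_lit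 5) (nat_lit 123) (nat_lit 5) (nat_lit 124) (nat_lit 5) (nat_lit 405) (nat_lit 319) (nat_lit 296)) (XT.nd (nat_lit 78) (nat_lit 608) (nat_lit 0) (XT.lf (nat_lit 0) (nat_lit 4676291213) (nat_lit 304) (nat_lit 394300246) (nat_lit 76) (nat_lit 6329320536) (nat_lit 115) (nat_lit 5) (nat_lit 119) (nat_lit 5) (nat_lit 116) (nat_lit 5) (nat_lit 406) (nat_lit 319) (nat_lit 295)) (XT.lf (nat_lit 0) (nat_lit 428795537) (nat_lit 304) (nat_lit 9057168326) (nat_lit 76) (nat_lit 2087581975) (nat_lit 107) (nat_lit 5) (nat_lit 111) (nat_lit 5) (nat_lit 108) (nat_lit 5) (nat_lit 407) (nat_lit 319) (nat_lit 294))))) (XT.nd (nat_lit 156) (nat_lit 1064) (nat_lit 0) (XT.nd (nat_lit 78) (nat_lit 304) (nat_lit 0) (XT.lf (nat_lit 0) (nat_lit 5450844740) (nat_lit 304) (nat_lit 2283353844) (nat_lit 380) (nat_lit 4016706010) (nat_lit 103) (nat_lit 5) (nat_lit 107) (nat_lit 5) (nat_lit 108) (nat_lit 5) (nat_lit 408) (nat_lit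 319) (nat_lit 293)) (XT.lf (nat_lit 0) (nat_lit 3310140435) (nat_lit 304) (nat_lit 3504085016) (nat_lit 76) (nat_lit 5118355454) (nat_lit 99) (nat_lit 5) (nat_lit 103) (nat_lit 5) (nat_lit 100) (nat_lit 5) (nat_lit 409) (nat_lit 319) (nat_lit 292))) (XT.nd (nat_lit 78) (nat_lit 836) (nat_lit 0) (XT.lf (nat_lit 0) (nat_lit 10819210443) (nat_lit 304) (nat_lit 659155174) (nat_lit 76) (nat_lit 640471090) (nat_lit 96) (nat_lit 5) (nat_lit 100) (nat_lit 5) (nat_lit 97) (nat_lit 4) (nat_lit 410) (nat_lit 319) (nat_lit 291)) (XT.nd (nat_lit 78) (nat_lit 304) (nat_lit 0) (XT.lf (nat_lit 0) (nat_lit 2225126546) (nat_lit 228) (nat_lit 3995905165) (nat_lit 304) (nat_lit 6087637101) (nat_lit 89) (nat_lit 5) (nat_lit 92) (nat_lit 5) (nat_lit 93) (nat_lit 5) (nat_lit 411) (nat_lit 319) (nat_lit 290)) (XT.lf (nat_lit 0) (nat_lit 1457237579) (nat_lit 304) (nat_lit 7329664593) (nat_lit 76) (nat_lit 3716322803) (nat_lit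 85) (nat_lit 5) (nat_lit 89) (nat_lit 5) (nat_lit 86) (nat_lit 5) (nat_lit 412) (nat_lit 319) (nat_lit 289)))))) (XT.nd (nat_lit 390) (nat_lit 1368) (nat_lit 0) (XT.nd (nat_lit 156) (nat_lit 912) (nat_lit 0) (XT.nd (nat_lit 78) (nat_lit 304) (nat_lit 0) (XT.lf (nat_lit 0) (nat_lit 8153736307) (nat_lit 228) (nat_lit 1023049017) (nat_lit 304) (nat_lit 3525407034) (nat_lit 82) (nat_lit 5) (nat_lit 85) (nat_lit 5) (nat_lit 86) (nat_lit 5) (nat_lit 413) (nat_lit 319) (nat_lit 288)) (XT.lf (nat_lit 0) (nat_lit 4217326529) (nat_lit 304) (nat_lit 1744665728) (nat_lit 76) (nat_lit 6943550578) (nat_lit 78) (nat_lit 5) (nat_lit 82) (nat_lit 5) (nat_lit 79) (nat_lit 5) (nat_lit 414) (nat_lit 319) (nat_lit 287))) (XT.nd (nat_lit 78) (nat_lit 532) (nat_lit 0) (XT.lf (nat_lit 0) (nat_lit 1126606973) (nat_lit 152) (nat_lit 11054181837) (nat_lit 228) (nat_lit 933012095) (nat_lit 73) (nat_lit 5) (nat_lit 75) (nat_lit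 5) (nat_lit 76) (nat_lit 4) (nat_lit 415) (nat_lit 319) (nat_lit 286)) (XT.nd (nat_lit 78) (nat_lit 228) (nat_lit 0) (XT.lf (nat_lit 0) (nat_lit 4033482205) (nat_lit 228) (nat_lit 2991251935) (nat_lit 304) (nat_lit 6301408251) (nat_lit 69) (nat_lit 5) (nat_lit 72) (nat_lit 5) (nat_lit 73) (nat_lit 5) (nat_lit 416) (nat_lit 319) (nat_lit 285)) (XT.lf (nat_lit 0) (nat_lit 1689808875) (nat_lit 228) (nat_lit 6555586942) (nat_lit 76) (nat_lit 5298162431) (nat_lit 66) (nat_lit 5) (nat_lit 69) (nat_lit 5) (nat_lit 67) (nat_lit 5) (nat_lit 417) (nat_lit 319) (nat_lit 284))))) (XT.nd (nat_lit 156) (nat_lit 912) (nat_lit 0) (XT.nd (nat_lit 78) (nat_lit 228) (nat_lit 0) (XT.lf (nat_lit 0) (nat_lit 9871543455) (nat_lit 304) (nat_lit 3785325251) (nat_lit 76) (nat_lit 109066980) (nat_lit 63) (nat_lit 5) (nat_lit 67) (nat_lit 5) (nat_lit 64) (nat_lit 4) (nat_lit 418) (nat_lit 319) (nat_lit 283)) (XT.lf (nat_lit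 0) (nat_lit 4320563157) (nat_lit 228) (nat_lit 1001383626) (nat_lit 76) (nat_lit 8671013571) (nat_lit 60) (nat_lit 5) (nat_lit 63) (nat_lit 5) (nat_lit 61) (nat_lit 5) (nat_lit 419) (nat_lit 319) (nat_lit 282))) (XT.nd (nat_lit 78) (nat_lit 532) (nat_lit 0) (XT.lf (nat_lit 0) (nat_lit 1857392703) (nat_lit 152) (nat_lit 10925491693) (nat_lit 228) (nat_lit 1442319994) (nat_lit 55) (nat_lit 5) (nat_lit 57) (nat_lit 5) (nat_lit 58) (nat_lit 4) (nat_lit 420) (nat_lit 319) (nat_lit 281)) (XT.nd (nat_lit 78) (nat_lit 228) (nat_lit 0) (XT.lf (nat_lit 0) (nat_lit 4748039037) (nat_lit 228) (nat_lit 2258934885) (nat_lit 304) (nat_lit 7455236845) (nat_lit 51) (nat_lit 5) (nat_lit 54) (nat_lit 5) (nat_lit 55) (nat_lit 5) (nat_lit 421) (nat_lit 319) (nat_lit 280)) (XT.lf (nat_lit 0) (nat_lit 1039484818) (nat_lit 228) (nat_lit 7024476372) (nat_lit 76) (nat_lit 6640680178) (nat_lit 48) (nat_lit 5) (nat_lit 51) (nat_lit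 5) (nat_lit 49) (nat_lit 5) (nat_lit 422) (nat_lit 319) (nat_lit 279))))))) (XT.nd (nat_lit 49998) (nat_lit 0) (nat_lit 13300) (XT.nd (nat_lit 390) (nat_lit 456) (nat_lit 0) (XT.nd (nat_lit 156) (nat_lit 684) (nat_lit 0) (XT.nd (nat_lit 78) (nat_lit 228) (nat_lit 0) (XT.lf (nat_lit 0) (nat_lit 9736268899) (nat_lit 304) (nat_lit 4308283970) (nat_lit 76) (nat_lit 907836272) (nat_lit 45) (nat_lit 5) (nat_lit 49) (nat_lit 5) (nat_lit 46) (nat_lit 4) (nat_lit 423) (nat_lit 319) (nat_lit 278)) (XT.lf (nat_lit 0) (nat_lit 3524473096) (nat_lit 228) (nat_lit 1570572683) (nat_lit 76) (nat_lit 10110394638) (nat_lit 42) (nat_lit 5) (nat_lit 45) (nat_lit 5) (nat_lit 43) (nat_lit 5) (nat_lit 424) (nat_lit 319) (nat_lit 277))) (XT.nd (nat_lit 78) (nat_lit 380) (nat_lit 0) (XT.lf (nat_lit 0) (nat_lit 1220790445) (nat_lit 152) (nat_lit 11302969023) (nat_lit 228) (nat_lit 2940287355) (nat_lit 38) (nat_lit 5) (nat_lit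 40) (nat_lit 5) (nat_lit 41) (nat_lit 4) (nat_lit 425) (nat_lit 319) (nat_lit 276)) (XT.nd (nat_lit 78) (nat_lit 152) (nat_lit 0) (XT.lf (nat_lit 0) (nat_lit 4060974850) (nat_lit 152) (nat_lit 2001084941) (nat_lit 228) (nat_lit 9665985200) (nat_lit 35) (nat_lit 5) (nat_lit 37) (nat_lit 5) (nat_lit 38) (nat_lit 5) (nat_lit 426) (nat_lit 319) (nat_lit 275)) (XT.lf (nat_lit 0) (nat_lit 6935263556) (nat_lit 152) (nat_lit 8445301451) (nat_lit 228) (nat_lit 617288697) (nat_lit 33) (nat_lit 5) (nat_lit 35) (nat_lit 5) (nat_lit 36) (nat_lit 4) (nat_lit 427) (nat_lit 319) (nat_lit 274))))) (XT.nd (nat_lit 49374) (nat_lit 0) (nat_lit 19760) (XT.nd (nat_lit 78) (nat_lit 228) (nat_lit 0) (XT.lf (nat_lit 0) (nat_lit 8648957637) (nat_lit 228) (nat_lit 6437125648) (nat_lit 76) (nat_lit 1187338726) (nat_lit 30) (nat_lit 5) (nat_lit 33) (nat_lit 5) (nat_lit 31) (nat_lit 4) (nat_lit 428) (nat_lit 319) (nat_lit 273))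 (XT.lf (nat_lit 0) (nat_lit 1705016289) (nat_lit 228) (nat_lit 3783547119) (nat_lit 76) (nat_lit 11066426324) (nat_lit 27) (nat_lit 5) (nat_lit 30) (nat_lit 5) (nat_lit 28) (nat_lit 5) (nat_lit 429) (nat_lit 319) (nat_lit 272))) (XT.nd (nat_lit 78) (nat_lit 1900) (nat_lit 0) (XT.lf (nat_lit 0) (nat_lit 2645190503) (nat_lit 608) (nat_lit 711754009) (nat_lit 608) (nat_lit 711754009) (nat_lit 312) (nat_lit 4) (nat_lit 320) (nat_lit 5) (nat_lit 320) (nat_lit 4) (nat_lit 380) (nat_lit 320) (nat_lit 320)) (XT.nd (nat_lit 78) (nat_lit 1216) (nat_lit 0) (XT.lf (nat_lit 0) (nat_lit 4662060167) (nat_lit 684) (nat_lit 613776011) (nat_lit 0) (nat_lit 2948390704) (nat_lit 303) (nat_lit 5) (nat_lit 312) (nat_lit 4) (nat_lit 303) (nat_lit 4) (nat_lit 381) (nat_lit 320) (nat_lit 319)) (XT.lf (nat_lit 0) (nat_lit 1703561749) (nat_lit 532) (nat_lit 811778831) (nat_lit 608) (nat_lit 5798755096) (nat_lit 287) (nat_lit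 5) (nat_lit 294) (nat_lit 5) (nat_lit 295) (nat_lit 4) (nat_lit 382) (nat_lit 320) (nat_lit 318)))))) (XT.nd (nat_lit 390) (nat_lit 3040) (nat_lit 0) (XT.nd (nat_lit 156) (nat_lit 2204) (nat_lit 0) (XT.nd (nat_lit 78) (nat_lit 532) (nat_lit 0) (XT.lf (nat_lit 0) (nat_lit 279747737) (nat_lit 684) (nat_lit 4329737069) (nat_lit 76) (nat_lit 3797395885) (nat_lit 278) (nat_lit 5) (nat_lit 287) (nat_lit 5) (nat_lit 279) (nat_lit 4) (nat_lit 383) (nat_lit 320) (nat_lit 317)) (XT.lf (nat_lit 0) (nat_lit 6405489827) (nat_lit 608) (nat_lit 1998033413) (nat_lit 0) (nat_lit 99286092) (nat_lit 271) (nat_lit 5) (nat_lit 279) (nat_lit 4) (nat_lit 271) (nat_lit 4) (nat_lit 384) (nat_lit 320) (nat_lit 316))) (XT.nd (nat_lit 78) (nat_lit 1064) (nat_lit 0) (XT.lf (nat_lit 0) (nat_lit 376909292) (nat_lit 532) (nat_lit 3656042578) (nat_lit 608) (nat_lit 4568659598) (nat_lit 256) (nat_lit 5) (nat_lit 263) (nat_lit 5)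 (nat_lit 264) (nat_lit 4) (nat_lit 385) (nat_lit 320) (nat_lit 315)) (XT.nd (nat_lit 78) (nat_lit 456) (nat_lit 0) (XT.lf (nat_lit 0) (nat_lit 1559029413) (nat_lit 608) (nat_lit 5861033614) (nat_lit 76) (nat_lit 1283533976) (nat_lit 248) (nat_lit 5) (nat_lit 256) (nat_lit 5) (nat_lit 249) (nat_lit 4) (nat_lit 386) (nat_lit 320) (nat_lit 314)) (XT.lf (nat_lit 0) (nat_lit 5350479372) (nat_lit 456) (nat_lit 2428305911) (nat_lit 532) (nat_lit 1029846716) (nat_lit 242) (nat_lit 5) (nat_lit 248) (nat_lit 5) (nat_lit 249) (nat_lit 4) (nat_lit 387) (nat_lit 320) (nat_lit 313))))) (XT.nd (nat_lit 156) (nat_lit 1444) (nat_lit 0) (XT.nd (nat_lit 78) (nat_lit 988) (nat_lit 0) (XT.lf (nat_lit 0) (nat_lit 5165256558) (nat_lit 608) (nat_lit 1012917694) (nat_lit 76) (nat_lit 2738638973) (nat_lit 234) (nat_lit 5) (nat_lit 242) (nat_lit 5) (nat_lit 235) (nat_lit 4) (nat_lit 388) (nat_lit 320) (nat_lit 312)) (XT.lf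 (nat_lit 0) (nat_lit 1507512835) (nat_lit 456) (nat_lit 940638762) (nat_lit 532) (nat_lit 6580089457) (nat_lit 221) (nat_lit 5) (nat_lit 227) (nat_lit 5) (nat_lit 228) (nat_lit 5) (nat_lit 389) (nat_lit 320) (nat_lit 311))) (XT.nd (nat_lit 78) (nat_lit 988) (nat_lit 0) (XT.lf (nat_lit 0) (nat_lit 4083204373) (nat_lit 456) (nat_lit 4689235299) (nat_lit 532) (nat_lit 370284941) (nat_lit 215) (nat_lit 5) (nat_lit 221) (nat_lit 5) (nat_lit 222) (nat_lit 4) (nat_lit 390) (nat_lit 320) (nat_lit 310)) (XT.nd (nat_lit 78) (nat_lit 456) (nat_lit 0) (XT.lf (nat_lit 0) (nat_lit 5914036215) (nat_lit 532) (nat_lit 2555655881) (nat_lit 76) (nat_lit 790823069) (nat_lit 208) (nat_lit 5) (nat_lit 215) (nat_lit 5) (nat_lit 209) (nat_lit 4) (nat_lit 391) (nat_lit 320) (nat_lit 309)) (XT.lf (nat_lit 0) (nat_lit 2950655784) (nat_lit 456) (nat_lit 11557572) (nat_lit 76) (nat_lit 6419388828) (nat_lit 202) (nat_lit 5) (nat_lit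 208) (nat_lit 5) (nat_lit 203) (nat_lit 5) (nat_lit 392) (nat_lit 320) (nat_lit 308))))))))
noncomputable def xc16 : XT := (XT.nd (nat_lit 1482) (nat_lit 4864) (nat_lit 0) (XT.nd (nat_lit 702) (nat_lit 3648) (nat_lit 0) (XT.nd (nat_lit 312) (nat_lit 2280) (nat_lit 0) (XT.nd (nat_lit 156) (nat_lit 1140) (nat_lit 0) (XT.nd (nat_lit 78) (nat_lit 456) (nat_lit 0) (XT.lf (nat_lit 0) (nat_lit 2620762538) (nat_lit 380) (nat_lit 6766623412) (nat_lit 456) (nat_lit 118570522) (nat_lit 191) (nat_lit 5) (nat_lit 196) (nat_lit 5) (nat_lit 197) (nat_lit 4) (nat_lit 393) (nat_lit 320) (nat_lit 307)) (XT.lf (nat_lit 0) (nat_lit 5287479265) (nat_lit 380) (nat_lit 995060083) (nat_lit 456) (nat_lit 3351011580) (nat_lit 185) (nat_lit 5) (nat_lit 190) (nat_lit 5) (nat_lit 191) (nat_lit 5) (nat_lit 394) (nat_lit 320) (nat_lit 306))) (XT.nd (nat_lit 78) (nat_lit 684) (nat_lit 0) (XT.lf (nat_lit 0) (nat_lit 3066377329)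 (nat_lit 456) (nat_lit 1767720142) (nat_lit 76) (nat_lit 4930495544) (nat_lit 179) (nat_lit 5) (nat_lit 185) (nat_lit 5) (nat_lit 180) (nat_lit 5) (nat_lit 395) (nat_lit 320) (nat_lit 305)) (XT.lf (nat_lit 0) (nat_lit 878641087) (nat_lit 304) (nat_lit 8740482754) (nat_lit 380) (nat_lit 280232261) (nat_lit 170) (nat_lit 5) (nat_lit 174) (nat_lit 5) (nat_lit 175) (nat_lit 4) (nat_lit 396) (nat_lit 320) (nat_lit 304)))) (XT.nd (nat_lit 156) (nat_lit 1444) (nat_lit 0) (XT.nd (nat_lit 78) (nat_lit 380) (nat_lit 0) (XT.lf (nat_lit 0) (nat_lit 3569345409) (nat_lit 380) (nat_lit 2692721964) (nat_lit 456) (nat_lit 3774976707) (nat_lit 164) (nat_lit 5) (nat_lit 169) (nat_lit 5) (nat_lit 170) (nat_lit 5) (nat_lit 397) (nat_lit 320) (nat_lit 303)) (XT.lf (nat_lit 0) (nat_lit 2776939704) (nat_lit 380) (nat_lit 3866631515) (nat_lit 76) (nat_lit 3534970600) (nat_lit 159) (nat_lit 5) (nat_lit 164) (nat_lit 5) (nat_lit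 160) (nat_lit 5) (nat_lit 398) (nat_lit 320) (nat_lit 302))) (XT.nd (nat_lit 78) (nat_lit 1064) (nat_lit 0) (XT.lf (nat_lit 0) (nat_lit 9107455692) (nat_lit 380) (nat_lit 360117116) (nat_lit 456) (nat_lit 856343705) (nat_lit 154) (nat_lit 5) (nat_lit 159) (nat_lit 5) (nat_lit 160) (nat_lit 5) (nat_lit 399) (nat_lit 320) (nat_lit 301)) (XT.nd (nat_lit 78) (nat_lit 380) (nat_lit 0) (XT.lf (nat_lit 0) (nat_lit 1468102881) (nat_lit 304) (nat_lit 4367124990) (nat_lit 380) (nat_lit 4637117517) (nat_lit 145) (nat_lit 5) (nat_lit 149) (nat_lit 5) (nat_lit 150) (nat_lit 5) (nat_lit 400) (nat_lit 320) (nat_lit 300)) (XT.lf (nat_lit 0) (nat_lit 2067874157) (nat_lit 380) (nat_lit 6397370854) (nat_lit 76) (nat_lit 2159507472) (nat_lit 140) (nat_lit 5) (nat_lit 145) (nat_lit 5) (nat_lit 141) (nat_lit 5) (nat_lit 401) (nat_lit 320) (nat_lit 299)))))) (XT.nd (nat_lit 390) (nat_lit 1748) (nat_lit 0) (XT.nd (nat_lit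 156) (nat_lit 1216) (nat_lit 0) (XT.nd (nat_lit 78) (nat_lit 380) (nat_lit 0) (XT.lf (nat_lit 0) (nat_lit 7021805409) (nat_lit 304) (nat_lit 1900736135) (nat_lit 380) (nat_lit 1858346696) (nat_lit 136) (nat_lit 5) (nat_lit 140) (nat_lit 5) (nat_lit 141) (nat_lit 5) (nat_lit 402) (nat_lit 320) (nat_lit 298)) (XT.lf (nat_lit 0) (nat_lit 4991212994) (nat_lit 380) (nat_lit 1093094716) (nat_lit 76) (nat_lit 4856422000) (nat_lit 131) (nat_lit 5) (nat_lit 136) (nat_lit 5) (nat_lit 132) (nat_lit 5) (nat_lit 403) (nat_lit 320) (nat_lit 297))) (XT.nd (nat_lit 78) (nat_lit 608) (nat_lit 0) (XT.lf (nat_lit 0) (nat_lit 918898684) (nat_lit 304) (nat_lit 9453122728) (nat_lit 76) (nat_lit 732680013) (nat_lit 123) (nat_lit 5) (nat_lit 127) (nat_lit 5) (nat_lit 124) (nat_lit 5) (nat_lit 404) (nat_lit 320) (nat_lit 296)) (XT.nd (nat_lit 78) (nat_lit 304) (nat_lit 0) (XT.lf (nat_lit 0) (nat_lit 4424656488) (nat_lit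 304) (nat_lit 3525202688) (nat_lit 380) (nat_lit 3322200125) (nat_lit 119) (nat_lit 5) (nat_lit 123) (nat_lit 5) (nat_lit 124) (nat_lit 5) (nat_lit 405) (nat_lit 320) (nat_lit 295)) (XT.lf (nat_lit 0) (nat_lit 3712281398) (nat_lit 304) (nat_lit 4198041829) (nat_lit 76) (nat_lit 3533345737) (nat_lit 115) (nat_lit 5) (nat_lit 119) (nat_lit 5) (nat_lit 116) (nat_lit 5) (nat_lit 406) (nat_lit 320) (nat_lit 294))))) (XT.nd (nat_lit 156) (nat_lit 836) (nat_lit 0) (XT.nd (nat_lit 78) (nat_lit 608) (nat_lit 0) (XT.lf (nat_lit 0) (nat_lit 10117538475) (nat_lit 304) (nat_lit 812199063) (nat_lit 380) (nat_lit 689908666) (nat_lit 111) (nat_lit 5) (nat_lit 115) (nat_lit 5) (nat_lit 116) (nat_lit 5) (nat_lit 407) (nat_lit 320) (nat_lit 293)) (XT.lf (nat_lit 0) (nat_lit 1218191482) (nat_lit 304) (nat_lit 5304701768) (nat_lit 380) (nat_lit 5276234286) (nat_lit 103) (nat_lit 5) (nat_lit 107) (nat_lit 5) (nat_lit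 108) (nat_lit 5) (nat_lit 408) (nat_lit 320) (nat_lit 292))) (XT.nd (nat_lit 78) (nat_lit 532) (nat_lit 0) (XT.lf (nat_lit 0) (nat_lit 1959947229) (nat_lit 304) (nat_lit 7966228423) (nat_lit 76) (nat_lit 2056935426) (nat_lit 99) (nat_lit 5) (nat_lit 103) (nat_lit 5) (nat_lit 100) (nat_lit 5) (nat_lit 409) (nat_lit 320) (nat_lit 291)) (XT.nd (nat_lit 78) (nat_lit 304) (nat_lit 0) (XT.lf (nat_lit 0) (nat_lit 6840645606) (nat_lit 228) (nat_lit 2536647925) (nat_lit 304) (nat_lit 2793907823) (nat_lit 96) (nat_lit 5) (nat_lit 99) (nat_lit 5) (nat_lit 100) (nat_lit 5) (nat_lit 410) (nat_lit 320) (nat_lit 290)) (XT.lf (nat_lit 0) (nat_lit 4626722621) (nat_lit 304) (nat_lit 2666012158) (nat_lit 76) (nat_lit 5070885223) (nat_lit 92) (nat_lit 5) (nat_lit 96) (nat_lit 5) (nat_lit 93) (nat_lit 5) (nat_lit 411) (nat_lit 320) (nat_lit 289))))))) (XT.nd (nat_lit 780) (nat_lit 1976) (nat_lit 0) (XT.nd (nat_lit 390)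 (nat_lit 1368) (nat_lit 0) (XT.nd (nat_lit 156) (nat_lit 760) (nat_lit 0) (XT.nd (nat_lit 78) (nat_lit 304) (nat_lit 0) (XT.lf (nat_lit 0) (nat_lit 54656162) (nat_lit 228) (nat_lit 12201672685) (nat_lit 304) (nat_lit 304626706) (nat_lit 86) (nat_lit 5) (nat_lit 89) (nat_lit 5) (nat_lit 90) (nat_lit 4) (nat_lit 412) (nat_lit 320) (nat_lit 288)) (XT.lf (nat_lit 0) (nat_lit 2808799825) (nat_lit 228) (nat_lit 4519035394) (nat_lit 304) (nat_lit 5433948895) (nat_lit 82) (nat_lit 5) (nat_lit 85) (nat_lit 5) (nat_lit 86) (nat_lit 5) (nat_lit 413) (nat_lit 320) (nat_lit 287))) (XT.nd (nat_lit 78) (nat_lit 456) (nat_lit 0) (XT.lf (nat_lit 0) (nat_lit 2218642636) (nat_lit 304) (nat_lit 7347450542) (nat_lit 76) (nat_lit 3401592702) (nat_lit 78) (nat_lit 5) (nat_lit 82) (nat_lit 5) (nat_lit 79) (nat_lit 5) (nat_lit 414) (nat_lit 320) (nat_lit 286)) (XT.nd (nat_lit 78) (nat_lit 228) (nat_lit 0) (XT.lf (nat_lit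 0) (nat_lit 8462498069) (nat_lit 228) (nat_lit 1606249609) (nat_lit 304) (nat_lit 3109463416) (nat_lit 75) (nat_lit 5) (nat_lit 78) (nat_lit 5) (nat_lit 79) (nat_lit 5) (nat_lit 415) (nat_lit 320) (nat_lit 285)) (XT.lf (nat_lit 0) (nat_lit 4753637151) (nat_lit 228) (nat_lit 2064411874) (nat_lit 76) (nat_lit 6575249979) (nat_lit 72) (nat_lit 5) (nat_lit 75) (nat_lit 5) (nat_lit 73) (nat_lit 5) (nat_lit 416) (nat_lit 320) (nat_lit 284))))) (XT.nd (nat_lit 156) (nat_lit 684) (nat_lit 0) (XT.nd (nat_lit 78) (nat_lit 304) (nat_lit 0) (XT.lf (nat_lit 0) (nat_lit 649283213) (nat_lit 152) (nat_lit 12201266989) (nat_lit 228) (nat_lit 763074980) (nat_lit 67) (nat_lit 5) (nat_lit 69) (nat_lit 5) (nat_lit 70) (nat_lit 4) (nat_lit 417) (nat_lit 320) (nat_lit 283)) (XT.lf (nat_lit 0) (nat_lit 3393097720) (nat_lit 228) (nat_lit 3938028677) (nat_lit 304) (nat_lit 6506926133) (nat_lit 63) (nat_lit 5) (nat_lit 66)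 (nat_lit 5) (nat_lit 67) (nat_lit 5) (nat_lit 418) (nat_lit 320) (nat_lit 282))) (XT.nd (nat_lit 78) (nat_lit 456) (nat_lit 0) (XT.lf (nat_lit 0) (nat_lit 1618242205) (nat_lit 228) (nat_lit 7878931274) (nat_lit 76) (nat_lit 4570723982) (nat_lit 60) (nat_lit 5) (nat_lit 63) (nat_lit 5) (nat_lit 61) (nat_lit 5) (nat_lit 419) (nat_lit 320) (nat_lit 281)) (XT.nd (nat_lit 78) (nat_lit 228) (nat_lit 0) (XT.lf (nat_lit 0) (nat_lit 9013960829) (nat_lit 228) (nat_lit 934237729) (nat_lit 304) (nat_lit 4354590237) (nat_lit 57) (nat_lit 5) (nat_lit 60) (nat_lit 5) (nat_lit 61) (nat_lit 5) (nat_lit 420) (nat_lit 320) (nat_lit 280)) (XT.lf (nat_lit 0) (nat_lit 4007850435) (nat_lit 228) (nat_lit 2681338208) (nat_lit 76) (nat_lit 7853485661) (nat_lit 54) (nat_lit 5) (nat_lit 57) (nat_lit 5) (nat_lit 55) (nat_lit 5) (nat_lit 421) (nat_lit 320) (nat_lit 279)))))) (XT.nd (nat_lit 390) (nat_lit 684) (nat_lit 0) (XT.nd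 (nat_lit 156) (nat_lit 608) (nat_lit 0) (XT.nd (nat_lit 78) (nat_lit 456) (nat_lit 0) (XT.lf (nat_lit 0) (nat_lit 12610033169) (nat_lit 304) (nat_lit 27325527) (nat_lit 76) (nat_lit 2150861393) (nat_lit 51) (nat_lit 5) (nat_lit 55) (nat_lit 5) (nat_lit 52) (nat_lit 4) (nat_lit 422) (nat_lit 320) (nat_lit 278)) (XT.lf (nat_lit 0) (nat_lit 2672452407) (nat_lit 228) (nat_lit 3764842107) (nat_lit 304) (nat_lit 8601153591) (nat_lit 45) (nat_lit 5) (nat_lit 48) (nat_lit 5) (nat_lit 49) (nat_lit 5) (nat_lit 423) (nat_lit 320) (nat_lit 277))) (XT.nd (nat_lit 78) (nat_lit 380) (nat_lit 0) (XT.lf (nat_lit 0) (nat_lit 53759755) (nat_lit 228) (nat_lit 9872678466) (nat_lit 76) (nat_lit 5368102226) (nat_lit 42) (nat_lit 5) (nat_lit 45) (nat_lit 5) (nat_lit 43) (nat_lit 5) (nat_lit 424) (nat_lit 320) (nat_lit 276)) (XT.nd (nat_lit 78) (nat_lit 228) (nat_lit 0) (XT.lf (nat_lit 0) (nat_lit 8189026565) (nat_lit 152)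 (nat_lit 722784822) (nat_lit 228) (nat_lit 6644160161) (nat_lit 40) (nat_lit 5) (nat_lit 42) (nat_lit 5) (nat_lit 43) (nat_lit 5) (nat_lit 425) (nat_lit 320) (nat_lit 275)) (XT.lf (nat_lit 0) (nat_lit 2275819189) (nat_lit 228) (nat_lit 4837008772) (nat_lit 76) (nat_lit 8710241608) (nat_lit 37) (nat_lit 5) (nat_lit 40) (nat_lit 5) (nat_lit 38) (nat_lit 5) (nat_lit 426) (nat_lit 320) (nat_lit 274))))) (XT.nd (nat_lit 156) (nat_lit 152) (nat_lit 0) (XT.nd (nat_lit 78) (nat_lit 380) (nat_lit 0) (XT.lf (nat_lit 0) (nat_lit 11433573889) (nat_lit 228) (nat_lit 2274649353) (nat_lit 76) (nat_lit 2387870053) (nat_lit 35) (nat_lit 5) (nat_lit 38) (nat_lit 5) (nat_lit 36) (nat_lit 4) (nat_lit 427) (nat_lit 320) (nat_lit 273)) (XT.lf (nat_lit 0) (nat_lit 313386340) (nat_lit 152) (nat_lit 4208677242) (nat_lit 228) (nat_lit 11852817651) (nat_lit 30) (nat_lit 5) (nat_lit 32) (nat_lit 5) (nat_lit 33) (nat_lit 5)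 (nat_lit 428) (nat_lit 320) (nat_lit 272))) (XT.nd (nat_lit 49140) (nat_lit 0) (nat_lit 22192) (XT.lf (nat_lit 0) (nat_lit 2964321624) (nat_lit 152) (nat_lit 11051216940) (nat_lit 228) (nat_lit 2643943865) (nat_lit 28) (nat_lit 5) (nat_lit 30) (nat_lit 5) (nat_lit 31) (nat_lit 4) (nat_lit 429) (nat_lit 320) (nat_lit 271)) (XT.nd (nat_lit 78) (nat_lit 684) (nat_lit 0) (XT.lf (nat_lit 0) (nat_lit 451234846) (nat_lit 684) (nat_lit 1767146030) (nat_lit 684) (nat_lit 1767146030) (nat_lit 329) (nat_lit 4) (nat_lit 338) (nat_lit 5) (nat_lit 338) (nat_lit 4) (nat_lit 378) (nat_lit 321) (nat_lit 321)) (XT.lf (nat_lit 0) (nat_lit 2410458439) (nat_lit 684) (nat_lit 5032973827) (nat_lit 0) (nat_lit 610077301) (nat_lit 320) (nat_lit 5) (nat_lit 329) (nat_lit 4) (nat_lit 320) (nat_lit 4) (nat_lit 379) (nat_lit 321) (nat_lit 320))))))))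
noncomputable def xc17 : XT := (XT.nd (nat_lit 1482) (nat_lit 7068) (nat_lit 0) (XT.nd (nat_lit 702) (nat_lit 5700) (nat_lit 0) (XT.nd (nat_lit 312) (nat_lit 3344) (nat_lit 0) (XT.nd (nat_lit 156) (nat_lit 1900) (nat_lit 0) (XT.nd (nat_lit 78) (nat_lit 608) (nat_lit 0) (XT.lf (nat_lit 0) (nat_lit 295294333) (nat_lit 684) (nat_lit 2951829437) (nat_lit 76) (nat_lit 4891757057) (nat_lit 311) (nat_lit 5) (nat_lit 320) (nat_lit 5) (nat_lit 312) (nat_lit 4) (nat_lit 380) (nat_lit 321) (nat_lit 319)) (XT.lf (nat_lit 0) (nat_lit 6274434423) (nat_lit 684) (nat_lit 820917912) (nat_lit 0) (nat_lit 1131928652) (nat_lit 303) (nat_lit 5) (nat_lit 312) (nat_lit 4) (nat_lit 303) (nat_lit 4) (nat_lit 381) (nat_lit 321) (nat_lit 318))) (XT.nd (nat_lit 78) (nat_lit 684) (nat_lit 0) (XT.lf (nat_lit 0) (nat_lit 1374459107) (nat_lit 532) (nat_lit 2651413518) (nat_lit 608) (nat_lit 4292621813) (nat_lit 287) (nat_lit 5)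 (nat_lit 294) (nat_lit 5) (nat_lit 295) (nat_lit 4) (nat_lit 382) (nat_lit 321) (nat_lit 317)) (XT.lf (nat_lit 0) (nat_lit 1677987945) (nat_lit 684) (nat_lit 4773262303) (nat_lit 76) (nat_lit 1961596426) (nat_lit 278) (nat_lit 5) (nat_lit 287) (nat_lit 5) (nat_lit 279) (nat_lit 4) (nat_lit 383) (nat_lit 321) (nat_lit 316)))) (XT.nd (nat_lit 156) (nat_lit 2204) (nat_lit 0) (XT.nd (nat_lit 78) (nat_lit 608) (nat_lit 0) (XT.lf (nat_lit 0) (nat_lit 5954370149) (nat_lit 532) (nat_lit 1773296608) (nat_lit 608) (nat_lit 782629823) (nat_lit 271) (nat_lit 5) (nat_lit 278) (nat_lit 5) (nat_lit 279) (nat_lit 4) (nat_lit 384) (nat_lit 321) (nat_lit 315)) (XT.lf (nat_lit 0) (nat_lit 5241050392) (nat_lit 608) (nat_lit 300096054) (nat_lit 76) (nat_lit 3069568529) (nat_lit 263) (nat_lit 5) (nat_lit 271) (nat_lit 5) (nat_lit 264) (nat_lit 4) (nat_lit 385) (nat_lit 321) (nat_lit 314))) (XT.nd (nat_lit 78) (nat_lit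 1064) (nat_lit 0) (XT.lf (nat_lit 0) (nat_lit 2041167014) (nat_lit 532) (nat_lit 614718128) (nat_lit 608) (nat_lit 6058387959) (nat_lit 248) (nat_lit 5) (nat_lit 255) (nat_lit 5) (nat_lit 256) (nat_lit 5) (nat_lit 386) (nat_lit 321) (nat_lit 313)) (XT.nd (nat_lit 78) (nat_lit 608) (nat_lit 0) (XT.lf (nat_lit 0) (nat_lit 4429296777) (nat_lit 456) (nat_lit 4366862290) (nat_lit 532) (nat_lit 24738669) (nat_lit 242) (nat_lit 5) (nat_lit 248) (nat_lit 5) (nat_lit 249) (nat_lit 4) (nat_lit 387) (nat_lit 321) (nat_lit 312)) (XT.lf (nat_lit 0) (nat_lit 6068962445) (nat_lit 608) (nat_lit 2067858087) (nat_lit 76) (nat_lit 793892313) (nat_lit 234) (nat_lit 5) (nat_lit 242) (nat_lit 5) (nat_lit 235) (nat_lit 4) (nat_lit 388) (nat_lit 321) (nat_lit 311)))))) (XT.nd (nat_lit 390) (nat_lit 2356) (nat_lit 0) (XT.nd (nat_lit 156) (nat_lit 1824) (nat_lit 0) (XT.nd (nat_lit 78) (nat_lit 532) (nat_lit 0) (XT.lf (nat_lit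 0) (nat_lit 300915712) (nat_lit 456) (nat_lit 2942015332) (nat_lit 532) (nat_lit 5800761224) (nat_lit 221) (nat_lit 5) (nat_lit 227) (nat_lit 5) (nat_lit 228) (nat_lit 5) (nat_lit 389) (nat_lit 321) (nat_lit 310)) (XT.lf (nat_lit 0) (nat_lit 314065061) (nat_lit 532) (nat_lit 6406804509) (nat_lit 76) (nat_lit 2439045412) (nat_lit 214) (nat_lit 5) (nat_lit 221) (nat_lit 5) (nat_lit 215) (nat_lit 5) (nat_lit 390) (nat_lit 321) (nat_lit 309))) (XT.nd (nat_lit 78) (nat_lit 1368) (nat_lit 0) (XT.lf (nat_lit 0) (nat_lit 5240449431) (nat_lit 456) (nat_lit 1271804930) (nat_lit 532) (nat_lit 2767028599) (nat_lit 208) (nat_lit 5) (nat_lit 214) (nat_lit 5) (nat_lit 215) (nat_lit 5) (nat_lit 391) (nat_lit 321) (nat_lit 308)) (XT.nd (nat_lit 78) (nat_lit 912) (nat_lit 0) (XT.lf (nat_lit 0) (nat_lit 3437873599) (nat_lit 456) (nat_lit 1631267911) (nat_lit 76) (nat_lit 4332845886) (nat_lit 202) (nat_lit 5) (nat_lit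 208) (nat_lit 5) (nat_lit 203) (nat_lit 5) (nat_lit 392) (nat_lit 321) (nat_lit 307)) (XT.lf (nat_lit 0) (nat_lit 241604853) (nat_lit 456) (nat_lit 8682368371) (nat_lit 76) (nat_lit 604365031) (nat_lit 190) (nat_lit 5) (nat_lit 196) (nat_lit 5) (nat_lit 191) (nat_lit 5) (nat_lit 393) (nat_lit 321) (nat_lit 306))))) (XT.nd (nat_lit 156) (nat_lit 1520) (nat_lit 0) (XT.nd (nat_lit 78) (nat_lit 456) (nat_lit 0) (XT.lf (nat_lit 0) (nat_lit 3363258933) (nat_lit 380) (nat_lit 3200739943) (nat_lit 456) (nat_lit 3093461653) (nat_lit 185) (nat_lit 5) (nat_lit 190) (nat_lit 5) (nat_lit 191) (nat_lit 5) (nat_lit 394) (nat_lit 321) (nat_lit 305)) (XT.lf (nat_lit 0) (nat_lit 3228577579) (nat_lit 456) (nat_lit 3855802776) (nat_lit 76) (nat_lit 2705928256) (nat_lit 179) (nat_lit 5) (nat_lit 185) (nat_lit 5) (nat_lit 180) (nat_lit 5) (nat_lit 395) (nat_lit 321) (nat_lit 304))) (XT.nd (nat_lit 78) (nat_lit 1140) (nat_lit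 0) (XT.lf (nat_lit 0) (nat_lit 8557528450) (nat_lit 380) (nat_lit 1133247671) (nat_lit 456) (nat_lit 236106536) (nat_lit 174) (nat_lit 5) (nat_lit 179) (nat_lit 5) (nat_lit 180) (nat_lit 5) (nat_lit 396) (nat_lit 321) (nat_lit 303)) (XT.nd (nat_lit 78) (nat_lit 380) (nat_lit 0) (XT.lf (nat_lit 0) (nat_lit 1149666917) (nat_lit 380) (nat_lit 5060839998) (nat_lit 456) (nat_lit 3855960139) (nat_lit 164) (nat_lit 5) (nat_lit 169) (nat_lit 5) (nat_lit 170) (nat_lit 5) (nat_lit 397) (nat_lit 321) (nat_lit 302)) (XT.lf (nat_lit 0) (nat_lit 2602319096) (nat_lit 380) (nat_lit 6464716149) (nat_lit 76) (nat_lit 1142834050) (nat_lit 159) (nat_lit 5) (nat_lit 164) (nat_lit 5) (nat_lit 160) (nat_lit 5) (nat_lit 398) (nat_lit 321) (nat_lit 301))))))) (XT.nd (nat_lit 780) (nat_lit 3116) (nat_lit 0) (XT.nd (nat_lit 390) (nat_lit 1824) (nat_lit 0) (XT.nd (nat_lit 156) (nat_lit 1368) (nat_lit 0) (XT.nd (nat_lit 78)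 (nat_lit 380) (nat_lit 0) (XT.lf (nat_lit 0) (nat_lit 6373811473) (nat_lit 380) (nat_lit 2840125416) (nat_lit 456) (nat_lit 1142887406) (nat_lit 154) (nat_lit 5) (nat_lit 159) (nat_lit 5) (nat_lit 160) (nat_lit 5) (nat_lit 399) (nat_lit 321) (nat_lit 300)) (XT.lf (nat_lit 0) (nat_lit 5447065639) (nat_lit 380) (nat_lit 1470836635) (nat_lit 76) (nat_lit 3589495636) (nat_lit 149) (nat_lit 5) (nat_lit 154) (nat_lit 5) (nat_lit 150) (nat_lit 5) (nat_lit 400) (nat_lit 321) (nat_lit 299))) (XT.nd (nat_lit 78) (nat_lit 684) (nat_lit 0) (XT.lf (nat_lit 0) (nat_lit 1109528488) (nat_lit 304) (nat_lit 435718473) (nat_lit 380) (nat_lit 9116712260) (nat_lit 140) (nat_lit 5) (nat_lit 144) (nat_lit 5) (nat_lit 145) (nat_lit 5) (nat_lit 401) (nat_lit 321) (nat_lit 298)) (XT.nd (nat_lit 78) (nat_lit 380) (nat_lit 0) (XT.lf (nat_lit 0) (nat_lit 3726706917) (nat_lit 304) (nat_lit 4589178814) (nat_lit 380) (nat_lit 2503889819)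 (nat_lit 136) (nat_lit 5) (nat_lit 140) (nat_lit 5) (nat_lit 141) (nat_lit 5) (nat_lit 402) (nat_lit 321) (nat_lit 297)) (XT.lf (nat_lit 0) (nat_lit 4254600337) (nat_lit 380) (nat_lit 4589987812) (nat_lit 76) (nat_lit 2137103415) (nat_lit 131) (nat_lit 5) (nat_lit 136) (nat_lit 5) (nat_lit 132) (nat_lit 5) (nat_lit 403) (nat_lit 321) (nat_lit 296))))) (XT.nd (nat_lit 156) (nat_lit 912) (nat_lit 0) (XT.nd (nat_lit 78) (nat_lit 532) (nat_lit 0) (XT.lf (nat_lit 0) (nat_lit 53499230) (nat_lit 380) (nat_lit 2045030258) (nat_lit 76) (nat_lit 9049195222) (nat_lit 126) (nat_lit 5) (nat_lit 131) (nat_lit 5) (nat_lit 127) (nat_lit 5) (nat_lit 404) (nat_lit 321) (nat_lit 295)) (XT.lf (nat_lit 0) (nat_lit 520599197) (nat_lit 304) (nat_lit 6452879657) (nat_lit 380) (nat_lit 4343823350) (nat_lit 119) (nat_lit 5) (nat_lit 123) (nat_lit 5) (nat_lit 124) (nat_lit 5) (nat_lit 405) (nat_lit 321) (nat_lit 294))) (XT.nd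 (nat_lit 78) (nat_lit 608) (nat_lit 0) (XT.lf (nat_lit 0) (nat_lit 2600198035) (nat_lit 304) (nat_lit 8320629018) (nat_lit 76) (nat_lit 570294652) (nat_lit 115) (nat_lit 5) (nat_lit 119) (nat_lit 5) (nat_lit 116) (nat_lit 5) (nat_lit 406) (nat_lit 321) (nat_lit 293)) (XT.nd (nat_lit 78) (nat_lit 304) (nat_lit 0) (XT.lf (nat_lit 0) (nat_lit 5840946635) (nat_lit 304) (nat_lit 3891954484) (nat_lit 380) (nat_lit 1935892889) (nat_lit 111) (nat_lit 5) (nat_lit 115) (nat_lit 5) (nat_lit 116) (nat_lit 5) (nat_lit 407) (nat_lit 321) (nat_lit 292)) (XT.lf (nat_lit 0) (nat_lit 5179467690) (nat_lit 304) (nat_lit 3301691499) (nat_lit 76) (nat_lit 3369553597) (nat_lit 107) (nat_lit 5) (nat_lit 111) (nat_lit 5) (nat_lit 108) (nat_lit 5) (nat_lit 408) (nat_lit 321) (nat_lit 291)))))) (XT.nd (nat_lit 390) (nat_lit 1444) (nat_lit 0) (XT.nd (nat_lit 156) (nat_lit 836) (nat_lit 0) (XT.nd (nat_lit 78) (nat_lit 456) (nat_lit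 0) (XT.lf (nat_lit 0) (nat_lit 465095009) (nat_lit 380) (nat_lit 727135188) (nat_lit 76) (nat_lit 10845010023) (nat_lit 102) (nat_lit 5) (nat_lit 107) (nat_lit 5) (nat_lit 103) (nat_lit 5) (nat_lit 409) (nat_lit 321) (nat_lit 290)) (XT.lf (nat_lit 0) (nat_lit 1877797695) (nat_lit 228) (nat_lit 5904047504) (nat_lit 304) (nat_lit 4445497219) (nat_lit 96) (nat_lit 5) (nat_lit 99) (nat_lit 5) (nat_lit 100) (nat_lit 5) (nat_lit 410) (nat_lit 321) (nat_lit 289))) (XT.nd (nat_lit 78) (nat_lit 532) (nat_lit 0) (XT.lf (nat_lit 0) (nat_lit 2885602798) (nat_lit 304) (nat_lit 7874600367) (nat_lit 76) (nat_lit 1661996192) (nat_lit 92) (nat_lit 5) (nat_lit 96) (nat_lit 5) (nat_lit 93) (nat_lit 5) (nat_lit 411) (nat_lit 321) (nat_lit 288)) (XT.nd (nat_lit 78) (nat_lit 304) (nat_lit 0) (XT.lf (nat_lit 0) (nat_lit 7242204235) (nat_lit 228) (nat_lit 3180933888) (nat_lit 304) (nat_lit 2198238203) (nat_lit 89) (nat_lit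 5) (nat_lit 92) (nat_lit 5) (nat_lit 93) (nat_lit 5) (nat_lit 412) (nat_lit 321) (nat_lit 287)) (XT.lf (nat_lit 0) (nat_lit 5329809701) (nat_lit 304) (nat_lit 2858561450) (nat_lit 76) (nat_lit 4636664610) (nat_lit 85) (nat_lit 5) (nat_lit 89) (nat_lit 5) (nat_lit 86) (nat_lit 5) (nat_lit 413) (nat_lit 321) (nat_lit 286))))) (XT.nd (nat_lit 156) (nat_lit 684) (nat_lit 0) (XT.nd (nat_lit 78) (nat_lit 456) (nat_lit 0) (XT.lf (nat_lit 0) (nat_lit 52332089) (nat_lit 304) (nat_lit 282821176) (nat_lit 76) (nat_lit 12698693273) (nat_lit 81) (nat_lit 5) (nat_lit 85) (nat_lit 5) (nat_lit 82) (nat_lit 5) (nat_lit 414) (nat_lit 321) (nat_lit 285)) (XT.lf (nat_lit 0) (nat_lit 2315421839) (nat_lit 228) (nat_lit 5489626148) (nat_lit 304) (nat_lit 5441271548) (nat_lit 75) (nat_lit 5) (nat_lit 78) (nat_lit 5) (nat_lit 79) (nat_lit 5) (nat_lit 415) (nat_lit 321) (nat_lit 284))) (XT.nd (nat_lit 78) (nat_lit 456) (nat_lit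 0) (XT.lf (nat_lit 0) (nat_lit 2332305975) (nat_lit 228) (nat_lit 8487329859) (nat_lit 76) (nat_lit 2644476506) (nat_lit 72) (nat_lit 5) (nat_lit 75) (nat_lit 5) (nat_lit 73) (nat_lit 5) (nat_lit 416) (nat_lit 321) (nat_lit 283)) (XT.nd (nat_lit 78) (nat_lit 228) (nat_lit 0) (XT.lf (nat_lit 0) (nat_lit 7660388015) (nat_lit 228) (nat_lit 2660310273) (nat_lit 304) (nat_lit 3365910645) (nat_lit 69) (nat_lit 5) (nat_lit 72) (nat_lit 5) (nat_lit 73) (nat_lit 5) (nat_lit 417) (nat_lit 321) (nat_lit 282)) (XT.lf (nat_lit 0) (nat_lit 4630741856) (nat_lit 228) (nat_lit 3541517574) (nat_lit 76) (nat_lit 5741748549) (nat_lit 66) (nat_lit 5) (nat_lit 69) (nat_lit 5) (nat_lit 67) (nat_lit 5) (nat_lit 418) (nat_lit 321) (nat_lit 281))))))))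
noncomputable def xc18 : XT := (XT.nd (nat_lit 50388) (nat_lit 0) (nat_lit 7676) (XT.nd (nat_lit 702) (nat_lit 380) (nat_lit 0) (XT.nd (nat_lit 312) (nat_lit 1216) (nat_lit 0) (XT.nd (nat_lit 156) (nat_lit 456) (nat_lit 0) (XT.nd (nat_lit 78) (nat_lit 456) (nat_lit 0) (XT.lf (nat_lit 0) (nat_lit 12864448190) (nat_lit 304) (nat_lit 1006338376) (nat_lit 76) (nat_lit 276139780) (nat_lit 63) (nat_lit 5) (nat_lit 67) (nat_lit 5) (nat_lit 64) (nat_lit 4) (nat_lit 419) (nat_lit 321) (nat_lit 280)) (XT.lf (nat_lit 0) (nat_lit 1542962500) (nat_lit 228) (nat_lit 5414906940) (nat_lit 304) (nat_lit 7426243346) (nat_lit 57) (nat_lit 5) (nat_lit 60) (nat_lit 5) (nat_lit 61) (nat_lit 5) (nat_lit 420) (nat_lit 321) (nat_lit 279))) (XT.nd (nat_lit 78) (nat_lit 228) (nat_lit 0) (XT.lf (nat_lit 0) (nat_lit 845793489) (nat_lit 228) (nat_lit 10461664063) (nat_lit 76) (nat_lit 3319553390) (nat_lit 54) (nat_lit 5) (nat_lit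 57) (nat_lit 5) (nat_lit 55) (nat_lit 5) (nat_lit 421) (nat_lit 321) (nat_lit 278)) (XT.lf (nat_lit 0) (nat_lit 6798458643) (nat_lit 228) (nat_lit 2533496181) (nat_lit 304) (nat_lit 5542922332) (nat_lit 51) (nat_lit 5) (nat_lit 54) (nat_lit 5) (nat_lit 55) (nat_lit 5) (nat_lit 422) (nat_lit 321) (nat_lit 277)))) (XT.nd (nat_lit 156) (nat_lit 760) (nat_lit 0) (XT.nd (nat_lit 78) (nat_lit 228) (nat_lit 0) (XT.lf (nat_lit 0) (nat_lit 2979175137) (nat_lit 228) (nat_lit 5660760468) (nat_lit 76) (nat_lit 6488356751) (nat_lit 48) (nat_lit 5) (nat_lit 51) (nat_lit 5) (nat_lit 49) (nat_lit 5) (nat_lit 423) (nat_lit 321) (nat_lit 276)) (XT.lf (nat_lit 0) (nat_lit 11736750826) (nat_lit 304) (nat_lit 3208262674) (nat_lit 76) (nat_lit 442461300) (nat_lit 45) (nat_lit 5) (nat_lit 49) (nat_lit 5) (nat_lit 46) (nat_lit 4) (nat_lit 424) (nat_lit 321) (nat_lit 275))) (XT.nd (nat_lit 78) (nat_lit 532) (nat_lit 0) (XT.lf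 (nat_lit 0) (nat_lit 5131523524) (nat_lit 228) (nat_lit 752047293) (nat_lit 76) (nat_lit 9768282823) (nat_lit 42) (nat_lit 5) (nat_lit 45) (nat_lit 5) (nat_lit 43) (nat_lit 5) (nat_lit 425) (nat_lit 321) (nat_lit 274)) (XT.nd (nat_lit 78) (nat_lit 228) (nat_lit 0) (XT.lf (nat_lit 0) (nat_lit 1776219709) (nat_lit 152) (nat_lit 12425854945) (nat_lit 228) (nat_lit 1720117862) (nat_lit 38) (nat_lit 5) (nat_lit 40) (nat_lit 5) (nat_lit 41) (nat_lit 4) (nat_lit 426) (nat_lit 321) (nat_lit 273)) (XT.lf (nat_lit 0) (nat_lit 4325131138) (nat_lit 152) (nat_lit 3009430802) (nat_lit 228) (nat_lit 8863390354) (nat_lit 35) (nat_lit 5) (nat_lit 37) (nat_lit 5) (nat_lit 38) (nat_lit 5) (nat_lit 427) (nat_lit 321) (nat_lit 272)))))) (XT.nd (nat_lit 49296) (nat_lit 0) (nat_lit 18848) (XT.nd (nat_lit 49062) (nat_lit 0) (nat_lit 22724) (XT.nd (nat_lit 78) (nat_lit 152) (nat_lit 0) (XT.lf (nat_lit 0) (nat_lit 242643855)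 (nat_lit 228) (nat_lit 9563176071) (nat_lit 76) (nat_lit 6674138682) (nat_lit 32) (nat_lit 5) (nat_lit 35) (nat_lit 5) (nat_lit 33) (nat_lit 5) (nat_lit 428) (nat_lit 321) (nat_lit 271)) (XT.lf (nat_lit 0) (nat_lit 9529802180) (nat_lit 152) (nat_lit 39711441) (nat_lit 228) (nat_lit 7198378287) (nat_lit 30) (nat_lit 5) (nat_lit 32) (nat_lit 5) (nat_lit 33) (nat_lit 5) (nat_lit 429) (nat_lit 321) (nat_lit 270))) (XT.nd (nat_lit 78) (nat_lit 2128) (nat_lit 0) (XT.lf (nat_lit 0) (nat_lit 1199178803) (nat_lit 760) (nat_lit 1508402016) (nat_lit 0) (nat_lit 1199178803) (nat_lit 357) (nat_lit 5) (nat_lit 367) (nat_lit 4) (nat_lit 357) (nat_lit 4) (nat_lit 376) (nat_lit 322) (nat_lit 322)) (XT.nd (nat_lit 78) (nat_lit 1368) (nat_lit 0) (XT.lf (nat_lit 0) (nat_lit 394208888) (nat_lit 760) (nat_lit 1133008077) (nat_lit 76) (nat_lit 6364494152) (nat_lit 347) (nat_lit 5) (nat_lit 357) (nat_lit 5) (nat_lit 348)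 (nat_lit 4) (nat_lit 377) (nat_lit 322) (nat_lit 321)) (XT.lf (nat_lit 0) (nat_lit 803200902) (nat_lit 684) (nat_lit 5448625209) (nat_lit 684) (nat_lit 1720756024) (nat_lit 329) (nat_lit 4) (nat_lit 338) (nat_lit 5) (nat_lit 338) (nat_lit 4) (nat_lit 378) (nat_lit 322) (nat_lit 320))))) (XT.nd (nat_lit 156) (nat_lit 2508) (nat_lit 0) (XT.nd (nat_lit 78) (nat_lit 684) (nat_lit 0) (XT.lf (nat_lit 0) (nat_lit 2811897928) (nat_lit 608) (nat_lit 1308235152) (nat_lit 684) (nat_lit 3936270847) (nat_lit 320) (nat_lit 5) (nat_lit 328) (nat_lit 5) (nat_lit 329) (nat_lit 4) (nat_lit 379) (nat_lit 322) (nat_lit 319)) (XT.lf (nat_lit 0) (nat_lit 1895391169) (nat_lit 684) (nat_lit 3271058295) (nat_lit 76) (nat_lit 2976790064) (nat_lit 311) (nat_lit 5) (nat_lit 320) (nat_lit 5) (nat_lit 312) (nat_lit 4) (nat_lit 380) (nat_lit 322) (nat_lit 318))) (XT.nd (nat_lit 78) (nat_lit 1900) (nat_lit 0) (XT.lf (nat_lit 0)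 (nat_lit 6992715133) (nat_lit 608) (nat_lit 799397427) (nat_lit 684) (nat_lit 441175503) (nat_lit 303) (nat_lit 5) (nat_lit 311) (nat_lit 5) (nat_lit 312) (nat_lit 4) (nat_lit 381) (nat_lit 322) (nat_lit 317)) (XT.nd (nat_lit 78) (nat_lit 684) (nat_lit 0) (XT.lf (nat_lit 0) (nat_lit 833039677) (nat_lit 532) (nat_lit 4601180878) (nat_lit 608) (nat_lit 2891754608) (nat_lit 287) (nat_lit 5) (nat_lit 294) (nat_lit 5) (nat_lit 295) (nat_lit 4) (nat_lit 382) (nat_lit 322) (nat_lit 316)) (XT.lf (nat_lit 0) (nat_lit 2972356086) (nat_lit 684) (nat_lit 5433741654) (nat_lit 76) (nat_lit 15810282) (nat_lit 278) (nat_lit 5) (nat_lit 287) (nat_lit 5) (nat_lit 279) (nat_lit 4) (nat_lit 383) (nat_lit 322) (nat_lit 315))))))) (XT.nd (nat_lit 780) (nat_lit 4864) (nat_lit 0) (XT.nd (nat_lit 390) (nat_lit 2964) (nat_lit 0) (XT.nd (nat_lit 156) (nat_lit 2204) (nat_lit 0) (XT.nd (nat_lit 78) (nat_lit 532) (nat_lit 0)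 (XT.lf (nat_lit 0) (nat_lit 420863408) (nat_lit 608) (nat_lit 3337199738) (nat_lit 76) (nat_lit 4762733925) (nat_lit 270) (nat_lit 5) (nat_lit 278) (nat_lit 5) (nat_lit 271) (nat_lit 5) (nat_lit 384) (nat_lit 322) (nat_lit 314)) (XT.lf (nat_lit 0) (nat_lit 6346613488) (nat_lit 608) (nat_lit 1193735887) (nat_lit 76) (nat_lit 1082517780) (nat_lit 263) (nat_lit 5) (nat_lit 271) (nat_lit 5) (nat_lit 264) (nat_lit 4) (nat_lit 385) (nat_lit 322) (nat_lit 313))) (XT.nd (nat_lit 78) (nat_lit 1064) (nat_lit 0) (XT.lf (nat_lit 0) (nat_lit 1004198761) (nat_lit 532) (nat_lit 2649442658) (nat_lit 608) (nat_lit 5074268167) (nat_lit 248) (nat_lit 5) (nat_lit 255) (nat_lit 5) (nat_lit 256) (nat_lit 5) (nat_lit 386) (nat_lit 322) (nat_lit 312)) (XT.nd (nat_lit 78) (nat_lit 532) (nat_lit 0) (XT.lf (nat_lit 0) (nat_lit 858048494) (nat_lit 532) (nat_lit 5563207080) (nat_lit 76) (nat_lit 2414929072) (nat_lit 241) (nat_lit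 5) (nat_lit 248) (nat_lit 5) (nat_lit 242) (nat_lit 5) (nat_lit 387) (nat_lit 322) (nat_lit 311)) (XT.lf (nat_lit 0) (nat_lit 5582178122) (nat_lit 532) (nat_lit 1289090251) (nat_lit 608) (nat_lit 2076331304) (nat_lit 234) (nat_lit 5) (nat_lit 241) (nat_lit 5) (nat_lit 242) (nat_lit 5) (nat_lit 388) (nat_lit 322) (nat_lit 310))))) (XT.nd (nat_lit 156) (nat_lit 1444) (nat_lit 0) (XT.nd (nat_lit 78) (nat_lit 988) (nat_lit 0) (XT.lf (nat_lit 0) (nat_lit 3932592466) (nat_lit 532) (nat_lit 1130639711) (nat_lit 76) (nat_lit 3998954068) (nat_lit 227) (nat_lit 5) (nat_lit 234) (nat_lit 5) (nat_lit 228) (nat_lit 5) (nat_lit 389) (nat_lit 322) (nat_lit 309)) (XT.lf (nat_lit 0) (nat_lit 878886922) (nat_lit 532) (nat_lit 8001511525) (nat_lit 76) (nat_lit 299874222) (nat_lit 214) (nat_lit 5) (nat_lit 221) (nat_lit 5) (nat_lit 215) (nat_lit 5) (nat_lit 390) (nat_lit 322) (nat_lit 308))) (XT.nd (nat_lit 78) (nat_lit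 988) (nat_lit 0) (XT.lf (nat_lit 0) (nat_lit 3525431502) (nat_lit 456) (nat_lit 3475917119) (nat_lit 532) (nat_lit 2299806578) (nat_lit 208) (nat_lit 5) (nat_lit 214) (nat_lit 5) (nat_lit 215) (nat_lit 5) (nat_lit 391) (nat_lit 322) (nat_lit 307)) (XT.nd (nat_lit 78) (nat_lit 532) (nat_lit 0) (XT.lf (nat_lit 0) (nat_lit 3808540048) (nat_lit 456) (nat_lit 3501424353) (nat_lit 76) (nat_lit 2115643121) (nat_lit 202) (nat_lit 5) (nat_lit 208) (nat_lit 5) (nat_lit 203) (nat_lit 5) (nat_lit 392) (nat_lit 322) (nat_lit 306)) (XT.lf (nat_lit 0) (nat_lit 498431913) (nat_lit 532) (nat_lit 1180840886) (nat_lit 76) (nat_lit 7874353870) (nat_lit 195) (nat_lit 5) (nat_lit 202) (nat_lit 5) (nat_lit 196) (nat_lit 5) (nat_lit 393) (nat_lit 322) (nat_lit 305)))))) (XT.nd (nat_lit 390) (nat_lit 2128) (nat_lit 0) (XT.nd (nat_lit 156) (nat_lit 1520) (nat_lit 0) (XT.nd (nat_lit 78) (nat_lit 456) (nat_lit 0) (XT.lf (nat_lit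 0) (nat_lit 1179529353) (nat_lit 380) (nat_lit 5545611331) (nat_lit 456) (nat_lit 2959521964) (nat_lit 185) (nat_lit 5) (nat_lit 190) (nat_lit 5) (nat_lit 191) (nat_lit 5) (nat_lit 394) (nat_lit 322) (nat_lit 304)) (XT.lf (nat_lit 0) (nat_lit 3268030539) (nat_lit 456) (nat_lit 6208799797) (nat_lit 76) (nat_lit 342517604) (nat_lit 179) (nat_lit 5) (nat_lit 185) (nat_lit 5) (nat_lit 180) (nat_lit 5) (nat_lit 395) (nat_lit 322) (nat_lit 303))) (XT.nd (nat_lit 78) (nat_lit 1140) (nat_lit 0) (XT.lf (nat_lit 0) (nat_lit 6075236565) (nat_lit 380) (nat_lit 3577843118) (nat_lit 456) (nat_lit 304385290) (nat_lit 174) (nat_lit 5) (nat_lit 179) (nat_lit 5) (nat_lit 180) (nat_lit 5) (nat_lit 396) (nat_lit 322) (nat_lit 302)) (XT.nd (nat_lit 78) (nat_lit 760) (nat_lit 0) (XT.lf (nat_lit 0) (nat_lit 6042008926) (nat_lit 380) (nat_lit 1524396447) (nat_lit 76) (nat_lit 2532675159) (nat_lit 169) (nat_lit 5) (nat_lit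 174) (nat_lit 5) (nat_lit 170) (nat_lit 5) (nat_lit 397) (nat_lit 322) (nat_lit 301)) (XT.lf (nat_lit 0) (nat_lit 892102768) (nat_lit 304) (nat_lit 1415173990) (nat_lit 380) (nat_lit 7937163499) (nat_lit 159) (nat_lit 5) (nat_lit 163) (nat_lit 5) (nat_lit 164) (nat_lit 5) (nat_lit 398) (nat_lit 322) (nat_lit 300))))) (XT.nd (nat_lit 156) (nat_lit 1368) (nat_lit 0) (XT.nd (nat_lit 78) (nat_lit 380) (nat_lit 0) (XT.lf (nat_lit 0) (nat_lit 3359035802) (nat_lit 380) (nat_lit 5471614364) (nat_lit 456) (nat_lit 1562509978) (nat_lit 154) (nat_lit 5) (nat_lit 159) (nat_lit 5) (nat_lit 160) (nat_lit 5) (nat_lit 399) (nat_lit 322) (nat_lit 299)) (XT.lf (nat_lit 0) (nat_lit 4936022744) (nat_lit 380) (nat_lit 4677521513) (nat_lit 76) (nat_lit 932182468) (nat_lit 149) (nat_lit 5) (nat_lit 154) (nat_lit 5) (nat_lit 150) (nat_lit 5) (nat_lit 400) (nat_lit 322) (nat_lit 298))) (XT.nd (nat_lit 78) (nat_lit 988) (nat_lit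 0) (XT.lf (nat_lit 0) (nat_lit 915729763) (nat_lit 380) (nat_lit 2286787716) (nat_lit 76) (nat_lit 7499588906) (nat_lit 144) (nat_lit 5) (nat_lit 149) (nat_lit 5) (nat_lit 145) (nat_lit 5) (nat_lit 401) (nat_lit 322) (nat_lit 297)) (XT.nd (nat_lit 78) (nat_lit 380) (nat_lit 0) (XT.lf (nat_lit 0) (nat_lit 133744331) (nat_lit 304) (nat_lit 7438124356) (nat_lit 380) (nat_lit 3290344024) (nat_lit 136) (nat_lit 5) (nat_lit 140) (nat_lit 5) (nat_lit 141) (nat_lit 5) (nat_lit 402) (nat_lit 322) (nat_lit 296)) (XT.lf (nat_lit 0) (nat_lit 2630289522) (nat_lit 304) (nat_lit 752228520) (nat_lit 380) (nat_lit 7643631659) (nat_lit 131) (nat_lit 5) (nat_lit 135) (nat_lit 5) (nat_lit 136) (nat_lit 5) (nat_lit 403) (nat_lit 322) (nat_lit 295))))))))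
noncomputable def xc19 : XT := (XT.nd (nat_lit 1560) (nat_lit 1292) (nat_lit 0) (XT.nd (nat_lit 780) (nat_lit 2736) (nat_lit 0) (XT.nd (nat_lit 390) (nat_lit 1672) (nat_lit 0) (XT.nd (nat_lit 156) (nat_lit 1216) (nat_lit 0) (XT.nd (nat_lit 78) (nat_lit 304) (nat_lit 0) (XT.lf (nat_lit 0) (nat_lit 5155021426) (nat_lit 304) (nat_lit 5087763936) (nat_lit 380) (nat_lit 951146010) (nat_lit 127) (nat_lit 5) (nat_lit 131) (nat_lit 5) (nat_lit 132) (nat_lit 5) (nat_lit 404) (nat_lit 322) (nat_lit 294)) (XT.lf (nat_lit 0) (nat_lit 5875308375) (nat_lit 304) (nat_lit 3650751945) (nat_lit 76) (nat_lit 1839692048) (nat_lit 123) (nat_lit 5) (nat_lit 127) (nat_lit 5) (nat_lit 124) (nat_lit 5) (nat_lit 405) (nat_lit 322) (nat_lit 293))) (XT.nd (nat_lit 78) (nat_lit 836) (nat_lit 0) (XT.lf (nat_lit 0) (nat_lit 1363981897) (nat_lit 380) (nat_lit 1224277583) (nat_lit 76) (nat_lit 8953553955) (nat_lit 118) (nat_lit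 5) (nat_lit 123) (nat_lit 5) (nat_lit 119) (nat_lit 5) (nat_lit 406) (nat_lit 322) (nat_lit 292)) (XT.nd (nat_lit 78) (nat_lit 304) (nat_lit 0) (XT.lf (nat_lit 0) (nat_lit 1240511598) (nat_lit 304) (nat_lit 7146065028) (nat_lit 380) (nat_lit 3335111278) (nat_lit 111) (nat_lit 5) (nat_lit 115) (nat_lit 5) (nat_lit 116) (nat_lit 5) (nat_lit 407) (nat_lit 322) (nat_lit 291)) (XT.lf (nat_lit 0) (nat_lit 3691092370) (nat_lit 304) (nat_lit 8136298065) (nat_lit 76) (nat_lit 78548099) (nat_lit 107) (nat_lit 5) (nat_lit 111) (nat_lit 5) (nat_lit 108) (nat_lit 5) (nat_lit 408) (nat_lit 322) (nat_lit 290))))) (XT.nd (nat_lit 156) (nat_lit 1064) (nat_lit 0) (XT.nd (nat_lit 78) (nat_lit 304) (nat_lit 0) (XT.lf (nat_lit 0) (nat_lit 6319586824) (nat_lit 304) (nat_lit 4614248143) (nat_lit 380) (nat_lit 1160419538) (nat_lit 103) (nat_lit 5) (nat_lit 107) (nat_lit 5) (nat_lit 108) (nat_lit 5) (nat_lit 409) (nat_lit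 322) (nat_lit 289)) (XT.lf (nat_lit 0) (nat_lit 6049520440) (nat_lit 304) (nat_lit 3383930118) (nat_lit 76) (nat_lit 2853497417) (nat_lit 99) (nat_lit 5) (nat_lit 103) (nat_lit 5) (nat_lit 100) (nat_lit 5) (nat_lit 410) (nat_lit 322) (nat_lit 288))) (XT.nd (nat_lit 78) (nat_lit 760) (nat_lit 0) (XT.lf (nat_lit 0) (nat_lit 1000659735) (nat_lit 304) (nat_lit 949960956) (nat_lit 76) (nat_lit 10533747195) (nat_lit 95) (nat_lit 5) (nat_lit 99) (nat_lit 5) (nat_lit 96) (nat_lit 5) (nat_lit 411) (nat_lit 322) (nat_lit 287)) (XT.nd (nat_lit 78) (nat_lit 304) (nat_lit 0) (XT.lf (nat_lit 0) (nat_lit 1514081153) (nat_lit 228) (nat_lit 6915097459) (nat_lit 304) (nat_lit 4256546572) (nat_lit 89) (nat_lit 5) (nat_lit 92) (nat_lit 5) (nat_lit 93) (nat_lit 5) (nat_lit 412) (nat_lit 322) (nat_lit 286)) (XT.lf (nat_lit 0) (nat_lit 3182749166) (nat_lit 304) (nat_lit 8849691368) (nat_lit 76) (nat_lit 859526307) (nat_lit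 85) (nat_lit 5) (nat_lit 89) (nat_lit 5) (nat_lit 86) (nat_lit 5) (nat_lit 413) (nat_lit 322) (nat_lit 285)))))) (XT.nd (nat_lit 390) (nat_lit 1292) (nat_lit 0) (XT.nd (nat_lit 156) (nat_lit 912) (nat_lit 0) (XT.nd (nat_lit 78) (nat_lit 304) (nat_lit 0) (XT.lf (nat_lit 0) (nat_lit 6587730661) (nat_lit 228) (nat_lit 4260477284) (nat_lit 304) (nat_lit 2254408809) (nat_lit 82) (nat_lit 5) (nat_lit 85) (nat_lit 5) (nat_lit 86) (nat_lit 5) (nat_lit 414) (nat_lit 322) (nat_lit 284)) (XT.lf (nat_lit 0) (nat_lit 5394210019) (nat_lit 304) (nat_lit 4151873149) (nat_lit 76) (nat_lit 3771972606) (nat_lit 78) (nat_lit 5) (nat_lit 82) (nat_lit 5) (nat_lit 79) (nat_lit 5) (nat_lit 415) (nat_lit 322) (nat_lit 283))) (XT.nd (nat_lit 78) (nat_lit 684) (nat_lit 0) (XT.lf (nat_lit 0) (nat_lit 11795638535) (nat_lit 228) (nat_lit 1493475792) (nat_lit 304) (nat_lit 249596496) (nat_lit 75) (nat_lit 5) (nat_lit 78) (nat_lit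 5) (nat_lit 79) (nat_lit 5) (nat_lit 416) (nat_lit 322) (nat_lit 282)) (XT.nd (nat_lit 78) (nat_lit 228) (nat_lit 0) (XT.lf (nat_lit 0) (nat_lit 670991073) (nat_lit 228) (nat_lit 6953811186) (nat_lit 304) (nat_lit 6138782909) (nat_lit 69) (nat_lit 5) (nat_lit 72) (nat_lit 5) (nat_lit 73) (nat_lit 5) (nat_lit 417) (nat_lit 322) (nat_lit 281)) (XT.lf (nat_lit 0) (nat_lit 1768617205) (nat_lit 228) (nat_lit 10825927875) (nat_lit 76) (nat_lit 1399311581) (nat_lit 66) (nat_lit 5) (nat_lit 69) (nat_lit 5) (nat_lit 67) (nat_lit 5) (nat_lit 418) (nat_lit 322) (nat_lit 280))))) (XT.nd (nat_lit 156) (nat_lit 836) (nat_lit 0) (XT.nd (nat_lit 78) (nat_lit 228) (nat_lit 0) (XT.lf (nat_lit 0) (nat_lit 5670313797) (nat_lit 228) (nat_lit 4232217206) (nat_lit 304) (nat_lit 4326239878) (nat_lit 63) (nat_lit 5) (nat_lit 66) (nat_lit 5) (nat_lit 67) (nat_lit 5) (nat_lit 419) (nat_lit 322) (nat_lit 279)) (XT.lf (nat_lit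 0) (nat_lit 3816752293) (nat_lit 228) (nat_lit 6255846015) (nat_lit 76) (nat_lit 4396499754) (nat_lit 60) (nat_lit 5) (nat_lit 63) (nat_lit 5) (nat_lit 61) (nat_lit 5) (nat_lit 420) (nat_lit 322) (nat_lit 278))) (XT.nd (nat_lit 78) (nat_lit 608) (nat_lit 0) (XT.lf (nat_lit 0) (nat_lit 10794746492) (nat_lit 228) (nat_lit 1409534680) (nat_lit 304) (nat_lit 2510601485) (nat_lit 57) (nat_lit 5) (nat_lit 60) (nat_lit 5) (nat_lit 61) (nat_lit 5) (nat_lit 421) (nat_lit 322) (nat_lit 277)) (XT.nd (nat_lit 78) (nat_lit 380) (nat_lit 0) (XT.lf (nat_lit 0) (nat_lit 5880612704) (nat_lit 228) (nat_lit 1580296519) (nat_lit 76) (nat_lit 7504723140) (nat_lit 54) (nat_lit 5) (nat_lit 57) (nat_lit 5) (nat_lit 55) (nat_lit 5) (nat_lit 422) (nat_lit 322) (nat_lit 276)) (XT.lf (nat_lit 0) (nat_lit 826782158) (nat_lit 152) (nat_lit 13722603027) (nat_lit 228) (nat_lit 672988852) (nat_lit 49) (nat_lit 5) (nat_lit 51) (nat_lit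 5) (nat_lit 52) (nat_lit 4) (nat_lit 423) (nat_lit 322) (nat_lit 275))))))) (XT.nd (nat_lit 49530) (nat_lit 0) (nat_lit 15884) (XT.nd (nat_lit 390) (nat_lit 228) (nat_lit 0) (XT.nd (nat_lit 156) (nat_lit 532) (nat_lit 0) (XT.nd (nat_lit 78) (nat_lit 228) (nat_lit 0) (XT.lf (nat_lit 0) (nat_lit 3246839388) (nat_lit 228) (nat_lit 4738134956) (nat_lit 304) (nat_lit 7498838304) (nat_lit 45) (nat_lit 5) (nat_lit 48) (nat_lit 5) (nat_lit 49) (nat_lit 5) (nat_lit 424) (nat_lit 322) (nat_lit 274)) (XT.lf (nat_lit 0) (nat_lit 1195488347) (nat_lit 228) (nat_lit 10030866162) (nat_lit 76) (nat_lit 4525104460) (nat_lit 42) (nat_lit 5) (nat_lit 45) (nat_lit 5) (nat_lit 43) (nat_lit 5) (nat_lit 425) (nat_lit 322) (nat_lit 273))) (XT.nd (nat_lit 78) (nat_lit 380) (nat_lit 0) (XT.lf (nat_lit 0) (nat_lit 8209305832) (nat_lit 152) (nat_lit 1914222801) (nat_lit 228) (nat_lit 5901119428) (nat_lit 40) (nat_lit 5) (nat_lit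 42) (nat_lit 5) (nat_lit 43) (nat_lit 5) (nat_lit 426) (nat_lit 322) (nat_lit 272)) (XT.nd (nat_lit 78) (nat_lit 152) (nat_lit 0) (XT.lf (nat_lit 0) (nat_lit 3069366071) (nat_lit 228) (nat_lit 5577756275) (nat_lit 76) (nat_lit 7656608989) (nat_lit 37) (nat_lit 5) (nat_lit 40) (nat_lit 5) (nat_lit 38) (nat_lit 5) (nat_lit 427) (nat_lit 322) (nat_lit 271)) (XT.lf (nat_lit 0) (nat_lit 12295986977) (nat_lit 228) (nat_lit 3305420745) (nat_lit 76) (nat_lit 987655377) (nat_lit 35) (nat_lit 5) (nat_lit 38) (nat_lit 5) (nat_lit 36) (nat_lit 4) (nat_lit 428) (nat_lit 322) (nat_lit 270))))) (XT.nd (nat_lit 48906) (nat_lit 0) (nat_lit 23940) (XT.nd (nat_lit 48828) (nat_lit 0) (nat_lit 26220) (XT.lf (nat_lit 0) (nat_lit 4960612576) (nat_lit 228) (nat_lit 1028457177) (nat_lit 76) (nat_lit 10891073825) (nat_lit 32) (nat_lit 5) (nat_lit 35) (nat_lit 5) (nat_lit 33) (nat_lit 5) (nat_lit 429) (nat_lit 322) (nat_lit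 269)) (XT.lf (nat_lit 0) (nat_lit 288911251) (nat_lit 836) (nat_lit 3254657862) (nat_lit 0) (nat_lit 288911251) (nat_lit 377) (nat_lit 5) (nat_lit 388) (nat_lit 4) (nat_lit 377) (nat_lit 4) (nat_lit 374) (nat_lit 323) (nat_lit 323))) (XT.nd (nat_lit 78) (nat_lit 1520) (nat_lit 0) (XT.lf (nat_lit 0) (nat_lit 2897162421) (nat_lit 760) (nat_lit 3434101645) (nat_lit 760) (nat_lit 1407168525) (nat_lit 367) (nat_lit 4) (nat_lit 377) (nat_lit 5) (nat_lit 377) (nat_lit 4) (nat_lit 375) (nat_lit 323) (nat_lit 322)) (XT.nd (nat_lit 78) (nat_lit 760) (nat_lit 0) (XT.lf (nat_lit 0) (nat_lit 4309427404) (nat_lit 760) (nat_lit 3112686191) (nat_lit 0) (nat_lit 392928039) (nat_lit 357) (nat_lit 5) (nat_lit 367) (nat_lit 4) (nat_lit 357) (nat_lit 4) (nat_lit 376) (nat_lit 323) (nat_lit 321)) (XT.lf (nat_lit 0) (nat_lit 2203068889) (nat_lit 760) (nat_lit 1339416744) (nat_lit 76) (nat_lit 4352012781) (nat_lit 347)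 (nat_lit 5) (nat_lit 357) (nat_lit 5) (nat_lit 348) (nat_lit 4) (nat_lit 377) (nat_lit 323) (nat_lit 320)))))) (XT.nd (nat_lit 390) (nat_lit 3496) (nat_lit 0) (XT.nd (nat_lit 156) (nat_lit 2508) (nat_lit 0) (XT.nd (nat_lit 78) (nat_lit 684) (nat_lit 0) (XT.lf (nat_lit 0) (nat_lit 505307790) (nat_lit 684) (nat_lit 7465428187) (nat_lit 684) (nat_lit 6432457) (nat_lit 329) (nat_lit 4) (nat_lit 338) (nat_lit 5) (nat_lit 338) (nat_lit 4) (nat_lit 378) (nat_lit 323) (nat_lit 319)) (XT.lf (nat_lit 0) (nat_lit 2398330044) (nat_lit 608) (nat_lit 3338451296) (nat_lit 684) (nat_lit 2325490109) (nat_lit 320) (nat_lit 5) (nat_lit 328) (nat_lit 5) (nat_lit 329) (nat_lit 4) (nat_lit 379) (nat_lit 323) (nat_lit 318))) (XT.nd (nat_lit 78) (nat_lit 1824) (nat_lit 0) (XT.lf (nat_lit 0) (nat_lit 3396850196) (nat_lit 684) (nat_lit 3795739193) (nat_lit 76) (nat_lit 958072417) (nat_lit 311) (nat_lit 5) (nat_lit 320) (nat_lit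 5) (nat_lit 312) (nat_lit 4) (nat_lit 380) (nat_lit 323) (nat_lit 317)) (XT.nd (nat_lit 78) (nat_lit 1140) (nat_lit 0) (XT.lf (nat_lit 0) (nat_lit 964360400) (nat_lit 684) (nat_lit 1882402129) (nat_lit 76) (nat_lit 5395304942) (nat_lit 302) (nat_lit 5) (nat_lit 311) (nat_lit 5) (nat_lit 303) (nat_lit 5) (nat_lit 381) (nat_lit 323) (nat_lit 316)) (XT.lf (nat_lit 0) (nat_lit 78830373) (nat_lit 532) (nat_lit 6662784593) (nat_lit 608) (nat_lit 1594929425) (nat_lit 287) (nat_lit 5) (nat_lit 294) (nat_lit 5) (nat_lit 295) (nat_lit 4) (nat_lit 382) (nat_lit 323) (nat_lit 315))))) (XT.nd (nat_lit 156) (nat_lit 2204) (nat_lit 0) (XT.nd (nat_lit 78) (nat_lit 608) (nat_lit 0) (XT.lf (nat_lit 0) (nat_lit 2108619781) (nat_lit 608) (nat_lit 2068795372) (nat_lit 684) (nat_lit 4256388860) (nat_lit 278) (nat_lit 5) (nat_lit 286) (nat_lit 5) (nat_lit 287) (nat_lit 5) (nat_lit 383) (nat_lit 323) (nat_lit 314)) (XT.lf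 (nat_lit 0) (nat_lit 1510259025) (nat_lit 608) (nat_lit 4343509781) (nat_lit 76) (nat_lit 2680531698) (nat_lit 270) (nat_lit 5) (nat_lit 278) (nat_lit 5) (nat_lit 271) (nat_lit 5) (nat_lit 384) (nat_lit 323) (nat_lit 313))) (XT.nd (nat_lit 78) (nat_lit 1672) (nat_lit 0) (XT.lf (nat_lit 0) (nat_lit 6321550109) (nat_lit 532) (nat_lit 1033318924) (nat_lit 608) (nat_lit 1283124356) (nat_lit 263) (nat_lit 5) (nat_lit 270) (nat_lit 5) (nat_lit 271) (nat_lit 5) (nat_lit 385) (nat_lit 323) (nat_lit 312)) (XT.nd (nat_lit 78) (nat_lit 1064) (nat_lit 0) (XT.lf (nat_lit 0) (nat_lit 4546417974) (nat_lit 608) (nat_lit 257216006) (nat_lit 76) (nat_lit 3941019432) (nat_lit 255) (nat_lit 5) (nat_lit 263) (nat_lit 5) (nat_lit 256) (nat_lit 5) (nat_lit 386) (nat_lit 323) (nat_lit 311)) (XT.lf (nat_lit 0) (nat_lit 1631819128) (nat_lit 532) (nat_lit 6967790272) (nat_lit 76) (nat_lit 255020773) (nat_lit 241) (nat_lit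 5) (nat_lit 248) (nat_lit 5) (nat_lit 242) (nat_lit 5) (nat_lit 387) (nat_lit 323) (nat_lit 310))))))))
noncomputable def xc20 : XT := (XT.nd (nat_lit 1482) (nat_lit 5776) (nat_lit 0) (XT.nd (nat_lit 702) (nat_lit 4256) (nat_lit 0) (XT.nd (nat_lit 312) (nat_lit 2584) (nat_lit 0) (XT.nd (nat_lit 156) (nat_lit 1444) (nat_lit 0) (XT.nd (nat_lit 78) (nat_lit 532) (nat_lit 0) (XT.lf (nat_lit 0) (nat_lit 4063137332) (nat_lit 532) (nat_lit 3507394185) (nat_lit 608) (nat_lit 1397003837) (nat_lit 234) (nat_lit 5) (nat_lit 241) (nat_lit 5) (nat_lit 242) (nat_lit 5) (nat_lit 388) (nat_lit 323) (nat_lit 309)) (XT.lf (nat_lit 0) (nat_lit 4513813646) (nat_lit 532) (nat_lit 2796332472) (nat_lit 76) (nat_lit 1773671527) (nat_lit 227) (nat_lit 5) (nat_lit 234) (nat_lit 5) (nat_lit 228) (nat_lit 5) (nat_lit 389) (nat_lit 323) (nat_lit 308))) (XT.nd (nat_lit 78) (nat_lit 912) (nat_lit 0) (XT.lf (nat_lit 0) (nat_lit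 1346712910) (nat_lit 532) (nat_lit 643424578) (nat_lit 76) (nat_lit 7213382409) (nat_lit 220) (nat_lit 5) (nat_lit 227) (nat_lit 5) (nat_lit 221) (nat_lit 5) (nat_lit 390) (nat_lit 323) (nat_lit 307)) (XT.lf (nat_lit 0) (nat_lit 1563613776) (nat_lit 456) (nat_lit 5812929799) (nat_lit 532) (nat_lit 1949711473) (nat_lit 208) (nat_lit 5) (nat_lit 214) (nat_lit 5) (nat_lit 215) (nat_lit 5) (nat_lit 391) (nat_lit 323) (nat_lit 306)))) (XT.nd (nat_lit 156) (nat_lit 1596) (nat_lit 0) (XT.nd (nat_lit 78) (nat_lit 532) (nat_lit 0) (XT.lf (nat_lit 0) (nat_lit 3827250872) (nat_lit 380) (nat_lit 237268649) (nat_lit 456) (nat_lit 5387932870) (nat_lit 202) (nat_lit 5) (nat_lit 207) (nat_lit 5) (nat_lit 208) (nat_lit 5) (nat_lit 392) (nat_lit 323) (nat_lit 305)) (XT.lf (nat_lit 0) (nat_lit 647026479) (nat_lit 532) (nat_lit 3455617343) (nat_lit 76) (nat_lit 5479348660) (nat_lit 195) (nat_lit 5) (nat_lit 202) (nat_lit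 5) (nat_lit 196) (nat_lit 5) (nat_lit 393) (nat_lit 323) (nat_lit 304))) (XT.nd (nat_lit 78) (nat_lit 1216) (nat_lit 0) (XT.lf (nat_lit 0) (nat_lit 6774322805) (nat_lit 456) (nat_lit 1249018786) (nat_lit 76) (nat_lit 1691675120) (nat_lit 190) (nat_lit 5) (nat_lit 196) (nat_lit 5) (nat_lit 191) (nat_lit 5) (nat_lit 394) (nat_lit 323) (nat_lit 303)) (XT.nd (nat_lit 78) (nat_lit 380) (nat_lit 0) (XT.lf (nat_lit 0) (nat_lit 1008462329) (nat_lit 380) (nat_lit 2190530731) (nat_lit 456) (nat_lit 6652458869) (nat_lit 179) (nat_lit 5) (nat_lit 184) (nat_lit 5) (nat_lit 185) (nat_lit 5) (nat_lit 395) (nat_lit 323) (nat_lit 302)) (XT.lf (nat_lit 0) (nat_lit 3325281470) (nat_lit 380) (nat_lit 6167428764) (nat_lit 456) (nat_lit 498685368) (nat_lit 174) (nat_lit 5) (nat_lit 179) (nat_lit 5) (nat_lit 180) (nat_lit 5) (nat_lit 396) (nat_lit 323) (nat_lit 301)))))) (XT.nd (nat_lit 390) (nat_lit 1976) (nat_lit 0)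 (XT.nd (nat_lit 156) (nat_lit 1444) (nat_lit 0) (XT.nd (nat_lit 78) (nat_lit 456) (nat_lit 0) (XT.lf (nat_lit 0) (nat_lit 5677662237) (nat_lit 304) (nat_lit 78498767) (nat_lit 380) (nat_lit 4378757309) (nat_lit 169) (nat_lit 5) (nat_lit 173) (nat_lit 5) (nat_lit 174) (nat_lit 5) (nat_lit 397) (nat_lit 323) (nat_lit 300)) (XT.lf (nat_lit 0) (nat_lit 1905463176) (nat_lit 456) (nat_lit 2219529648) (nat_lit 76) (nat_lit 6157013924) (nat_lit 163) (nat_lit 5) (nat_lit 169) (nat_lit 5) (nat_lit 164) (nat_lit 5) (nat_lit 398) (nat_lit 323) (nat_lit 299))) (XT.nd (nat_lit 78) (nat_lit 760) (nat_lit 0) (XT.lf (nat_lit 0) (nat_lit 60494411) (nat_lit 380) (nat_lit 8256883320) (nat_lit 456) (nat_lit 2115578081) (nat_lit 154) (nat_lit 5) (nat_lit 159) (nat_lit 5) (nat_lit 160) (nat_lit 5) (nat_lit 399) (nat_lit 323) (nat_lit 298)) (XT.nd (nat_lit 78) (nat_lit 380) (nat_lit 0) (XT.lf (nat_lit 0) (nat_lit 2400941606)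 (nat_lit 304) (nat_lit 1903538173) (nat_lit 380) (nat_lit 6282829000) (nat_lit 149) (nat_lit 5) (nat_lit 153) (nat_lit 5) (nat_lit 154) (nat_lit 5) (nat_lit 400) (nat_lit 323) (nat_lit 297)) (XT.lf (nat_lit 0) (nat_lit 158641839) (nat_lit 380) (nat_lit 5962008422) (nat_lit 76) (nat_lit 4624981407) (nat_lit 144) (nat_lit 5) (nat_lit 149) (nat_lit 5) (nat_lit 145) (nat_lit 5) (nat_lit 401) (nat_lit 323) (nat_lit 296))))) (XT.nd (nat_lit 156) (nat_lit 1292) (nat_lit 0) (XT.nd (nat_lit 78) (nat_lit 380) (nat_lit 0) (XT.lf (nat_lit 0) (nat_lit 6714254154) (nat_lit 380) (nat_lit 3710905845) (nat_lit 76) (nat_lit 482588528) (nat_lit 140) (nat_lit 5) (nat_lit 145) (nat_lit 5) (nat_lit 141) (nat_lit 5) (nat_lit 402) (nat_lit 323) (nat_lit 295)) (XT.lf (nat_lit 0) (nat_lit 2393862487) (nat_lit 380) (nat_lit 1431319536) (nat_lit 76) (nat_lit 7248567774) (nat_lit 135) (nat_lit 5) (nat_lit 140) (nat_lit 5) (nat_lit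 136) (nat_lit 5) (nat_lit 403) (nat_lit 323) (nat_lit 294))) (XT.nd (nat_lit 78) (nat_lit 684) (nat_lit 0) (XT.lf (nat_lit 0) (nat_lit 898298999) (nat_lit 304) (nat_lit 8243852954) (nat_lit 380) (nat_lit 2101619072) (nat_lit 127) (nat_lit 5) (nat_lit 131) (nat_lit 5) (nat_lit 132) (nat_lit 5) (nat_lit 404) (nat_lit 323) (nat_lit 293)) (XT.nd (nat_lit 78) (nat_lit 380) (nat_lit 0) (XT.lf (nat_lit 0) (nat_lit 3278191505) (nat_lit 228) (nat_lit 1366484163) (nat_lit 304) (nat_lit 6772970712) (nat_lit 123) (nat_lit 5) (nat_lit 126) (nat_lit 5) (nat_lit 127) (nat_lit 5) (nat_lit 405) (nat_lit 323) (nat_lit 292)) (XT.lf (nat_lit 0) (nat_lit 5216206) (nat_lit 380) (nat_lit 5900704409) (nat_lit 76) (nat_lit 5689814562) (nat_lit 118) (nat_lit 5) (nat_lit 123) (nat_lit 5) (nat_lit 119) (nat_lit 5) (nat_lit 406) (nat_lit 323) (nat_lit 291))))))) (XT.nd (nat_lit 780) (nat_lit 2508) (nat_lit 0) (XT.nd (nat_lit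 390) (nat_lit 1596) (nat_lit 0) (XT.nd (nat_lit 156) (nat_lit 1064) (nat_lit 0) (XT.nd (nat_lit 78) (nat_lit 380) (nat_lit 0) (XT.lf (nat_lit 0) (nat_lit 6913531217) (nat_lit 304) (nat_lit 3639420449) (nat_lit 76) (nat_lit 1224943575) (nat_lit 115) (nat_lit 5) (nat_lit 119) (nat_lit 5) (nat_lit 116) (nat_lit 5) (nat_lit 407) (nat_lit 323) (nat_lit 290)) (XT.lf (nat_lit 0) (nat_lit 2079709140) (nat_lit 380) (nat_lit 1345679330) (nat_lit 76) (nat_lit 8538999719) (nat_lit 110) (nat_lit 5) (nat_lit 115) (nat_lit 5) (nat_lit 111) (nat_lit 5) (nat_lit 408) (nat_lit 323) (nat_lit 289))) (XT.nd (nat_lit 78) (nat_lit 532) (nat_lit 0) (XT.lf (nat_lit 0) (nat_lit 989332490) (nat_lit 304) (nat_lit 8214986246) (nat_lit 380) (nat_lit 2950748083) (nat_lit 103) (nat_lit 5) (nat_lit 107) (nat_lit 5) (nat_lit 108) (nat_lit 5) (nat_lit 409) (nat_lit 323) (nat_lit 288)) (XT.nd (nat_lit 78) (nat_lit 228) (nat_lit 0)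 (XT.lf (nat_lit 0) (nat_lit 3380006931) (nat_lit 228) (nat_lit 796140078) (nat_lit 304) (nat_lit 8173976267) (nat_lit 99) (nat_lit 5) (nat_lit 102) (nat_lit 5) (nat_lit 103) (nat_lit 5) (nat_lit 410) (nat_lit 323) (nat_lit 287)) (XT.lf (nat_lit 0) (nat_lit 5795407215) (nat_lit 228) (nat_lit 5736121631) (nat_lit 304) (nat_lit 1018017112) (nat_lit 96) (nat_lit 5) (nat_lit 99) (nat_lit 5) (nat_lit 100) (nat_lit 5) (nat_lit 411) (nat_lit 323) (nat_lit 286))))) (XT.nd (nat_lit 156) (nat_lit 988) (nat_lit 0) (XT.nd (nat_lit 78) (nat_lit 304) (nat_lit 0) (XT.lf (nat_lit 0) (nat_lit 6299676657) (nat_lit 304) (nat_lit 4512100379) (nat_lit 76) (nat_lit 1941741945) (nat_lit 92) (nat_lit 5) (nat_lit 96) (nat_lit 5) (nat_lit 93) (nat_lit 5) (nat_lit 412) (nat_lit 323) (nat_lit 285)) (XT.lf (nat_lit 0) (nat_lit 901705667) (nat_lit 304) (nat_lit 2234833577) (nat_lit 76) (nat_lit 9825758033) (nat_lit 88) (nat_lit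 5) (nat_lit 92) (nat_lit 5) (nat_lit 89) (nat_lit 5) (nat_lit 413) (nat_lit 323) (nat_lit 284))) (XT.nd (nat_lit 78) (nat_lit 532) (nat_lit 0) (XT.lf (nat_lit 0) (nat_lit 56087156) (nat_lit 228) (nat_lit 8383413530) (nat_lit 304) (nat_lit 4735999780) (nat_lit 82) (nat_lit 5) (nat_lit 85) (nat_lit 5) (nat_lit 86) (nat_lit 5) (nat_lit 414) (nat_lit 323) (nat_lit 283)) (XT.nd (nat_lit 78) (nat_lit 228) (nat_lit 0) (XT.lf (nat_lit 0) (nat_lit 2426127955) (nat_lit 228) (nat_lit 400770076) (nat_lit 304) (nat_lit 10566729048) (nat_lit 78) (nat_lit 5) (nat_lit 81) (nat_lit 5) (nat_lit 82) (nat_lit 5) (nat_lit 415) (nat_lit 323) (nat_lit 282)) (XT.lf (nat_lit 0) (nat_lit 4803393568) (nat_lit 228) (nat_lit 5821513105) (nat_lit 304) (nat_lit 2991313367) (nat_lit 75) (nat_lit 5) (nat_lit 78) (nat_lit 5) (nat_lit 79) (nat_lit 5) (nat_lit 416) (nat_lit 323) (nat_lit 281)))))) (XT.nd (nat_lit 390) (nat_lit 1140)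 (nat_lit 0) (XT.nd (nat_lit 156) (nat_lit 912) (nat_lit 0) (XT.nd (nat_lit 78) (nat_lit 228) (nat_lit 0) (XT.lf (nat_lit 0) (nat_lit 4790594985) (nat_lit 228) (nat_lit 6622363717) (nat_lit 76) (nat_lit 2431060675) (nat_lit 72) (nat_lit 5) (nat_lit 75) (nat_lit 5) (nat_lit 73) (nat_lit 5) (nat_lit 417) (nat_lit 323) (nat_lit 280)) (XT.lf (nat_lit 0) (nat_lit 9673227262) (nat_lit 228) (nat_lit 3157263105) (nat_lit 304) (nat_lit 1246463476) (nat_lit 69) (nat_lit 5) (nat_lit 72) (nat_lit 5) (nat_lit 73) (nat_lit 5) (nat_lit 418) (nat_lit 323) (nat_lit 279))) (XT.nd (nat_lit 78) (nat_lit 684) (nat_lit 0) (XT.lf (nat_lit 0) (nat_lit 6769298491) (nat_lit 228) (nat_lit 2176230262) (nat_lit 76) (nat_lit 5369191154) (nat_lit 66) (nat_lit 5) (nat_lit 69) (nat_lit 5) (nat_lit 67) (nat_lit 5) (nat_lit 419) (nat_lit 323) (nat_lit 278)) (XT.nd (nat_lit 78) (nat_lit 228) (nat_lit 0) (XT.lf (nat_lit 0) (nat_lit 109051978)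 (nat_lit 152) (nat_lit 387101740) (nat_lit 228) (nat_lit 14062184134) (nat_lit 60) (nat_lit 5) (nat_lit 62) (nat_lit 5) (nat_lit 63) (nat_lit 5) (nat_lit 420) (nat_lit 323) (nat_lit 277)) (XT.lf (nat_lit 0) (nat_lit 2408221496) (nat_lit 228) (nat_lit 6371589009) (nat_lit 304) (nat_lit 6026389386) (nat_lit 57) (nat_lit 5) (nat_lit 60) (nat_lit 5) (nat_lit 61) (nat_lit 5) (nat_lit 421) (nat_lit 323) (nat_lit 276))))) (XT.nd (nat_lit 156) (nat_lit 684) (nat_lit 0) (XT.nd (nat_lit 78) (nat_lit 228) (nat_lit 0) (XT.lf (nat_lit 0) (nat_lit 2275368318) (nat_lit 228) (nat_lit 10294472906) (nat_lit 76) (nat_lit 2490276242) (nat_lit 54) (nat_lit 5) (nat_lit 57) (nat_lit 5) (nat_lit 55) (nat_lit 5) (nat_lit 422) (nat_lit 323) (nat_lit 275)) (XT.lf (nat_lit 0) (nat_lit 7133222448) (nat_lit 228) (nat_lit 3692005000) (nat_lit 304) (nat_lit 4494009959) (nat_lit 51) (nat_lit 5) (nat_lit 54) (nat_lit 5) (nat_lit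 55) (nat_lit 5) (nat_lit 423) (nat_lit 323) (nat_lit 274))) (XT.nd (nat_lit 78) (nat_lit 456) (nat_lit 0) (XT.lf (nat_lit 0) (nat_lit 4068673146) (nat_lit 228) (nat_lit 6051269946) (nat_lit 76) (nat_lit 5464136967) (nat_lit 48) (nat_lit 5) (nat_lit 51) (nat_lit 5) (nat_lit 49) (nat_lit 5) (nat_lit 424) (nat_lit 323) (nat_lit 273)) (XT.nd (nat_lit 78) (nat_lit 228) (nat_lit 0) (XT.lf (nat_lit 0) (nat_lit 11973623449) (nat_lit 228) (nat_lit 921258362) (nat_lit 304) (nat_lit 2960038051) (nat_lit 45) (nat_lit 5) (nat_lit 48) (nat_lit 5) (nat_lit 49) (nat_lit 5) (nat_lit 425) (nat_lit 323) (nat_lit 272)) (XT.lf (nat_lit 0) (nat_lit 5876750226) (nat_lit 228) (nat_lit 1714075621) (nat_lit 76) (nat_lit 8540268947) (nat_lit 42) (nat_lit 5) (nat_lit 45) (nat_lit 5) (nat_lit 43) (nat_lit 5) (nat_lit 426) (nat_lit 323) (nat_lit 271))))))))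
noncomputable def xc21 : XT := (XT.nd (nat_lit 50076) (nat_lit 0) (nat_lit 6308) (XT.nd (nat_lit 49296) (nat_lit 0) (nat_lit 15884) (XT.nd (nat_lit 48906) (nat_lit 0) (nat_lit 23940) (XT.nd (nat_lit 156) (nat_lit 228) (nat_lit 0) (XT.nd (nat_lit 78) (nat_lit 228) (nat_lit 0) (XT.lf (nat_lit 0) (nat_lit 513536700) (nat_lit 152) (nat_lit 14494773601) (nat_lit 228) (nat_lit 1405455685) (nat_lit 38) (nat_lit 5) (nat_lit 40) (nat_lit 5) (nat_lit 41) (nat_lit 4) (nat_lit 427) (nat_lit 323) (nat_lit 270)) (XT.lf (nat_lit 0) (nat_lit 2756605487) (nat_lit 152) (nat_lit 4964025943) (nat_lit 228) (nat_lit 8981028156) (nat_lit 35) (nat_lit 5) (nat_lit 37) (nat_lit 5) (nat_lit 38) (nat_lit 5) (nat_lit 428) (nat_lit 323) (nat_lit 269))) (XT.nd (nat_lit 48672) (nat_lit 0) (nat_lit 28652) (XT.lf (nat_lit 0) (nat_lit 187063143) (nat_lit 228) (nat_lit 11943479458) (nat_lit 76) (nat_lit 4865747826) (nat_lit 32) (nat_lit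 5) (nat_lit 35) (nat_lit 5) (nat_lit 33) (nat_lit 5) (nat_lit 429) (nat_lit 323) (nat_lit 268)) (XT.lf (nat_lit 0) (nat_lit 2734815820) (nat_lit 836) (nat_lit 513793077) (nat_lit 836) (nat_lit 513793077) (nat_lit 409) (nat_lit 4) (nat_lit 420) (nat_lit 5) (nat_lit 420) (nat_lit 4) (nat_lit 372) (nat_lit 324) (nat_lit 324)))) (XT.nd (nat_lit 156) (nat_lit 2280) (nat_lit 0) (XT.nd (nat_lit 78) (nat_lit 1596) (nat_lit 0) (XT.lf (nat_lit 0) (nat_lit 4592664584) (nat_lit 836) (nat_lit 538240717) (nat_lit 0) (nat_lit 2463168648) (nat_lit 398) (nat_lit 5) (nat_lit 409) (nat_lit 4) (nat_lit 398) (nat_lit 4) (nat_lit 373) (nat_lit 324) (nat_lit 323)) (XT.lf (nat_lit 0) (nat_lit 1053175260) (nat_lit 760) (nat_lit 1545905421) (nat_lit 836) (nat_lit 5067209706) (nat_lit 377) (nat_lit 5) (nat_lit 387) (nat_lit 5) (nat_lit 388) (nat_lit 4) (nat_lit 374) (nat_lit 324) (nat_lit 322))) (XT.nd (nat_lit 78) (nat_lit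 1444) (nat_lit 0) (XT.lf (nat_lit 0) (nat_lit 518612988) (nat_lit 836) (nat_lit 5034972229) (nat_lit 76) (nat_lit 2187819675) (nat_lit 366) (nat_lit 5) (nat_lit 377) (nat_lit 5) (nat_lit 367) (nat_lit 4) (nat_lit 375) (nat_lit 324) (nat_lit 321)) (XT.nd (nat_lit 78) (nat_lit 760) (nat_lit 0) (XT.lf (nat_lit 0) (nat_lit 4407727991) (nat_lit 684) (nat_lit 1731320188) (nat_lit 760) (nat_lit 1680337140) (nat_lit 357) (nat_lit 5) (nat_lit 366) (nat_lit 5) (nat_lit 367) (nat_lit 4) (nat_lit 376) (nat_lit 324) (nat_lit 320)) (XT.lf (nat_lit 0) (nat_lit 3918362664) (nat_lit 760) (nat_lit 1739888075) (nat_lit 76) (nat_lit 2242075231) (nat_lit 347) (nat_lit 5) (nat_lit 357) (nat_lit 5) (nat_lit 348) (nat_lit 4) (nat_lit 377) (nat_lit 324) (nat_lit 319)))))) (XT.nd (nat_lit 390) (nat_lit 4028) (nat_lit 0) (XT.nd (nat_lit 156) (nat_lit 1976) (nat_lit 0) (XT.nd (nat_lit 78) (nat_lit 1292) (nat_lit 0) (XT.lf (nat_lit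 0) (nat_lit 1599610385) (nat_lit 760) (nat_lit 12643076) (nat_lit 76) (nat_lit 6372143141) (nat_lit 337) (nat_lit 5) (nat_lit 347) (nat_lit 5) (nat_lit 338) (nat_lit 5) (nat_lit 378) (nat_lit 324) (nat_lit 318)) (XT.lf (nat_lit 0) (nat_lit 1783564660) (nat_lit 608) (nat_lit 5474237499) (nat_lit 684) (nat_lit 813395375) (nat_lit 320) (nat_lit 5) (nat_lit 328) (nat_lit 5) (nat_lit 329) (nat_lit 4) (nat_lit 379) (nat_lit 324) (nat_lit 317))) (XT.nd (nat_lit 78) (nat_lit 1292) (nat_lit 0) (XT.lf (nat_lit 0) (nat_lit 3626998009) (nat_lit 608) (nat_lit 1181657462) (nat_lit 684) (nat_lit 3352345232) (nat_lit 311) (nat_lit 5) (nat_lit 319) (nat_lit 5) (nat_lit 320) (nat_lit 5) (nat_lit 380) (nat_lit 324) (nat_lit 316)) (XT.nd (nat_lit 78) (nat_lit 608) (nat_lit 0) (XT.lf (nat_lit 0) (nat_lit 2265741658) (nat_lit 684) (nat_lit 2735386651) (nat_lit 76) (nat_lit 3252730166) (nat_lit 302) (nat_lit 5) (nat_lit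 311) (nat_lit 5) (nat_lit 303) (nat_lit 5) (nat_lit 381) (nat_lit 324) (nat_lit 315)) (XT.lf (nat_lit 0) (nat_lit 7469690485) (nat_lit 608) (nat_lit 488449957) (nat_lit 684) (nat_lit 391892069) (nat_lit 294) (nat_lit 5) (nat_lit 302) (nat_lit 5) (nat_lit 303) (nat_lit 5) (nat_lit 382) (nat_lit 324) (nat_lit 314))))) (XT.nd (nat_lit 156) (nat_lit 2204) (nat_lit 0) (XT.nd (nat_lit 78) (nat_lit 608) (nat_lit 0) (XT.lf (nat_lit 0) (nat_lit 1013021039) (nat_lit 608) (nat_lit 4268603967) (nat_lit 684) (nat_lit 3167171897) (nat_lit 278) (nat_lit 5) (nat_lit 286) (nat_lit 5) (nat_lit 287) (nat_lit 5) (nat_lit 383) (nat_lit 324) (nat_lit 313)) (XT.lf (nat_lit 0) (nat_lit 2496773255) (nat_lit 608) (nat_lit 5570654510) (nat_lit 76) (nat_lit 483492540) (nat_lit 270) (nat_lit 5) (nat_lit 278) (nat_lit 5) (nat_lit 271) (nat_lit 5) (nat_lit 384) (nat_lit 324) (nat_lit 312))) (XT.nd (nat_lit 78) (nat_lit 1672) (nat_lit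 0) (XT.lf (nat_lit 0) (nat_lit 4985706934) (nat_lit 532) (nat_lit 3282168267) (nat_lit 608) (nat_lit 388208150) (nat_lit 263) (nat_lit 5) (nat_lit 270) (nat_lit 5) (nat_lit 271) (nat_lit 5) (nat_lit 385) (nat_lit 324) (nat_lit 311)) (XT.nd (nat_lit 78) (nat_lit 1064) (nat_lit 0) (XT.lf (nat_lit 0) (nat_lit 5341307765) (nat_lit 608) (nat_lit 1731427517) (nat_lit 76) (nat_lit 1691657673) (nat_lit 255) (nat_lit 5) (nat_lit 263) (nat_lit 5) (nat_lit 256) (nat_lit 5) (nat_lit 386) (nat_lit 324) (nat_lit 310)) (XT.lf (nat_lit 0) (nat_lit 256229239) (nat_lit 456) (nat_lit 2054684932) (nat_lit 532) (nat_lit 6565072667) (nat_lit 241) (nat_lit 5) (nat_lit 247) (nat_lit 5) (nat_lit 248) (nat_lit 5) (nat_lit 387) (nat_lit 324) (nat_lit 309))))))) (XT.nd (nat_lit 780) (nat_lit 4104) (nat_lit 0) (XT.nd (nat_lit 390) (nat_lit 2508) (nat_lit 0) (XT.nd (nat_lit 156) (nat_lit 1900) (nat_lit 0) (XT.nd (nat_lit 78)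 (nat_lit 532) (nat_lit 0) (XT.lf (nat_lit 0) (nat_lit 2309732506) (nat_lit 532) (nat_lit 5852407400) (nat_lit 608) (nat_lit 828501847) (nat_lit 234) (nat_lit 5) (nat_lit 241) (nat_lit 5) (nat_lit 242) (nat_lit 5) (nat_lit 388) (nat_lit 324) (nat_lit 308)) (XT.lf (nat_lit 0) (nat_lit 4403200703) (nat_lit 456) (nat_lit 585751084) (nat_lit 532) (nat_lit 4119616592) (nat_lit 227) (nat_lit 5) (nat_lit 233) (nat_lit 5) (nat_lit 234) (nat_lit 5) (nat_lit 389) (nat_lit 324) (nat_lit 307))) (XT.nd (nat_lit 78) (nat_lit 1368) (nat_lit 0) (XT.lf (nat_lit 0) (nat_lit 1712850255) (nat_lit 532) (nat_lit 2694560816) (nat_lit 76) (nat_lit 4822367939) (nat_lit 220) (nat_lit 5) (nat_lit 227) (nat_lit 5) (nat_lit 221) (nat_lit 5) (nat_lit 390) (nat_lit 324) (nat_lit 306)) (XT.nd (nat_lit 78) (nat_lit 912) (nat_lit 0) (XT.lf (nat_lit 0) (nat_lit 7642365986) (nat_lit 532) (nat_lit 638236132) (nat_lit 76) (nat_lit 1073918343)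 (nat_lit 214) (nat_lit 5) (nat_lit 221) (nat_lit 5) (nat_lit 215) (nat_lit 5) (nat_lit 391) (nat_lit 324) (nat_lit 305)) (XT.lf (nat_lit 0) (nat_lit 1464562356) (nat_lit 380) (nat_lit 2754736044) (nat_lit 456) (nat_lit 5262981805) (nat_lit 202) (nat_lit 5) (nat_lit 207) (nat_lit 5) (nat_lit 208) (nat_lit 5) (nat_lit 392) (nat_lit 324) (nat_lit 304))))) (XT.nd (nat_lit 156) (nat_lit 1596) (nat_lit 0) (XT.nd (nat_lit 78) (nat_lit 380) (nat_lit 0) (XT.lf (nat_lit 0) (nat_lit 678023376) (nat_lit 532) (nat_lit 5987439785) (nat_lit 76) (nat_lit 2948187220) (nat_lit 195) (nat_lit 5) (nat_lit 202) (nat_lit 5) (nat_lit 196) (nat_lit 5) (nat_lit 393) (nat_lit 324) (nat_lit 303)) (XT.lf (nat_lit 0) (nat_lit 5820383591) (nat_lit 380) (nat_lit 898181253) (nat_lit 456) (nat_lit 3029844861) (nat_lit 190) (nat_lit 5) (nat_lit 195) (nat_lit 5) (nat_lit 196) (nat_lit 5) (nat_lit 394) (nat_lit 324) (nat_lit 302)))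 (XT.nd (nat_lit 78) (nat_lit 1140) (nat_lit 0) (XT.lf (nat_lit 0) (nat_lit 3022459148) (nat_lit 456) (nat_lit 1838334009) (nat_lit 76) (nat_lit 5025834387) (nat_lit 184) (nat_lit 5) (nat_lit 190) (nat_lit 5) (nat_lit 185) (nat_lit 5) (nat_lit 395) (nat_lit 324) (nat_lit 301)) (XT.nd (nat_lit 78) (nat_lit 380) (nat_lit 0) (XT.lf (nat_lit 0) (nat_lit 305260291) (nat_lit 380) (nat_lit 8904267353) (nat_lit 456) (nat_lit 819176547) (nat_lit 174) (nat_lit 5) (nat_lit 179) (nat_lit 5) (nat_lit 180) (nat_lit 5) (nat_lit 396) (nat_lit 324) (nat_lit 300)) (XT.lf (nat_lit 0) (nat_lit 2490146950) (nat_lit 304) (nat_lit 2872220951) (nat_lit 380) (nat_lit 4811450722) (nat_lit 169) (nat_lit 5) (nat_lit 173) (nat_lit 5) (nat_lit 174) (nat_lit 5) (nat_lit 397) (nat_lit 324) (nat_lit 299)))))) (XT.nd (nat_lit 390) (nat_lit 1900) (nat_lit 0) (XT.nd (nat_lit 156) (nat_lit 1444) (nat_lit 0) (XT.nd (nat_lit 78) (nat_lit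 304) (nat_lit 0) (XT.lf (nat_lit 0) (nat_lit 1382024223) (nat_lit 456) (nat_lit 5598902438) (nat_lit 76) (nat_lit 3341964992) (nat_lit 163) (nat_lit 5) (nat_lit 169) (nat_lit 5) (nat_lit 164) (nat_lit 5) (nat_lit 398) (nat_lit 324) (nat_lit 298)) (XT.lf (nat_lit 0) (nat_lit 6992628227) (nat_lit 304) (nat_lit 708527753) (nat_lit 380) (nat_lit 2774540392) (nat_lit 159) (nat_lit 5) (nat_lit 163) (nat_lit 5) (nat_lit 164) (nat_lit 5) (nat_lit 399) (nat_lit 324) (nat_lit 297))) (XT.nd (nat_lit 78) (nat_lit 988) (nat_lit 0) (XT.lf (nat_lit 0) (nat_lit 3555522638) (nat_lit 456) (nat_lit 1345068307) (nat_lit 76) (nat_lit 5731516707) (nat_lit 153) (nat_lit 5) (nat_lit 159) (nat_lit 5) (nat_lit 154) (nat_lit 5) (nat_lit 400) (nat_lit 324) (nat_lit 296)) (XT.nd (nat_lit 78) (nat_lit 380) (nat_lit 0) (XT.lf (nat_lit 0) (nat_lit 853895790) (nat_lit 304) (nat_lit 9195089778) (nat_lit 380) (nat_lit 743635047) (nat_lit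 145) (nat_lit 5) (nat_lit 149) (nat_lit 5) (nat_lit 150) (nat_lit 5) (nat_lit 401) (nat_lit 324) (nat_lit 295)) (XT.lf (nat_lit 0) (nat_lit 3085070339) (nat_lit 304) (nat_lit 2652856098) (nat_lit 380) (nat_lit 5218583674) (nat_lit 140) (nat_lit 5) (nat_lit 144) (nat_lit 5) (nat_lit 145) (nat_lit 5) (nat_lit 402) (nat_lit 324) (nat_lit 294))))) (XT.nd (nat_lit 156) (nat_lit 1216) (nat_lit 0) (XT.nd (nat_lit 78) (nat_lit 304) (nat_lit 0) (XT.lf (nat_lit 0) (nat_lit 1283365288) (nat_lit 380) (nat_lit 5762827440) (nat_lit 76) (nat_lit 4078428808) (nat_lit 135) (nat_lit 5) (nat_lit 140) (nat_lit 5) (nat_lit 136) (nat_lit 5) (nat_lit 403) (nat_lit 324) (nat_lit 293)) (XT.lf (nat_lit 0) (nat_lit 7672458460) (nat_lit 304) (nat_lit 252091783) (nat_lit 380) (nat_lit 3372234610) (nat_lit 131) (nat_lit 5) (nat_lit 135) (nat_lit 5) (nat_lit 136) (nat_lit 5) (nat_lit 404) (nat_lit 324) (nat_lit 292))) (XT.nd (nat_lit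 78) (nat_lit 836) (nat_lit 0) (XT.lf (nat_lit 0) (nat_lit 3291123508) (nat_lit 380) (nat_lit 1468078870) (nat_lit 76) (nat_lit 6713614844) (nat_lit 126) (nat_lit 5) (nat_lit 131) (nat_lit 5) (nat_lit 127) (nat_lit 5) (nat_lit 405) (nat_lit 324) (nat_lit 291)) (XT.nd (nat_lit 78) (nat_lit 304) (nat_lit 0) (XT.lf (nat_lit 0) (nat_lit 742665650) (nat_lit 304) (nat_lit 9388953902) (nat_lit 380) (nat_lit 1521604147) (nat_lit 119) (nat_lit 5) (nat_lit 123) (nat_lit 5) (nat_lit 124) (nat_lit 5) (nat_lit 406) (nat_lit 324) (nat_lit 290)) (XT.lf (nat_lit 0) (nat_lit 2991464707) (nat_lit 228) (nat_lit 2322337623) (nat_lit 304) (nat_lit 6523636310) (nat_lit 115) (nat_lit 5) (nat_lit 118) (nat_lit 5) (nat_lit 119) (nat_lit 5) (nat_lit 407) (nat_lit 324) (nat_lit 289))))))))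
noncomputable def xc22 : XT := (XT.nd (nat_lit 1482) (nat_lit 532) (nat_lit 0) (XT.nd (nat_lit 702) (nat_lit 2736) (nat_lit 0) (XT.nd (nat_lit 312) (nat_lit 1596) (nat_lit 0) (XT.nd (nat_lit 156) (nat_lit 608) (nat_lit 0) (XT.nd (nat_lit 78) (nat_lit 228) (nat_lit 0) (XT.lf (nat_lit 0) (nat_lit 341096569) (nat_lit 380) (nat_lit 6744414114) (nat_lit 76) (nat_lit 4940658405) (nat_lit 110) (nat_lit 5) (nat_lit 115) (nat_lit 5) (nat_lit 111) (nat_lit 5) (nat_lit 408) (nat_lit 324) (nat_lit 288)) (XT.lf (nat_lit 0) (nat_lit 7348917285) (nat_lit 304) (nat_lit 4620786618) (nat_lit 76) (nat_lit 249479594) (nat_lit 107) (nat_lit 5) (nat_lit 111) (nat_lit 5) (nat_lit 108) (nat_lit 5) (nat_lit 409) (nat_lit 324) (nat_lit 287))) (XT.nd (nat_lit 78) (nat_lit 228) (nat_lit 0) (XT.lf (nat_lit 0) (nat_lit 2178996076) (nat_lit 380) (nat_lit 2475318054) (nat_lit 76) (nat_lit 7762231233) (nat_lit 102) (nat_lit 5) (nat_lit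 107) (nat_lit 5) (nat_lit 103) (nat_lit 5) (nat_lit 410) (nat_lit 324) (nat_lit 286)) (XT.lf (nat_lit 0) (nat_lit 9405714235) (nat_lit 304) (nat_lit 297150617) (nat_lit 76) (nat_lit 2915676466) (nat_lit 99) (nat_lit 5) (nat_lit 103) (nat_lit 5) (nat_lit 100) (nat_lit 5) (nat_lit 411) (nat_lit 324) (nat_lit 285)))) (XT.nd (nat_lit 156) (nat_lit 836) (nat_lit 0) (XT.nd (nat_lit 78) (nat_lit 228) (nat_lit 0) (XT.lf (nat_lit 0) (nat_lit 1934297096) (nat_lit 228) (nat_lit 2094552307) (nat_lit 304) (nat_lit 8796045993) (nat_lit 92) (nat_lit 5) (nat_lit 95) (nat_lit 5) (nat_lit 96) (nat_lit 5) (nat_lit 412) (nat_lit 324) (nat_lit 284)) (XT.lf (nat_lit 0) (nat_lit 4197581095) (nat_lit 228) (nat_lit 7303278225) (nat_lit 304) (nat_lit 1535021382) (nat_lit 89) (nat_lit 5) (nat_lit 92) (nat_lit 5) (nat_lit 93) (nat_lit 5) (nat_lit 413) (nat_lit 324) (nat_lit 283))) (XT.nd (nat_lit 78) (nat_lit 532) (nat_lit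 0) (XT.lf (nat_lit 0) (nat_lit 5903124452) (nat_lit 304) (nat_lit 6759431945) (nat_lit 76) (nat_lit 589122446) (nat_lit 85) (nat_lit 5) (nat_lit 89) (nat_lit 5) (nat_lit 86) (nat_lit 5) (nat_lit 414) (nat_lit 324) (nat_lit 282)) (XT.nd (nat_lit 78) (nat_lit 228) (nat_lit 0) (XT.lf (nat_lit 0) (nat_lit 140006913) (nat_lit 304) (nat_lit 4656503303) (nat_lit 76) (nat_lit 8675806502) (nat_lit 81) (nat_lit 5) (nat_lit 85) (nat_lit 5) (nat_lit 82) (nat_lit 5) (nat_lit 415) (nat_lit 324) (nat_lit 281)) (XT.lf (nat_lit 0) (nat_lit 7799979735) (nat_lit 304) (nat_lit 2539644416) (nat_lit 76) (nat_lit 3358046245) (nat_lit 78) (nat_lit 5) (nat_lit 82) (nat_lit 5) (nat_lit 79) (nat_lit 5) (nat_lit 416) (nat_lit 324) (nat_lit 280)))))) (XT.nd (nat_lit 390) (nat_lit 1368) (nat_lit 0) (XT.nd (nat_lit 156) (nat_lit 684) (nat_lit 0) (XT.nd (nat_lit 78) (nat_lit 380) (nat_lit 0) (XT.lf (nat_lit 0) (nat_lit 1795588948)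 (nat_lit 304) (nat_lit 380762967) (nat_lit 76) (nat_lit 11752030148) (nat_lit 74) (nat_lit 5) (nat_lit 78) (nat_lit 5) (nat_lit 75) (nat_lit 5) (nat_lit 417) (nat_lit 324) (nat_lit 279)) (XT.lf (nat_lit 0) (nat_lit 1808809115) (nat_lit 228) (nat_lit 7912612996) (nat_lit 304) (nat_lit 4442175662) (nat_lit 69) (nat_lit 5) (nat_lit 72) (nat_lit 5) (nat_lit 73) (nat_lit 5) (nat_lit 418) (nat_lit 324) (nat_lit 278))) (XT.nd (nat_lit 78) (nat_lit 456) (nat_lit 0) (XT.lf (nat_lit 0) (nat_lit 3485345208) (nat_lit 228) (nat_lit 10353246309) (nat_lit 76) (nat_lit 565790362) (nat_lit 66) (nat_lit 5) (nat_lit 69) (nat_lit 5) (nat_lit 67) (nat_lit 5) (nat_lit 419) (nat_lit 324) (nat_lit 277)) (XT.nd (nat_lit 78) (nat_lit 228) (nat_lit 0) (XT.lf (nat_lit 0) (nat_lit 6300417787) (nat_lit 228) (nat_lit 5376475132) (nat_lit 304) (nat_lit 2973178276) (nat_lit 63) (nat_lit 5) (nat_lit 66) (nat_lit 5) (nat_lit 67) (nat_lit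 5) (nat_lit 420) (nat_lit 324) (nat_lit 276)) (XT.lf (nat_lit 0) (nat_lit 5200604825) (nat_lit 228) (nat_lit 6316914921) (nat_lit 76) (nat_lit 3383776912) (nat_lit 60) (nat_lit 5) (nat_lit 63) (nat_lit 5) (nat_lit 61) (nat_lit 5) (nat_lit 421) (nat_lit 324) (nat_lit 275))))) (XT.nd (nat_lit 156) (nat_lit 912) (nat_lit 0) (XT.nd (nat_lit 78) (nat_lit 228) (nat_lit 0) (XT.lf (nat_lit 0) (nat_lit 10904800216) (nat_lit 228) (nat_lit 2748591455) (nat_lit 304) (nat_lit 1504790478) (nat_lit 57) (nat_lit 5) (nat_lit 60) (nat_lit 5) (nat_lit 61) (nat_lit 5) (nat_lit 422) (nat_lit 324) (nat_lit 274)) (XT.lf (nat_lit 0) (nat_lit 6927981553) (nat_lit 228) (nat_lit 2188380523) (nat_lit 76) (nat_lit 6303871871) (nat_lit 54) (nat_lit 5) (nat_lit 57) (nat_lit 5) (nat_lit 55) (nat_lit 5) (nat_lit 423) (nat_lit 324) (nat_lit 273))) (XT.nd (nat_lit 78) (nat_lit 684) (nat_lit 0) (XT.lf (nat_lit 0) (nat_lit 15625623505)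 (nat_lit 228) (nat_lit 28937023) (nat_lit 304) (nat_lit 34162476) (nat_lit 51) (nat_lit 5) (nat_lit 54) (nat_lit 5) (nat_lit 55) (nat_lit 5) (nat_lit 424) (nat_lit 324) (nat_lit 272)) (XT.nd (nat_lit 78) (nat_lit 228) (nat_lit 0) (XT.lf (nat_lit 0) (nat_lit 2062398963) (nat_lit 228) (nat_lit 6621657446) (nat_lit 304) (nat_lit 7277679590) (nat_lit 45) (nat_lit 5) (nat_lit 48) (nat_lit 5) (nat_lit 49) (nat_lit 5) (nat_lit 425) (nat_lit 324) (nat_lit 271)) (XT.lf (nat_lit 0) (nat_lit 1468605346) (nat_lit 228) (nat_lit 11989111380) (nat_lit 76) (nat_lit 2783697465) (nat_lit 42) (nat_lit 5) (nat_lit 45) (nat_lit 5) (nat_lit 43) (nat_lit 5) (nat_lit 426) (nat_lit 324) (nat_lit 270))))))) (XT.nd (nat_lit 49218) (nat_lit 0) (nat_lit 16720) (XT.nd (nat_lit 48828) (nat_lit 0) (nat_lit 24396) (XT.nd (nat_lit 156) (nat_lit 152) (nat_lit 0) (XT.nd (nat_lit 78) (nat_lit 228) (nat_lit 0) (XT.lf (nat_lit 0) (nat_lit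 6442014634) (nat_lit 152) (nat_lit 4031596353) (nat_lit 228) (nat_lit 6053005485) (nat_lit 40) (nat_lit 5) (nat_lit 42) (nat_lit 5) (nat_lit 43) (nat_lit 5) (nat_lit 427) (nat_lit 324) (nat_lit 269)) (XT.lf (nat_lit 0) (nat_lit 2980382613) (nat_lit 228) (nat_lit 8148865344) (nat_lit 76) (nat_lit 5688938665) (nat_lit 37) (nat_lit 5) (nat_lit 40) (nat_lit 5) (nat_lit 38) (nat_lit 5) (nat_lit 428) (nat_lit 324) (nat_lit 268))) (XT.nd (nat_lit 48516) (nat_lit 0) (nat_lit 29260) (XT.lf (nat_lit 0) (nat_lit 10924932514) (nat_lit 152) (nat_lit 1360413359) (nat_lit 228) (nat_lit 4830701591) (nat_lit 35) (nat_lit 5) (nat_lit 37) (nat_lit 5) (nat_lit 38) (nat_lit 5) (nat_lit 429) (nat_lit 324) (nat_lit 267)) (XT.nd (nat_lit 78) (nat_lit 912) (nat_lit 0) (XT.lf (nat_lit 0) (nat_lit 1271110934) (nat_lit 912) (nat_lit 1212758711) (nat_lit 912) (nat_lit 1212758711) (nat_lit 432) (nat_lit 4) (nat_lit 444) (nat_lit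 5) (nat_lit 444) (nat_lit 4) (nat_lit 370) (nat_lit 325) (nat_lit 325)) (XT.lf (nat_lit 0) (nat_lit 3084538648) (nat_lit 912) (nat_lit 3526461517) (nat_lit 0) (nat_lit 847290218) (nat_lit 420) (nat_lit 5) (nat_lit 432) (nat_lit 4) (nat_lit 420) (nat_lit 4) (nat_lit 371) (nat_lit 325) (nat_lit 324))))) (XT.nd (nat_lit 156) (nat_lit 3192) (nat_lit 0) (XT.nd (nat_lit 78) (nat_lit 760) (nat_lit 0) (XT.lf (nat_lit 0) (nat_lit 1117493611) (nat_lit 912) (nat_lit 2151997188) (nat_lit 76) (nat_lit 4256682145) (nat_lit 408) (nat_lit 5) (nat_lit 420) (nat_lit 5) (nat_lit 409) (nat_lit 4) (nat_lit 372) (nat_lit 325) (nat_lit 323)) (XT.lf (nat_lit 0) (nat_lit 6634337030) (nat_lit 836) (nat_lit 718782587) (nat_lit 0) (nat_lit 243988499) (nat_lit 398) (nat_lit 5) (nat_lit 409) (nat_lit 4) (nat_lit 398) (nat_lit 4) (nat_lit 373) (nat_lit 325) (nat_lit 322))) (XT.nd (nat_lit 78) (nat_lit 1596) (nat_lit 0) (XT.lf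 (nat_lit 0) (nat_lit 761652249) (nat_lit 760) (nat_lit 3772632373) (nat_lit 836) (nat_lit 3136309154) (nat_lit 377) (nat_lit 5) (nat_lit 387) (nat_lit 5) (nat_lit 388) (nat_lit 4) (nat_lit 374) (nat_lit 325) (nat_lit 321)) (XT.nd (nat_lit 78) (nat_lit 760) (nat_lit 0) (XT.lf (nat_lit 0) (nat_lit 2319483103) (nat_lit 760) (nat_lit 15198120) (nat_lit 836) (nat_lit 5412566486) (nat_lit 366) (nat_lit 5) (nat_lit 376) (nat_lit 5) (nat_lit 377) (nat_lit 5) (nat_lit 375) (nat_lit 325) (nat_lit 320)) (XT.lf (nat_lit 0) (nat_lit 53373553) (nat_lit 760) (nat_lit 3906308571) (nat_lit 76) (nat_lit 3867025371) (nat_lit 356) (nat_lit 5) (nat_lit 366) (nat_lit 5) (nat_lit 357) (nat_lit 5) (nat_lit 376) (nat_lit 325) (nat_lit 319)))))) (XT.nd (nat_lit 390) (nat_lit 3572) (nat_lit 0) (XT.nd (nat_lit 156) (nat_lit 2660) (nat_lit 0) (XT.nd (nat_lit 78) (nat_lit 760) (nat_lit 0) (XT.lf (nat_lit 0) (nat_lit 5541589014)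 (nat_lit 760) (nat_lit 2334771996) (nat_lit 76) (nat_lit 32837868) (nat_lit 347) (nat_lit 5) (nat_lit 357) (nat_lit 5) (nat_lit 348) (nat_lit 4) (nat_lit 377) (nat_lit 325) (nat_lit 318)) (XT.lf (nat_lit 0) (nat_lit 3119176078) (nat_lit 760) (nat_lit 724159080) (nat_lit 76) (nat_lit 4151197026) (nat_lit 337) (nat_lit 5) (nat_lit 347) (nat_lit 5) (nat_lit 338) (nat_lit 5) (nat_lit 378) (nat_lit 325) (nat_lit 317))) (XT.nd (nat_lit 78) (nat_lit 1292) (nat_lit 0) (XT.lf (nat_lit 0) (nat_lit 593447990) (nat_lit 684) (nat_lit 7120029644) (nat_lit 76) (nat_lit 369634262) (nat_lit 319) (nat_lit 5) (nat_lit 328) (nat_lit 5) (nat_lit 320) (nat_lit 5) (nat_lit 379) (nat_lit 325) (nat_lit 316)) (XT.nd (nat_lit 78) (nat_lit 684) (nat_lit 0) (XT.lf (nat_lit 0) (nat_lit 2688454070) (nat_lit 608) (nat_lit 3442917227) (nat_lit 684) (nat_lit 2042907340) (nat_lit 311) (nat_lit 5) (nat_lit 319) (nat_lit 5) (nat_lit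 320) (nat_lit 5) (nat_lit 380) (nat_lit 325) (nat_lit 315)) (XT.lf (nat_lit 0) (nat_lit 3469891495) (nat_lit 684) (nat_lit 3797407421) (nat_lit 76) (nat_lit 1001429751) (nat_lit 302) (nat_lit 5) (nat_lit 311) (nat_lit 5) (nat_lit 303) (nat_lit 5) (nat_lit 381) (nat_lit 325) (nat_lit 314))))) (XT.nd (nat_lit 156) (nat_lit 2356) (nat_lit 0) (XT.nd (nat_lit 78) (nat_lit 532) (nat_lit 0) (XT.lf (nat_lit 0) (nat_lit 713709536) (nat_lit 684) (nat_lit 2066398637) (nat_lit 76) (nat_lit 5586155389) (nat_lit 293) (nat_lit 5) (nat_lit 302) (nat_lit 5) (nat_lit 294) (nat_lit 5) (nat_lit 382) (nat_lit 325) (nat_lit 313)) (XT.lf (nat_lit 0) (nat_lit 6287790905) (nat_lit 608) (nat_lit 295553333) (nat_lit 76) (nat_lit 1883518748) (nat_lit 286) (nat_lit 5) (nat_lit 294) (nat_lit 5) (nat_lit 287) (nat_lit 5) (nat_lit 383) (nat_lit 325) (nat_lit 312))) (XT.nd (nat_lit 78) (nat_lit 1140) (nat_lit 0) (XT.lf (nat_lit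 0) (nat_lit 1538682513) (nat_lit 532) (nat_lit 1854627058) (nat_lit 608) (nat_lit 5177120596) (nat_lit 270) (nat_lit 5) (nat_lit 277) (nat_lit 5) (nat_lit 278) (nat_lit 5) (nat_lit 384) (nat_lit 325) (nat_lit 311)) (XT.nd (nat_lit 78) (nat_lit 532) (nat_lit 0) (XT.lf (nat_lit 0) (nat_lit 396740184) (nat_lit 608) (nat_lit 5252206652) (nat_lit 76) (nat_lit 3028296245) (nat_lit 262) (nat_lit 5) (nat_lit 270) (nat_lit 5) (nat_lit 263) (nat_lit 5) (nat_lit 385) (nat_lit 325) (nat_lit 310)) (XT.lf (nat_lit 0) (nat_lit 5349831264) (nat_lit 532) (nat_lit 687115375) (nat_lit 608) (nat_lit 2750239997) (nat_lit 255) (nat_lit 5) (nat_lit 262) (nat_lit 5) (nat_lit 263) (nat_lit 5) (nat_lit 386) (nat_lit 325) (nat_lit 309))))))))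
noncomputable def xc23 : XT := (XT.nd (nat_lit 1560) (nat_lit 5928) (nat_lit 0) (XT.nd (nat_lit 780) (nat_lit 4256) (nat_lit 0) (XT.nd (nat_lit 390) (nat_lit 2660) (nat_lit 0) (XT.nd (nat_lit 156) (nat_lit 1520) (nat_lit 0) (XT.nd (nat_lit 78) (nat_lit 988) (nat_lit 0) (XT.lf (nat_lit 0) (nat_lit 2895522143) (nat_lit 608) (nat_lit 1588104175) (nat_lit 76) (nat_lit 4416655086) (nat_lit 247) (nat_lit 5) (nat_lit 255) (nat_lit 5) (nat_lit 248) (nat_lit 5) (nat_lit 387) (nat_lit 325) (nat_lit 308)) (XT.lf (nat_lit 0) (nat_lit 320431544) (nat_lit 532) (nat_lit 8326178937) (nat_lit 608) (nat_lit 370328586) (nat_lit 234) (nat_lit 5) (nat_lit 241) (nat_lit 5) (nat_lit 242) (nat_lit 5) (nat_lit 388) (nat_lit 325) (nat_lit 307))) (XT.nd (nat_lit 78) (nat_lit 988) (nat_lit 0) (XT.lf (nat_lit 0) (nat_lit 2268164540) (nat_lit 456) (nat_lit 3098965483) (nat_lit 532) (nat_lit 3769155894) (nat_lit 227) (nat_lit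 5) (nat_lit 233) (nat_lit 5) (nat_lit 234) (nat_lit 5) (nat_lit 389) (nat_lit 325) (nat_lit 306)) (XT.nd (nat_lit 78) (nat_lit 456) (nat_lit 0) (XT.lf (nat_lit 0) (nat_lit 1967979660) (nat_lit 532) (nat_lit 4989913568) (nat_lit 76) (nat_lit 2301372510) (nat_lit 220) (nat_lit 5) (nat_lit 227) (nat_lit 5) (nat_lit 221) (nat_lit 5) (nat_lit 390) (nat_lit 325) (nat_lit 305)) (XT.lf (nat_lit 0) (nat_lit 6309102764) (nat_lit 456) (nat_lit 1507307282) (nat_lit 532) (nat_lit 1569218848) (nat_lit 214) (nat_lit 5) (nat_lit 220) (nat_lit 5) (nat_lit 221) (nat_lit 5) (nat_lit 391) (nat_lit 325) (nat_lit 304))))) (XT.nd (nat_lit 156) (nat_lit 1216) (nat_lit 0) (XT.nd (nat_lit 78) (nat_lit 912) (nat_lit 0) (XT.lf (nat_lit 0) (nat_lit 4266571149) (nat_lit 532) (nat_lit 1136644377) (nat_lit 76) (nat_lit 4112030319) (nat_lit 207) (nat_lit 5) (nat_lit 214) (nat_lit 5) (nat_lit 208) (nat_lit 5) (nat_lit 392) (nat_lit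 325) (nat_lit 303)) (XT.lf (nat_lit 0) (nat_lit 591449687) (nat_lit 532) (nat_lit 8778520483) (nat_lit 76) (nat_lit 278657855) (nat_lit 195) (nat_lit 5) (nat_lit 202) (nat_lit 5) (nat_lit 196) (nat_lit 5) (nat_lit 393) (nat_lit 325) (nat_lit 302))) (XT.nd (nat_lit 78) (nat_lit 836) (nat_lit 0) (XT.lf (nat_lit 0) (nat_lit 2903378535) (nat_lit 380) (nat_lit 3652999095) (nat_lit 456) (nat_lit 3228521991) (nat_lit 190) (nat_lit 5) (nat_lit 195) (nat_lit 5) (nat_lit 196) (nat_lit 5) (nat_lit 394) (nat_lit 325) (nat_lit 301)) (XT.nd (nat_lit 78) (nat_lit 380) (nat_lit 0) (XT.lf (nat_lit 0) (nat_lit 2732212688) (nat_lit 456) (nat_lit 4937722972) (nat_lit 76) (nat_lit 2255091099) (nat_lit 184) (nat_lit 5) (nat_lit 190) (nat_lit 5) (nat_lit 185) (nat_lit 5) (nat_lit 395) (nat_lit 325) (nat_lit 300)) (XT.lf (nat_lit 0) (nat_lit 7109329887) (nat_lit 380) (nat_lit 1724548106) (nat_lit 456) (nat_lit 1234933476)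 (nat_lit 179) (nat_lit 5) (nat_lit 184) (nat_lit 5) (nat_lit 185) (nat_lit 5) (nat_lit 396) (nat_lit 325) (nat_lit 299)))))) (XT.nd (nat_lit 390) (nat_lit 1976) (nat_lit 0) (XT.nd (nat_lit 156) (nat_lit 1064) (nat_lit 0) (XT.nd (nat_lit 78) (nat_lit 760) (nat_lit 0) (XT.lf (nat_lit 0) (nat_lit 4849944781) (nat_lit 456) (nat_lit 960881785) (nat_lit 76) (nat_lit 4405195701) (nat_lit 173) (nat_lit 5) (nat_lit 179) (nat_lit 5) (nat_lit 174) (nat_lit 5) (nat_lit 397) (nat_lit 325) (nat_lit 298)) (XT.lf (nat_lit 0) (nat_lit 730710403) (nat_lit 456) (nat_lit 9260668537) (nat_lit 76) (nat_lit 375867598) (nat_lit 163) (nat_lit 5) (nat_lit 169) (nat_lit 5) (nat_lit 164) (nat_lit 5) (nat_lit 398) (nat_lit 325) (nat_lit 297))) (XT.nd (nat_lit 78) (nat_lit 760) (nat_lit 0) (XT.lf (nat_lit 0) (nat_lit 3194477302) (nat_lit 304) (nat_lit 3777057176) (nat_lit 380) (nat_lit 3550082934) (nat_lit 159) (nat_lit 5) (nat_lit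 163) (nat_lit 5) (nat_lit 164) (nat_lit 5) (nat_lit 399) (nat_lit 325) (nat_lit 296)) (XT.nd (nat_lit 78) (nat_lit 304) (nat_lit 0) (XT.lf (nat_lit 0) (nat_lit 2691002355) (nat_lit 456) (nat_lit 5349393057) (nat_lit 76) (nat_lit 2639716970) (nat_lit 153) (nat_lit 5) (nat_lit 159) (nat_lit 5) (nat_lit 154) (nat_lit 5) (nat_lit 400) (nat_lit 325) (nat_lit 295)) (XT.lf (nat_lit 0) (nat_lit 7502130761) (nat_lit 304) (nat_lit 1587208715) (nat_lit 380) (nat_lit 1753188383) (nat_lit 149) (nat_lit 5) (nat_lit 153) (nat_lit 5) (nat_lit 154) (nat_lit 5) (nat_lit 401) (nat_lit 325) (nat_lit 294))))) (XT.nd (nat_lit 156) (nat_lit 912) (nat_lit 0) (XT.nd (nat_lit 78) (nat_lit 684) (nat_lit 0) (XT.lf (nat_lit 0) (nat_lit 4636815008) (nat_lit 380) (nat_lit 1313973978) (nat_lit 76) (nat_lit 5057855436) (nat_lit 144) (nat_lit 5) (nat_lit 149) (nat_lit 5) (nat_lit 145) (nat_lit 5) (nat_lit 402) (nat_lit 325) (nat_lit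 293)) (XT.lf (nat_lit 0) (nat_lit 32978524) (nat_lit 380) (nat_lit 10402515722) (nat_lit 76) (nat_lit 743656673) (nat_lit 135) (nat_lit 5) (nat_lit 140) (nat_lit 5) (nat_lit 136) (nat_lit 5) (nat_lit 403) (nat_lit 325) (nat_lit 292))) (XT.nd (nat_lit 78) (nat_lit 608) (nat_lit 0) (XT.lf (nat_lit 0) (nat_lit 2884735061) (nat_lit 304) (nat_lit 3707372637) (nat_lit 380) (nat_lit 4760847655) (nat_lit 131) (nat_lit 5) (nat_lit 135) (nat_lit 5) (nat_lit 136) (nat_lit 5) (nat_lit 404) (nat_lit 325) (nat_lit 291)) (XT.nd (nat_lit 78) (nat_lit 228) (nat_lit 0) (XT.lf (nat_lit 0) (nat_lit 1815066064) (nat_lit 380) (nat_lit 6487938375) (nat_lit 76) (nat_lit 3228276723) (nat_lit 126) (nat_lit 5) (nat_lit 131) (nat_lit 5) (nat_lit 127) (nat_lit 5) (nat_lit 405) (nat_lit 325) (nat_lit 290)) (XT.lf (nat_lit 0) (nat_lit 7229793594) (nat_lit 228) (nat_lit 1322850353) (nat_lit 304) (nat_lit 3161102057) (nat_lit 123)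 (nat_lit 5) (nat_lit 126) (nat_lit 5) (nat_lit 127) (nat_lit 5) (nat_lit 406) (nat_lit 325) (nat_lit 289))))))) (XT.nd (nat_lit 780) (nat_lit 2508) (nat_lit 0) (XT.nd (nat_lit 390) (nat_lit 1596) (nat_lit 0) (XT.nd (nat_lit 156) (nat_lit 1216) (nat_lit 0) (XT.nd (nat_lit 78) (nat_lit 228) (nat_lit 0) (XT.lf (nat_lit 0) (nat_lit 3588260839) (nat_lit 380) (nat_lit 2460750943) (nat_lit 76) (nat_lit 5851312975) (nat_lit 118) (nat_lit 5) (nat_lit 123) (nat_lit 5) (nat_lit 119) (nat_lit 5) (nat_lit 407) (nat_lit 325) (nat_lit 288)) (XT.lf (nat_lit 0) (nat_lit 10522344991) (nat_lit 304) (nat_lit 393545185) (nat_lit 76) (nat_lit 1175689053) (nat_lit 115) (nat_lit 5) (nat_lit 119) (nat_lit 5) (nat_lit 116) (nat_lit 5) (nat_lit 408) (nat_lit 325) (nat_lit 287))) (XT.nd (nat_lit 78) (nat_lit 608) (nat_lit 0) (XT.lf (nat_lit 0) (nat_lit 1703207284) (nat_lit 228) (nat_lit 3664841558) (nat_lit 304) (nat_lit 6918570932)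 (nat_lit 107) (nat_lit 5) (nat_lit 110) (nat_lit 5) (nat_lit 111) (nat_lit 5) (nat_lit 409) (nat_lit 325) (nat_lit 286)) (XT.nd (nat_lit 78) (nat_lit 228) (nat_lit 0) (XT.lf (nat_lit 0) (nat_lit 45475840) (nat_lit 380) (nat_lit 8632913819) (nat_lit 76) (nat_lit 3808099548) (nat_lit 102) (nat_lit 5) (nat_lit 107) (nat_lit 5) (nat_lit 103) (nat_lit 5) (nat_lit 410) (nat_lit 325) (nat_lit 285)) (XT.lf (nat_lit 0) (nat_lit 6018044020) (nat_lit 228) (nat_lit 1146539403) (nat_lit 304) (nat_lit 5526053950) (nat_lit 99) (nat_lit 5) (nat_lit 102) (nat_lit 5) (nat_lit 103) (nat_lit 5) (nat_lit 411) (nat_lit 325) (nat_lit 284))))) (XT.nd (nat_lit 156) (nat_lit 1064) (nat_lit 0) (XT.nd (nat_lit 78) (nat_lit 228) (nat_lit 0) (XT.lf (nat_lit 0) (nat_lit 1636139050) (nat_lit 304) (nat_lit 4684913791) (nat_lit 76) (nat_lit 6578435428) (nat_lit 95) (nat_lit 5) (nat_lit 99) (nat_lit 5) (nat_lit 96) (nat_lit 5) (nat_lit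 412) (nat_lit 325) (nat_lit 283)) (XT.lf (nat_lit 0) (nat_lit 8975454174) (nat_lit 304) (nat_lit 2669335793) (nat_lit 76) (nat_lit 1468337505) (nat_lit 92) (nat_lit 5) (nat_lit 96) (nat_lit 5) (nat_lit 93) (nat_lit 5) (nat_lit 413) (nat_lit 325) (nat_lit 282))) (XT.nd (nat_lit 78) (nat_lit 760) (nat_lit 0) (XT.lf (nat_lit 0) (nat_lit 3224435057) (nat_lit 304) (nat_lit 634076460) (nat_lit 76) (nat_lit 9472955493) (nat_lit 88) (nat_lit 5) (nat_lit 92) (nat_lit 5) (nat_lit 89) (nat_lit 5) (nat_lit 414) (nat_lit 325) (nat_lit 281)) (XT.nd (nat_lit 78) (nat_lit 304) (nat_lit 0) (XT.lf (nat_lit 0) (nat_lit 1449128074) (nat_lit 228) (nat_lit 9363457878) (nat_lit 304) (nat_lit 2741995902) (nat_lit 82) (nat_lit 5) (nat_lit 85) (nat_lit 5) (nat_lit 86) (nat_lit 5) (nat_lit 415) (nat_lit 325) (nat_lit 280)) (XT.lf (nat_lit 0) (nat_lit 3568847542) (nat_lit 228) (nat_lit 1268254527) (nat_lit 304) (nat_lit 8945526251)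 (nat_lit 78) (nat_lit 5) (nat_lit 81) (nat_lit 5) (nat_lit 82) (nat_lit 5) (nat_lit 416) (nat_lit 325) (nat_lit 279)))))) (XT.nd (nat_lit 390) (nat_lit 1292) (nat_lit 0) (XT.nd (nat_lit 156) (nat_lit 760) (nat_lit 0) (XT.nd (nat_lit 78) (nat_lit 228) (nat_lit 0) (XT.lf (nat_lit 0) (nat_lit 5710736273) (nat_lit 228) (nat_lit 6970514813) (nat_lit 304) (nat_lit 1334403984) (nat_lit 75) (nat_lit 5) (nat_lit 78) (nat_lit 5) (nat_lit 79) (nat_lit 5) (nat_lit 417) (nat_lit 325) (nat_lit 278)) (XT.lf (nat_lit 0) (nat_lit 6468582109) (nat_lit 228) (nat_lit 6373654440) (nat_lit 76) (nat_lit 1411614466) (nat_lit 72) (nat_lit 5) (nat_lit 75) (nat_lit 5) (nat_lit 73) (nat_lit 5) (nat_lit 418) (nat_lit 325) (nat_lit 277))) (XT.nd (nat_lit 78) (nat_lit 456) (nat_lit 0) (XT.lf (nat_lit 0) (nat_lit 69338598) (nat_lit 304) (nat_lit 4414896509) (nat_lit 76) (nat_lit 10013169299) (nat_lit 68) (nat_lit 5) (nat_lit 72)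 (nat_lit 5) (nat_lit 69) (nat_lit 5) (nat_lit 419) (nat_lit 325) (nat_lit 276)) (XT.nd (nat_lit 78) (nat_lit 304) (nat_lit 0) (XT.lf (nat_lit 0) (nat_lit 8117681275) (nat_lit 228) (nat_lit 2450927344) (nat_lit 76) (nat_lit 4177349203) (nat_lit 66) (nat_lit 5) (nat_lit 69) (nat_lit 5) (nat_lit 67) (nat_lit 5) (nat_lit 420) (nat_lit 325) (nat_lit 275)) (XT.lf (nat_lit 0) (nat_lit 1455606611) (nat_lit 304) (nat_lit 441080679) (nat_lit 76) (nat_lit 13103727367) (nat_lit 62) (nat_lit 5) (nat_lit 66) (nat_lit 5) (nat_lit 63) (nat_lit 5) (nat_lit 421) (nat_lit 325) (nat_lit 274))))) (XT.nd (nat_lit 156) (nat_lit 684) (nat_lit 0) (XT.nd (nat_lit 78) (nat_lit 228) (nat_lit 0) (XT.lf (nat_lit 0) (nat_lit 1586073883) (nat_lit 228) (nat_lit 8203653242) (nat_lit 304) (nat_lit 5469946350) (nat_lit 57) (nat_lit 5) (nat_lit 60) (nat_lit 5) (nat_lit 61) (nat_lit 5) (nat_lit 422) (nat_lit 325) (nat_lit 273)) (XT.lf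 (nat_lit 0) (nat_lit 2873826652) (nat_lit 228) (nat_lit 11854241669) (nat_lit 76) (nat_lit 796991894) (nat_lit 54) (nat_lit 5) (nat_lit 57) (nat_lit 5) (nat_lit 55) (nat_lit 5) (nat_lit 423) (nat_lit 325) (nat_lit 272))) (XT.nd (nat_lit 78) (nat_lit 456) (nat_lit 0) (XT.lf (nat_lit 0) (nat_lit 5753298972) (nat_lit 228) (nat_lit 5741067876) (nat_lit 304) (nat_lit 4301303200) (nat_lit 51) (nat_lit 5) (nat_lit 54) (nat_lit 5) (nat_lit 55) (nat_lit 5) (nat_lit 424) (nat_lit 325) (nat_lit 271)) (XT.nd (nat_lit 78) (nat_lit 228) (nat_lit 0) (XT.lf (nat_lit 0) (nat_lit 4314099343) (nat_lit 228) (nat_lit 8197486509) (nat_lit 76) (nat_lit 3560826907) (nat_lit 48) (nat_lit 5) (nat_lit 51) (nat_lit 5) (nat_lit 49) (nat_lit 5) (nat_lit 425) (nat_lit 325) (nat_lit 270)) (XT.lf (nat_lit 0) (nat_lit 10021375039) (nat_lit 228) (nat_lit 3197242450) (nat_lit 304) (nat_lit 3136489803) (nat_lit 45) (nat_lit 5) (nat_lit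 48) (nat_lit 5) (nat_lit 49) (nat_lit 5) (nat_lit 426) (nat_lit 325) (nat_lit 269))))))))
noncomputable def xc24 : XT := (XT.nd (nat_lit 49764) (nat_lit 0) (nat_lit 7828) (XT.nd (nat_lit 48984) (nat_lit 0) (nat_lit 18924) (XT.nd (nat_lit 48594) (nat_lit 0) (nat_lit 27360) (XT.nd (nat_lit 156) (nat_lit 228) (nat_lit 0) (XT.nd (nat_lit 78) (nat_lit 152) (nat_lit 0) (XT.lf (nat_lit 0) (nat_lit 5763860034) (nat_lit 228) (nat_lit 4462353319) (nat_lit 76) (nat_lit 6417419332) (nat_lit 42) (nat_lit 5) (nat_lit 45) (nat_lit 5) (nat_lit 43) (nat_lit 5) (nat_lit 427) (nat_lit 325) (nat_lit 268)) (XT.lf (nat_lit 0) (nat_lit 14393758495) (nat_lit 152) (nat_lit 571809312) (nat_lit 228) (nat_lit 1973292190) (nat_lit 40) (nat_lit 5) (nat_lit 42) (nat_lit 5) (nat_lit 43) (nat_lit 5) (nat_lit 428) (nat_lit 325) (nat_lit 267))) (XT.nd (nat_lit 48360) (nat_lit 0) (nat_lit 31844) (XT.lf (nat_lit 0) (nat_lit 7225714706)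 (nat_lit 228) (nat_lit 646161998) (nat_lit 76) (nat_lit 9367737103) (nat_lit 37) (nat_lit 5) (nat_lit 40) (nat_lit 5) (nat_lit 38) (nat_lit 5) (nat_lit 429) (nat_lit 325) (nat_lit 266)) (XT.lf (nat_lit 0) (nat_lit 12587600) (nat_lit 912) (nat_lit 1811330449) (nat_lit 912) (nat_lit 1811330449) (nat_lit 456) (nat_lit 4) (nat_lit 468) (nat_lit 5) (nat_lit 468) (nat_lit 4) (nat_lit 368) (nat_lit 326) (nat_lit 326)))) (XT.nd (nat_lit 156) (nat_lit 2660) (nat_lit 0) (XT.nd (nat_lit 78) (nat_lit 912) (nat_lit 0) (XT.lf (nat_lit 0) (nat_lit 1215895463) (nat_lit 836) (nat_lit 572895491) (nat_lit 912) (nat_lit 5542462255) (nat_lit 444) (nat_lit 5) (nat_lit 455) (nat_lit 5) (nat_lit 456) (nat_lit 4) (nat_lit 369) (nat_lit 326) (nat_lit 325)) (XT.lf (nat_lit 0) (nat_lit 2456469046) (nat_lit 912) (nat_lit 4785380562) (nat_lit 912) (nat_lit 152933963) (nat_lit 432) (nat_lit 4) (nat_lit 444) (nat_lit 5) (nat_lit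 444) (nat_lit 4) (nat_lit 370) (nat_lit 326) (nat_lit 324))) (XT.nd (nat_lit 78) (nat_lit 1748) (nat_lit 0) (XT.lf (nat_lit 0) (nat_lit 3748757549) (nat_lit 836) (nat_lit 1497149242) (nat_lit 912) (nat_lit 2215243547) (nat_lit 420) (nat_lit 5) (nat_lit 431) (nat_lit 5) (nat_lit 432) (nat_lit 4) (nat_lit 371) (nat_lit 326) (nat_lit 323)) (XT.nd (nat_lit 78) (nat_lit 836) (nat_lit 0) (XT.lf (nat_lit 0) (nat_lit 3162659471) (nat_lit 912) (nat_lit 2433949253) (nat_lit 76) (nat_lit 1933844549) (nat_lit 408) (nat_lit 5) (nat_lit 420) (nat_lit 5) (nat_lit 409) (nat_lit 4) (nat_lit 372) (nat_lit 326) (nat_lit 322)) (XT.lf (nat_lit 0) (nat_lit 987536446) (nat_lit 836) (nat_lit 1100118499) (nat_lit 76) (nat_lit 5515122268) (nat_lit 397) (nat_lit 5) (nat_lit 408) (nat_lit 5) (nat_lit 398) (nat_lit 5) (nat_lit 373) (nat_lit 326) (nat_lit 321)))))) (XT.nd (nat_lit 390) (nat_lit 3876) (nat_lit 0) (XT.nd (nat_lit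 156) (nat_lit 2204) (nat_lit 0) (XT.nd (nat_lit 78) (nat_lit 836) (nat_lit 0) (XT.lf (nat_lit 0) (nat_lit 284698737) (nat_lit 760) (nat_lit 6096625078) (nat_lit 836) (nat_lit 1296626868) (nat_lit 377) (nat_lit 5) (nat_lit 387) (nat_lit 5) (nat_lit 388) (nat_lit 4) (nat_lit 374) (nat_lit 326) (nat_lit 320)) (XT.lf (nat_lit 0) (nat_lit 1730060550) (nat_lit 760) (nat_lit 2345953125) (nat_lit 836) (nat_lit 3679836495) (nat_lit 366) (nat_lit 5) (nat_lit 376) (nat_lit 5) (nat_lit 377) (nat_lit 5) (nat_lit 375) (nat_lit 326) (nat_lit 319))) (XT.nd (nat_lit 78) (nat_lit 1444) (nat_lit 0) (XT.lf (nat_lit 0) (nat_lit 1674274304) (nat_lit 760) (nat_lit 4604448317) (nat_lit 76) (nat_lit 1558144417) (nat_lit 356) (nat_lit 5) (nat_lit 366) (nat_lit 5) (nat_lit 357) (nat_lit 5) (nat_lit 376) (nat_lit 326) (nat_lit 318)) (XT.nd (nat_lit 78) (nat_lit 760) (nat_lit 0) (XT.lf (nat_lit 0) (nat_lit 4781252487) (nat_lit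 684) (nat_lit 2307898210) (nat_lit 760) (nat_lit 831674505) (nat_lit 347) (nat_lit 5) (nat_lit 356) (nat_lit 5) (nat_lit 357) (nat_lit 5) (nat_lit 377) (nat_lit 326) (nat_lit 317)) (XT.lf (nat_lit 0) (nat_lit 4547006958) (nat_lit 760) (nat_lit 1633058365) (nat_lit 76) (nat_lit 1827652948) (nat_lit 337) (nat_lit 5) (nat_lit 347) (nat_lit 5) (nat_lit 338) (nat_lit 5) (nat_lit 378) (nat_lit 326) (nat_lit 316))))) (XT.nd (nat_lit 156) (nat_lit 1900) (nat_lit 0) (XT.nd (nat_lit 78) (nat_lit 1216) (nat_lit 0) (XT.lf (nat_lit 0) (nat_lit 1908150959) (nat_lit 760) (nat_lit 76727020) (nat_lit 76) (nat_lit 6112864078) (nat_lit 327) (nat_lit 5) (nat_lit 337) (nat_lit 5) (nat_lit 328) (nat_lit 5) (nat_lit 379) (nat_lit 326) (nat_lit 315)) (XT.lf (nat_lit 0) (nat_lit 1544899880) (nat_lit 608) (nat_lit 5814950458) (nat_lit 684) (nat_lit 830782937) (nat_lit 311) (nat_lit 5) (nat_lit 319) (nat_lit 5) (nat_lit 320)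 (nat_lit 5) (nat_lit 380) (nat_lit 326) (nat_lit 314))) (XT.nd (nat_lit 78) (nat_lit 1216) (nat_lit 0) (XT.lf (nat_lit 0) (nat_lit 3208168525) (nat_lit 608) (nat_lit 1378644630) (nat_lit 684) (nat_lit 3699698861) (nat_lit 302) (nat_lit 5) (nat_lit 310) (nat_lit 5) (nat_lit 311) (nat_lit 5) (nat_lit 381) (nat_lit 326) (nat_lit 313)) (XT.nd (nat_lit 78) (nat_lit 532) (nat_lit 0) (XT.lf (nat_lit 0) (nat_lit 1716739220) (nat_lit 684) (nat_lit 3467605345) (nat_lit 76) (nat_lit 3201193484) (nat_lit 293) (nat_lit 5) (nat_lit 302) (nat_lit 5) (nat_lit 294) (nat_lit 5) (nat_lit 382) (nat_lit 326) (nat_lit 312)) (XT.lf (nat_lit 0) (nat_lit 6678368891) (nat_lit 532) (nat_lit 527897393) (nat_lit 608) (nat_lit 1281562276) (nat_lit 286) (nat_lit 5) (nat_lit 293) (nat_lit 5) (nat_lit 294) (nat_lit 5) (nat_lit 383) (nat_lit 326) (nat_lit 311))))))) (XT.nd (nat_lit 780) (nat_lit 4636) (nat_lit 0) (XT.nd (nat_lit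 390) (nat_lit 2964) (nat_lit 0) (XT.nd (nat_lit 156) (nat_lit 1672) (nat_lit 0) (XT.nd (nat_lit 78) (nat_lit 1140) (nat_lit 0) (XT.lf (nat_lit 0) (nat_lit 4193386028) (nat_lit 684) (nat_lit 125302086) (nat_lit 76) (nat_lit 4274304329) (nat_lit 277) (nat_lit 5) (nat_lit 286) (nat_lit 5) (nat_lit 278) (nat_lit 5) (nat_lit 384) (nat_lit 326) (nat_lit 310)) (XT.lf (nat_lit 0) (nat_lit 1073956225) (nat_lit 608) (nat_lit 7062548988) (nat_lit 76) (nat_lit 565001201) (nat_lit 262) (nat_lit 5) (nat_lit 270) (nat_lit 5) (nat_lit 263) (nat_lit 5) (nat_lit 385) (nat_lit 326) (nat_lit 309))) (XT.nd (nat_lit 78) (nat_lit 1140) (nat_lit 0) (XT.lf (nat_lit 0) (nat_lit 3428944838) (nat_lit 532) (nat_lit 3212467546) (nat_lit 608) (nat_lit 2171492591) (nat_lit 255) (nat_lit 5) (nat_lit 262) (nat_lit 5) (nat_lit 263) (nat_lit 5) (nat_lit 386) (nat_lit 326) (nat_lit 308)) (XT.nd (nat_lit 78) (nat_lit 532) (nat_lit 0)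 (XT.lf (nat_lit 0) (nat_lit 3377206652) (nat_lit 608) (nat_lit 3660744849) (nat_lit 76) (nat_lit 1889762539) (nat_lit 247) (nat_lit 5) (nat_lit 255) (nat_lit 5) (nat_lit 248) (nat_lit 5) (nat_lit 387) (nat_lit 326) (nat_lit 307)) (XT.lf (nat_lit 0) (nat_lit 3063815) (nat_lit 532) (nat_lit 1893835859) (nat_lit 76) (nat_lit 7149056307) (nat_lit 240) (nat_lit 5) (nat_lit 247) (nat_lit 5) (nat_lit 241) (nat_lit 5) (nat_lit 388) (nat_lit 326) (nat_lit 306))))) (XT.nd (nat_lit 156) (nat_lit 1444) (nat_lit 0) (XT.nd (nat_lit 78) (nat_lit 988) (nat_lit 0) (XT.lf (nat_lit 0) (nat_lit 5637708432) (nat_lit 608) (nat_lit 106175594) (nat_lit 76) (nat_lit 3423329859) (nat_lit 233) (nat_lit 5) (nat_lit 241) (nat_lit 5) (nat_lit 234) (nat_lit 5) (nat_lit 389) (nat_lit 326) (nat_lit 305)) (XT.lf (nat_lit 0) (nat_lit 1758156557) (nat_lit 456) (nat_lit 356482014) (nat_lit 532) (nat_lit 7177320984) (nat_lit 220) (nat_lit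 5) (nat_lit 226) (nat_lit 5) (nat_lit 227) (nat_lit 5) (nat_lit 390) (nat_lit 326) (nat_lit 304))) (XT.nd (nat_lit 78) (nat_lit 988) (nat_lit 0) (XT.lf (nat_lit 0) (nat_lit 3647798901) (nat_lit 456) (nat_lit 4239031656) (nat_lit 532) (nat_lit 1533016924) (nat_lit 214) (nat_lit 5) (nat_lit 220) (nat_lit 5) (nat_lit 221) (nat_lit 5) (nat_lit 391) (nat_lit 326) (nat_lit 303)) (XT.nd (nat_lit 78) (nat_lit 456) (nat_lit 0) (XT.lf (nat_lit 0) (nat_lit 4210065060) (nat_lit 532) (nat_lit 3971196534) (nat_lit 76) (nat_lit 1370042799) (nat_lit 207) (nat_lit 5) (nat_lit 214) (nat_lit 5) (nat_lit 208) (nat_lit 5) (nat_lit 392) (nat_lit 326) (nat_lit 302)) (XT.lf (nat_lit 0) (nat_lit 417917636) (nat_lit 456) (nat_lit 2132984208) (nat_lit 76) (nat_lit 7135440377) (nat_lit 201) (nat_lit 5) (nat_lit 207) (nat_lit 5) (nat_lit 202) (nat_lit 5) (nat_lit 393) (nat_lit 326) (nat_lit 301)))))) (XT.nd (nat_lit 390) (nat_lit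 2204) (nat_lit 0) (XT.nd (nat_lit 156) (nat_lit 1140) (nat_lit 0) (XT.nd (nat_lit 78) (nat_lit 836) (nat_lit 0) (XT.lf (nat_lit 0) (nat_lit 6278283365) (nat_lit 532) (nat_lit 272591454) (nat_lit 76) (nat_lit 3273830242) (nat_lit 195) (nat_lit 5) (nat_lit 202) (nat_lit 5) (nat_lit 196) (nat_lit 5) (nat_lit 394) (nat_lit 326) (nat_lit 300)) (XT.lf (nat_lit 0) (nat_lit 1656744340) (nat_lit 380) (nat_lit 669052047) (nat_lit 456) (nat_lit 7640930810) (nat_lit 184) (nat_lit 5) (nat_lit 189) (nat_lit 5) (nat_lit 190) (nat_lit 5) (nat_lit 395) (nat_lit 326) (nat_lit 299))) (XT.nd (nat_lit 78) (nat_lit 760) (nat_lit 0) (XT.lf (nat_lit 0) (nat_lit 3611583534) (nat_lit 380) (nat_lit 4735351694) (nat_lit 456) (nat_lit 1765187210) (nat_lit 179) (nat_lit 5) (nat_lit 184) (nat_lit 5) (nat_lit 185) (nat_lit 5) (nat_lit 396) (nat_lit 326) (nat_lit 298)) (XT.nd (nat_lit 78) (nat_lit 304) (nat_lit 0) (XT.lf (nat_lit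 0) (nat_lit 4230097928) (nat_lit 456) (nat_lit 4654898282) (nat_lit 76) (nat_lit 1376336831) (nat_lit 173) (nat_lit 5) (nat_lit 179) (nat_lit 5) (nat_lit 174) (nat_lit 5) (nat_lit 397) (nat_lit 326) (nat_lit 297)) (XT.lf (nat_lit 0) (nat_lit 7639839461) (nat_lit 304) (nat_lit 2761630990) (nat_lit 380) (nat_lit 12911939) (nat_lit 169) (nat_lit 5) (nat_lit 173) (nat_lit 5) (nat_lit 174) (nat_lit 5) (nat_lit 398) (nat_lit 326) (nat_lit 296))))) (XT.nd (nat_lit 156) (nat_lit 988) (nat_lit 0) (XT.nd (nat_lit 78) (nat_lit 760) (nat_lit 0) (XT.lf (nat_lit 0) (nat_lit 6118950999) (nat_lit 456) (nat_lit 878827749) (nat_lit 76) (nat_lit 3573158800) (nat_lit 163) (nat_lit 5) (nat_lit 169) (nat_lit 5) (nat_lit 164) (nat_lit 5) (nat_lit 399) (nat_lit 326) (nat_lit 295)) (XT.lf (nat_lit 0) (nat_lit 1080563458) (nat_lit 380) (nat_lit 618024182) (nat_lit 456) (nat_lit 9033008787) (nat_lit 153) (nat_lit 5) (nat_lit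 158) (nat_lit 5) (nat_lit 159) (nat_lit 5) (nat_lit 400) (nat_lit 326) (nat_lit 294))) (XT.nd (nat_lit 78) (nat_lit 684) (nat_lit 0) (XT.lf (nat_lit 0) (nat_lit 3063467470) (nat_lit 304) (nat_lit 4949943707) (nat_lit 380) (nat_lit 2882271000) (nat_lit 149) (nat_lit 5) (nat_lit 153) (nat_lit 5) (nat_lit 154) (nat_lit 5) (nat_lit 401) (nat_lit 326) (nat_lit 293)) (XT.nd (nat_lit 78) (nat_lit 304) (nat_lit 0) (XT.lf (nat_lit 0) (nat_lit 3420143573) (nat_lit 380) (nat_lit 5973906919) (nat_lit 76) (nat_lit 1669942801) (nat_lit 144) (nat_lit 5) (nat_lit 149) (nat_lit 5) (nat_lit 145) (nat_lit 5) (nat_lit 402) (nat_lit 326) (nat_lit 292)) (XT.lf (nat_lit 0) (nat_lit 7146345773) (nat_lit 304) (nat_lit 2759122291) (nat_lit 380) (nat_lit 1330844717) (nat_lit 140) (nat_lit 5) (nat_lit 144) (nat_lit 5) (nat_lit 145) (nat_lit 5) (nat_lit 403) (nat_lit 326) (nat_lit 291))))))))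
noncomputable def xc25 : XT := (XT.nd (nat_lit 1482) (nat_lit 1520) (nat_lit 0) (XT.nd (nat_lit 702) (nat_lit 2736) (nat_lit 0) (XT.nd (nat_lit 312) (nat_lit 1672) (nat_lit 0) (XT.nd (nat_lit 156) (nat_lit 912) (nat_lit 0) (XT.nd (nat_lit 78) (nat_lit 380) (nat_lit 0) (XT.lf (nat_lit 0) (nat_lit 5132523062) (nat_lit 380) (nat_lit 2187781965) (nat_lit 76) (nat_lit 4092249316) (nat_lit 135) (nat_lit 5) (nat_lit 140) (nat_lit 5) (nat_lit 136) (nat_lit 5) (nat_lit 404) (nat_lit 326) (nat_lit 290)) (XT.lf (nat_lit 0) (nat_lit 198299064) (nat_lit 380) (nat_lit 235009279) (nat_lit 76) (nat_lit 11160119235) (nat_lit 130) (nat_lit 5) (nat_lit 135) (nat_lit 5) (nat_lit 131) (nat_lit 5) (nat_lit 405) (nat_lit 326) (nat_lit 289))) (XT.nd (nat_lit 78) (nat_lit 380) (nat_lit 0) (XT.lf (nat_lit 0) (nat_lit 1735421495) (nat_lit 228) (nat_lit 5112204950) (nat_lit 304) (nat_lit 4930030985) (nat_lit 123) (nat_lit 5)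 (nat_lit 126) (nat_lit 5) (nat_lit 127) (nat_lit 5) (nat_lit 406) (nat_lit 326) (nat_lit 288)) (XT.lf (nat_lit 0) (nat_lit 1732731091) (nat_lit 380) (nat_lit 8203826510) (nat_lit 76) (nat_lit 2030104296) (nat_lit 118) (nat_lit 5) (nat_lit 123) (nat_lit 5) (nat_lit 119) (nat_lit 5) (nat_lit 407) (nat_lit 326) (nat_lit 287)))) (XT.nd (nat_lit 156) (nat_lit 1064) (nat_lit 0) (XT.nd (nat_lit 78) (nat_lit 380) (nat_lit 0) (XT.lf (nat_lit 0) (nat_lit 5805252979) (nat_lit 228) (nat_lit 2768537939) (nat_lit 304) (nat_lit 3585985936) (nat_lit 115) (nat_lit 5) (nat_lit 118) (nat_lit 5) (nat_lit 119) (nat_lit 5) (nat_lit 408) (nat_lit 326) (nat_lit 286)) (XT.lf (nat_lit 0) (nat_lit 3262067572) (nat_lit 380) (nat_lit 4478280397) (nat_lit 76) (nat_lit 4617044906) (nat_lit 110) (nat_lit 5) (nat_lit 115) (nat_lit 5) (nat_lit 111) (nat_lit 5) (nat_lit 409) (nat_lit 326) (nat_lit 285))) (XT.nd (nat_lit 78) (nat_lit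 836) (nat_lit 0) (XT.lf (nat_lit 0) (nat_lit 9994733730) (nat_lit 228) (nat_lit 306174521) (nat_lit 304) (nat_lit 2258873758) (nat_lit 107) (nat_lit 5) (nat_lit 110) (nat_lit 5) (nat_lit 111) (nat_lit 5) (nat_lit 410) (nat_lit 326) (nat_lit 284)) (XT.nd (nat_lit 78) (nat_lit 456) (nat_lit 0) (XT.lf (nat_lit 0) (nat_lit 4785815195) (nat_lit 380) (nat_lit 650450858) (nat_lit 76) (nat_lit 7330038328) (nat_lit 102) (nat_lit 5) (nat_lit 107) (nat_lit 5) (nat_lit 103) (nat_lit 5) (nat_lit 411) (nat_lit 326) (nat_lit 283)) (XT.lf (nat_lit 0) (nat_lit 1330736833) (nat_lit 228) (nat_lit 10725770891) (nat_lit 304) (nat_lit 921309035) (nat_lit 96) (nat_lit 5) (nat_lit 99) (nat_lit 5) (nat_lit 100) (nat_lit 5) (nat_lit 412) (nat_lit 326) (nat_lit 282)))))) (XT.nd (nat_lit 390) (nat_lit 1368) (nat_lit 0) (XT.nd (nat_lit 156) (nat_lit 760) (nat_lit 0) (XT.nd (nat_lit 78) (nat_lit 304) (nat_lit 0) (XT.lf (nat_lit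 0) (nat_lit 3325283758) (nat_lit 228) (nat_lit 3003998030) (nat_lit 304) (nat_lit 6864309957) (nat_lit 92) (nat_lit 5) (nat_lit 95) (nat_lit 5) (nat_lit 96) (nat_lit 5) (nat_lit 413) (nat_lit 326) (nat_lit 281)) (XT.lf (nat_lit 0) (nat_lit 421291544) (nat_lit 304) (nat_lit 8052321956) (nat_lit 76) (nat_lit 4940917190) (nat_lit 88) (nat_lit 5) (nat_lit 92) (nat_lit 5) (nat_lit 89) (nat_lit 5) (nat_lit 414) (nat_lit 326) (nat_lit 280))) (XT.nd (nat_lit 78) (nat_lit 532) (nat_lit 0) (XT.lf (nat_lit 0) (nat_lit 7417705218) (nat_lit 228) (nat_lit 461729159) (nat_lit 304) (nat_lit 5760811318) (nat_lit 85) (nat_lit 5) (nat_lit 88) (nat_lit 5) (nat_lit 89) (nat_lit 5) (nat_lit 415) (nat_lit 326) (nat_lit 279)) (XT.nd (nat_lit 78) (nat_lit 228) (nat_lit 0) (XT.lf (nat_lit 0) (nat_lit 1746497099) (nat_lit 304) (nat_lit 4374319415) (nat_lit 76) (nat_lit 7750095289) (nat_lit 81) (nat_lit 5) (nat_lit 85) (nat_lit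 5) (nat_lit 82) (nat_lit 5) (nat_lit 416) (nat_lit 326) (nat_lit 278)) (XT.lf (nat_lit 0) (nat_lit 9449650326) (nat_lit 304) (nat_lit 2500380115) (nat_lit 76) (nat_lit 2156728026) (nat_lit 78) (nat_lit 5) (nat_lit 82) (nat_lit 5) (nat_lit 79) (nat_lit 5) (nat_lit 417) (nat_lit 326) (nat_lit 277))))) (XT.nd (nat_lit 156) (nat_lit 684) (nat_lit 0) (XT.nd (nat_lit 78) (nat_lit 380) (nat_lit 0) (XT.lf (nat_lit 0) (nat_lit 3069428308) (nat_lit 304) (nat_lit 604967194) (nat_lit 76) (nat_lit 10673390925) (nat_lit 74) (nat_lit 5) (nat_lit 78) (nat_lit 5) (nat_lit 75) (nat_lit 5) (nat_lit 418) (nat_lit 326) (nat_lit 276)) (XT.lf (nat_lit 0) (nat_lit 1328377587) (nat_lit 228) (nat_lit 9713022408) (nat_lit 304) (nat_lit 3552491343) (nat_lit 69) (nat_lit 5) (nat_lit 72) (nat_lit 5) (nat_lit 73) (nat_lit 5) (nat_lit 419) (nat_lit 326) (nat_lit 275))) (XT.nd (nat_lit 78) (nat_lit 456) (nat_lit 0) (XT.lf (nat_lit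 0) (nat_lit 3301431006) (nat_lit 152) (nat_lit 1113009972) (nat_lit 228) (nat_lit 10431025116) (nat_lit 66) (nat_lit 5) (nat_lit 68) (nat_lit 5) (nat_lit 69) (nat_lit 5) (nat_lit 420) (nat_lit 326) (nat_lit 274)) (XT.nd (nat_lit 78) (nat_lit 228) (nat_lit 0) (XT.lf (nat_lit 0) (nat_lit 5286337460) (nat_lit 228) (nat_lit 7377059525) (nat_lit 304) (nat_lit 2438895866) (nat_lit 63) (nat_lit 5) (nat_lit 66) (nat_lit 5) (nat_lit 67) (nat_lit 5) (nat_lit 421) (nat_lit 326) (nat_lit 273)) (XT.lf (nat_lit 0) (nat_lit 5777568834) (nat_lit 228) (nat_lit 8061537068) (nat_lit 76) (nat_lit 1525755313) (nat_lit 60) (nat_lit 5) (nat_lit 63) (nat_lit 5) (nat_lit 61) (nat_lit 5) (nat_lit 422) (nat_lit 326) (nat_lit 272))))))) (XT.nd (nat_lit 48984) (nat_lit 0) (nat_lit 21812) (XT.nd (nat_lit 390) (nat_lit 152) (nat_lit 0) (XT.nd (nat_lit 156) (nat_lit 912) (nat_lit 0) (XT.nd (nat_lit 78) (nat_lit 228) (nat_lit 0)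 (XT.lf (nat_lit 0) (nat_lit 9343113334) (nat_lit 228) (nat_lit 4959279650) (nat_lit 304) (nat_lit 1330691214) (nat_lit 57) (nat_lit 5) (nat_lit 60) (nat_lit 5) (nat_lit 61) (nat_lit 5) (nat_lit 423) (nat_lit 326) (nat_lit 271)) (XT.lf (nat_lit 0) (nat_lit 7155373118) (nat_lit 228) (nat_lit 4509019054) (nat_lit 76) (nat_lit 4242513216) (nat_lit 54) (nat_lit 5) (nat_lit 57) (nat_lit 5) (nat_lit 55) (nat_lit 5) (nat_lit 424) (nat_lit 326) (nat_lit 270))) (XT.nd (nat_lit 78) (nat_lit 684) (nat_lit 0) (XT.lf (nat_lit 0) (nat_lit 13501810666) (nat_lit 228) (nat_lit 2459712578) (nat_lit 304) (nat_lit 225570398) (nat_lit 51) (nat_lit 5) (nat_lit 54) (nat_lit 5) (nat_lit 55) (nat_lit 5) (nat_lit 425) (nat_lit 326) (nat_lit 269)) (XT.nd (nat_lit 78) (nat_lit 456) (nat_lit 0) (XT.lf (nat_lit 0) (nat_lit 8543295283) (nat_lit 228) (nat_lit 876875021) (nat_lit 76) (nat_lit 7052419379) (nat_lit 48) (nat_lit 5)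 (nat_lit 51) (nat_lit 5) (nat_lit 49) (nat_lit 5) (nat_lit 426) (nat_lit 326) (nat_lit 268)) (XT.lf (nat_lit 0) (nat_lit 874575487) (nat_lit 228) (nat_lit 15757690022) (nat_lit 76) (nat_lit 132658698) (nat_lit 42) (nat_lit 5) (nat_lit 45) (nat_lit 5) (nat_lit 43) (nat_lit 5) (nat_lit 427) (nat_lit 326) (nat_lit 267))))) (XT.nd (nat_lit 48360) (nat_lit 0) (nat_lit 30704) (XT.nd (nat_lit 48282) (nat_lit 0) (nat_lit 34656) (XT.lf (nat_lit 0) (nat_lit 2875202860) (nat_lit 152) (nat_lit 7087401155) (nat_lit 228) (nat_lit 7099821088) (nat_lit 40) (nat_lit 5) (nat_lit 42) (nat_lit 5) (nat_lit 43) (nat_lit 5) (nat_lit 428) (nat_lit 326) (nat_lit 266)) (XT.lf (nat_lit 0) (nat_lit 1274222411) (nat_lit 1900) (nat_lit 1029628254) (nat_lit 0) (nat_lit 1274222411) (nat_lit 496) (nat_lit 5) (nat_lit 521) (nat_lit 4) (nat_lit 496) (nat_lit 4) (nat_lit 366) (nat_lit 327) (nat_lit 327))) (XT.nd (nat_lit 78) (nat_lit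 2736) (nat_lit 0) (XT.lf (nat_lit 0) (nat_lit 710481263) (nat_lit 1216) (nat_lit 1083601703) (nat_lit 76) (nat_lit 5418611094) (nat_lit 480) (nat_lit 5) (nat_lit 496) (nat_lit 5) (nat_lit 481) (nat_lit 4) (nat_lit 367) (nat_lit 327) (nat_lit 326)) (XT.nd (nat_lit 78) (nat_lit 1824) (nat_lit 0) (XT.lf (nat_lit 0) (nat_lit 6040656585) (nat_lit 988) (nat_lit 57563536) (nat_lit 0) (nat_lit 1173808188) (nat_lit 468) (nat_lit 5) (nat_lit 481) (nat_lit 4) (nat_lit 468) (nat_lit 4) (nat_lit 368) (nat_lit 327) (nat_lit 325)) (XT.lf (nat_lit 0) (nat_lit 1030831452) (nat_lit 836) (nat_lit 3041105733) (nat_lit 912) (nat_lit 3262072434) (nat_lit 444) (nat_lit 5) (nat_lit 455) (nat_lit 5) (nat_lit 456) (nat_lit 4) (nat_lit 369) (nat_lit 327) (nat_lit 324)))))) (XT.nd (nat_lit 390) (nat_lit 4484) (nat_lit 0) (XT.nd (nat_lit 156) (nat_lit 2584) (nat_lit 0) (XT.nd (nat_lit 78) (nat_lit 836) (nat_lit 0) (XT.lf (nat_lit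 0) (nat_lit 2007674628) (nat_lit 988) (nat_lit 5213438217) (nat_lit 76) (nat_lit 177988464) (nat_lit 431) (nat_lit 5) (nat_lit 444) (nat_lit 5) (nat_lit 432) (nat_lit 4) (nat_lit 370) (nat_lit 327) (nat_lit 323)) (XT.lf (nat_lit 0) (nat_lit 3386091567) (nat_lit 836) (nat_lit 3943626341) (nat_lit 912) (nat_lit 137226144) (nat_lit 420) (nat_lit 5) (nat_lit 431) (nat_lit 5) (nat_lit 432) (nat_lit 4) (nat_lit 371) (nat_lit 327) (nat_lit 322))) (XT.nd (nat_lit 78) (nat_lit 1672) (nat_lit 0) (XT.lf (nat_lit 0) (nat_lit 4639957982) (nat_lit 836) (nat_lit 486375328) (nat_lit 912) (nat_lit 2411385640) (nat_lit 408) (nat_lit 5) (nat_lit 419) (nat_lit 5) (nat_lit 420) (nat_lit 5) (nat_lit 372) (nat_lit 327) (nat_lit 321)) (XT.nd (nat_lit 78) (nat_lit 836) (nat_lit 0) (XT.lf (nat_lit 0) (nat_lit 2841226120) (nat_lit 836) (nat_lit 1670389318) (nat_lit 76) (nat_lit 3099714604) (nat_lit 397) (nat_lit 5) (nat_lit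 408) (nat_lit 5) (nat_lit 398) (nat_lit 5) (nat_lit 373) (nat_lit 327) (nat_lit 320)) (XT.lf (nat_lit 0) (nat_lit 455459453) (nat_lit 836) (nat_lit 381594151) (nat_lit 76) (nat_lit 6851095816) (nat_lit 386) (nat_lit 5) (nat_lit 397) (nat_lit 5) (nat_lit 387) (nat_lit 5) (nat_lit 374) (nat_lit 327) (nat_lit 319))))) (XT.nd (nat_lit 156) (nat_lit 2204) (nat_lit 0) (XT.nd (nat_lit 78) (nat_lit 760) (nat_lit 0) (XT.lf (nat_lit 0) (nat_lit 952331396) (nat_lit 760) (nat_lit 4777406947) (nat_lit 836) (nat_lit 2037769315) (nat_lit 366) (nat_lit 5) (nat_lit 376) (nat_lit 5) (nat_lit 377) (nat_lit 5) (nat_lit 375) (nat_lit 327) (nat_lit 318)) (XT.lf (nat_lit 0) (nat_lit 2348600247) (nat_lit 684) (nat_lit 862821116) (nat_lit 760) (nat_lit 4638557618) (nat_lit 356) (nat_lit 5) (nat_lit 365) (nat_lit 5) (nat_lit 366) (nat_lit 5) (nat_lit 376) (nat_lit 327) (nat_lit 317))) (XT.nd (nat_lit 78) (nat_lit 1444) (nat_lit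 0) (XT.lf (nat_lit 0) (nat_lit 604763626) (nat_lit 760) (nat_lit 4144869973) (nat_lit 76) (nat_lit 3185783971) (nat_lit 346) (nat_lit 5) (nat_lit 356) (nat_lit 5) (nat_lit 347) (nat_lit 5) (nat_lit 377) (nat_lit 327) (nat_lit 316)) (XT.nd (nat_lit 78) (nat_lit 760) (nat_lit 0) (XT.lf (nat_lit 0) (nat_lit 5279801467) (nat_lit 684) (nat_lit 608499962) (nat_lit 760) (nat_lit 2135585936) (nat_lit 337) (nat_lit 5) (nat_lit 346) (nat_lit 5) (nat_lit 347) (nat_lit 5) (nat_lit 378) (nat_lit 327) (nat_lit 315)) (XT.lf (nat_lit 0) (nat_lit 3139861867) (nat_lit 760) (nat_lit 1307125828) (nat_lit 76) (nat_lit 3668272089) (nat_lit 327) (nat_lit 5) (nat_lit 337) (nat_lit 5) (nat_lit 328) (nat_lit 5) (nat_lit 379) (nat_lit 327) (nat_lit 314))))))))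
noncomputable def xc26 : XT := (XT.nd (nat_lit 1482) (nat_lit 7144) (nat_lit 0) (XT.nd (nat_lit 702) (nat_lit 5396) (nat_lit 0) (XT.nd (nat_lit 312) (nat_lit 3496) (nat_lit 0) (XT.nd (nat_lit 156) (nat_lit 1216) (nat_lit 0) (XT.nd (nat_lit 78) (nat_lit 608) (nat_lit 0) (XT.lf (nat_lit 0) (nat_lit 192858368) (nat_lit 608) (nat_lit 89068066) (nat_lit 684) (nat_lit 7928103888) (nat_lit 310) (nat_lit 5) (nat_lit 318) (nat_lit 5) (nat_lit 319) (nat_lit 5) (nat_lit 380) (nat_lit 327) (nat_lit 313)) (XT.lf (nat_lit 0) (nat_lit 1729571234) (nat_lit 608) (nat_lit 3886282635) (nat_lit 684) (nat_lit 2691402770) (nat_lit 302) (nat_lit 5) (nat_lit 310) (nat_lit 5) (nat_lit 311) (nat_lit 5) (nat_lit 381) (nat_lit 327) (nat_lit 312))) (XT.nd (nat_lit 78) (nat_lit 532) (nat_lit 0) (XT.lf (nat_lit 0) (nat_lit 2623213152) (nat_lit 684) (nat_lit 5082642082) (nat_lit 76) (nat_lit 702068471) (nat_lit 293) (nat_lit 5)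 (nat_lit 302) (nat_lit 5) (nat_lit 294) (nat_lit 5) (nat_lit 382) (nat_lit 327) (nat_lit 311)) (XT.lf (nat_lit 0) (nat_lit 4958614644) (nat_lit 532) (nat_lit 3082389388) (nat_lit 608) (nat_lit 470644906) (nat_lit 286) (nat_lit 5) (nat_lit 293) (nat_lit 5) (nat_lit 294) (nat_lit 5) (nat_lit 383) (nat_lit 327) (nat_lit 310)))) (XT.nd (nat_lit 156) (nat_lit 2204) (nat_lit 0) (XT.nd (nat_lit 78) (nat_lit 608) (nat_lit 0) (XT.lf (nat_lit 0) (nat_lit 4905129094) (nat_lit 684) (nat_lit 1988468828) (nat_lit 76) (nat_lit 1724880379) (nat_lit 277) (nat_lit 5) (nat_lit 286) (nat_lit 5) (nat_lit 278) (nat_lit 5) (nat_lit 384) (nat_lit 327) (nat_lit 309)) (XT.lf (nat_lit 0) (nat_lit 1664917027) (nat_lit 608) (nat_lit 380029006) (nat_lit 76) (nat_lit 6683683047) (nat_lit 269) (nat_lit 5) (nat_lit 277) (nat_lit 5) (nat_lit 270) (nat_lit 5) (nat_lit 385) (nat_lit 327) (nat_lit 308))) (XT.nd (nat_lit 78) (nat_lit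 1140) (nat_lit 0) (XT.lf (nat_lit 0) (nat_lit 1279979629) (nat_lit 532) (nat_lit 5864124215) (nat_lit 608) (nat_lit 1697689183) (nat_lit 255) (nat_lit 5) (nat_lit 262) (nat_lit 5) (nat_lit 263) (nat_lit 5) (nat_lit 386) (nat_lit 327) (nat_lit 307)) (XT.nd (nat_lit 78) (nat_lit 532) (nat_lit 0) (XT.lf (nat_lit 0) (nat_lit 2986355879) (nat_lit 532) (nat_lit 773390463) (nat_lit 608) (nat_lit 5198495219) (nat_lit 247) (nat_lit 5) (nat_lit 254) (nat_lit 5) (nat_lit 255) (nat_lit 5) (nat_lit 387) (nat_lit 327) (nat_lit 306)) (XT.lf (nat_lit 0) (nat_lit 272484113) (nat_lit 532) (nat_lit 4347466708) (nat_lit 76) (nat_lit 4458046475) (nat_lit 240) (nat_lit 5) (nat_lit 247) (nat_lit 5) (nat_lit 241) (nat_lit 5) (nat_lit 388) (nat_lit 327) (nat_lit 305)))))) (XT.nd (nat_lit 390) (nat_lit 2432) (nat_lit 0) (XT.nd (nat_lit 156) (nat_lit 1900) (nat_lit 0) (XT.nd (nat_lit 78) (nat_lit 532) (nat_lit 0) (XT.lf (nat_lit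 0) (nat_lit 5816527094) (nat_lit 608) (nat_lit 2690374985) (nat_lit 76) (nat_lit 694165153) (nat_lit 233) (nat_lit 5) (nat_lit 241) (nat_lit 5) (nat_lit 234) (nat_lit 5) (nat_lit 389) (nat_lit 327) (nat_lit 304)) (XT.lf (nat_lit 0) (nat_lit 2173251195) (nat_lit 532) (nat_lit 1001240070) (nat_lit 76) (nat_lit 6152991844) (nat_lit 226) (nat_lit 5) (nat_lit 233) (nat_lit 5) (nat_lit 227) (nat_lit 5) (nat_lit 390) (nat_lit 327) (nat_lit 303))) (XT.nd (nat_lit 78) (nat_lit 988) (nat_lit 0) (XT.lf (nat_lit 0) (nat_lit 737253885) (nat_lit 456) (nat_lit 7109369910) (nat_lit 532) (nat_lit 1610723626) (nat_lit 214) (nat_lit 5) (nat_lit 220) (nat_lit 5) (nat_lit 221) (nat_lit 5) (nat_lit 391) (nat_lit 327) (nat_lit 302)) (XT.nd (nat_lit 78) (nat_lit 456) (nat_lit 0) (XT.lf (nat_lit 0) (nat_lit 2519763570) (nat_lit 456) (nat_lit 1530394617) (nat_lit 532) (nat_lit 5540320624) (nat_lit 207) (nat_lit 5) (nat_lit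 213) (nat_lit 5) (nat_lit 214) (nat_lit 5) (nat_lit 392) (nat_lit 327) (nat_lit 301)) (XT.lf (nat_lit 0) (nat_lit 136698154) (nat_lit 456) (nat_lit 5385015744) (nat_lit 76) (nat_lit 4205523576) (nat_lit 201) (nat_lit 5) (nat_lit 207) (nat_lit 5) (nat_lit 202) (nat_lit 5) (nat_lit 393) (nat_lit 327) (nat_lit 300))))) (XT.nd (nat_lit 156) (nat_lit 1520) (nat_lit 0) (XT.nd (nat_lit 78) (nat_lit 456) (nat_lit 0) (XT.lf (nat_lit 0) (nat_lit 5902817715) (nat_lit 532) (nat_lit 3672368608) (nat_lit 76) (nat_lit 292298915) (nat_lit 195) (nat_lit 5) (nat_lit 202) (nat_lit 5) (nat_lit 196) (nat_lit 5) (nat_lit 394) (nat_lit 327) (nat_lit 299)) (XT.lf (nat_lit 0) (nat_lit 1827024280) (nat_lit 456) (nat_lit 1932301504) (nat_lit 76) (nat_lit 6251956134) (nat_lit 189) (nat_lit 5) (nat_lit 195) (nat_lit 5) (nat_lit 190) (nat_lit 5) (nat_lit 395) (nat_lit 327) (nat_lit 298))) (XT.nd (nat_lit 78) (nat_lit 1140) (nat_lit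 0) (XT.lf (nat_lit 0) (nat_lit 7739938134) (nat_lit 456) (nat_lit 156680302) (nat_lit 76) (nat_lit 2262223222) (nat_lit 184) (nat_lit 5) (nat_lit 190) (nat_lit 5) (nat_lit 185) (nat_lit 5) (nat_lit 396) (nat_lit 327) (nat_lit 297)) (XT.nd (nat_lit 78) (nat_lit 304) (nat_lit 0) (XT.lf (nat_lit 0) (nat_lit 1670220444) (nat_lit 380) (nat_lit 1827764660) (nat_lit 456) (nat_lit 6811891446) (nat_lit 173) (nat_lit 5) (nat_lit 178) (nat_lit 5) (nat_lit 179) (nat_lit 5) (nat_lit 397) (nat_lit 327) (nat_lit 296)) (XT.lf (nat_lit 0) (nat_lit 3532709050) (nat_lit 304) (nat_lit 6047640565) (nat_lit 380) (nat_lit 884356442) (nat_lit 169) (nat_lit 5) (nat_lit 173) (nat_lit 5) (nat_lit 174) (nat_lit 5) (nat_lit 398) (nat_lit 327) (nat_lit 295))))))) (XT.nd (nat_lit 780) (nat_lit 3268) (nat_lit 0) (XT.nd (nat_lit 390) (nat_lit 1672) (nat_lit 0) (XT.nd (nat_lit 156) (nat_lit 1368) (nat_lit 0) (XT.nd (nat_lit 78) (nat_lit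 380) (nat_lit 0) (XT.lf (nat_lit 0) (nat_lit 5159499907) (nat_lit 456) (nat_lit 5196830662) (nat_lit 76) (nat_lit 267032522) (nat_lit 163) (nat_lit 5) (nat_lit 169) (nat_lit 5) (nat_lit 164) (nat_lit 5) (nat_lit 399) (nat_lit 327) (nat_lit 294)) (XT.lf (nat_lit 0) (nat_lit 614425242) (nat_lit 380) (nat_lit 3436172710) (nat_lit 76) (nat_lit 6735266548) (nat_lit 158) (nat_lit 5) (nat_lit 163) (nat_lit 5) (nat_lit 159) (nat_lit 5) (nat_lit 400) (nat_lit 327) (nat_lit 293))) (XT.nd (nat_lit 78) (nat_lit 988) (nat_lit 0) (XT.lf (nat_lit 0) (nat_lit 6815110025) (nat_lit 456) (nat_lit 1651805333) (nat_lit 76) (nat_lit 2485317667) (nat_lit 153) (nat_lit 5) (nat_lit 159) (nat_lit 5) (nat_lit 154) (nat_lit 5) (nat_lit 401) (nat_lit 327) (nat_lit 292)) (XT.nd (nat_lit 78) (nat_lit 304) (nat_lit 0) (XT.lf (nat_lit 0) (nat_lit 171107754) (nat_lit 304) (nat_lit 1908099592) (nat_lit 380) (nat_lit 9043550578) (nat_lit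 144) (nat_lit 5) (nat_lit 148) (nat_lit 5) (nat_lit 149) (nat_lit 5) (nat_lit 402) (nat_lit 327) (nat_lit 291)) (XT.lf (nat_lit 0) (nat_lit 2034739872) (nat_lit 304) (nat_lit 6436315772) (nat_lit 380) (nat_lit 2825891293) (nat_lit 140) (nat_lit 5) (nat_lit 144) (nat_lit 5) (nat_lit 145) (nat_lit 5) (nat_lit 403) (nat_lit 327) (nat_lit 290))))) (XT.nd (nat_lit 156) (nat_lit 988) (nat_lit 0) (XT.nd (nat_lit 78) (nat_lit 304) (nat_lit 0) (XT.lf (nat_lit 0) (nat_lit 3550911487) (nat_lit 380) (nat_lit 7536616072) (nat_lit 76) (nat_lit 387978532) (nat_lit 135) (nat_lit 5) (nat_lit 140) (nat_lit 5) (nat_lit 136) (nat_lit 5) (nat_lit 404) (nat_lit 327) (nat_lit 289)) (XT.lf (nat_lit 0) (nat_lit 5860785325) (nat_lit 304) (nat_lit 4269642791) (nat_lit 380) (nat_lit 1527624270) (nat_lit 131) (nat_lit 5) (nat_lit 135) (nat_lit 5) (nat_lit 136) (nat_lit 5) (nat_lit 405) (nat_lit 327) (nat_lit 288))) (XT.nd (nat_lit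 78) (nat_lit 608) (nat_lit 0) (XT.lf (nat_lit 0) (nat_lit 5021922891) (nat_lit 380) (nat_lit 4032914217) (nat_lit 76) (nat_lit 2790039802) (nat_lit 126) (nat_lit 5) (nat_lit 131) (nat_lit 5) (nat_lit 127) (nat_lit 5) (nat_lit 406) (nat_lit 327) (nat_lit 287)) (XT.nd (nat_lit 78) (nat_lit 380) (nat_lit 0) (XT.lf (nat_lit 0) (nat_lit 9805964625) (nat_lit 228) (nat_lit 1980875813) (nat_lit 304) (nat_lit 249471011) (nat_lit 123) (nat_lit 5) (nat_lit 126) (nat_lit 5) (nat_lit 127) (nat_lit 5) (nat_lit 407) (nat_lit 327) (nat_lit 286)) (XT.lf (nat_lit 0) (nat_lit 6483927298) (nat_lit 380) (nat_lit 426941776) (nat_lit 76) (nat_lit 5320808394) (nat_lit 118) (nat_lit 5) (nat_lit 123) (nat_lit 5) (nat_lit 119) (nat_lit 5) (nat_lit 408) (nat_lit 327) (nat_lit 285)))))) (XT.nd (nat_lit 390) (nat_lit 1520) (nat_lit 0) (XT.nd (nat_lit 156) (nat_lit 912) (nat_lit 0) (XT.nd (nat_lit 78) (nat_lit 228) (nat_lit 0)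 (XT.lf (nat_lit 0) (nat_lit 1011331998) (nat_lit 380) (nat_lit 10982436497) (nat_lit 76) (nat_lit 438152172) (nat_lit 110) (nat_lit 5) (nat_lit 115) (nat_lit 5) (nat_lit 111) (nat_lit 5) (nat_lit 409) (nat_lit 327) (nat_lit 284)) (XT.lf (nat_lit 0) (nat_lit 3326489477) (nat_lit 228) (nat_lit 4635926835) (nat_lit 304) (nat_lit 4673648616) (nat_lit 107) (nat_lit 5) (nat_lit 110) (nat_lit 5) (nat_lit 111) (nat_lit 5) (nat_lit 410) (nat_lit 327) (nat_lit 283))) (XT.nd (nat_lit 78) (nat_lit 532) (nat_lit 0) (XT.lf (nat_lit 0) (nat_lit 2285276799) (nat_lit 380) (nat_lit 7595356759) (nat_lit 76) (nat_lit 2964615984) (nat_lit 102) (nat_lit 5) (nat_lit 107) (nat_lit 5) (nat_lit 103) (nat_lit 5) (nat_lit 411) (nat_lit 327) (nat_lit 282)) (XT.nd (nat_lit 78) (nat_lit 304) (nat_lit 0) (XT.lf (nat_lit 0) (nat_lit 7192726933) (nat_lit 228) (nat_lit 2250301197) (nat_lit 304) (nat_lit 3615992614) (nat_lit 99) (nat_lit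 5) (nat_lit 102) (nat_lit 5) (nat_lit 103) (nat_lit 5) (nat_lit 412) (nat_lit 327) (nat_lit 281)) (XT.lf (nat_lit 0) (nat_lit 3551330933) (nat_lit 304) (nat_lit 4119327948) (nat_lit 76) (nat_lit 5606858934) (nat_lit 95) (nat_lit 5) (nat_lit 99) (nat_lit 5) (nat_lit 96) (nat_lit 5) (nat_lit 413) (nat_lit 327) (nat_lit 280))))) (XT.nd (nat_lit 156) (nat_lit 988) (nat_lit 0) (XT.nd (nat_lit 78) (nat_lit 304) (nat_lit 0) (XT.lf (nat_lit 0) (nat_lit 10928124809) (nat_lit 304) (nat_lit 2334473714) (nat_lit 76) (nat_lit 238621684) (nat_lit 92) (nat_lit 5) (nat_lit 96) (nat_lit 5) (nat_lit 93) (nat_lit 5) (nat_lit 414) (nat_lit 327) (nat_lit 279)) (XT.lf (nat_lit 0) (nat_lit 4812673598) (nat_lit 304) (nat_lit 552610610) (nat_lit 76) (nat_lit 8364107537) (nat_lit 88) (nat_lit 5) (nat_lit 92) (nat_lit 5) (nat_lit 89) (nat_lit 5) (nat_lit 415) (nat_lit 327) (nat_lit 278))) (XT.nd (nat_lit 78) (nat_lit 532)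 (nat_lit 0) (XT.lf (nat_lit 0) (nat_lit 1290980108) (nat_lit 228) (nat_lit 11152308008) (nat_lit 304) (nat_lit 1519615536) (nat_lit 82) (nat_lit 5) (nat_lit 85) (nat_lit 5) (nat_lit 86) (nat_lit 5) (nat_lit 416) (nat_lit 327) (nat_lit 277)) (XT.nd (nat_lit 78) (nat_lit 228) (nat_lit 0) (XT.lf (nat_lit 0) (nat_lit 3148106825) (nat_lit 228) (nat_lit 2944683410) (nat_lit 304) (nat_lit 8108370957) (nat_lit 78) (nat_lit 5) (nat_lit 81) (nat_lit 5) (nat_lit 82) (nat_lit 5) (nat_lit 417) (nat_lit 327) (nat_lit 276)) (XT.lf (nat_lit 0) (nat_lit 5042187108) (nat_lit 228) (nat_lit 8942670602) (nat_lit 304) (nat_lit 460069153) (nat_lit 75) (nat_lit 5) (nat_lit 78) (nat_lit 5) (nat_lit 79) (nat_lit 5) (nat_lit 418) (nat_lit 327) (nat_lit 275))))))))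
noncomputable def xc27 : XT := (XT.nd (nat_lit 49608) (nat_lit 0) (nat_lit 12160) (XT.nd (nat_lit 48828) (nat_lit 0) (nat_lit 26980) (XT.nd (nat_lit 390) (nat_lit 1368) (nat_lit 0) (XT.nd (nat_lit 156) (nat_lit 608) (nat_lit 0) (XT.nd (nat_lit 78) (nat_lit 304) (nat_lit 0) (XT.lf (nat_lit 0) (nat_lit 6952443197) (nat_lit 152) (nat_lit 425985037) (nat_lit 228) (nat_lit 7315453445) (nat_lit 72) (nat_lit 5) (nat_lit 74) (nat_lit 5) (nat_lit 75) (nat_lit 5) (nat_lit 419) (nat_lit 327) (nat_lit 274)) (XT.lf (nat_lit 0) (nat_lit 584638898) (nat_lit 304) (nat_lit 6061590478) (nat_lit 76) (nat_lit 8302039531) (nat_lit 68) (nat_lit 5) (nat_lit 72) (nat_lit 5) (nat_lit 69) (nat_lit 5) (nat_lit 420) (nat_lit 327) (nat_lit 273))) (XT.nd (nat_lit 78) (nat_lit 456) (nat_lit 0) (XT.lf (nat_lit 0) (nat_lit 8682987194) (nat_lit 228) (nat_lit 4366931049) (nat_lit 76) (nat_lit 2158189574) (nat_lit 66) (nat_lit 5) (nat_lit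 69) (nat_lit 5) (nat_lit 67) (nat_lit 5) (nat_lit 421) (nat_lit 327) (nat_lit 272)) (XT.nd (nat_lit 78) (nat_lit 152) (nat_lit 0) (XT.lf (nat_lit 0) (nat_lit 1618719976) (nat_lit 304) (nat_lit 2645621961) (nat_lit 76) (nat_lit 11209389168) (nat_lit 62) (nat_lit 5) (nat_lit 66) (nat_lit 5) (nat_lit 63) (nat_lit 5) (nat_lit 422) (nat_lit 327) (nat_lit 271)) (XT.lf (nat_lit 0) (nat_lit 9998390206) (nat_lit 228) (nat_lit 916639183) (nat_lit 76) (nat_lit 4829827777) (nat_lit 60) (nat_lit 5) (nat_lit 63) (nat_lit 5) (nat_lit 61) (nat_lit 5) (nat_lit 423) (nat_lit 327) (nat_lit 270))))) (XT.nd (nat_lit 156) (nat_lit 684) (nat_lit 0) (XT.nd (nat_lit 78) (nat_lit 228) (nat_lit 0) (XT.lf (nat_lit 0) (nat_lit 861631647) (nat_lit 152) (nat_lit 1794450526) (nat_lit 228) (nat_lit 13365998163) (nat_lit 54) (nat_lit 5) (nat_lit 56) (nat_lit 5) (nat_lit 57) (nat_lit 5) (nat_lit 424) (nat_lit 327) (nat_lit 269)) (XT.lf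 (nat_lit 0) (nat_lit 2649245282) (nat_lit 228) (nat_lit 8692492153) (nat_lit 304) (nat_lit 4962941052) (nat_lit 51) (nat_lit 5) (nat_lit 54) (nat_lit 5) (nat_lit 55) (nat_lit 5) (nat_lit 425) (nat_lit 327) (nat_lit 268))) (XT.nd (nat_lit 78) (nat_lit 456) (nat_lit 0) (XT.lf (nat_lit 0) (nat_lit 3716305716) (nat_lit 228) (nat_lit 12111438700) (nat_lit 76) (nat_lit 766080283) (nat_lit 48) (nat_lit 5) (nat_lit 51) (nat_lit 5) (nat_lit 49) (nat_lit 5) (nat_lit 426) (nat_lit 327) (nat_lit 267)) (XT.nd (nat_lit 78) (nat_lit 228) (nat_lit 0) (XT.lf (nat_lit 0) (nat_lit 6311784881) (nat_lit 228) (nat_lit 6393218775) (nat_lit 304) (nat_lit 4183655527) (nat_lit 45) (nat_lit 5) (nat_lit 48) (nat_lit 5) (nat_lit 49) (nat_lit 5) (nat_lit 427) (nat_lit 327) (nat_lit 266)) (XT.lf (nat_lit 0) (nat_lit 4791259796) (nat_lit 228) (nat_lit 9013218803) (nat_lit 76) (nat_lit 3385584393) (nat_lit 42) (nat_lit 5) (nat_lit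 45) (nat_lit 5) (nat_lit 43) (nat_lit 5) (nat_lit 428) (nat_lit 327) (nat_lit 265)))))) (XT.nd (nat_lit 390) (nat_lit 5320) (nat_lit 0) (XT.nd (nat_lit 156) (nat_lit 4104) (nat_lit 0) (XT.nd (nat_lit 78) (nat_lit 1748) (nat_lit 0) (XT.lf (nat_lit 0) (nat_lit 825682952) (nat_lit 1748) (nat_lit 1873849917) (nat_lit 0) (nat_lit 825682952) (nat_lit 544) (nat_lit 5) (nat_lit 567) (nat_lit 4) (nat_lit 544) (nat_lit 4) (nat_lit 364) (nat_lit 328) (nat_lit 328)) (XT.lf (nat_lit 0) (nat_lit 4132147999) (nat_lit 1748) (nat_lit 2808358106) (nat_lit 1748) (nat_lit 162134294) (nat_lit 521) (nat_lit 4) (nat_lit 544) (nat_lit 5) (nat_lit 544) (nat_lit 4) (nat_lit 365) (nat_lit 328) (nat_lit 327))) (XT.nd (nat_lit 78) (nat_lit 2204) (nat_lit 0) (XT.lf (nat_lit 0) (nat_lit 5017971484) (nat_lit 1824) (nat_lit 48040708) (nat_lit 1900) (nat_lit 2091669355) (nat_lit 496) (nat_lit 5) (nat_lit 520) (nat_lit 5) (nat_lit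 521) (nat_lit 4) (nat_lit 366) (nat_lit 328) (nat_lit 326)) (XT.nd (nat_lit 78) (nat_lit 988) (nat_lit 0) (XT.lf (nat_lit 0) (nat_lit 3116822905) (nat_lit 1216) (nat_lit 1262540167) (nat_lit 76) (nat_lit 2836073510) (nat_lit 480) (nat_lit 5) (nat_lit 496) (nat_lit 5) (nat_lit 481) (nat_lit 4) (nat_lit 367) (nat_lit 328) (nat_lit 325)) (XT.lf (nat_lit 0) (nat_lit 1073255505) (nat_lit 988) (nat_lit 321021449) (nat_lit 76) (nat_lit 5882013618) (nat_lit 467) (nat_lit 5) (nat_lit 480) (nat_lit 5) (nat_lit 468) (nat_lit 5) (nat_lit 368) (nat_lit 328) (nat_lit 324))))) (XT.nd (nat_lit 156) (nat_lit 2584) (nat_lit 0) (XT.nd (nat_lit 78) (nat_lit 988) (nat_lit 0) (XT.lf (nat_lit 0) (nat_lit 676314502) (nat_lit 836) (nat_lit 5597993420) (nat_lit 912) (nat_lit 1065526198) (nat_lit 444) (nat_lit 5) (nat_lit 455) (nat_lit 5) (nat_lit 456) (nat_lit 4) (nat_lit 369) (nat_lit 328) (nat_lit 323)) (XT.lf (nat_lit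 0) (nat_lit 1726879097) (nat_lit 912) (nat_lit 2372513169) (nat_lit 988) (nat_lit 3306768726) (nat_lit 431) (nat_lit 5) (nat_lit 443) (nat_lit 5) (nat_lit 444) (nat_lit 5) (nat_lit 370) (nat_lit 328) (nat_lit 322))) (XT.nd (nat_lit 78) (nat_lit 1672) (nat_lit 0) (XT.lf (nat_lit 0) (nat_lit 1832083032) (nat_lit 912) (nat_lit 4638641461) (nat_lit 76) (nat_lit 1004822519) (nat_lit 419) (nat_lit 5) (nat_lit 431) (nat_lit 5) (nat_lit 420) (nat_lit 5) (nat_lit 371) (nat_lit 328) (nat_lit 321)) (XT.nd (nat_lit 78) (nat_lit 836) (nat_lit 0) (XT.lf (nat_lit 0) (nat_lit 3993760614) (nat_lit 836) (nat_lit 3026644961) (nat_lit 912) (nat_lit 527367258) (nat_lit 408) (nat_lit 5) (nat_lit 419) (nat_lit 5) (nat_lit 420) (nat_lit 5) (nat_lit 372) (nat_lit 328) (nat_lit 320)) (XT.lf (nat_lit 0) (nat_lit 4610928759) (nat_lit 836) (nat_lit 2422226570) (nat_lit 76) (nat_lit 589776080) (nat_lit 397) (nat_lit 5) (nat_lit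 408) (nat_lit 5) (nat_lit 398) (nat_lit 5) (nat_lit 373) (nat_lit 328) (nat_lit 319))))))) (XT.nd (nat_lit 780) (nat_lit 6308) (nat_lit 0) (XT.nd (nat_lit 390) (nat_lit 3952) (nat_lit 0) (XT.nd (nat_lit 156) (nat_lit 2964) (nat_lit 0) (XT.nd (nat_lit 78) (nat_lit 760) (nat_lit 0) (XT.lf (nat_lit 0) (nat_lit 2117796399) (nat_lit 836) (nat_lit 1247104874) (nat_lit 76) (nat_lit 4336075350) (nat_lit 386) (nat_lit 5) (nat_lit 397) (nat_lit 5) (nat_lit 387) (nat_lit 5) (nat_lit 374) (nat_lit 328) (nat_lit 318)) (XT.lf (nat_lit 0) (nat_lit 7297393621) (nat_lit 836) (nat_lit 14195280) (nat_lit 76) (nat_lit 470639594) (nat_lit 376) (nat_lit 5) (nat_lit 387) (nat_lit 5) (nat_lit 377) (nat_lit 5) (nat_lit 375) (nat_lit 328) (nat_lit 317))) (XT.nd (nat_lit 78) (nat_lit 1444) (nat_lit 0) (XT.lf (nat_lit 0) (nat_lit 1262743966) (nat_lit 684) (nat_lit 3408734755) (nat_lit 760) (nat_lit 3194469645) (nat_lit 356)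 (nat_lit 5) (nat_lit 365) (nat_lit 5) (nat_lit 366) (nat_lit 5) (nat_lit 376) (nat_lit 328) (nat_lit 316)) (XT.nd (nat_lit 78) (nat_lit 684) (nat_lit 0) (XT.lf (nat_lit 0) (nat_lit 1941061617) (nat_lit 760) (nat_lit 5352156689) (nat_lit 76) (nat_lit 659758139) (nat_lit 346) (nat_lit 5) (nat_lit 356) (nat_lit 5) (nat_lit 347) (nat_lit 5) (nat_lit 377) (nat_lit 328) (nat_lit 315)) (XT.lf (nat_lit 0) (nat_lit 3975893576) (nat_lit 684) (nat_lit 3177110019) (nat_lit 760) (nat_lit 889874561) (nat_lit 337) (nat_lit 5) (nat_lit 346) (nat_lit 5) (nat_lit 347) (nat_lit 5) (nat_lit 378) (nat_lit 328) (nat_lit 314))))) (XT.nd (nat_lit 156) (nat_lit 2508) (nat_lit 0) (XT.nd (nat_lit 78) (nat_lit 684) (nat_lit 0) (XT.lf (nat_lit 0) (nat_lit 4280956088) (nat_lit 760) (nat_lit 2739372366) (nat_lit 76) (nat_lit 1115525950) (nat_lit 327) (nat_lit 5) (nat_lit 337) (nat_lit 5) (nat_lit 328) (nat_lit 5) (nat_lit 379)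 (nat_lit 328) (nat_lit 313)) (XT.lf (nat_lit 0) (nat_lit 1315055739) (nat_lit 684) (nat_lit 1369701132) (nat_lit 76) (nat_lit 5547176065) (nat_lit 318) (nat_lit 5) (nat_lit 327) (nat_lit 5) (nat_lit 319) (nat_lit 5) (nat_lit 380) (nat_lit 328) (nat_lit 312))) (XT.nd (nat_lit 78) (nat_lit 1292) (nat_lit 0) (XT.lf (nat_lit 0) (nat_lit 40957515) (nat_lit 608) (nat_lit 6510366928) (nat_lit 684) (nat_lit 1779787985) (nat_lit 302) (nat_lit 5) (nat_lit 310) (nat_lit 5) (nat_lit 311) (nat_lit 5) (nat_lit 381) (nat_lit 328) (nat_lit 311)) (XT.nd (nat_lit 78) (nat_lit 608) (nat_lit 0) (XT.lf (nat_lit 0) (nat_lit 1507680100) (nat_lit 608) (nat_lit 1938831475) (nat_lit 684) (nat_lit 4986676751) (nat_lit 293) (nat_lit 5) (nat_lit 301) (nat_lit 5) (nat_lit 302) (nat_lit 5) (nat_lit 382) (nat_lit 328) (nat_lit 310)) (XT.lf (nat_lit 0) (nat_lit 238578609) (nat_lit 608) (nat_lit 5516978747) (nat_lit 76) (nat_lit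 2783004020) (nat_lit 285) (nat_lit 5) (nat_lit 293) (nat_lit 5) (nat_lit 286) (nat_lit 5) (nat_lit 383) (nat_lit 328) (nat_lit 309)))))) (XT.nd (nat_lit 390) (nat_lit 2888) (nat_lit 0) (XT.nd (nat_lit 156) (nat_lit 2204) (nat_lit 0) (XT.nd (nat_lit 78) (nat_lit 608) (nat_lit 0) (XT.lf (nat_lit 0) (nat_lit 4568144651) (nat_lit 608) (nat_lit 957240925) (nat_lit 684) (nat_lit 3121599938) (nat_lit 277) (nat_lit 5) (nat_lit 285) (nat_lit 5) (nat_lit 286) (nat_lit 5) (nat_lit 384) (nat_lit 328) (nat_lit 308)) (XT.lf (nat_lit 0) (nat_lit 2171007767) (nat_lit 608) (nat_lit 2605276069) (nat_lit 76) (nat_lit 3982333568) (nat_lit 269) (nat_lit 5) (nat_lit 277) (nat_lit 5) (nat_lit 270) (nat_lit 5) (nat_lit 385) (nat_lit 328) (nat_lit 307))) (XT.nd (nat_lit 78) (nat_lit 1672) (nat_lit 0) (XT.lf (nat_lit 0) (nat_lit 7552595328) (nat_lit 608) (nat_lit 1084529274) (nat_lit 76) (nat_lit 236608735) (nat_lit 262)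 (nat_lit 5) (nat_lit 270) (nat_lit 5) (nat_lit 263) (nat_lit 5) (nat_lit 386) (nat_lit 328) (nat_lit 306)) (XT.nd (nat_lit 78) (nat_lit 532) (nat_lit 0) (XT.lf (nat_lit 0) (nat_lit 459927620) (nat_lit 532) (nat_lit 3591799720) (nat_lit 608) (nat_lit 4939998268) (nat_lit 247) (nat_lit 5) (nat_lit 254) (nat_lit 5) (nat_lit 255) (nat_lit 5) (nat_lit 387) (nat_lit 328) (nat_lit 305)) (XT.lf (nat_lit 0) (nat_lit 436369627) (nat_lit 532) (nat_lit 7039828480) (nat_lit 76) (nat_lit 1637074092) (nat_lit 240) (nat_lit 5) (nat_lit 247) (nat_lit 5) (nat_lit 241) (nat_lit 5) (nat_lit 388) (nat_lit 328) (nat_lit 304))))) (XT.nd (nat_lit 156) (nat_lit 1824) (nat_lit 0) (XT.nd (nat_lit 78) (nat_lit 532) (nat_lit 0) (XT.lf (nat_lit 0) (nat_lit 3707187393) (nat_lit 532) (nat_lit 2196086891) (nat_lit 608) (nat_lit 3334610618) (nat_lit 233) (nat_lit 5) (nat_lit 240) (nat_lit 5) (nat_lit 241) (nat_lit 5) (nat_lit 389)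 (nat_lit 328) (nat_lit 303)) (XT.lf (nat_lit 0) (nat_lit 2135163731) (nat_lit 532) (nat_lit 3982805512) (nat_lit 76) (nat_lit 3248072294) (nat_lit 226) (nat_lit 5) (nat_lit 233) (nat_lit 5) (nat_lit 227) (nat_lit 5) (nat_lit 390) (nat_lit 328) (nat_lit 302))) (XT.nd (nat_lit 78) (nat_lit 1368) (nat_lit 0) (XT.lf (nat_lit 0) (nat_lit 7100503628) (nat_lit 456) (nat_lit 614989118) (nat_lit 532) (nat_lit 1782273975) (nat_lit 220) (nat_lit 5) (nat_lit 226) (nat_lit 5) (nat_lit 227) (nat_lit 5) (nat_lit 391) (nat_lit 328) (nat_lit 301)) (XT.nd (nat_lit 78) (nat_lit 836) (nat_lit 0) (XT.lf (nat_lit 0) (nat_lit 3791933417) (nat_lit 532) (nat_lit 794541717) (nat_lit 76) (nat_lit 5046223740) (nat_lit 213) (nat_lit 5) (nat_lit 220) (nat_lit 5) (nat_lit 214) (nat_lit 5) (nat_lit 392) (nat_lit 328) (nat_lit 300)) (XT.lf (nat_lit 0) (nat_lit 871360169) (nat_lit 380) (nat_lit 8636701231) (nat_lit 456) (nat_lit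 263403805) (nat_lit 202) (nat_lit 5) (nat_lit 207) (nat_lit 5) (nat_lit 208) (nat_lit 5) (nat_lit 393) (nat_lit 328) (nat_lit 299))))))))
noncomputable def xc28 : XT := (XT.nd (nat_lit 1482) (nat_lit 4332) (nat_lit 0) (XT.nd (nat_lit 702) (nat_lit 3496) (nat_lit 0) (XT.nd (nat_lit 312) (nat_lit 2280) (nat_lit 0) (XT.nd (nat_lit 156) (nat_lit 836) (nat_lit 0) (XT.nd (nat_lit 78) (nat_lit 456) (nat_lit 0) (XT.lf (nat_lit 0) (nat_lit 2557633973) (nat_lit 456) (nat_lit 2871813689) (nat_lit 532) (nat_lit 4483833965) (nat_lit 195) (nat_lit 5) (nat_lit 201) (nat_lit 5) (nat_lit 202) (nat_lit 5) (nat_lit 394) (nat_lit 328) (nat_lit 298)) (XT.lf (nat_lit 0) (nat_lit 1220424728) (nat_lit 456) (nat_lit 5768240329) (nat_lit 76) (nat_lit 3070365507) (nat_lit 189) (nat_lit 5) (nat_lit 195) (nat_lit 5) (nat_lit 190) (nat_lit 5) (nat_lit 395) (nat_lit 328) (nat_lit 297))) (XT.nd (nat_lit 78) (nat_lit 456) (nat_lit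 0) (XT.lf (nat_lit 0) (nat_lit 6052110281) (nat_lit 380) (nat_lit 990887935) (nat_lit 456) (nat_lit 3165398895) (nat_lit 184) (nat_lit 5) (nat_lit 189) (nat_lit 5) (nat_lit 190) (nat_lit 5) (nat_lit 396) (nat_lit 328) (nat_lit 296)) (XT.lf (nat_lit 0) (nat_lit 2667746886) (nat_lit 456) (nat_lit 2521586045) (nat_lit 76) (nat_lit 5172066672) (nat_lit 178) (nat_lit 5) (nat_lit 184) (nat_lit 5) (nat_lit 179) (nat_lit 5) (nat_lit 397) (nat_lit 328) (nat_lit 295)))) (XT.nd (nat_lit 156) (nat_lit 1140) (nat_lit 0) (XT.nd (nat_lit 78) (nat_lit 760) (nat_lit 0) (XT.lf (nat_lit 0) (nat_lit 8639645332) (nat_lit 456) (nat_lit 846892458) (nat_lit 76) (nat_lit 1031900642) (nat_lit 173) (nat_lit 5) (nat_lit 179) (nat_lit 5) (nat_lit 174) (nat_lit 5) (nat_lit 398) (nat_lit 328) (nat_lit 294)) (XT.lf (nat_lit 0) (nat_lit 852697512) (nat_lit 380) (nat_lit 3239940512) (nat_lit 456) (nat_lit 6586295924) (nat_lit 163)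 (nat_lit 5) (nat_lit 168) (nat_lit 5) (nat_lit 169) (nat_lit 5) (nat_lit 399) (nat_lit 328) (nat_lit 293))) (XT.nd (nat_lit 78) (nat_lit 836) (nat_lit 0) (XT.lf (nat_lit 0) (nat_lit 2606262411) (nat_lit 304) (nat_lit 7635886412) (nat_lit 380) (nat_lit 601357884) (nat_lit 159) (nat_lit 5) (nat_lit 163) (nat_lit 5) (nat_lit 164) (nat_lit 5) (nat_lit 400) (nat_lit 328) (nat_lit 292)) (XT.nd (nat_lit 78) (nat_lit 380) (nat_lit 0) (XT.lf (nat_lit 0) (nat_lit 4378877253) (nat_lit 380) (nat_lit 1132845651) (nat_lit 456) (nat_lit 5500140234) (nat_lit 153) (nat_lit 5) (nat_lit 158) (nat_lit 5) (nat_lit 159) (nat_lit 5) (nat_lit 401) (nat_lit 328) (nat_lit 291)) (XT.lf (nat_lit 0) (nat_lit 645421733) (nat_lit 380) (nat_lit 4999806265) (nat_lit 76) (nat_lit 5539109923) (nat_lit 148) (nat_lit 5) (nat_lit 153) (nat_lit 5) (nat_lit 149) (nat_lit 5) (nat_lit 402) (nat_lit 328) (nat_lit 290)))))) (XT.nd (nat_lit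 390) (nat_lit 1596) (nat_lit 0) (XT.nd (nat_lit 156) (nat_lit 1216) (nat_lit 0) (XT.nd (nat_lit 78) (nat_lit 380) (nat_lit 0) (XT.lf (nat_lit 0) (nat_lit 6920179457) (nat_lit 380) (nat_lit 3343965562) (nat_lit 76) (nat_lit 1096723725) (nat_lit 144) (nat_lit 5) (nat_lit 149) (nat_lit 5) (nat_lit 145) (nat_lit 5) (nat_lit 403) (nat_lit 328) (nat_lit 289)) (XT.lf (nat_lit 0) (nat_lit 1861059659) (nat_lit 380) (nat_lit 1663343994) (nat_lit 76) (nat_lit 8017158576) (nat_lit 139) (nat_lit 5) (nat_lit 144) (nat_lit 5) (nat_lit 140) (nat_lit 5) (nat_lit 404) (nat_lit 328) (nat_lit 288))) (XT.nd (nat_lit 78) (nat_lit 608) (nat_lit 0) (XT.lf (nat_lit 0) (nat_lit 41062331) (nat_lit 304) (nat_lit 8282543353) (nat_lit 380) (nat_lit 3402842252) (nat_lit 131) (nat_lit 5) (nat_lit 135) (nat_lit 5) (nat_lit 136) (nat_lit 5) (nat_lit 405) (nat_lit 328) (nat_lit 287)) (XT.nd (nat_lit 78) (nat_lit 228) (nat_lit 0) (XT.lf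 (nat_lit 0) (nat_lit 1800552229) (nat_lit 304) (nat_lit 1268493432) (nat_lit 380) (nat_lit 8846515364) (nat_lit 126) (nat_lit 5) (nat_lit 130) (nat_lit 5) (nat_lit 131) (nat_lit 5) (nat_lit 406) (nat_lit 328) (nat_lit 286)) (XT.lf (nat_lit 0) (nat_lit 3575827700) (nat_lit 228) (nat_lit 6165332538) (nat_lit 304) (nat_lit 2367691386) (nat_lit 123) (nat_lit 5) (nat_lit 126) (nat_lit 5) (nat_lit 127) (nat_lit 5) (nat_lit 407) (nat_lit 328) (nat_lit 285))))) (XT.nd (nat_lit 156) (nat_lit 988) (nat_lit 0) (XT.nd (nat_lit 78) (nat_lit 228) (nat_lit 0) (XT.lf (nat_lit 0) (nat_lit 4280298208) (nat_lit 380) (nat_lit 6921154295) (nat_lit 76) (nat_lit 1105303990) (nat_lit 118) (nat_lit 5) (nat_lit 123) (nat_lit 5) (nat_lit 119) (nat_lit 5) (nat_lit 408) (nat_lit 328) (nat_lit 284)) (XT.lf (nat_lit 0) (nat_lit 7217353392) (nat_lit 228) (nat_lit 3937411720) (nat_lit 304) (nat_lit 1354336280) (nat_lit 115) (nat_lit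 5) (nat_lit 118) (nat_lit 5) (nat_lit 119) (nat_lit 5) (nat_lit 409) (nat_lit 328) (nat_lit 283))) (XT.nd (nat_lit 78) (nat_lit 608) (nat_lit 0) (XT.lf (nat_lit 0) (nat_lit 5489136945) (nat_lit 380) (nat_lit 3646384564) (nat_lit 76) (nat_lit 3580407479) (nat_lit 110) (nat_lit 5) (nat_lit 115) (nat_lit 5) (nat_lit 111) (nat_lit 5) (nat_lit 410) (nat_lit 328) (nat_lit 282)) (XT.nd (nat_lit 78) (nat_lit 380) (nat_lit 0) (XT.lf (nat_lit 0) (nat_lit 10967445153) (nat_lit 228) (nat_lit 1600733039) (nat_lit 304) (nat_lit 359630895) (nat_lit 107) (nat_lit 5) (nat_lit 110) (nat_lit 5) (nat_lit 111) (nat_lit 5) (nat_lit 411) (nat_lit 328) (nat_lit 281)) (XT.lf (nat_lit 0) (nat_lit 6690668621) (nat_lit 380) (nat_lit 281122889) (nat_lit 76) (nat_lit 6172078847) (nat_lit 102) (nat_lit 5) (nat_lit 107) (nat_lit 5) (nat_lit 103) (nat_lit 5) (nat_lit 412) (nat_lit 328) (nat_lit 280))))))) (XT.nd (nat_lit 780) (nat_lit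 1368) (nat_lit 0) (XT.nd (nat_lit 390) (nat_lit 1368) (nat_lit 0) (XT.nd (nat_lit 156) (nat_lit 836) (nat_lit 0) (XT.nd (nat_lit 78) (nat_lit 228) (nat_lit 0) (XT.lf (nat_lit 0) (nat_lit 626430865) (nat_lit 304) (nat_lit 11892923367) (nat_lit 76) (nat_lit 845879646) (nat_lit 95) (nat_lit 5) (nat_lit 99) (nat_lit 5) (nat_lit 96) (nat_lit 5) (nat_lit 413) (nat_lit 328) (nat_lit 279)) (XT.lf (nat_lit 0) (nat_lit 3218478531) (nat_lit 228) (nat_lit 4690502430) (nat_lit 304) (nat_lit 5681840186) (nat_lit 92) (nat_lit 5) (nat_lit 95) (nat_lit 5) (nat_lit 96) (nat_lit 5) (nat_lit 414) (nat_lit 328) (nat_lit 278))) (XT.nd (nat_lit 78) (nat_lit 532) (nat_lit 0) (XT.lf (nat_lit 0) (nat_lit 1619753947) (nat_lit 304) (nat_lit 8809916775) (nat_lit 76) (nat_lit 3392224576) (nat_lit 88) (nat_lit 5) (nat_lit 92) (nat_lit 5) (nat_lit 89) (nat_lit 5) (nat_lit 415) (nat_lit 328) (nat_lit 277)) (XT.nd (nat_lit 78) (nat_lit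 304) (nat_lit 0) (XT.lf (nat_lit 0) (nat_lit 6817118614) (nat_lit 228) (nat_lit 2311581976) (nat_lit 304) (nat_lit 4929139973) (nat_lit 85) (nat_lit 5) (nat_lit 88) (nat_lit 5) (nat_lit 89) (nat_lit 5) (nat_lit 416) (nat_lit 328) (nat_lit 276)) (XT.lf (nat_lit 0) (nat_lit 2604312887) (nat_lit 304) (nat_lit 5651270524) (nat_lit 76) (nat_lit 6043430819) (nat_lit 81) (nat_lit 5) (nat_lit 85) (nat_lit 5) (nat_lit 82) (nat_lit 5) (nat_lit 417) (nat_lit 328) (nat_lit 275))))) (XT.nd (nat_lit 156) (nat_lit 836) (nat_lit 0) (XT.nd (nat_lit 78) (nat_lit 304) (nat_lit 0) (XT.lf (nat_lit 0) (nat_lit 10351979261) (nat_lit 304) (nat_lit 4033449288) (nat_lit 76) (nat_lit 160239373) (nat_lit 78) (nat_lit 5) (nat_lit 82) (nat_lit 5) (nat_lit 79) (nat_lit 5) (nat_lit 418) (nat_lit 328) (nat_lit 274)) (XT.lf (nat_lit 0) (nat_lit 3582612808) (nat_lit 304) (nat_lit 2415359956) (nat_lit 76) (nat_lit 8799358056) (nat_lit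 74) (nat_lit 5) (nat_lit 78) (nat_lit 5) (nat_lit 75) (nat_lit 5) (nat_lit 419) (nat_lit 328) (nat_lit 273))) (XT.nd (nat_lit 78) (nat_lit 684) (nat_lit 0) (XT.lf (nat_lit 0) (nat_lit 11596225580) (nat_lit 228) (nat_lit 763342131) (nat_lit 76) (nat_lit 2695201528) (nat_lit 72) (nat_lit 5) (nat_lit 75) (nat_lit 5) (nat_lit 73) (nat_lit 5) (nat_lit 420) (nat_lit 328) (nat_lit 272)) (XT.nd (nat_lit 78) (nat_lit 228) (nat_lit 0) (XT.lf (nat_lit 0) (nat_lit 911633897) (nat_lit 152) (nat_lit 3651327528) (nat_lit 228) (nat_lit 10754539881) (nat_lit 66) (nat_lit 5) (nat_lit 68) (nat_lit 5) (nat_lit 69) (nat_lit 5) (nat_lit 421) (nat_lit 328) (nat_lit 271)) (XT.lf (nat_lit 0) (nat_lit 2620969295) (nat_lit 228) (nat_lit 10245223688) (nat_lit 304) (nat_lit 2719703746) (nat_lit 63) (nat_lit 5) (nat_lit 66) (nat_lit 5) (nat_lit 67) (nat_lit 5) (nat_lit 422) (nat_lit 328) (nat_lit 270)))))) (XT.nd (nat_lit 390)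 (nat_lit 228) (nat_lit 0) (XT.nd (nat_lit 156) (nat_lit 684) (nat_lit 0) (XT.nd (nat_lit 78) (nat_lit 228) (nat_lit 0) (XT.lf (nat_lit 0) (nat_lit 4353027744) (nat_lit 152) (nat_lit 1205120556) (nat_lit 228) (nat_lit 10301977404) (nat_lit 60) (nat_lit 5) (nat_lit 62) (nat_lit 5) (nat_lit 63) (nat_lit 5) (nat_lit 423) (nat_lit 328) (nat_lit 269)) (XT.lf (nat_lit 0) (nat_lit 6098560026) (nat_lit 228) (nat_lit 8054529359) (nat_lit 304) (nat_lit 1987018547) (nat_lit 57) (nat_lit 5) (nat_lit 60) (nat_lit 5) (nat_lit 61) (nat_lit 5) (nat_lit 424) (nat_lit 328) (nat_lit 268))) (XT.nd (nat_lit 78) (nat_lit 456) (nat_lit 0) (XT.lf (nat_lit 0) (nat_lit 6563087135) (nat_lit 228) (nat_lit 8555893341) (nat_lit 76) (nat_lit 1307215821) (nat_lit 54) (nat_lit 5) (nat_lit 57) (nat_lit 5) (nat_lit 55) (nat_lit 5) (nat_lit 425) (nat_lit 328) (nat_lit 267)) (XT.nd (nat_lit 78) (nat_lit 228) (nat_lit 0) (XT.lf (nat_lit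 0) (nat_lit 9661755982) (nat_lit 228) (nat_lit 5792745274) (nat_lit 304) (nat_lit 1263867352) (nat_lit 51) (nat_lit 5) (nat_lit 54) (nat_lit 5) (nat_lit 55) (nat_lit 5) (nat_lit 426) (nat_lit 328) (nat_lit 266)) (XT.lf (nat_lit 0) (nat_lit 7579667917) (nat_lit 228) (nat_lit 5550329474) (nat_lit 76) (nat_lit 3886604588) (nat_lit 48) (nat_lit 5) (nat_lit 51) (nat_lit 5) (nat_lit 49) (nat_lit 5) (nat_lit 427) (nat_lit 328) (nat_lit 265))))) (XT.nd (nat_lit 48048) (nat_lit 0) (nat_lit 36100) (XT.nd (nat_lit 47970) (nat_lit 0) (nat_lit 41268) (XT.lf (nat_lit 0) (nat_lit 13313249801) (nat_lit 228) (nat_lit 3459727884) (nat_lit 304) (nat_lit 548604794) (nat_lit 45) (nat_lit 5) (nat_lit 48) (nat_lit 5) (nat_lit 49) (nat_lit 5) (nat_lit 428) (nat_lit 328) (nat_lit 264)) (XT.lf (nat_lit 0) (nat_lit 477322539) (nat_lit 1596) (nat_lit 2521994619) (nat_lit 0) (nat_lit 477322539) (nat_lit 588) (nat_lit 5) (nat_lit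 609) (nat_lit 4) (nat_lit 588) (nat_lit 4) (nat_lit 362) (nat_lit 329) (nat_lit 329))) (XT.nd (nat_lit 78) (nat_lit 3572) (nat_lit 0) (XT.lf (nat_lit 0) (nat_lit 2534187194) (nat_lit 1596) (nat_lit 3623527097) (nat_lit 1596) (nat_lit 843404360) (nat_lit 567) (nat_lit 4) (nat_lit 588) (nat_lit 5) (nat_lit 588) (nat_lit 4) (nat_lit 363) (nat_lit 329) (nat_lit 328)) (XT.nd (nat_lit 78) (nat_lit 1824) (nat_lit 0) (XT.lf (nat_lit 0) (nat_lit 3219265712) (nat_lit 1672) (nat_lit 1086940593) (nat_lit 1748) (nat_lit 2745640742) (nat_lit 544) (nat_lit 5) (nat_lit 566) (nat_lit 5) (nat_lit 567) (nat_lit 4) (nat_lit 364) (nat_lit 329) (nat_lit 327)) (XT.lf (nat_lit 0) (nat_lit 2374436474) (nat_lit 1824) (nat_lit 3144621991) (nat_lit 76) (nat_lit 1586357444) (nat_lit 520) (nat_lit 5) (nat_lit 544) (nat_lit 5) (nat_lit 521) (nat_lit 4) (nat_lit 365) (nat_lit 329) (nat_lit 326))))))))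
noncomputable def xc29 : XT := (XT.nd (nat_lit 1482) (nat_lit 10488) (nat_lit 0) (XT.nd (nat_lit 702) (nat_lit 8284) (nat_lit 0) (XT.nd (nat_lit 312) (nat_lit 4332) (nat_lit 0) (XT.nd (nat_lit 156) (nat_lit 2812) (nat_lit 0) (XT.nd (nat_lit 78) (nat_lit 1140) (nat_lit 0) (XT.lf (nat_lit 0) (nat_lit 357767079) (nat_lit 1900) (nat_lit 2400168774) (nat_lit 76) (nat_lit 4403972662) (nat_lit 495) (nat_lit 5) (nat_lit 520) (nat_lit 5) (nat_lit 496) (nat_lit 5) (nat_lit 366) (nat_lit 329) (nat_lit 325)) (XT.lf (nat_lit 0) (nat_lit 5445869134) (nat_lit 1216) (nat_lit 1604219898) (nat_lit 76) (nat_lit 171162060) (nat_lit 480) (nat_lit 5) (nat_lit 496) (nat_lit 5) (nat_lit 481) (nat_lit 4) (nat_lit 367) (nat_lit 329) (nat_lit 324))) (XT.nd (nat_lit 78) (nat_lit 1824) (nat_lit 0) (XT.lf (nat_lit 0) (nat_lit 3291289474) (nat_lit 988) (nat_lit 765399464) (nat_lit 76) (nat_lit 3226609028) (nat_lit 467) (nat_lit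 5) (nat_lit 480) (nat_lit 5) (nat_lit 468) (nat_lit 5) (nat_lit 368) (nat_lit 329) (nat_lit 323)) (XT.lf (nat_lit 0) (nat_lit 139113144) (nat_lit 836) (nat_lit 902080445) (nat_lit 912) (nat_lit 6307284846) (nat_lit 443) (nat_lit 5) (nat_lit 454) (nat_lit 5) (nat_lit 455) (nat_lit 5) (nat_lit 369) (nat_lit 329) (nat_lit 322)))) (XT.nd (nat_lit 156) (nat_lit 2508) (nat_lit 0) (XT.nd (nat_lit 78) (nat_lit 912) (nat_lit 0) (XT.lf (nat_lit 0) (nat_lit 1094648559) (nat_lit 912) (nat_lit 5017757225) (nat_lit 988) (nat_lit 1303855794) (nat_lit 431) (nat_lit 5) (nat_lit 443) (nat_lit 5) (nat_lit 444) (nat_lit 5) (nat_lit 370) (nat_lit 329) (nat_lit 321)) (XT.lf (nat_lit 0) (nat_lit 2101889935) (nat_lit 836) (nat_lit 1626729117) (nat_lit 912) (nat_lit 3758370628) (nat_lit 419) (nat_lit 5) (nat_lit 430) (nat_lit 5) (nat_lit 431) (nat_lit 5) (nat_lit 371) (nat_lit 329) (nat_lit 320))) (XT.nd (nat_lit 78) (nat_lit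 1596) (nat_lit 0) (XT.lf (nat_lit 0) (nat_lit 1256235744) (nat_lit 912) (nat_lit 4398818478) (nat_lit 76) (nat_lit 1905658644) (nat_lit 407) (nat_lit 5) (nat_lit 419) (nat_lit 5) (nat_lit 408) (nat_lit 5) (nat_lit 372) (nat_lit 329) (nat_lit 319)) (XT.nd (nat_lit 78) (nat_lit 836) (nat_lit 0) (XT.lf (nat_lit 0) (nat_lit 4267769882) (nat_lit 760) (nat_lit 2043689815) (nat_lit 836) (nat_lit 1325866376) (nat_lit 397) (nat_lit 5) (nat_lit 407) (nat_lit 5) (nat_lit 408) (nat_lit 5) (nat_lit 373) (nat_lit 329) (nat_lit 318)) (XT.lf (nat_lit 0) (nat_lit 3696521184) (nat_lit 836) (nat_lit 2297432661) (nat_lit 76) (nat_lit 1722904441) (nat_lit 386) (nat_lit 5) (nat_lit 397) (nat_lit 5) (nat_lit 387) (nat_lit 5) (nat_lit 374) (nat_lit 329) (nat_lit 317)))))) (XT.nd (nat_lit 390) (nat_lit 3800) (nat_lit 0) (XT.nd (nat_lit 156) (nat_lit 2888) (nat_lit 0) (XT.nd (nat_lit 78) (nat_lit 760) (nat_lit 0) (XT.lf (nat_lit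 0) (nat_lit 989031808) (nat_lit 836) (nat_lit 1176181043) (nat_lit 76) (nat_lit 5634254088) (nat_lit 375) (nat_lit 5) (nat_lit 386) (nat_lit 5) (nat_lit 376) (nat_lit 5) (nat_lit 375) (nat_lit 329) (nat_lit 316)) (XT.lf (nat_lit 0) (nat_lit 6045572768) (nat_lit 836) (nat_lit 15437800) (nat_lit 76) (nat_lit 1823981563) (nat_lit 365) (nat_lit 5) (nat_lit 376) (nat_lit 5) (nat_lit 366) (nat_lit 5) (nat_lit 376) (nat_lit 329) (nat_lit 315))) (XT.nd (nat_lit 78) (nat_lit 1444) (nat_lit 0) (XT.lf (nat_lit 0) (nat_lit 1203298933) (nat_lit 684) (nat_lit 1998974402) (nat_lit 760) (nat_lit 4771092255) (nat_lit 346) (nat_lit 5) (nat_lit 355) (nat_lit 5) (nat_lit 356) (nat_lit 5) (nat_lit 377) (nat_lit 329) (nat_lit 314)) (XT.nd (nat_lit 78) (nat_lit 684) (nat_lit 0) (XT.lf (nat_lit 0) (nat_lit 261768024) (nat_lit 760) (nat_lit 5592608467) (nat_lit 76) (nat_lit 2210536783) (nat_lit 336) (nat_lit 5) (nat_lit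 346) (nat_lit 5) (nat_lit 337) (nat_lit 5) (nat_lit 378) (nat_lit 329) (nat_lit 313)) (XT.lf (nat_lit 0) (nat_lit 3774440558) (nat_lit 684) (nat_lit 1568171748) (nat_lit 760) (nat_lit 2816727972) (nat_lit 327) (nat_lit 5) (nat_lit 336) (nat_lit 5) (nat_lit 337) (nat_lit 5) (nat_lit 379) (nat_lit 329) (nat_lit 312))))) (XT.nd (nat_lit 156) (nat_lit 2508) (nat_lit 0) (XT.nd (nat_lit 78) (nat_lit 608) (nat_lit 0) (XT.lf (nat_lit 0) (nat_lit 2258397651) (nat_lit 684) (nat_lit 3135688286) (nat_lit 76) (nat_lit 2862822317) (nat_lit 318) (nat_lit 5) (nat_lit 327) (nat_lit 5) (nat_lit 319) (nat_lit 5) (nat_lit 380) (nat_lit 329) (nat_lit 311)) (XT.lf (nat_lit 0) (nat_lit 6517168229) (nat_lit 608) (nat_lit 894754210) (nat_lit 684) (nat_lit 945820184) (nat_lit 310) (nat_lit 5) (nat_lit 318) (nat_lit 5) (nat_lit 319) (nat_lit 5) (nat_lit 381) (nat_lit 329) (nat_lit 310))) (XT.nd (nat_lit 78) (nat_lit 1824)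 (nat_lit 0) (XT.lf (nat_lit 0) (nat_lit 4183589417) (nat_lit 684) (nat_lit 522176777) (nat_lit 76) (nat_lit 3755663081) (nat_lit 301) (nat_lit 5) (nat_lit 310) (nat_lit 5) (nat_lit 302) (nat_lit 5) (nat_lit 382) (nat_lit 329) (nat_lit 309)) (XT.nd (nat_lit 78) (nat_lit 608) (nat_lit 0) (XT.lf (nat_lit 0) (nat_lit 845012730) (nat_lit 608) (nat_lit 7703858229) (nat_lit 76) (nat_lit 19701447) (nat_lit 285) (nat_lit 5) (nat_lit 293) (nat_lit 5) (nat_lit 286) (nat_lit 5) (nat_lit 383) (nat_lit 329) (nat_lit 308)) (XT.lf (nat_lit 0) (nat_lit 2274242410) (nat_lit 608) (nat_lit 3786388218) (nat_lit 684) (nat_lit 2617789696) (nat_lit 277) (nat_lit 5) (nat_lit 285) (nat_lit 5) (nat_lit 286) (nat_lit 5) (nat_lit 384) (nat_lit 329) (nat_lit 307))))))) (XT.nd (nat_lit 780) (nat_lit 4712) (nat_lit 0) (XT.nd (nat_lit 390) (nat_lit 2432) (nat_lit 0) (XT.nd (nat_lit 156) (nat_lit 2204) (nat_lit 0) (XT.nd (nat_lit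 78) (nat_lit 532) (nat_lit 0) (XT.lf (nat_lit 0) (nat_lit 2578287731) (nat_lit 608) (nat_lit 5056481646) (nat_lit 76) (nat_lit 1157015870) (nat_lit 269) (nat_lit 5) (nat_lit 277) (nat_lit 5) (nat_lit 270) (nat_lit 5) (nat_lit 385) (nat_lit 329) (nat_lit 306)) (XT.lf (nat_lit 0) (nat_lit 5229859175) (nat_lit 532) (nat_lit 2657313341) (nat_lit 608) (nat_lit 1021182720) (nat_lit 262) (nat_lit 5) (nat_lit 269) (nat_lit 5) (nat_lit 270) (nat_lit 5) (nat_lit 386) (nat_lit 329) (nat_lit 305))) (XT.nd (nat_lit 78) (nat_lit 1596) (nat_lit 0) (XT.lf (nat_lit 0) (nat_lit 4255917208) (nat_lit 608) (nat_lit 2271652774) (nat_lit 76) (nat_lit 2500575204) (nat_lit 254) (nat_lit 5) (nat_lit 262) (nat_lit 5) (nat_lit 255) (nat_lit 5) (nat_lit 387) (nat_lit 329) (nat_lit 304)) (XT.nd (nat_lit 78) (nat_lit 988) (nat_lit 0) (XT.lf (nat_lit 0) (nat_lit 508914424) (nat_lit 608) (nat_lit 819405974) (nat_lit 76) (nat_lit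 7823210097) (nat_lit 246) (nat_lit 5) (nat_lit 254) (nat_lit 5) (nat_lit 247) (nat_lit 5) (nat_lit 388) (nat_lit 329) (nat_lit 303)) (XT.lf (nat_lit 0) (nat_lit 657067696) (nat_lit 532) (nat_lit 5232140817) (nat_lit 608) (nat_lit 3388666896) (nat_lit 233) (nat_lit 5) (nat_lit 240) (nat_lit 5) (nat_lit 241) (nat_lit 5) (nat_lit 389) (nat_lit 329) (nat_lit 302))))) (XT.nd (nat_lit 156) (nat_lit 1444) (nat_lit 0) (XT.nd (nat_lit 78) (nat_lit 456) (nat_lit 0) (XT.lf (nat_lit 0) (nat_lit 1988927782) (nat_lit 532) (nat_lit 7212203560) (nat_lit 76) (nat_lit 206765494) (nat_lit 226) (nat_lit 5) (nat_lit 233) (nat_lit 5) (nat_lit 227) (nat_lit 5) (nat_lit 390) (nat_lit 329) (nat_lit 301)) (XT.lf (nat_lit 0) (nat_lit 3751431918) (nat_lit 456) (nat_lit 3744903545) (nat_lit 532) (nat_lit 2044744984) (nat_lit 220) (nat_lit 5) (nat_lit 226) (nat_lit 5) (nat_lit 227) (nat_lit 5) (nat_lit 391) (nat_lit 329) (nat_lit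 300))) (XT.nd (nat_lit 78) (nat_lit 912) (nat_lit 0) (XT.lf (nat_lit 0) (nat_lit 3438956448) (nat_lit 532) (nat_lit 4330644653) (nat_lit 76) (nat_lit 1908324548) (nat_lit 213) (nat_lit 5) (nat_lit 220) (nat_lit 5) (nat_lit 214) (nat_lit 5) (nat_lit 392) (nat_lit 329) (nat_lit 299)) (XT.nd (nat_lit 78) (nat_lit 456) (nat_lit 0) (XT.lf (nat_lit 0) (nat_lit 6980193695) (nat_lit 456) (nat_lit 2088378404) (nat_lit 532) (nat_lit 749850128) (nat_lit 207) (nat_lit 5) (nat_lit 213) (nat_lit 5) (nat_lit 214) (nat_lit 5) (nat_lit 393) (nat_lit 329) (nat_lit 298)) (XT.lf (nat_lit 0) (nat_lit 4850740372) (nat_lit 456) (nat_lit 1329757990) (nat_lit 76) (nat_lit 3781776268) (nat_lit 201) (nat_lit 5) (nat_lit 207) (nat_lit 5) (nat_lit 202) (nat_lit 5) (nat_lit 394) (nat_lit 329) (nat_lit 297)))))) (XT.nd (nat_lit 390) (nat_lit 2204) (nat_lit 0) (XT.nd (nat_lit 156) (nat_lit 1216) (nat_lit 0) (XT.nd (nat_lit 78)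 (nat_lit 380) (nat_lit 0) (XT.lf (nat_lit 0) (nat_lit 232328581) (nat_lit 380) (nat_lit 264097123) (nat_lit 456) (nat_lit 9613769995) (nat_lit 189) (nat_lit 5) (nat_lit 194) (nat_lit 5) (nat_lit 195) (nat_lit 5) (nat_lit 395) (nat_lit 329) (nat_lit 296)) (XT.lf (nat_lit 0) (nat_lit 1813571875) (nat_lit 380) (nat_lit 4427928752) (nat_lit 456) (nat_lit 4019611590) (nat_lit 184) (nat_lit 5) (nat_lit 189) (nat_lit 5) (nat_lit 190) (nat_lit 5) (nat_lit 396) (nat_lit 329) (nat_lit 295))) (XT.nd (nat_lit 78) (nat_lit 760) (nat_lit 0) (XT.lf (nat_lit 0) (nat_lit 1725684327) (nat_lit 456) (nat_lit 6971327176) (nat_lit 76) (nat_lit 1719195190) (nat_lit 178) (nat_lit 5) (nat_lit 184) (nat_lit 5) (nat_lit 179) (nat_lit 5) (nat_lit 397) (nat_lit 329) (nat_lit 294)) (XT.nd (nat_lit 78) (nat_lit 380) (nat_lit 0) (XT.lf (nat_lit 0) (nat_lit 5094603430) (nat_lit 380) (nat_lit 2519517783) (nat_lit 456) (nat_lit 2960793540)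 (nat_lit 173) (nat_lit 5) (nat_lit 178) (nat_lit 5) (nat_lit 179) (nat_lit 5) (nat_lit 398) (nat_lit 329) (nat_lit 293)) (XT.lf (nat_lit 0) (nat_lit 2925264117) (nat_lit 380) (nat_lit 3962136378) (nat_lit 76) (nat_lit 3850141556) (nat_lit 168) (nat_lit 5) (nat_lit 173) (nat_lit 5) (nat_lit 169) (nat_lit 5) (nat_lit 399) (nat_lit 329) (nat_lit 292))))) (XT.nd (nat_lit 156) (nat_lit 1444) (nat_lit 0) (XT.nd (nat_lit 78) (nat_lit 380) (nat_lit 0) (XT.lf (nat_lit 0) (nat_lit 8495912542) (nat_lit 380) (nat_lit 468786556) (nat_lit 456) (nat_lit 1939617228) (nat_lit 163) (nat_lit 5) (nat_lit 168) (nat_lit 5) (nat_lit 169) (nat_lit 5) (nat_lit 400) (nat_lit 329) (nat_lit 291)) (XT.lf (nat_lit 0) (nat_lit 4097884446) (nat_lit 380) (nat_lit 848587280) (nat_lit 76) (nat_lit 6128237422) (nat_lit 158) (nat_lit 5) (nat_lit 163) (nat_lit 5) (nat_lit 159) (nat_lit 5) (nat_lit 401) (nat_lit 329) (nat_lit 290))) (XT.nd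 (nat_lit 78) (nat_lit 760) (nat_lit 0) (XT.lf (nat_lit 0) (nat_lit 767269294) (nat_lit 304) (nat_lit 9546702696) (nat_lit 380) (nat_lit 935509095) (nat_lit 149) (nat_lit 5) (nat_lit 153) (nat_lit 5) (nat_lit 154) (nat_lit 5) (nat_lit 402) (nat_lit 329) (nat_lit 289)) (XT.nd (nat_lit 78) (nat_lit 380) (nat_lit 0) (XT.lf (nat_lit 0) (nat_lit 2401200039) (nat_lit 304) (nat_lit 2862112431) (nat_lit 380) (nat_lit 6164585026) (nat_lit 144) (nat_lit 5) (nat_lit 148) (nat_lit 5) (nat_lit 149) (nat_lit 5) (nat_lit 403) (nat_lit 329) (nat_lit 288)) (XT.lf (nat_lit 0) (nat_lit 58951112) (nat_lit 380) (nat_lit 7533395917) (nat_lit 76) (nat_lit 4018484246) (nat_lit 139) (nat_lit 5) (nat_lit 144) (nat_lit 5) (nat_lit 140) (nat_lit 5) (nat_lit 404) (nat_lit 329) (nat_lit 287))))))))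
noncomputable def xc30 : XT := (XT.nd (nat_lit 1482) (nat_lit 1292) (nat_lit 0) (XT.nd (nat_lit 702) (nat_lit 2812) (nat_lit 0) (XT.nd (nat_lit 312) (nat_lit 1748) (nat_lit 0) (XT.nd (nat_lit 156) (nat_lit 608) (nat_lit 0) (XT.nd (nat_lit 78) (nat_lit 380) (nat_lit 0) (XT.lf (nat_lit 0) (nat_lit 5769179141) (nat_lit 304) (nat_lit 646998052) (nat_lit 380) (nat_lit 5381646188) (nat_lit 135) (nat_lit 5) (nat_lit 139) (nat_lit 5) (nat_lit 140) (nat_lit 5) (nat_lit 405) (nat_lit 329) (nat_lit 286)) (XT.lf (nat_lit 0) (nat_lit 1016935537) (nat_lit 380) (nat_lit 4500659951) (nat_lit 76) (nat_lit 6471583107) (nat_lit 130) (nat_lit 5) (nat_lit 135) (nat_lit 5) (nat_lit 131) (nat_lit 5) (nat_lit 406) (nat_lit 329) (nat_lit 285))) (XT.nd (nat_lit 78) (nat_lit 304) (nat_lit 0) (XT.lf (nat_lit 0) (nat_lit 7565607854) (nat_lit 380) (nat_lit 2950916160) (nat_lit 76) (nat_lit 1668414025) (nat_lit 126) (nat_lit 5)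 (nat_lit 131) (nat_lit 5) (nat_lit 127) (nat_lit 5) (nat_lit 407) (nat_lit 329) (nat_lit 284)) (XT.lf (nat_lit 0) (nat_lit 1954035492) (nat_lit 304) (nat_lit 1377182921) (nat_lit 76) (nat_lit 9053999969) (nat_lit 122) (nat_lit 5) (nat_lit 126) (nat_lit 5) (nat_lit 123) (nat_lit 5) (nat_lit 408) (nat_lit 329) (nat_lit 283)))) (XT.nd (nat_lit 156) (nat_lit 836) (nat_lit 0) (XT.nd (nat_lit 78) (nat_lit 380) (nat_lit 0) (XT.lf (nat_lit 0) (nat_lit 216228047) (nat_lit 228) (nat_lit 8494329751) (nat_lit 304) (nat_lit 3879364376) (nat_lit 115) (nat_lit 5) (nat_lit 118) (nat_lit 5) (nat_lit 119) (nat_lit 5) (nat_lit 409) (nat_lit 329) (nat_lit 282)) (XT.lf (nat_lit 0) (nat_lit 1862527840) (nat_lit 304) (nat_lit 1022942571) (nat_lit 380) (nat_lit 9913842333) (nat_lit 110) (nat_lit 5) (nat_lit 114) (nat_lit 5) (nat_lit 115) (nat_lit 5) (nat_lit 410) (nat_lit 329) (nat_lit 281))) (XT.nd (nat_lit 78) (nat_lit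 608) (nat_lit 0) (XT.lf (nat_lit 0) (nat_lit 3515827137) (nat_lit 228) (nat_lit 6352973300) (nat_lit 304) (nat_lit 3144306632) (nat_lit 107) (nat_lit 5) (nat_lit 110) (nat_lit 5) (nat_lit 111) (nat_lit 5) (nat_lit 411) (nat_lit 329) (nat_lit 280)) (XT.nd (nat_lit 78) (nat_lit 228) (nat_lit 0) (XT.lf (nat_lit 0) (nat_lit 3820879449) (nat_lit 380) (nat_lit 8026297955) (nat_lit 76) (nat_lit 1384785234) (nat_lit 102) (nat_lit 5) (nat_lit 107) (nat_lit 5) (nat_lit 103) (nat_lit 5) (nat_lit 412) (nat_lit 329) (nat_lit 279)) (XT.lf (nat_lit 0) (nat_lit 6910219687) (nat_lit 228) (nat_lit 4113916255) (nat_lit 304) (nat_lit 2431395580) (nat_lit 99) (nat_lit 5) (nat_lit 102) (nat_lit 5) (nat_lit 103) (nat_lit 5) (nat_lit 413) (nat_lit 329) (nat_lit 278)))))) (XT.nd (nat_lit 390) (nat_lit 1216) (nat_lit 0) (XT.nd (nat_lit 156) (nat_lit 1064) (nat_lit 0) (XT.nd (nat_lit 78) (nat_lit 228) (nat_lit 0) (XT.lf (nat_lit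 0) (nat_lit 4752227289) (nat_lit 304) (nat_lit 5046628162) (nat_lit 76) (nat_lit 3885195373) (nat_lit 95) (nat_lit 5) (nat_lit 99) (nat_lit 5) (nat_lit 96) (nat_lit 5) (nat_lit 414) (nat_lit 329) (nat_lit 277)) (XT.lf (nat_lit 0) (nat_lit 10401254330) (nat_lit 228) (nat_lit 1778386547) (nat_lit 304) (nat_lit 1738237094) (nat_lit 92) (nat_lit 5) (nat_lit 95) (nat_lit 5) (nat_lit 96) (nat_lit 5) (nat_lit 415) (nat_lit 329) (nat_lit 276))) (XT.nd (nat_lit 78) (nat_lit 760) (nat_lit 0) (XT.lf (nat_lit 0) (nat_lit 5675516981) (nat_lit 304) (nat_lit 1989845534) (nat_lit 76) (nat_lit 6491046233) (nat_lit 88) (nat_lit 5) (nat_lit 92) (nat_lit 5) (nat_lit 89) (nat_lit 5) (nat_lit 416) (nat_lit 329) (nat_lit 275)) (XT.nd (nat_lit 78) (nat_lit 532) (nat_lit 0) (XT.lf (nat_lit 0) (nat_lit 13342506896) (nat_lit 304) (nat_lit 414034582) (nat_lit 76) (nat_lit 644235394) (nat_lit 85) (nat_lit 5) (nat_lit 89) (nat_lit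 5) (nat_lit 86) (nat_lit 5) (nat_lit 417) (nat_lit 329) (nat_lit 274)) (XT.lf (nat_lit 0) (nat_lit 1160810532) (nat_lit 228) (nat_lit 5439988511) (nat_lit 304) (nat_lit 8048818477) (nat_lit 78) (nat_lit 5) (nat_lit 81) (nat_lit 5) (nat_lit 82) (nat_lit 5) (nat_lit 418) (nat_lit 329) (nat_lit 273))))) (XT.nd (nat_lit 156) (nat_lit 760) (nat_lit 0) (XT.nd (nat_lit 78) (nat_lit 228) (nat_lit 0) (XT.lf (nat_lit 0) (nat_lit 2792821558) (nat_lit 228) (nat_lit 11748814885) (nat_lit 304) (nat_lit 362819561) (nat_lit 75) (nat_lit 5) (nat_lit 78) (nat_lit 5) (nat_lit 79) (nat_lit 5) (nat_lit 419) (nat_lit 329) (nat_lit 272)) (XT.lf (nat_lit 0) (nat_lit 4419405606) (nat_lit 152) (nat_lit 3117146411) (nat_lit 228) (nat_lit 7627769511) (nat_lit 72) (nat_lit 5) (nat_lit 74) (nat_lit 5) (nat_lit 75) (nat_lit 5) (nat_lit 420) (nat_lit 329) (nat_lit 271))) (XT.nd (nat_lit 78) (nat_lit 456) (nat_lit 0) (XT.lf (nat_lit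 0) (nat_lit 318887534) (nat_lit 304) (nat_lit 9344979914) (nat_lit 76) (nat_lit 5766318099) (nat_lit 68) (nat_lit 5) (nat_lit 72) (nat_lit 5) (nat_lit 69) (nat_lit 5) (nat_lit 421) (nat_lit 329) (nat_lit 270)) (XT.nd (nat_lit 78) (nat_lit 304) (nat_lit 0) (XT.lf (nat_lit 0) (nat_lit 7761533670) (nat_lit 152) (nat_lit 710452155) (nat_lit 228) (nat_lit 7229597810) (nat_lit 66) (nat_lit 5) (nat_lit 68) (nat_lit 5) (nat_lit 69) (nat_lit 5) (nat_lit 422) (nat_lit 329) (nat_lit 269)) (XT.lf (nat_lit 0) (nat_lit 985545580) (nat_lit 304) (nat_lit 6519252807) (nat_lit 76) (nat_lit 8474036981) (nat_lit 62) (nat_lit 5) (nat_lit 66) (nat_lit 5) (nat_lit 63) (nat_lit 5) (nat_lit 423) (nat_lit 329) (nat_lit 268))))))) (XT.nd (nat_lit 48516) (nat_lit 0) (nat_lit 25916) (XT.nd (nat_lit 48126) (nat_lit 0) (nat_lit 37924) (XT.nd (nat_lit 156) (nat_lit 836) (nat_lit 0) (XT.nd (nat_lit 78) (nat_lit 304) (nat_lit 0)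 (XT.lf (nat_lit 0) (nat_lit 9420864230) (nat_lit 228) (nat_lit 5084334565) (nat_lit 76) (nat_lit 1756811250) (nat_lit 60) (nat_lit 5) (nat_lit 63) (nat_lit 5) (nat_lit 61) (nat_lit 5) (nat_lit 424) (nat_lit 329) (nat_lit 267)) (XT.lf (nat_lit 0) (nat_lit 1643638361) (nat_lit 304) (nat_lit 3630575739) (nat_lit 76) (nat_lit 11277094320) (nat_lit 56) (nat_lit 5) (nat_lit 60) (nat_lit 5) (nat_lit 57) (nat_lit 5) (nat_lit 425) (nat_lit 329) (nat_lit 266))) (XT.nd (nat_lit 78) (nat_lit 684) (nat_lit 0) (XT.lf (nat_lit 0) (nat_lit 10378909698) (nat_lit 228) (nat_lit 2169749400) (nat_lit 76) (nat_lit 4297944488) (nat_lit 54) (nat_lit 5) (nat_lit 57) (nat_lit 5) (nat_lit 55) (nat_lit 5) (nat_lit 426) (nat_lit 329) (nat_lit 265)) (XT.nd (nat_lit 78) (nat_lit 380) (nat_lit 0) (XT.lf (nat_lit 0) (nat_lit 2294793208) (nat_lit 304) (nat_lit 677240381) (nat_lit 76) (nat_lit 14176465049) (nat_lit 50) (nat_lit 5)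 (nat_lit 54) (nat_lit 5) (nat_lit 51) (nat_lit 5) (nat_lit 427) (nat_lit 329) (nat_lit 264)) (XT.lf (nat_lit 0) (nat_lit 820887218) (nat_lit 228) (nat_lit 10528000650) (nat_lit 304) (nat_lit 6107375572) (nat_lit 45) (nat_lit 5) (nat_lit 48) (nat_lit 5) (nat_lit 49) (nat_lit 5) (nat_lit 428) (nat_lit 329) (nat_lit 263))))) (XT.nd (nat_lit 156) (nat_lit 4940) (nat_lit 0) (XT.nd (nat_lit 78) (nat_lit 1444) (nat_lit 0) (XT.lf (nat_lit 0) (nat_lit 228442549) (nat_lit 1444) (nat_lit 2975428682) (nat_lit 0) (nat_lit 228442549) (nat_lit 628) (nat_lit 5) (nat_lit 647) (nat_lit 4) (nat_lit 628) (nat_lit 4) (nat_lit 360) (nat_lit 330) (nat_lit 330)) (XT.lf (nat_lit 0) (nat_lit 1336779732) (nat_lit 1444) (nat_lit 4246084864) (nat_lit 1444) (nat_lit 1325287916) (nat_lit 609) (nat_lit 4) (nat_lit 628) (nat_lit 5) (nat_lit 628) (nat_lit 4) (nat_lit 361) (nat_lit 330) (nat_lit 329))) (XT.nd (nat_lit 78) (nat_lit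 3344) (nat_lit 0) (XT.lf (nat_lit 0) (nat_lit 1822631826) (nat_lit 1520) (nat_lit 1929424592) (nat_lit 1596) (nat_lit 3202545278) (nat_lit 588) (nat_lit 5) (nat_lit 608) (nat_lit 5) (nat_lit 609) (nat_lit 4) (nat_lit 362) (nat_lit 330) (nat_lit 328)) (XT.nd (nat_lit 78) (nat_lit 1672) (nat_lit 0) (XT.lf (nat_lit 0) (nat_lit 1836622698) (nat_lit 1672) (nat_lit 4632819593) (nat_lit 76) (nat_lit 534554142) (nat_lit 566) (nat_lit 5) (nat_lit 588) (nat_lit 5) (nat_lit 567) (nat_lit 4) (nat_lit 363) (nat_lit 330) (nat_lit 327)) (XT.lf (nat_lit 0) (nat_lit 2971588033) (nat_lit 1672) (nat_lit 3926886123) (nat_lit 1748) (nat_lit 157675111) (nat_lit 544) (nat_lit 5) (nat_lit 566) (nat_lit 5) (nat_lit 567) (nat_lit 4) (nat_lit 364) (nat_lit 330) (nat_lit 326)))))) (XT.nd (nat_lit 390) (nat_lit 5168) (nat_lit 0) (XT.nd (nat_lit 156) (nat_lit 3116) (nat_lit 0) (XT.nd (nat_lit 78) (nat_lit 1900) (nat_lit 0) (XT.lf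 (nat_lit 0) (nat_lit 3625254888) (nat_lit 1748) (nat_lit 1216666139) (nat_lit 1824) (nat_lit 2269191835) (nat_lit 520) (nat_lit 5) (nat_lit 543) (nat_lit 5) (nat_lit 544) (nat_lit 5) (nat_lit 365) (nat_lit 330) (nat_lit 325)) (XT.lf (nat_lit 0) (nat_lit 2703980142) (nat_lit 1900) (nat_lit 2834820235) (nat_lit 76) (nat_lit 1630151174) (nat_lit 495) (nat_lit 5) (nat_lit 520) (nat_lit 5) (nat_lit 496) (nat_lit 5) (nat_lit 366) (nat_lit 330) (nat_lit 324))) (XT.nd (nat_lit 78) (nat_lit 1900) (nat_lit 0) (XT.lf (nat_lit 0) (nat_lit 480430468) (nat_lit 1216) (nat_lit 2129063677) (nat_lit 76) (nat_lit 4620246043) (nat_lit 479) (nat_lit 5) (nat_lit 495) (nat_lit 5) (nat_lit 480) (nat_lit 5) (nat_lit 367) (nat_lit 330) (nat_lit 323)) (XT.nd (nat_lit 78) (nat_lit 988) (nat_lit 0) (XT.lf (nat_lit 0) (nat_lit 5433044367) (nat_lit 988) (nat_lit 1375317427) (nat_lit 76) (nat_lit 485010190) (nat_lit 467) (nat_lit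 5) (nat_lit 480) (nat_lit 5) (nat_lit 468) (nat_lit 5) (nat_lit 368) (nat_lit 330) (nat_lit 322)) (XT.lf (nat_lit 0) (nat_lit 3070734675) (nat_lit 988) (nat_lit 579386101) (nat_lit 76) (nat_lit 3709638520) (nat_lit 454) (nat_lit 5) (nat_lit 467) (nat_lit 5) (nat_lit 455) (nat_lit 5) (nat_lit 369) (nat_lit 330) (nat_lit 321))))) (XT.nd (nat_lit 156) (nat_lit 2508) (nat_lit 0) (XT.nd (nat_lit 78) (nat_lit 836) (nat_lit 0) (XT.lf (nat_lit 0) (nat_lit 283345760) (nat_lit 912) (nat_lit 328551802) (nat_lit 988) (nat_lit 6817414855) (nat_lit 430) (nat_lit 5) (nat_lit 442) (nat_lit 5) (nat_lit 443) (nat_lit 5) (nat_lit 370) (nat_lit 330) (nat_lit 320)) (XT.lf (nat_lit 0) (nat_lit 1184714037) (nat_lit 836) (nat_lit 4367788731) (nat_lit 912) (nat_lit 1948863828) (nat_lit 419) (nat_lit 5) (nat_lit 430) (nat_lit 5) (nat_lit 431) (nat_lit 5) (nat_lit 371) (nat_lit 330) (nat_lit 319))) (XT.nd (nat_lit 78) (nat_lit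 1596) (nat_lit 0) (XT.lf (nat_lit 0) (nat_lit 2143734582) (nat_lit 836) (nat_lit 813398562) (nat_lit 912) (nat_lit 4619419216) (nat_lit 407) (nat_lit 5) (nat_lit 418) (nat_lit 5) (nat_lit 419) (nat_lit 5) (nat_lit 372) (nat_lit 330) (nat_lit 318)) (XT.nd (nat_lit 78) (nat_lit 760) (nat_lit 0) (XT.lf (nat_lit 0) (nat_lit 277170635) (nat_lit 836) (nat_lit 4506280287) (nat_lit 76) (nat_lit 2871214203) (nat_lit 396) (nat_lit 5) (nat_lit 407) (nat_lit 5) (nat_lit 397) (nat_lit 5) (nat_lit 373) (nat_lit 330) (nat_lit 317)) (XT.lf (nat_lit 0) (nat_lit 4195664893) (nat_lit 760) (nat_lit 1003866148) (nat_lit 836) (nat_lit 2536146893) (nat_lit 386) (nat_lit 5) (nat_lit 396) (nat_lit 5) (nat_lit 397) (nat_lit 5) (nat_lit 374) (nat_lit 330) (nat_lit 316))))))))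
noncomputable def xc31 : XT := (XT.nd (nat_lit 1560) (nat_lit 8056) (nat_lit 0) (XT.nd (nat_lit 780) (nat_lit 6384) (nat_lit 0) (XT.nd (nat_lit 390) (nat_lit 3192) (nat_lit 0) (XT.nd (nat_lit 156) (nat_lit 2888) (nat_lit 0) (XT.nd (nat_lit 78) (nat_lit 760) (nat_lit 0) (XT.lf (nat_lit 0) (nat_lit 2376130662) (nat_lit 836) (nat_lit 2532898215) (nat_lit 76) (nat_lit 2910617501) (nat_lit 375) (nat_lit 5) (nat_lit 386) (nat_lit 5) (nat_lit 376) (nat_lit 5) (nat_lit 375) (nat_lit 330) (nat_lit 315)) (XT.lf (nat_lit 0) (nat_lit 6432697145) (nat_lit 760) (nat_lit 917518371) (nat_lit 836) (nat_lit 556605176) (nat_lit 365) (nat_lit 5) (nat_lit 375) (nat_lit 5) (nat_lit 376) (nat_lit 5) (nat_lit 376) (nat_lit 330) (nat_lit 314))) (XT.nd (nat_lit 78) (nat_lit 2128) (nat_lit 0) (XT.lf (nat_lit 0) (nat_lit 4384132573) (nat_lit 760) (nat_lit 389961183) (nat_lit 76) (nat_lit 3222616429) (nat_lit 355) (nat_lit 5)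 (nat_lit 365) (nat_lit 5) (nat_lit 356) (nat_lit 5) (nat_lit 377) (nat_lit 330) (nat_lit 313)) (XT.nd (nat_lit 78) (nat_lit 684) (nat_lit 0) (XT.lf (nat_lit 0) (nat_lit 760494408) (nat_lit 684) (nat_lit 556452361) (nat_lit 760) (nat_lit 6772923499) (nat_lit 336) (nat_lit 5) (nat_lit 345) (nat_lit 5) (nat_lit 346) (nat_lit 5) (nat_lit 378) (nat_lit 330) (nat_lit 312)) (XT.lf (nat_lit 0) (nat_lit 1942744395) (nat_lit 684) (nat_lit 4380903792) (nat_lit 760) (nat_lit 1862131943) (nat_lit 327) (nat_lit 5) (nat_lit 336) (nat_lit 5) (nat_lit 337) (nat_lit 5) (nat_lit 379) (nat_lit 330) (nat_lit 311))))) (XT.nd (nat_lit 156) (nat_lit 1900) (nat_lit 0) (XT.nd (nat_lit 78) (nat_lit 608) (nat_lit 0) (XT.lf (nat_lit 0) (nat_lit 3111524286) (nat_lit 684) (nat_lit 5109175561) (nat_lit 76) (nat_lit 64303295) (nat_lit 318) (nat_lit 5) (nat_lit 327) (nat_lit 5) (nat_lit 319) (nat_lit 5) (nat_lit 380) (nat_lit 330)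 (nat_lit 310)) (XT.lf (nat_lit 0) (nat_lit 4442570803) (nat_lit 608) (nat_lit 3752327019) (nat_lit 684) (nat_lit 192342714) (nat_lit 310) (nat_lit 5) (nat_lit 318) (nat_lit 5) (nat_lit 319) (nat_lit 5) (nat_lit 381) (nat_lit 330) (nat_lit 309))) (XT.nd (nat_lit 78) (nat_lit 1216) (nat_lit 0) (XT.lf (nat_lit 0) (nat_lit 4838226464) (nat_lit 684) (nat_lit 2745687111) (nat_lit 76) (nat_lit 908694940) (nat_lit 301) (nat_lit 5) (nat_lit 310) (nat_lit 5) (nat_lit 302) (nat_lit 5) (nat_lit 382) (nat_lit 330) (nat_lit 308)) (XT.nd (nat_lit 78) (nat_lit 532) (nat_lit 0) (XT.lf (nat_lit 0) (nat_lit 1384149706) (nat_lit 684) (nat_lit 1509925547) (nat_lit 76) (nat_lit 5707118316) (nat_lit 292) (nat_lit 5) (nat_lit 301) (nat_lit 5) (nat_lit 293) (nat_lit 5) (nat_lit 383) (nat_lit 330) (nat_lit 307)) (XT.lf (nat_lit 0) (nat_lit 6501556094) (nat_lit 608) (nat_lit 238951235) (nat_lit 76) (nat_lit 1972498389) (nat_lit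 285) (nat_lit 5) (nat_lit 293) (nat_lit 5) (nat_lit 286) (nat_lit 5) (nat_lit 384) (nat_lit 330) (nat_lit 306)))))) (XT.nd (nat_lit 390) (nat_lit 2964) (nat_lit 0) (XT.nd (nat_lit 156) (nat_lit 1672) (nat_lit 0) (XT.nd (nat_lit 78) (nat_lit 532) (nat_lit 0) (XT.lf (nat_lit 0) (nat_lit 1080330385) (nat_lit 532) (nat_lit 1818589903) (nat_lit 608) (nat_lit 5929005155) (nat_lit 269) (nat_lit 5) (nat_lit 276) (nat_lit 5) (nat_lit 277) (nat_lit 5) (nat_lit 385) (nat_lit 330) (nat_lit 305)) (XT.lf (nat_lit 0) (nat_lit 2440041982) (nat_lit 532) (nat_lit 5684911317) (nat_lit 608) (nat_lit 821199168) (nat_lit 262) (nat_lit 5) (nat_lit 269) (nat_lit 5) (nat_lit 270) (nat_lit 5) (nat_lit 386) (nat_lit 330) (nat_lit 304))) (XT.nd (nat_lit 78) (nat_lit 1064) (nat_lit 0) (XT.lf (nat_lit 0) (nat_lit 3832372513) (nat_lit 532) (nat_lit 533155120) (nat_lit 608) (nat_lit 4702143820) (nat_lit 254) (nat_lit 5) (nat_lit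 261) (nat_lit 5) (nat_lit 262) (nat_lit 5) (nat_lit 387) (nat_lit 330) (nat_lit 303)) (XT.nd (nat_lit 78) (nat_lit 456) (nat_lit 0) (XT.lf (nat_lit 0) (nat_lit 502877066) (nat_lit 608) (nat_lit 3933994101) (nat_lit 76) (nat_lit 4755680543) (nat_lit 246) (nat_lit 5) (nat_lit 254) (nat_lit 5) (nat_lit 247) (nat_lit 5) (nat_lit 388) (nat_lit 330) (nat_lit 302)) (XT.lf (nat_lit 0) (nat_lit 5786876142) (nat_lit 532) (nat_lit 2603080216) (nat_lit 76) (nat_lit 930866166) (nat_lit 240) (nat_lit 5) (nat_lit 247) (nat_lit 5) (nat_lit 241) (nat_lit 5) (nat_lit 389) (nat_lit 330) (nat_lit 301))))) (XT.nd (nat_lit 156) (nat_lit 1444) (nat_lit 0) (XT.nd (nat_lit 78) (nat_lit 912) (nat_lit 0) (XT.lf (nat_lit 0) (nat_lit 1762153707) (nat_lit 608) (nat_lit 1242611118) (nat_lit 76) (nat_lit 6447765990) (nat_lit 232) (nat_lit 5) (nat_lit 240) (nat_lit 5) (nat_lit 233) (nat_lit 5) (nat_lit 390) (nat_lit 330) (nat_lit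 300)) (XT.lf (nat_lit 0) (nat_lit 150610364) (nat_lit 456) (nat_lit 7018147614) (nat_lit 532) (nat_lit 2418972516) (nat_lit 220) (nat_lit 5) (nat_lit 226) (nat_lit 5) (nat_lit 227) (nat_lit 5) (nat_lit 391) (nat_lit 330) (nat_lit 299))) (XT.nd (nat_lit 78) (nat_lit 912) (nat_lit 0) (XT.lf (nat_lit 0) (nat_lit 1592632025) (nat_lit 456) (nat_lit 1390957873) (nat_lit 532) (nat_lit 6742755334) (nat_lit 213) (nat_lit 5) (nat_lit 219) (nat_lit 5) (nat_lit 220) (nat_lit 5) (nat_lit 392) (nat_lit 330) (nat_lit 298)) (XT.nd (nat_lit 78) (nat_lit 456) (nat_lit 0) (XT.lf (nat_lit 0) (nat_lit 3062145301) (nat_lit 456) (nat_lit 5468366787) (nat_lit 532) (nat_lit 1337983592) (nat_lit 207) (nat_lit 5) (nat_lit 213) (nat_lit 5) (nat_lit 214) (nat_lit 5) (nat_lit 393) (nat_lit 330) (nat_lit 297)) (XT.lf (nat_lit 0) (nat_lit 4173863694) (nat_lit 456) (nat_lit 5449109528) (nat_lit 76) (nat_lit 391380366) (nat_lit 201)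 (nat_lit 5) (nat_lit 207) (nat_lit 5) (nat_lit 202) (nat_lit 5) (nat_lit 394) (nat_lit 330) (nat_lit 296))))))) (XT.nd (nat_lit 780) (nat_lit 3724) (nat_lit 0) (XT.nd (nat_lit 390) (nat_lit 1824) (nat_lit 0) (XT.nd (nat_lit 156) (nat_lit 1596) (nat_lit 0) (XT.nd (nat_lit 78) (nat_lit 456) (nat_lit 0) (XT.lf (nat_lit 0) (nat_lit 6096094498) (nat_lit 456) (nat_lit 3764413885) (nat_lit 532) (nat_lit 303349570) (nat_lit 195) (nat_lit 5) (nat_lit 201) (nat_lit 5) (nat_lit 202) (nat_lit 5) (nat_lit 395) (nat_lit 330) (nat_lit 295)) (XT.lf (nat_lit 0) (nat_lit 5337405008) (nat_lit 456) (nat_lit 2666539820) (nat_lit 76) (nat_lit 2313035012) (nat_lit 189) (nat_lit 5) (nat_lit 195) (nat_lit 5) (nat_lit 190) (nat_lit 5) (nat_lit 396) (nat_lit 330) (nat_lit 294))) (XT.nd (nat_lit 78) (nat_lit 1140) (nat_lit 0) (XT.lf (nat_lit 0) (nat_lit 680636547) (nat_lit 456) (nat_lit 1226617947) (nat_lit 76) (nat_lit 8566897969)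 (nat_lit 183) (nat_lit 5) (nat_lit 189) (nat_lit 5) (nat_lit 184) (nat_lit 5) (nat_lit 397) (nat_lit 330) (nat_lit 293)) (XT.nd (nat_lit 78) (nat_lit 380) (nat_lit 0) (XT.lf (nat_lit 0) (nat_lit 225421901) (nat_lit 380) (nat_lit 6245986230) (nat_lit 456) (nat_lit 4163405697) (nat_lit 173) (nat_lit 5) (nat_lit 178) (nat_lit 5) (nat_lit 179) (nat_lit 5) (nat_lit 398) (nat_lit 330) (nat_lit 292)) (XT.lf (nat_lit 0) (nat_lit 1635970746) (nat_lit 380) (nat_lit 9058018284) (nat_lit 76) (nat_lit 105657333) (nat_lit 168) (nat_lit 5) (nat_lit 173) (nat_lit 5) (nat_lit 169) (nat_lit 5) (nat_lit 399) (nat_lit 330) (nat_lit 291))))) (XT.nd (nat_lit 156) (nat_lit 1064) (nat_lit 0) (XT.nd (nat_lit 78) (nat_lit 380) (nat_lit 0) (XT.lf (nat_lit 0) (nat_lit 3260526448) (nat_lit 380) (nat_lit 4336600238) (nat_lit 456) (nat_lit 3370859533) (nat_lit 163) (nat_lit 5) (nat_lit 168) (nat_lit 5) (nat_lit 169) (nat_lit 5)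 (nat_lit 400) (nat_lit 330) (nat_lit 290)) (XT.lf (nat_lit 0) (nat_lit 2580832224) (nat_lit 380) (nat_lit 6319711850) (nat_lit 76) (nat_lit 2240112437) (nat_lit 158) (nat_lit 5) (nat_lit 163) (nat_lit 5) (nat_lit 159) (nat_lit 5) (nat_lit 401) (nat_lit 330) (nat_lit 289))) (XT.nd (nat_lit 78) (nat_lit 684) (nat_lit 0) (XT.lf (nat_lit 0) (nat_lit 6403598413) (nat_lit 380) (nat_lit 2297633495) (nat_lit 456) (nat_lit 2616110295) (nat_lit 153) (nat_lit 5) (nat_lit 158) (nat_lit 5) (nat_lit 159) (nat_lit 5) (nat_lit 402) (nat_lit 330) (nat_lit 288)) (XT.nd (nat_lit 78) (nat_lit 304) (nat_lit 0) (XT.lf (nat_lit 0) (nat_lit 3498517357) (nat_lit 380) (nat_lit 3489928463) (nat_lit 76) (nat_lit 4509655734) (nat_lit 148) (nat_lit 5) (nat_lit 153) (nat_lit 5) (nat_lit 149) (nat_lit 5) (nat_lit 403) (nat_lit 330) (nat_lit 287)) (XT.lf (nat_lit 0) (nat_lit 9655287724) (nat_lit 304) (nat_lit 132413283) (nat_lit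 380) (nat_lit 1895703632) (nat_lit 144) (nat_lit 5) (nat_lit 148) (nat_lit 5) (nat_lit 149) (nat_lit 5) (nat_lit 404) (nat_lit 330) (nat_lit 286)))))) (XT.nd (nat_lit 390) (nat_lit 1748) (nat_lit 0) (XT.nd (nat_lit 156) (nat_lit 988) (nat_lit 0) (XT.nd (nat_lit 78) (nat_lit 608) (nat_lit 0) (XT.lf (nat_lit 0) (nat_lit 4392591886) (nat_lit 380) (nat_lit 568369024) (nat_lit 76) (nat_lit 6911557859) (nat_lit 139) (nat_lit 5) (nat_lit 144) (nat_lit 5) (nat_lit 140) (nat_lit 5) (nat_lit 405) (nat_lit 330) (nat_lit 285)) (XT.lf (nat_lit 0) (nat_lit 948329190) (nat_lit 304) (nat_lit 9932123436) (nat_lit 380) (nat_lit 1185869655) (nat_lit 131) (nat_lit 5) (nat_lit 135) (nat_lit 5) (nat_lit 136) (nat_lit 5) (nat_lit 406) (nat_lit 330) (nat_lit 284))) (XT.nd (nat_lit 78) (nat_lit 608) (nat_lit 0) (XT.lf (nat_lit 0) (nat_lit 2478101904) (nat_lit 304) (nat_lit 2804391782) (nat_lit 380) (nat_lit 6981659265) (nat_lit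 126) (nat_lit 5) (nat_lit 130) (nat_lit 5) (nat_lit 131) (nat_lit 5) (nat_lit 407) (nat_lit 330) (nat_lit 283)) (XT.nd (nat_lit 78) (nat_lit 380) (nat_lit 0) (XT.lf (nat_lit 0) (nat_lit 4044479804) (nat_lit 228) (nat_lit 7934006784) (nat_lit 304) (nat_lit 488281383) (nat_lit 123) (nat_lit 5) (nat_lit 126) (nat_lit 5) (nat_lit 127) (nat_lit 5) (nat_lit 408) (nat_lit 330) (nat_lit 282)) (XT.lf (nat_lit 0) (nat_lit 5626734610) (nat_lit 304) (nat_lit 532901551) (nat_lit 380) (nat_lit 6514199180) (nat_lit 118) (nat_lit 5) (nat_lit 122) (nat_lit 5) (nat_lit 123) (nat_lit 5) (nat_lit 409) (nat_lit 330) (nat_lit 281))))) (XT.nd (nat_lit 156) (nat_lit 1140) (nat_lit 0) (XT.nd (nat_lit 78) (nat_lit 304) (nat_lit 0) (XT.lf (nat_lit 0) (nat_lit 182920562) (nat_lit 304) (nat_lit 5651443623) (nat_lit 76) (nat_lit 7051249295) (nat_lit 114) (nat_lit 5) (nat_lit 118) (nat_lit 5) (nat_lit 115) (nat_lit 5) (nat_lit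 410) (nat_lit 330) (nat_lit 280)) (XT.lf (nat_lit 0) (nat_lit 7035254142) (nat_lit 380) (nat_lit 4243006287) (nat_lit 76) (nat_lit 1823767305) (nat_lit 110) (nat_lit 5) (nat_lit 115) (nat_lit 5) (nat_lit 111) (nat_lit 5) (nat_lit 411) (nat_lit 330) (nat_lit 279))) (XT.nd (nat_lit 78) (nat_lit 836) (nat_lit 0) (XT.lf (nat_lit 0) (nat_lit 826627574) (nat_lit 304) (nat_lit 2806479638) (nat_lit 76) (nat_lit 9690357854) (nat_lit 106) (nat_lit 5) (nat_lit 110) (nat_lit 5) (nat_lit 107) (nat_lit 5) (nat_lit 412) (nat_lit 330) (nat_lit 278)) (XT.nd (nat_lit 78) (nat_lit 532) (nat_lit 0) (XT.lf (nat_lit 0) (nat_lit 7904322855) (nat_lit 380) (nat_lit 1365001952) (nat_lit 76) (nat_lit 4280220370) (nat_lit 102) (nat_lit 5) (nat_lit 107) (nat_lit 5) (nat_lit 103) (nat_lit 5) (nat_lit 413) (nat_lit 330) (nat_lit 277)) (XT.lf (nat_lit 0) (nat_lit 118384222) (nat_lit 228) (nat_lit 1334008056) (nat_lit 304) (nat_lit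 12328652688) (nat_lit 95) (nat_lit 5) (nat_lit 98) (nat_lit 5) (nat_lit 99) (nat_lit 5) (nat_lit 414) (nat_lit 330) (nat_lit 276))))))))
noncomputable def xc32 : XT := (XT.nd (nat_lit 49062) (nat_lit 0) (nat_lit 19228) (XT.nd (nat_lit 702) (nat_lit 1368) (nat_lit 0) (XT.nd (nat_lit 312) (nat_lit 1140) (nat_lit 0) (XT.nd (nat_lit 156) (nat_lit 532) (nat_lit 0) (XT.nd (nat_lit 78) (nat_lit 304) (nat_lit 0) (XT.lf (nat_lit 0) (nat_lit 1612720593) (nat_lit 228) (nat_lit 7163789062) (nat_lit 304) (nat_lit 5240428383) (nat_lit 92) (nat_lit 5) (nat_lit 95) (nat_lit 5) (nat_lit 96) (nat_lit 5) (nat_lit 415) (nat_lit 330) (nat_lit 275)) (XT.lf (nat_lit 0) (nat_lit 2087673293) (nat_lit 304) (nat_lit 11104446416) (nat_lit 76) (nat_lit 1066435562) (nat_lit 88) (nat_lit 5) (nat_lit 92) (nat_lit 5) (nat_lit 89) (nat_lit 5) (nat_lit 416) (nat_lit 330) (nat_lit 274))) (XT.nd (nat_lit 78) (nat_lit 304) (nat_lit 0)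 (XT.lf (nat_lit 0) (nat_lit 4689661855) (nat_lit 228) (nat_lit 4963711473) (nat_lit 304) (nat_lit 4851575867) (nat_lit 85) (nat_lit 5) (nat_lit 88) (nat_lit 5) (nat_lit 89) (nat_lit 5) (nat_lit 417) (nat_lit 330) (nat_lit 273)) (XT.lf (nat_lit 0) (nat_lit 2718366136) (nat_lit 304) (nat_lit 8494393357) (nat_lit 76) (nat_lit 3544300461) (nat_lit 81) (nat_lit 5) (nat_lit 85) (nat_lit 5) (nat_lit 82) (nat_lit 5) (nat_lit 418) (nat_lit 330) (nat_lit 272)))) (XT.nd (nat_lit 156) (nat_lit 608) (nat_lit 0) (XT.nd (nat_lit 78) (nat_lit 304) (nat_lit 0) (XT.lf (nat_lit 0) (nat_lit 7849395480) (nat_lit 228) (nat_lit 2678951112) (nat_lit 304) (nat_lit 4486168982) (nat_lit 78) (nat_lit 5) (nat_lit 81) (nat_lit 5) (nat_lit 82) (nat_lit 5) (nat_lit 419) (nat_lit 330) (nat_lit 271)) (XT.lf (nat_lit 0) (nat_lit 3337767061) (nat_lit 304) (nat_lit 5822785239) (nat_lit 76) (nat_lit 6116954510) (nat_lit 74) (nat_lit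 5) (nat_lit 78) (nat_lit 5) (nat_lit 75) (nat_lit 5) (nat_lit 420) (nat_lit 330) (nat_lit 270))) (XT.nd (nat_lit 78) (nat_lit 456) (nat_lit 0) (XT.lf (nat_lit 0) (nat_lit 11093875032) (nat_lit 152) (nat_lit 309859481) (nat_lit 228) (nat_lit 4142694943) (nat_lit 72) (nat_lit 5) (nat_lit 74) (nat_lit 5) (nat_lit 75) (nat_lit 5) (nat_lit 421) (nat_lit 330) (nat_lit 269)) (XT.nd (nat_lit 78) (nat_lit 152) (nat_lit 0) (XT.lf (nat_lit 0) (nat_lit 3947715356) (nat_lit 304) (nat_lit 3088366422) (nat_lit 76) (nat_lit 8784624111) (nat_lit 68) (nat_lit 5) (nat_lit 72) (nat_lit 5) (nat_lit 69) (nat_lit 5) (nat_lit 422) (nat_lit 330) (nat_lit 268)) (XT.lf (nat_lit 0) (nat_lit 12295662248) (nat_lit 228) (nat_lit 1690148345) (nat_lit 76) (nat_lit 2115430213) (nat_lit 66) (nat_lit 5) (nat_lit 69) (nat_lit 5) (nat_lit 67) (nat_lit 5) (nat_lit 423) (nat_lit 330) (nat_lit 267)))))) (XT.nd (nat_lit 47970) (nat_lit 0)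 (nat_lit 41040) (XT.nd (nat_lit 156) (nat_lit 684) (nat_lit 0) (XT.nd (nat_lit 78) (nat_lit 380) (nat_lit 0) (XT.lf (nat_lit 0) (nat_lit 4549941764) (nat_lit 304) (nat_lit 289687036) (nat_lit 76) (nat_lit 11547875032) (nat_lit 62) (nat_lit 5) (nat_lit 66) (nat_lit 5) (nat_lit 63) (nat_lit 5) (nat_lit 424) (nat_lit 330) (nat_lit 266)) (XT.lf (nat_lit 0) (nat_lit 1150089285) (nat_lit 228) (nat_lit 12052272158) (nat_lit 304) (nat_lit 3477531478) (nat_lit 57) (nat_lit 5) (nat_lit 60) (nat_lit 5) (nat_lit 61) (nat_lit 5) (nat_lit 425) (nat_lit 330) (nat_lit 265))) (XT.nd (nat_lit 78) (nat_lit 456) (nat_lit 0) (XT.lf (nat_lit 0) (nat_lit 2609110456) (nat_lit 152) (nat_lit 2553907075) (nat_lit 228) (nat_lit 11815428741) (nat_lit 54) (nat_lit 5) (nat_lit 56) (nat_lit 5) (nat_lit 57) (nat_lit 5) (nat_lit 426) (nat_lit 330) (nat_lit 264)) (XT.nd (nat_lit 78) (nat_lit 228) (nat_lit 0) (XT.lf (nat_lit 0) (nat_lit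 4080165882) (nat_lit 228) (nat_lit 10047790815) (nat_lit 304) (nat_lit 3155291403) (nat_lit 51) (nat_lit 5) (nat_lit 54) (nat_lit 5) (nat_lit 55) (nat_lit 5) (nat_lit 427) (nat_lit 330) (nat_lit 263)) (XT.lf (nat_lit 0) (nat_lit 5580379435) (nat_lit 152) (nat_lit 193514411) (nat_lit 228) (nat_lit 11820854615) (nat_lit 48) (nat_lit 5) (nat_lit 50) (nat_lit 5) (nat_lit 51) (nat_lit 5) (nat_lit 428) (nat_lit 330) (nat_lit 262))))) (XT.nd (nat_lit 156) (nat_lit 4484) (nat_lit 0) (XT.nd (nat_lit 78) (nat_lit 1292) (nat_lit 0) (XT.lf (nat_lit 0) (nat_lit 78541671) (nat_lit 1292) (nat_lit 3235131582) (nat_lit 0) (nat_lit 78541671) (nat_lit 664) (nat_lit 5) (nat_lit 681) (nat_lit 4) (nat_lit 664) (nat_lit 4) (nat_lit 358) (nat_lit 331) (nat_lit 331)) (XT.lf (nat_lit 0) (nat_lit 537518340) (nat_lit 1292) (nat_lit 4677379350) (nat_lit 1292) (nat_lit 1608790077) (nat_lit 647) (nat_lit 4) (nat_lit 664) (nat_lit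 5) (nat_lit 664) (nat_lit 4) (nat_lit 359) (nat_lit 331) (nat_lit 330))) (XT.nd (nat_lit 78) (nat_lit 3040) (nat_lit 0) (XT.lf (nat_lit 0) (nat_lit 825267166) (nat_lit 1368) (nat_lit 2577242400) (nat_lit 1444) (nat_lit 3463373923) (nat_lit 628) (nat_lit 5) (nat_lit 646) (nat_lit 5) (nat_lit 647) (nat_lit 4) (nat_lit 360) (nat_lit 331) (nat_lit 329)) (XT.nd (nat_lit 78) (nat_lit 1520) (nat_lit 0) (XT.lf (nat_lit 0) (nat_lit 1178703855) (nat_lit 1444) (nat_lit 325735494) (nat_lit 1520) (nat_lit 5406626982) (nat_lit 608) (nat_lit 5) (nat_lit 627) (nat_lit 5) (nat_lit 628) (nat_lit 5) (nat_lit 361) (nat_lit 331) (nat_lit 328)) (XT.lf (nat_lit 0) (nat_lit 1581228861) (nat_lit 1520) (nat_lit 4903574658) (nat_lit 1596) (nat_lit 474131879) (nat_lit 588) (nat_lit 5) (nat_lit 608) (nat_lit 5) (nat_lit 609) (nat_lit 4) (nat_lit 362) (nat_lit 331) (nat_lit 327))))))) (XT.nd (nat_lit 780) (nat_lit 8056) (nat_lit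 0) (XT.nd (nat_lit 390) (nat_lit 5472) (nat_lit 0) (XT.nd (nat_lit 156) (nat_lit 4864) (nat_lit 0) (XT.nd (nat_lit 78) (nat_lit 1748) (nat_lit 0) (XT.lf (nat_lit 0) (nat_lit 2036271706) (nat_lit 1596) (nat_lit 2412617803) (nat_lit 1672) (nat_lit 2560693592) (nat_lit 566) (nat_lit 5) (nat_lit 587) (nat_lit 5) (nat_lit 588) (nat_lit 5) (nat_lit 363) (nat_lit 331) (nat_lit 326)) (XT.lf (nat_lit 0) (nat_lit 2325111440) (nat_lit 1748) (nat_lit 4508292244) (nat_lit 76) (nat_lit 229849728) (nat_lit 543) (nat_lit 5) (nat_lit 566) (nat_lit 5) (nat_lit 544) (nat_lit 5) (nat_lit 364) (nat_lit 331) (nat_lit 325))) (XT.nd (nat_lit 78) (nat_lit 3040) (nat_lit 0) (XT.lf (nat_lit 0) (nat_lit 126301422) (nat_lit 1824) (nat_lit 3997350639) (nat_lit 76) (nat_lit 2996027133) (nat_lit 519) (nat_lit 5) (nat_lit 543) (nat_lit 5) (nat_lit 520) (nat_lit 5) (nat_lit 365) (nat_lit 331) (nat_lit 324)) (XT.nd (nat_lit 78) (nat_lit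 1216) (nat_lit 0) (XT.lf (nat_lit 0) (nat_lit 3740385315) (nat_lit 1824) (nat_lit 1244145041) (nat_lit 1900) (nat_lit 2194396508) (nat_lit 495) (nat_lit 5) (nat_lit 519) (nat_lit 5) (nat_lit 520) (nat_lit 5) (nat_lit 366) (nat_lit 331) (nat_lit 323)) (XT.lf (nat_lit 0) (nat_lit 2639294667) (nat_lit 1216) (nat_lit 2830129747) (nat_lit 76) (nat_lit 1771634878) (nat_lit 479) (nat_lit 5) (nat_lit 495) (nat_lit 5) (nat_lit 480) (nat_lit 5) (nat_lit 367) (nat_lit 331) (nat_lit 322))))) (XT.nd (nat_lit 156) (nat_lit 3572) (nat_lit 0) (XT.nd (nat_lit 78) (nat_lit 912) (nat_lit 0) (XT.lf (nat_lit 0) (nat_lit 206858532) (nat_lit 988) (nat_lit 2168097993) (nat_lit 76) (nat_lit 4931229109) (nat_lit 466) (nat_lit 5) (nat_lit 479) (nat_lit 5) (nat_lit 467) (nat_lit 5) (nat_lit 368) (nat_lit 331) (nat_lit 321)) (XT.lf (nat_lit 0) (nat_lit 5025628992) (nat_lit 988) (nat_lit 1464752489) (nat_lit 76) (nat_lit 883707761)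 (nat_lit 454) (nat_lit 5) (nat_lit 467) (nat_lit 5) (nat_lit 455) (nat_lit 5) (nat_lit 369) (nat_lit 331) (nat_lit 320))) (XT.nd (nat_lit 78) (nat_lit 2660) (nat_lit 0) (XT.lf (nat_lit 0) (nat_lit 2453144294) (nat_lit 912) (nat_lit 716721109) (nat_lit 76) (nat_lit 4275002308) (nat_lit 442) (nat_lit 5) (nat_lit 454) (nat_lit 5) (nat_lit 443) (nat_lit 5) (nat_lit 370) (nat_lit 331) (nat_lit 319)) (XT.nd (nat_lit 78) (nat_lit 912) (nat_lit 0) (XT.lf (nat_lit 0) (nat_lit 91319327) (nat_lit 836) (nat_lit 7207397863) (nat_lit 912) (nat_lit 220105346) (nat_lit 419) (nat_lit 5) (nat_lit 430) (nat_lit 5) (nat_lit 431) (nat_lit 5) (nat_lit 371) (nat_lit 331) (nat_lit 318)) (XT.lf (nat_lit 0) (nat_lit 933825117) (nat_lit 836) (nat_lit 3657803465) (nat_lit 912) (nat_lit 3003587034) (nat_lit 407) (nat_lit 5) (nat_lit 418) (nat_lit 5) (nat_lit 419) (nat_lit 5) (nat_lit 372) (nat_lit 331) (nat_lit 317)))))) (XT.nd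 (nat_lit 390) (nat_lit 4104) (nat_lit 0) (XT.nd (nat_lit 156) (nat_lit 2356) (nat_lit 0) (XT.nd (nat_lit 78) (nat_lit 760) (nat_lit 0) (XT.lf (nat_lit 0) (nat_lit 1781924131) (nat_lit 836) (nat_lit 5835763121) (nat_lit 76) (nat_lit 57229044) (nat_lit 396) (nat_lit 5) (nat_lit 407) (nat_lit 5) (nat_lit 397) (nat_lit 5) (nat_lit 373) (nat_lit 331) (nat_lit 316)) (XT.lf (nat_lit 0) (nat_lit 2775922705) (nat_lit 760) (nat_lit 3857704360) (nat_lit 836) (nat_lit 1123715188) (nat_lit 386) (nat_lit 5) (nat_lit 396) (nat_lit 5) (nat_lit 397) (nat_lit 5) (nat_lit 374) (nat_lit 331) (nat_lit 315))) (XT.nd (nat_lit 78) (nat_lit 1520) (nat_lit 0) (XT.lf (nat_lit 0) (nat_lit 3680915594) (nat_lit 836) (nat_lit 4079267589) (nat_lit 76) (nat_lit 82726555) (nat_lit 375) (nat_lit 5) (nat_lit 386) (nat_lit 5) (nat_lit 376) (nat_lit 5) (nat_lit 375) (nat_lit 331) (nat_lit 314)) (XT.nd (nat_lit 78) (nat_lit 684) (nat_lit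 0) (XT.lf (nat_lit 0) (nat_lit 645034204) (nat_lit 836) (nat_lit 3142132903) (nat_lit 76) (nat_lit 4144230308) (nat_lit 364) (nat_lit 5) (nat_lit 375) (nat_lit 5) (nat_lit 365) (nat_lit 5) (nat_lit 376) (nat_lit 331) (nat_lit 313)) (XT.lf (nat_lit 0) (nat_lit 5489861189) (nat_lit 760) (nat_lit 2162735486) (nat_lit 76) (nat_lit 370390172) (nat_lit 355) (nat_lit 5) (nat_lit 365) (nat_lit 5) (nat_lit 356) (nat_lit 5) (nat_lit 377) (nat_lit 331) (nat_lit 312))))) (XT.nd (nat_lit 156) (nat_lit 2660) (nat_lit 0) (XT.nd (nat_lit 78) (nat_lit 684) (nat_lit 0) (XT.lf (nat_lit 0) (nat_lit 2307499851) (nat_lit 760) (nat_lit 1151735671) (nat_lit 76) (nat_lit 4658266071) (nat_lit 345) (nat_lit 5) (nat_lit 355) (nat_lit 5) (nat_lit 346) (nat_lit 5) (nat_lit 378) (nat_lit 331) (nat_lit 311)) (XT.lf (nat_lit 0) (nat_lit 7218183966) (nat_lit 760) (nat_lit 91505140) (nat_lit 76) (nat_lit 905642695) (nat_lit 336) (nat_lit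 5) (nat_lit 346) (nat_lit 5) (nat_lit 337) (nat_lit 5) (nat_lit 379) (nat_lit 331) (nat_lit 310))) (XT.nd (nat_lit 78) (nat_lit 1292) (nat_lit 0) (XT.lf (nat_lit 0) (nat_lit 1005224242) (nat_lit 608) (nat_lit 2888712287) (nat_lit 684) (nat_lit 4421930511) (nat_lit 318) (nat_lit 5) (nat_lit 326) (nat_lit 5) (nat_lit 327) (nat_lit 5) (nat_lit 380) (nat_lit 331) (nat_lit 309)) (XT.nd (nat_lit 78) (nat_lit 608) (nat_lit 0) (XT.lf (nat_lit 0) (nat_lit 462666589) (nat_lit 684) (nat_lit 6264771216) (nat_lit 76) (nat_lit 1692378115) (nat_lit 309) (nat_lit 5) (nat_lit 318) (nat_lit 5) (nat_lit 310) (nat_lit 5) (nat_lit 381) (nat_lit 331) (nat_lit 308)) (XT.lf (nat_lit 0) (nat_lit 3328566004) (nat_lit 608) (nat_lit 2086184759) (nat_lit 684) (nat_lit 3111927405) (nat_lit 301) (nat_lit 5) (nat_lit 309) (nat_lit 5) (nat_lit 310) (nat_lit 5) (nat_lit 382) (nat_lit 331) (nat_lit 307))))))))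
noncomputable def xc33 : XT := (XT.nd (nat_lit 1482) (nat_lit 6840) (nat_lit 0) (XT.nd (nat_lit 702) (nat_lit 4864) (nat_lit 0) (XT.nd (nat_lit 312) (nat_lit 3268) (nat_lit 0) (XT.nd (nat_lit 156) (nat_lit 1216) (nat_lit 0) (XT.nd (nat_lit 78) (nat_lit 532) (nat_lit 0) (XT.lf (nat_lit 0) (nat_lit 1835651352) (nat_lit 684) (nat_lit 4091968562) (nat_lit 76) (nat_lit 2709249643) (nat_lit 292) (nat_lit 5) (nat_lit 301) (nat_lit 5) (nat_lit 293) (nat_lit 5) (nat_lit 383) (nat_lit 331) (nat_lit 306)) (XT.lf (nat_lit 0) (nat_lit 5799350538) (nat_lit 532) (nat_lit 1070800201) (nat_lit 608) (nat_lit 1880189107) (nat_lit 285) (nat_lit 5) (nat_lit 292) (nat_lit 5) (nat_lit 293) (nat_lit 5) (nat_lit 384) (nat_lit 331) (nat_lit 305))) (XT.nd (nat_lit 78) (nat_lit 532) (nat_lit 0) (XT.lf (nat_lit 0) (nat_lit 3141583327) (nat_lit 684) (nat_lit 1786729289) (nat_lit 76) (nat_lit 3938588997) (nat_lit 276) (nat_lit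 5) (nat_lit 285) (nat_lit 5) (nat_lit 277) (nat_lit 5) (nat_lit 385) (nat_lit 331) (nat_lit 304)) (XT.lf (nat_lit 0) (nat_lit 8268361680) (nat_lit 608) (nat_lit 573476253) (nat_lit 76) (nat_lit 145275798) (nat_lit 269) (nat_lit 5) (nat_lit 277) (nat_lit 5) (nat_lit 270) (nat_lit 5) (nat_lit 386) (nat_lit 331) (nat_lit 303)))) (XT.nd (nat_lit 156) (nat_lit 1520) (nat_lit 0) (XT.nd (nat_lit 78) (nat_lit 608) (nat_lit 0) (XT.lf (nat_lit 0) (nat_lit 656627281) (nat_lit 532) (nat_lit 3734902607) (nat_lit 608) (nat_lit 4718591551) (nat_lit 254) (nat_lit 5) (nat_lit 261) (nat_lit 5) (nat_lit 262) (nat_lit 5) (nat_lit 387) (nat_lit 331) (nat_lit 302)) (XT.lf (nat_lit 0) (nat_lit 393948556) (nat_lit 608) (nat_lit 7289394182) (nat_lit 76) (nat_lit 1553515023) (nat_lit 246) (nat_lit 5) (nat_lit 254) (nat_lit 5) (nat_lit 247) (nat_lit 5) (nat_lit 388) (nat_lit 331) (nat_lit 301))) (XT.nd (nat_lit 78) (nat_lit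 1064) (nat_lit 0) (XT.lf (nat_lit 0) (nat_lit 3252576965) (nat_lit 456) (nat_lit 2347585436) (nat_lit 532) (nat_lit 3766521880) (nat_lit 240) (nat_lit 5) (nat_lit 246) (nat_lit 5) (nat_lit 247) (nat_lit 5) (nat_lit 389) (nat_lit 331) (nat_lit 300)) (XT.nd (nat_lit 78) (nat_lit 456) (nat_lit 0) (XT.lf (nat_lit 0) (nat_lit 1445070670) (nat_lit 608) (nat_lit 4901466421) (nat_lit 76) (nat_lit 3153636837) (nat_lit 232) (nat_lit 5) (nat_lit 240) (nat_lit 5) (nat_lit 233) (nat_lit 5) (nat_lit 390) (nat_lit 331) (nat_lit 299)) (XT.lf (nat_lit 0) (nat_lit 5975556462) (nat_lit 456) (nat_lit 786077347) (nat_lit 532) (nat_lit 2875540621) (nat_lit 226) (nat_lit 5) (nat_lit 232) (nat_lit 5) (nat_lit 233) (nat_lit 5) (nat_lit 391) (nat_lit 331) (nat_lit 298)))))) (XT.nd (nat_lit 390) (nat_lit 2052) (nat_lit 0) (XT.nd (nat_lit 156) (nat_lit 1824) (nat_lit 0) (XT.nd (nat_lit 78) (nat_lit 456) (nat_lit 0) (XT.lf (nat_lit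 0) (nat_lit 2445713088) (nat_lit 532) (nat_lit 2401718897) (nat_lit 76) (nat_lit 4930162404) (nat_lit 219) (nat_lit 5) (nat_lit 226) (nat_lit 5) (nat_lit 220) (nat_lit 5) (nat_lit 392) (nat_lit 331) (nat_lit 297)) (XT.lf (nat_lit 0) (nat_lit 7887587361) (nat_lit 532) (nat_lit 1103812256) (nat_lit 76) (nat_lit 930446177) (nat_lit 213) (nat_lit 5) (nat_lit 220) (nat_lit 5) (nat_lit 214) (nat_lit 5) (nat_lit 393) (nat_lit 331) (nat_lit 296))) (XT.nd (nat_lit 78) (nat_lit 912) (nat_lit 0) (XT.lf (nat_lit 0) (nat_lit 211198840) (nat_lit 380) (nat_lit 3191140488) (nat_lit 456) (nat_lit 6667142413) (nat_lit 201) (nat_lit 5) (nat_lit 206) (nat_lit 5) (nat_lit 207) (nat_lit 5) (nat_lit 394) (nat_lit 331) (nat_lit 295)) (XT.nd (nat_lit 78) (nat_lit 456) (nat_lit 0) (XT.lf (nat_lit 0) (nat_lit 1578797037) (nat_lit 456) (nat_lit 7414674828) (nat_lit 532) (nat_lit 1227424486) (nat_lit 195) (nat_lit 5) (nat_lit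 201) (nat_lit 5) (nat_lit 202) (nat_lit 5) (nat_lit 395) (nat_lit 331) (nat_lit 294)) (XT.lf (nat_lit 0) (nat_lit 2966931727) (nat_lit 380) (nat_lit 1367911742) (nat_lit 456) (nat_lit 6041106882) (nat_lit 189) (nat_lit 5) (nat_lit 194) (nat_lit 5) (nat_lit 195) (nat_lit 5) (nat_lit 396) (nat_lit 331) (nat_lit 293))))) (XT.nd (nat_lit 156) (nat_lit 1216) (nat_lit 0) (XT.nd (nat_lit 78) (nat_lit 456) (nat_lit 0) (XT.lf (nat_lit 0) (nat_lit 4386015339) (nat_lit 380) (nat_lit 5690702913) (nat_lit 456) (nat_lit 458187161) (nat_lit 184) (nat_lit 5) (nat_lit 189) (nat_lit 5) (nat_lit 190) (nat_lit 5) (nat_lit 397) (nat_lit 331) (nat_lit 292)) (XT.lf (nat_lit 0) (nat_lit 5235749220) (nat_lit 456) (nat_lit 4868627147) (nat_lit 76) (nat_lit 593306798) (nat_lit 178) (nat_lit 5) (nat_lit 184) (nat_lit 5) (nat_lit 179) (nat_lit 5) (nat_lit 398) (nat_lit 331) (nat_lit 291))) (XT.nd (nat_lit 78) (nat_lit 760) (nat_lit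 0) (XT.lf (nat_lit 0) (nat_lit 266559585) (nat_lit 456) (nat_lit 3563339343) (nat_lit 76) (nat_lit 7034543655) (nat_lit 172) (nat_lit 5) (nat_lit 178) (nat_lit 5) (nat_lit 173) (nat_lit 5) (nat_lit 399) (nat_lit 331) (nat_lit 290)) (XT.nd (nat_lit 78) (nat_lit 456) (nat_lit 0) (XT.lf (nat_lit 0) (nat_lit 6115083991) (nat_lit 380) (nat_lit 2243579679) (nat_lit 76) (nat_lit 2676371401) (nat_lit 168) (nat_lit 5) (nat_lit 173) (nat_lit 5) (nat_lit 169) (nat_lit 5) (nat_lit 400) (nat_lit 331) (nat_lit 289)) (XT.lf (nat_lit 0) (nat_lit 948599359) (nat_lit 456) (nat_lit 886784719) (nat_lit 76) (nat_lit 9374591596) (nat_lit 162) (nat_lit 5) (nat_lit 168) (nat_lit 5) (nat_lit 163) (nat_lit 5) (nat_lit 401) (nat_lit 331) (nat_lit 288))))))) (XT.nd (nat_lit 780) (nat_lit 2888) (nat_lit 0) (XT.nd (nat_lit 390) (nat_lit 1900) (nat_lit 0) (XT.nd (nat_lit 156) (nat_lit 988) (nat_lit 0) (XT.nd (nat_lit 78) (nat_lit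 380) (nat_lit 0) (XT.lf (nat_lit 0) (nat_lit 481141977) (nat_lit 380) (nat_lit 6489787184) (nat_lit 456) (nat_lit 4417693605) (nat_lit 153) (nat_lit 5) (nat_lit 158) (nat_lit 5) (nat_lit 159) (nat_lit 5) (nat_lit 402) (nat_lit 331) (nat_lit 287)) (XT.lf (nat_lit 0) (nat_lit 1611722110) (nat_lit 380) (nat_lit 9665005942) (nat_lit 76) (nat_lit 295064807) (nat_lit 148) (nat_lit 5) (nat_lit 153) (nat_lit 5) (nat_lit 149) (nat_lit 5) (nat_lit 403) (nat_lit 331) (nat_lit 286))) (XT.nd (nat_lit 78) (nat_lit 684) (nat_lit 0) (XT.lf (nat_lit 0) (nat_lit 3330468702) (nat_lit 304) (nat_lit 4488665184) (nat_lit 380) (nat_lit 3939597495) (nat_lit 144) (nat_lit 5) (nat_lit 148) (nat_lit 5) (nat_lit 149) (nat_lit 5) (nat_lit 404) (nat_lit 331) (nat_lit 285)) (XT.nd (nat_lit 78) (nat_lit 304) (nat_lit 0) (XT.lf (nat_lit 0) (nat_lit 2264015149) (nat_lit 380) (nat_lit 7155667988) (nat_lit 76) (nat_lit 2530657558)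 (nat_lit 139) (nat_lit 5) (nat_lit 144) (nat_lit 5) (nat_lit 140) (nat_lit 5) (nat_lit 405) (nat_lit 331) (nat_lit 284)) (XT.lf (nat_lit 0) (nat_lit 6275113448) (nat_lit 304) (nat_lit 2373203445) (nat_lit 380) (nat_lit 3497898494) (nat_lit 135) (nat_lit 5) (nat_lit 139) (nat_lit 5) (nat_lit 140) (nat_lit 5) (nat_lit 406) (nat_lit 331) (nat_lit 283))))) (XT.nd (nat_lit 156) (nat_lit 1216) (nat_lit 0) (XT.nd (nat_lit 78) (nat_lit 304) (nat_lit 0) (XT.lf (nat_lit 0) (nat_lit 2890651989) (nat_lit 380) (nat_lit 4568572446) (nat_lit 76) (nat_lit 4887324558) (nat_lit 130) (nat_lit 5) (nat_lit 135) (nat_lit 5) (nat_lit 131) (nat_lit 5) (nat_lit 407) (nat_lit 331) (nat_lit 282)) (XT.lf (nat_lit 0) (nat_lit 9315935769) (nat_lit 304) (nat_lit 145720800) (nat_lit 380) (nat_lit 3090007209) (nat_lit 126) (nat_lit 5) (nat_lit 130) (nat_lit 5) (nat_lit 131) (nat_lit 5) (nat_lit 408) (nat_lit 331) (nat_lit 281)))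 (XT.nd (nat_lit 78) (nat_lit 912) (nat_lit 0) (XT.lf (nat_lit 0) (nat_lit 3494391541) (nat_lit 304) (nat_lit 1903305649) (nat_lit 76) (nat_lit 7363324619) (nat_lit 122) (nat_lit 5) (nat_lit 126) (nat_lit 5) (nat_lit 123) (nat_lit 5) (nat_lit 409) (nat_lit 331) (nat_lit 280)) (XT.nd (nat_lit 78) (nat_lit 608) (nat_lit 0) (XT.lf (nat_lit 0) (nat_lit 10276379471) (nat_lit 380) (nat_lit 535814207) (nat_lit 76) (nat_lit 2163217638) (nat_lit 118) (nat_lit 5) (nat_lit 123) (nat_lit 5) (nat_lit 119) (nat_lit 5) (nat_lit 410) (nat_lit 331) (nat_lit 279)) (XT.lf (nat_lit 0) (nat_lit 852001050) (nat_lit 304) (nat_lit 3231335578) (nat_lit 380) (nat_lit 9110946688) (nat_lit 110) (nat_lit 5) (nat_lit 114) (nat_lit 5) (nat_lit 115) (nat_lit 5) (nat_lit 411) (nat_lit 331) (nat_lit 278)))))) (XT.nd (nat_lit 390) (nat_lit 1520) (nat_lit 0) (XT.nd (nat_lit 156) (nat_lit 760) (nat_lit 0) (XT.nd (nat_lit 78) (nat_lit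 380) (nat_lit 0) (XT.lf (nat_lit 0) (nat_lit 2271848451) (nat_lit 228) (nat_lit 8825636028) (nat_lit 304) (nat_lit 2320580634) (nat_lit 107) (nat_lit 5) (nat_lit 110) (nat_lit 5) (nat_lit 111) (nat_lit 5) (nat_lit 412) (nat_lit 331) (nat_lit 277)) (XT.lf (nat_lit 0) (nat_lit 3713492684) (nat_lit 304) (nat_lit 953907795) (nat_lit 380) (nat_lit 8979449058) (nat_lit 102) (nat_lit 5) (nat_lit 106) (nat_lit 5) (nat_lit 107) (nat_lit 5) (nat_lit 413) (nat_lit 331) (nat_lit 276))) (XT.nd (nat_lit 78) (nat_lit 532) (nat_lit 0) (XT.lf (nat_lit 0) (nat_lit 5167700339) (nat_lit 228) (nat_lit 6748295029) (nat_lit 304) (nat_lit 1964545307) (nat_lit 99) (nat_lit 5) (nat_lit 102) (nat_lit 5) (nat_lit 103) (nat_lit 5) (nat_lit 414) (nat_lit 331) (nat_lit 275)) (XT.nd (nat_lit 78) (nat_lit 228) (nat_lit 0) (XT.lf (nat_lit 0) (nat_lit 5245532941) (nat_lit 304) (nat_lit 7471778222) (nat_lit 76) (nat_lit 1402173776)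 (nat_lit 95) (nat_lit 5) (nat_lit 99) (nat_lit 5) (nat_lit 96) (nat_lit 5) (nat_lit 415) (nat_lit 331) (nat_lit 274)) (XT.lf (nat_lit 0) (nat_lit 8145998661) (nat_lit 228) (nat_lit 4584929947) (nat_lit 304) (nat_lit 1632695098) (nat_lit 92) (nat_lit 5) (nat_lit 95) (nat_lit 5) (nat_lit 96) (nat_lit 5) (nat_lit 416) (nat_lit 331) (nat_lit 273))))) (XT.nd (nat_lit 156) (nat_lit 988) (nat_lit 0) (XT.nd (nat_lit 78) (nat_lit 228) (nat_lit 0) (XT.lf (nat_lit 0) (nat_lit 5817432076) (nat_lit 304) (nat_lit 4954378841) (nat_lit 76) (nat_lit 3841158442) (nat_lit 88) (nat_lit 5) (nat_lit 92) (nat_lit 5) (nat_lit 89) (nat_lit 5) (nat_lit 417) (nat_lit 331) (nat_lit 272)) (XT.lf (nat_lit 0) (nat_lit 11208370445) (nat_lit 228) (nat_lit 2336333424) (nat_lit 304) (nat_lit 1323359215) (nat_lit 85) (nat_lit 5) (nat_lit 88) (nat_lit 5) (nat_lit 89) (nat_lit 5) (nat_lit 418) (nat_lit 331) (nat_lit 271))) (XT.nd (nat_lit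 78) (nat_lit 684) (nat_lit 0) (XT.lf (nat_lit 0) (nat_lit 6378871441) (nat_lit 304) (nat_lit 2373986938) (nat_lit 76) (nat_lit 6375334286) (nat_lit 81) (nat_lit 5) (nat_lit 85) (nat_lit 5) (nat_lit 82) (nat_lit 5) (nat_lit 419) (nat_lit 331) (nat_lit 270)) (XT.nd (nat_lit 78) (nat_lit 456) (nat_lit 0) (XT.lf (nat_lit 0) (nat_lit 14356684898) (nat_lit 228) (nat_lit 2945761) (nat_lit 304) (nat_lit 1035011710) (nat_lit 78) (nat_lit 5) (nat_lit 81) (nat_lit 5) (nat_lit 82) (nat_lit 5) (nat_lit 420) (nat_lit 331) (nat_lit 269)) (XT.lf (nat_lit 0) (nat_lit 274174851) (nat_lit 152) (nat_lit 6659303078) (nat_lit 228) (nat_lit 8732442529) (nat_lit 72) (nat_lit 5) (nat_lit 74) (nat_lit 5) (nat_lit 75) (nat_lit 5) (nat_lit 421) (nat_lit 331) (nat_lit 268))))))))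
noncomputable def xc34 : XT := (XT.nd (nat_lit 48906) (nat_lit 0) (nat_lit 16036) (XT.nd (nat_lit 48126) (nat_lit 0) (nat_lit 32604) (XT.nd (nat_lit 312) (nat_lit 760) (nat_lit 0) (XT.nd (nat_lit 156) (nat_lit 456) (nat_lit 0) (XT.nd (nat_lit 78) (nat_lit 228) (nat_lit 0) (XT.lf (nat_lit 0) (nat_lit 1654890130) (nat_lit 228) (nat_lit 13549454383) (nat_lit 304) (nat_lit 739307868) (nat_lit 69) (nat_lit 5) (nat_lit 72) (nat_lit 5) (nat_lit 73) (nat_lit 5) (nat_lit 422) (nat_lit 331) (nat_lit 267)) (XT.lf (nat_lit 0) (nat_lit 3020308957) (nat_lit 152) (nat_lit 4476948506) (nat_lit 228) (nat_lit 8729447390) (nat_lit 66) (nat_lit 5) (nat_lit 68) (nat_lit 5) (nat_lit 69) (nat_lit 5) (nat_lit 423) (nat_lit 331) (nat_lit 266))) (XT.nd (nat_lit 78) (nat_lit 228) (nat_lit 0) (XT.lf (nat_lit 0) (nat_lit 4428407650) (nat_lit 228) (nat_lit 11633966979) (nat_lit 304) (nat_lit 453946551) (nat_lit 63) (nat_lit 5)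 (nat_lit 66) (nat_lit 5) (nat_lit 67) (nat_lit 5) (nat_lit 424) (nat_lit 331) (nat_lit 265)) (XT.lf (nat_lit 0) (nat_lit 5834456135) (nat_lit 152) (nat_lit 2221781166) (nat_lit 228) (nat_lit 8755495701) (nat_lit 60) (nat_lit 5) (nat_lit 62) (nat_lit 5) (nat_lit 63) (nat_lit 5) (nat_lit 425) (nat_lit 331) (nat_lit 264)))) (XT.nd (nat_lit 156) (nat_lit 304) (nat_lit 0) (XT.nd (nat_lit 78) (nat_lit 228) (nat_lit 0) (XT.lf (nat_lit 0) (nat_lit 7270508696) (nat_lit 228) (nat_lit 9658420661) (nat_lit 304) (nat_lit 184750410) (nat_lit 57) (nat_lit 5) (nat_lit 60) (nat_lit 5) (nat_lit 61) (nat_lit 5) (nat_lit 426) (nat_lit 331) (nat_lit 263)) (XT.lf (nat_lit 0) (nat_lit 8612662507) (nat_lit 228) (nat_lit 8704214787) (nat_lit 76) (nat_lit 105027277) (nat_lit 54) (nat_lit 5) (nat_lit 57) (nat_lit 5) (nat_lit 55) (nat_lit 5) (nat_lit 427) (nat_lit 331) (nat_lit 262))) (XT.nd (nat_lit 47502) (nat_lit 0) (nat_lit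 47956) (XT.lf (nat_lit 0) (nat_lit 68426269) (nat_lit 304) (nat_lit 7554045360) (nat_lit 76) (nat_lit 10114180876) (nat_lit 50) (nat_lit 5) (nat_lit 54) (nat_lit 5) (nat_lit 51) (nat_lit 5) (nat_lit 428) (nat_lit 331) (nat_lit 261)) (XT.nd (nat_lit 78) (nat_lit 1140) (nat_lit 0) (XT.lf (nat_lit 0) (nat_lit 27316811) (nat_lit 1140) (nat_lit 3301694164) (nat_lit 0) (nat_lit 27316811) (nat_lit 696) (nat_lit 5) (nat_lit 711) (nat_lit 4) (nat_lit 696) (nat_lit 4) (nat_lit 356) (nat_lit 332) (nat_lit 332)) (XT.lf (nat_lit 0) (nat_lit 134789265) (nat_lit 1140) (nat_lit 4918378228) (nat_lit 1140) (nat_lit 1694518338) (nat_lit 681) (nat_lit 4) (nat_lit 696) (nat_lit 5) (nat_lit 696) (nat_lit 4) (nat_lit 357) (nat_lit 332) (nat_lit 331)))))) (XT.nd (nat_lit 390) (nat_lit 8208) (nat_lit 0) (XT.nd (nat_lit 156) (nat_lit 4484) (nat_lit 0) (XT.nd (nat_lit 78) (nat_lit 1368) (nat_lit 0) (XT.lf (nat_lit 0) (nat_lit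 225161009) (nat_lit 1216) (nat_lit 3031760752) (nat_lit 1292) (nat_lit 3528724258) (nat_lit 664) (nat_lit 5) (nat_lit 680) (nat_lit 5) (nat_lit 681) (nat_lit 4) (nat_lit 358) (nat_lit 332) (nat_lit 330)) (XT.lf (nat_lit 0) (nat_lit 380851220) (nat_lit 1292) (nat_lit 996510488) (nat_lit 1368) (nat_lit 5449207392) (nat_lit 646) (nat_lit 5) (nat_lit 663) (nat_lit 5) (nat_lit 664) (nat_lit 5) (nat_lit 359) (nat_lit 332) (nat_lit 329))) (XT.nd (nat_lit 78) (nat_lit 3116) (nat_lit 0) (XT.lf (nat_lit 0) (nat_lit 590268416) (nat_lit 1368) (nat_lit 5692482683) (nat_lit 1444) (nat_lit 587501028) (nat_lit 628) (nat_lit 5) (nat_lit 646) (nat_lit 5) (nat_lit 647) (nat_lit 4) (nat_lit 360) (nat_lit 332) (nat_lit 328)) (XT.nd (nat_lit 78) (nat_lit 1596) (nat_lit 0) (XT.lf (nat_lit 0) (nat_lit 848040855) (nat_lit 1444) (nat_lit 3416895703) (nat_lit 1520) (nat_lit 2651678134) (nat_lit 608) (nat_lit 5) (nat_lit 627)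 (nat_lit 5) (nat_lit 628) (nat_lit 5) (nat_lit 361) (nat_lit 332) (nat_lit 327)) (XT.lf (nat_lit 0) (nat_lit 1170265200) (nat_lit 1520) (nat_lit 990122110) (nat_lit 1596) (nat_lit 4805610603) (nat_lit 587) (nat_lit 5) (nat_lit 607) (nat_lit 5) (nat_lit 608) (nat_lit 5) (nat_lit 362) (nat_lit 332) (nat_lit 326))))) (XT.nd (nat_lit 156) (nat_lit 4864) (nat_lit 0) (XT.nd (nat_lit 78) (nat_lit 1748) (nat_lit 0) (XT.lf (nat_lit 0) (nat_lit 1546628731) (nat_lit 1596) (nat_lit 5448479818) (nat_lit 1672) (nat_lit 23117136) (nat_lit 566) (nat_lit 5) (nat_lit 587) (nat_lit 5) (nat_lit 588) (nat_lit 5) (nat_lit 363) (nat_lit 332) (nat_lit 325)) (XT.lf (nat_lit 0) (nat_lit 1965612479) (nat_lit 1672) (nat_lit 2787176007) (nat_lit 1748) (nat_lit 2320310370) (nat_lit 543) (nat_lit 5) (nat_lit 565) (nat_lit 5) (nat_lit 566) (nat_lit 5) (nat_lit 364) (nat_lit 332) (nat_lit 324))) (XT.nd (nat_lit 78) (nat_lit 3040)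 (nat_lit 0) (XT.lf (nat_lit 0) (nat_lit 2419826872) (nat_lit 1824) (nat_lit 4682536754) (nat_lit 76) (nat_lit 28698965) (nat_lit 519) (nat_lit 5) (nat_lit 543) (nat_lit 5) (nat_lit 520) (nat_lit 5) (nat_lit 365) (nat_lit 332) (nat_lit 323)) (XT.nd (nat_lit 78) (nat_lit 1140) (nat_lit 0) (XT.lf (nat_lit 0) (nat_lit 12672950) (nat_lit 1900) (nat_lit 4215153519) (nat_lit 76) (nat_lit 2963950835) (nat_lit 494) (nat_lit 5) (nat_lit 519) (nat_lit 5) (nat_lit 495) (nat_lit 5) (nat_lit 366) (nat_lit 332) (nat_lit 322)) (XT.lf (nat_lit 0) (nat_lit 3552282549) (nat_lit 1140) (nat_lit 1180630843) (nat_lit 1216) (nat_lit 2522404806) (nat_lit 479) (nat_lit 5) (nat_lit 494) (nat_lit 5) (nat_lit 495) (nat_lit 5) (nat_lit 367) (nat_lit 332) (nat_lit 321))))))) (XT.nd (nat_lit 780) (nat_lit 7144) (nat_lit 0) (XT.nd (nat_lit 390) (nat_lit 4788) (nat_lit 0) (XT.nd (nat_lit 156) (nat_lit 2736) (nat_lit 0) (XT.nd (nat_lit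 78) (nat_lit 912) (nat_lit 0) (XT.lf (nat_lit 0) (nat_lit 2178765731) (nat_lit 988) (nat_lit 3143031611) (nat_lit 76) (nat_lit 1999980815) (nat_lit 466) (nat_lit 5) (nat_lit 479) (nat_lit 5) (nat_lit 467) (nat_lit 5) (nat_lit 368) (nat_lit 332) (nat_lit 320)) (XT.lf (nat_lit 0) (nat_lit 4858260371) (nat_lit 912) (nat_lit 2061807738) (nat_lit 988) (nat_lit 471163018) (nat_lit 454) (nat_lit 5) (nat_lit 466) (nat_lit 5) (nat_lit 467) (nat_lit 5) (nat_lit 369) (nat_lit 332) (nat_lit 319))) (XT.nd (nat_lit 78) (nat_lit 1824) (nat_lit 0) (XT.lf (nat_lit 0) (nat_lit 4221122852) (nat_lit 912) (nat_lit 1885281136) (nat_lit 76) (nat_lit 1357055786) (nat_lit 442) (nat_lit 5) (nat_lit 454) (nat_lit 5) (nat_lit 443) (nat_lit 5) (nat_lit 370) (nat_lit 332) (nat_lit 318)) (XT.nd (nat_lit 78) (nat_lit 836) (nat_lit 0) (XT.lf (nat_lit 0) (nat_lit 1435600741) (nat_lit 988) (nat_lit 1190340155) (nat_lit 76) (nat_lit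 4912747593) (nat_lit 429) (nat_lit 5) (nat_lit 442) (nat_lit 5) (nat_lit 430) (nat_lit 5) (nat_lit 371) (nat_lit 332) (nat_lit 317)) (XT.lf (nat_lit 0) (nat_lit 6151574353) (nat_lit 912) (nat_lit 450121359) (nat_lit 76) (nat_lit 1015214748) (nat_lit 418) (nat_lit 5) (nat_lit 430) (nat_lit 5) (nat_lit 419) (nat_lit 5) (nat_lit 372) (nat_lit 332) (nat_lit 316))))) (XT.nd (nat_lit 156) (nat_lit 2280) (nat_lit 0) (XT.nd (nat_lit 78) (nat_lit 836) (nat_lit 0) (XT.lf (nat_lit 0) (nat_lit 328523485) (nat_lit 760) (nat_lit 2897386186) (nat_lit 836) (nat_lit 4471983541) (nat_lit 396) (nat_lit 5) (nat_lit 406) (nat_lit 5) (nat_lit 407) (nat_lit 5) (nat_lit 373) (nat_lit 332) (nat_lit 315)) (XT.lf (nat_lit 0) (nat_lit 203920582) (nat_lit 836) (nat_lit 6612918350) (nat_lit 76) (nat_lit 965231109) (nat_lit 385) (nat_lit 5) (nat_lit 396) (nat_lit 5) (nat_lit 386) (nat_lit 5) (nat_lit 374) (nat_lit 332) (nat_lit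 314))) (XT.nd (nat_lit 78) (nat_lit 1520) (nat_lit 0) (XT.lf (nat_lit 0) (nat_lit 2033499306) (nat_lit 760) (nat_lit 2889789833) (nat_lit 836) (nat_lit 2945612959) (nat_lit 375) (nat_lit 5) (nat_lit 385) (nat_lit 5) (nat_lit 386) (nat_lit 5) (nat_lit 375) (nat_lit 332) (nat_lit 313)) (XT.nd (nat_lit 78) (nat_lit 684) (nat_lit 0) (XT.lf (nat_lit 0) (nat_lit 1756687414) (nat_lit 836) (nat_lit 5007745978) (nat_lit 76) (nat_lit 1194573930) (nat_lit 364) (nat_lit 5) (nat_lit 375) (nat_lit 5) (nat_lit 365) (nat_lit 5) (nat_lit 376) (nat_lit 332) (nat_lit 312)) (XT.lf (nat_lit 0) (nat_lit 3902622644) (nat_lit 684) (nat_lit 2627046622) (nat_lit 760) (nat_lit 1522364390) (nat_lit 355) (nat_lit 5) (nat_lit 364) (nat_lit 5) (nat_lit 365) (nat_lit 5) (nat_lit 377) (nat_lit 332) (nat_lit 311)))))) (XT.nd (nat_lit 390) (nat_lit 3040) (nat_lit 0) (XT.nd (nat_lit 156) (nat_lit 2660) (nat_lit 0) (XT.nd (nat_lit 78)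 (nat_lit 684) (nat_lit 0) (XT.lf (nat_lit 0) (nat_lit 3218418858) (nat_lit 760) (nat_lit 3253910940) (nat_lit 76) (nat_lit 1675819073) (nat_lit 345) (nat_lit 5) (nat_lit 355) (nat_lit 5) (nat_lit 346) (nat_lit 5) (nat_lit 378) (nat_lit 332) (nat_lit 310)) (XT.lf (nat_lit 0) (nat_lit 5930563390) (nat_lit 684) (nat_lit 2123571123) (nat_lit 760) (nat_lit 193343935) (nat_lit 336) (nat_lit 5) (nat_lit 345) (nat_lit 5) (nat_lit 346) (nat_lit 5) (nat_lit 379) (nat_lit 332) (nat_lit 309))) (XT.nd (nat_lit 78) (nat_lit 1900) (nat_lit 0) (XT.lf (nat_lit 0) (nat_lit 4597677825) (nat_lit 760) (nat_lit 1356542811) (nat_lit 76) (nat_lit 2395479087) (nat_lit 326) (nat_lit 5) (nat_lit 336) (nat_lit 5) (nat_lit 327) (nat_lit 5) (nat_lit 380) (nat_lit 332) (nat_lit 308)) (XT.nd (nat_lit 78) (nat_lit 1216) (nat_lit 0) (XT.lf (nat_lit 0) (nat_lit 1035924476) (nat_lit 684) (nat_lit 349513425) (nat_lit 76) (nat_lit 7069881005)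 (nat_lit 317) (nat_lit 5) (nat_lit 326) (nat_lit 5) (nat_lit 318) (nat_lit 5) (nat_lit 381) (nat_lit 332) (nat_lit 307)) (XT.lf (nat_lit 0) (nat_lit 688976856) (nat_lit 608) (nat_lit 5217920904) (nat_lit 684) (nat_lit 2656905614) (nat_lit 301) (nat_lit 5) (nat_lit 309) (nat_lit 5) (nat_lit 310) (nat_lit 5) (nat_lit 382) (nat_lit 332) (nat_lit 306))))) (XT.nd (nat_lit 156) (nat_lit 1824) (nat_lit 0) (XT.nd (nat_lit 78) (nat_lit 532) (nat_lit 0) (XT.lf (nat_lit 0) (nat_lit 1778091532) (nat_lit 608) (nat_lit 418794974) (nat_lit 684) (nat_lit 6478805549) (nat_lit 292) (nat_lit 5) (nat_lit 300) (nat_lit 5) (nat_lit 301) (nat_lit 5) (nat_lit 383) (nat_lit 332) (nat_lit 305)) (XT.lf (nat_lit 0) (nat_lit 2889689948) (nat_lit 532) (nat_lit 4269135749) (nat_lit 608) (nat_lit 1631787851) (nat_lit 285) (nat_lit 5) (nat_lit 292) (nat_lit 5) (nat_lit 293) (nat_lit 5) (nat_lit 384) (nat_lit 332) (nat_lit 304)))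 (XT.nd (nat_lit 78) (nat_lit 1140) (nat_lit 0) (XT.lf (nat_lit 0) (nat_lit 3295623252) (nat_lit 684) (nat_lit 4867188879) (nat_lit 76) (nat_lit 746152999) (nat_lit 276) (nat_lit 5) (nat_lit 285) (nat_lit 5) (nat_lit 277) (nat_lit 5) (nat_lit 385) (nat_lit 332) (nat_lit 303)) (XT.nd (nat_lit 78) (nat_lit 608) (nat_lit 0) (XT.lf (nat_lit 0) (nat_lit 5224407972) (nat_lit 532) (nat_lit 3127002811) (nat_lit 608) (nat_lit 679186279) (nat_lit 269) (nat_lit 5) (nat_lit 276) (nat_lit 5) (nat_lit 277) (nat_lit 5) (nat_lit 386) (nat_lit 332) (nat_lit 302)) (XT.lf (nat_lit 0) (nat_lit 4335394112) (nat_lit 608) (nat_lit 2720582915) (nat_lit 76) (nat_lit 2099526260) (nat_lit 261) (nat_lit 5) (nat_lit 269) (nat_lit 5) (nat_lit 262) (nat_lit 5) (nat_lit 387) (nat_lit 332) (nat_lit 301))))))))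
noncomputable def xc35 : XT := (XT.nd (nat_lit 1560) (nat_lit 5624) (nat_lit 0) (XT.nd (nat_lit 780) (nat_lit 4484) (nat_lit 0) (XT.nd (nat_lit 390) (nat_lit 2280) (nat_lit 0) (XT.nd (nat_lit 156) (nat_lit 2052) (nat_lit 0) (XT.nd (nat_lit 78) (nat_lit 532) (nat_lit 0) (XT.lf (nat_lit 0) (nat_lit 204276648) (nat_lit 608) (nat_lit 1594841716) (nat_lit 76) (nat_lit 7484924141) (nat_lit 253) (nat_lit 5) (nat_lit 261) (nat_lit 5) (nat_lit 254) (nat_lit 5) (nat_lit 388) (nat_lit 332) (nat_lit 300)) (XT.lf (nat_lit 0) (nat_lit 5319438018) (nat_lit 608) (nat_lit 457655855) (nat_lit 76) (nat_lit 3638596201) (nat_lit 246) (nat_lit 5) (nat_lit 254) (nat_lit 5) (nat_lit 247) (nat_lit 5) (nat_lit 389) (nat_lit 332) (nat_lit 299))) (XT.nd (nat_lit 78) (nat_lit 988) (nat_lit 0) (XT.lf (nat_lit 0) (nat_lit 737790021) (nat_lit 532) (nat_lit 285842261) (nat_lit 608) (nat_lit 8527510910) (nat_lit 232) (nat_lit 5)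 (nat_lit 239) (nat_lit 5) (nat_lit 240) (nat_lit 5) (nat_lit 390) (nat_lit 332) (nat_lit 298)) (XT.nd (nat_lit 78) (nat_lit 532) (nat_lit 0) (XT.lf (nat_lit 0) (nat_lit 1945033434) (nat_lit 456) (nat_lit 4320889857) (nat_lit 532) (nat_lit 3423705845) (nat_lit 226) (nat_lit 5) (nat_lit 232) (nat_lit 5) (nat_lit 233) (nat_lit 5) (nat_lit 391) (nat_lit 332) (nat_lit 297)) (XT.lf (nat_lit 0) (nat_lit 1808530326) (nat_lit 532) (nat_lit 6634073402) (nat_lit 76) (nat_lit 1389440684) (nat_lit 219) (nat_lit 5) (nat_lit 226) (nat_lit 5) (nat_lit 220) (nat_lit 5) (nat_lit 392) (nat_lit 332) (nat_lit 296))))) (XT.nd (nat_lit 156) (nat_lit 1292) (nat_lit 0) (XT.nd (nat_lit 78) (nat_lit 532) (nat_lit 0) (XT.lf (nat_lit 0) (nat_lit 4467981939) (nat_lit 456) (nat_lit 2703146578) (nat_lit 532) (nat_lit 2806752822) (nat_lit 213) (nat_lit 5) (nat_lit 219) (nat_lit 5) (nat_lit 220) (nat_lit 5) (nat_lit 393) (nat_lit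 332) (nat_lit 295)) (XT.lf (nat_lit 0) (nat_lit 2547011012) (nat_lit 532) (nat_lit 4358011536) (nat_lit 76) (nat_lit 3222454357) (nat_lit 206) (nat_lit 5) (nat_lit 213) (nat_lit 5) (nat_lit 207) (nat_lit 5) (nat_lit 394) (nat_lit 332) (nat_lit 294))) (XT.nd (nat_lit 78) (nat_lit 912) (nat_lit 0) (XT.lf (nat_lit 0) (nat_lit 7103989260) (nat_lit 380) (nat_lit 932846688) (nat_lit 456) (nat_lit 2244081717) (nat_lit 201) (nat_lit 5) (nat_lit 206) (nat_lit 5) (nat_lit 207) (nat_lit 5) (nat_lit 395) (nat_lit 332) (nat_lit 293)) (XT.nd (nat_lit 78) (nat_lit 380) (nat_lit 0) (XT.lf (nat_lit 0) (nat_lit 3241588366) (nat_lit 532) (nat_lit 1984622300) (nat_lit 76) (nat_lit 5211691646) (nat_lit 194) (nat_lit 5) (nat_lit 201) (nat_lit 5) (nat_lit 195) (nat_lit 5) (nat_lit 396) (nat_lit 332) (nat_lit 292)) (XT.lf (nat_lit 0) (nat_lit 8873910042) (nat_lit 456) (nat_lit 753182152) (nat_lit 76) (nat_lit 971956242)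 (nat_lit 189) (nat_lit 5) (nat_lit 195) (nat_lit 5) (nat_lit 190) (nat_lit 5) (nat_lit 397) (nat_lit 332) (nat_lit 291)))))) (XT.nd (nat_lit 390) (nat_lit 2128) (nat_lit 0) (XT.nd (nat_lit 156) (nat_lit 1140) (nat_lit 0) (XT.nd (nat_lit 78) (nat_lit 380) (nat_lit 0) (XT.lf (nat_lit 0) (nat_lit 491643245) (nat_lit 380) (nat_lit 3407862132) (nat_lit 456) (nat_lit 6864203507) (nat_lit 178) (nat_lit 5) (nat_lit 183) (nat_lit 5) (nat_lit 184) (nat_lit 5) (nat_lit 398) (nat_lit 332) (nat_lit 290)) (XT.lf (nat_lit 0) (nat_lit 1783436003) (nat_lit 380) (nat_lit 7915257740) (nat_lit 456) (nat_lit 1233802475) (nat_lit 173) (nat_lit 5) (nat_lit 178) (nat_lit 5) (nat_lit 179) (nat_lit 5) (nat_lit 399) (nat_lit 332) (nat_lit 289))) (XT.nd (nat_lit 78) (nat_lit 760) (nat_lit 0) (XT.lf (nat_lit 0) (nat_lit 3091478171) (nat_lit 304) (nat_lit 1443536144) (nat_lit 380) (nat_lit 6570152387) (nat_lit 168) (nat_lit 5)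 (nat_lit 172) (nat_lit 5) (nat_lit 173) (nat_lit 5) (nat_lit 400) (nat_lit 332) (nat_lit 288)) (XT.nd (nat_lit 78) (nat_lit 380) (nat_lit 0) (XT.lf (nat_lit 0) (nat_lit 4426571695) (nat_lit 380) (nat_lit 6076437096) (nat_lit 456) (nat_lit 778987886) (nat_lit 163) (nat_lit 5) (nat_lit 168) (nat_lit 5) (nat_lit 169) (nat_lit 5) (nat_lit 401) (nat_lit 332) (nat_lit 287)) (XT.lf (nat_lit 0) (nat_lit 5142761645) (nat_lit 380) (nat_lit 5678894503) (nat_lit 76) (nat_lit 641304711) (nat_lit 158) (nat_lit 5) (nat_lit 163) (nat_lit 5) (nat_lit 159) (nat_lit 5) (nat_lit 402) (nat_lit 332) (nat_lit 286))))) (XT.nd (nat_lit 156) (nat_lit 1368) (nat_lit 0) (XT.nd (nat_lit 78) (nat_lit 380) (nat_lit 0) (XT.lf (nat_lit 0) (nat_lit 7166280730) (nat_lit 380) (nat_lit 4119249334) (nat_lit 456) (nat_lit 362641925) (nat_lit 153) (nat_lit 5) (nat_lit 158) (nat_lit 5) (nat_lit 159) (nat_lit 5) (nat_lit 403) (nat_lit 332)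 (nat_lit 285)) (XT.lf (nat_lit 0) (nat_lit 5731954741) (nat_lit 380) (nat_lit 3273970369) (nat_lit 76) (nat_lit 2831583916) (nat_lit 148) (nat_lit 5) (nat_lit 153) (nat_lit 5) (nat_lit 149) (nat_lit 5) (nat_lit 404) (nat_lit 332) (nat_lit 284))) (XT.nd (nat_lit 78) (nat_lit 988) (nat_lit 0) (XT.lf (nat_lit 0) (nat_lit 17852587) (nat_lit 380) (nat_lit 2028714193) (nat_lit 76) (nat_lit 9985005070) (nat_lit 143) (nat_lit 5) (nat_lit 148) (nat_lit 5) (nat_lit 144) (nat_lit 5) (nat_lit 405) (nat_lit 332) (nat_lit 283)) (XT.nd (nat_lit 78) (nat_lit 684) (nat_lit 0) (XT.lf (nat_lit 0) (nat_lit 6296212354) (nat_lit 380) (nat_lit 789528026) (nat_lit 76) (nat_lit 5143825001) (nat_lit 139) (nat_lit 5) (nat_lit 144) (nat_lit 5) (nat_lit 140) (nat_lit 5) (nat_lit 406) (nat_lit 332) (nat_lit 282)) (XT.lf (nat_lit 0) (nat_lit 365272812) (nat_lit 380) (nat_lit 11924684564) (nat_lit 76) (nat_lit 142695184) (nat_lit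 130) (nat_lit 5) (nat_lit 135) (nat_lit 5) (nat_lit 131) (nat_lit 5) (nat_lit 407) (nat_lit 332) (nat_lit 281))))))) (XT.nd (nat_lit 780) (nat_lit 2660) (nat_lit 0) (XT.nd (nat_lit 390) (nat_lit 1444) (nat_lit 0) (XT.nd (nat_lit 156) (nat_lit 912) (nat_lit 0) (XT.nd (nat_lit 78) (nat_lit 304) (nat_lit 0) (XT.lf (nat_lit 0) (nat_lit 1798330968) (nat_lit 304) (nat_lit 5051663143) (nat_lit 380) (nat_lit 5789498900) (nat_lit 126) (nat_lit 5) (nat_lit 130) (nat_lit 5) (nat_lit 131) (nat_lit 5) (nat_lit 408) (nat_lit 332) (nat_lit 280)) (XT.lf (nat_lit 0) (nat_lit 710478964) (nat_lit 304) (nat_lit 9712710913) (nat_lit 76) (nat_lit 2428408208) (nat_lit 122) (nat_lit 5) (nat_lit 126) (nat_lit 5) (nat_lit 123) (nat_lit 5) (nat_lit 409) (nat_lit 332) (nat_lit 279))) (XT.nd (nat_lit 78) (nat_lit 608) (nat_lit 0) (XT.lf (nat_lit 0) (nat_lit 4478180092) (nat_lit 304) (nat_lit 2911759901) (nat_lit 380) (nat_lit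 5678098137) (nat_lit 118) (nat_lit 5) (nat_lit 122) (nat_lit 5) (nat_lit 123) (nat_lit 5) (nat_lit 410) (nat_lit 332) (nat_lit 278)) (XT.nd (nat_lit 78) (nat_lit 304) (nat_lit 0) (XT.lf (nat_lit 0) (nat_lit 1028915837) (nat_lit 304) (nat_lit 7438115127) (nat_lit 76) (nat_lit 4822554516) (nat_lit 114) (nat_lit 5) (nat_lit 118) (nat_lit 5) (nat_lit 115) (nat_lit 5) (nat_lit 411) (nat_lit 332) (nat_lit 277)) (XT.lf (nat_lit 0) (nat_lit 7240409452) (nat_lit 304) (nat_lit 672868519) (nat_lit 380) (nat_lit 5602685020) (nat_lit 110) (nat_lit 5) (nat_lit 114) (nat_lit 5) (nat_lit 115) (nat_lit 5) (nat_lit 412) (nat_lit 332) (nat_lit 276))))) (XT.nd (nat_lit 156) (nat_lit 836) (nat_lit 0) (XT.nd (nat_lit 78) (nat_lit 304) (nat_lit 0) (XT.lf (nat_lit 0) (nat_lit 1322570814) (nat_lit 304) (nat_lit 5100556655) (nat_lit 76) (nat_lit 7324161551) (nat_lit 106) (nat_lit 5) (nat_lit 110) (nat_lit 5) (nat_lit 107)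 (nat_lit 5) (nat_lit 413) (nat_lit 332) (nat_lit 275)) (XT.lf (nat_lit 0) (nat_lit 8433073085) (nat_lit 380) (nat_lit 3908592888) (nat_lit 76) (nat_lit 1642076038) (nat_lit 102) (nat_lit 5) (nat_lit 107) (nat_lit 5) (nat_lit 103) (nat_lit 5) (nat_lit 414) (nat_lit 332) (nat_lit 274))) (XT.nd (nat_lit 78) (nat_lit 532) (nat_lit 0) (XT.lf (nat_lit 0) (nat_lit 1593263786) (nat_lit 304) (nat_lit 2699466181) (nat_lit 76) (nat_lit 9932685542) (nat_lit 98) (nat_lit 5) (nat_lit 102) (nat_lit 5) (nat_lit 99) (nat_lit 5) (nat_lit 415) (nat_lit 332) (nat_lit 273)) (XT.nd (nat_lit 78) (nat_lit 304) (nat_lit 0) (XT.lf (nat_lit 0) (nat_lit 8945636224) (nat_lit 304) (nat_lit 1482488979) (nat_lit 76) (nat_lit 4044089537) (nat_lit 95) (nat_lit 5) (nat_lit 99) (nat_lit 5) (nat_lit 96) (nat_lit 5) (nat_lit 416) (nat_lit 332) (nat_lit 272)) (XT.lf (nat_lit 0) (nat_lit 1842658907) (nat_lit 304) (nat_lit 234054926) (nat_lit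 76) (nat_lit 12647991367) (nat_lit 91) (nat_lit 5) (nat_lit 95) (nat_lit 5) (nat_lit 92) (nat_lit 5) (nat_lit 417) (nat_lit 332) (nat_lit 271)))))) (XT.nd (nat_lit 390) (nat_lit 1216) (nat_lit 0) (XT.nd (nat_lit 156) (nat_lit 684) (nat_lit 0) (XT.nd (nat_lit 78) (nat_lit 304) (nat_lit 0) (XT.lf (nat_lit 0) (nat_lit 1021424672) (nat_lit 228) (nat_lit 8433782534) (nat_lit 304) (nat_lit 5526886190) (nat_lit 85) (nat_lit 5) (nat_lit 88) (nat_lit 5) (nat_lit 89) (nat_lit 5) (nat_lit 418) (nat_lit 332) (nat_lit 270)) (XT.lf (nat_lit 0) (nat_lit 2088942155) (nat_lit 304) (nat_lit 12919988942) (nat_lit 76) (nat_lit 236668370) (nat_lit 81) (nat_lit 5) (nat_lit 85) (nat_lit 5) (nat_lit 82) (nat_lit 5) (nat_lit 419) (nat_lit 332) (nat_lit 269))) (XT.nd (nat_lit 78) (nat_lit 456) (nat_lit 0) (XT.lf (nat_lit 0) (nat_lit 3611431491) (nat_lit 228) (nat_lit 6355761604) (nat_lit 304) (nat_lit 5546906240) (nat_lit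 78) (nat_lit 5) (nat_lit 81) (nat_lit 5) (nat_lit 82) (nat_lit 5) (nat_lit 420) (nat_lit 332) (nat_lit 268)) (XT.nd (nat_lit 78) (nat_lit 152) (nat_lit 0) (XT.lf (nat_lit 0) (nat_lit 2332856358) (nat_lit 304) (nat_lit 10847455076) (nat_lit 76) (nat_lit 2608609901) (nat_lit 74) (nat_lit 5) (nat_lit 78) (nat_lit 5) (nat_lit 75) (nat_lit 5) (nat_lit 421) (nat_lit 332) (nat_lit 267)) (XT.lf (nat_lit 0) (nat_lit 6269153656) (nat_lit 152) (nat_lit 4204438034) (nat_lit 228) (nat_lit 5595664193) (nat_lit 72) (nat_lit 5) (nat_lit 74) (nat_lit 5) (nat_lit 75) (nat_lit 5) (nat_lit 422) (nat_lit 332) (nat_lit 266))))) (XT.nd (nat_lit 156) (nat_lit 760) (nat_lit 0) (XT.nd (nat_lit 78) (nat_lit 152) (nat_lit 0) (XT.lf (nat_lit 0) (nat_lit 2560636632) (nat_lit 304) (nat_lit 8730233973) (nat_lit 76) (nat_lit 5064947494) (nat_lit 68) (nat_lit 5) (nat_lit 72) (nat_lit 5) (nat_lit 69) (nat_lit 5) (nat_lit 423) (nat_lit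 332) (nat_lit 265)) (XT.lf (nat_lit 0) (nat_lit 8996110440) (nat_lit 152) (nat_lit 1979942014) (nat_lit 228) (nat_lit 5672376000) (nat_lit 66) (nat_lit 5) (nat_lit 68) (nat_lit 5) (nat_lit 69) (nat_lit 5) (nat_lit 424) (nat_lit 332) (nat_lit 264))) (XT.nd (nat_lit 78) (nat_lit 456) (nat_lit 0) (XT.lf (nat_lit 0) (nat_lit 2773437274) (nat_lit 304) (nat_lit 6567598843) (nat_lit 76) (nat_lit 7606138012) (nat_lit 62) (nat_lit 5) (nat_lit 66) (nat_lit 5) (nat_lit 63) (nat_lit 5) (nat_lit 425) (nat_lit 332) (nat_lit 263)) (XT.nd (nat_lit 78) (nat_lit 304) (nat_lit 0) (XT.lf (nat_lit 0) (nat_lit 11478195767) (nat_lit 228) (nat_lit 5460573216) (nat_lit 76) (nat_lit 313710583) (nat_lit 60) (nat_lit 5) (nat_lit 63) (nat_lit 5) (nat_lit 61) (nat_lit 5) (nat_lit 426) (nat_lit 332) (nat_lit 262)) (XT.lf (nat_lit 0) (nat_lit 2972305869) (nat_lit 304) (nat_lit 4358674373) (nat_lit 76) (nat_lit 10232932567) (nat_lit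 56) (nat_lit 5) (nat_lit 60) (nat_lit 5) (nat_lit 57) (nat_lit 5) (nat_lit 427) (nat_lit 332) (nat_lit 261))))))))
noncomputable def xc36 : XT := (XT.nd (nat_lit 48750) (nat_lit 0) (nat_lit 13528) (XT.nd (nat_lit 47970) (nat_lit 0) (nat_lit 28500) (XT.nd (nat_lit 47580) (nat_lit 0) (nat_lit 42028) (XT.nd (nat_lit 47424) (nat_lit 0) (nat_lit 48792) (XT.nd (nat_lit 47346) (nat_lit 0) (nat_lit 50920) (XT.lf (nat_lit 0) (nat_lit 11992763146) (nat_lit 228) (nat_lit 3235185707) (nat_lit 76) (nat_lit 2654178440) (nat_lit 54) (nat_lit 5) (nat_lit 57) (nat_lit 5) (nat_lit 55) (nat_lit 5) (nat_lit 428) (nat_lit 332) (nat_lit 260)) (XT.lf (nat_lit 0) (nat_lit 74664406) (nat_lit 988) (nat_lit 3175316078) (nat_lit 0) (nat_lit 74664406) (nat_lit 724) (nat_lit 5) (nat_lit 737) (nat_lit 4) (nat_lit 724) (nat_lit 4) (nat_lit 354) (nat_lit 333) (nat_lit 333))) (XT.nd (nat_lit 78) (nat_lit 1140) (nat_lit 0) (XT.lf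 (nat_lit 0) (nat_lit 127776719) (nat_lit 988) (nat_lit 4969667158) (nat_lit 988) (nat_lit 1582679957) (nat_lit 711) (nat_lit 4) (nat_lit 724) (nat_lit 5) (nat_lit 724) (nat_lit 4) (nat_lit 355) (nat_lit 333) (nat_lit 332)) (XT.lf (nat_lit 0) (nat_lit 21098225) (nat_lit 1064) (nat_lit 3293962425) (nat_lit 1140) (nat_lit 3398797899) (nat_lit 696) (nat_lit 5) (nat_lit 710) (nat_lit 5) (nat_lit 711) (nat_lit 4) (nat_lit 356) (nat_lit 333) (nat_lit 331)))) (XT.nd (nat_lit 156) (nat_lit 5548) (nat_lit 0) (XT.nd (nat_lit 78) (nat_lit 1140) (nat_lit 0) (XT.lf (nat_lit 0) (nat_lit 1451774086) (nat_lit 1140) (nat_lit 20140217) (nat_lit 76) (nat_lit 5278619524) (nat_lit 695) (nat_lit 5) (nat_lit 710) (nat_lit 5) (nat_lit 696) (nat_lit 5) (nat_lit 357) (nat_lit 333) (nat_lit 330)) (XT.lf (nat_lit 0) (nat_lit 6292050202) (nat_lit 1216) (nat_lit 3252370) (nat_lit 76) (nat_lit 494750205) (nat_lit 680) (nat_lit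 5) (nat_lit 696) (nat_lit 5) (nat_lit 681) (nat_lit 4) (nat_lit 358) (nat_lit 333) (nat_lit 329))) (XT.nd (nat_lit 78) (nat_lit 2964) (nat_lit 0) (XT.lf (nat_lit 0) (nat_lit 58164181) (nat_lit 1292) (nat_lit 4231607334) (nat_lit 1368) (nat_lit 2542382062) (nat_lit 646) (nat_lit 5) (nat_lit 663) (nat_lit 5) (nat_lit 664) (nat_lit 5) (nat_lit 359) (nat_lit 333) (nat_lit 328)) (XT.nd (nat_lit 78) (nat_lit 1520) (nat_lit 0) (XT.lf (nat_lit 0) (nat_lit 183561090) (nat_lit 1368) (nat_lit 2019768944) (nat_lit 1444) (nat_lit 4673916919) (nat_lit 627) (nat_lit 5) (nat_lit 645) (nat_lit 5) (nat_lit 646) (nat_lit 5) (nat_lit 360) (nat_lit 333) (nat_lit 327)) (XT.lf (nat_lit 0) (nat_lit 32780874) (nat_lit 1520) (nat_lit 6554454660) (nat_lit 76) (nat_lit 338083824) (nat_lit 607) (nat_lit 5) (nat_lit 627) (nat_lit 5) (nat_lit 608) (nat_lit 5) (nat_lit 361) (nat_lit 333) (nat_lit 326)))))) (XT.nd (nat_lit 390)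 (nat_lit 4940) (nat_lit 0) (XT.nd (nat_lit 156) (nat_lit 5396) (nat_lit 0) (XT.nd (nat_lit 78) (nat_lit 1672) (nat_lit 0) (XT.lf (nat_lit 0) (nat_lit 593422408) (nat_lit 1520) (nat_lit 4140827230) (nat_lit 1596) (nat_lit 2241625001) (nat_lit 587) (nat_lit 5) (nat_lit 607) (nat_lit 5) (nat_lit 608) (nat_lit 5) (nat_lit 362) (nat_lit 333) (nat_lit 325)) (XT.lf (nat_lit 0) (nat_lit 879003685) (nat_lit 1596) (nat_lit 1542946626) (nat_lit 1672) (nat_lit 4607534044) (nat_lit 565) (nat_lit 5) (nat_lit 586) (nat_lit 5) (nat_lit 587) (nat_lit 5) (nat_lit 363) (nat_lit 333) (nat_lit 324))) (XT.nd (nat_lit 78) (nat_lit 3648) (nat_lit 0) (XT.lf (nat_lit 0) (nat_lit 27106777) (nat_lit 1748) (nat_lit 5865779113) (nat_lit 76) (nat_lit 1193146073) (nat_lit 542) (nat_lit 5) (nat_lit 565) (nat_lit 5) (nat_lit 543) (nat_lit 5) (nat_lit 364) (nat_lit 333) (nat_lit 323)) (XT.nd (nat_lit 78) (nat_lit 1900) (nat_lit 0)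 (XT.lf (nat_lit 0) (nat_lit 1597987309) (nat_lit 1748) (nat_lit 3065062534) (nat_lit 1824) (nat_lit 2482119812) (nat_lit 519) (nat_lit 5) (nat_lit 542) (nat_lit 5) (nat_lit 543) (nat_lit 5) (nat_lit 365) (nat_lit 333) (nat_lit 322)) (XT.lf (nat_lit 0) (nat_lit 2038610731) (nat_lit 1824) (nat_lit 81482116) (nat_lit 1900) (nat_lit 5087351278) (nat_lit 494) (nat_lit 5) (nat_lit 518) (nat_lit 5) (nat_lit 519) (nat_lit 5) (nat_lit 366) (nat_lit 333) (nat_lit 321))))) (XT.nd (nat_lit 156) (nat_lit 2812) (nat_lit 0) (XT.nd (nat_lit 78) (nat_lit 988) (nat_lit 0) (XT.lf (nat_lit 0) (nat_lit 2519313336) (nat_lit 1140) (nat_lit 4248382993) (nat_lit 1216) (nat_lit 504741431) (nat_lit 479) (nat_lit 5) (nat_lit 494) (nat_lit 5) (nat_lit 495) (nat_lit 5) (nat_lit 367) (nat_lit 333) (nat_lit 320)) (XT.lf (nat_lit 0) (nat_lit 3047920973) (nat_lit 912) (nat_lit 1037116221) (nat_lit 988) (nat_lit 3255297121) (nat_lit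 466) (nat_lit 5) (nat_lit 478) (nat_lit 5) (nat_lit 479) (nat_lit 5) (nat_lit 368) (nat_lit 333) (nat_lit 319))) (XT.nd (nat_lit 78) (nat_lit 1824) (nat_lit 0) (XT.lf (nat_lit 0) (nat_lit 1319869054) (nat_lit 988) (nat_lit 3786698812) (nat_lit 76) (nat_lit 2304597572) (nat_lit 453) (nat_lit 5) (nat_lit 466) (nat_lit 5) (nat_lit 454) (nat_lit 5) (nat_lit 369) (nat_lit 333) (nat_lit 318)) (XT.nd (nat_lit 78) (nat_lit 988) (nat_lit 0) (XT.lf (nat_lit 0) (nat_lit 4246947640) (nat_lit 836) (nat_lit 1679495161) (nat_lit 912) (nat_lit 1558480759) (nat_lit 442) (nat_lit 5) (nat_lit 453) (nat_lit 5) (nat_lit 454) (nat_lit 5) (nat_lit 370) (nat_lit 333) (nat_lit 317)) (XT.lf (nat_lit 0) (nat_lit 3016122343) (nat_lit 988) (nat_lit 2650400009) (nat_lit 76) (nat_lit 1895036277) (nat_lit 429) (nat_lit 5) (nat_lit 442) (nat_lit 5) (nat_lit 430) (nat_lit 5) (nat_lit 371) (nat_lit 333) (nat_lit 316))))))) (XT.nd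 (nat_lit 780) (nat_lit 6460) (nat_lit 0) (XT.nd (nat_lit 390) (nat_lit 3572) (nat_lit 0) (XT.nd (nat_lit 156) (nat_lit 3192) (nat_lit 0) (XT.nd (nat_lit 78) (nat_lit 836) (nat_lit 0) (XT.lf (nat_lit 0) (nat_lit 14281740) (nat_lit 912) (nat_lit 2013940176) (nat_lit 76) (nat_lit 5613083155) (nat_lit 417) (nat_lit 5) (nat_lit 429) (nat_lit 5) (nat_lit 418) (nat_lit 5) (nat_lit 372) (nat_lit 333) (nat_lit 315)) (XT.lf (nat_lit 0) (nat_lit 4601502856) (nat_lit 912) (nat_lit 1348784649) (nat_lit 76) (nat_lit 1773506169) (nat_lit 406) (nat_lit 5) (nat_lit 418) (nat_lit 5) (nat_lit 407) (nat_lit 5) (nat_lit 373) (nat_lit 333) (nat_lit 314))) (XT.nd (nat_lit 78) (nat_lit 2356) (nat_lit 0) (XT.lf (nat_lit 0) (nat_lit 1454756117) (nat_lit 836) (nat_lit 637003994) (nat_lit 76) (nat_lit 5717658245) (nat_lit 395) (nat_lit 5) (nat_lit 406) (nat_lit 5) (nat_lit 396) (nat_lit 5) (nat_lit 374) (nat_lit 333) (nat_lit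 313)) (XT.nd (nat_lit 78) (nat_lit 836) (nat_lit 0) (XT.lf (nat_lit 0) (nat_lit 112673729) (nat_lit 760) (nat_lit 5974147575) (nat_lit 836) (nat_lit 1811175176) (nat_lit 375) (nat_lit 5) (nat_lit 385) (nat_lit 5) (nat_lit 386) (nat_lit 5) (nat_lit 375) (nat_lit 333) (nat_lit 312)) (XT.lf (nat_lit 0) (nat_lit 908246855) (nat_lit 760) (nat_lit 1890654302) (nat_lit 836) (nat_lit 5190600150) (nat_lit 364) (nat_lit 5) (nat_lit 374) (nat_lit 5) (nat_lit 375) (nat_lit 5) (nat_lit 376) (nat_lit 333) (nat_lit 311))))) (XT.nd (nat_lit 156) (nat_lit 2128) (nat_lit 0) (XT.nd (nat_lit 78) (nat_lit 760) (nat_lit 0) (XT.lf (nat_lit 0) (nat_lit 1746319044) (nat_lit 684) (nat_lit 5744257372) (nat_lit 760) (nat_lit 593577358) (nat_lit 355) (nat_lit 5) (nat_lit 364) (nat_lit 5) (nat_lit 365) (nat_lit 5) (nat_lit 377) (nat_lit 333) (nat_lit 310)) (XT.lf (nat_lit 0) (nat_lit 2614556572) (nat_lit 684) (nat_lit 1440357286)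 (nat_lit 760) (nat_lit 4126836741) (nat_lit 345) (nat_lit 5) (nat_lit 354) (nat_lit 5) (nat_lit 355) (nat_lit 5) (nat_lit 378) (nat_lit 333) (nat_lit 309))) (XT.nd (nat_lit 78) (nat_lit 1368) (nat_lit 0) (XT.lf (nat_lit 0) (nat_lit 522955697) (nat_lit 760) (nat_lit 4757280467) (nat_lit 76) (nat_lit 3002336844) (nat_lit 335) (nat_lit 5) (nat_lit 345) (nat_lit 5) (nat_lit 336) (nat_lit 5) (nat_lit 379) (nat_lit 333) (nat_lit 308)) (XT.nd (nat_lit 78) (nat_lit 684) (nat_lit 0) (XT.lf (nat_lit 0) (nat_lit 4468336477) (nat_lit 684) (nat_lit 758491262) (nat_lit 760) (nat_lit 3159633718) (nat_lit 326) (nat_lit 5) (nat_lit 335) (nat_lit 5) (nat_lit 336) (nat_lit 5) (nat_lit 380) (nat_lit 333) (nat_lit 307)) (XT.lf (nat_lit 0) (nat_lit 1546536917) (nat_lit 684) (nat_lit 3048430651) (nat_lit 76) (nat_lit 3898516279) (nat_lit 317) (nat_lit 5) (nat_lit 326) (nat_lit 5) (nat_lit 318) (nat_lit 5) (nat_lit 381)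 (nat_lit 333) (nat_lit 306)))))) (XT.nd (nat_lit 390) (nat_lit 2812) (nat_lit 0) (XT.nd (nat_lit 156) (nat_lit 2356) (nat_lit 0) (XT.nd (nat_lit 78) (nat_lit 684) (nat_lit 0) (XT.lf (nat_lit 0) (nat_lit 6323195676) (nat_lit 684) (nat_lit 2139620228) (nat_lit 76) (nat_lit 141038701) (nat_lit 309) (nat_lit 5) (nat_lit 318) (nat_lit 5) (nat_lit 310) (nat_lit 5) (nat_lit 382) (nat_lit 333) (nat_lit 305)) (XT.lf (nat_lit 0) (nat_lit 2492083524) (nat_lit 684) (nat_lit 1211734249) (nat_lit 76) (nat_lit 5013398958) (nat_lit 300) (nat_lit 5) (nat_lit 309) (nat_lit 5) (nat_lit 301) (nat_lit 5) (nat_lit 383) (nat_lit 333) (nat_lit 304))) (XT.nd (nat_lit 78) (nat_lit 1748) (nat_lit 0) (XT.lf (nat_lit 0) (nat_lit 7356441968) (nat_lit 684) (nat_lit 241030042) (nat_lit 76) (nat_lit 1236617828) (nat_lit 292) (nat_lit 5) (nat_lit 301) (nat_lit 5) (nat_lit 293) (nat_lit 5) (nat_lit 384) (nat_lit 333) (nat_lit 303))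 (XT.nd (nat_lit 78) (nat_lit 532) (nat_lit 0) (XT.lf (nat_lit 0) (nat_lit 759086021) (nat_lit 608) (nat_lit 2612033471) (nat_lit 684) (nat_lit 5582834356) (nat_lit 276) (nat_lit 5) (nat_lit 284) (nat_lit 5) (nat_lit 285) (nat_lit 5) (nat_lit 385) (nat_lit 333) (nat_lit 302)) (XT.lf (nat_lit 0) (nat_lit 1802887335) (nat_lit 532) (nat_lit 6536960285) (nat_lit 608) (nat_lit 737479349) (nat_lit 269) (nat_lit 5) (nat_lit 276) (nat_lit 5) (nat_lit 277) (nat_lit 5) (nat_lit 386) (nat_lit 333) (nat_lit 301))))) (XT.nd (nat_lit 156) (nat_lit 1672) (nat_lit 0) (XT.nd (nat_lit 78) (nat_lit 532) (nat_lit 0) (XT.lf (nat_lit 0) (nat_lit 2868695918) (nat_lit 532) (nat_lit 1324888591) (nat_lit 608) (nat_lit 5010341877) (nat_lit 261) (nat_lit 5) (nat_lit 268) (nat_lit 5) (nat_lit 269) (nat_lit 5) (nat_lit 387) (nat_lit 333) (nat_lit 300)) (XT.lf (nat_lit 0) (nat_lit 3970506910) (nat_lit 532) (nat_lit 5299605707)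 (nat_lit 608) (nat_lit 63962636) (nat_lit 254) (nat_lit 5) (nat_lit 261) (nat_lit 5) (nat_lit 262) (nat_lit 5) (nat_lit 388) (nat_lit 333) (nat_lit 299))) (XT.nd (nat_lit 78) (nat_lit 1064) (nat_lit 0) (XT.lf (nat_lit 0) (nat_lit 4958049099) (nat_lit 608) (nat_lit 4370126155) (nat_lit 76) (nat_lit 139435644) (nat_lit 246) (nat_lit 5) (nat_lit 254) (nat_lit 5) (nat_lit 247) (nat_lit 5) (nat_lit 389) (nat_lit 333) (nat_lit 298)) (XT.nd (nat_lit 78) (nat_lit 532) (nat_lit 0) (XT.lf (nat_lit 0) (nat_lit 539363715) (nat_lit 532) (nat_lit 3351899673) (nat_lit 76) (nat_lit 5713381885) (nat_lit 239) (nat_lit 5) (nat_lit 246) (nat_lit 5) (nat_lit 240) (nat_lit 5) (nat_lit 390) (nat_lit 333) (nat_lit 297)) (XT.lf (nat_lit 0) (nat_lit 5678519069) (nat_lit 608) (nat_lit 2310760285) (nat_lit 76) (nat_lit 1755914577) (nat_lit 232) (nat_lit 5) (nat_lit 240) (nat_lit 5) (nat_lit 233) (nat_lit 5) (nat_lit 391) (nat_lit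 333) (nat_lit 296))))))))
noncomputable def xc37 : XT := (XT.nd (nat_lit 1482) (nat_lit 5168) (nat_lit 0) (XT.nd (nat_lit 702) (nat_lit 3800) (nat_lit 0) (XT.nd (nat_lit 312) (nat_lit 2204) (nat_lit 0) (XT.nd (nat_lit 156) (nat_lit 1368) (nat_lit 0) (XT.nd (nat_lit 78) (nat_lit 456) (nat_lit 0) (XT.lf (nat_lit 0) (nat_lit 1084422469) (nat_lit 532) (nat_lit 1238050228) (nat_lit 76) (nat_lit 7567011433) (nat_lit 225) (nat_lit 5) (nat_lit 232) (nat_lit 5) (nat_lit 226) (nat_lit 5) (nat_lit 392) (nat_lit 333) (nat_lit 295)) (XT.lf (nat_lit 0) (nat_lit 6351169668) (nat_lit 532) (nat_lit 150421802) (nat_lit 76) (nat_lit 3535646607) (nat_lit 219) (nat_lit 5) (nat_lit 226) (nat_lit 5) (nat_lit 220) (nat_lit 5) (nat_lit 393) (nat_lit 333) (nat_lit 294))) (XT.nd (nat_lit 78) (nat_lit 380) (nat_lit 0) (XT.lf (nat_lit 0) (nat_lit 989674183) (nat_lit 456) (nat_lit 593190987) (nat_lit 532) (nat_lit 8606009906)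 (nat_lit 206) (nat_lit 5) (nat_lit 212) (nat_lit 5) (nat_lit 213) (nat_lit 5) (nat_lit 394) (nat_lit 333) (nat_lit 293)) (XT.lf (nat_lit 0) (nat_lit 2137473079) (nat_lit 380) (nat_lit 4856831021) (nat_lit 456) (nat_lit 3349579457) (nat_lit 201) (nat_lit 5) (nat_lit 206) (nat_lit 5) (nat_lit 207) (nat_lit 5) (nat_lit 395) (nat_lit 333) (nat_lit 292)))) (XT.nd (nat_lit 156) (nat_lit 1292) (nat_lit 0) (XT.nd (nat_lit 78) (nat_lit 380) (nat_lit 0) (XT.lf (nat_lit 0) (nat_lit 2049501279) (nat_lit 532) (nat_lit 7176797920) (nat_lit 76) (nat_lit 1276734320) (nat_lit 194) (nat_lit 5) (nat_lit 201) (nat_lit 5) (nat_lit 195) (nat_lit 5) (nat_lit 396) (nat_lit 333) (nat_lit 291)) (XT.lf (nat_lit 0) (nat_lit 4527167326) (nat_lit 380) (nat_lit 3072615234) (nat_lit 456) (nat_lit 3066037892) (nat_lit 189) (nat_lit 5) (nat_lit 194) (nat_lit 5) (nat_lit 195) (nat_lit 5) (nat_lit 397) (nat_lit 333) (nat_lit 290)))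 (XT.nd (nat_lit 78) (nat_lit 836) (nat_lit 0) (XT.lf (nat_lit 0) (nat_lit 2476280522) (nat_lit 456) (nat_lit 5074660120) (nat_lit 76) (nat_lit 3281712606) (nat_lit 183) (nat_lit 5) (nat_lit 189) (nat_lit 5) (nat_lit 184) (nat_lit 5) (nat_lit 398) (nat_lit 333) (nat_lit 289)) (XT.nd (nat_lit 78) (nat_lit 456) (nat_lit 0) (XT.lf (nat_lit 0) (nat_lit 7016018502) (nat_lit 380) (nat_lit 1154393549) (nat_lit 456) (nat_lit 2833129669) (nat_lit 178) (nat_lit 5) (nat_lit 183) (nat_lit 5) (nat_lit 184) (nat_lit 5) (nat_lit 399) (nat_lit 333) (nat_lit 288)) (XT.lf (nat_lit 0) (nat_lit 2862730065) (nat_lit 456) (nat_lit 2889870938) (nat_lit 76) (nat_lit 5425697529) (nat_lit 172) (nat_lit 5) (nat_lit 178) (nat_lit 5) (nat_lit 173) (nat_lit 5) (nat_lit 400) (nat_lit 333) (nat_lit 287)))))) (XT.nd (nat_lit 390) (nat_lit 1672) (nat_lit 0) (XT.nd (nat_lit 156) (nat_lit 1368) (nat_lit 0) (XT.nd (nat_lit 78) (nat_lit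 456) (nat_lit 0) (XT.lf (nat_lit 0) (nat_lit 8715519958) (nat_lit 380) (nat_lit 1759587872) (nat_lit 76) (nat_lit 882324769) (nat_lit 168) (nat_lit 5) (nat_lit 173) (nat_lit 5) (nat_lit 169) (nat_lit 5) (nat_lit 401) (nat_lit 333) (nat_lit 286)) (XT.lf (nat_lit 0) (nat_lit 3211955111) (nat_lit 456) (nat_lit 623021403) (nat_lit 76) (nat_lit 7705508461) (nat_lit 162) (nat_lit 5) (nat_lit 168) (nat_lit 5) (nat_lit 163) (nat_lit 5) (nat_lit 402) (nat_lit 333) (nat_lit 285))) (XT.nd (nat_lit 78) (nat_lit 684) (nat_lit 0) (XT.lf (nat_lit 0) (nat_lit 549417185) (nat_lit 380) (nat_lit 8695041469) (nat_lit 456) (nat_lit 2483442748) (nat_lit 153) (nat_lit 5) (nat_lit 158) (nat_lit 5) (nat_lit 159) (nat_lit 5) (nat_lit 403) (nat_lit 333) (nat_lit 284)) (XT.nd (nat_lit 78) (nat_lit 304) (nat_lit 0) (XT.lf (nat_lit 0) (nat_lit 1748556765) (nat_lit 304) (nat_lit 1789603547) (nat_lit 380) (nat_lit 8381369685) (nat_lit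 148) (nat_lit 5) (nat_lit 152) (nat_lit 5) (nat_lit 153) (nat_lit 5) (nat_lit 404) (nat_lit 333) (nat_lit 283)) (XT.lf (nat_lit 0) (nat_lit 2964155794) (nat_lit 304) (nat_lit 6797141196) (nat_lit 380) (nat_lit 2354189633) (nat_lit 144) (nat_lit 5) (nat_lit 148) (nat_lit 5) (nat_lit 149) (nat_lit 5) (nat_lit 405) (nat_lit 333) (nat_lit 282))))) (XT.nd (nat_lit 156) (nat_lit 988) (nat_lit 0) (XT.nd (nat_lit 78) (nat_lit 304) (nat_lit 0) (XT.lf (nat_lit 0) (nat_lit 3839675995) (nat_lit 380) (nat_lit 8107225667) (nat_lit 76) (nat_lit 369191587) (nat_lit 139) (nat_lit 5) (nat_lit 144) (nat_lit 5) (nat_lit 140) (nat_lit 5) (nat_lit 406) (nat_lit 333) (nat_lit 281)) (XT.lf (nat_lit 0) (nat_lit 5461458732) (nat_lit 304) (nat_lit 4795810452) (nat_lit 380) (nat_lit 2263739750) (nat_lit 135) (nat_lit 5) (nat_lit 139) (nat_lit 5) (nat_lit 140) (nat_lit 5) (nat_lit 407) (nat_lit 333) (nat_lit 280))) (XT.nd (nat_lit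 78) (nat_lit 608) (nat_lit 0) (XT.lf (nat_lit 0) (nat_lit 4124722847) (nat_lit 380) (nat_lit 5990798737) (nat_lit 76) (nat_lit 2615140716) (nat_lit 130) (nat_lit 5) (nat_lit 135) (nat_lit 5) (nat_lit 131) (nat_lit 5) (nat_lit 408) (nat_lit 333) (nat_lit 279)) (XT.nd (nat_lit 78) (nat_lit 304) (nat_lit 0) (XT.lf (nat_lit 0) (nat_lit 8041833099) (nat_lit 304) (nat_lit 2693159991) (nat_lit 380) (nat_lit 2210094729) (nat_lit 126) (nat_lit 5) (nat_lit 130) (nat_lit 5) (nat_lit 131) (nat_lit 5) (nat_lit 409) (nat_lit 333) (nat_lit 278)) (XT.lf (nat_lit 0) (nat_lit 4383872353) (nat_lit 304) (nat_lit 3810060420) (nat_lit 76) (nat_lit 4970171674) (nat_lit 122) (nat_lit 5) (nat_lit 126) (nat_lit 5) (nat_lit 123) (nat_lit 5) (nat_lit 410) (nat_lit 333) (nat_lit 277))))))) (XT.nd (nat_lit 780) (nat_lit 2052) (nat_lit 0) (XT.nd (nat_lit 390) (nat_lit 1368) (nat_lit 0) (XT.nd (nat_lit 156) (nat_lit 1140) (nat_lit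 0) (XT.nd (nat_lit 78) (nat_lit 304) (nat_lit 0) (XT.lf (nat_lit 0) (nat_lit 10706066508) (nat_lit 304) (nat_lit 490842782) (nat_lit 380) (nat_lit 2191464562) (nat_lit 118) (nat_lit 5) (nat_lit 122) (nat_lit 5) (nat_lit 123) (nat_lit 5) (nat_lit 411) (nat_lit 333) (nat_lit 276)) (XT.lf (nat_lit 0) (nat_lit 4619132256) (nat_lit 304) (nat_lit 1564755212) (nat_lit 76) (nat_lit 7433198597) (nat_lit 114) (nat_lit 5) (nat_lit 118) (nat_lit 5) (nat_lit 115) (nat_lit 5) (nat_lit 412) (nat_lit 333) (nat_lit 275))) (XT.nd (nat_lit 78) (nat_lit 836) (nat_lit 0) (XT.lf (nat_lit 0) (nat_lit 11657046471) (nat_lit 380) (nat_lit 408084132) (nat_lit 76) (nat_lit 1786183875) (nat_lit 110) (nat_lit 5) (nat_lit 115) (nat_lit 5) (nat_lit 111) (nat_lit 5) (nat_lit 413) (nat_lit 333) (nat_lit 274)) (XT.nd (nat_lit 78) (nat_lit 228) (nat_lit 0) (XT.lf (nat_lit 0) (nat_lit 755513161) (nat_lit 304) (nat_lit 4081732435) (nat_lit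 380) (nat_lit 9252962142) (nat_lit 102) (nat_lit 5) (nat_lit 106) (nat_lit 5) (nat_lit 107) (nat_lit 5) (nat_lit 414) (nat_lit 333) (nat_lit 273)) (XT.lf (nat_lit 0) (nat_lit 1953569846) (nat_lit 228) (nat_lit 10168715730) (nat_lit 304) (nat_lit 2212244290) (nat_lit 99) (nat_lit 5) (nat_lit 102) (nat_lit 5) (nat_lit 103) (nat_lit 5) (nat_lit 415) (nat_lit 333) (nat_lit 272))))) (XT.nd (nat_lit 156) (nat_lit 836) (nat_lit 0) (XT.nd (nat_lit 78) (nat_lit 228) (nat_lit 0) (XT.lf (nat_lit 0) (nat_lit 3163214850) (nat_lit 228) (nat_lit 1882499088) (nat_lit 304) (nat_lit 9538370991) (nat_lit 95) (nat_lit 5) (nat_lit 98) (nat_lit 5) (nat_lit 99) (nat_lit 5) (nat_lit 416) (nat_lit 333) (nat_lit 271)) (XT.lf (nat_lit 0) (nat_lit 4387342706) (nat_lit 228) (nat_lit 8194517825) (nat_lit 304) (nat_lit 2257163547) (nat_lit 92) (nat_lit 5) (nat_lit 95) (nat_lit 5) (nat_lit 96) (nat_lit 5) (nat_lit 417) (nat_lit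 333) (nat_lit 270))) (XT.nd (nat_lit 78) (nat_lit 532) (nat_lit 0) (XT.lf (nat_lit 0) (nat_lit 5238396372) (nat_lit 304) (nat_lit 9463812733) (nat_lit 76) (nat_lit 397428098) (nat_lit 88) (nat_lit 5) (nat_lit 92) (nat_lit 5) (nat_lit 89) (nat_lit 5) (nat_lit 418) (nat_lit 333) (nat_lit 269)) (XT.nd (nat_lit 78) (nat_lit 304) (nat_lit 0) (XT.lf (nat_lit 0) (nat_lit 6888858060) (nat_lit 228) (nat_lit 6146097928) (nat_lit 304) (nat_lit 2330678359) (nat_lit 85) (nat_lit 5) (nat_lit 88) (nat_lit 5) (nat_lit 89) (nat_lit 5) (nat_lit 419) (nat_lit 333) (nat_lit 268)) (XT.lf (nat_lit 0) (nat_lit 5426860616) (nat_lit 304) (nat_lit 7473342528) (nat_lit 76) (nat_lit 2737259303) (nat_lit 81) (nat_lit 5) (nat_lit 85) (nat_lit 5) (nat_lit 82) (nat_lit 5) (nat_lit 420) (nat_lit 333) (nat_lit 267)))))) (XT.nd (nat_lit 390) (nat_lit 912) (nat_lit 0) (XT.nd (nat_lit 156) (nat_lit 608) (nat_lit 0) (XT.nd (nat_lit 78)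 (nat_lit 304) (nat_lit 0) (XT.lf (nat_lit 0) (nat_lit 9459366806) (nat_lit 228) (nat_lit 4023961881) (nat_lit 304) (nat_lit 2431851231) (nat_lit 78) (nat_lit 5) (nat_lit 81) (nat_lit 5) (nat_lit 82) (nat_lit 5) (nat_lit 421) (nat_lit 333) (nat_lit 266)) (XT.lf (nat_lit 0) (nat_lit 5600161902) (nat_lit 304) (nat_lit 5436727068) (nat_lit 76) (nat_lit 5161753608) (nat_lit 74) (nat_lit 5) (nat_lit 78) (nat_lit 5) (nat_lit 75) (nat_lit 5) (nat_lit 422) (nat_lit 333) (nat_lit 265))) (XT.nd (nat_lit 78) (nat_lit 456) (nat_lit 0) (XT.lf (nat_lit 0) (nat_lit 12100317680) (nat_lit 152) (nat_lit 1828314472) (nat_lit 228) (nat_lit 2559884753) (nat_lit 72) (nat_lit 5) (nat_lit 74) (nat_lit 5) (nat_lit 75) (nat_lit 5) (nat_lit 423) (nat_lit 333) (nat_lit 264)) (XT.nd (nat_lit 78) (nat_lit 152) (nat_lit 0) (XT.lf (nat_lit 0) (nat_lit 5759462232) (nat_lit 304) (nat_lit 3353299381) (nat_lit 76) (nat_lit 7671290899)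 (nat_lit 68) (nat_lit 5) (nat_lit 72) (nat_lit 5) (nat_lit 69) (nat_lit 5) (nat_lit 424) (nat_lit 333) (nat_lit 263)) (XT.lf (nat_lit 0) (nat_lit 14375288215) (nat_lit 228) (nat_lit 2276050408) (nat_lit 76) (nat_lit 435143600) (nat_lit 66) (nat_lit 5) (nat_lit 69) (nat_lit 5) (nat_lit 67) (nat_lit 5) (nat_lit 425) (nat_lit 333) (nat_lit 262))))) (XT.nd (nat_lit 156) (nat_lit 456) (nat_lit 0) (XT.nd (nat_lit 78) (nat_lit 152) (nat_lit 0) (XT.lf (nat_lit 0) (nat_lit 5905815644) (nat_lit 304) (nat_lit 1222241710) (nat_lit 76) (nat_lit 10266548495) (nat_lit 62) (nat_lit 5) (nat_lit 66) (nat_lit 5) (nat_lit 63) (nat_lit 5) (nat_lit 426) (nat_lit 333) (nat_lit 261)) (XT.lf (nat_lit 0) (nat_lit 14834257524) (nat_lit 228) (nat_lit 127959153) (nat_lit 76) (nat_lit 2747602958) (nat_lit 60) (nat_lit 5) (nat_lit 63) (nat_lit 5) (nat_lit 61) (nat_lit 5) (nat_lit 427) (nat_lit 333) (nat_lit 260))) (XT.nd (nat_lit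 47190) (nat_lit 0) (nat_lit 51908) (XT.lf (nat_lit 0) (nat_lit 970132405) (nat_lit 152) (nat_lit 5076341605) (nat_lit 228) (nat_lit 11984656203) (nat_lit 54) (nat_lit 5) (nat_lit 56) (nat_lit 5) (nat_lit 57) (nat_lit 5) (nat_lit 428) (nat_lit 333) (nat_lit 259)) (XT.nd (nat_lit 78) (nat_lit 836) (nat_lit 0) (XT.lf (nat_lit 0) (nat_lit 220682128) (nat_lit 836) (nat_lit 2855802420) (nat_lit 0) (nat_lit 220682128) (nat_lit 748) (nat_lit 5) (nat_lit 759) (nat_lit 4) (nat_lit 748) (nat_lit 4) (nat_lit 352) (nat_lit 334) (nat_lit 334)) (XT.lf (nat_lit 0) (nat_lit 516468944) (nat_lit 836) (nat_lit 4831447274) (nat_lit 836) (nat_lit 1273078521) (nat_lit 737) (nat_lit 4) (nat_lit 748) (nat_lit 5) (nat_lit 748) (nat_lit 4) (nat_lit 353) (nat_lit 334) (nat_lit 333))))))))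
noncomputable def xc38 : XT := (XT.nd (nat_lit 1482) (nat_lit 14592) (nat_lit 0) (XT.nd (nat_lit 702) (nat_lit 14364) (nat_lit 0) (XT.nd (nat_lit 312) (nat_lit 6764) (nat_lit 0) (XT.nd (nat_lit 156) (nat_lit 2128) (nat_lit 0) (XT.nd (nat_lit 78) (nat_lit 76) (nat_lit 0) (XT.lf (nat_lit 0) (nat_lit 212664535) (nat_lit 912) (nat_lit 3364444490) (nat_lit 988) (nat_lit 3073397087) (nat_lit 724) (nat_lit 5) (nat_lit 736) (nat_lit 5) (nat_lit 737) (nat_lit 4) (nat_lit 354) (nat_lit 334) (nat_lit 332)) (XT.lf (nat_lit 0) (nat_lit 1727626325) (nat_lit 988) (nat_lit 25549701) (nat_lit 76) (nat_lit 4929766201) (nat_lit 723) (nat_lit 5) (nat_lit 736) (nat_lit 5) (nat_lit 724) (nat_lit 5) (nat_lit 355) (nat_lit 334) (nat_lit 331))) (XT.nd (nat_lit 78) (nat_lit 1140) (nat_lit 0) (XT.lf (nat_lit 0) (nat_lit 6514081061) (nat_lit 1064) (nat_lit 198037640) (nat_lit 76) (nat_lit 6163298) (nat_lit 710) (nat_lit 5)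 (nat_lit 724) (nat_lit 5) (nat_lit 711) (nat_lit 4) (nat_lit 356) (nat_lit 334) (nat_lit 330)) (XT.lf (nat_lit 0) (nat_lit 4525703298) (nat_lit 1140) (nat_lit 330569253) (nat_lit 76) (nat_lit 1899845299) (nat_lit 695) (nat_lit 5) (nat_lit 710) (nat_lit 5) (nat_lit 696) (nat_lit 5) (nat_lit 357) (nat_lit 334) (nat_lit 329)))) (XT.nd (nat_lit 156) (nat_lit 4256) (nat_lit 0) (XT.nd (nat_lit 78) (nat_lit 1292) (nat_lit 0) (XT.lf (nat_lit 0) (nat_lit 2455191165) (nat_lit 1216) (nat_lit 400290669) (nat_lit 76) (nat_lit 3941450017) (nat_lit 679) (nat_lit 5) (nat_lit 695) (nat_lit 5) (nat_lit 680) (nat_lit 5) (nat_lit 358) (nat_lit 334) (nat_lit 328)) (XT.lf (nat_lit 0) (nat_lit 300489675) (nat_lit 1292) (nat_lit 407099231) (nat_lit 76) (nat_lit 6133162733) (nat_lit 662) (nat_lit 5) (nat_lit 679) (nat_lit 5) (nat_lit 663) (nat_lit 5) (nat_lit 359) (nat_lit 334) (nat_lit 327))) (XT.nd (nat_lit 78) (nat_lit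 2964) (nat_lit 0) (XT.lf (nat_lit 0) (nat_lit 4931428930) (nat_lit 1368) (nat_lit 373991698) (nat_lit 76) (nat_lit 1581722831) (nat_lit 645) (nat_lit 5) (nat_lit 663) (nat_lit 5) (nat_lit 646) (nat_lit 5) (nat_lit 360) (nat_lit 334) (nat_lit 326)) (XT.nd (nat_lit 78) (nat_lit 1520) (nat_lit 0) (XT.lf (nat_lit 0) (nat_lit 2636507467) (nat_lit 1444) (nat_lit 285702024) (nat_lit 76) (nat_lit 4014229928) (nat_lit 626) (nat_lit 5) (nat_lit 645) (nat_lit 5) (nat_lit 627) (nat_lit 5) (nat_lit 361) (nat_lit 334) (nat_lit 325)) (XT.lf (nat_lit 0) (nat_lit 253611677) (nat_lit 1520) (nat_lit 135353780) (nat_lit 76) (nat_lit 6599839000) (nat_lit 606) (nat_lit 5) (nat_lit 626) (nat_lit 5) (nat_lit 607) (nat_lit 5) (nat_lit 362) (nat_lit 334) (nat_lit 324)))))) (XT.nd (nat_lit 390) (nat_lit 4636) (nat_lit 0) (XT.nd (nat_lit 156) (nat_lit 4864) (nat_lit 0) (XT.nd (nat_lit 78) (nat_lit 1748) (nat_lit 0) (XT.lf (nat_lit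 0) (nat_lit 48440874) (nat_lit 1596) (nat_lit 4761732555) (nat_lit 1672) (nat_lit 2233501947) (nat_lit 565) (nat_lit 5) (nat_lit 586) (nat_lit 5) (nat_lit 587) (nat_lit 5) (nat_lit 363) (nat_lit 334) (nat_lit 323)) (XT.lf (nat_lit 0) (nat_lit 291827254) (nat_lit 1672) (nat_lit 1996595526) (nat_lit 1748) (nat_lit 4813123531) (nat_lit 542) (nat_lit 5) (nat_lit 564) (nat_lit 5) (nat_lit 565) (nat_lit 5) (nat_lit 364) (nat_lit 334) (nat_lit 322))) (XT.nd (nat_lit 78) (nat_lit 3116) (nat_lit 0) (XT.lf (nat_lit 0) (nat_lit 589496777) (nat_lit 1748) (nat_lit 6249289545) (nat_lit 1824) (nat_lit 323609273) (nat_lit 519) (nat_lit 5) (nat_lit 542) (nat_lit 5) (nat_lit 543) (nat_lit 5) (nat_lit 365) (nat_lit 334) (nat_lit 321)) (XT.nd (nat_lit 78) (nat_lit 1216) (nat_lit 0) (XT.lf (nat_lit 0) (nat_lit 920102469) (nat_lit 1824) (nat_lit 3257947239) (nat_lit 1900) (nat_lit 3047784956) (nat_lit 494) (nat_lit 5)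 (nat_lit 518) (nat_lit 5) (nat_lit 519) (nat_lit 5) (nat_lit 366) (nat_lit 334) (nat_lit 320)) (XT.lf (nat_lit 0) (nat_lit 1312734533) (nat_lit 1140) (nat_lit 110180450) (nat_lit 1216) (nat_lit 5869549621) (nat_lit 478) (nat_lit 5) (nat_lit 493) (nat_lit 5) (nat_lit 494) (nat_lit 5) (nat_lit 367) (nat_lit 334) (nat_lit 319))))) (XT.nd (nat_lit 156) (nat_lit 2736) (nat_lit 0) (XT.nd (nat_lit 78) (nat_lit 988) (nat_lit 0) (XT.lf (nat_lit 0) (nat_lit 1737439465) (nat_lit 912) (nat_lit 4196941638) (nat_lit 988) (nat_lit 1427348369) (nat_lit 466) (nat_lit 5) (nat_lit 478) (nat_lit 5) (nat_lit 479) (nat_lit 5) (nat_lit 368) (nat_lit 334) (nat_lit 318)) (XT.lf (nat_lit 0) (nat_lit 2213576524) (nat_lit 912) (nat_lit 824381401) (nat_lit 988) (nat_lit 4396083026) (nat_lit 453) (nat_lit 5) (nat_lit 465) (nat_lit 5) (nat_lit 466) (nat_lit 5) (nat_lit 369) (nat_lit 334) (nat_lit 317))) (XT.nd (nat_lit 78) (nat_lit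 1824) (nat_lit 0) (XT.lf (nat_lit 0) (nat_lit 59170181) (nat_lit 912) (nat_lit 4775043486) (nat_lit 76) (nat_lit 2675083031) (nat_lit 441) (nat_lit 5) (nat_lit 453) (nat_lit 5) (nat_lit 442) (nat_lit 5) (nat_lit 370) (nat_lit 334) (nat_lit 316)) (XT.nd (nat_lit 78) (nat_lit 912) (nat_lit 0) (XT.lf (nat_lit 0) (nat_lit 3291482910) (nat_lit 912) (nat_lit 1239637537) (nat_lit 988) (nat_lit 3056253210) (nat_lit 429) (nat_lit 5) (nat_lit 441) (nat_lit 5) (nat_lit 442) (nat_lit 5) (nat_lit 371) (nat_lit 334) (nat_lit 315)) (XT.lf (nat_lit 0) (nat_lit 1406317848) (nat_lit 912) (nat_lit 3774394021) (nat_lit 76) (nat_lit 2487767175) (nat_lit 417) (nat_lit 5) (nat_lit 429) (nat_lit 5) (nat_lit 418) (nat_lit 5) (nat_lit 372) (nat_lit 334) (nat_lit 314))))))) (XT.nd (nat_lit 780) (nat_lit 6384) (nat_lit 0) (XT.nd (nat_lit 390) (nat_lit 4104) (nat_lit 0) (XT.nd (nat_lit 156) (nat_lit 2432) (nat_lit 0) (XT.nd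 (nat_lit 78) (nat_lit 836) (nat_lit 0) (XT.lf (nat_lit 0) (nat_lit 4538608404) (nat_lit 836) (nat_lit 1374300969) (nat_lit 912) (nat_lit 1839670866) (nat_lit 406) (nat_lit 5) (nat_lit 417) (nat_lit 5) (nat_lit 418) (nat_lit 5) (nat_lit 373) (nat_lit 334) (nat_lit 313)) (XT.lf (nat_lit 0) (nat_lit 2642735279) (nat_lit 836) (nat_lit 2620576011) (nat_lit 76) (nat_lit 2576283458) (nat_lit 395) (nat_lit 5) (nat_lit 406) (nat_lit 5) (nat_lit 396) (nat_lit 5) (nat_lit 374) (nat_lit 334) (nat_lit 312))) (XT.nd (nat_lit 78) (nat_lit 1672) (nat_lit 0) (XT.lf (nat_lit 0) (nat_lit 5947996055) (nat_lit 760) (nat_lit 1245057250) (nat_lit 836) (nat_lit 736754512) (nat_lit 385) (nat_lit 5) (nat_lit 395) (nat_lit 5) (nat_lit 396) (nat_lit 5) (nat_lit 375) (nat_lit 334) (nat_lit 311)) (XT.nd (nat_lit 78) (nat_lit 836) (nat_lit 0) (XT.lf (nat_lit 0) (nat_lit 3777591368) (nat_lit 836) (nat_lit 1320264194) (nat_lit 76)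 (nat_lit 2924950349) (nat_lit 374) (nat_lit 5) (nat_lit 385) (nat_lit 5) (nat_lit 375) (nat_lit 5) (nat_lit 376) (nat_lit 334) (nat_lit 310)) (XT.lf (nat_lit 0) (nat_lit 257902971) (nat_lit 836) (nat_lit 607409433) (nat_lit 76) (nat_lit 7253886116) (nat_lit 363) (nat_lit 5) (nat_lit 374) (nat_lit 5) (nat_lit 364) (nat_lit 5) (nat_lit 377) (nat_lit 334) (nat_lit 309))))) (XT.nd (nat_lit 156) (nat_lit 1976) (nat_lit 0) (XT.nd (nat_lit 78) (nat_lit 760) (nat_lit 0) (XT.lf (nat_lit 0) (nat_lit 122242598) (nat_lit 684) (nat_lit 4697911696) (nat_lit 760) (nat_lit 3398133073) (nat_lit 345) (nat_lit 5) (nat_lit 354) (nat_lit 5) (nat_lit 355) (nat_lit 5) (nat_lit 378) (nat_lit 334) (nat_lit 308)) (XT.lf (nat_lit 0) (nat_lit 913200478) (nat_lit 684) (nat_lit 240206761) (nat_lit 760) (nat_lit 7167381815) (nat_lit 335) (nat_lit 5) (nat_lit 344) (nat_lit 5) (nat_lit 345) (nat_lit 5) (nat_lit 379) (nat_lit 334)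 (nat_lit 307))) (XT.nd (nat_lit 78) (nat_lit 1292) (nat_lit 0) (XT.lf (nat_lit 0) (nat_lit 1719507107) (nat_lit 684) (nat_lit 4067533263) (nat_lit 760) (nat_lit 2639041910) (nat_lit 326) (nat_lit 5) (nat_lit 335) (nat_lit 5) (nat_lit 336) (nat_lit 5) (nat_lit 380) (nat_lit 334) (nat_lit 306)) (XT.nd (nat_lit 78) (nat_lit 608) (nat_lit 0) (XT.lf (nat_lit 0) (nat_lit 1969750295) (nat_lit 684) (nat_lit 5961121245) (nat_lit 76) (nat_lit 603976544) (nat_lit 317) (nat_lit 5) (nat_lit 326) (nat_lit 5) (nat_lit 318) (nat_lit 5) (nat_lit 381) (nat_lit 334) (nat_lit 305)) (XT.lf (nat_lit 0) (nat_lit 3449421888) (nat_lit 608) (nat_lit 3227353029) (nat_lit 684) (nat_lit 1969836608) (nat_lit 309) (nat_lit 5) (nat_lit 317) (nat_lit 5) (nat_lit 318) (nat_lit 5) (nat_lit 382) (nat_lit 334) (nat_lit 304)))))) (XT.nd (nat_lit 390) (nat_lit 3268) (nat_lit 0) (XT.nd (nat_lit 156) (nat_lit 1824) (nat_lit 0) (XT.nd (nat_lit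 78) (nat_lit 608) (nat_lit 0) (XT.lf (nat_lit 0) (nat_lit 2708693518) (nat_lit 684) (nat_lit 4398873612) (nat_lit 76) (nat_lit 1654168876) (nat_lit 300) (nat_lit 5) (nat_lit 309) (nat_lit 5) (nat_lit 301) (nat_lit 5) (nat_lit 383) (nat_lit 334) (nat_lit 303)) (XT.lf (nat_lit 0) (nat_lit 5308068940) (nat_lit 608) (nat_lit 2187957474) (nat_lit 684) (nat_lit 1384123211) (nat_lit 292) (nat_lit 5) (nat_lit 300) (nat_lit 5) (nat_lit 301) (nat_lit 5) (nat_lit 384) (nat_lit 334) (nat_lit 302))) (XT.nd (nat_lit 78) (nat_lit 1216) (nat_lit 0) (XT.lf (nat_lit 0) (nat_lit 3374872851) (nat_lit 608) (nat_lit 2723172810) (nat_lit 76) (nat_lit 2903726723) (nat_lit 284) (nat_lit 5) (nat_lit 292) (nat_lit 5) (nat_lit 285) (nat_lit 5) (nat_lit 385) (nat_lit 334) (nat_lit 301)) (XT.nd (nat_lit 78) (nat_lit 608) (nat_lit 0) (XT.lf (nat_lit 0) (nat_lit 7292135342) (nat_lit 608) (nat_lit 958826833) (nat_lit 684) (nat_lit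 876036107) (nat_lit 276) (nat_lit 5) (nat_lit 284) (nat_lit 5) (nat_lit 285) (nat_lit 5) (nat_lit 386) (nat_lit 334) (nat_lit 300)) (XT.lf (nat_lit 0) (nat_lit 3973995522) (nat_lit 608) (nat_lit 937347575) (nat_lit 76) (nat_lit 4343929581) (nat_lit 268) (nat_lit 5) (nat_lit 276) (nat_lit 5) (nat_lit 269) (nat_lit 5) (nat_lit 387) (nat_lit 334) (nat_lit 299))))) (XT.nd (nat_lit 156) (nat_lit 1596) (nat_lit 0) (XT.nd (nat_lit 78) (nat_lit 608) (nat_lit 0) (XT.lf (nat_lit 0) (nat_lit 8571954) (nat_lit 532) (nat_lit 8941702537) (nat_lit 608) (nat_lit 437152036) (nat_lit 254) (nat_lit 5) (nat_lit 261) (nat_lit 5) (nat_lit 262) (nat_lit 5) (nat_lit 388) (nat_lit 334) (nat_lit 298)) (XT.lf (nat_lit 0) (nat_lit 968499737) (nat_lit 532) (nat_lit 3549105388) (nat_lit 608) (nat_lit 5004848488) (nat_lit 246) (nat_lit 5) (nat_lit 253) (nat_lit 5) (nat_lit 254) (nat_lit 5) (nat_lit 389) (nat_lit 334) (nat_lit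 297))) (XT.nd (nat_lit 78) (nat_lit 1140) (nat_lit 0) (XT.lf (nat_lit 0) (nat_lit 1976829735) (nat_lit 456) (nat_lit 7639500763) (nat_lit 532) (nat_lit 45117927) (nat_lit 240) (nat_lit 5) (nat_lit 246) (nat_lit 5) (nat_lit 247) (nat_lit 5) (nat_lit 390) (nat_lit 334) (nat_lit 296)) (XT.nd (nat_lit 78) (nat_lit 532) (nat_lit 0) (XT.lf (nat_lit 0) (nat_lit 2993208640) (nat_lit 532) (nat_lit 2017899882) (nat_lit 608) (nat_lit 4792564832) (nat_lit 232) (nat_lit 5) (nat_lit 239) (nat_lit 5) (nat_lit 240) (nat_lit 5) (nat_lit 391) (nat_lit 334) (nat_lit 295)) (XT.lf (nat_lit 0) (nat_lit 282138655) (nat_lit 532) (nat_lit 5901900488) (nat_lit 76) (nat_lit 3765736948) (nat_lit 225) (nat_lit 5) (nat_lit 232) (nat_lit 5) (nat_lit 226) (nat_lit 5) (nat_lit 392) (nat_lit 334) (nat_lit 294))))))))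
noncomputable def xc39 : XT := (XT.nd (nat_lit 1560) (nat_lit 4332) (nat_lit 0) (XT.nd (nat_lit 780) (nat_lit 3648) (nat_lit 0) (XT.nd (nat_lit 390) (nat_lit 2432) (nat_lit 0) (XT.nd (nat_lit 156) (nat_lit 1368) (nat_lit 0) (XT.nd (nat_lit 78) (nat_lit 532) (nat_lit 0) (XT.lf (nat_lit 0) (nat_lit 5122452501) (nat_lit 456) (nat_lit 330324764) (nat_lit 532) (nat_lit 4646674945) (nat_lit 219) (nat_lit 5) (nat_lit 225) (nat_lit 5) (nat_lit 226) (nat_lit 5) (nat_lit 393) (nat_lit 334) (nat_lit 293)) (XT.lf (nat_lit 0) (nat_lit 552582825) (nat_lit 532) (nat_lit 4030788817) (nat_lit 76) (nat_lit 5669487793) (nat_lit 212) (nat_lit 5) (nat_lit 219) (nat_lit 5) (nat_lit 213) (nat_lit 5) (nat_lit 394) (nat_lit 334) (nat_lit 292))) (XT.nd (nat_lit 78) (nat_lit 912) (nat_lit 0) (XT.lf (nat_lit 0) (nat_lit 5856486005) (nat_lit 532) (nat_lit 3065198710) (nat_lit 76) (nat_lit 1488333916) (nat_lit 206) (nat_lit 5)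 (nat_lit 213) (nat_lit 5) (nat_lit 207) (nat_lit 5) (nat_lit 395) (nat_lit 334) (nat_lit 291)) (XT.nd (nat_lit 78) (nat_lit 456) (nat_lit 0) (XT.lf (nat_lit 0) (nat_lit 770462614) (nat_lit 456) (nat_lit 2072634024) (nat_lit 76) (nat_lit 7728045804) (nat_lit 200) (nat_lit 5) (nat_lit 206) (nat_lit 5) (nat_lit 201) (nat_lit 5) (nat_lit 396) (nat_lit 334) (nat_lit 290)) (XT.lf (nat_lit 0) (nat_lit 6219290366) (nat_lit 532) (nat_lit 1069816729) (nat_lit 76) (nat_lit 3446851349) (nat_lit 194) (nat_lit 5) (nat_lit 201) (nat_lit 5) (nat_lit 195) (nat_lit 5) (nat_lit 397) (nat_lit 334) (nat_lit 289))))) (XT.nd (nat_lit 156) (nat_lit 1216) (nat_lit 0) (XT.nd (nat_lit 78) (nat_lit 760) (nat_lit 0) (XT.lf (nat_lit 0) (nat_lit 939108471) (nat_lit 456) (nat_lit 28696957) (nat_lit 76) (nat_lit 9937285526) (nat_lit 188) (nat_lit 5) (nat_lit 194) (nat_lit 5) (nat_lit 189) (nat_lit 5) (nat_lit 398) (nat_lit 334)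 (nat_lit 288)) (XT.lf (nat_lit 0) (nat_lit 1023662530) (nat_lit 380) (nat_lit 5525452416) (nat_lit 456) (nat_lit 4528546980) (nat_lit 178) (nat_lit 5) (nat_lit 183) (nat_lit 5) (nat_lit 184) (nat_lit 5) (nat_lit 399) (nat_lit 334) (nat_lit 287))) (XT.nd (nat_lit 78) (nat_lit 760) (nat_lit 0) (XT.lf (nat_lit 0) (nat_lit 1082199065) (nat_lit 456) (nat_lit 9133724258) (nat_lit 76) (nat_lit 1038862559) (nat_lit 172) (nat_lit 5) (nat_lit 178) (nat_lit 5) (nat_lit 173) (nat_lit 5) (nat_lit 400) (nat_lit 334) (nat_lit 286)) (XT.nd (nat_lit 78) (nat_lit 456) (nat_lit 0) (XT.lf (nat_lit 0) (nat_lit 3216442015) (nat_lit 304) (nat_lit 3633607122) (nat_lit 380) (nat_lit 4585569608) (nat_lit 168) (nat_lit 5) (nat_lit 172) (nat_lit 5) (nat_lit 173) (nat_lit 5) (nat_lit 401) (nat_lit 334) (nat_lit 285)) (XT.lf (nat_lit 0) (nat_lit 1189690467) (nat_lit 456) (nat_lit 7271616341) (nat_lit 76) (nat_lit 3159698685)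 (nat_lit 162) (nat_lit 5) (nat_lit 168) (nat_lit 5) (nat_lit 163) (nat_lit 5) (nat_lit 402) (nat_lit 334) (nat_lit 284)))))) (XT.nd (nat_lit 390) (nat_lit 1900) (nat_lit 0) (XT.nd (nat_lit 156) (nat_lit 988) (nat_lit 0) (XT.nd (nat_lit 78) (nat_lit 456) (nat_lit 0) (XT.lf (nat_lit 0) (nat_lit 5493926378) (nat_lit 304) (nat_lit 1624013272) (nat_lit 380) (nat_lit 4692567357) (nat_lit 158) (nat_lit 5) (nat_lit 162) (nat_lit 5) (nat_lit 163) (nat_lit 5) (nat_lit 403) (nat_lit 334) (nat_lit 283)) (XT.lf (nat_lit 0) (nat_lit 1257572676) (nat_lit 456) (nat_lit 5342330881) (nat_lit 76) (nat_lit 5404527629) (nat_lit 152) (nat_lit 5) (nat_lit 158) (nat_lit 5) (nat_lit 153) (nat_lit 5) (nat_lit 404) (nat_lit 334) (nat_lit 282))) (XT.nd (nat_lit 78) (nat_lit 684) (nat_lit 0) (XT.lf (nat_lit 0) (nat_lit 7358685155) (nat_lit 380) (nat_lit 4350086171) (nat_lit 76) (nat_lit 494056970) (nat_lit 148) (nat_lit 5) (nat_lit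 153) (nat_lit 5) (nat_lit 149) (nat_lit 5) (nat_lit 405) (nat_lit 334) (nat_lit 281)) (XT.nd (nat_lit 78) (nat_lit 304) (nat_lit 0) (XT.lf (nat_lit 0) (nat_lit 1288070151) (nat_lit 380) (nat_lit 3346352367) (nat_lit 76) (nat_lit 7771221903) (nat_lit 143) (nat_lit 5) (nat_lit 148) (nat_lit 5) (nat_lit 144) (nat_lit 5) (nat_lit 406) (nat_lit 334) (nat_lit 280)) (XT.lf (nat_lit 0) (nat_lit 7582741078) (nat_lit 380) (nat_lit 2328069052) (nat_lit 76) (nat_lit 2702208421) (nat_lit 139) (nat_lit 5) (nat_lit 144) (nat_lit 5) (nat_lit 140) (nat_lit 5) (nat_lit 407) (nat_lit 334) (nat_lit 279))))) (XT.nd (nat_lit 156) (nat_lit 1216) (nat_lit 0) (XT.nd (nat_lit 78) (nat_lit 304) (nat_lit 0) (XT.lf (nat_lit 0) (nat_lit 1283184141) (nat_lit 380) (nat_lit 1283897670) (nat_lit 76) (nat_lit 10258175043) (nat_lit 134) (nat_lit 5) (nat_lit 139) (nat_lit 5) (nat_lit 135) (nat_lit 5) (nat_lit 408) (nat_lit 334) (nat_lit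 278)) (XT.lf (nat_lit 0) (nat_lit 7781777616) (nat_lit 380) (nat_lit 240061426) (nat_lit 76) (nat_lit 5020076865) (nat_lit 130) (nat_lit 5) (nat_lit 135) (nat_lit 5) (nat_lit 131) (nat_lit 5) (nat_lit 409) (nat_lit 334) (nat_lit 277))) (XT.nd (nat_lit 78) (nat_lit 608) (nat_lit 0) (XT.lf (nat_lit 0) (nat_lit 856301522) (nat_lit 228) (nat_lit 393965544) (nat_lit 304) (nat_lit 12013532799) (nat_lit 122) (nat_lit 5) (nat_lit 125) (nat_lit 5) (nat_lit 126) (nat_lit 5) (nat_lit 410) (nat_lit 334) (nat_lit 276)) (XT.nd (nat_lit 78) (nat_lit 304) (nat_lit 0) (XT.lf (nat_lit 0) (nat_lit 1939544293) (nat_lit 304) (nat_lit 6030871782) (nat_lit 380) (nat_lit 5519510954) (nat_lit 118) (nat_lit 5) (nat_lit 122) (nat_lit 5) (nat_lit 123) (nat_lit 5) (nat_lit 411) (nat_lit 334) (nat_lit 275)) (XT.lf (nat_lit 0) (nat_lit 1206494765) (nat_lit 304) (nat_lit 10652887544) (nat_lit 76) (nat_lit 1862253873) (nat_lit 114)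 (nat_lit 5) (nat_lit 118) (nat_lit 5) (nat_lit 115) (nat_lit 5) (nat_lit 412) (nat_lit 334) (nat_lit 274))))))) (XT.nd (nat_lit 780) (nat_lit 1520) (nat_lit 0) (XT.nd (nat_lit 390) (nat_lit 1368) (nat_lit 0) (XT.nd (nat_lit 156) (nat_lit 836) (nat_lit 0) (XT.nd (nat_lit 78) (nat_lit 304) (nat_lit 0) (XT.lf (nat_lit 0) (nat_lit 4189791130) (nat_lit 304) (nat_lit 3950145751) (nat_lit 380) (nat_lit 5818017154) (nat_lit 110) (nat_lit 5) (nat_lit 114) (nat_lit 5) (nat_lit 115) (nat_lit 5) (nat_lit 413) (nat_lit 334) (nat_lit 273)) (XT.lf (nat_lit 0) (nat_lit 1135783611) (nat_lit 304) (nat_lit 8853684949) (nat_lit 76) (nat_lit 4210354071) (nat_lit 106) (nat_lit 5) (nat_lit 110) (nat_lit 5) (nat_lit 107) (nat_lit 5) (nat_lit 414) (nat_lit 334) (nat_lit 272))) (XT.nd (nat_lit 78) (nat_lit 532) (nat_lit 0) (XT.lf (nat_lit 0) (nat_lit 6508128354) (nat_lit 304) (nat_lit 1782332112) (nat_lit 380) (nat_lit 6156291554)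 (nat_lit 102) (nat_lit 5) (nat_lit 106) (nat_lit 5) (nat_lit 107) (nat_lit 5) (nat_lit 415) (nat_lit 334) (nat_lit 271)) (XT.nd (nat_lit 78) (nat_lit 228) (nat_lit 0) (XT.lf (nat_lit 0) (nat_lit 1036820889) (nat_lit 304) (nat_lit 7007323800) (nat_lit 76) (nat_lit 6655005996) (nat_lit 98) (nat_lit 5) (nat_lit 102) (nat_lit 5) (nat_lit 99) (nat_lit 5) (nat_lit 416) (nat_lit 334) (nat_lit 270)) (XT.lf (nat_lit 0) (nat_lit 8426602738) (nat_lit 304) (nat_lit 6064726915) (nat_lit 76) (nat_lit 465687476) (nat_lit 95) (nat_lit 5) (nat_lit 99) (nat_lit 5) (nat_lit 96) (nat_lit 5) (nat_lit 417) (nat_lit 334) (nat_lit 269))))) (XT.nd (nat_lit 156) (nat_lit 836) (nat_lit 0) (XT.nd (nat_lit 78) (nat_lit 228) (nat_lit 0) (XT.lf (nat_lit 0) (nat_lit 910694504) (nat_lit 304) (nat_lit 5113614668) (nat_lit 76) (nat_lit 9196085886) (nat_lit 91) (nat_lit 5) (nat_lit 95) (nat_lit 5) (nat_lit 92) (nat_lit 5) (nat_lit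 418) (nat_lit 334) (nat_lit 268)) (XT.lf (nat_lit 0) (nat_lit 8558845593) (nat_lit 304) (nat_lit 4155261009) (nat_lit 76) (nat_lit 2775253770) (nat_lit 88) (nat_lit 5) (nat_lit 92) (nat_lit 5) (nat_lit 89) (nat_lit 5) (nat_lit 419) (nat_lit 334) (nat_lit 267))) (XT.nd (nat_lit 78) (nat_lit 532) (nat_lit 0) (XT.lf (nat_lit 0) (nat_lit 758344329) (nat_lit 304) (nat_lit 3172196028) (nat_lit 76) (nat_lit 11833825570) (nat_lit 84) (nat_lit 5) (nat_lit 88) (nat_lit 5) (nat_lit 85) (nat_lit 5) (nat_lit 420) (nat_lit 334) (nat_lit 266)) (XT.nd (nat_lit 78) (nat_lit 304) (nat_lit 0) (XT.lf (nat_lit 0) (nat_lit 8676903871) (nat_lit 304) (nat_lit 2198206313) (nat_lit 76) (nat_lit 5169731387) (nat_lit 81) (nat_lit 5) (nat_lit 85) (nat_lit 5) (nat_lit 82) (nat_lit 5) (nat_lit 421) (nat_lit 334) (nat_lit 265)) (XT.lf (nat_lit 0) (nat_lit 580570595) (nat_lit 304) (nat_lit 1182541882) (nat_lit 76) (nat_lit 14568797570)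 (nat_lit 77) (nat_lit 5) (nat_lit 81) (nat_lit 5) (nat_lit 78) (nat_lit 5) (nat_lit 422) (nat_lit 334) (nat_lit 264)))))) (XT.nd (nat_lit 390) (nat_lit 228) (nat_lit 0) (XT.nd (nat_lit 156) (nat_lit 608) (nat_lit 0) (XT.nd (nat_lit 78) (nat_lit 456) (nat_lit 0) (XT.lf (nat_lit 0) (nat_lit 8781947372) (nat_lit 304) (nat_lit 192955791) (nat_lit 76) (nat_lit 7649423080) (nat_lit 74) (nat_lit 5) (nat_lit 78) (nat_lit 5) (nat_lit 75) (nat_lit 5) (nat_lit 423) (nat_lit 334) (nat_lit 263)) (XT.lf (nat_lit 0) (nat_lit 386814026) (nat_lit 304) (nat_lit 16059532431) (nat_lit 76) (nat_lit 477390041) (nat_lit 68) (nat_lit 5) (nat_lit 72) (nat_lit 5) (nat_lit 69) (nat_lit 5) (nat_lit 424) (nat_lit 334) (nat_lit 262))) (XT.nd (nat_lit 78) (nat_lit 456) (nat_lit 0) (XT.lf (nat_lit 0) (nat_lit 1885985714) (nat_lit 152) (nat_lit 7001296011) (nat_lit 228) (nat_lit 8341191651) (nat_lit 66) (nat_lit 5) (nat_lit 68)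 (nat_lit 5) (nat_lit 69) (nat_lit 5) (nat_lit 425) (nat_lit 334) (nat_lit 261)) (XT.nd (nat_lit 78) (nat_lit 152) (nat_lit 0) (XT.lf (nat_lit 0) (nat_lit 188933646) (nat_lit 304) (nat_lit 14575682510) (nat_lit 76) (nat_lit 2775926373) (nat_lit 62) (nat_lit 5) (nat_lit 66) (nat_lit 5) (nat_lit 63) (nat_lit 5) (nat_lit 426) (nat_lit 334) (nat_lit 260)) (XT.lf (nat_lit 0) (nat_lit 4018017582) (nat_lit 152) (nat_lit 4965200285) (nat_lit 228) (nat_lit 8875221603) (nat_lit 60) (nat_lit 5) (nat_lit 62) (nat_lit 5) (nat_lit 63) (nat_lit 5) (nat_lit 427) (nat_lit 334) (nat_lit 259))))) (XT.nd (nat_lit 47112) (nat_lit 0) (nat_lit 51604) (XT.nd (nat_lit 47034) (nat_lit 0) (nat_lit 54036) (XT.lf (nat_lit 0) (nat_lit 5116215781) (nat_lit 228) (nat_lit 13035118407) (nat_lit 304) (nat_lit 32339058) (nat_lit 57) (nat_lit 5) (nat_lit 60) (nat_lit 5) (nat_lit 61) (nat_lit 5) (nat_lit 428) (nat_lit 334) (nat_lit 258))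 (XT.lf (nat_lit 0) (nat_lit 465671015) (nat_lit 684) (nat_lit 2342559572) (nat_lit 0) (nat_lit 465671015) (nat_lit 768) (nat_lit 5) (nat_lit 777) (nat_lit 4) (nat_lit 768) (nat_lit 4) (nat_lit 350) (nat_lit 335) (nat_lit 335))) (XT.nd (nat_lit 78) (nat_lit 1748) (nat_lit 0) (XT.lf (nat_lit 0) (nat_lit 1301665899) (nat_lit 684) (nat_lit 4503531904) (nat_lit 684) (nat_lit 765109692) (nat_lit 759) (nat_lit 4) (nat_lit 768) (nat_lit 5) (nat_lit 768) (nat_lit 4) (nat_lit 351) (nat_lit 335) (nat_lit 334)) (XT.nd (nat_lit 78) (nat_lit 912) (nat_lit 0) (XT.lf (nat_lit 0) (nat_lit 800253383) (nat_lit 760) (nat_lit 3243415786) (nat_lit 836) (nat_lit 2551920484) (nat_lit 748) (nat_lit 5) (nat_lit 758) (nat_lit 5) (nat_lit 759) (nat_lit 4) (nat_lit 352) (nat_lit 335) (nat_lit 333)) (XT.lf (nat_lit 0) (nat_lit 364395457) (nat_lit 836) (nat_lit 1841010393) (nat_lit 912) (nat_lit 4418383542) (nat_lit 736) (nat_lit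 5) (nat_lit 747) (nat_lit 5) (nat_lit 748) (nat_lit 5) (nat_lit 353) (nat_lit 335) (nat_lit 332))))))))
noncomputable def xc40 : XT := (XT.nd (nat_lit 1482) (nat_lit 14060) (nat_lit 0) (XT.nd (nat_lit 702) (nat_lit 14364) (nat_lit 0) (XT.nd (nat_lit 312) (nat_lit 6688) (nat_lit 0) (XT.nd (nat_lit 156) (nat_lit 2204) (nat_lit 0) (XT.nd (nat_lit 78) (nat_lit 912) (nat_lit 0) (XT.lf (nat_lit 0) (nat_lit 288715962) (nat_lit 912) (nat_lit 6054438) (nat_lit 76) (nat_lit 6360154680) (nat_lit 735) (nat_lit 5) (nat_lit 747) (nat_lit 5) (nat_lit 736) (nat_lit 5) (nat_lit 354) (nat_lit 335) (nat_lit 331)) (XT.lf (nat_lit 0) (nat_lit 4968927257) (nat_lit 988) (nat_lit 327788025) (nat_lit 76) (nat_lit 1391856901) (nat_lit 723) (nat_lit 5) (nat_lit 736) (nat_lit 5) (nat_lit 724) (nat_lit 5) (nat_lit 355) (nat_lit 335) (nat_lit 330))) (XT.nd (nat_lit 78) (nat_lit 1140) (nat_lit 0) (XT.lf (nat_lit 0) (nat_lit 2912510091)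 (nat_lit 1064) (nat_lit 590605407) (nat_lit 76) (nat_lit 3221986845) (nat_lit 709) (nat_lit 5) (nat_lit 723) (nat_lit 5) (nat_lit 710) (nat_lit 5) (nat_lit 356) (nat_lit 335) (nat_lit 329)) (XT.lf (nat_lit 0) (nat_lit 774374973) (nat_lit 1140) (nat_lit 790710201) (nat_lit 76) (nat_lit 5199531642) (nat_lit 694) (nat_lit 5) (nat_lit 709) (nat_lit 5) (nat_lit 695) (nat_lit 5) (nat_lit 357) (nat_lit 335) (nat_lit 328)))) (XT.nd (nat_lit 156) (nat_lit 4256) (nat_lit 0) (XT.nd (nat_lit 78) (nat_lit 1292) (nat_lit 0) (XT.lf (nat_lit 0) (nat_lit 5343627668) (nat_lit 1216) (nat_lit 941018106) (nat_lit 76) (nat_lit 522237430) (nat_lit 679) (nat_lit 5) (nat_lit 695) (nat_lit 5) (nat_lit 680) (nat_lit 5) (nat_lit 358) (nat_lit 335) (nat_lit 327)) (XT.lf (nat_lit 0) (nat_lit 3065031075) (nat_lit 1292) (nat_lit 1045278241) (nat_lit 76) (nat_lit 2741543735) (nat_lit 662) (nat_lit 5) (nat_lit 679) (nat_lit 5) (nat_lit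 663) (nat_lit 5) (nat_lit 359) (nat_lit 335) (nat_lit 326))) (XT.nd (nat_lit 78) (nat_lit 2888) (nat_lit 0) (XT.lf (nat_lit 0) (nat_lit 701202984) (nat_lit 1368) (nat_lit 1088040634) (nat_lit 76) (nat_lit 5110618867) (nat_lit 644) (nat_lit 5) (nat_lit 662) (nat_lit 5) (nat_lit 645) (nat_lit 5) (nat_lit 360) (nat_lit 335) (nat_lit 325)) (XT.nd (nat_lit 78) (nat_lit 1520) (nat_lit 0) (XT.lf (nat_lit 0) (nat_lit 5181815644) (nat_lit 1444) (nat_lit 1085084554) (nat_lit 76) (nat_lit 683723487) (nat_lit 626) (nat_lit 5) (nat_lit 645) (nat_lit 5) (nat_lit 627) (nat_lit 5) (nat_lit 361) (nat_lit 335) (nat_lit 324)) (XT.lf (nat_lit 0) (nat_lit 2677812971) (nat_lit 1520) (nat_lit 1037933445) (nat_lit 76) (nat_lit 3288388164) (nat_lit 606) (nat_lit 5) (nat_lit 626) (nat_lit 5) (nat_lit 607) (nat_lit 5) (nat_lit 362) (nat_lit 335) (nat_lit 323)))))) (XT.nd (nat_lit 390) (nat_lit 5776) (nat_lit 0) (XT.nd (nat_lit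 156) (nat_lit 5396) (nat_lit 0) (XT.nd (nat_lit 78) (nat_lit 1596) (nat_lit 0) (XT.lf (nat_lit 0) (nat_lit 84387898) (nat_lit 1596) (nat_lit 929980343) (nat_lit 76) (nat_lit 6046388111) (nat_lit 585) (nat_lit 5) (nat_lit 606) (nat_lit 5) (nat_lit 586) (nat_lit 5) (nat_lit 363) (nat_lit 335) (nat_lit 322)) (XT.lf (nat_lit 0) (nat_lit 4496700105) (nat_lit 1672) (nat_lit 789978075) (nat_lit 76) (nat_lit 1833265475) (nat_lit 564) (nat_lit 5) (nat_lit 586) (nat_lit 5) (nat_lit 565) (nat_lit 5) (nat_lit 364) (nat_lit 335) (nat_lit 321))) (XT.nd (nat_lit 78) (nat_lit 3648) (nat_lit 0) (XT.lf (nat_lit 0) (nat_lit 1762099192) (nat_lit 1748) (nat_lit 597045262) (nat_lit 76) (nat_lit 4823000042) (nat_lit 541) (nat_lit 5) (nat_lit 564) (nat_lit 5) (nat_lit 542) (nat_lit 5) (nat_lit 365) (nat_lit 335) (nat_lit 320)) (XT.nd (nat_lit 78) (nat_lit 1900) (nat_lit 0) (XT.lf (nat_lit 0) (nat_lit 6171179354) (nat_lit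 1824) (nat_lit 355267352) (nat_lit 76) (nat_lit 720861530) (nat_lit 518) (nat_lit 5) (nat_lit 542) (nat_lit 5) (nat_lit 519) (nat_lit 5) (nat_lit 366) (nat_lit 335) (nat_lit 319)) (XT.lf (nat_lit 0) (nat_lit 3295778622) (nat_lit 1900) (nat_lit 80935080) (nat_lit 76) (nat_lit 3938427125) (nat_lit 493) (nat_lit 5) (nat_lit 518) (nat_lit 5) (nat_lit 494) (nat_lit 5) (nat_lit 367) (nat_lit 335) (nat_lit 318))))) (XT.nd (nat_lit 156) (nat_lit 2736) (nat_lit 0) (XT.nd (nat_lit 78) (nat_lit 912) (nat_lit 0) (XT.lf (nat_lit 0) (nat_lit 256947398) (nat_lit 912) (nat_lit 68190452) (nat_lit 988) (nat_lit 7061056050) (nat_lit 465) (nat_lit 5) (nat_lit 477) (nat_lit 5) (nat_lit 478) (nat_lit 5) (nat_lit 368) (nat_lit 335) (nat_lit 317)) (XT.lf (nat_lit 0) (nat_lit 616811535) (nat_lit 912) (nat_lit 4084429545) (nat_lit 988) (nat_lit 2758488616) (nat_lit 453) (nat_lit 5) (nat_lit 465) (nat_lit 5) (nat_lit 466)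 (nat_lit 5) (nat_lit 369) (nat_lit 335) (nat_lit 316))) (XT.nd (nat_lit 78) (nat_lit 1824) (nat_lit 0) (XT.lf (nat_lit 0) (nat_lit 1034778144) (nat_lit 836) (nat_lit 553041529) (nat_lit 912) (nat_lit 5948702474) (nat_lit 441) (nat_lit 5) (nat_lit 452) (nat_lit 5) (nat_lit 453) (nat_lit 5) (nat_lit 370) (nat_lit 335) (nat_lit 315)) (XT.nd (nat_lit 78) (nat_lit 912) (nat_lit 0) (XT.lf (nat_lit 0) (nat_lit 1482711888) (nat_lit 912) (nat_lit 4504299168) (nat_lit 988) (nat_lit 1629043228) (nat_lit 429) (nat_lit 5) (nat_lit 441) (nat_lit 5) (nat_lit 442) (nat_lit 5) (nat_lit 371) (nat_lit 335) (nat_lit 314)) (XT.lf (nat_lit 0) (nat_lit 1977014448) (nat_lit 836) (nat_lit 752353758) (nat_lit 912) (nat_lit 4969314968) (nat_lit 417) (nat_lit 5) (nat_lit 428) (nat_lit 5) (nat_lit 429) (nat_lit 5) (nat_lit 372) (nat_lit 335) (nat_lit 313))))))) (XT.nd (nat_lit 780) (nat_lit 5852) (nat_lit 0) (XT.nd (nat_lit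 390) (nat_lit 4104) (nat_lit 0) (XT.nd (nat_lit 156) (nat_lit 2432) (nat_lit 0) (XT.nd (nat_lit 78) (nat_lit 836) (nat_lit 0) (XT.lf (nat_lit 0) (nat_lit 2507829964) (nat_lit 836) (nat_lit 4654757512) (nat_lit 912) (nat_lit 621664338) (nat_lit 406) (nat_lit 5) (nat_lit 417) (nat_lit 5) (nat_lit 418) (nat_lit 5) (nat_lit 373) (nat_lit 335) (nat_lit 312)) (XT.lf (nat_lit 0) (nat_lit 3076141747) (nat_lit 760) (nat_lit 683207025) (nat_lit 836) (nat_lit 4113467761) (nat_lit 395) (nat_lit 5) (nat_lit 405) (nat_lit 5) (nat_lit 406) (nat_lit 5) (nat_lit 374) (nat_lit 335) (nat_lit 311))) (XT.nd (nat_lit 78) (nat_lit 1596) (nat_lit 0) (XT.lf (nat_lit 0) (nat_lit 269185630) (nat_lit 836) (nat_lit 4281090331) (nat_lit 76) (nat_lit 3414166735) (nat_lit 384) (nat_lit 5) (nat_lit 395) (nat_lit 5) (nat_lit 385) (nat_lit 5) (nat_lit 375) (nat_lit 335) (nat_lit 310)) (XT.nd (nat_lit 78) (nat_lit 836) (nat_lit 0)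 (XT.lf (nat_lit 0) (nat_lit 4325477944) (nat_lit 760) (nat_lit 361103132) (nat_lit 836) (nat_lit 3372509801) (nat_lit 374) (nat_lit 5) (nat_lit 384) (nat_lit 5) (nat_lit 385) (nat_lit 5) (nat_lit 376) (nat_lit 335) (nat_lit 309)) (XT.lf (nat_lit 0) (nat_lit 1048686029) (nat_lit 836) (nat_lit 3155328507) (nat_lit 76) (nat_lit 3952765146) (nat_lit 363) (nat_lit 5) (nat_lit 374) (nat_lit 5) (nat_lit 364) (nat_lit 5) (nat_lit 377) (nat_lit 335) (nat_lit 308))))) (XT.nd (nat_lit 156) (nat_lit 2660) (nat_lit 0) (XT.nd (nat_lit 78) (nat_lit 760) (nat_lit 0) (XT.lf (nat_lit 0) (nat_lit 5520493449) (nat_lit 760) (nat_lit 2539882412) (nat_lit 76) (nat_lit 197301546) (nat_lit 354) (nat_lit 5) (nat_lit 364) (nat_lit 5) (nat_lit 355) (nat_lit 5) (nat_lit 378) (nat_lit 335) (nat_lit 307)) (XT.lf (nat_lit 0) (nat_lit 1732596052) (nat_lit 760) (nat_lit 1900826968) (nat_lit 76) (nat_lit 4728132084) (nat_lit 344)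 (nat_lit 5) (nat_lit 354) (nat_lit 5) (nat_lit 345) (nat_lit 5) (nat_lit 379) (nat_lit 335) (nat_lit 306))) (XT.nd (nat_lit 78) (nat_lit 1976) (nat_lit 0) (XT.lf (nat_lit 0) (nat_lit 6271094176) (nat_lit 760) (nat_lit 1223399821) (nat_lit 76) (nat_lit 974257034) (nat_lit 335) (nat_lit 5) (nat_lit 345) (nat_lit 5) (nat_lit 336) (nat_lit 5) (nat_lit 380) (nat_lit 335) (nat_lit 305)) (XT.nd (nat_lit 78) (nat_lit 1216) (nat_lit 0) (XT.lf (nat_lit 0) (nat_lit 2327903192) (nat_lit 760) (nat_lit 522637913) (nat_lit 76) (nat_lit 5728467282) (nat_lit 325) (nat_lit 5) (nat_lit 335) (nat_lit 5) (nat_lit 326) (nat_lit 5) (nat_lit 381) (nat_lit 335) (nat_lit 304)) (XT.lf (nat_lit 0) (nat_lit 216344327) (nat_lit 608) (nat_lit 6727928330) (nat_lit 684) (nat_lit 1748312273) (nat_lit 309) (nat_lit 5) (nat_lit 317) (nat_lit 5) (nat_lit 318) (nat_lit 5) (nat_lit 382) (nat_lit 335) (nat_lit 303)))))) (XT.nd (nat_lit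 390) (nat_lit 2736) (nat_lit 0) (XT.nd (nat_lit 156) (nat_lit 1824) (nat_lit 0) (XT.nd (nat_lit 78) (nat_lit 608) (nat_lit 0) (XT.lf (nat_lit 0) (nat_lit 987772597) (nat_lit 608) (nat_lit 1859662776) (nat_lit 684) (nat_lit 5961842816) (nat_lit 300) (nat_lit 5) (nat_lit 308) (nat_lit 5) (nat_lit 309) (nat_lit 5) (nat_lit 383) (nat_lit 335) (nat_lit 302)) (XT.lf (nat_lit 0) (nat_lit 1790250252) (nat_lit 608) (nat_lit 5763479874) (nat_lit 684) (nat_lit 1375582444) (nat_lit 292) (nat_lit 5) (nat_lit 300) (nat_lit 5) (nat_lit 301) (nat_lit 5) (nat_lit 384) (nat_lit 335) (nat_lit 301))) (XT.nd (nat_lit 78) (nat_lit 1216) (nat_lit 0) (XT.lf (nat_lit 0) (nat_lit 2622100163) (nat_lit 532) (nat_lit 672760928) (nat_lit 608) (nat_lit 5757841940) (nat_lit 284) (nat_lit 5) (nat_lit 291) (nat_lit 5) (nat_lit 292) (nat_lit 5) (nat_lit 385) (nat_lit 335) (nat_lit 300)) (XT.nd (nat_lit 78) (nat_lit 608) (nat_lit 0)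 (XT.lf (nat_lit 0) (nat_lit 3478513814) (nat_lit 608) (nat_lit 4618675539) (nat_lit 684) (nat_lit 1082214796) (nat_lit 276) (nat_lit 5) (nat_lit 284) (nat_lit 5) (nat_lit 285) (nat_lit 5) (nat_lit 386) (nat_lit 335) (nat_lit 299)) (XT.lf (nat_lit 0) (nat_lit 3676644064) (nat_lit 608) (nat_lit 4944123503) (nat_lit 76) (nat_lit 688815288) (nat_lit 268) (nat_lit 5) (nat_lit 276) (nat_lit 5) (nat_lit 269) (nat_lit 5) (nat_lit 387) (nat_lit 335) (nat_lit 298))))) (XT.nd (nat_lit 156) (nat_lit 1596) (nat_lit 0) (XT.nd (nat_lit 78) (nat_lit 608) (nat_lit 0) (XT.lf (nat_lit 0) (nat_lit 5278129637) (nat_lit 532) (nat_lit 3301835700) (nat_lit 608) (nat_lit 863230522) (nat_lit 261) (nat_lit 5) (nat_lit 268) (nat_lit 5) (nat_lit 269) (nat_lit 5) (nat_lit 388) (nat_lit 335) (nat_lit 297)) (XT.lf (nat_lit 0) (nat_lit 3998681885) (nat_lit 608) (nat_lit 3366184805) (nat_lit 76) (nat_lit 2215380240) (nat_lit 253)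 (nat_lit 5) (nat_lit 261) (nat_lit 5) (nat_lit 254) (nat_lit 5) (nat_lit 389) (nat_lit 335) (nat_lit 296))) (XT.nd (nat_lit 78) (nat_lit 1064) (nat_lit 0) (XT.lf (nat_lit 0) (nat_lit 7186600889) (nat_lit 532) (nat_lit 1820349915) (nat_lit 608) (nat_lit 714100067) (nat_lit 246) (nat_lit 5) (nat_lit 253) (nat_lit 5) (nat_lit 254) (nat_lit 5) (nat_lit 390) (nat_lit 335) (nat_lit 295)) (XT.nd (nat_lit 78) (nat_lit 532) (nat_lit 0) (XT.lf (nat_lit 0) (nat_lit 4261060346) (nat_lit 532) (nat_lit 1695041125) (nat_lit 76) (nat_lit 3909057995) (nat_lit 239) (nat_lit 5) (nat_lit 246) (nat_lit 5) (nat_lit 240) (nat_lit 5) (nat_lit 391) (nat_lit 335) (nat_lit 294)) (XT.lf (nat_lit 0) (nat_lit 9201910203) (nat_lit 532) (nat_lit 180737557) (nat_lit 608) (nat_lit 630711675) (nat_lit 232) (nat_lit 5) (nat_lit 239) (nat_lit 5) (nat_lit 240) (nat_lit 5) (nat_lit 392) (nat_lit 335) (nat_lit 293))))))))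
noncomputable def xc41 : XT := (XT.nd (nat_lit 1482) (nat_lit 4560) (nat_lit 0) (XT.nd (nat_lit 702) (nat_lit 3800) (nat_lit 0) (XT.nd (nat_lit 312) (nat_lit 2204) (nat_lit 0) (XT.nd (nat_lit 156) (nat_lit 912) (nat_lit 0) (XT.nd (nat_lit 78) (nat_lit 456) (nat_lit 0) (XT.lf (nat_lit 0) (nat_lit 68014470) (nat_lit 456) (nat_lit 4400276311) (nat_lit 532) (nat_lit 5696424834) (nat_lit 219) (nat_lit 5) (nat_lit 225) (nat_lit 5) (nat_lit 226) (nat_lit 5) (nat_lit 393) (nat_lit 335) (nat_lit 292)) (XT.lf (nat_lit 0) (nat_lit 1004668933) (nat_lit 456) (nat_lit 8723512261) (nat_lit 532) (nat_lit 592018170) (nat_lit 213) (nat_lit 5) (nat_lit 219) (nat_lit 5) (nat_lit 220) (nat_lit 5) (nat_lit 394) (nat_lit 335) (nat_lit 291))) (XT.nd (nat_lit 78) (nat_lit 380) (nat_lit 0) (XT.lf (nat_lit 0) (nat_lit 1944028994) (nat_lit 456) (nat_lit 2691354513) (nat_lit 532) (nat_lit 5843737247) (nat_lit 206) (nat_lit 5)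 (nat_lit 212) (nat_lit 5) (nat_lit 213) (nat_lit 5) (nat_lit 395) (nat_lit 335) (nat_lit 290)) (XT.lf (nat_lit 0) (nat_lit 2919413993) (nat_lit 380) (nat_lit 7118998025) (nat_lit 456) (nat_lit 603782543) (nat_lit 201) (nat_lit 5) (nat_lit 206) (nat_lit 5) (nat_lit 207) (nat_lit 5) (nat_lit 396) (nat_lit 335) (nat_lit 289)))) (XT.nd (nat_lit 156) (nat_lit 1292) (nat_lit 0) (XT.nd (nat_lit 78) (nat_lit 380) (nat_lit 0) (XT.lf (nat_lit 0) (nat_lit 3909073353) (nat_lit 456) (nat_lit 845486423) (nat_lit 532) (nat_lit 6054497274) (nat_lit 194) (nat_lit 5) (nat_lit 200) (nat_lit 5) (nat_lit 201) (nat_lit 5) (nat_lit 397) (nat_lit 335) (nat_lit 288)) (XT.lf (nat_lit 0) (nat_lit 4922001806) (nat_lit 380) (nat_lit 5388294761) (nat_lit 456) (nat_lit 669652081) (nat_lit 189) (nat_lit 5) (nat_lit 194) (nat_lit 5) (nat_lit 195) (nat_lit 5) (nat_lit 398) (nat_lit 335) (nat_lit 287))) (XT.nd (nat_lit 78) (nat_lit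 836) (nat_lit 0) (XT.lf (nat_lit 0) (nat_lit 4836244622) (nat_lit 456) (nat_lit 5200252062) (nat_lit 76) (nat_lit 1118367740) (nat_lit 183) (nat_lit 5) (nat_lit 189) (nat_lit 5) (nat_lit 184) (nat_lit 5) (nat_lit 399) (nat_lit 335) (nat_lit 286)) (XT.nd (nat_lit 78) (nat_lit 456) (nat_lit 0) (XT.lf (nat_lit 0) (nat_lit 7011602308) (nat_lit 380) (nat_lit 3535412713) (nat_lit 456) (nat_lit 786948231) (nat_lit 178) (nat_lit 5) (nat_lit 183) (nat_lit 5) (nat_lit 184) (nat_lit 5) (nat_lit 400) (nat_lit 335) (nat_lit 285)) (XT.lf (nat_lit 0) (nat_lit 4882193091) (nat_lit 456) (nat_lit 3436061358) (nat_lit 76) (nat_lit 3198824448) (nat_lit 172) (nat_lit 5) (nat_lit 178) (nat_lit 5) (nat_lit 173) (nat_lit 5) (nat_lit 401) (nat_lit 335) (nat_lit 284)))))) (XT.nd (nat_lit 390) (nat_lit 1672) (nat_lit 0) (XT.nd (nat_lit 156) (nat_lit 1368) (nat_lit 0) (XT.nd (nat_lit 78) (nat_lit 456) (nat_lit 0) (XT.lf (nat_lit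 0) (nat_lit 9187726577) (nat_lit 304) (nat_lit 1563761304) (nat_lit 380) (nat_lit 953280681) (nat_lit 168) (nat_lit 5) (nat_lit 172) (nat_lit 5) (nat_lit 173) (nat_lit 5) (nat_lit 402) (nat_lit 335) (nat_lit 283)) (XT.lf (nat_lit 0) (nat_lit 4889415813) (nat_lit 456) (nat_lit 1602789501) (nat_lit 76) (nat_lit 5404149652) (nat_lit 162) (nat_lit 5) (nat_lit 168) (nat_lit 5) (nat_lit 163) (nat_lit 5) (nat_lit 403) (nat_lit 335) (nat_lit 282))) (XT.nd (nat_lit 78) (nat_lit 1064) (nat_lit 0) (XT.lf (nat_lit 0) (nat_lit 10929796012) (nat_lit 380) (nat_lit 646114510) (nat_lit 76) (nat_lit 516945331) (nat_lit 158) (nat_lit 5) (nat_lit 163) (nat_lit 5) (nat_lit 159) (nat_lit 5) (nat_lit 404) (nat_lit 335) (nat_lit 281)) (XT.nd (nat_lit 78) (nat_lit 304) (nat_lit 0) (XT.lf (nat_lit 0) (nat_lit 302956057) (nat_lit 304) (nat_lit 4559180981) (nat_lit 380) (nat_lit 7431090339) (nat_lit 148) (nat_lit 5) (nat_lit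 152) (nat_lit 5) (nat_lit 153) (nat_lit 5) (nat_lit 405) (nat_lit 335) (nat_lit 280)) (XT.lf (nat_lit 0) (nat_lit 1299531834) (nat_lit 304) (nat_lit 9800791590) (nat_lit 380) (nat_lit 1398172167) (nat_lit 144) (nat_lit 5) (nat_lit 148) (nat_lit 5) (nat_lit 149) (nat_lit 5) (nat_lit 406) (nat_lit 335) (nat_lit 279))))) (XT.nd (nat_lit 156) (nat_lit 988) (nat_lit 0) (XT.nd (nat_lit 78) (nat_lit 304) (nat_lit 0) (XT.lf (nat_lit 0) (nat_lit 2299099560) (nat_lit 304) (nat_lit 2512314303) (nat_lit 380) (nat_lit 7896705859) (nat_lit 139) (nat_lit 5) (nat_lit 143) (nat_lit 5) (nat_lit 144) (nat_lit 5) (nat_lit 407) (nat_lit 335) (nat_lit 278)) (XT.lf (nat_lit 0) (nat_lit 3322326298) (nat_lit 304) (nat_lit 7929087706) (nat_lit 380) (nat_lit 1671171289) (nat_lit 135) (nat_lit 5) (nat_lit 139) (nat_lit 5) (nat_lit 140) (nat_lit 5) (nat_lit 408) (nat_lit 335) (nat_lit 277))) (XT.nd (nat_lit 78) (nat_lit 608)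 (nat_lit 0) (XT.lf (nat_lit 0) (nat_lit 4364289777) (nat_lit 304) (nat_lit 364230841) (nat_lit 380) (nat_lit 8413357122) (nat_lit 130) (nat_lit 5) (nat_lit 134) (nat_lit 5) (nat_lit 135) (nat_lit 5) (nat_lit 409) (nat_lit 335) (nat_lit 276)) (XT.nd (nat_lit 78) (nat_lit 304) (nat_lit 0) (XT.lf (nat_lit 0) (nat_lit 5413767803) (nat_lit 304) (nat_lit 5967099371) (nat_lit 380) (nat_lit 1984993487) (nat_lit 126) (nat_lit 5) (nat_lit 130) (nat_lit 5) (nat_lit 131) (nat_lit 5) (nat_lit 410) (nat_lit 335) (nat_lit 275)) (XT.lf (nat_lit 0) (nat_lit 4627310111) (nat_lit 304) (nat_lit 7108672114) (nat_lit 76) (nat_lit 1858940936) (nat_lit 122) (nat_lit 5) (nat_lit 126) (nat_lit 5) (nat_lit 123) (nat_lit 5) (nat_lit 411) (nat_lit 335) (nat_lit 274))))))) (XT.nd (nat_lit 780) (nat_lit 1444) (nat_lit 0) (XT.nd (nat_lit 390) (nat_lit 1596) (nat_lit 0) (XT.nd (nat_lit 156) (nat_lit 912) (nat_lit 0) (XT.nd (nat_lit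 78) (nat_lit 304) (nat_lit 0) (XT.lf (nat_lit 0) (nat_lit 7574183856) (nat_lit 304) (nat_lit 3916375642) (nat_lit 380) (nat_lit 2338444723) (nat_lit 118) (nat_lit 5) (nat_lit 122) (nat_lit 5) (nat_lit 123) (nat_lit 5) (nat_lit 412) (nat_lit 335) (nat_lit 273)) (XT.lf (nat_lit 0) (nat_lit 4499998107) (nat_lit 304) (nat_lit 5393309962) (nat_lit 76) (nat_lit 4174831029) (nat_lit 114) (nat_lit 5) (nat_lit 118) (nat_lit 5) (nat_lit 115) (nat_lit 5) (nat_lit 413) (nat_lit 335) (nat_lit 272))) (XT.nd (nat_lit 78) (nat_lit 608) (nat_lit 0) (XT.lf (nat_lit 0) (nat_lit 9804133761) (nat_lit 304) (nat_lit 1778072611) (nat_lit 380) (nat_lit 2730524857) (nat_lit 110) (nat_lit 5) (nat_lit 114) (nat_lit 5) (nat_lit 115) (nat_lit 5) (nat_lit 414) (nat_lit 335) (nat_lit 271)) (XT.nd (nat_lit 78) (nat_lit 304) (nat_lit 0) (XT.lf (nat_lit 0) (nat_lit 4345483205) (nat_lit 304) (nat_lit 3629197947) (nat_lit 76) (nat_lit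 6587623636) (nat_lit 106) (nat_lit 5) (nat_lit 110) (nat_lit 5) (nat_lit 107) (nat_lit 5) (nat_lit 415) (nat_lit 335) (nat_lit 270)) (XT.lf (nat_lit 0) (nat_lit 11660275844) (nat_lit 380) (nat_lit 2716293543) (nat_lit 76) (nat_lit 441163164) (nat_lit 102) (nat_lit 5) (nat_lit 107) (nat_lit 5) (nat_lit 103) (nat_lit 5) (nat_lit 416) (nat_lit 335) (nat_lit 269))))) (XT.nd (nat_lit 156) (nat_lit 1064) (nat_lit 0) (XT.nd (nat_lit 78) (nat_lit 228) (nat_lit 0) (XT.lf (nat_lit 0) (nat_lit 4164869721) (nat_lit 304) (nat_lit 1816213735) (nat_lit 76) (nat_lit 9097102866) (nat_lit 98) (nat_lit 5) (nat_lit 102) (nat_lit 5) (nat_lit 99) (nat_lit 5) (nat_lit 417) (nat_lit 335) (nat_lit 268)) (XT.lf (nat_lit 0) (nat_lit 11735397132) (nat_lit 304) (nat_lit 886898563) (nat_lit 76) (nat_lit 2722312022) (nat_lit 95) (nat_lit 5) (nat_lit 99) (nat_lit 5) (nat_lit 96) (nat_lit 5) (nat_lit 418) (nat_lit 335) (nat_lit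 267))) (XT.nd (nat_lit 78) (nat_lit 532) (nat_lit 0) (XT.lf (nat_lit 0) (nat_lit 46550453) (nat_lit 228) (nat_lit 3912864078) (nat_lit 304) (nat_lit 11657164396) (nat_lit 88) (nat_lit 5) (nat_lit 91) (nat_lit 5) (nat_lit 92) (nat_lit 5) (nat_lit 419) (nat_lit 335) (nat_lit 266)) (XT.nd (nat_lit 78) (nat_lit 304) (nat_lit 0) (XT.lf (nat_lit 0) (nat_lit 1004693570) (nat_lit 228) (nat_lit 10799151650) (nat_lit 304) (nat_lit 4090431278) (nat_lit 85) (nat_lit 5) (nat_lit 88) (nat_lit 5) (nat_lit 89) (nat_lit 5) (nat_lit 420) (nat_lit 335) (nat_lit 265)) (XT.lf (nat_lit 0) (nat_lit 1983744585) (nat_lit 228) (nat_lit 1758159688) (nat_lit 304) (nat_lit 12436176440) (nat_lit 81) (nat_lit 5) (nat_lit 84) (nat_lit 5) (nat_lit 85) (nat_lit 5) (nat_lit 421) (nat_lit 335) (nat_lit 264)))))) (XT.nd (nat_lit 390) (nat_lit 304) (nat_lit 0) (XT.nd (nat_lit 156) (nat_lit 608) (nat_lit 0) (XT.nd (nat_lit 78) (nat_lit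 304) (nat_lit 0) (XT.lf (nat_lit 0) (nat_lit 2958298188) (nat_lit 228) (nat_lit 8908137411) (nat_lit 304) (nat_lit 4601166727) (nat_lit 78) (nat_lit 5) (nat_lit 81) (nat_lit 5) (nat_lit 82) (nat_lit 5) (nat_lit 422) (nat_lit 335) (nat_lit 263)) (XT.lf (nat_lit 0) (nat_lit 3504131249) (nat_lit 304) (nat_lit 12794997442) (nat_lit 76) (nat_lit 464615786) (nat_lit 74) (nat_lit 5) (nat_lit 78) (nat_lit 5) (nat_lit 75) (nat_lit 5) (nat_lit 423) (nat_lit 335) (nat_lit 262))) (XT.nd (nat_lit 78) (nat_lit 456) (nat_lit 0) (XT.lf (nat_lit 0) (nat_lit 4962840536) (nat_lit 152) (nat_lit 6955564587) (nat_lit 228) (nat_lit 5147190921) (nat_lit 72) (nat_lit 5) (nat_lit 74) (nat_lit 5) (nat_lit 75) (nat_lit 5) (nat_lit 424) (nat_lit 335) (nat_lit 261)) (XT.nd (nat_lit 78) (nat_lit 152) (nat_lit 0) (XT.lf (nat_lit 0) (nat_lit 3255496657) (nat_lit 304) (nat_lit 11380979535) (nat_lit 76) (nat_lit 2737830838) (nat_lit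 68) (nat_lit 5) (nat_lit 72) (nat_lit 5) (nat_lit 69) (nat_lit 5) (nat_lit 425) (nat_lit 335) (nat_lit 260)) (XT.lf (nat_lit 0) (nat_lit 7019183787) (nat_lit 152) (nat_lit 4941539503) (nat_lit 228) (nat_lit 5728467824) (nat_lit 66) (nat_lit 5) (nat_lit 68) (nat_lit 5) (nat_lit 69) (nat_lit 5) (nat_lit 426) (nat_lit 335) (nat_lit 259))))) (XT.nd (nat_lit 47034) (nat_lit 0) (nat_lit 52896) (XT.nd (nat_lit 46956) (nat_lit 0) (nat_lit 54872) (XT.lf (nat_lit 0) (nat_lit 2985028955) (nat_lit 304) (nat_lit 9940885490) (nat_lit 76) (nat_lit 5085035815) (nat_lit 62) (nat_lit 5) (nat_lit 66) (nat_lit 5) (nat_lit 63) (nat_lit 5) (nat_lit 427) (nat_lit 335) (nat_lit 258)) (XT.lf (nat_lit 0) (nat_lit 810138007) (nat_lit 532) (nat_lit 1634590215) (nat_lit 0) (nat_lit 810138007) (nat_lit 784) (nat_lit 5) (nat_lit 791) (nat_lit 4) (nat_lit 784) (nat_lit 4) (nat_lit 348) (nat_lit 336) (nat_lit 336))) (XT.nd (nat_lit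 78) (nat_lit 1444) (nat_lit 0) (XT.lf (nat_lit 0) (nat_lit 2484988624) (nat_lit 532) (nat_lit 3985342485) (nat_lit 532) (nat_lit 57756109) (nat_lit 777) (nat_lit 4) (nat_lit 784) (nat_lit 5) (nat_lit 784) (nat_lit 4) (nat_lit 349) (nat_lit 336) (nat_lit 335)) (XT.nd (nat_lit 78) (nat_lit 760) (nat_lit 0) (XT.lf (nat_lit 0) (nat_lit 1785074455) (nat_lit 608) (nat_lit 2930693607) (nat_lit 684) (nat_lit 1833358122) (nat_lit 768) (nat_lit 5) (nat_lit 776) (nat_lit 5) (nat_lit 777) (nat_lit 4) (nat_lit 350) (nat_lit 336) (nat_lit 334)) (XT.lf (nat_lit 0) (nat_lit 1151246463) (nat_lit 684) (nat_lit 1735252246) (nat_lit 760) (nat_lit 3686578129) (nat_lit 758) (nat_lit 5) (nat_lit 767) (nat_lit 5) (nat_lit 768) (nat_lit 5) (nat_lit 351) (nat_lit 336) (nat_lit 333))))))))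
noncomputable def xc42 : XT := (XT.nd (nat_lit 1482) (nat_lit 15656) (nat_lit 0) (XT.nd (nat_lit 702) (nat_lit 14592) (nat_lit 0) (XT.nd (nat_lit 312) (nat_lit 5928) (nat_lit 0) (XT.nd (nat_lit 156) (nat_lit 1064) (nat_lit 0) (XT.nd (nat_lit 78) (nat_lit 836) (nat_lit 0) (XT.lf (nat_lit 0) (nat_lit 583142481) (nat_lit 760) (nat_lit 397736713) (nat_lit 836) (nat_lit 5619076266) (nat_lit 747) (nat_lit 5) (nat_lit 757) (nat_lit 5) (nat_lit 758) (nat_lit 5) (nat_lit 352) (nat_lit 336) (nat_lit 332)) (XT.lf (nat_lit 0) (nat_lit 66617996) (nat_lit 836) (nat_lit 5553877882) (nat_lit 912) (nat_lit 1009012761) (nat_lit 736) (nat_lit 5) (nat_lit 747) (nat_lit 5) (nat_lit 748) (nat_lit 5) (nat_lit 353) (nat_lit 336) (nat_lit 331))) (XT.nd (nat_lit 78) (nat_lit 988) (nat_lit 0) (XT.lf (nat_lit 0) (nat_lit 3575081154) (nat_lit 912) (nat_lit 390188830) (nat_lit 76) (nat_lit 2696497447) (nat_lit 735) (nat_lit 5)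 (nat_lit 747) (nat_lit 5) (nat_lit 736) (nat_lit 5) (nat_lit 354) (nat_lit 336) (nat_lit 330)) (XT.lf (nat_lit 0) (nat_lit 1450768018) (nat_lit 988) (nat_lit 783388183) (nat_lit 76) (nat_lit 4462828812) (nat_lit 722) (nat_lit 5) (nat_lit 735) (nat_lit 5) (nat_lit 723) (nat_lit 5) (nat_lit 355) (nat_lit 336) (nat_lit 329)))) (XT.nd (nat_lit 156) (nat_lit 3800) (nat_lit 0) (XT.nd (nat_lit 78) (nat_lit 1140) (nat_lit 0) (XT.lf (nat_lit 0) (nat_lit 5616185577) (nat_lit 988) (nat_lit 354047959) (nat_lit 1064) (nat_lit 764861058) (nat_lit 709) (nat_lit 5) (nat_lit 722) (nat_lit 5) (nat_lit 723) (nat_lit 5) (nat_lit 356) (nat_lit 336) (nat_lit 328)) (XT.lf (nat_lit 0) (nat_lit 3702744662) (nat_lit 1140) (nat_lit 1412817228) (nat_lit 76) (nat_lit 1660239217) (nat_lit 694) (nat_lit 5) (nat_lit 709) (nat_lit 5) (nat_lit 695) (nat_lit 5) (nat_lit 357) (nat_lit 336) (nat_lit 327))) (XT.nd (nat_lit 78) (nat_lit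 2584) (nat_lit 0) (XT.lf (nat_lit 0) (nat_lit 1354979632) (nat_lit 1216) (nat_lit 1647867156) (nat_lit 76) (nat_lit 3816629546) (nat_lit 678) (nat_lit 5) (nat_lit 694) (nat_lit 5) (nat_lit 679) (nat_lit 5) (nat_lit 358) (nat_lit 336) (nat_lit 326)) (XT.nd (nat_lit 78) (nat_lit 1368) (nat_lit 0) (XT.lf (nat_lit 0) (nat_lit 5037305317) (nat_lit 1216) (nat_lit 736880751) (nat_lit 1292) (nat_lit 1091867888) (nat_lit 662) (nat_lit 5) (nat_lit 678) (nat_lit 5) (nat_lit 679) (nat_lit 5) (nat_lit 359) (nat_lit 336) (nat_lit 325)) (XT.lf (nat_lit 0) (nat_lit 3281558988) (nat_lit 1368) (nat_lit 1968640776) (nat_lit 76) (nat_lit 1665098744) (nat_lit 644) (nat_lit 5) (nat_lit 662) (nat_lit 5) (nat_lit 645) (nat_lit 5) (nat_lit 360) (nat_lit 336) (nat_lit 324)))))) (XT.nd (nat_lit 390) (nat_lit 6764) (nat_lit 0) (XT.nd (nat_lit 156) (nat_lit 4940) (nat_lit 0) (XT.nd (nat_lit 78) (nat_lit 1444) (nat_lit 0) (XT.lf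 (nat_lit 0) (nat_lit 707218972) (nat_lit 1444) (nat_lit 2053212493) (nat_lit 76) (nat_lit 4207093902) (nat_lit 625) (nat_lit 5) (nat_lit 644) (nat_lit 5) (nat_lit 626) (nat_lit 5) (nat_lit 361) (nat_lit 336) (nat_lit 323)) (XT.lf (nat_lit 0) (nat_lit 4932346502) (nat_lit 1444) (nat_lit 108224549) (nat_lit 1520) (nat_lit 1982036938) (nat_lit 606) (nat_lit 5) (nat_lit 625) (nat_lit 5) (nat_lit 626) (nat_lit 5) (nat_lit 362) (nat_lit 336) (nat_lit 322))) (XT.nd (nat_lit 78) (nat_lit 3344) (nat_lit 0) (XT.lf (nat_lit 0) (nat_lit 2324937397) (nat_lit 1596) (nat_lit 2089353465) (nat_lit 76) (nat_lit 2666094276) (nat_lit 585) (nat_lit 5) (nat_lit 606) (nat_lit 5) (nat_lit 586) (nat_lit 5) (nat_lit 363) (nat_lit 336) (nat_lit 321)) (XT.nd (nat_lit 78) (nat_lit 1748) (nat_lit 0) (XT.lf (nat_lit 0) (nat_lit 5108484036) (nat_lit 1596) (nat_lit 1545278794) (nat_lit 1672) (nat_lit 487479346) (nat_lit 564) (nat_lit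 5) (nat_lit 585) (nat_lit 5) (nat_lit 586) (nat_lit 5) (nat_lit 364) (nat_lit 336) (nat_lit 320)) (XT.lf (nat_lit 0) (nat_lit 3788881457) (nat_lit 1748) (nat_lit 1941748074) (nat_lit 76) (nat_lit 1474155572) (nat_lit 541) (nat_lit 5) (nat_lit 564) (nat_lit 5) (nat_lit 542) (nat_lit 5) (nat_lit 365) (nat_lit 336) (nat_lit 319))))) (XT.nd (nat_lit 156) (nat_lit 3116) (nat_lit 0) (XT.nd (nat_lit 78) (nat_lit 1824) (nat_lit 0) (XT.lf (nat_lit 0) (nat_lit 840491196) (nat_lit 1824) (nat_lit 1801859469) (nat_lit 76) (nat_lit 4628984683) (nat_lit 517) (nat_lit 5) (nat_lit 541) (nat_lit 5) (nat_lit 518) (nat_lit 5) (nat_lit 366) (nat_lit 336) (nat_lit 318)) (XT.lf (nat_lit 0) (nat_lit 5111298714) (nat_lit 1900) (nat_lit 1620985262) (nat_lit 76) (nat_lit 608483950) (nat_lit 493) (nat_lit 5) (nat_lit 518) (nat_lit 5) (nat_lit 494) (nat_lit 5) (nat_lit 367) (nat_lit 336) (nat_lit 317))) (XT.nd (nat_lit 78) (nat_lit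 1900) (nat_lit 0) (XT.lf (nat_lit 0) (nat_lit 2020418509) (nat_lit 1216) (nat_lit 1404381321) (nat_lit 76) (nat_lit 3988211498) (nat_lit 477) (nat_lit 5) (nat_lit 493) (nat_lit 5) (nat_lit 478) (nat_lit 5) (nat_lit 368) (nat_lit 336) (nat_lit 316)) (XT.nd (nat_lit 78) (nat_lit 988) (nat_lit 0) (XT.lf (nat_lit 0) (nat_lit 6303488028) (nat_lit 988) (nat_lit 1136652986) (nat_lit 76) (nat_lit 48266782) (nat_lit 465) (nat_lit 5) (nat_lit 478) (nat_lit 5) (nat_lit 466) (nat_lit 5) (nat_lit 369) (nat_lit 336) (nat_lit 315)) (XT.lf (nat_lit 0) (nat_lit 3069497466) (nat_lit 988) (nat_lit 846373374) (nat_lit 76) (nat_lit 3650550145) (nat_lit 452) (nat_lit 5) (nat_lit 465) (nat_lit 5) (nat_lit 453) (nat_lit 5) (nat_lit 370) (nat_lit 336) (nat_lit 314))))))) (XT.nd (nat_lit 780) (nat_lit 6764) (nat_lit 0) (XT.nd (nat_lit 390) (nat_lit 3724) (nat_lit 0) (XT.nd (nat_lit 156) (nat_lit 3344) (nat_lit 0) (XT.nd (nat_lit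 78) (nat_lit 988) (nat_lit 0) (XT.lf (nat_lit 0) (nat_lit 7148888507) (nat_lit 836) (nat_lit 228466232) (nat_lit 912) (nat_lit 270425064) (nat_lit 441) (nat_lit 5) (nat_lit 452) (nat_lit 5) (nat_lit 453) (nat_lit 5) (nat_lit 371) (nat_lit 336) (nat_lit 313)) (XT.lf (nat_lit 0) (nat_lit 3997671348) (nat_lit 988) (nat_lit 136143195) (nat_lit 76) (nat_lit 3597867658) (nat_lit 428) (nat_lit 5) (nat_lit 441) (nat_lit 5) (nat_lit 429) (nat_lit 5) (nat_lit 372) (nat_lit 336) (nat_lit 312))) (XT.nd (nat_lit 78) (nat_lit 1596) (nat_lit 0) (XT.lf (nat_lit 0) (nat_lit 287842863) (nat_lit 836) (nat_lit 227695780) (nat_lit 912) (nat_lit 7303433578) (nat_lit 405) (nat_lit 5) (nat_lit 416) (nat_lit 5) (nat_lit 417) (nat_lit 5) (nat_lit 373) (nat_lit 336) (nat_lit 311)) (XT.nd (nat_lit 78) (nat_lit 836) (nat_lit 0) (XT.lf (nat_lit 0) (nat_lit 728399710) (nat_lit 760) (nat_lit 4090418908) (nat_lit 836) (nat_lit 3090029196)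 (nat_lit 395) (nat_lit 5) (nat_lit 405) (nat_lit 5) (nat_lit 406) (nat_lit 5) (nat_lit 374) (nat_lit 336) (nat_lit 310)) (XT.lf (nat_lit 0) (nat_lit 1188809397) (nat_lit 836) (nat_lit 6778503398) (nat_lit 76) (nat_lit 34836129) (nat_lit 384) (nat_lit 5) (nat_lit 395) (nat_lit 5) (nat_lit 385) (nat_lit 5) (nat_lit 375) (nat_lit 336) (nat_lit 309))))) (XT.nd (nat_lit 156) (nat_lit 2128) (nat_lit 0) (XT.nd (nat_lit 78) (nat_lit 836) (nat_lit 0) (XT.lf (nat_lit 0) (nat_lit 1734671795) (nat_lit 760) (nat_lit 3803756708) (nat_lit 836) (nat_lit 2559724128) (nat_lit 374) (nat_lit 5) (nat_lit 384) (nat_lit 5) (nat_lit 385) (nat_lit 5) (nat_lit 376) (nat_lit 336) (nat_lit 308)) (XT.lf (nat_lit 0) (nat_lit 1760413400) (nat_lit 836) (nat_lit 5903217903) (nat_lit 76) (nat_lit 533912560) (nat_lit 363) (nat_lit 5) (nat_lit 374) (nat_lit 5) (nat_lit 364) (nat_lit 5) (nat_lit 377) (nat_lit 336) (nat_lit 307))) (XT.nd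 (nat_lit 78) (nat_lit 1444) (nat_lit 0) (XT.lf (nat_lit 0) (nat_lit 2874845298) (nat_lit 684) (nat_lit 3288455101) (nat_lit 760) (nat_lit 2136519598) (nat_lit 354) (nat_lit 5) (nat_lit 363) (nat_lit 5) (nat_lit 364) (nat_lit 5) (nat_lit 378) (nat_lit 336) (nat_lit 306)) (XT.nd (nat_lit 78) (nat_lit 684) (nat_lit 0) (XT.lf (nat_lit 0) (nat_lit 2236049153) (nat_lit 760) (nat_lit 4909659646) (nat_lit 76) (nat_lit 1259697566) (nat_lit 344) (nat_lit 5) (nat_lit 354) (nat_lit 5) (nat_lit 345) (nat_lit 5) (nat_lit 379) (nat_lit 336) (nat_lit 305)) (XT.lf (nat_lit 0) (nat_lit 4143597844) (nat_lit 684) (nat_lit 2556906295) (nat_lit 760) (nat_lit 1813579014) (nat_lit 335) (nat_lit 5) (nat_lit 344) (nat_lit 5) (nat_lit 345) (nat_lit 5) (nat_lit 380) (nat_lit 336) (nat_lit 304)))))) (XT.nd (nat_lit 390) (nat_lit 3420) (nat_lit 0) (XT.nd (nat_lit 156) (nat_lit 1976) (nat_lit 0) (XT.nd (nat_lit 78) (nat_lit 608)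 (nat_lit 0) (XT.lf (nat_lit 0) (nat_lit 2622286325) (nat_lit 760) (nat_lit 3803050352) (nat_lit 76) (nat_lit 2200647108) (nat_lit 325) (nat_lit 5) (nat_lit 335) (nat_lit 5) (nat_lit 326) (nat_lit 5) (nat_lit 381) (nat_lit 336) (nat_lit 303)) (XT.lf (nat_lit 0) (nat_lit 5536258295) (nat_lit 608) (nat_lit 1620272284) (nat_lit 684) (nat_lit 1584672254) (nat_lit 317) (nat_lit 5) (nat_lit 325) (nat_lit 5) (nat_lit 326) (nat_lit 5) (nat_lit 382) (nat_lit 336) (nat_lit 302))) (XT.nd (nat_lit 78) (nat_lit 1292) (nat_lit 0) (XT.lf (nat_lit 0) (nat_lit 2925131400) (nat_lit 684) (nat_lit 2588010899) (nat_lit 76) (nat_lit 3346408500) (nat_lit 308) (nat_lit 5) (nat_lit 317) (nat_lit 5) (nat_lit 309) (nat_lit 5) (nat_lit 383) (nat_lit 336) (nat_lit 301)) (XT.nd (nat_lit 78) (nat_lit 684) (nat_lit 0) (XT.lf (nat_lit 0) (nat_lit 7048765603) (nat_lit 608) (nat_lit 488568661) (nat_lit 684) (nat_lit 1444132753) (nat_lit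 300) (nat_lit 5) (nat_lit 308) (nat_lit 5) (nat_lit 309) (nat_lit 5) (nat_lit 384) (nat_lit 336) (nat_lit 300)) (XT.lf (nat_lit 0) (nat_lit 3150068217) (nat_lit 684) (nat_lit 1268600389) (nat_lit 76) (nat_lit 4687740606) (nat_lit 291) (nat_lit 5) (nat_lit 300) (nat_lit 5) (nat_lit 292) (nat_lit 5) (nat_lit 385) (nat_lit 336) (nat_lit 299))))) (XT.nd (nat_lit 156) (nat_lit 1672) (nat_lit 0) (XT.nd (nat_lit 78) (nat_lit 1216) (nat_lit 0) (XT.lf (nat_lit 0) (nat_lit 7853756901) (nat_lit 608) (nat_lit 562943772) (nat_lit 76) (nat_lit 818382449) (nat_lit 284) (nat_lit 5) (nat_lit 292) (nat_lit 5) (nat_lit 285) (nat_lit 5) (nat_lit 386) (nat_lit 336) (nat_lit 298)) (XT.lf (nat_lit 0) (nat_lit 153663338) (nat_lit 532) (nat_lit 3149429685) (nat_lit 608) (nat_lit 6063774896) (nat_lit 268) (nat_lit 5) (nat_lit 275) (nat_lit 5) (nat_lit 276) (nat_lit 5) (nat_lit 387) (nat_lit 336) (nat_lit 297))) (XT.nd (nat_lit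 78) (nat_lit 1140) (nat_lit 0) (XT.lf (nat_lit 0) (nat_lit 914078985) (nat_lit 532) (nat_lit 7201596131) (nat_lit 608) (nat_lit 1386620590) (nat_lit 261) (nat_lit 5) (nat_lit 268) (nat_lit 5) (nat_lit 269) (nat_lit 5) (nat_lit 388) (nat_lit 336) (nat_lit 296)) (XT.nd (nat_lit 78) (nat_lit 532) (nat_lit 0) (XT.lf (nat_lit 0) (nat_lit 1691883621) (nat_lit 532) (nat_lit 1704861675) (nat_lit 608) (nat_lit 6244377661) (nat_lit 253) (nat_lit 5) (nat_lit 260) (nat_lit 5) (nat_lit 261) (nat_lit 5) (nat_lit 389) (nat_lit 336) (nat_lit 295)) (XT.lf (nat_lit 0) (nat_lit 2495535460) (nat_lit 532) (nat_lit 5827303855) (nat_lit 608) (nat_lit 1460731082) (nat_lit 246) (nat_lit 5) (nat_lit 253) (nat_lit 5) (nat_lit 254) (nat_lit 5) (nat_lit 390) (nat_lit 336) (nat_lit 294))))))))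
noncomputable def xc43 : XT := (XT.nd (nat_lit 1560) (nat_lit 4864) (nat_lit 0) (XT.nd (nat_lit 780) (nat_lit 3648) (nat_lit 0) (XT.nd (nat_lit 390) (nat_lit 2584) (nat_lit 0) (XT.nd (nat_lit 156) (nat_lit 1520) (nat_lit 0) (XT.nd (nat_lit 78) (nat_lit 532) (nat_lit 0) (XT.lf (nat_lit 0) (nat_lit 3326590169) (nat_lit 456) (nat_lit 100200379) (nat_lit 532) (nat_lit 6502934017) (nat_lit 239) (nat_lit 5) (nat_lit 245) (nat_lit 5) (nat_lit 246) (nat_lit 5) (nat_lit 391) (nat_lit 336) (nat_lit 293)) (XT.lf (nat_lit 0) (nat_lit 4171590411) (nat_lit 532) (nat_lit 4304073846) (nat_lit 608) (nat_lit 1603714550) (nat_lit 232) (nat_lit 5) (nat_lit 239) (nat_lit 5) (nat_lit 240) (nat_lit 5) (nat_lit 392) (nat_lit 336) (nat_lit 292))) (XT.nd (nat_lit 78) (nat_lit 988) (nat_lit 0) (XT.lf (nat_lit 0) (nat_lit 3407722306) (nat_lit 532) (nat_lit 5188239297) (nat_lit 76) (nat_lit 1636906266) (nat_lit 225) (nat_lit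 5) (nat_lit 232) (nat_lit 5) (nat_lit 226) (nat_lit 5) (nat_lit 393) (nat_lit 336) (nat_lit 291)) (XT.nd (nat_lit 78) (nat_lit 532) (nat_lit 0) (XT.lf (nat_lit 0) (nat_lit 5940314231) (nat_lit 456) (nat_lit 2637594233) (nat_lit 532) (nat_lit 1812237240) (nat_lit 219) (nat_lit 5) (nat_lit 225) (nat_lit 5) (nat_lit 226) (nat_lit 5) (nat_lit 394) (nat_lit 336) (nat_lit 290)) (XT.lf (nat_lit 0) (nat_lit 3333753856) (nat_lit 532) (nat_lit 3697595329) (nat_lit 76) (nat_lit 3519824638) (nat_lit 212) (nat_lit 5) (nat_lit 219) (nat_lit 5) (nat_lit 213) (nat_lit 5) (nat_lit 395) (nat_lit 336) (nat_lit 289))))) (XT.nd (nat_lit 156) (nat_lit 1672) (nat_lit 0) (XT.nd (nat_lit 78) (nat_lit 456) (nat_lit 0) (XT.lf (nat_lit 0) (nat_lit 7800177698) (nat_lit 456) (nat_lit 832818634) (nat_lit 532) (nat_lit 2083327018) (nat_lit 206) (nat_lit 5) (nat_lit 212) (nat_lit 5) (nat_lit 213) (nat_lit 5) (nat_lit 396) (nat_lit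 336) (nat_lit 288)) (XT.lf (nat_lit 0) (nat_lit 3207234031) (nat_lit 456) (nat_lit 2132350304) (nat_lit 76) (nat_lit 5545537343) (nat_lit 200) (nat_lit 5) (nat_lit 206) (nat_lit 5) (nat_lit 201) (nat_lit 5) (nat_lit 397) (nat_lit 336) (nat_lit 287))) (XT.nd (nat_lit 78) (nat_lit 1216) (nat_lit 0) (XT.lf (nat_lit 0) (nat_lit 8651222611) (nat_lit 532) (nat_lit 1315542562) (nat_lit 76) (nat_lit 1091483067) (nat_lit 194) (nat_lit 5) (nat_lit 201) (nat_lit 5) (nat_lit 195) (nat_lit 5) (nat_lit 398) (nat_lit 336) (nat_lit 286)) (XT.nd (nat_lit 78) (nat_lit 760) (nat_lit 0) (XT.lf (nat_lit 0) (nat_lit 3030853174) (nat_lit 456) (nat_lit 493963467) (nat_lit 76) (nat_lit 7710389057) (nat_lit 188) (nat_lit 5) (nat_lit 194) (nat_lit 5) (nat_lit 189) (nat_lit 5) (nat_lit 399) (nat_lit 336) (nat_lit 285)) (XT.lf (nat_lit 0) (nat_lit 356276855) (nat_lit 380) (nat_lit 8280522017) (nat_lit 456) (nat_lit 2779602147)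 (nat_lit 178) (nat_lit 5) (nat_lit 183) (nat_lit 5) (nat_lit 184) (nat_lit 5) (nat_lit 400) (nat_lit 336) (nat_lit 284)))))) (XT.nd (nat_lit 390) (nat_lit 1672) (nat_lit 0) (XT.nd (nat_lit 156) (nat_lit 1216) (nat_lit 0) (XT.nd (nat_lit 78) (nat_lit 304) (nat_lit 0) (XT.lf (nat_lit 0) (nat_lit 1232591413) (nat_lit 380) (nat_lit 1582424354) (nat_lit 456) (nat_lit 8786772798) (nat_lit 172) (nat_lit 5) (nat_lit 177) (nat_lit 5) (nat_lit 178) (nat_lit 5) (nat_lit 401) (nat_lit 336) (nat_lit 283)) (XT.lf (nat_lit 0) (nat_lit 2117504325) (nat_lit 304) (nat_lit 6476159332) (nat_lit 380) (nat_lit 3197627511) (nat_lit 168) (nat_lit 5) (nat_lit 172) (nat_lit 5) (nat_lit 173) (nat_lit 5) (nat_lit 402) (nat_lit 336) (nat_lit 282))) (XT.nd (nat_lit 78) (nat_lit 760) (nat_lit 0) (XT.lf (nat_lit 0) (nat_lit 2560686803) (nat_lit 456) (nat_lit 8950804098) (nat_lit 76) (nat_lit 473954450) (nat_lit 162) (nat_lit 5)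 (nat_lit 168) (nat_lit 5) (nat_lit 163) (nat_lit 5) (nat_lit 403) (nat_lit 336) (nat_lit 281)) (XT.nd (nat_lit 78) (nat_lit 456) (nat_lit 0) (XT.lf (nat_lit 0) (nat_lit 3949970248) (nat_lit 304) (nat_lit 4565477921) (nat_lit 380) (nat_lit 3668210448) (nat_lit 158) (nat_lit 5) (nat_lit 162) (nat_lit 5) (nat_lit 163) (nat_lit 5) (nat_lit 404) (nat_lit 336) (nat_lit 280)) (XT.lf (nat_lit 0) (nat_lit 2274391462) (nat_lit 456) (nat_lit 7489658886) (nat_lit 76) (nat_lit 2622614104) (nat_lit 152) (nat_lit 5) (nat_lit 158) (nat_lit 5) (nat_lit 153) (nat_lit 5) (nat_lit 405) (nat_lit 336) (nat_lit 279))))) (XT.nd (nat_lit 156) (nat_lit 988) (nat_lit 0) (XT.nd (nat_lit 78) (nat_lit 380) (nat_lit 0) (XT.lf (nat_lit 0) (nat_lit 5853267790) (nat_lit 304) (nat_lit 2550942714) (nat_lit 380) (nat_lit 4189889509) (nat_lit 148) (nat_lit 5) (nat_lit 152) (nat_lit 5) (nat_lit 153) (nat_lit 5) (nat_lit 406) (nat_lit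 336) (nat_lit 278)) (XT.lf (nat_lit 0) (nat_lit 1947483005) (nat_lit 380) (nat_lit 5976369469) (nat_lit 76) (nat_lit 4882410731) (nat_lit 143) (nat_lit 5) (nat_lit 148) (nat_lit 5) (nat_lit 144) (nat_lit 5) (nat_lit 407) (nat_lit 336) (nat_lit 277))) (XT.nd (nat_lit 78) (nat_lit 684) (nat_lit 0) (XT.lf (nat_lit 0) (nat_lit 7827256163) (nat_lit 304) (nat_lit 434539844) (nat_lit 380) (nat_lit 4761446511) (nat_lit 139) (nat_lit 5) (nat_lit 143) (nat_lit 5) (nat_lit 144) (nat_lit 5) (nat_lit 408) (nat_lit 336) (nat_lit 276)) (XT.nd (nat_lit 78) (nat_lit 304) (nat_lit 0) (XT.lf (nat_lit 0) (nat_lit 1581370843) (nat_lit 380) (nat_lit 4411589997) (nat_lit 76) (nat_lit 7251923489) (nat_lit 134) (nat_lit 5) (nat_lit 139) (nat_lit 5) (nat_lit 135) (nat_lit 5) (nat_lit 409) (nat_lit 336) (nat_lit 275)) (XT.lf (nat_lit 0) (nat_lit 8101422463) (nat_lit 380) (nat_lit 3611267660) (nat_lit 76) (nat_lit 1758823025)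 (nat_lit 130) (nat_lit 5) (nat_lit 135) (nat_lit 5) (nat_lit 131) (nat_lit 5) (nat_lit 410) (nat_lit 336) (nat_lit 274))))))) (XT.nd (nat_lit 780) (nat_lit 1672) (nat_lit 0) (XT.nd (nat_lit 390) (nat_lit 1368) (nat_lit 0) (XT.nd (nat_lit 156) (nat_lit 1216) (nat_lit 0) (XT.nd (nat_lit 78) (nat_lit 228) (nat_lit 0) (XT.lf (nat_lit 0) (nat_lit 1177259211) (nat_lit 380) (nat_lit 2795759304) (nat_lit 76) (nat_lit 9730183697) (nat_lit 125) (nat_lit 5) (nat_lit 130) (nat_lit 5) (nat_lit 126) (nat_lit 5) (nat_lit 411) (nat_lit 336) (nat_lit 273)) (XT.lf (nat_lit 0) (nat_lit 7916444858) (nat_lit 304) (nat_lit 1978906019) (nat_lit 76) (nat_lit 4044413670) (nat_lit 122) (nat_lit 5) (nat_lit 126) (nat_lit 5) (nat_lit 123) (nat_lit 5) (nat_lit 412) (nat_lit 336) (nat_lit 272))) (XT.nd (nat_lit 78) (nat_lit 836) (nat_lit 0) (XT.lf (nat_lit 0) (nat_lit 736158840) (nat_lit 380) (nat_lit 1129112394) (nat_lit 76)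 (nat_lit 12316652523) (nat_lit 117) (nat_lit 5) (nat_lit 122) (nat_lit 5) (nat_lit 118) (nat_lit 5) (nat_lit 413) (nat_lit 336) (nat_lit 271)) (XT.nd (nat_lit 78) (nat_lit 608) (nat_lit 0) (XT.lf (nat_lit 0) (nat_lit 7705323716) (nat_lit 304) (nat_lit 296211901) (nat_lit 76) (nat_lit 6427241140) (nat_lit 114) (nat_lit 5) (nat_lit 118) (nat_lit 5) (nat_lit 115) (nat_lit 5) (nat_lit 414) (nat_lit 336) (nat_lit 270)) (XT.lf (nat_lit 0) (nat_lit 264932414) (nat_lit 304) (nat_lit 14087748871) (nat_lit 76) (nat_lit 328987337) (nat_lit 106) (nat_lit 5) (nat_lit 110) (nat_lit 5) (nat_lit 107) (nat_lit 5) (nat_lit 415) (nat_lit 336) (nat_lit 269))))) (XT.nd (nat_lit 156) (nat_lit 836) (nat_lit 0) (XT.nd (nat_lit 78) (nat_lit 228) (nat_lit 0) (XT.lf (nat_lit 0) (nat_lit 1455964846) (nat_lit 304) (nat_lit 6022668102) (nat_lit 380) (nat_lit 7460485280) (nat_lit 102) (nat_lit 5) (nat_lit 106) (nat_lit 5) (nat_lit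 107) (nat_lit 5) (nat_lit 416) (nat_lit 336) (nat_lit 268)) (XT.lf (nat_lit 0) (nat_lit 2369088072) (nat_lit 228) (nat_lit 12609550334) (nat_lit 304) (nat_lit 224255035) (nat_lit 99) (nat_lit 5) (nat_lit 102) (nat_lit 5) (nat_lit 103) (nat_lit 5) (nat_lit 417) (nat_lit 336) (nat_lit 267))) (XT.nd (nat_lit 78) (nat_lit 532) (nat_lit 0) (XT.lf (nat_lit 0) (nat_lit 3263370903) (nat_lit 228) (nat_lit 3966799817) (nat_lit 304) (nat_lit 8241554093) (nat_lit 95) (nat_lit 5) (nat_lit 98) (nat_lit 5) (nat_lit 99) (nat_lit 5) (nat_lit 418) (nat_lit 336) (nat_lit 266)) (XT.nd (nat_lit 78) (nat_lit 304) (nat_lit 0) (XT.lf (nat_lit 0) (nat_lit 4193591613) (nat_lit 228) (nat_lit 10801664632) (nat_lit 304) (nat_lit 751533759) (nat_lit 92) (nat_lit 5) (nat_lit 95) (nat_lit 5) (nat_lit 96) (nat_lit 5) (nat_lit 419) (nat_lit 336) (nat_lit 265)) (XT.lf (nat_lit 0) (nat_lit 5122477579) (nat_lit 228) (nat_lit 1836340238)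 (nat_lit 304) (nat_lit 9068646060) (nat_lit 88) (nat_lit 5) (nat_lit 91) (nat_lit 5) (nat_lit 92) (nat_lit 5) (nat_lit 420) (nat_lit 336) (nat_lit 264)))))) (XT.nd (nat_lit 390) (nat_lit 456) (nat_lit 0) (XT.nd (nat_lit 156) (nat_lit 684) (nat_lit 0) (XT.nd (nat_lit 78) (nat_lit 304) (nat_lit 0) (XT.lf (nat_lit 0) (nat_lit 6069701263) (nat_lit 228) (nat_lit 8931497716) (nat_lit 304) (nat_lit 1313041047) (nat_lit 85) (nat_lit 5) (nat_lit 88) (nat_lit 5) (nat_lit 89) (nat_lit 5) (nat_lit 421) (nat_lit 336) (nat_lit 263)) (XT.lf (nat_lit 0) (nat_lit 6667663399) (nat_lit 304) (nat_lit 9575736698) (nat_lit 76) (nat_lit 363752997) (nat_lit 81) (nat_lit 5) (nat_lit 85) (nat_lit 5) (nat_lit 82) (nat_lit 5) (nat_lit 422) (nat_lit 336) (nat_lit 262))) (XT.nd (nat_lit 78) (nat_lit 456) (nat_lit 0) (XT.lf (nat_lit 0) (nat_lit 7998069931) (nat_lit 228) (nat_lit 6999474535) (nat_lit 304) (nat_lit 1908583613) (nat_lit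 78) (nat_lit 5) (nat_lit 81) (nat_lit 5) (nat_lit 82) (nat_lit 5) (nat_lit 423) (nat_lit 336) (nat_lit 261)) (XT.nd (nat_lit 78) (nat_lit 152) (nat_lit 0) (XT.lf (nat_lit 0) (nat_lit 6367291378) (nat_lit 304) (nat_lit 8230792555) (nat_lit 76) (nat_lit 2613412155) (nat_lit 74) (nat_lit 5) (nat_lit 78) (nat_lit 5) (nat_lit 75) (nat_lit 5) (nat_lit 424) (nat_lit 336) (nat_lit 260)) (XT.lf (nat_lit 0) (nat_lit 9979504252) (nat_lit 152) (nat_lit 5005762912) (nat_lit 228) (nat_lit 2538110564) (nat_lit 72) (nat_lit 5) (nat_lit 74) (nat_lit 5) (nat_lit 75) (nat_lit 5) (nat_lit 425) (nat_lit 336) (nat_lit 259))))) (XT.nd (nat_lit 46878) (nat_lit 0) (nat_lit 54568) (XT.nd (nat_lit 78) (nat_lit 152) (nat_lit 0) (XT.lf (nat_lit 0) (nat_lit 6046231789) (nat_lit 304) (nat_lit 6858294613) (nat_lit 76) (nat_lit 4937148434) (nat_lit 68) (nat_lit 5) (nat_lit 72) (nat_lit 5) (nat_lit 69) (nat_lit 5) (nat_lit 426) (nat_lit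 336) (nat_lit 258)) (XT.lf (nat_lit 0) (nat_lit 12014959132) (nat_lit 152) (nat_lit 2950285841) (nat_lit 228) (nat_lit 3201707874) (nat_lit 66) (nat_lit 5) (nat_lit 68) (nat_lit 5) (nat_lit 69) (nat_lit 5) (nat_lit 427) (nat_lit 336) (nat_lit 257))) (XT.nd (nat_lit 78) (nat_lit 912) (nat_lit 0) (XT.lf (nat_lit 0) (nat_lit 1254798918) (nat_lit 380) (nat_lit 730487507) (nat_lit 0) (nat_lit 1254798918) (nat_lit 796) (nat_lit 5) (nat_lit 801) (nat_lit 4) (nat_lit 796) (nat_lit 4) (nat_lit 346) (nat_lit 337) (nat_lit 337)) (XT.nd (nat_lit 78) (nat_lit 456) (nat_lit 0) (XT.lf (nat_lit 0) (nat_lit 839265172) (nat_lit 456) (nat_lit 2431006598) (nat_lit 76) (nat_lit 3223993206) (nat_lit 790) (nat_lit 5) (nat_lit 796) (nat_lit 5) (nat_lit 791) (nat_lit 4) (nat_lit 347) (nat_lit 337) (nat_lit 336)) (XT.lf (nat_lit 0) (nat_lit 3169163885) (nat_lit 456) (nat_lit 2425699597) (nat_lit 532) (nat_lit 916285508) (nat_lit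 784) (nat_lit 5) (nat_lit 790) (nat_lit 5) (nat_lit 791) (nat_lit 4) (nat_lit 348) (nat_lit 337) (nat_lit 335))))))))
noncomputable def xc44 : XT := (XT.nd (nat_lit 1482) (nat_lit 16568) (nat_lit 0) (XT.nd (nat_lit 702) (nat_lit 15276) (nat_lit 0) (XT.nd (nat_lit 312) (nat_lit 4028) (nat_lit 0) (XT.nd (nat_lit 156) (nat_lit 1520) (nat_lit 0) (XT.nd (nat_lit 78) (nat_lit 684) (nat_lit 0) (XT.lf (nat_lit 0) (nat_lit 2336285241) (nat_lit 532) (nat_lit 1435891956) (nat_lit 608) (nat_lit 2758655847) (nat_lit 776) (nat_lit 5) (nat_lit 783) (nat_lit 5) (nat_lit 784) (nat_lit 5) (nat_lit 349) (nat_lit 337) (nat_lit 334)) (XT.lf (nat_lit 0) (nat_lit 1569756355) (nat_lit 608) (nat_lit 305421127) (nat_lit 684) (nat_lit 4678263466) (nat_lit 767) (nat_lit 5) (nat_lit 775) (nat_lit 5) (nat_lit 776) (nat_lit 5) (nat_lit 350) (nat_lit 337) (nat_lit 333))) (XT.nd (nat_lit 78) (nat_lit 836) (nat_lit 0) (XT.lf (nat_lit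 0) (nat_lit 862135767) (nat_lit 684) (nat_lit 5624006182) (nat_lit 760) (nat_lit 92708538) (nat_lit 758) (nat_lit 5) (nat_lit 767) (nat_lit 5) (nat_lit 768) (nat_lit 5) (nat_lit 351) (nat_lit 337) (nat_lit 332)) (XT.lf (nat_lit 0) (nat_lit 204034686) (nat_lit 760) (nat_lit 4241610569) (nat_lit 836) (nat_lit 2161256564) (nat_lit 747) (nat_lit 5) (nat_lit 757) (nat_lit 5) (nat_lit 758) (nat_lit 5) (nat_lit 352) (nat_lit 337) (nat_lit 331)))) (XT.nd (nat_lit 156) (nat_lit 3040) (nat_lit 0) (XT.nd (nat_lit 78) (nat_lit 912) (nat_lit 0) (XT.lf (nat_lit 0) (nat_lit 2331071649) (nat_lit 836) (nat_lit 385133575) (nat_lit 76) (nat_lit 3921644162) (nat_lit 746) (nat_lit 5) (nat_lit 757) (nat_lit 5) (nat_lit 747) (nat_lit 5) (nat_lit 353) (nat_lit 337) (nat_lit 330)) (XT.lf (nat_lit 0) (nat_lit 138933294) (nat_lit 912) (nat_lit 908870017) (nat_lit 76) (nat_lit 5623943316) (nat_lit 734) (nat_lit 5) (nat_lit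 746) (nat_lit 5) (nat_lit 735) (nat_lit 5) (nat_lit 354) (nat_lit 337) (nat_lit 329))) (XT.nd (nat_lit 78) (nat_lit 2128) (nat_lit 0) (XT.lf (nat_lit 0) (nat_lit 4551016376) (nat_lit 988) (nat_lit 1389093439) (nat_lit 76) (nat_lit 768151353) (nat_lit 722) (nat_lit 5) (nat_lit 735) (nat_lit 5) (nat_lit 723) (nat_lit 5) (nat_lit 355) (nat_lit 337) (nat_lit 328)) (XT.nd (nat_lit 78) (nat_lit 1064) (nat_lit 0) (XT.lf (nat_lit 0) (nat_lit 2216296629) (nat_lit 1064) (nat_lit 1816003143) (nat_lit 76) (nat_lit 2715315849) (nat_lit 708) (nat_lit 5) (nat_lit 722) (nat_lit 5) (nat_lit 709) (nat_lit 5) (nat_lit 356) (nat_lit 337) (nat_lit 327)) (XT.lf (nat_lit 0) (nat_lit 4606738068) (nat_lit 1064) (nat_lit 1980041489) (nat_lit 1140) (nat_lit 203185090) (nat_lit 694) (nat_lit 5) (nat_lit 708) (nat_lit 5) (nat_lit 709) (nat_lit 5) (nat_lit 357) (nat_lit 337) (nat_lit 326)))))) (XT.nd (nat_lit 390) (nat_lit 8512)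 (nat_lit 0) (XT.nd (nat_lit 156) (nat_lit 4256) (nat_lit 0) (XT.nd (nat_lit 78) (nat_lit 1292) (nat_lit 0) (XT.lf (nat_lit 0) (nat_lit 4099057002) (nat_lit 1216) (nat_lit 2506051853) (nat_lit 76) (nat_lit 229921457) (nat_lit 678) (nat_lit 5) (nat_lit 694) (nat_lit 5) (nat_lit 679) (nat_lit 5) (nat_lit 358) (nat_lit 337) (nat_lit 325)) (XT.lf (nat_lit 0) (nat_lit 1540533167) (nat_lit 1292) (nat_lit 2782105523) (nat_lit 76) (nat_lit 2560249866) (nat_lit 661) (nat_lit 5) (nat_lit 678) (nat_lit 5) (nat_lit 662) (nat_lit 5) (nat_lit 359) (nat_lit 337) (nat_lit 324))) (XT.nd (nat_lit 78) (nat_lit 2964) (nat_lit 0) (XT.lf (nat_lit 0) (nat_lit 3928043041) (nat_lit 1292) (nat_lit 1886991281) (nat_lit 1368) (nat_lit 1118649117) (nat_lit 644) (nat_lit 5) (nat_lit 661) (nat_lit 5) (nat_lit 662) (nat_lit 5) (nat_lit 360) (nat_lit 337) (nat_lit 323)) (XT.nd (nat_lit 78) (nat_lit 1520) (nat_lit 0) (XT.lf (nat_lit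 0) (nat_lit 3104095574) (nat_lit 1444) (nat_lit 3184480192) (nat_lit 76) (nat_lit 698712498) (nat_lit 625) (nat_lit 5) (nat_lit 644) (nat_lit 5) (nat_lit 626) (nat_lit 5) (nat_lit 361) (nat_lit 337) (nat_lit 322)) (XT.lf (nat_lit 0) (nat_lit 317422590) (nat_lit 1520) (nat_lit 3316847034) (nat_lit 76) (nat_lit 3409499412) (nat_lit 605) (nat_lit 5) (nat_lit 625) (nat_lit 5) (nat_lit 606) (nat_lit 5) (nat_lit 362) (nat_lit 337) (nat_lit 321))))) (XT.nd (nat_lit 156) (nat_lit 5320) (nat_lit 0) (XT.nd (nat_lit 78) (nat_lit 1672) (nat_lit 0) (XT.lf (nat_lit 0) (nat_lit 3696078944) (nat_lit 1520) (nat_lit 813171077) (nat_lit 1596) (nat_lit 2593821834) (nat_lit 585) (nat_lit 5) (nat_lit 605) (nat_lit 5) (nat_lit 606) (nat_lit 5) (nat_lit 363) (nat_lit 337) (nat_lit 320)) (XT.lf (nat_lit 0) (nat_lit 1575833736) (nat_lit 1672) (nat_lit 3454414234) (nat_lit 76) (nat_lit 2134990652) (nat_lit 563) (nat_lit 5)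 (nat_lit 585) (nat_lit 5) (nat_lit 564) (nat_lit 5) (nat_lit 364) (nat_lit 337) (nat_lit 319))) (XT.nd (nat_lit 78) (nat_lit 3648) (nat_lit 0) (XT.lf (nat_lit 0) (nat_lit 3772002747) (nat_lit 1672) (nat_lit 1993820684) (nat_lit 1748) (nat_lit 1464494371) (nat_lit 541) (nat_lit 5) (nat_lit 563) (nat_lit 5) (nat_lit 564) (nat_lit 5) (nat_lit 365) (nat_lit 337) (nat_lit 318)) (XT.nd (nat_lit 78) (nat_lit 1824) (nat_lit 0) (XT.lf (nat_lit 0) (nat_lit 2683443653) (nat_lit 1824) (nat_lit 3422232416) (nat_lit 76) (nat_lit 1192595856) (nat_lit 517) (nat_lit 5) (nat_lit 541) (nat_lit 5) (nat_lit 518) (nat_lit 5) (nat_lit 366) (nat_lit 337) (nat_lit 317)) (XT.lf (nat_lit 0) (nat_lit 4024643495) (nat_lit 1824) (nat_lit 2856440907) (nat_lit 1900) (nat_lit 488083437) (nat_lit 493) (nat_lit 5) (nat_lit 517) (nat_lit 5) (nat_lit 518) (nat_lit 5) (nat_lit 367) (nat_lit 337) (nat_lit 316))))))) (XT.nd (nat_lit 780)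 (nat_lit 7448) (nat_lit 0) (XT.nd (nat_lit 390) (nat_lit 4180) (nat_lit 0) (XT.nd (nat_lit 156) (nat_lit 2736) (nat_lit 0) (XT.nd (nat_lit 78) (nat_lit 988) (nat_lit 0) (XT.lf (nat_lit 0) (nat_lit 3651461655) (nat_lit 1216) (nat_lit 3230446341) (nat_lit 76) (nat_lit 561027200) (nat_lit 477) (nat_lit 5) (nat_lit 493) (nat_lit 5) (nat_lit 478) (nat_lit 5) (nat_lit 368) (nat_lit 337) (nat_lit 315)) (XT.lf (nat_lit 0) (nat_lit 341715361) (nat_lit 988) (nat_lit 3077568071) (nat_lit 76) (nat_lit 4100374700) (nat_lit 464) (nat_lit 5) (nat_lit 477) (nat_lit 5) (nat_lit 465) (nat_lit 5) (nat_lit 369) (nat_lit 337) (nat_lit 314))) (XT.nd (nat_lit 78) (nat_lit 1824) (nat_lit 0) (XT.lf (nat_lit 0) (nat_lit 4490191126) (nat_lit 988) (nat_lit 2888263747) (nat_lit 76) (nat_lit 220870602) (nat_lit 452) (nat_lit 5) (nat_lit 465) (nat_lit 5) (nat_lit 453) (nat_lit 5) (nat_lit 370) (nat_lit 337) (nat_lit 313)) (XT.nd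 (nat_lit 78) (nat_lit 912) (nat_lit 0) (XT.lf (nat_lit 0) (nat_lit 1034721736) (nat_lit 912) (nat_lit 2666302047) (nat_lit 76) (nat_lit 3980875177) (nat_lit 440) (nat_lit 5) (nat_lit 452) (nat_lit 5) (nat_lit 441) (nat_lit 5) (nat_lit 371) (nat_lit 337) (nat_lit 312)) (XT.lf (nat_lit 0) (nat_lit 5209096720) (nat_lit 988) (nat_lit 2404021346) (nat_lit 76) (nat_lit 154451670) (nat_lit 428) (nat_lit 5) (nat_lit 441) (nat_lit 5) (nat_lit 429) (nat_lit 5) (nat_lit 372) (nat_lit 337) (nat_lit 311))))) (XT.nd (nat_lit 156) (nat_lit 2432) (nat_lit 0) (XT.nd (nat_lit 78) (nat_lit 836) (nat_lit 0) (XT.lf (nat_lit 0) (nat_lit 1606331582) (nat_lit 912) (nat_lit 2115566493) (nat_lit 76) (nat_lit 4134195585) (nat_lit 416) (nat_lit 5) (nat_lit 428) (nat_lit 5) (nat_lit 417) (nat_lit 5) (nat_lit 373) (nat_lit 337) (nat_lit 310)) (XT.lf (nat_lit 0) (nat_lit 5816866369) (nat_lit 912) (nat_lit 1785245605) (nat_lit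 76) (nat_lit 345712182) (nat_lit 405) (nat_lit 5) (nat_lit 417) (nat_lit 5) (nat_lit 406) (nat_lit 5) (nat_lit 374) (nat_lit 337) (nat_lit 309))) (XT.nd (nat_lit 78) (nat_lit 1596) (nat_lit 0) (XT.lf (nat_lit 0) (nat_lit 2064777475) (nat_lit 836) (nat_lit 1432581281) (nat_lit 76) (nat_lit 4545052470) (nat_lit 394) (nat_lit 5) (nat_lit 405) (nat_lit 5) (nat_lit 395) (nat_lit 5) (nat_lit 375) (nat_lit 337) (nat_lit 308)) (XT.nd (nat_lit 78) (nat_lit 836) (nat_lit 0) (XT.lf (nat_lit 0) (nat_lit 6321468499) (nat_lit 836) (nat_lit 1038708690) (nat_lit 76) (nat_lit 780096307) (nat_lit 384) (nat_lit 5) (nat_lit 395) (nat_lit 5) (nat_lit 385) (nat_lit 5) (nat_lit 376) (nat_lit 337) (nat_lit 307)) (XT.lf (nat_lit 0) (nat_lit 2417585207) (nat_lit 836) (nat_lit 623831172) (nat_lit 76) (nat_lit 5199632738) (nat_lit 373) (nat_lit 5) (nat_lit 384) (nat_lit 5) (nat_lit 374) (nat_lit 5) (nat_lit 377) (nat_lit 337)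 (nat_lit 306)))))) (XT.nd (nat_lit 390) (nat_lit 3192) (nat_lit 0) (XT.nd (nat_lit 156) (nat_lit 2052) (nat_lit 0) (XT.nd (nat_lit 78) (nat_lit 1444) (nat_lit 0) (XT.lf (nat_lit 0) (nat_lit 6730204819) (nat_lit 836) (nat_lit 170479927) (nat_lit 76) (nat_lit 1444445852) (nat_lit 363) (nat_lit 5) (nat_lit 374) (nat_lit 5) (nat_lit 364) (nat_lit 5) (nat_lit 378) (nat_lit 337) (nat_lit 305)) (XT.lf (nat_lit 0) (nat_lit 308936084) (nat_lit 684) (nat_lit 2364694427) (nat_lit 760) (nat_lit 5778562158) (nat_lit 344) (nat_lit 5) (nat_lit 353) (nat_lit 5) (nat_lit 354) (nat_lit 5) (nat_lit 379) (nat_lit 337) (nat_lit 304))) (XT.nd (nat_lit 78) (nat_lit 1368) (nat_lit 0) (XT.lf (nat_lit 0) (nat_lit 824844855) (nat_lit 684) (nat_lit 6230269581) (nat_lit 760) (nat_lit 1507414443) (nat_lit 335) (nat_lit 5) (nat_lit 344) (nat_lit 5) (nat_lit 345) (nat_lit 5) (nat_lit 380) (nat_lit 337) (nat_lit 303)) (XT.nd (nat_lit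 78) (nat_lit 608) (nat_lit 0) (XT.lf (nat_lit 0) (nat_lit 1366324760) (nat_lit 684) (nat_lit 1475703221) (nat_lit 760) (nat_lit 5834009923) (nat_lit 325) (nat_lit 5) (nat_lit 334) (nat_lit 5) (nat_lit 335) (nat_lit 5) (nat_lit 381) (nat_lit 337) (nat_lit 302)) (XT.lf (nat_lit 0) (nat_lit 1935392933) (nat_lit 608) (nat_lit 5363414468) (nat_lit 684) (nat_lit 1493998848) (nat_lit 317) (nat_lit 5) (nat_lit 325) (nat_lit 5) (nat_lit 326) (nat_lit 5) (nat_lit 382) (nat_lit 337) (nat_lit 301))))) (XT.nd (nat_lit 156) (nat_lit 1900) (nat_lit 0) (XT.nd (nat_lit 78) (nat_lit 608) (nat_lit 0) (XT.lf (nat_lit 0) (nat_lit 2535421105) (nat_lit 608) (nat_lit 388917564) (nat_lit 684) (nat_lit 5988609310) (nat_lit 308) (nat_lit 5) (nat_lit 316) (nat_lit 5) (nat_lit 317) (nat_lit 5) (nat_lit 383) (nat_lit 337) (nat_lit 300)) (XT.lf (nat_lit 0) (nat_lit 3154612826) (nat_lit 608) (nat_lit 4311100221) (nat_lit 684) (nat_lit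 1570567722) (nat_lit 300) (nat_lit 5) (nat_lit 308) (nat_lit 5) (nat_lit 309) (nat_lit 5) (nat_lit 384) (nat_lit 337) (nat_lit 299))) (XT.nd (nat_lit 78) (nat_lit 1216) (nat_lit 0) (XT.lf (nat_lit 0) (nat_lit 2931461014) (nat_lit 684) (nat_lit 5356818716) (nat_lit 76) (nat_lit 874836259) (nat_lit 291) (nat_lit 5) (nat_lit 300) (nat_lit 5) (nat_lit 292) (nat_lit 5) (nat_lit 385) (nat_lit 337) (nat_lit 298)) (XT.nd (nat_lit 78) (nat_lit 684) (nat_lit 0) (XT.lf (nat_lit 0) (nat_lit 4478761222) (nat_lit 532) (nat_lit 3082130935) (nat_lit 608) (nat_lit 1732382893) (nat_lit 284) (nat_lit 5) (nat_lit 291) (nat_lit 5) (nat_lit 292) (nat_lit 5) (nat_lit 386) (nat_lit 337) (nat_lit 297)) (XT.lf (nat_lit 0) (nat_lit 2865993035) (nat_lit 684) (nat_lit 4249391892) (nat_lit 76) (nat_lit 2311533455) (nat_lit 275) (nat_lit 5) (nat_lit 284) (nat_lit 5) (nat_lit 276) (nat_lit 5) (nat_lit 387) (nat_lit 337) (nat_lit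 296))))))))
noncomputable def xc45 : XT := (XT.nd (nat_lit 1482) (nat_lit 6080) (nat_lit 0) (XT.nd (nat_lit 702) (nat_lit 4104) (nat_lit 0) (XT.nd (nat_lit 312) (nat_lit 2964) (nat_lit 0) (XT.nd (nat_lit 156) (nat_lit 1140) (nat_lit 0) (XT.nd (nat_lit 78) (nat_lit 608) (nat_lit 0) (XT.lf (nat_lit 0) (nat_lit 5904603376) (nat_lit 532) (nat_lit 1684346919) (nat_lit 608) (nat_lit 1975188371) (nat_lit 268) (nat_lit 5) (nat_lit 275) (nat_lit 5) (nat_lit 276) (nat_lit 5) (nat_lit 388) (nat_lit 337) (nat_lit 295)) (XT.lf (nat_lit 0) (nat_lit 2729567326) (nat_lit 608) (nat_lit 3056066326) (nat_lit 76) (nat_lit 3919135280) (nat_lit 260) (nat_lit 5) (nat_lit 268) (nat_lit 5) (nat_lit 261) (nat_lit 5) (nat_lit 389) (nat_lit 337) (nat_lit 294))) (XT.nd (nat_lit 78) (nat_lit 608) (nat_lit 0) (XT.lf (nat_lit 0) (nat_lit 7429381947) (nat_lit 532) (nat_lit 124687986) (nat_lit 608) (nat_lit 2295178268) (nat_lit 253)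 (nat_lit 5) (nat_lit 260) (nat_lit 5) (nat_lit 261) (nat_lit 5) (nat_lit 390) (nat_lit 337) (nat_lit 293)) (XT.lf (nat_lit 0) (nat_lit 2525925750) (nat_lit 608) (nat_lit 1779752750) (nat_lit 76) (nat_lit 5691379454) (nat_lit 245) (nat_lit 5) (nat_lit 253) (nat_lit 5) (nat_lit 246) (nat_lit 5) (nat_lit 391) (nat_lit 337) (nat_lit 292)))) (XT.nd (nat_lit 156) (nat_lit 1900) (nat_lit 0) (XT.nd (nat_lit 78) (nat_lit 608) (nat_lit 0) (XT.lf (nat_lit 0) (nat_lit 7470368228) (nat_lit 532) (nat_lit 1108547070) (nat_lit 76) (nat_lit 1569885524) (nat_lit 239) (nat_lit 5) (nat_lit 246) (nat_lit 5) (nat_lit 240) (nat_lit 5) (nat_lit 392) (nat_lit 337) (nat_lit 291)) (XT.lf (nat_lit 0) (nat_lit 2258422245) (nat_lit 608) (nat_lit 422954908) (nat_lit 76) (nat_lit 7622825829) (nat_lit 231) (nat_lit 5) (nat_lit 239) (nat_lit 5) (nat_lit 232) (nat_lit 5) (nat_lit 393) (nat_lit 337) (nat_lit 290))) (XT.nd (nat_lit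 78) (nat_lit 988) (nat_lit 0) (XT.lf (nat_lit 0) (nat_lit 284376984) (nat_lit 456) (nat_lit 7050195531) (nat_lit 532) (nat_lit 3128789019) (nat_lit 219) (nat_lit 5) (nat_lit 225) (nat_lit 5) (nat_lit 226) (nat_lit 5) (nat_lit 394) (nat_lit 337) (nat_lit 289)) (XT.nd (nat_lit 78) (nat_lit 456) (nat_lit 0) (XT.lf (nat_lit 0) (nat_lit 1025657099) (nat_lit 456) (nat_lit 911050598) (nat_lit 532) (nat_lit 8689808139) (nat_lit 212) (nat_lit 5) (nat_lit 218) (nat_lit 5) (nat_lit 219) (nat_lit 5) (nat_lit 395) (nat_lit 337) (nat_lit 288)) (XT.lf (nat_lit 0) (nat_lit 1769822605) (nat_lit 456) (nat_lit 5385054124) (nat_lit 532) (nat_lit 3638410104) (nat_lit 206) (nat_lit 5) (nat_lit 212) (nat_lit 5) (nat_lit 213) (nat_lit 5) (nat_lit 396) (nat_lit 337) (nat_lit 287)))))) (XT.nd (nat_lit 390) (nat_lit 1900) (nat_lit 0) (XT.nd (nat_lit 156) (nat_lit 1292) (nat_lit 0) (XT.nd (nat_lit 78) (nat_lit 456) (nat_lit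 0) (XT.lf (nat_lit 0) (nat_lit 1566538334) (nat_lit 456) (nat_lit 8413505129) (nat_lit 76) (nat_lit 984363786) (nat_lit 200) (nat_lit 5) (nat_lit 206) (nat_lit 5) (nat_lit 201) (nat_lit 5) (nat_lit 397) (nat_lit 337) (nat_lit 286)) (XT.lf (nat_lit 0) (nat_lit 3331466531) (nat_lit 456) (nat_lit 3595248859) (nat_lit 532) (nat_lit 4212494651) (nat_lit 194) (nat_lit 5) (nat_lit 200) (nat_lit 5) (nat_lit 201) (nat_lit 5) (nat_lit 398) (nat_lit 337) (nat_lit 285))) (XT.nd (nat_lit 78) (nat_lit 836) (nat_lit 0) (XT.lf (nat_lit 0) (nat_lit 1147751035) (nat_lit 456) (nat_lit 7173011454) (nat_lit 76) (nat_lit 2997665699) (nat_lit 188) (nat_lit 5) (nat_lit 194) (nat_lit 5) (nat_lit 189) (nat_lit 5) (nat_lit 399) (nat_lit 337) (nat_lit 284)) (XT.nd (nat_lit 78) (nat_lit 456) (nat_lit 0) (XT.lf (nat_lit 0) (nat_lit 4968047115) (nat_lit 380) (nat_lit 1684478163) (nat_lit 456) (nat_lit 4849121660) (nat_lit 183)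 (nat_lit 5) (nat_lit 188) (nat_lit 5) (nat_lit 189) (nat_lit 5) (nat_lit 400) (nat_lit 337) (nat_lit 283)) (XT.lf (nat_lit 0) (nat_lit 676440991) (nat_lit 456) (nat_lit 5875092024) (nat_lit 76) (nat_lit 5137694152) (nat_lit 177) (nat_lit 5) (nat_lit 183) (nat_lit 5) (nat_lit 178) (nat_lit 5) (nat_lit 401) (nat_lit 337) (nat_lit 282))))) (XT.nd (nat_lit 156) (nat_lit 1140) (nat_lit 0) (XT.nd (nat_lit 78) (nat_lit 380) (nat_lit 0) (XT.lf (nat_lit 0) (nat_lit 6336705743) (nat_lit 456) (nat_lit 5204762467) (nat_lit 76) (nat_lit 339629223) (nat_lit 172) (nat_lit 5) (nat_lit 178) (nat_lit 5) (nat_lit 173) (nat_lit 5) (nat_lit 402) (nat_lit 337) (nat_lit 281)) (XT.lf (nat_lit 0) (nat_lit 154344790) (nat_lit 380) (nat_lit 4521103493) (nat_lit 76) (nat_lit 7401915189) (nat_lit 167) (nat_lit 5) (nat_lit 172) (nat_lit 5) (nat_lit 168) (nat_lit 5) (nat_lit 403) (nat_lit 337) (nat_lit 280))) (XT.nd (nat_lit 78)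 (nat_lit 760) (nat_lit 0) (XT.lf (nat_lit 0) (nat_lit 5990618141) (nat_lit 456) (nat_lit 3831911848) (nat_lit 76) (nat_lit 2455416508) (nat_lit 162) (nat_lit 5) (nat_lit 168) (nat_lit 5) (nat_lit 163) (nat_lit 5) (nat_lit 404) (nat_lit 337) (nat_lit 279)) (XT.nd (nat_lit 78) (nat_lit 456) (nat_lit 0) (XT.lf (nat_lit 0) (nat_lit 9368481298) (nat_lit 304) (nat_lit 2692288823) (nat_lit 380) (nat_lit 422601084) (nat_lit 158) (nat_lit 5) (nat_lit 162) (nat_lit 5) (nat_lit 163) (nat_lit 5) (nat_lit 405) (nat_lit 337) (nat_lit 278)) (XT.lf (nat_lit 0) (nat_lit 5604984427) (nat_lit 456) (nat_lit 2405077863) (nat_lit 76) (nat_lit 4682954871) (nat_lit 152) (nat_lit 5) (nat_lit 158) (nat_lit 5) (nat_lit 153) (nat_lit 5) (nat_lit 406) (nat_lit 337) (nat_lit 277))))))) (XT.nd (nat_lit 780) (nat_lit 2584) (nat_lit 0) (XT.nd (nat_lit 390) (nat_lit 1520) (nat_lit 0) (XT.nd (nat_lit 156) (nat_lit 1292) (nat_lit 0)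 (XT.nd (nat_lit 78) (nat_lit 380) (nat_lit 0) (XT.lf (nat_lit 0) (nat_lit 11252000002) (nat_lit 304) (nat_lit 605589860) (nat_lit 380) (nat_lit 1050308090) (nat_lit 148) (nat_lit 5) (nat_lit 152) (nat_lit 5) (nat_lit 153) (nat_lit 5) (nat_lit 407) (nat_lit 337) (nat_lit 276)) (XT.lf (nat_lit 0) (nat_lit 5181242532) (nat_lit 380) (nat_lit 924995076) (nat_lit 76) (nat_lit 7020706792) (nat_lit 143) (nat_lit 5) (nat_lit 148) (nat_lit 5) (nat_lit 144) (nat_lit 5) (nat_lit 408) (nat_lit 337) (nat_lit 275))) (XT.nd (nat_lit 78) (nat_lit 988) (nat_lit 0) (XT.lf (nat_lit 0) (nat_lit 11636180601) (nat_lit 380) (nat_lit 154007802) (nat_lit 76) (nat_lit 1561220777) (nat_lit 139) (nat_lit 5) (nat_lit 144) (nat_lit 5) (nat_lit 140) (nat_lit 5) (nat_lit 409) (nat_lit 337) (nat_lit 274)) (XT.nd (nat_lit 78) (nat_lit 304) (nat_lit 0) (XT.lf (nat_lit 0) (nat_lit 615898719) (nat_lit 304) (nat_lit 4108722826) (nat_lit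 380) (nat_lit 8855693122) (nat_lit 130) (nat_lit 5) (nat_lit 134) (nat_lit 5) (nat_lit 135) (nat_lit 5) (nat_lit 410) (nat_lit 337) (nat_lit 273)) (XT.lf (nat_lit 0) (nat_lit 1414615232) (nat_lit 304) (nat_lit 9986901428) (nat_lit 380) (nat_lit 2413000852) (nat_lit 126) (nat_lit 5) (nat_lit 130) (nat_lit 5) (nat_lit 131) (nat_lit 5) (nat_lit 411) (nat_lit 337) (nat_lit 272))))) (XT.nd (nat_lit 156) (nat_lit 912) (nat_lit 0) (XT.nd (nat_lit 78) (nat_lit 304) (nat_lit 0) (XT.lf (nat_lit 0) (nat_lit 2222207265) (nat_lit 228) (nat_lit 2016380337) (nat_lit 304) (nat_lit 9815190463) (nat_lit 122) (nat_lit 5) (nat_lit 125) (nat_lit 5) (nat_lit 126) (nat_lit 5) (nat_lit 412) (nat_lit 337) (nat_lit 271)) (XT.lf (nat_lit 0) (nat_lit 3037883887) (nat_lit 304) (nat_lit 8105252723) (nat_lit 380) (nat_lit 3155036904) (nat_lit 118) (nat_lit 5) (nat_lit 122) (nat_lit 5) (nat_lit 123) (nat_lit 5) (nat_lit 413) (nat_lit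 337) (nat_lit 270))) (XT.nd (nat_lit 78) (nat_lit 608) (nat_lit 0) (XT.lf (nat_lit 0) (nat_lit 3718966522) (nat_lit 304) (nat_lit 10667725574) (nat_lit 76) (nat_lit 161474916) (nat_lit 114) (nat_lit 5) (nat_lit 118) (nat_lit 5) (nat_lit 115) (nat_lit 5) (nat_lit 414) (nat_lit 337) (nat_lit 269)) (XT.nd (nat_lit 78) (nat_lit 304) (nat_lit 0) (XT.lf (nat_lit 0) (nat_lit 4713738406) (nat_lit 304) (nat_lit 6147426149) (nat_lit 380) (nat_lit 3941981882) (nat_lit 110) (nat_lit 5) (nat_lit 114) (nat_lit 5) (nat_lit 115) (nat_lit 5) (nat_lit 415) (nat_lit 337) (nat_lit 268)) (XT.lf (nat_lit 0) (nat_lit 3179028112) (nat_lit 304) (nat_lit 9486164355) (nat_lit 76) (nat_lit 2398803260) (nat_lit 106) (nat_lit 5) (nat_lit 110) (nat_lit 5) (nat_lit 107) (nat_lit 5) (nat_lit 416) (nat_lit 337) (nat_lit 267)))))) (XT.nd (nat_lit 390) (nat_lit 1216) (nat_lit 0) (XT.nd (nat_lit 156) (nat_lit 760) (nat_lit 0) (XT.nd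 (nat_lit 78) (nat_lit 304) (nat_lit 0) (XT.lf (nat_lit 0) (nat_lit 6442348821) (nat_lit 304) (nat_lit 4114237080) (nat_lit 380) (nat_lit 4773633993) (nat_lit 102) (nat_lit 5) (nat_lit 106) (nat_lit 5) (nat_lit 107) (nat_lit 5) (nat_lit 417) (nat_lit 337) (nat_lit 266)) (XT.lf (nat_lit 0) (nat_lit 2606189351) (nat_lit 304) (nat_lit 8274337941) (nat_lit 76) (nat_lit 4721800093) (nat_lit 98) (nat_lit 5) (nat_lit 102) (nat_lit 5) (nat_lit 99) (nat_lit 5) (nat_lit 418) (nat_lit 337) (nat_lit 265))) (XT.nd (nat_lit 78) (nat_lit 532) (nat_lit 0) (XT.lf (nat_lit 0) (nat_lit 8224059918) (nat_lit 228) (nat_lit 2006183182) (nat_lit 304) (nat_lit 5649970112) (nat_lit 95) (nat_lit 5) (nat_lit 98) (nat_lit 5) (nat_lit 99) (nat_lit 5) (nat_lit 419) (nat_lit 337) (nat_lit 264)) (XT.nd (nat_lit 78) (nat_lit 228) (nat_lit 0) (XT.lf (nat_lit 0) (nat_lit 2000804103) (nat_lit 304) (nat_lit 7032654688) (nat_lit 76) (nat_lit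 7130540796) (nat_lit 91) (nat_lit 5) (nat_lit 95) (nat_lit 5) (nat_lit 92) (nat_lit 5) (nat_lit 420) (nat_lit 337) (nat_lit 263)) (XT.lf (nat_lit 0) (nat_lit 9883989996) (nat_lit 304) (nat_lit 6395745078) (nat_lit 76) (nat_lit 174224567) (nat_lit 88) (nat_lit 5) (nat_lit 92) (nat_lit 5) (nat_lit 89) (nat_lit 5) (nat_lit 421) (nat_lit 337) (nat_lit 262))))) (XT.nd (nat_lit 156) (nat_lit 684) (nat_lit 0) (XT.nd (nat_lit 78) (nat_lit 228) (nat_lit 0) (XT.lf (nat_lit 0) (nat_lit 1363078509) (nat_lit 304) (nat_lit 5761397121) (nat_lit 76) (nat_lit 9625411747) (nat_lit 84) (nat_lit 5) (nat_lit 88) (nat_lit 5) (nat_lit 85) (nat_lit 5) (nat_lit 422) (nat_lit 337) (nat_lit 261)) (XT.lf (nat_lit 0) (nat_lit 9530771433) (nat_lit 304) (nat_lit 5119232834) (nat_lit 76) (nat_lit 2402101857) (nat_lit 81) (nat_lit 5) (nat_lit 85) (nat_lit 5) (nat_lit 82) (nat_lit 5) (nat_lit 423) (nat_lit 337) (nat_lit 260))) (XT.nd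 (nat_lit 78) (nat_lit 380) (nat_lit 0) (XT.lf (nat_lit 0) (nat_lit 693077301) (nat_lit 304) (nat_lit 4460729521) (nat_lit 76) (nat_lit 12207097649) (nat_lit 77) (nat_lit 5) (nat_lit 81) (nat_lit 5) (nat_lit 78) (nat_lit 5) (nat_lit 424) (nat_lit 337) (nat_lit 259)) (XT.nd (nat_lit 78) (nat_lit 152) (nat_lit 0) (XT.lf (nat_lit 0) (nat_lit 9158023751) (nat_lit 304) (nat_lit 3813700109) (nat_lit 76) (nat_lit 4704122839) (nat_lit 74) (nat_lit 5) (nat_lit 78) (nat_lit 5) (nat_lit 75) (nat_lit 5) (nat_lit 425) (nat_lit 337) (nat_lit 258)) (XT.lf (nat_lit 0) (nat_lit 14867237480) (nat_lit 152) (nat_lit 3121372115) (nat_lit 228) (nat_lit 9393776) (nat_lit 72) (nat_lit 5) (nat_lit 74) (nat_lit 5) (nat_lit 75) (nat_lit 5) (nat_lit 426) (nat_lit 337) (nat_lit 257))))))))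
noncomputable def xc46 : XT := (XT.nd (nat_lit 48048) (nat_lit 0) (nat_lit 20216) (XT.nd (nat_lit 47268) (nat_lit 0) (nat_lit 42332) (XT.nd (nat_lit 46878) (nat_lit 0) (nat_lit 52364) (XT.nd (nat_lit 46722) (nat_lit 0) (nat_lit 55252) (XT.nd (nat_lit 46644) (nat_lit 0) (nat_lit 55708) (XT.lf (nat_lit 0) (nat_lit 8766095727) (nat_lit 304) (nat_lit 2479149203) (nat_lit 76) (nat_lit 7080910611) (nat_lit 68) (nat_lit 5) (nat_lit 72) (nat_lit 5) (nat_lit 69) (nat_lit 5) (nat_lit 427) (nat_lit 337) (nat_lit 256)) (XT.lf (nat_lit 0) (nat_lit 376509588) (nat_lit 228) (nat_lit 1426516804) (nat_lit 228) (nat_lit 1426516804) (nat_lit 801) (nat_lit 4) (nat_lit 804) (nat_lit 5) (nat_lit 804) (nat_lit 4) (nat_lit 344) (nat_lit 338) (nat_lit 338))) (XT.nd (nat_lit 78) (nat_lit 380) (nat_lit 0) (XT.lf (nat_lit 0) (nat_lit 1935553987) (nat_lit 304) (nat_lit 425295096) (nat_lit 76) (nat_lit 4108126426) (nat_lit 800)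 (nat_lit 5) (nat_lit 804) (nat_lit 5) (nat_lit 801) (nat_lit 4) (nat_lit 345) (nat_lit 338) (nat_lit 337)) (XT.lf (nat_lit 0) (nat_lit 198505109) (nat_lit 380) (nat_lit 1527617638) (nat_lit 76) (nat_lit 4755558996) (nat_lit 795) (nat_lit 5) (nat_lit 800) (nat_lit 5) (nat_lit 796) (nat_lit 5) (nat_lit 346) (nat_lit 338) (nat_lit 336)))) (XT.nd (nat_lit 156) (nat_lit 1976) (nat_lit 0) (XT.nd (nat_lit 78) (nat_lit 532) (nat_lit 0) (XT.lf (nat_lit 0) (nat_lit 3921965550) (nat_lit 380) (nat_lit 942349170) (nat_lit 456) (nat_lit 1632784793) (nat_lit 790) (nat_lit 5) (nat_lit 795) (nat_lit 5) (nat_lit 796) (nat_lit 5) (nat_lit 347) (nat_lit 338) (nat_lit 335)) (XT.lf (nat_lit 0) (nat_lit 2955742302) (nat_lit 456) (nat_lit 17682626) (nat_lit 532) (nat_lit 3541990678) (nat_lit 783) (nat_lit 5) (nat_lit 789) (nat_lit 5) (nat_lit 790) (nat_lit 5) (nat_lit 348) (nat_lit 338) (nat_lit 334))) (XT.nd (nat_lit 78)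 (nat_lit 1368) (nat_lit 0) (XT.lf (nat_lit 0) (nat_lit 1015433811) (nat_lit 608) (nat_lit 4487304086) (nat_lit 76) (nat_lit 1033794688) (nat_lit 775) (nat_lit 5) (nat_lit 783) (nat_lit 5) (nat_lit 776) (nat_lit 5) (nat_lit 349) (nat_lit 338) (nat_lit 333)) (XT.nd (nat_lit 78) (nat_lit 760) (nat_lit 0) (XT.lf (nat_lit 0) (nat_lit 1200994600) (nat_lit 608) (nat_lit 4328884370) (nat_lit 684) (nat_lit 1030567456) (nat_lit 767) (nat_lit 5) (nat_lit 775) (nat_lit 5) (nat_lit 776) (nat_lit 5) (nat_lit 350) (nat_lit 338) (nat_lit 332)) (XT.lf (nat_lit 0) (nat_lit 410235750) (nat_lit 684) (nat_lit 3009548020) (nat_lit 760) (nat_lit 3167382155) (nat_lit 757) (nat_lit 5) (nat_lit 766) (nat_lit 5) (nat_lit 767) (nat_lit 5) (nat_lit 351) (nat_lit 338) (nat_lit 331)))))) (XT.nd (nat_lit 390) (nat_lit 6308) (nat_lit 0) (XT.nd (nat_lit 156) (nat_lit 2888) (nat_lit 0) (XT.nd (nat_lit 78) (nat_lit 760) (nat_lit 0)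 (XT.lf (nat_lit 0) (nat_lit 1235584971) (nat_lit 760) (nat_lit 312441090) (nat_lit 76) (nat_lit 5068775625) (nat_lit 756) (nat_lit 5) (nat_lit 766) (nat_lit 5) (nat_lit 757) (nat_lit 5) (nat_lit 352) (nat_lit 338) (nat_lit 330)) (XT.lf (nat_lit 0) (nat_lit 5611658795) (nat_lit 836) (nat_lit 974085749) (nat_lit 76) (nat_lit 63482246) (nat_lit 746) (nat_lit 5) (nat_lit 757) (nat_lit 5) (nat_lit 747) (nat_lit 5) (nat_lit 353) (nat_lit 338) (nat_lit 329))) (XT.nd (nat_lit 78) (nat_lit 1976) (nat_lit 0) (XT.lf (nat_lit 0) (nat_lit 3286947539) (nat_lit 912) (nat_lit 1592825689) (nat_lit 76) (nat_lit 1804492668) (nat_lit 734) (nat_lit 5) (nat_lit 746) (nat_lit 5) (nat_lit 735) (nat_lit 5) (nat_lit 354) (nat_lit 338) (nat_lit 328)) (XT.nd (nat_lit 78) (nat_lit 988) (nat_lit 0) (XT.lf (nat_lit 0) (nat_lit 882723275) (nat_lit 988) (nat_lit 2150590513) (nat_lit 76) (nat_lit 3688993561) (nat_lit 721) (nat_lit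 5) (nat_lit 734) (nat_lit 5) (nat_lit 722) (nat_lit 5) (nat_lit 355) (nat_lit 338) (nat_lit 327)) (XT.lf (nat_lit 0) (nat_lit 4105147389) (nat_lit 988) (nat_lit 1033611745) (nat_lit 1064) (nat_lit 1624406802) (nat_lit 708) (nat_lit 5) (nat_lit 721) (nat_lit 5) (nat_lit 722) (nat_lit 5) (nat_lit 356) (nat_lit 338) (nat_lit 326))))) (XT.nd (nat_lit 156) (nat_lit 4028) (nat_lit 0) (XT.nd (nat_lit 78) (nat_lit 1140) (nat_lit 0) (XT.lf (nat_lit 0) (nat_lit 2586053962) (nat_lit 1140) (nat_lit 3118194918) (nat_lit 76) (nat_lit 1102559258) (nat_lit 693) (nat_lit 5) (nat_lit 708) (nat_lit 5) (nat_lit 694) (nat_lit 5) (nat_lit 357) (nat_lit 338) (nat_lit 325)) (XT.lf (nat_lit 0) (nat_lit 3327393054) (nat_lit 1140) (nat_lit 3482323142) (nat_lit 1216) (nat_lit 43649525) (nat_lit 678) (nat_lit 5) (nat_lit 693) (nat_lit 5) (nat_lit 694) (nat_lit 5) (nat_lit 358) (nat_lit 338) (nat_lit 324))) (XT.nd (nat_lit 78)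 (nat_lit 2736) (nat_lit 0) (XT.lf (nat_lit 0) (nat_lit 3010819541) (nat_lit 1216) (nat_lit 1097523948) (nat_lit 1292) (nat_lit 2794314931) (nat_lit 661) (nat_lit 5) (nat_lit 677) (nat_lit 5) (nat_lit 678) (nat_lit 5) (nat_lit 359) (nat_lit 338) (nat_lit 323)) (XT.nd (nat_lit 78) (nat_lit 1368) (nat_lit 0) (XT.lf (nat_lit 0) (nat_lit 1330365393) (nat_lit 1368) (nat_lit 4207948891) (nat_lit 76) (nat_lit 1416558993) (nat_lit 643) (nat_lit 5) (nat_lit 661) (nat_lit 5) (nat_lit 644) (nat_lit 5) (nat_lit 360) (nat_lit 338) (nat_lit 322)) (XT.lf (nat_lit 0) (nat_lit 2526950971) (nat_lit 1368) (nat_lit 2934689366) (nat_lit 1444) (nat_lit 1548228473) (nat_lit 625) (nat_lit 5) (nat_lit 643) (nat_lit 5) (nat_lit 644) (nat_lit 5) (nat_lit 361) (nat_lit 338) (nat_lit 321))))))) (XT.nd (nat_lit 780) (nat_lit 8056) (nat_lit 0) (XT.nd (nat_lit 390) (nat_lit 5852) (nat_lit 0) (XT.nd (nat_lit 156) (nat_lit 5168) (nat_lit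 0) (XT.nd (nat_lit 78) (nat_lit 1520) (nat_lit 0) (XT.lf (nat_lit 0) (nat_lit 2359203450) (nat_lit 1444) (nat_lit 172941671) (nat_lit 1520) (nat_lit 4535693624) (nat_lit 605) (nat_lit 5) (nat_lit 624) (nat_lit 5) (nat_lit 625) (nat_lit 5) (nat_lit 362) (nat_lit 338) (nat_lit 320)) (XT.lf (nat_lit 0) (nat_lit 2231672434) (nat_lit 1520) (nat_lit 4420418699) (nat_lit 1596) (nat_lit 476488058) (nat_lit 585) (nat_lit 5) (nat_lit 605) (nat_lit 5) (nat_lit 606) (nat_lit 5) (nat_lit 363) (nat_lit 338) (nat_lit 319))) (XT.nd (nat_lit 78) (nat_lit 3496) (nat_lit 0) (XT.lf (nat_lit 0) (nat_lit 2146333284) (nat_lit 1596) (nat_lit 1434557162) (nat_lit 1672) (nat_lit 3611270727) (nat_lit 563) (nat_lit 5) (nat_lit 584) (nat_lit 5) (nat_lit 585) (nat_lit 5) (nat_lit 364) (nat_lit 338) (nat_lit 318)) (XT.nd (nat_lit 78) (nat_lit 1748) (nat_lit 0) (XT.lf (nat_lit 0) (nat_lit 427526882) (nat_lit 1748) (nat_lit 5148257428)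 (nat_lit 76) (nat_lit 1682976874) (nat_lit 540) (nat_lit 5) (nat_lit 563) (nat_lit 5) (nat_lit 541) (nat_lit 5) (nat_lit 365) (nat_lit 338) (nat_lit 317)) (XT.lf (nat_lit 0) (nat_lit 2106623885) (nat_lit 1748) (nat_lit 2372458225) (nat_lit 1824) (nat_lit 2848986540) (nat_lit 517) (nat_lit 5) (nat_lit 540) (nat_lit 5) (nat_lit 541) (nat_lit 5) (nat_lit 366) (nat_lit 338) (nat_lit 316))))) (XT.nd (nat_lit 156) (nat_lit 2812) (nat_lit 0) (XT.nd (nat_lit 78) (nat_lit 1140) (nat_lit 0) (XT.lf (nat_lit 0) (nat_lit 1176505966) (nat_lit 1900) (nat_lit 5246900849) (nat_lit 76) (nat_lit 977081715) (nat_lit 492) (nat_lit 5) (nat_lit 517) (nat_lit 5) (nat_lit 493) (nat_lit 5) (nat_lit 367) (nat_lit 338) (nat_lit 315)) (XT.lf (nat_lit 0) (nat_lit 2229893589) (nat_lit 1140) (nat_lit 3007658322) (nat_lit 1216) (nat_lit 2238082553) (nat_lit 477) (nat_lit 5) (nat_lit 492) (nat_lit 5) (nat_lit 493) (nat_lit 5) (nat_lit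 368) (nat_lit 338) (nat_lit 314))) (XT.nd (nat_lit 78) (nat_lit 1824) (nat_lit 0) (XT.lf (nat_lit 0) (nat_lit 1786895410) (nat_lit 988) (nat_lit 5199502138) (nat_lit 76) (nat_lit 567514899) (nat_lit 464) (nat_lit 5) (nat_lit 477) (nat_lit 5) (nat_lit 465) (nat_lit 5) (nat_lit 369) (nat_lit 338) (nat_lit 313)) (XT.nd (nat_lit 78) (nat_lit 912) (nat_lit 0) (XT.lf (nat_lit 0) (nat_lit 2506903062) (nat_lit 912) (nat_lit 3359331520) (nat_lit 988) (nat_lit 1768727940) (nat_lit 452) (nat_lit 5) (nat_lit 464) (nat_lit 5) (nat_lit 465) (nat_lit 5) (nat_lit 370) (nat_lit 338) (nat_lit 312)) (XT.lf (nat_lit 0) (nat_lit 2268025270) (nat_lit 912) (nat_lit 5014944641) (nat_lit 76) (nat_lit 436182502) (nat_lit 440) (nat_lit 5) (nat_lit 452) (nat_lit 5) (nat_lit 441) (nat_lit 5) (nat_lit 371) (nat_lit 338) (nat_lit 311)))))) (XT.nd (nat_lit 390) (nat_lit 3800) (nat_lit 0) (XT.nd (nat_lit 156) (nat_lit 2432) (nat_lit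 0) (XT.nd (nat_lit 78) (nat_lit 912) (nat_lit 0) (XT.lf (nat_lit 0) (nat_lit 2929289114) (nat_lit 912) (nat_lit 3444944512) (nat_lit 988) (nat_lit 1431952897) (nat_lit 428) (nat_lit 5) (nat_lit 440) (nat_lit 5) (nat_lit 441) (nat_lit 5) (nat_lit 372) (nat_lit 338) (nat_lit 310)) (XT.lf (nat_lit 0) (nat_lit 2628421445) (nat_lit 912) (nat_lit 4701298798) (nat_lit 76) (nat_lit 566637035) (nat_lit 416) (nat_lit 5) (nat_lit 428) (nat_lit 5) (nat_lit 417) (nat_lit 5) (nat_lit 373) (nat_lit 338) (nat_lit 309))) (XT.nd (nat_lit 78) (nat_lit 1596) (nat_lit 0) (XT.lf (nat_lit 0) (nat_lit 3489503752) (nat_lit 836) (nat_lit 3280378285) (nat_lit 912) (nat_lit 1219587221) (nat_lit 405) (nat_lit 5) (nat_lit 416) (nat_lit 5) (nat_lit 417) (nat_lit 5) (nat_lit 374) (nat_lit 338) (nat_lit 308)) (XT.nd (nat_lit 78) (nat_lit 760) (nat_lit 0) (XT.lf (nat_lit 0) (nat_lit 2875863540) (nat_lit 836) (nat_lit 4265879781)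 (nat_lit 76) (nat_lit 943961299) (nat_lit 394) (nat_lit 5) (nat_lit 405) (nat_lit 5) (nat_lit 395) (nat_lit 5) (nat_lit 375) (nat_lit 338) (nat_lit 307)) (XT.lf (nat_lit 0) (nat_lit 4180758084) (nat_lit 760) (nat_lit 2880040207) (nat_lit 836) (nat_lit 1124203723) (nat_lit 384) (nat_lit 5) (nat_lit 394) (nat_lit 5) (nat_lit 395) (nat_lit 5) (nat_lit 376) (nat_lit 338) (nat_lit 306))))) (XT.nd (nat_lit 156) (nat_lit 2204) (nat_lit 0) (XT.nd (nat_lit 78) (nat_lit 760) (nat_lit 0) (XT.lf (nat_lit 0) (nat_lit 3017438184) (nat_lit 836) (nat_lit 3715300587) (nat_lit 76) (nat_lit 1554661437) (nat_lit 373) (nat_lit 5) (nat_lit 384) (nat_lit 5) (nat_lit 374) (nat_lit 5) (nat_lit 377) (nat_lit 338) (nat_lit 305)) (XT.lf (nat_lit 0) (nat_lit 4996970720) (nat_lit 760) (nat_lit 2256967236) (nat_lit 836) (nat_lit 1139066131) (nat_lit 363) (nat_lit 5) (nat_lit 373) (nat_lit 5) (nat_lit 374) (nat_lit 5) (nat_lit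 378) (nat_lit 338) (nat_lit 304))) (XT.nd (nat_lit 78) (nat_lit 1444) (nat_lit 0) (XT.lf (nat_lit 0) (nat_lit 3059588154) (nat_lit 760) (nat_lit 3055520926) (nat_lit 76) (nat_lit 2386568506) (nat_lit 353) (nat_lit 5) (nat_lit 363) (nat_lit 5) (nat_lit 354) (nat_lit 5) (nat_lit 379) (nat_lit 338) (nat_lit 303)) (XT.nd (nat_lit 78) (nat_lit 760) (nat_lit 0) (XT.lf (nat_lit 0) (nat_lit 5932720336) (nat_lit 684) (nat_lit 1422920935) (nat_lit 760) (nat_lit 1258081141) (nat_lit 344) (nat_lit 5) (nat_lit 353) (nat_lit 5) (nat_lit 354) (nat_lit 5) (nat_lit 380) (nat_lit 338) (nat_lit 302)) (XT.lf (nat_lit 0) (nat_lit 3008157596) (nat_lit 760) (nat_lit 2291892216) (nat_lit 76) (nat_lit 3428747920) (nat_lit 334) (nat_lit 5) (nat_lit 344) (nat_lit 5) (nat_lit 335) (nat_lit 5) (nat_lit 381) (nat_lit 338) (nat_lit 301))))))))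
noncomputable def xc47 : XT := (XT.nd (nat_lit 1560) (nat_lit 6992) (nat_lit 0) (XT.nd (nat_lit 780) (nat_lit 4712) (nat_lit 0) (XT.nd (nat_lit 390) (nat_lit 2964) (nat_lit 0) (XT.nd (nat_lit 156) (nat_lit 2432) (nat_lit 0) (XT.nd (nat_lit 78) (nat_lit 684) (nat_lit 0) (XT.lf (nat_lit 0) (nat_lit 6983202088) (nat_lit 684) (nat_lit 388474882) (nat_lit 760) (nat_lit 1475754309) (nat_lit 325) (nat_lit 5) (nat_lit 334) (nat_lit 5) (nat_lit 335) (nat_lit 5) (nat_lit 382) (nat_lit 338) (nat_lit 300)) (XT.lf (nat_lit 0) (nat_lit 2868433651) (nat_lit 684) (nat_lit 1429198984) (nat_lit 76) (nat_lit 4671416211) (nat_lit 316) (nat_lit 5) (nat_lit 325) (nat_lit 5) (nat_lit 317) (nat_lit 5) (nat_lit 383) (nat_lit 338) (nat_lit 299))) (XT.nd (nat_lit 78) (nat_lit 1824) (nat_lit 0) (XT.lf (nat_lit 0) (nat_lit 7312716379) (nat_lit 684) (nat_lit 955678285) (nat_lit 76) (nat_lit 825928803) (nat_lit 308) (nat_lit 5)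 (nat_lit 317) (nat_lit 5) (nat_lit 309) (nat_lit 5) (nat_lit 384) (nat_lit 338) (nat_lit 298)) (XT.nd (nat_lit 78) (nat_lit 1140) (nat_lit 0) (XT.lf (nat_lit 0) (nat_lit 2645184738) (nat_lit 684) (nat_lit 471696918) (nat_lit 76) (nat_lit 6105864532) (nat_lit 299) (nat_lit 5) (nat_lit 308) (nat_lit 5) (nat_lit 300) (nat_lit 5) (nat_lit 385) (nat_lit 338) (nat_lit 297)) (XT.lf (nat_lit 0) (nat_lit 42923029) (nat_lit 532) (nat_lit 7139132157) (nat_lit 608) (nat_lit 2172701277) (nat_lit 284) (nat_lit 5) (nat_lit 291) (nat_lit 5) (nat_lit 292) (nat_lit 5) (nat_lit 386) (nat_lit 338) (nat_lit 296))))) (XT.nd (nat_lit 156) (nat_lit 1748) (nat_lit 0) (XT.nd (nat_lit 78) (nat_lit 532) (nat_lit 0) (XT.lf (nat_lit 0) (nat_lit 584518214) (nat_lit 608) (nat_lit 1761972625) (nat_lit 684) (nat_lit 7143665306) (nat_lit 275) (nat_lit 5) (nat_lit 283) (nat_lit 5) (nat_lit 284) (nat_lit 5) (nat_lit 387) (nat_lit 338)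 (nat_lit 295)) (XT.lf (nat_lit 0) (nat_lit 1143921302) (nat_lit 532) (nat_lit 5844076188) (nat_lit 608) (nat_lit 2641007951) (nat_lit 268) (nat_lit 5) (nat_lit 275) (nat_lit 5) (nat_lit 276) (nat_lit 5) (nat_lit 388) (nat_lit 338) (nat_lit 294))) (XT.nd (nat_lit 78) (nat_lit 1140) (nat_lit 0) (XT.lf (nat_lit 0) (nat_lit 1735914990) (nat_lit 532) (nat_lit 240156149) (nat_lit 608) (nat_lit 7795579206) (nat_lit 260) (nat_lit 5) (nat_lit 267) (nat_lit 5) (nat_lit 268) (nat_lit 5) (nat_lit 389) (nat_lit 338) (nat_lit 293)) (XT.nd (nat_lit 78) (nat_lit 608) (nat_lit 0) (XT.lf (nat_lit 0) (nat_lit 2331528325) (nat_lit 532) (nat_lit 4396520333) (nat_lit 608) (nat_lit 3189531457) (nat_lit 253) (nat_lit 5) (nat_lit 260) (nat_lit 5) (nat_lit 261) (nat_lit 5) (nat_lit 390) (nat_lit 338) (nat_lit 292)) (XT.lf (nat_lit 0) (nat_lit 1543559323) (nat_lit 608) (nat_lit 7103712433) (nat_lit 76) (nat_lit 1420229104)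 (nat_lit 245) (nat_lit 5) (nat_lit 253) (nat_lit 5) (nat_lit 246) (nat_lit 5) (nat_lit 391) (nat_lit 338) (nat_lit 291)))))) (XT.nd (nat_lit 390) (nat_lit 2204) (nat_lit 0) (XT.nd (nat_lit 156) (nat_lit 1444) (nat_lit 0) (XT.nd (nat_lit 78) (nat_lit 608) (nat_lit 0) (XT.lf (nat_lit 0) (nat_lit 3603076272) (nat_lit 456) (nat_lit 2802533850) (nat_lit 532) (nat_lit 3815281439) (nat_lit 239) (nat_lit 5) (nat_lit 245) (nat_lit 5) (nat_lit 246) (nat_lit 5) (nat_lit 392) (nat_lit 338) (nat_lit 290)) (XT.lf (nat_lit 0) (nat_lit 1045159286) (nat_lit 608) (nat_lit 6105690737) (nat_lit 76) (nat_lit 3227417804) (nat_lit 231) (nat_lit 5) (nat_lit 239) (nat_lit 5) (nat_lit 232) (nat_lit 5) (nat_lit 393) (nat_lit 338) (nat_lit 289))) (XT.nd (nat_lit 78) (nat_lit 988) (nat_lit 0) (XT.lf (nat_lit 0) (nat_lit 4956291314) (nat_lit 456) (nat_lit 1067426724) (nat_lit 532) (nat_lit 4515660172) (nat_lit 225) (nat_lit 5)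 (nat_lit 231) (nat_lit 5) (nat_lit 232) (nat_lit 5) (nat_lit 394) (nat_lit 338) (nat_lit 288)) (XT.nd (nat_lit 78) (nat_lit 456) (nat_lit 0) (XT.lf (nat_lit 0) (nat_lit 481915851) (nat_lit 532) (nat_lit 5042641550) (nat_lit 76) (nat_lit 5179877395) (nat_lit 218) (nat_lit 5) (nat_lit 225) (nat_lit 5) (nat_lit 219) (nat_lit 5) (nat_lit 395) (nat_lit 338) (nat_lit 287)) (XT.lf (nat_lit 0) (nat_lit 5590288557) (nat_lit 532) (nat_lit 4489457675) (nat_lit 76) (nat_lit 793655487) (nat_lit 212) (nat_lit 5) (nat_lit 219) (nat_lit 5) (nat_lit 213) (nat_lit 5) (nat_lit 396) (nat_lit 338) (nat_lit 286))))) (XT.nd (nat_lit 156) (nat_lit 1292) (nat_lit 0) (XT.nd (nat_lit 78) (nat_lit 456) (nat_lit 0) (XT.lf (nat_lit 0) (nat_lit 7128751068) (nat_lit 456) (nat_lit 3771893020) (nat_lit 532) (nat_lit 145818928) (nat_lit 206) (nat_lit 5) (nat_lit 212) (nat_lit 5) (nat_lit 213) (nat_lit 5) (nat_lit 397) (nat_lit 338)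 (nat_lit 285)) (XT.lf (nat_lit 0) (nat_lit 5110266763) (nat_lit 456) (nat_lit 3341546630) (nat_lit 76) (nat_lit 2771591427) (nat_lit 200) (nat_lit 5) (nat_lit 206) (nat_lit 5) (nat_lit 201) (nat_lit 5) (nat_lit 398) (nat_lit 338) (nat_lit 284))) (XT.nd (nat_lit 78) (nat_lit 836) (nat_lit 0) (XT.lf (nat_lit 0) (nat_lit 8669392704) (nat_lit 456) (nat_lit 1894018311) (nat_lit 532) (nat_lit 841397445) (nat_lit 194) (nat_lit 5) (nat_lit 200) (nat_lit 5) (nat_lit 201) (nat_lit 5) (nat_lit 399) (nat_lit 338) (nat_lit 283)) (XT.nd (nat_lit 78) (nat_lit 380) (nat_lit 0) (XT.lf (nat_lit 0) (nat_lit 4578776433) (nat_lit 456) (nat_lit 2134150675) (nat_lit 76) (nat_lit 4877122068) (nat_lit 188) (nat_lit 5) (nat_lit 194) (nat_lit 5) (nat_lit 189) (nat_lit 5) (nat_lit 400) (nat_lit 338) (nat_lit 282)) (XT.lf (nat_lit 0) (nat_lit 10183989349) (nat_lit 456) (nat_lit 1494838976) (nat_lit 76) (nat_lit 101230256) (nat_lit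 183) (nat_lit 5) (nat_lit 189) (nat_lit 5) (nat_lit 184) (nat_lit 5) (nat_lit 401) (nat_lit 338) (nat_lit 281))))))) (XT.nd (nat_lit 780) (nat_lit 2964) (nat_lit 0) (XT.nd (nat_lit 390) (nat_lit 1672) (nat_lit 0) (XT.nd (nat_lit 156) (nat_lit 1520) (nat_lit 0) (XT.nd (nat_lit 78) (nat_lit 380) (nat_lit 0) (XT.lf (nat_lit 0) (nat_lit 3997594407) (nat_lit 456) (nat_lit 868719246) (nat_lit 76) (nat_lit 7107573125) (nat_lit 177) (nat_lit 5) (nat_lit 183) (nat_lit 5) (nat_lit 178) (nat_lit 5) (nat_lit 402) (nat_lit 338) (nat_lit 280)) (XT.lf (nat_lit 0) (nat_lit 9776709710) (nat_lit 456) (nat_lit 209686350) (nat_lit 76) (nat_lit 2186136240) (nat_lit 172) (nat_lit 5) (nat_lit 178) (nat_lit 5) (nat_lit 173) (nat_lit 5) (nat_lit 403) (nat_lit 338) (nat_lit 279))) (XT.nd (nat_lit 78) (nat_lit 760) (nat_lit 0) (XT.lf (nat_lit 0) (nat_lit 459586946) (nat_lit 380) (nat_lit 2911633647) (nat_lit 456) (nat_lit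 9004218873) (nat_lit 162) (nat_lit 5) (nat_lit 167) (nat_lit 5) (nat_lit 168) (nat_lit 5) (nat_lit 404) (nat_lit 338) (nat_lit 278)) (XT.nd (nat_lit 78) (nat_lit 456) (nat_lit 0) (XT.lf (nat_lit 0) (nat_lit 1146321644) (nat_lit 304) (nat_lit 8192086181) (nat_lit 380) (nat_lit 3244515644) (nat_lit 158) (nat_lit 5) (nat_lit 162) (nat_lit 5) (nat_lit 163) (nat_lit 5) (nat_lit 405) (nat_lit 338) (nat_lit 277)) (XT.lf (nat_lit 0) (nat_lit 1856085660) (nat_lit 380) (nat_lit 847938567) (nat_lit 456) (nat_lit 10091232746) (nat_lit 152) (nat_lit 5) (nat_lit 157) (nat_lit 5) (nat_lit 158) (nat_lit 5) (nat_lit 406) (nat_lit 338) (nat_lit 276))))) (XT.nd (nat_lit 156) (nat_lit 988) (nat_lit 0) (XT.nd (nat_lit 78) (nat_lit 380) (nat_lit 0) (XT.lf (nat_lit 0) (nat_lit 2560852772) (nat_lit 304) (nat_lit 6303996284) (nat_lit 380) (nat_lit 4147124318) (nat_lit 148) (nat_lit 5) (nat_lit 152) (nat_lit 5) (nat_lit 153)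 (nat_lit 5) (nat_lit 407) (nat_lit 338) (nat_lit 275)) (XT.lf (nat_lit 0) (nat_lit 1999875400) (nat_lit 380) (nat_lit 9934136360) (nat_lit 76) (nat_lit 1299913518) (nat_lit 143) (nat_lit 5) (nat_lit 148) (nat_lit 5) (nat_lit 144) (nat_lit 5) (nat_lit 408) (nat_lit 338) (nat_lit 274))) (XT.nd (nat_lit 78) (nat_lit 684) (nat_lit 0) (XT.lf (nat_lit 0) (nat_lit 4030519946) (nat_lit 304) (nat_lit 4325386486) (nat_lit 380) (nat_lit 5104461768) (nat_lit 139) (nat_lit 5) (nat_lit 143) (nat_lit 5) (nat_lit 144) (nat_lit 5) (nat_lit 409) (nat_lit 338) (nat_lit 273)) (XT.nd (nat_lit 78) (nat_lit 304) (nat_lit 0) (XT.lf (nat_lit 0) (nat_lit 1257192456) (nat_lit 380) (nat_lit 8899523476) (nat_lit 76) (nat_lit 3535450784) (nat_lit 134) (nat_lit 5) (nat_lit 139) (nat_lit 5) (nat_lit 135) (nat_lit 5) (nat_lit 410) (nat_lit 338) (nat_lit 272)) (XT.lf (nat_lit 0) (nat_lit 5554936486) (nat_lit 304) (nat_lit 2257699419)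 (nat_lit 380) (nat_lit 6116162688) (nat_lit 130) (nat_lit 5) (nat_lit 134) (nat_lit 5) (nat_lit 135) (nat_lit 5) (nat_lit 411) (nat_lit 338) (nat_lit 271)))))) (XT.nd (nat_lit 390) (nat_lit 1444) (nat_lit 0) (XT.nd (nat_lit 156) (nat_lit 912) (nat_lit 0) (XT.nd (nat_lit 78) (nat_lit 228) (nat_lit 0) (XT.lf (nat_lit 0) (nat_lit 471072045) (nat_lit 380) (nat_lit 7830816231) (nat_lit 76) (nat_lit 5868910166) (nat_lit 125) (nat_lit 5) (nat_lit 130) (nat_lit 5) (nat_lit 126) (nat_lit 5) (nat_lit 412) (nat_lit 338) (nat_lit 270)) (XT.lf (nat_lit 0) (nat_lit 7133918392) (nat_lit 228) (nat_lit 101989496) (nat_lit 304) (nat_lit 7182080267) (nat_lit 122) (nat_lit 5) (nat_lit 125) (nat_lit 5) (nat_lit 126) (nat_lit 5) (nat_lit 413) (nat_lit 338) (nat_lit 269))) (XT.nd (nat_lit 78) (nat_lit 608) (nat_lit 0) (XT.lf (nat_lit 0) (nat_lit 7939317949) (nat_lit 304) (nat_lit 6368358871) (nat_lit 380) (nat_lit 362836978)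 (nat_lit 118) (nat_lit 5) (nat_lit 122) (nat_lit 5) (nat_lit 123) (nat_lit 5) (nat_lit 414) (nat_lit 338) (nat_lit 268)) (XT.nd (nat_lit 78) (nat_lit 304) (nat_lit 0) (XT.lf (nat_lit 0) (nat_lit 6640318442) (nat_lit 304) (nat_lit 6175121285) (nat_lit 76) (nat_lit 2112976637) (nat_lit 114) (nat_lit 5) (nat_lit 118) (nat_lit 5) (nat_lit 115) (nat_lit 5) (nat_lit 415) (nat_lit 338) (nat_lit 267)) (XT.lf (nat_lit 0) (nat_lit 9589707312) (nat_lit 304) (nat_lit 4355976650) (nat_lit 380) (nat_lit 1246383179) (nat_lit 110) (nat_lit 5) (nat_lit 114) (nat_lit 5) (nat_lit 115) (nat_lit 5) (nat_lit 416) (nat_lit 338) (nat_lit 266))))) (XT.nd (nat_lit 156) (nat_lit 836) (nat_lit 0) (XT.nd (nat_lit 78) (nat_lit 304) (nat_lit 0) (XT.lf (nat_lit 0) (nat_lit 6013721912) (nat_lit 304) (nat_lit 5034942912) (nat_lit 76) (nat_lit 4412464315) (nat_lit 106) (nat_lit 5) (nat_lit 110) (nat_lit 5) (nat_lit 107) (nat_lit 5)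 (nat_lit 417) (nat_lit 338) (nat_lit 265)) (XT.lf (nat_lit 0) (nat_lit 11294592828) (nat_lit 304) (nat_lit 2268476648) (nat_lit 380) (nat_lit 2173261295) (nat_lit 102) (nat_lit 5) (nat_lit 106) (nat_lit 5) (nat_lit 107) (nat_lit 5) (nat_lit 418) (nat_lit 338) (nat_lit 264))) (XT.nd (nat_lit 78) (nat_lit 532) (nat_lit 0) (XT.lf (nat_lit 0) (nat_lit 5355826308) (nat_lit 304) (nat_lit 3863333564) (nat_lit 76) (nat_lit 6797808309) (nat_lit 98) (nat_lit 5) (nat_lit 102) (nat_lit 5) (nat_lit 99) (nat_lit 5) (nat_lit 419) (nat_lit 338) (nat_lit 263)) (XT.nd (nat_lit 78) (nat_lit 304) (nat_lit 0) (XT.lf (nat_lit 0) (nat_lit 13054425686) (nat_lit 228) (nat_lit 106126780) (nat_lit 304) (nat_lit 3143599101) (nat_lit 95) (nat_lit 5) (nat_lit 98) (nat_lit 5) (nat_lit 99) (nat_lit 5) (nat_lit 420) (nat_lit 338) (nat_lit 262)) (XT.lf (nat_lit 0) (nat_lit 4666852999) (nat_lit 304) (nat_lit 2660625736) (nat_lit 76)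 (nat_lit 9269320345) (nat_lit 91) (nat_lit 5) (nat_lit 95) (nat_lit 5) (nat_lit 92) (nat_lit 5) (nat_lit 421) (nat_lit 338) (nat_lit 261))))))))
noncomputable def xc48 : XT := (XT.nd (nat_lit 47892) (nat_lit 0) (nat_lit 25612) (XT.nd (nat_lit 47112) (nat_lit 0) (nat_lit 50616) (XT.nd (nat_lit 312) (nat_lit 684) (nat_lit 0) (XT.nd (nat_lit 156) (nat_lit 532) (nat_lit 0) (XT.nd (nat_lit 78) (nat_lit 304) (nat_lit 0) (XT.lf (nat_lit 0) (nat_lit 12752559902) (nat_lit 304) (nat_lit 2040430712) (nat_lit 76) (nat_lit 2103146812) (nat_lit 88) (nat_lit 5) (nat_lit 92) (nat_lit 5) (nat_lit 89) (nat_lit 5) (nat_lit 422) (nat_lit 338) (nat_lit 260)) (XT.lf (nat_lit 0) (nat_lit 3946881030) (nat_lit 304) (nat_lit 1427031081) (nat_lit 76) (nat_lit 11827613683) (nat_lit 84) (nat_lit 5) (nat_lit 88) (nat_lit 5) (nat_lit 85) (nat_lit 5) (nat_lit 423) (nat_lit 338) (nat_lit 259))) (XT.nd (nat_lit 78) (nat_lit 304)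 (nat_lit 0) (XT.lf (nat_lit 0) (nat_lit 12326901129) (nat_lit 304) (nat_lit 801346001) (nat_lit 76) (nat_lit 4385218047) (nat_lit 81) (nat_lit 5) (nat_lit 85) (nat_lit 5) (nat_lit 82) (nat_lit 5) (nat_lit 424) (nat_lit 338) (nat_lit 258)) (XT.lf (nat_lit 0) (nat_lit 3195852903) (nat_lit 304) (nat_lit 162647525) (nat_lit 76) (nat_lit 14473591512) (nat_lit 77) (nat_lit 5) (nat_lit 81) (nat_lit 5) (nat_lit 78) (nat_lit 5) (nat_lit 425) (nat_lit 338) (nat_lit 257)))) (XT.nd (nat_lit 46566) (nat_lit 0) (nat_lit 55632) (XT.nd (nat_lit 78) (nat_lit 304) (nat_lit 0) (XT.lf (nat_lit 0) (nat_lit 474393252) (nat_lit 152) (nat_lit 11411930721) (nat_lit 228) (nat_lit 6270726936) (nat_lit 72) (nat_lit 5) (nat_lit 74) (nat_lit 5) (nat_lit 75) (nat_lit 5) (nat_lit 426) (nat_lit 338) (nat_lit 256)) (XT.lf (nat_lit 0) (nat_lit 1147584984) (nat_lit 228) (nat_lit 1273445582) (nat_lit 304) (nat_lit 16068302576) (nat_lit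 68) (nat_lit 5) (nat_lit 71) (nat_lit 5) (nat_lit 72) (nat_lit 5) (nat_lit 427) (nat_lit 338) (nat_lit 255))) (XT.nd (nat_lit 78) (nat_lit 532) (nat_lit 0) (XT.lf (nat_lit 0) (nat_lit 1696078291) (nat_lit 76) (nat_lit 763564791) (nat_lit 76) (nat_lit 763564791) (nat_lit 807) (nat_lit 4) (nat_lit 808) (nat_lit 5) (nat_lit 808) (nat_lit 4) (nat_lit 342) (nat_lit 339) (nat_lit 339)) (XT.nd (nat_lit 78) (nat_lit 304) (nat_lit 0) (XT.lf (nat_lit 0) (nat_lit 2004771496) (nat_lit 152) (nat_lit 1242378218) (nat_lit 228) (nat_lit 3204891032) (nat_lit 804) (nat_lit 5) (nat_lit 806) (nat_lit 5) (nat_lit 807) (nat_lit 4) (nat_lit 343) (nat_lit 339) (nat_lit 338)) (XT.lf (nat_lit 0) (nat_lit 685745556) (nat_lit 228) (nat_lit 819958462) (nat_lit 304) (nat_lit 4954878766) (nat_lit 800) (nat_lit 5) (nat_lit 803) (nat_lit 5) (nat_lit 804) (nat_lit 5) (nat_lit 344) (nat_lit 339) (nat_lit 337)))))) (XT.nd (nat_lit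 390) (nat_lit 3116) (nat_lit 0) (XT.nd (nat_lit 156) (nat_lit 1520) (nat_lit 0) (XT.nd (nat_lit 78) (nat_lit 380) (nat_lit 0) (XT.lf (nat_lit 0) (nat_lit 5911586243) (nat_lit 228) (nat_lit 253639299) (nat_lit 304) (nat_lit 306708841) (nat_lit 800) (nat_lit 5) (nat_lit 803) (nat_lit 5) (nat_lit 804) (nat_lit 5) (nat_lit 345) (nat_lit 339) (nat_lit 336)) (XT.lf (nat_lit 0) (nat_lit 4280937333) (nat_lit 380) (nat_lit 1744980683) (nat_lit 76) (nat_lit 459950676) (nat_lit 795) (nat_lit 5) (nat_lit 800) (nat_lit 5) (nat_lit 796) (nat_lit 5) (nat_lit 346) (nat_lit 339) (nat_lit 335))) (XT.nd (nat_lit 78) (nat_lit 1064) (nat_lit 0) (XT.lf (nat_lit 0) (nat_lit 2327269270) (nat_lit 456) (nat_lit 2867503687) (nat_lit 76) (nat_lit 1307918325) (nat_lit 789) (nat_lit 5) (nat_lit 795) (nat_lit 5) (nat_lit 790) (nat_lit 5) (nat_lit 347) (nat_lit 339) (nat_lit 334)) (XT.nd (nat_lit 78) (nat_lit 532) (nat_lit 0) (XT.lf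 (nat_lit 0) (nat_lit 301039671) (nat_lit 532) (nat_lit 3926911721) (nat_lit 76) (nat_lit 2294495116) (nat_lit 782) (nat_lit 5) (nat_lit 789) (nat_lit 5) (nat_lit 783) (nat_lit 5) (nat_lit 348) (nat_lit 339) (nat_lit 333)) (XT.lf (nat_lit 0) (nat_lit 1609298373) (nat_lit 532) (nat_lit 3112337746) (nat_lit 608) (nat_lit 1823274912) (nat_lit 775) (nat_lit 5) (nat_lit 782) (nat_lit 5) (nat_lit 783) (nat_lit 5) (nat_lit 349) (nat_lit 339) (nat_lit 332))))) (XT.nd (nat_lit 156) (nat_lit 2356) (nat_lit 0) (XT.nd (nat_lit 78) (nat_lit 76) (nat_lit 0) (XT.lf (nat_lit 0) (nat_lit 685540692) (nat_lit 608) (nat_lit 1856288234) (nat_lit 684) (nat_lit 4028458513) (nat_lit 766) (nat_lit 5) (nat_lit 774) (nat_lit 5) (nat_lit 775) (nat_lit 5) (nat_lit 350) (nat_lit 339) (nat_lit 331)) (XT.lf (nat_lit 0) (nat_lit 287463475) (nat_lit 684) (nat_lit 171855723) (nat_lit 76) (nat_lit 6139290747) (nat_lit 765) (nat_lit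 5) (nat_lit 774) (nat_lit 5) (nat_lit 766) (nat_lit 5) (nat_lit 351) (nat_lit 339) (nat_lit 330))) (XT.nd (nat_lit 78) (nat_lit 1672) (nat_lit 0) (XT.lf (nat_lit 0) (nat_lit 4569172203) (nat_lit 760) (nat_lit 977912318) (nat_lit 76) (nat_lit 1082344240) (nat_lit 756) (nat_lit 5) (nat_lit 766) (nat_lit 5) (nat_lit 757) (nat_lit 5) (nat_lit 352) (nat_lit 339) (nat_lit 329)) (XT.nd (nat_lit 78) (nat_lit 836) (nat_lit 0) (XT.lf (nat_lit 0) (nat_lit 2174401375) (nat_lit 836) (nat_lit 1727687244) (nat_lit 76) (nat_lit 2761049614) (nat_lit 745) (nat_lit 5) (nat_lit 756) (nat_lit 5) (nat_lit 746) (nat_lit 5) (nat_lit 353) (nat_lit 339) (nat_lit 328)) (XT.lf (nat_lit 0) (nat_lit 4281331580) (nat_lit 836) (nat_lit 2115133264) (nat_lit 912) (nat_lit 303354648) (nat_lit 734) (nat_lit 5) (nat_lit 745) (nat_lit 5) (nat_lit 746) (nat_lit 5) (nat_lit 354) (nat_lit 339) (nat_lit 327))))))) (XT.nd (nat_lit 780) (nat_lit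 12008) (nat_lit 0) (XT.nd (nat_lit 390) (nat_lit 7448) (nat_lit 0) (XT.nd (nat_lit 156) (nat_lit 3496) (nat_lit 0) (XT.nd (nat_lit 78) (nat_lit 1064) (nat_lit 0) (XT.lf (nat_lit 0) (nat_lit 3675904229) (nat_lit 912) (nat_lit 171163540) (nat_lit 988) (nat_lit 2892172240) (nat_lit 721) (nat_lit 5) (nat_lit 733) (nat_lit 5) (nat_lit 734) (nat_lit 5) (nat_lit 355) (nat_lit 339) (nat_lit 326)) (XT.lf (nat_lit 0) (nat_lit 1228815263) (nat_lit 1064) (nat_lit 3660468765) (nat_lit 76) (nat_lit 1892179538) (nat_lit 707) (nat_lit 5) (nat_lit 721) (nat_lit 5) (nat_lit 708) (nat_lit 5) (nat_lit 356) (nat_lit 339) (nat_lit 325))) (XT.nd (nat_lit 78) (nat_lit 2432) (nat_lit 0) (XT.lf (nat_lit 0) (nat_lit 2617330514) (nat_lit 1064) (nat_lit 2718731172) (nat_lit 1140) (nat_lit 1490471347) (nat_lit 693) (nat_lit 5) (nat_lit 707) (nat_lit 5) (nat_lit 708) (nat_lit 5) (nat_lit 357) (nat_lit 339) (nat_lit 324)) (XT.nd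 (nat_lit 78) (nat_lit 1216) (nat_lit 0) (XT.lf (nat_lit 0) (nat_lit 2167164156) (nat_lit 1140) (nat_lit 395228786) (nat_lit 1216) (nat_lit 4312128898) (nat_lit 677) (nat_lit 5) (nat_lit 692) (nat_lit 5) (nat_lit 693) (nat_lit 5) (nat_lit 358) (nat_lit 339) (nat_lit 323)) (XT.lf (nat_lit 0) (nat_lit 1763218878) (nat_lit 1216) (nat_lit 4875177058) (nat_lit 1292) (nat_lit 286921287) (nat_lit 661) (nat_lit 5) (nat_lit 677) (nat_lit 5) (nat_lit 678) (nat_lit 5) (nat_lit 359) (nat_lit 339) (nat_lit 322))))) (XT.nd (nat_lit 156) (nat_lit 4636) (nat_lit 0) (XT.nd (nat_lit 78) (nat_lit 1444) (nat_lit 0) (XT.lf (nat_lit 0) (nat_lit 1399965418) (nat_lit 1292) (nat_lit 2323165369) (nat_lit 1368) (nat_lit 3255710567) (nat_lit 643) (nat_lit 5) (nat_lit 660) (nat_lit 5) (nat_lit 661) (nat_lit 5) (nat_lit 360) (nat_lit 339) (nat_lit 321)) (XT.lf (nat_lit 0) (nat_lit 722858574) (nat_lit 1444) (nat_lit 5940531788)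 (nat_lit 76) (nat_lit 372078938) (nat_lit 624) (nat_lit 5) (nat_lit 643) (nat_lit 5) (nat_lit 625) (nat_lit 5) (nat_lit 361) (nat_lit 339) (nat_lit 320))) (XT.nd (nat_lit 78) (nat_lit 3192) (nat_lit 0) (XT.lf (nat_lit 0) (nat_lit 818776018) (nat_lit 1444) (nat_lit 3893192249) (nat_lit 1520) (nat_lit 2382689098) (nat_lit 605) (nat_lit 5) (nat_lit 624) (nat_lit 5) (nat_lit 625) (nat_lit 5) (nat_lit 362) (nat_lit 339) (nat_lit 319)) (XT.nd (nat_lit 78) (nat_lit 1596) (nat_lit 0) (XT.lf (nat_lit 0) (nat_lit 597542383) (nat_lit 1520) (nat_lit 968530033) (nat_lit 1596) (nat_lit 5590876819) (nat_lit 584) (nat_lit 5) (nat_lit 604) (nat_lit 5) (nat_lit 605) (nat_lit 5) (nat_lit 363) (nat_lit 339) (nat_lit 318)) (XT.lf (nat_lit 0) (nat_lit 411409399) (nat_lit 1596) (nat_lit 5129782273) (nat_lit 1672) (nat_lit 1680797871) (nat_lit 563) (nat_lit 5) (nat_lit 584) (nat_lit 5) (nat_lit 585) (nat_lit 5) (nat_lit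 364) (nat_lit 339) (nat_lit 317)))))) (XT.nd (nat_lit 390) (nat_lit 4484) (nat_lit 0) (XT.nd (nat_lit 156) (nat_lit 4028) (nat_lit 0) (XT.nd (nat_lit 78) (nat_lit 1748) (nat_lit 0) (XT.lf (nat_lit 0) (nat_lit 267420057) (nat_lit 1672) (nat_lit 1984678595) (nat_lit 1748) (nat_lit 5037851876) (nat_lit 540) (nat_lit 5) (nat_lit 562) (nat_lit 5) (nat_lit 563) (nat_lit 5) (nat_lit 365) (nat_lit 339) (nat_lit 316)) (XT.lf (nat_lit 0) (nat_lit 166730008) (nat_lit 1748) (nat_lit 6055336652) (nat_lit 1824) (nat_lit 1138823079) (nat_lit 517) (nat_lit 5) (nat_lit 540) (nat_lit 5) (nat_lit 541) (nat_lit 5) (nat_lit 366) (nat_lit 339) (nat_lit 315))) (XT.nd (nat_lit 78) (nat_lit 2128) (nat_lit 0) (XT.lf (nat_lit 0) (nat_lit 96321575) (nat_lit 1824) (nat_lit 2692916816) (nat_lit 1900) (nat_lit 4645349196) (nat_lit 492) (nat_lit 5) (nat_lit 516) (nat_lit 5) (nat_lit 517) (nat_lit 5) (nat_lit 367) (nat_lit 339)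 (nat_lit 314)) (XT.nd (nat_lit 78) (nat_lit 988) (nat_lit 0) (XT.lf (nat_lit 0) (nat_lit 74577188) (nat_lit 1140) (nat_lit 6690335892) (nat_lit 1216) (nat_lit 746527866) (nat_lit 477) (nat_lit 5) (nat_lit 492) (nat_lit 5) (nat_lit 493) (nat_lit 5) (nat_lit 368) (nat_lit 339) (nat_lit 313)) (XT.lf (nat_lit 0) (nat_lit 74449556) (nat_lit 912) (nat_lit 3112865171) (nat_lit 988) (nat_lit 4403641986) (nat_lit 464) (nat_lit 5) (nat_lit 476) (nat_lit 5) (nat_lit 477) (nat_lit 5) (nat_lit 369) (nat_lit 339) (nat_lit 312))))) (XT.nd (nat_lit 156) (nat_lit 2660) (nat_lit 0) (XT.nd (nat_lit 78) (nat_lit 912) (nat_lit 0) (XT.lf (nat_lit 0) (nat_lit 125694990) (nat_lit 912) (nat_lit 7053478991) (nat_lit 988) (nat_lit 494582405) (nat_lit 452) (nat_lit 5) (nat_lit 464) (nat_lit 5) (nat_lit 465) (nat_lit 5) (nat_lit 370) (nat_lit 339) (nat_lit 311)) (XT.lf (nat_lit 0) (nat_lit 192886991) (nat_lit 836) (nat_lit 3262404557)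 (nat_lit 912) (nat_lit 4303892649) (nat_lit 440) (nat_lit 5) (nat_lit 451) (nat_lit 5) (nat_lit 452) (nat_lit 5) (nat_lit 371) (nat_lit 339) (nat_lit 310))) (XT.nd (nat_lit 78) (nat_lit 1748) (nat_lit 0) (XT.lf (nat_lit 0) (nat_lit 311667477) (nat_lit 912) (nat_lit 7161811764) (nat_lit 988) (nat_lit 374499481) (nat_lit 428) (nat_lit 5) (nat_lit 440) (nat_lit 5) (nat_lit 441) (nat_lit 5) (nat_lit 372) (nat_lit 339) (nat_lit 309)) (XT.nd (nat_lit 78) (nat_lit 836) (nat_lit 0) (XT.lf (nat_lit 0) (nat_lit 443534512) (nat_lit 836) (nat_lit 3157800478) (nat_lit 912) (nat_lit 4338090596) (nat_lit 416) (nat_lit 5) (nat_lit 427) (nat_lit 5) (nat_lit 428) (nat_lit 5) (nat_lit 373) (nat_lit 339) (nat_lit 308)) (XT.lf (nat_lit 0) (nat_lit 624859097) (nat_lit 836) (nat_lit 7030845133) (nat_lit 912) (nat_lit 378575164) (nat_lit 405) (nat_lit 5) (nat_lit 416) (nat_lit 5) (nat_lit 417) (nat_lit 5) (nat_lit 374)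 (nat_lit 339) (nat_lit 307))))))))
noncomputable def xc49 : XT := (XT.nd (nat_lit 1482) (nat_lit 8664) (nat_lit 0) (XT.nd (nat_lit 702) (nat_lit 5852) (nat_lit 0) (XT.nd (nat_lit 312) (nat_lit 3572) (nat_lit 0) (XT.nd (nat_lit 156) (nat_lit 1596) (nat_lit 0) (XT.nd (nat_lit 78) (nat_lit 760) (nat_lit 0) (XT.lf (nat_lit 0) (nat_lit 819052590) (nat_lit 760) (nat_lit 2813817463) (nat_lit 836) (nat_lit 4498995003) (nat_lit 394) (nat_lit 5) (nat_lit 404) (nat_lit 5) (nat_lit 405) (nat_lit 5) (nat_lit 375) (nat_lit 339) (nat_lit 306)) (XT.lf (nat_lit 0) (nat_lit 1058359753) (nat_lit 760) (nat_lit 6674664117) (nat_lit 836) (nat_lit 499834199) (nat_lit 384) (nat_lit 5) (nat_lit 394) (nat_lit 5) (nat_lit 395) (nat_lit 5) (nat_lit 376) (nat_lit 339) (nat_lit 305))) (XT.nd (nat_lit 78) (nat_lit 760) (nat_lit 0) (XT.lf (nat_lit 0) (nat_lit 1312808296) (nat_lit 760) (nat_lit 2243824444) (nat_lit 836) (nat_lit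 4780082173) (nat_lit 373) (nat_lit 5) (nat_lit 383) (nat_lit 5) (nat_lit 384) (nat_lit 5) (nat_lit 377) (nat_lit 339) (nat_lit 304)) (XT.lf (nat_lit 0) (nat_lit 1605934217) (nat_lit 760) (nat_lit 6106028216) (nat_lit 836) (nat_lit 731979759) (nat_lit 363) (nat_lit 5) (nat_lit 373) (nat_lit 5) (nat_lit 374) (nat_lit 5) (nat_lit 378) (nat_lit 339) (nat_lit 303)))) (XT.nd (nat_lit 156) (nat_lit 2128) (nat_lit 0) (XT.nd (nat_lit 78) (nat_lit 684) (nat_lit 0) (XT.lf (nat_lit 0) (nat_lit 1918826283) (nat_lit 684) (nat_lit 1459891760) (nat_lit 760) (nat_lit 5175497136) (nat_lit 353) (nat_lit 5) (nat_lit 362) (nat_lit 5) (nat_lit 363) (nat_lit 5) (nat_lit 379) (nat_lit 339) (nat_lit 302)) (XT.lf (nat_lit 0) (nat_lit 2261975564) (nat_lit 684) (nat_lit 5336463840) (nat_lit 760) (nat_lit 1069347236) (nat_lit 344) (nat_lit 5) (nat_lit 353) (nat_lit 5) (nat_lit 354) (nat_lit 5) (nat_lit 380) (nat_lit 339) (nat_lit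 301))) (XT.nd (nat_lit 78) (nat_lit 1368) (nat_lit 0) (XT.lf (nat_lit 0) (nat_lit 2631743672) (nat_lit 684) (nat_lit 472880419) (nat_lit 760) (nat_lit 5680009206) (nat_lit 334) (nat_lit 5) (nat_lit 343) (nat_lit 5) (nat_lit 344) (nat_lit 5) (nat_lit 381) (nat_lit 339) (nat_lit 300)) (XT.nd (nat_lit 78) (nat_lit 684) (nat_lit 0) (XT.lf (nat_lit 0) (nat_lit 3021462326) (nat_lit 684) (nat_lit 4376349363) (nat_lit 760) (nat_lit 1506861789) (nat_lit 325) (nat_lit 5) (nat_lit 334) (nat_lit 5) (nat_lit 335) (nat_lit 5) (nat_lit 382) (nat_lit 339) (nat_lit 299)) (XT.lf (nat_lit 0) (nat_lit 2743886143) (nat_lit 684) (nat_lit 5586088759) (nat_lit 76) (nat_lit 698197143) (nat_lit 316) (nat_lit 5) (nat_lit 325) (nat_lit 5) (nat_lit 317) (nat_lit 5) (nat_lit 383) (nat_lit 339) (nat_lit 298)))))) (XT.nd (nat_lit 390) (nat_lit 2736) (nat_lit 0) (XT.nd (nat_lit 156) (nat_lit 1824) (nat_lit 0) (XT.nd (nat_lit 78)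 (nat_lit 684) (nat_lit 0) (XT.lf (nat_lit 0) (nat_lit 3879919092) (nat_lit 608) (nat_lit 3234993357) (nat_lit 684) (nat_lit 2039999346) (nat_lit 308) (nat_lit 5) (nat_lit 316) (nat_lit 5) (nat_lit 317) (nat_lit 5) (nat_lit 384) (nat_lit 339) (nat_lit 297)) (XT.lf (nat_lit 0) (nat_lit 2300602880) (nat_lit 684) (nat_lit 4939242915) (nat_lit 76) (nat_lit 2045313843) (nat_lit 299) (nat_lit 5) (nat_lit 308) (nat_lit 5) (nat_lit 300) (nat_lit 5) (nat_lit 385) (nat_lit 339) (nat_lit 296))) (XT.nd (nat_lit 78) (nat_lit 1216) (nat_lit 0) (XT.lf (nat_lit 0) (nat_lit 4833380304) (nat_lit 608) (nat_lit 1920706503) (nat_lit 684) (nat_lit 2664750836) (nat_lit 291) (nat_lit 5) (nat_lit 299) (nat_lit 5) (nat_lit 300) (nat_lit 5) (nat_lit 386) (nat_lit 339) (nat_lit 295)) (XT.nd (nat_lit 78) (nat_lit 608) (nat_lit 0) (XT.lf (nat_lit 0) (nat_lit 1775592196) (nat_lit 608) (nat_lit 4213341937) (nat_lit 76) (nat_lit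 3567073135) (nat_lit 283) (nat_lit 5) (nat_lit 291) (nat_lit 5) (nat_lit 284) (nat_lit 5) (nat_lit 387) (nat_lit 339) (nat_lit 294)) (XT.lf (nat_lit 0) (nat_lit 5878357003) (nat_lit 608) (nat_lit 440867650) (nat_lit 684) (nat_lit 3377589395) (nat_lit 275) (nat_lit 5) (nat_lit 283) (nat_lit 5) (nat_lit 284) (nat_lit 5) (nat_lit 388) (nat_lit 339) (nat_lit 293))))) (XT.nd (nat_lit 156) (nat_lit 1596) (nat_lit 0) (XT.nd (nat_lit 78) (nat_lit 532) (nat_lit 0) (XT.lf (nat_lit 0) (nat_lit 1172294875) (nat_lit 608) (nat_lit 3412013381) (nat_lit 76) (nat_lit 5256783447) (nat_lit 267) (nat_lit 5) (nat_lit 275) (nat_lit 5) (nat_lit 268) (nat_lit 5) (nat_lit 389) (nat_lit 339) (nat_lit 292)) (XT.lf (nat_lit 0) (nat_lit 5821569072) (nat_lit 608) (nat_lit 2985203105) (nat_lit 76) (nat_lit 1182303362) (nat_lit 260) (nat_lit 5) (nat_lit 268) (nat_lit 5) (nat_lit 261) (nat_lit 5) (nat_lit 390) (nat_lit 339) (nat_lit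 291))) (XT.nd (nat_lit 78) (nat_lit 988) (nat_lit 0) (XT.lf (nat_lit 0) (nat_lit 493732740) (nat_lit 608) (nat_lit 2538481526) (nat_lit 76) (nat_lit 7108602570) (nat_lit 252) (nat_lit 5) (nat_lit 260) (nat_lit 5) (nat_lit 253) (nat_lit 5) (nat_lit 391) (nat_lit 339) (nat_lit 290)) (XT.nd (nat_lit 78) (nat_lit 456) (nat_lit 0) (XT.lf (nat_lit 0) (nat_lit 5260267111) (nat_lit 608) (nat_lit 2084817386) (nat_lit 76) (nat_lit 2951033368) (nat_lit 245) (nat_lit 5) (nat_lit 253) (nat_lit 5) (nat_lit 246) (nat_lit 5) (nat_lit 392) (nat_lit 339) (nat_lit 289)) (XT.lf (nat_lit 0) (nat_lit 8858291892) (nat_lit 456) (nat_lit 1336401197) (nat_lit 532) (nat_lit 260886926) (nat_lit 239) (nat_lit 5) (nat_lit 245) (nat_lit 5) (nat_lit 246) (nat_lit 5) (nat_lit 393) (nat_lit 339) (nat_lit 288))))))) (XT.nd (nat_lit 780) (nat_lit 3572) (nat_lit 0) (XT.nd (nat_lit 390) (nat_lit 2128) (nat_lit 0) (XT.nd (nat_lit 156)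 (nat_lit 1900) (nat_lit 0) (XT.nd (nat_lit 78) (nat_lit 456) (nat_lit 0) (XT.lf (nat_lit 0) (nat_lit 4635119497) (nat_lit 608) (nat_lit 1117082606) (nat_lit 76) (nat_lit 4866241651) (nat_lit 231) (nat_lit 5) (nat_lit 239) (nat_lit 5) (nat_lit 232) (nat_lit 5) (nat_lit 394) (nat_lit 339) (nat_lit 287)) (XT.lf (nat_lit 0) (nat_lit 9695669297) (nat_lit 532) (nat_lit 596195947) (nat_lit 76) (nat_lit 493869518) (nat_lit 225) (nat_lit 5) (nat_lit 232) (nat_lit 5) (nat_lit 226) (nat_lit 5) (nat_lit 395) (nat_lit 339) (nat_lit 286))) (XT.nd (nat_lit 78) (nat_lit 1368) (nat_lit 0) (XT.lf (nat_lit 0) (nat_lit 3948445031) (nat_lit 532) (nat_lit 84307319) (nat_lit 76) (nat_lit 6923774055) (nat_lit 218) (nat_lit 5) (nat_lit 225) (nat_lit 5) (nat_lit 219) (nat_lit 5) (nat_lit 396) (nat_lit 339) (nat_lit 285)) (XT.nd (nat_lit 78) (nat_lit 456) (nat_lit 0) (XT.lf (nat_lit 0) (nat_lit 465701126) (nat_lit 456) (nat_lit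 8690146976) (nat_lit 532) (nat_lit 1975798650) (nat_lit 206) (nat_lit 5) (nat_lit 212) (nat_lit 5) (nat_lit 213) (nat_lit 5) (nat_lit 397) (nat_lit 339) (nat_lit 284)) (XT.lf (nat_lit 0) (nat_lit 1024957457) (nat_lit 380) (nat_lit 2183936346) (nat_lit 456) (nat_lit 8101840257) (nat_lit 200) (nat_lit 5) (nat_lit 205) (nat_lit 5) (nat_lit 206) (nat_lit 5) (nat_lit 398) (nat_lit 339) (nat_lit 283))))) (XT.nd (nat_lit 156) (nat_lit 1216) (nat_lit 0) (XT.nd (nat_lit 78) (nat_lit 456) (nat_lit 0) (XT.lf (nat_lit 0) (nat_lit 1597886942) (nat_lit 456) (nat_lit 6972067908) (nat_lit 532) (nat_lit 2924024514) (nat_lit 194) (nat_lit 5) (nat_lit 200) (nat_lit 5) (nat_lit 201) (nat_lit 5) (nat_lit 399) (nat_lit 339) (nat_lit 282)) (XT.lf (nat_lit 0) (nat_lit 2197506687) (nat_lit 380) (nat_lit 214953738) (nat_lit 456) (nat_lit 9269250151) (nat_lit 188) (nat_lit 5) (nat_lit 193) (nat_lit 5) (nat_lit 194) (nat_lit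 5) (nat_lit 400) (nat_lit 339) (nat_lit 281))) (XT.nd (nat_lit 78) (nat_lit 836) (nat_lit 0) (XT.lf (nat_lit 0) (nat_lit 2790874721) (nat_lit 380) (nat_lit 5144999755) (nat_lit 456) (nat_lit 3937481481) (nat_lit 183) (nat_lit 5) (nat_lit 188) (nat_lit 5) (nat_lit 189) (nat_lit 5) (nat_lit 401) (nat_lit 339) (nat_lit 280)) (XT.nd (nat_lit 78) (nat_lit 380) (nat_lit 0) (XT.lf (nat_lit 0) (nat_lit 1572131451) (nat_lit 456) (nat_lit 8651392681) (nat_lit 76) (nat_lit 1846259238) (nat_lit 177) (nat_lit 5) (nat_lit 183) (nat_lit 5) (nat_lit 178) (nat_lit 5) (nat_lit 402) (nat_lit 339) (nat_lit 279)) (XT.lf (nat_lit 0) (nat_lit 4043370336) (nat_lit 380) (nat_lit 3211781453) (nat_lit 456) (nat_lit 5015199001) (nat_lit 172) (nat_lit 5) (nat_lit 177) (nat_lit 5) (nat_lit 178) (nat_lit 5) (nat_lit 403) (nat_lit 339) (nat_lit 278)))))) (XT.nd (nat_lit 390) (nat_lit 1748) (nat_lit 0) (XT.nd (nat_lit 156) (nat_lit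 1064) (nat_lit 0) (XT.nd (nat_lit 78) (nat_lit 380) (nat_lit 0) (XT.lf (nat_lit 0) (nat_lit 679024595) (nat_lit 380) (nat_lit 7779100103) (nat_lit 76) (nat_lit 4017616857) (nat_lit 167) (nat_lit 5) (nat_lit 172) (nat_lit 5) (nat_lit 168) (nat_lit 5) (nat_lit 404) (nat_lit 339) (nat_lit 277)) (XT.lf (nat_lit 0) (nat_lit 5354333291) (nat_lit 380) (nat_lit 1174751120) (nat_lit 456) (nat_lit 6156483696) (nat_lit 162) (nat_lit 5) (nat_lit 167) (nat_lit 5) (nat_lit 168) (nat_lit 5) (nat_lit 405) (nat_lit 339) (nat_lit 276))) (XT.nd (nat_lit 78) (nat_lit 760) (nat_lit 0) (XT.lf (nat_lit 0) (nat_lit 6030973017) (nat_lit 304) (nat_lit 6598273616) (nat_lit 380) (nat_lit 270950809) (nat_lit 158) (nat_lit 5) (nat_lit 162) (nat_lit 5) (nat_lit 163) (nat_lit 5) (nat_lit 406) (nat_lit 339) (nat_lit 275)) (XT.nd (nat_lit 78) (nat_lit 304) (nat_lit 0) (XT.lf (nat_lit 0) (nat_lit 5764997074) (nat_lit 456) (nat_lit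 6402941030) (nat_lit 76) (nat_lit 951579534) (nat_lit 152) (nat_lit 5) (nat_lit 158) (nat_lit 5) (nat_lit 153) (nat_lit 5) (nat_lit 407) (nat_lit 339) (nat_lit 274)) (XT.lf (nat_lit 0) (nat_lit 7417586035) (nat_lit 304) (nat_lit 4642808515) (nat_lit 380) (nat_lit 1283346025) (nat_lit 148) (nat_lit 5) (nat_lit 152) (nat_lit 5) (nat_lit 153) (nat_lit 5) (nat_lit 408) (nat_lit 339) (nat_lit 273))))) (XT.nd (nat_lit 156) (nat_lit 1064) (nat_lit 0) (XT.nd (nat_lit 78) (nat_lit 304) (nat_lit 0) (XT.lf (nat_lit 0) (nat_lit 4965753036) (nat_lit 380) (nat_lit 5445360566) (nat_lit 76) (nat_lit 3161711806) (nat_lit 143) (nat_lit 5) (nat_lit 148) (nat_lit 5) (nat_lit 144) (nat_lit 5) (nat_lit 409) (nat_lit 339) (nat_lit 272)) (XT.lf (nat_lit 0) (nat_lit 8860575287) (nat_lit 304) (nat_lit 2597827249) (nat_lit 380) (nat_lit 2348740331) (nat_lit 139) (nat_lit 5) (nat_lit 143) (nat_lit 5) (nat_lit 144) (nat_lit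 5) (nat_lit 410) (nat_lit 339) (nat_lit 271))) (XT.nd (nat_lit 78) (nat_lit 684) (nat_lit 0) (XT.lf (nat_lit 0) (nat_lit 4124353054) (nat_lit 380) (nat_lit 4451920088) (nat_lit 76) (nat_lit 5470069679) (nat_lit 134) (nat_lit 5) (nat_lit 139) (nat_lit 5) (nat_lit 135) (nat_lit 5) (nat_lit 411) (nat_lit 339) (nat_lit 270)) (XT.nd (nat_lit 78) (nat_lit 380) (nat_lit 0) (XT.lf (nat_lit 0) (nat_lit 10359685065) (nat_lit 304) (nat_lit 464477351) (nat_lit 380) (nat_lit 3466957186) (nat_lit 130) (nat_lit 5) (nat_lit 134) (nat_lit 5) (nat_lit 135) (nat_lit 5) (nat_lit 412) (nat_lit 339) (nat_lit 269)) (XT.lf (nat_lit 0) (nat_lit 3241228878) (nat_lit 380) (nat_lit 3423506472) (nat_lit 76) (nat_lit 7876066552) (nat_lit 125) (nat_lit 5) (nat_lit 130) (nat_lit 5) (nat_lit 126) (nat_lit 5) (nat_lit 413) (nat_lit 339) (nat_lit 268))))))))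
noncomputable def xc50 : XT := (XT.nd (nat_lit 47736) (nat_lit 0) (nat_lit 38836) (XT.nd (nat_lit 702) (nat_lit 1216) (nat_lit 0) (XT.nd (nat_lit 312) (nat_lit 1596) (nat_lit 0) (XT.nd (nat_lit 156) (nat_lit 608) (nat_lit 0) (XT.nd (nat_lit 78) (nat_lit 380) (nat_lit 0) (XT.lf (nat_lit 0) (nat_lit 10169792851) (nat_lit 304) (nat_lit 2892968421) (nat_lit 76) (nat_lit 1733430372) (nat_lit 122) (nat_lit 5) (nat_lit 126) (nat_lit 5) (nat_lit 123) (nat_lit 5) (nat_lit 414) (nat_lit 339) (nat_lit 267)) (XT.lf (nat_lit 0) (nat_lit 2316625157) (nat_lit 380) (nat_lit 2360850324) (nat_lit 76) (nat_lit 10379493344) (nat_lit 117) (nat_lit 5) (nat_lit 122) (nat_lit 5) (nat_lit 118) (nat_lit 5) (nat_lit 415) (nat_lit 339) (nat_lit 266))) (XT.nd (nat_lit 78) (nat_lit 380) (nat_lit 0) (XT.lf (nat_lit 0) (nat_lit 9488017886) (nat_lit 304) (nat_lit 1824003865) (nat_lit 76) (nat_lit 4011277307) (nat_lit 114) (nat_lit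 5) (nat_lit 118) (nat_lit 5) (nat_lit 115) (nat_lit 5) (nat_lit 416) (nat_lit 339) (nat_lit 265)) (XT.lf (nat_lit 0) (nat_lit 1350607649) (nat_lit 380) (nat_lit 1264535880) (nat_lit 76) (nat_lit 12980501421) (nat_lit 109) (nat_lit 5) (nat_lit 114) (nat_lit 5) (nat_lit 110) (nat_lit 5) (nat_lit 417) (nat_lit 339) (nat_lit 264)))) (XT.nd (nat_lit 156) (nat_lit 988) (nat_lit 0) (XT.nd (nat_lit 78) (nat_lit 380) (nat_lit 0) (XT.lf (nat_lit 0) (nat_lit 8776208183) (nat_lit 304) (nat_lit 722039485) (nat_lit 76) (nat_lit 6375073854) (nat_lit 106) (nat_lit 5) (nat_lit 110) (nat_lit 5) (nat_lit 107) (nat_lit 5) (nat_lit 418) (nat_lit 339) (nat_lit 263)) (XT.lf (nat_lit 0) (nat_lit 343070542) (nat_lit 380) (nat_lit 135010098) (nat_lit 76) (nat_lit 15679587288) (nat_lit 101) (nat_lit 5) (nat_lit 106) (nat_lit 5) (nat_lit 102) (nat_lit 5) (nat_lit 419) (nat_lit 339) (nat_lit 262))) (XT.nd (nat_lit 78) (nat_lit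 532) (nat_lit 0) (XT.lf (nat_lit 0) (nat_lit 418024286) (nat_lit 228) (nat_lit 7619289947) (nat_lit 304) (nat_lit 8409746731) (nat_lit 95) (nat_lit 5) (nat_lit 98) (nat_lit 5) (nat_lit 99) (nat_lit 5) (nat_lit 420) (nat_lit 339) (nat_lit 261)) (XT.nd (nat_lit 78) (nat_lit 304) (nat_lit 0) (XT.lf (nat_lit 0) (nat_lit 1024917656) (nat_lit 228) (nat_lit 15021200772) (nat_lit 304) (nat_lit 697342698) (nat_lit 92) (nat_lit 5) (nat_lit 95) (nat_lit 5) (nat_lit 96) (nat_lit 5) (nat_lit 421) (nat_lit 339) (nat_lit 260)) (XT.lf (nat_lit 0) (nat_lit 1600471109) (nat_lit 228) (nat_lit 5673207089) (nat_lit 304) (nat_lit 9771688462) (nat_lit 88) (nat_lit 5) (nat_lit 91) (nat_lit 5) (nat_lit 92) (nat_lit 5) (nat_lit 422) (nat_lit 339) (nat_lit 259)))))) (XT.nd (nat_lit 46644) (nat_lit 0) (nat_lit 55328) (XT.nd (nat_lit 156) (nat_lit 684) (nat_lit 0) (XT.nd (nat_lit 78) (nat_lit 304) (nat_lit 0) (XT.lf (nat_lit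 0) (nat_lit 2213547031) (nat_lit 228) (nat_lit 13360365486) (nat_lit 304) (nat_lit 1780333515) (nat_lit 85) (nat_lit 5) (nat_lit 88) (nat_lit 5) (nat_lit 89) (nat_lit 5) (nat_lit 423) (nat_lit 339) (nat_lit 258)) (XT.lf (nat_lit 0) (nat_lit 2815560345) (nat_lit 228) (nat_lit 3664944321) (nat_lit 304) (nat_lit 11188762558) (nat_lit 81) (nat_lit 5) (nat_lit 84) (nat_lit 5) (nat_lit 85) (nat_lit 5) (nat_lit 424) (nat_lit 339) (nat_lit 257))) (XT.nd (nat_lit 78) (nat_lit 456) (nat_lit 0) (XT.lf (nat_lit 0) (nat_lit 3434440425) (nat_lit 228) (nat_lit 11650676831) (nat_lit 304) (nat_lit 2905983695) (nat_lit 78) (nat_lit 5) (nat_lit 81) (nat_lit 5) (nat_lit 82) (nat_lit 5) (nat_lit 425) (nat_lit 339) (nat_lit 256)) (XT.nd (nat_lit 78) (nat_lit 152) (nat_lit 0) (XT.lf (nat_lit 0) (nat_lit 4063257874) (nat_lit 228) (nat_lit 1594359269) (nat_lit 304) (nat_lit 12662119782) (nat_lit 74) (nat_lit 5) (nat_lit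 77) (nat_lit 5) (nat_lit 78) (nat_lit 5) (nat_lit 426) (nat_lit 339) (nat_lit 255)) (XT.lf (nat_lit 0) (nat_lit 4687613544) (nat_lit 152) (nat_lit 9892374656) (nat_lit 228) (nat_lit 4075032746) (nat_lit 72) (nat_lit 5) (nat_lit 74) (nat_lit 5) (nat_lit 75) (nat_lit 5) (nat_lit 427) (nat_lit 339) (nat_lit 254))))) (XT.nd (nat_lit 156) (nat_lit 608) (nat_lit 0) (XT.nd (nat_lit 78) (nat_lit 76) (nat_lit 0) (XT.lf (nat_lit 0) (nat_lit 1073741823) (nat_lit 0) (nat_lit 0) (nat_lit 0) (nat_lit 0) (nat_lit 809) (nat_lit 0) (nat_lit 1) (nat_lit 0) (nat_lit 1) (nat_lit 0) (nat_lit 340) (nat_lit 340) (nat_lit 340)) (XT.lf (nat_lit 0) (nat_lit 4769704366) (nat_lit 76) (nat_lit 1595389944) (nat_lit 0) (nat_lit 78599309) (nat_lit 808) (nat_lit 5) (nat_lit 809) (nat_lit 0) (nat_lit 808) (nat_lit 4) (nat_lit 341) (nat_lit 340) (nat_lit 339))) (XT.nd (nat_lit 78) (nat_lit 456) (nat_lit 0) (XT.lf (nat_lit 0) (nat_lit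 3030165367) (nat_lit 152) (nat_lit 3124641942) (nat_lit 76) (nat_lit 293043868) (nat_lit 806) (nat_lit 5) (nat_lit 808) (nat_lit 5) (nat_lit 807) (nat_lit 4) (nat_lit 342) (nat_lit 340) (nat_lit 338)) (XT.nd (nat_lit 78) (nat_lit 228) (nat_lit 0) (XT.lf (nat_lit 0) (nat_lit 1222609083) (nat_lit 228) (nat_lit 4588755876) (nat_lit 76) (nat_lit 643561479) (nat_lit 803) (nat_lit 5) (nat_lit 806) (nat_lit 5) (nat_lit 804) (nat_lit 5) (nat_lit 343) (nat_lit 340) (nat_lit 337)) (XT.lf (nat_lit 0) (nat_lit 471874068) (nat_lit 228) (nat_lit 5330006574) (nat_lit 304) (nat_lit 662957483) (nat_lit 800) (nat_lit 5) (nat_lit 803) (nat_lit 5) (nat_lit 804) (nat_lit 5) (nat_lit 344) (nat_lit 340) (nat_lit 336))))))) (XT.nd (nat_lit 780) (nat_lit 11400) (nat_lit 0) (XT.nd (nat_lit 390) (nat_lit 3116) (nat_lit 0) (XT.nd (nat_lit 156) (nat_lit 1520) (nat_lit 0) (XT.nd (nat_lit 78) (nat_lit 380) (nat_lit 0) (XT.lf (nat_lit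 0) (nat_lit 3846724984) (nat_lit 304) (nat_lit 853475801) (nat_lit 76) (nat_lit 1777195862) (nat_lit 799) (nat_lit 5) (nat_lit 803) (nat_lit 5) (nat_lit 800) (nat_lit 5) (nat_lit 345) (nat_lit 340) (nat_lit 335)) (XT.lf (nat_lit 0) (nat_lit 1824046314) (nat_lit 380) (nat_lit 2108466893) (nat_lit 76) (nat_lit 2560317729) (nat_lit 794) (nat_lit 5) (nat_lit 799) (nat_lit 5) (nat_lit 795) (nat_lit 5) (nat_lit 346) (nat_lit 340) (nat_lit 334))) (XT.nd (nat_lit 78) (nat_lit 1140) (nat_lit 0) (XT.lf (nat_lit 0) (nat_lit 3209404153) (nat_lit 380) (nat_lit 3027428428) (nat_lit 456) (nat_lit 274344553) (nat_lit 789) (nat_lit 5) (nat_lit 794) (nat_lit 5) (nat_lit 795) (nat_lit 5) (nat_lit 347) (nat_lit 340) (nat_lit 333)) (XT.nd (nat_lit 78) (nat_lit 608) (nat_lit 0) (XT.lf (nat_lit 0) (nat_lit 2087503336) (nat_lit 456) (nat_lit 1973057273) (nat_lit 532) (nat_lit 2471673048) (nat_lit 782) (nat_lit 5) (nat_lit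 788) (nat_lit 5) (nat_lit 789) (nat_lit 5) (nat_lit 348) (nat_lit 340) (nat_lit 332)) (XT.lf (nat_lit 0) (nat_lit 1030344550) (nat_lit 532) (nat_lit 780509369) (nat_lit 608) (nat_lit 4745400886) (nat_lit 774) (nat_lit 5) (nat_lit 781) (nat_lit 5) (nat_lit 782) (nat_lit 5) (nat_lit 349) (nat_lit 340) (nat_lit 331))))) (XT.nd (nat_lit 156) (nat_lit 2432) (nat_lit 0) (XT.nd (nat_lit 78) (nat_lit 76) (nat_lit 0) (XT.lf (nat_lit 0) (nat_lit 30365761) (nat_lit 608) (nat_lit 6035496813) (nat_lit 684) (nat_lit 517255533) (nat_lit 766) (nat_lit 5) (nat_lit 774) (nat_lit 5) (nat_lit 775) (nat_lit 5) (nat_lit 350) (nat_lit 340) (nat_lit 330)) (XT.lf (nat_lit 0) (nat_lit 3677181332) (nat_lit 684) (nat_lit 912371836) (nat_lit 76) (nat_lit 2022940205) (nat_lit 765) (nat_lit 5) (nat_lit 774) (nat_lit 5) (nat_lit 766) (nat_lit 5) (nat_lit 351) (nat_lit 340) (nat_lit 329))) (XT.nd (nat_lit 78) (nat_lit 1672) (nat_lit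 0) (XT.lf (nat_lit 0) (nat_lit 1212209322) (nat_lit 760) (nat_lit 1793482762) (nat_lit 76) (nat_lit 3639171562) (nat_lit 755) (nat_lit 5) (nat_lit 765) (nat_lit 5) (nat_lit 756) (nat_lit 5) (nat_lit 352) (nat_lit 340) (nat_lit 328)) (XT.nd (nat_lit 78) (nat_lit 912) (nat_lit 0) (XT.lf (nat_lit 0) (nat_lit 4057671242) (nat_lit 760) (nat_lit 1273472992) (nat_lit 836) (nat_lit 1348935402) (nat_lit 745) (nat_lit 5) (nat_lit 755) (nat_lit 5) (nat_lit 756) (nat_lit 5) (nat_lit 353) (nat_lit 340) (nat_lit 327)) (XT.lf (nat_lit 0) (nat_lit 2714307785) (nat_lit 912) (nat_lit 3403061160) (nat_lit 76) (nat_lit 600722398) (nat_lit 733) (nat_lit 5) (nat_lit 745) (nat_lit 5) (nat_lit 734) (nat_lit 5) (nat_lit 354) (nat_lit 340) (nat_lit 326)))))) (XT.nd (nat_lit 390) (nat_lit 5852) (nat_lit 0) (XT.nd (nat_lit 156) (nat_lit 3572) (nat_lit 0) (XT.nd (nat_lit 78) (nat_lit 988) (nat_lit 0) (XT.lf (nat_lit 0) (nat_lit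 25925369) (nat_lit 988) (nat_lit 4132871897) (nat_lit 76) (nat_lit 2600181778) (nat_lit 720) (nat_lit 5) (nat_lit 733) (nat_lit 5) (nat_lit 721) (nat_lit 5) (nat_lit 355) (nat_lit 340) (nat_lit 325)) (XT.lf (nat_lit 0) (nat_lit 1980848049) (nat_lit 988) (nat_lit 2040757272) (nat_lit 1064) (nat_lit 2780969245) (nat_lit 707) (nat_lit 5) (nat_lit 720) (nat_lit 5) (nat_lit 721) (nat_lit 5) (nat_lit 356) (nat_lit 340) (nat_lit 324))) (XT.nd (nat_lit 78) (nat_lit 2432) (nat_lit 0) (XT.lf (nat_lit 0) (nat_lit 1177015404) (nat_lit 1140) (nat_lit 5453758827) (nat_lit 76) (nat_lit 218451213) (nat_lit 692) (nat_lit 5) (nat_lit 707) (nat_lit 5) (nat_lit 693) (nat_lit 5) (nat_lit 357) (nat_lit 340) (nat_lit 323)) (XT.nd (nat_lit 78) (nat_lit 1292) (nat_lit 0) (XT.lf (nat_lit 0) (nat_lit 845515165) (nat_lit 1140) (nat_lit 4291722466) (nat_lit 1216) (nat_lit 1761244964) (nat_lit 677) (nat_lit 5) (nat_lit 692) (nat_lit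 5) (nat_lit 693) (nat_lit 5) (nat_lit 358) (nat_lit 340) (nat_lit 322)) (XT.lf (nat_lit 0) (nat_lit 347812220) (nat_lit 1216) (nat_lit 1800320284) (nat_lit 1292) (nat_lit 4802574249) (nat_lit 660) (nat_lit 5) (nat_lit 676) (nat_lit 5) (nat_lit 677) (nat_lit 5) (nat_lit 359) (nat_lit 340) (nat_lit 321))))) (XT.nd (nat_lit 156) (nat_lit 4484) (nat_lit 0) (XT.nd (nat_lit 78) (nat_lit 1368) (nat_lit 0) (XT.lf (nat_lit 0) (nat_lit 6071879300) (nat_lit 1292) (nat_lit 99982484) (nat_lit 76) (nat_lit 833982685) (nat_lit 660) (nat_lit 5) (nat_lit 677) (nat_lit 5) (nat_lit 661) (nat_lit 5) (nat_lit 360) (nat_lit 340) (nat_lit 320)) (XT.lf (nat_lit 0) (nat_lit 2943231071) (nat_lit 1368) (nat_lit 510923747) (nat_lit 76) (nat_lit 3609434568) (nat_lit 642) (nat_lit 5) (nat_lit 660) (nat_lit 5) (nat_lit 643) (nat_lit 5) (nat_lit 361) (nat_lit 340) (nat_lit 319))) (XT.nd (nat_lit 78) (nat_lit 3116) (nat_lit 0) (XT.lf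 (nat_lit 0) (nat_lit 6259319886) (nat_lit 1368) (nat_lit 586520980) (nat_lit 1444) (nat_lit 278666584) (nat_lit 624) (nat_lit 5) (nat_lit 642) (nat_lit 5) (nat_lit 643) (nat_lit 5) (nat_lit 362) (nat_lit 340) (nat_lit 318)) (XT.nd (nat_lit 78) (nat_lit 1596) (nat_lit 0) (XT.lf (nat_lit 0) (nat_lit 3570916307) (nat_lit 1520) (nat_lit 1196507507) (nat_lit 76) (nat_lit 2420533970) (nat_lit 604) (nat_lit 5) (nat_lit 624) (nat_lit 5) (nat_lit 605) (nat_lit 5) (nat_lit 363) (nat_lit 340) (nat_lit 317)) (XT.lf (nat_lit 0) (nat_lit 207569421) (nat_lit 1596) (nat_lit 1474003456) (nat_lit 76) (nat_lit 5573019660) (nat_lit 583) (nat_lit 5) (nat_lit 604) (nat_lit 5) (nat_lit 584) (nat_lit 5) (nat_lit 364) (nat_lit 340) (nat_lit 316))))))))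
noncomputable def xc51 : XT := (XT.nd (nat_lit 1560) (nat_lit 10944) (nat_lit 0) (XT.nd (nat_lit 780) (nat_lit 7524) (nat_lit 0) (XT.nd (nat_lit 390) (nat_lit 4636) (nat_lit 0) (XT.nd (nat_lit 156) (nat_lit 4788) (nat_lit 0) (XT.nd (nat_lit 78) (nat_lit 1748) (nat_lit 0) (XT.lf (nat_lit 0) (nat_lit 4040209589) (nat_lit 1672) (nat_lit 1725050169) (nat_lit 76) (nat_lit 1558639754) (nat_lit 562) (nat_lit 5) (nat_lit 584) (nat_lit 5) (nat_lit 563) (nat_lit 5) (nat_lit 365) (nat_lit 340) (nat_lit 315)) (XT.lf (nat_lit 0) (nat_lit 531256205) (nat_lit 1748) (nat_lit 1931433408) (nat_lit 76) (nat_lit 4933589454) (nat_lit 539) (nat_lit 5) (nat_lit 562) (nat_lit 5) (nat_lit 540) (nat_lit 5) (nat_lit 366) (nat_lit 340) (nat_lit 314))) (XT.nd (nat_lit 78) (nat_lit 3040) (nat_lit 0) (XT.lf (nat_lit 0) (nat_lit 4361409013) (nat_lit 1824) (nat_lit 2107131841) (nat_lit 76) (nat_lit 1002947637) (nat_lit 516) (nat_lit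 5) (nat_lit 540) (nat_lit 5) (nat_lit 517) (nat_lit 5) (nat_lit 367) (nat_lit 340) (nat_lit 313)) (XT.nd (nat_lit 78) (nat_lit 1140) (nat_lit 0) (XT.lf (nat_lit 0) (nat_lit 705839148) (nat_lit 1900) (nat_lit 2245887985) (nat_lit 76) (nat_lit 4597963462) (nat_lit 491) (nat_lit 5) (nat_lit 516) (nat_lit 5) (nat_lit 492) (nat_lit 5) (nat_lit 368) (nat_lit 340) (nat_lit 312)) (XT.lf (nat_lit 0) (nat_lit 4543901590) (nat_lit 1216) (nat_lit 2352434406) (nat_lit 76) (nat_lit 734493212) (nat_lit 476) (nat_lit 5) (nat_lit 492) (nat_lit 5) (nat_lit 477) (nat_lit 5) (nat_lit 369) (nat_lit 340) (nat_lit 311))))) (XT.nd (nat_lit 156) (nat_lit 2736) (nat_lit 0) (XT.nd (nat_lit 78) (nat_lit 912) (nat_lit 0) (XT.lf (nat_lit 0) (nat_lit 740215934) (nat_lit 988) (nat_lit 2426713550) (nat_lit 76) (nat_lit 4548015313) (nat_lit 463) (nat_lit 5) (nat_lit 476) (nat_lit 5) (nat_lit 464) (nat_lit 5) (nat_lit 370) (nat_lit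 340) (nat_lit 310)) (XT.lf (nat_lit 0) (nat_lit 4596228126) (nat_lit 988) (nat_lit 2469807182) (nat_lit 76) (nat_lit 736020581) (nat_lit 451) (nat_lit 5) (nat_lit 464) (nat_lit 5) (nat_lit 452) (nat_lit 5) (nat_lit 371) (nat_lit 340) (nat_lit 309))) (XT.nd (nat_lit 78) (nat_lit 1824) (nat_lit 0) (XT.lf (nat_lit 0) (nat_lit 642453973) (nat_lit 912) (nat_lit 2482446662) (nat_lit 76) (nat_lit 4767288256) (nat_lit 439) (nat_lit 5) (nat_lit 451) (nat_lit 5) (nat_lit 440) (nat_lit 5) (nat_lit 372) (nat_lit 340) (nat_lit 308)) (XT.nd (nat_lit 78) (nat_lit 912) (nat_lit 0) (XT.lf (nat_lit 0) (nat_lit 4526142983) (nat_lit 988) (nat_lit 2467327491) (nat_lit 76) (nat_lit 991861329) (nat_lit 427) (nat_lit 5) (nat_lit 440) (nat_lit 5) (nat_lit 428) (nat_lit 5) (nat_lit 373) (nat_lit 340) (nat_lit 307)) (XT.lf (nat_lit 0) (nat_lit 419848060) (nat_lit 912) (nat_lit 2420872820) (nat_lit 76) (nat_lit 5240878094)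 (nat_lit 415) (nat_lit 5) (nat_lit 427) (nat_lit 5) (nat_lit 416) (nat_lit 5) (nat_lit 374) (nat_lit 340) (nat_lit 306)))))) (XT.nd (nat_lit 390) (nat_lit 3496) (nat_lit 0) (XT.nd (nat_lit 156) (nat_lit 2356) (nat_lit 0) (XT.nd (nat_lit 78) (nat_lit 836) (nat_lit 0) (XT.lf (nat_lit 0) (nat_lit 4340669091) (nat_lit 912) (nat_lit 2352356526) (nat_lit 76) (nat_lit 1487823044) (nat_lit 404) (nat_lit 5) (nat_lit 416) (nat_lit 5) (nat_lit 405) (nat_lit 5) (nat_lit 375) (nat_lit 340) (nat_lit 305)) (XT.lf (nat_lit 0) (nat_lit 78973427) (nat_lit 836) (nat_lit 2249080638) (nat_lit 76) (nat_lit 5955325419) (nat_lit 393) (nat_lit 5) (nat_lit 404) (nat_lit 5) (nat_lit 394) (nat_lit 5) (nat_lit 376) (nat_lit 340) (nat_lit 304))) (XT.nd (nat_lit 78) (nat_lit 1596) (nat_lit 0) (XT.lf (nat_lit 0) (nat_lit 4046148576) (nat_lit 836) (nat_lit 2131590867) (nat_lit 76) (nat_lit 2211086706) (nat_lit 383) (nat_lit 5) (nat_lit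 394) (nat_lit 5) (nat_lit 384) (nat_lit 5) (nat_lit 377) (nat_lit 340) (nat_lit 303)) (XT.nd (nat_lit 78) (nat_lit 836) (nat_lit 0) (XT.lf (nat_lit 0) (nat_lit 6521739448) (nat_lit 760) (nat_lit 1596734775) (nat_lit 836) (nat_lit 379239287) (nat_lit 373) (nat_lit 5) (nat_lit 383) (nat_lit 5) (nat_lit 384) (nat_lit 5) (nat_lit 378) (nat_lit 340) (nat_lit 302)) (XT.lf (nat_lit 0) (nat_lit 3648289320) (nat_lit 836) (nat_lit 1811109976) (nat_lit 76) (nat_lit 3150112255) (nat_lit 362) (nat_lit 5) (nat_lit 373) (nat_lit 5) (nat_lit 363) (nat_lit 5) (nat_lit 379) (nat_lit 340) (nat_lit 301))))) (XT.nd (nat_lit 156) (nat_lit 2052) (nat_lit 0) (XT.nd (nat_lit 78) (nat_lit 760) (nat_lit 0) (XT.lf (nat_lit 0) (nat_lit 7118730050) (nat_lit 684) (nat_lit 659145190) (nat_lit 760) (nat_lit 947010482) (nat_lit 353) (nat_lit 5) (nat_lit 362) (nat_lit 5) (nat_lit 363) (nat_lit 5) (nat_lit 380) (nat_lit 340) (nat_lit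 300)) (XT.lf (nat_lit 0) (nat_lit 3152207751) (nat_lit 760) (nat_lit 1396419963) (nat_lit 76) (nat_lit 4294551750) (nat_lit 343) (nat_lit 5) (nat_lit 353) (nat_lit 5) (nat_lit 344) (nat_lit 5) (nat_lit 381) (nat_lit 340) (nat_lit 299))) (XT.nd (nat_lit 78) (nat_lit 1368) (nat_lit 0) (XT.lf (nat_lit 0) (nat_lit 7349738344) (nat_lit 760) (nat_lit 1147436004) (nat_lit 76) (nat_lit 467958437) (nat_lit 334) (nat_lit 5) (nat_lit 344) (nat_lit 5) (nat_lit 335) (nat_lit 5) (nat_lit 382) (nat_lit 340) (nat_lit 298)) (XT.nd (nat_lit 78) (nat_lit 608) (nat_lit 0) (XT.lf (nat_lit 0) (nat_lit 2562468144) (nat_lit 760) (nat_lit 892493919) (nat_lit 76) (nat_lit 5635169558) (nat_lit 324) (nat_lit 5) (nat_lit 334) (nat_lit 5) (nat_lit 325) (nat_lit 5) (nat_lit 383) (nat_lit 340) (nat_lit 297)) (XT.lf (nat_lit 0) (nat_lit 6840993777) (nat_lit 684) (nat_lit 606964422) (nat_lit 76) (nat_lit 1770763186) (nat_lit 316)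 (nat_lit 5) (nat_lit 325) (nat_lit 5) (nat_lit 317) (nat_lit 5) (nat_lit 384) (nat_lit 340) (nat_lit 296))))))) (XT.nd (nat_lit 780) (nat_lit 4484) (nat_lit 0) (XT.nd (nat_lit 390) (nat_lit 2736) (nat_lit 0) (XT.nd (nat_lit 156) (nat_lit 1824) (nat_lit 0) (XT.nd (nat_lit 78) (nat_lit 1216) (nat_lit 0) (XT.lf (nat_lit 0) (nat_lit 1883118689) (nat_lit 684) (nat_lit 303809049) (nat_lit 76) (nat_lit 7163769050) (nat_lit 307) (nat_lit 5) (nat_lit 316) (nat_lit 5) (nat_lit 308) (nat_lit 5) (nat_lit 385) (nat_lit 340) (nat_lit 295)) (XT.lf (nat_lit 0) (nat_lit 15538420) (nat_lit 608) (nat_lit 6235897040) (nat_lit 684) (nat_lit 3234642677) (nat_lit 291) (nat_lit 5) (nat_lit 299) (nat_lit 5) (nat_lit 300) (nat_lit 5) (nat_lit 386) (nat_lit 340) (nat_lit 294))) (XT.nd (nat_lit 78) (nat_lit 1216) (nat_lit 0) (XT.lf (nat_lit 0) (nat_lit 370478013) (nat_lit 532) (nat_lit 749651937) (nat_lit 608) (nat_lit 8505052707)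 (nat_lit 283) (nat_lit 5) (nat_lit 290) (nat_lit 5) (nat_lit 291) (nat_lit 5) (nat_lit 387) (nat_lit 340) (nat_lit 293)) (XT.nd (nat_lit 78) (nat_lit 608) (nat_lit 0) (XT.lf (nat_lit 0) (nat_lit 725209422) (nat_lit 608) (nat_lit 4863778330) (nat_lit 684) (nat_lit 4178497177) (nat_lit 275) (nat_lit 5) (nat_lit 283) (nat_lit 5) (nat_lit 284) (nat_lit 5) (nat_lit 388) (nat_lit 340) (nat_lit 292)) (XT.lf (nat_lit 0) (nat_lit 282235861) (nat_lit 608) (nat_lit 8792504684) (nat_lit 76) (nat_lit 839119146) (nat_lit 267) (nat_lit 5) (nat_lit 275) (nat_lit 5) (nat_lit 268) (nat_lit 5) (nat_lit 389) (nat_lit 340) (nat_lit 291))))) (XT.nd (nat_lit 156) (nat_lit 1672) (nat_lit 0) (XT.nd (nat_lit 78) (nat_lit 532) (nat_lit 0) (XT.lf (nat_lit 0) (nat_lit 1510585993) (nat_lit 532) (nat_lit 3342142757) (nat_lit 608) (nat_lit 5210690404) (nat_lit 260) (nat_lit 5) (nat_lit 267) (nat_lit 5) (nat_lit 268) (nat_lit 5)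 (nat_lit 390) (nat_lit 340) (nat_lit 290)) (XT.lf (nat_lit 0) (nat_lit 1936975318) (nat_lit 532) (nat_lit 7642202314) (nat_lit 608) (nat_lit 637910944) (nat_lit 253) (nat_lit 5) (nat_lit 260) (nat_lit 5) (nat_lit 261) (nat_lit 5) (nat_lit 391) (nat_lit 340) (nat_lit 289))) (XT.nd (nat_lit 78) (nat_lit 1064) (nat_lit 0) (XT.lf (nat_lit 0) (nat_lit 2368660569) (nat_lit 532) (nat_lit 1676673121) (nat_lit 608) (nat_lit 6328971872) (nat_lit 245) (nat_lit 5) (nat_lit 252) (nat_lit 5) (nat_lit 253) (nat_lit 5) (nat_lit 392) (nat_lit 340) (nat_lit 288)) (XT.nd (nat_lit 78) (nat_lit 608) (nat_lit 0) (XT.lf (nat_lit 0) (nat_lit 2821307900) (nat_lit 456) (nat_lit 6074790002) (nat_lit 532) (nat_lit 1639343045) (nat_lit 239) (nat_lit 5) (nat_lit 245) (nat_lit 5) (nat_lit 246) (nat_lit 5) (nat_lit 393) (nat_lit 340) (nat_lit 287)) (XT.lf (nat_lit 0) (nat_lit 3169934906) (nat_lit 608) (nat_lit 7404636619) (nat_lit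 76) (nat_lit 126008300) (nat_lit 231) (nat_lit 5) (nat_lit 239) (nat_lit 5) (nat_lit 232) (nat_lit 5) (nat_lit 394) (nat_lit 340) (nat_lit 286)))))) (XT.nd (nat_lit 390) (nat_lit 2128) (nat_lit 0) (XT.nd (nat_lit 156) (nat_lit 1368) (nat_lit 0) (XT.nd (nat_lit 78) (nat_lit 532) (nat_lit 0) (XT.lf (nat_lit 0) (nat_lit 3773796525) (nat_lit 456) (nat_lit 4379205469) (nat_lit 532) (nat_lit 2716418493) (nat_lit 225) (nat_lit 5) (nat_lit 231) (nat_lit 5) (nat_lit 232) (nat_lit 5) (nat_lit 395) (nat_lit 340) (nat_lit 285)) (XT.lf (nat_lit 0) (nat_lit 2239417027) (nat_lit 532) (nat_lit 6763523965) (nat_lit 76) (nat_lit 2039562424) (nat_lit 218) (nat_lit 5) (nat_lit 225) (nat_lit 5) (nat_lit 219) (nat_lit 5) (nat_lit 396) (nat_lit 340) (nat_lit 284))) (XT.nd (nat_lit 78) (nat_lit 912) (nat_lit 0) (XT.lf (nat_lit 0) (nat_lit 4792316313) (nat_lit 456) (nat_lit 2559605633) (nat_lit 532) (nat_lit 3867599781)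 (nat_lit 212) (nat_lit 5) (nat_lit 218) (nat_lit 5) (nat_lit 219) (nat_lit 5) (nat_lit 397) (nat_lit 340) (nat_lit 283)) (XT.nd (nat_lit 78) (nat_lit 380) (nat_lit 0) (XT.lf (nat_lit 0) (nat_lit 1244494220) (nat_lit 532) (nat_lit 6073892403) (nat_lit 76) (nat_lit 4082416263) (nat_lit 205) (nat_lit 5) (nat_lit 212) (nat_lit 5) (nat_lit 206) (nat_lit 5) (nat_lit 398) (nat_lit 340) (nat_lit 282)) (XT.lf (nat_lit 0) (nat_lit 5875047221) (nat_lit 380) (nat_lit 619536267) (nat_lit 456) (nat_lit 5091684137) (nat_lit 200) (nat_lit 5) (nat_lit 205) (nat_lit 5) (nat_lit 206) (nat_lit 5) (nat_lit 399) (nat_lit 340) (nat_lit 281))))) (XT.nd (nat_lit 156) (nat_lit 1216) (nat_lit 0) (XT.nd (nat_lit 78) (nat_lit 380) (nat_lit 0) (XT.lf (nat_lit 0) (nat_lit 186459177) (nat_lit 532) (nat_lit 5337947720) (nat_lit 76) (nat_lit 6251608835) (nat_lit 193) (nat_lit 5) (nat_lit 200) (nat_lit 5) (nat_lit 194) (nat_lit 5)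 (nat_lit 400) (nat_lit 340) (nat_lit 280)) (XT.lf (nat_lit 0) (nat_lit 5591760379) (nat_lit 456) (nat_lit 4959091453) (nat_lit 76) (nat_lit 1419171538) (nat_lit 188) (nat_lit 5) (nat_lit 194) (nat_lit 5) (nat_lit 189) (nat_lit 5) (nat_lit 401) (nat_lit 340) (nat_lit 279))) (XT.nd (nat_lit 78) (nat_lit 836) (nat_lit 0) (XT.lf (nat_lit 0) (nat_lit 7604794675) (nat_lit 380) (nat_lit 3617696359) (nat_lit 456) (nat_lit 946094795) (nat_lit 183) (nat_lit 5) (nat_lit 188) (nat_lit 5) (nat_lit 189) (nat_lit 5) (nat_lit 402) (nat_lit 340) (nat_lit 278)) (XT.nd (nat_lit 78) (nat_lit 380) (nat_lit 0) (XT.lf (nat_lit 0) (nat_lit 4640050062) (nat_lit 456) (nat_lit 4168097926) (nat_lit 76) (nat_lit 3563313789) (nat_lit 177) (nat_lit 5) (nat_lit 183) (nat_lit 5) (nat_lit 178) (nat_lit 5) (nat_lit 403) (nat_lit 340) (nat_lit 277)) (XT.lf (nat_lit 0) (nat_lit 8830561094) (nat_lit 380) (nat_lit 1605310823) (nat_lit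 456) (nat_lit 2143328086) (nat_lit 172) (nat_lit 5) (nat_lit 177) (nat_lit 5) (nat_lit 178) (nat_lit 5) (nat_lit 404) (nat_lit 340) (nat_lit 276))))))))
noncomputable def xc52 : XT := (XT.nd (nat_lit 1482) (nat_lit 1064) (nat_lit 0) (XT.nd (nat_lit 702) (nat_lit 2888) (nat_lit 0) (XT.nd (nat_lit 312) (nat_lit 1976) (nat_lit 0) (XT.nd (nat_lit 156) (nat_lit 760) (nat_lit 0) (XT.nd (nat_lit 78) (nat_lit 380) (nat_lit 0) (XT.lf (nat_lit 0) (nat_lit 3636324243) (nat_lit 380) (nat_lit 3335828364) (nat_lit 76) (nat_lit 5819122617) (nat_lit 167) (nat_lit 5) (nat_lit 172) (nat_lit 5) (nat_lit 168) (nat_lit 5) (nat_lit 405) (nat_lit 340) (nat_lit 275)) (XT.lf (nat_lit 0) (nat_lit 9609523636) (nat_lit 456) (nat_lit 2896083091) (nat_lit 76) (nat_lit 502837090) (nat_lit 162) (nat_lit 5) (nat_lit 168) (nat_lit 5) (nat_lit 163) (nat_lit 5) (nat_lit 406) (nat_lit 340) (nat_lit 274))) (XT.nd (nat_lit 78) (nat_lit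 380) (nat_lit 0) (XT.lf (nat_lit 0) (nat_lit 2581235469) (nat_lit 380) (nat_lit 2463688894) (nat_lit 76) (nat_lit 8185182149) (nat_lit 157) (nat_lit 5) (nat_lit 162) (nat_lit 5) (nat_lit 158) (nat_lit 5) (nat_lit 407) (nat_lit 340) (nat_lit 273)) (XT.lf (nat_lit 0) (nat_lit 8752088434) (nat_lit 456) (nat_lit 2015205639) (nat_lit 76) (nat_lit 2689526266) (nat_lit 152) (nat_lit 5) (nat_lit 158) (nat_lit 5) (nat_lit 153) (nat_lit 5) (nat_lit 408) (nat_lit 340) (nat_lit 272)))) (XT.nd (nat_lit 156) (nat_lit 1292) (nat_lit 0) (XT.nd (nat_lit 78) (nat_lit 304) (nat_lit 0) (XT.lf (nat_lit 0) (nat_lit 1475206452) (nat_lit 380) (nat_lit 1552894478) (nat_lit 76) (nat_lit 10660529177) (nat_lit 147) (nat_lit 5) (nat_lit 152) (nat_lit 5) (nat_lit 148) (nat_lit 5) (nat_lit 409) (nat_lit 340) (nat_lit 271)) (XT.lf (nat_lit 0) (nat_lit 7853797523) (nat_lit 380) (nat_lit 1096703395) (nat_lit 76) (nat_lit 4974727815)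 (nat_lit 143) (nat_lit 5) (nat_lit 148) (nat_lit 5) (nat_lit 144) (nat_lit 5) (nat_lit 410) (nat_lit 340) (nat_lit 270))) (XT.nd (nat_lit 78) (nat_lit 912) (nat_lit 0) (XT.lf (nat_lit 0) (nat_lit 318440646) (nat_lit 380) (nat_lit 604481498) (nat_lit 76) (nat_lit 13244630852) (nat_lit 138) (nat_lit 5) (nat_lit 143) (nat_lit 5) (nat_lit 139) (nat_lit 5) (nat_lit 411) (nat_lit 340) (nat_lit 269)) (XT.nd (nat_lit 78) (nat_lit 608) (nat_lit 0) (XT.lf (nat_lit 0) (nat_lit 6915106762) (nat_lit 380) (nat_lit 141525299) (nat_lit 76) (nat_lit 7357760582) (nat_lit 134) (nat_lit 5) (nat_lit 139) (nat_lit 5) (nat_lit 135) (nat_lit 5) (nat_lit 412) (nat_lit 340) (nat_lit 268)) (XT.lf (nat_lit 0) (nat_lit 371419977) (nat_lit 304) (nat_lit 13405889416) (nat_lit 380) (nat_lit 889975356) (nat_lit 126) (nat_lit 5) (nat_lit 130) (nat_lit 5) (nat_lit 131) (nat_lit 5) (nat_lit 413) (nat_lit 340) (nat_lit 267)))))) (XT.nd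 (nat_lit 390) (nat_lit 1368) (nat_lit 0) (XT.nd (nat_lit 156) (nat_lit 912) (nat_lit 0) (XT.nd (nat_lit 78) (nat_lit 304) (nat_lit 0) (XT.lf (nat_lit 0) (nat_lit 860829273) (nat_lit 228) (nat_lit 5081043127) (nat_lit 304) (nat_lit 8983085426) (nat_lit 122) (nat_lit 5) (nat_lit 125) (nat_lit 5) (nat_lit 126) (nat_lit 5) (nat_lit 414) (nat_lit 340) (nat_lit 266)) (XT.lf (nat_lit 0) (nat_lit 1382746794) (nat_lit 304) (nat_lit 11662612297) (nat_lit 380) (nat_lit 2143308854) (nat_lit 118) (nat_lit 5) (nat_lit 122) (nat_lit 5) (nat_lit 123) (nat_lit 5) (nat_lit 415) (nat_lit 340) (nat_lit 265))) (XT.nd (nat_lit 78) (nat_lit 608) (nat_lit 0) (XT.lf (nat_lit 0) (nat_lit 1900779814) (nat_lit 228) (nat_lit 3028975457) (nat_lit 304) (nat_lit 10528049991) (nat_lit 114) (nat_lit 5) (nat_lit 117) (nat_lit 5) (nat_lit 118) (nat_lit 5) (nat_lit 416) (nat_lit 340) (nat_lit 264)) (XT.nd (nat_lit 78) (nat_lit 304)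 (nat_lit 0) (XT.lf (nat_lit 0) (nat_lit 2429098889) (nat_lit 304) (nat_lit 9855786590) (nat_lit 380) (nat_lit 3447868009) (nat_lit 110) (nat_lit 5) (nat_lit 114) (nat_lit 5) (nat_lit 115) (nat_lit 5) (nat_lit 417) (nat_lit 340) (nat_lit 263)) (XT.lf (nat_lit 0) (nat_lit 2975939329) (nat_lit 228) (nat_lit 901795897) (nat_lit 304) (nat_lit 12136046885) (nat_lit 106) (nat_lit 5) (nat_lit 109) (nat_lit 5) (nat_lit 110) (nat_lit 5) (nat_lit 418) (nat_lit 340) (nat_lit 262))))) (XT.nd (nat_lit 156) (nat_lit 760) (nat_lit 0) (XT.nd (nat_lit 78) (nat_lit 304) (nat_lit 0) (XT.lf (nat_lit 0) (nat_lit 3510036717) (nat_lit 304) (nat_lit 7986100165) (nat_lit 380) (nat_lit 4804251436) (nat_lit 102) (nat_lit 5) (nat_lit 106) (nat_lit 5) (nat_lit 107) (nat_lit 5) (nat_lit 419) (nat_lit 340) (nat_lit 261)) (XT.lf (nat_lit 0) (nat_lit 2794000945) (nat_lit 304) (nat_lit 12516261904) (nat_lit 76) (nat_lit 1283322351)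 (nat_lit 98) (nat_lit 5) (nat_lit 102) (nat_lit 5) (nat_lit 99) (nat_lit 5) (nat_lit 420) (nat_lit 340) (nat_lit 260))) (XT.nd (nat_lit 78) (nat_lit 532) (nat_lit 0) (XT.lf (nat_lit 0) (nat_lit 4625248563) (nat_lit 228) (nat_lit 6053969622) (nat_lit 304) (nat_lit 6213238917) (nat_lit 95) (nat_lit 5) (nat_lit 98) (nat_lit 5) (nat_lit 99) (nat_lit 5) (nat_lit 421) (nat_lit 340) (nat_lit 259)) (XT.nd (nat_lit 78) (nat_lit 228) (nat_lit 0) (XT.lf (nat_lit 0) (nat_lit 1676039002) (nat_lit 304) (nat_lit 11991334246) (nat_lit 76) (nat_lit 3530787343) (nat_lit 91) (nat_lit 5) (nat_lit 95) (nat_lit 5) (nat_lit 92) (nat_lit 5) (nat_lit 422) (nat_lit 340) (nat_lit 258)) (XT.lf (nat_lit 0) (nat_lit 5774543007) (nat_lit 228) (nat_lit 4059553898) (nat_lit 304) (nat_lit 7675786588) (nat_lit 88) (nat_lit 5) (nat_lit 91) (nat_lit 5) (nat_lit 92) (nat_lit 5) (nat_lit 423) (nat_lit 340) (nat_lit 257))))))) (XT.nd (nat_lit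 47112) (nat_lit 0) (nat_lit 48108) (XT.nd (nat_lit 46722) (nat_lit 0) (nat_lit 54644) (XT.nd (nat_lit 156) (nat_lit 532) (nat_lit 0) (XT.nd (nat_lit 78) (nat_lit 228) (nat_lit 0) (XT.lf (nat_lit 0) (nat_lit 517429383) (nat_lit 304) (nat_lit 11458280327) (nat_lit 76) (nat_lit 5852859361) (nat_lit 84) (nat_lit 5) (nat_lit 88) (nat_lit 5) (nat_lit 85) (nat_lit 5) (nat_lit 424) (nat_lit 340) (nat_lit 256)) (XT.lf (nat_lit 0) (nat_lit 6957842016) (nat_lit 228) (nat_lit 2002766562) (nat_lit 304) (nat_lit 9193022887) (nat_lit 81) (nat_lit 5) (nat_lit 84) (nat_lit 5) (nat_lit 85) (nat_lit 5) (nat_lit 425) (nat_lit 340) (nat_lit 255))) (XT.nd (nat_lit 78) (nat_lit 304) (nat_lit 0) (XT.lf (nat_lit 0) (nat_lit 7563108247) (nat_lit 228) (nat_lit 10230985627) (nat_lit 304) (nat_lit 691611644) (nat_lit 78) (nat_lit 5) (nat_lit 81) (nat_lit 5) (nat_lit 82) (nat_lit 5) (nat_lit 426) (nat_lit 340) (nat_lit 254))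 (XT.nd (nat_lit 46410) (nat_lit 0) (nat_lit 55556) (XT.lf (nat_lit 0) (nat_lit 8059219286) (nat_lit 304) (nat_lit 10650289872) (nat_lit 76) (nat_lit 115182403) (nat_lit 74) (nat_lit 5) (nat_lit 78) (nat_lit 5) (nat_lit 75) (nat_lit 5) (nat_lit 427) (nat_lit 340) (nat_lit 253)) (XT.lf (nat_lit 0) (nat_lit 1480275460) (nat_lit 228) (nat_lit 871462572) (nat_lit 228) (nat_lit 871462572) (nat_lit 805) (nat_lit 3) (nat_lit 808) (nat_lit 3) (nat_lit 808) (nat_lit 5) (nat_lit 341) (nat_lit 341) (nat_lit 338))))) (XT.nd (nat_lit 156) (nat_lit 684) (nat_lit 0) (XT.nd (nat_lit 78) (nat_lit 0) (nat_lit 0) (XT.lf (nat_lit 0) (nat_lit 1083797871) (nat_lit 228) (nat_lit 3341486789) (nat_lit 304) (nat_lit 2026761353) (nat_lit 802) (nat_lit 5) (nat_lit 805) (nat_lit 3) (nat_lit 806) (nat_lit 5) (nat_lit 342) (nat_lit 341) (nat_lit 337)) (XT.lf (nat_lit 76) (nat_lit 1579572152) (nat_lit 0) (nat_lit 4007647238) (nat_lit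 304) (nat_lit 873299084) (nat_lit 803) (nat_lit 5) (nat_lit 802) (nat_lit 5) (nat_lit 806) (nat_lit 5) (nat_lit 343) (nat_lit 341) (nat_lit 336))) (XT.nd (nat_lit 78) (nat_lit 380) (nat_lit 0) (XT.lf (nat_lit 76) (nat_lit 107639777) (nat_lit 0) (nat_lit 3448158220) (nat_lit 380) (nat_lit 2915987983) (nat_lit 799) (nat_lit 5) (nat_lit 798) (nat_lit 5) (nat_lit 803) (nat_lit 5) (nat_lit 344) (nat_lit 341) (nat_lit 335)) (XT.nd (nat_lit 78) (nat_lit 0) (nat_lit 0) (XT.lf (nat_lit 0) (nat_lit 1463107338) (nat_lit 380) (nat_lit 1281780991) (nat_lit 456) (nat_lit 3740941806) (nat_lit 793) (nat_lit 5) (nat_lit 798) (nat_lit 5) (nat_lit 799) (nat_lit 5) (nat_lit 345) (nat_lit 341) (nat_lit 334)) (XT.lf (nat_lit 76) (nat_lit 3892184399) (nat_lit 0) (nat_lit 1900705590) (nat_lit 456) (nat_lit 709841506) (nat_lit 794) (nat_lit 5) (nat_lit 793) (nat_lit 5) (nat_lit 799) (nat_lit 5) (nat_lit 346) (nat_lit 341)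 (nat_lit 333)))))) (XT.nd (nat_lit 390) (nat_lit 4332) (nat_lit 0) (XT.nd (nat_lit 156) (nat_lit 1292) (nat_lit 0) (XT.nd (nat_lit 78) (nat_lit 456) (nat_lit 0) (XT.lf (nat_lit 76) (nat_lit 2636141518) (nat_lit 0) (nat_lit 909813217) (nat_lit 532) (nat_lit 2976450895) (nat_lit 788) (nat_lit 5) (nat_lit 787) (nat_lit 5) (nat_lit 794) (nat_lit 5) (nat_lit 347) (nat_lit 341) (nat_lit 332)) (XT.lf (nat_lit 0) (nat_lit 1227508883) (nat_lit 532) (nat_lit 5101362662) (nat_lit 76) (nat_lit 216158438) (nat_lit 781) (nat_lit 5) (nat_lit 788) (nat_lit 5) (nat_lit 782) (nat_lit 5) (nat_lit 348) (nat_lit 341) (nat_lit 331))) (XT.nd (nat_lit 78) (nat_lit 760) (nat_lit 0) (XT.lf (nat_lit 0) (nat_lit 300941684) (nat_lit 532) (nat_lit 5095200985) (nat_lit 608) (nat_lit 1174217042) (nat_lit 774) (nat_lit 5) (nat_lit 781) (nat_lit 5) (nat_lit 782) (nat_lit 5) (nat_lit 349) (nat_lit 341) (nat_lit 330)) (XT.nd (nat_lit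 78) (nat_lit 684) (nat_lit 0) (XT.lf (nat_lit 0) (nat_lit 2934749285) (nat_lit 608) (nat_lit 777133967) (nat_lit 76) (nat_lit 2886525724) (nat_lit 773) (nat_lit 5) (nat_lit 781) (nat_lit 5) (nat_lit 774) (nat_lit 5) (nat_lit 350) (nat_lit 341) (nat_lit 329)) (XT.lf (nat_lit 0) (nat_lit 399360119) (nat_lit 684) (nat_lit 1789941544) (nat_lit 76) (nat_lit 4440127916) (nat_lit 764) (nat_lit 5) (nat_lit 773) (nat_lit 5) (nat_lit 765) (nat_lit 5) (nat_lit 351) (nat_lit 341) (nat_lit 328))))) (XT.nd (nat_lit 156) (nat_lit 2812) (nat_lit 0) (XT.nd (nat_lit 78) (nat_lit 836) (nat_lit 0) (XT.lf (nat_lit 0) (nat_lit 3906850188) (nat_lit 684) (nat_lit 512952454) (nat_lit 760) (nat_lit 2243387686) (nat_lit 755) (nat_lit 5) (nat_lit 764) (nat_lit 5) (nat_lit 765) (nat_lit 5) (nat_lit 352) (nat_lit 341) (nat_lit 327)) (XT.lf (nat_lit 0) (nat_lit 1735922121) (nat_lit 836) (nat_lit 3673680991) (nat_lit 76) (nat_lit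 1290169689) (nat_lit 744) (nat_lit 5) (nat_lit 755) (nat_lit 5) (nat_lit 745) (nat_lit 5) (nat_lit 353) (nat_lit 341) (nat_lit 326))) (XT.nd (nat_lit 78) (nat_lit 1976) (nat_lit 0) (XT.lf (nat_lit 0) (nat_lit 2197141921) (nat_lit 836) (nat_lit 3504584932) (nat_lit 912) (nat_lit 1037477429) (nat_lit 733) (nat_lit 5) (nat_lit 744) (nat_lit 5) (nat_lit 745) (nat_lit 5) (nat_lit 354) (nat_lit 341) (nat_lit 325)) (XT.nd (nat_lit 78) (nat_lit 988) (nat_lit 0) (XT.lf (nat_lit 0) (nat_lit 1417939883) (nat_lit 912) (nat_lit 1447043384) (nat_lit 988) (nat_lit 3916490424) (nat_lit 720) (nat_lit 5) (nat_lit 732) (nat_lit 5) (nat_lit 733) (nat_lit 5) (nat_lit 355) (nat_lit 341) (nat_lit 324)) (XT.lf (nat_lit 0) (nat_lit 694742441) (nat_lit 988) (nat_lit 6082697098) (nat_lit 1064) (nat_lit 49294149) (nat_lit 707) (nat_lit 5) (nat_lit 720) (nat_lit 5) (nat_lit 721) (nat_lit 5) (nat_lit 356) (nat_lit 341) (nat_lit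 323))))))))
noncomputable def xc53 : XT := (XT.nd (nat_lit 1482) (nat_lit 13148) (nat_lit 0) (XT.nd (nat_lit 702) (nat_lit 12008) (nat_lit 0) (XT.nd (nat_lit 312) (nat_lit 7372) (nat_lit 0) (XT.nd (nat_lit 156) (nat_lit 2432) (nat_lit 0) (XT.nd (nat_lit 78) (nat_lit 76) (nat_lit 0) (XT.lf (nat_lit 0) (nat_lit 2597410) (nat_lit 1064) (nat_lit 3795475982) (nat_lit 1140) (nat_lit 3076452270) (nat_lit 692) (nat_lit 5) (nat_lit 706) (nat_lit 5) (nat_lit 707) (nat_lit 5) (nat_lit 357) (nat_lit 341) (nat_lit 322)) (XT.lf (nat_lit 0) (nat_lit 739111665) (nat_lit 1140) (nat_lit 621452253) (nat_lit 76) (nat_lit 5564799657) (nat_lit 691) (nat_lit 5) (nat_lit 706) (nat_lit 5) (nat_lit 692) (nat_lit 5) (nat_lit 358) (nat_lit 341) (nat_lit 321))) (XT.nd (nat_lit 78) (nat_lit 1292) (nat_lit 0) (XT.lf (nat_lit 0) (nat_lit 4548657339) (nat_lit 1216) (nat_lit 1210164733) (nat_lit 76) (nat_lit 1220071612) (nat_lit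 676) (nat_lit 5) (nat_lit 692) (nat_lit 5) (nat_lit 677) (nat_lit 5) (nat_lit 359) (nat_lit 341) (nat_lit 320)) (XT.lf (nat_lit 0) (nat_lit 1345529153) (nat_lit 1292) (nat_lit 1754817032) (nat_lit 76) (nat_lit 3934978020) (nat_lit 659) (nat_lit 5) (nat_lit 676) (nat_lit 5) (nat_lit 660) (nat_lit 5) (nat_lit 360) (nat_lit 341) (nat_lit 319)))) (XT.nd (nat_lit 156) (nat_lit 4636) (nat_lit 0) (XT.nd (nat_lit 78) (nat_lit 1444) (nat_lit 0) (XT.lf (nat_lit 0) (nat_lit 4840443096) (nat_lit 1292) (nat_lit 281854592) (nat_lit 1368) (nat_lit 1972413728) (nat_lit 642) (nat_lit 5) (nat_lit 659) (nat_lit 5) (nat_lit 660) (nat_lit 5) (nat_lit 361) (nat_lit 341) (nat_lit 318)) (XT.lf (nat_lit 0) (nat_lit 1773488275) (nat_lit 1444) (nat_lit 2722383090) (nat_lit 76) (nat_lit 2660940858) (nat_lit 623) (nat_lit 5) (nat_lit 642) (nat_lit 5) (nat_lit 624) (nat_lit 5) (nat_lit 362) (nat_lit 341) (nat_lit 317))) (XT.nd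 (nat_lit 78) (nat_lit 3192) (nat_lit 0) (XT.lf (nat_lit 0) (nat_lit 4075679172) (nat_lit 1444) (nat_lit 1459056617) (nat_lit 1520) (nat_lit 1687184195) (nat_lit 604) (nat_lit 5) (nat_lit 623) (nat_lit 5) (nat_lit 624) (nat_lit 5) (nat_lit 363) (nat_lit 341) (nat_lit 316)) (XT.nd (nat_lit 78) (nat_lit 1596) (nat_lit 0) (XT.lf (nat_lit 0) (nat_lit 2034222139) (nat_lit 1596) (nat_lit 3536261084) (nat_lit 76) (nat_lit 1719378799) (nat_lit 583) (nat_lit 5) (nat_lit 604) (nat_lit 5) (nat_lit 584) (nat_lit 5) (nat_lit 364) (nat_lit 341) (nat_lit 315)) (XT.lf (nat_lit 0) (nat_lit 3471023671) (nat_lit 1596) (nat_lit 2317809190) (nat_lit 1672) (nat_lit 1571896725) (nat_lit 562) (nat_lit 5) (nat_lit 583) (nat_lit 5) (nat_lit 584) (nat_lit 5) (nat_lit 365) (nat_lit 341) (nat_lit 314)))))) (XT.nd (nat_lit 390) (nat_lit 4484) (nat_lit 0) (XT.nd (nat_lit 156) (nat_lit 4028) (nat_lit 0) (XT.nd (nat_lit 78) (nat_lit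 1748) (nat_lit 0) (XT.lf (nat_lit 0) (nat_lit 2137952915) (nat_lit 1748) (nat_lit 4207584489) (nat_lit 76) (nat_lit 1089002375) (nat_lit 539) (nat_lit 5) (nat_lit 562) (nat_lit 5) (nat_lit 540) (nat_lit 5) (nat_lit 366) (nat_lit 341) (nat_lit 313)) (XT.lf (nat_lit 0) (nat_lit 3015850141) (nat_lit 1748) (nat_lit 2878655006) (nat_lit 1824) (nat_lit 1616716068) (nat_lit 516) (nat_lit 5) (nat_lit 539) (nat_lit 5) (nat_lit 540) (nat_lit 5) (nat_lit 367) (nat_lit 341) (nat_lit 312))) (XT.nd (nat_lit 78) (nat_lit 2128) (nat_lit 0) (XT.lf (nat_lit 0) (nat_lit 2093963247) (nat_lit 1900) (nat_lit 4746582676) (nat_lit 76) (nat_lit 750396549) (nat_lit 491) (nat_lit 5) (nat_lit 516) (nat_lit 5) (nat_lit 492) (nat_lit 5) (nat_lit 368) (nat_lit 341) (nat_lit 311)) (XT.nd (nat_lit 78) (nat_lit 988) (nat_lit 0) (XT.lf (nat_lit 0) (nat_lit 2700435128) (nat_lit 1140) (nat_lit 3160330979) (nat_lit 1216) (nat_lit 1812740170)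 (nat_lit 476) (nat_lit 5) (nat_lit 491) (nat_lit 5) (nat_lit 492) (nat_lit 5) (nat_lit 369) (nat_lit 341) (nat_lit 310)) (XT.lf (nat_lit 0) (nat_lit 1910662001) (nat_lit 988) (nat_lit 5162648392) (nat_lit 76) (nat_lit 685886619) (nat_lit 463) (nat_lit 5) (nat_lit 476) (nat_lit 5) (nat_lit 464) (nat_lit 5) (nat_lit 370) (nat_lit 341) (nat_lit 309))))) (XT.nd (nat_lit 156) (nat_lit 2660) (nat_lit 0) (XT.nd (nat_lit 78) (nat_lit 912) (nat_lit 0) (XT.lf (nat_lit 0) (nat_lit 2515892317) (nat_lit 912) (nat_lit 3179897632) (nat_lit 988) (nat_lit 2151935841) (nat_lit 451) (nat_lit 5) (nat_lit 463) (nat_lit 5) (nat_lit 464) (nat_lit 5) (nat_lit 371) (nat_lit 341) (nat_lit 308)) (XT.lf (nat_lit 0) (nat_lit 1595644776) (nat_lit 912) (nat_lit 5464400083) (nat_lit 76) (nat_lit 879414664) (nat_lit 439) (nat_lit 5) (nat_lit 451) (nat_lit 5) (nat_lit 440) (nat_lit 5) (nat_lit 372) (nat_lit 341) (nat_lit 307))) (XT.nd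 (nat_lit 78) (nat_lit 1748) (nat_lit 0) (XT.lf (nat_lit 0) (nat_lit 2454111774) (nat_lit 912) (nat_lit 2952858321) (nat_lit 988) (nat_lit 2627079613) (nat_lit 427) (nat_lit 5) (nat_lit 439) (nat_lit 5) (nat_lit 440) (nat_lit 5) (nat_lit 373) (nat_lit 341) (nat_lit 306)) (XT.nd (nat_lit 78) (nat_lit 836) (nat_lit 0) (XT.lf (nat_lit 0) (nat_lit 1155749554) (nat_lit 912) (nat_lit 5659739426) (nat_lit 76) (nat_lit 1316425737) (nat_lit 415) (nat_lit 5) (nat_lit 427) (nat_lit 5) (nat_lit 416) (nat_lit 5) (nat_lit 374) (nat_lit 341) (nat_lit 305)) (XT.lf (nat_lit 0) (nat_lit 2507703915) (nat_lit 836) (nat_lit 2493269064) (nat_lit 912) (nat_lit 3231703375) (nat_lit 404) (nat_lit 5) (nat_lit 415) (nat_lit 5) (nat_lit 416) (nat_lit 5) (nat_lit 375) (nat_lit 341) (nat_lit 304))))))) (XT.nd (nat_lit 780) (nat_lit 5776) (nat_lit 0) (XT.nd (nat_lit 390) (nat_lit 3496) (nat_lit 0) (XT.nd (nat_lit 156) (nat_lit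 2280) (nat_lit 0) (XT.nd (nat_lit 78) (nat_lit 760) (nat_lit 0) (XT.lf (nat_lit 0) (nat_lit 597107856) (nat_lit 836) (nat_lit 5755904457) (nat_lit 76) (nat_lit 1983763082) (nat_lit 393) (nat_lit 5) (nat_lit 404) (nat_lit 5) (nat_lit 394) (nat_lit 5) (nat_lit 376) (nat_lit 341) (nat_lit 303)) (XT.lf (nat_lit 0) (nat_lit 2669947839) (nat_lit 760) (nat_lit 1813839673) (nat_lit 836) (nat_lit 3960044458) (nat_lit 383) (nat_lit 5) (nat_lit 393) (nat_lit 5) (nat_lit 394) (nat_lit 5) (nat_lit 377) (nat_lit 341) (nat_lit 302))) (XT.nd (nat_lit 78) (nat_lit 1520) (nat_lit 0) (XT.lf (nat_lit 0) (nat_lit 2794261429) (nat_lit 760) (nat_lit 5684208339) (nat_lit 836) (nat_lit 75802431) (nat_lit 373) (nat_lit 5) (nat_lit 383) (nat_lit 5) (nat_lit 384) (nat_lit 5) (nat_lit 378) (nat_lit 341) (nat_lit 301)) (XT.nd (nat_lit 78) (nat_lit 684) (nat_lit 0) (XT.lf (nat_lit 0) (nat_lit 2934743702) (nat_lit 760) (nat_lit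 926026824) (nat_lit 836) (nat_lit 4806999832) (nat_lit 362) (nat_lit 5) (nat_lit 372) (nat_lit 5) (nat_lit 373) (nat_lit 5) (nat_lit 379) (nat_lit 341) (nat_lit 300)) (XT.lf (nat_lit 0) (nat_lit 3102328079) (nat_lit 684) (nat_lit 4815754408) (nat_lit 760) (nat_lit 866507521) (nat_lit 353) (nat_lit 5) (nat_lit 362) (nat_lit 5) (nat_lit 363) (nat_lit 5) (nat_lit 380) (nat_lit 341) (nat_lit 299))))) (XT.nd (nat_lit 156) (nat_lit 2052) (nat_lit 0) (XT.nd (nat_lit 78) (nat_lit 684) (nat_lit 0) (XT.lf (nat_lit 0) (nat_lit 3137726560) (nat_lit 760) (nat_lit 5609241845) (nat_lit 76) (nat_lit 157783459) (nat_lit 343) (nat_lit 5) (nat_lit 353) (nat_lit 5) (nat_lit 344) (nat_lit 5) (nat_lit 381) (nat_lit 341) (nat_lit 298)) (XT.lf (nat_lit 0) (nat_lit 3503875007) (nat_lit 684) (nat_lit 3761491593) (nat_lit 760) (nat_lit 1762736396) (nat_lit 334) (nat_lit 5) (nat_lit 343) (nat_lit 5) (nat_lit 344) (nat_lit 5)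 (nat_lit 382) (nat_lit 341) (nat_lit 297))) (XT.nd (nat_lit 78) (nat_lit 1292) (nat_lit 0) (XT.lf (nat_lit 0) (nat_lit 2325070793) (nat_lit 760) (nat_lit 5414024640) (nat_lit 76) (nat_lit 1415865287) (nat_lit 324) (nat_lit 5) (nat_lit 334) (nat_lit 5) (nat_lit 325) (nat_lit 5) (nat_lit 383) (nat_lit 341) (nat_lit 296)) (XT.nd (nat_lit 78) (nat_lit 684) (nat_lit 0) (XT.lf (nat_lit 0) (nat_lit 3994211852) (nat_lit 608) (nat_lit 2530220860) (nat_lit 684) (nat_lit 2760701046) (nat_lit 316) (nat_lit 5) (nat_lit 324) (nat_lit 5) (nat_lit 325) (nat_lit 5) (nat_lit 384) (nat_lit 341) (nat_lit 295)) (XT.lf (nat_lit 0) (nat_lit 1420435157) (nat_lit 684) (nat_lit 5146131277) (nat_lit 76) (nat_lit 2852287115) (nat_lit 307) (nat_lit 5) (nat_lit 316) (nat_lit 5) (nat_lit 308) (nat_lit 5) (nat_lit 385) (nat_lit 341) (nat_lit 294)))))) (XT.nd (nat_lit 390) (nat_lit 2736) (nat_lit 0) (XT.nd (nat_lit 156) (nat_lit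 1748) (nat_lit 0) (XT.nd (nat_lit 78) (nat_lit 684) (nat_lit 0) (XT.lf (nat_lit 0) (nat_lit 4569125301) (nat_lit 608) (nat_lit 1129778917) (nat_lit 684) (nat_lit 3857127635) (nat_lit 299) (nat_lit 5) (nat_lit 307) (nat_lit 5) (nat_lit 308) (nat_lit 5) (nat_lit 386) (nat_lit 341) (nat_lit 293)) (XT.lf (nat_lit 0) (nat_lit 426985276) (nat_lit 684) (nat_lit 4809898384) (nat_lit 76) (nat_lit 4459910018) (nat_lit 290) (nat_lit 5) (nat_lit 299) (nat_lit 5) (nat_lit 291) (nat_lit 5) (nat_lit 387) (nat_lit 341) (nat_lit 292))) (XT.nd (nat_lit 78) (nat_lit 1216) (nat_lit 0) (XT.lf (nat_lit 0) (nat_lit 4794758701) (nat_lit 608) (nat_lit 4619137999) (nat_lit 76) (nat_lit 427220939) (nat_lit 283) (nat_lit 5) (nat_lit 291) (nat_lit 5) (nat_lit 284) (nat_lit 5) (nat_lit 388) (nat_lit 341) (nat_lit 291)) (XT.nd (nat_lit 78) (nat_lit 608) (nat_lit 0) (XT.lf (nat_lit 0) (nat_lit 5575530610) (nat_lit 608) (nat_lit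 3752319844) (nat_lit 684) (nat_lit 661235162) (nat_lit 275) (nat_lit 5) (nat_lit 283) (nat_lit 5) (nat_lit 284) (nat_lit 5) (nat_lit 389) (nat_lit 341) (nat_lit 290)) (XT.lf (nat_lit 0) (nat_lit 3820273134) (nat_lit 608) (nat_lit 4196912670) (nat_lit 76) (nat_lit 2123498274) (nat_lit 267) (nat_lit 5) (nat_lit 275) (nat_lit 5) (nat_lit 268) (nat_lit 5) (nat_lit 390) (nat_lit 341) (nat_lit 289))))) (XT.nd (nat_lit 156) (nat_lit 1596) (nat_lit 0) (XT.nd (nat_lit 78) (nat_lit 608) (nat_lit 0) (XT.lf (nat_lit 0) (nat_lit 6336433268) (nat_lit 532) (nat_lit 2119682895) (nat_lit 608) (nat_lit 1840049454) (nat_lit 260) (nat_lit 5) (nat_lit 267) (nat_lit 5) (nat_lit 268) (nat_lit 5) (nat_lit 391) (nat_lit 341) (nat_lit 288)) (XT.lf (nat_lit 0) (nat_lit 2770413744) (nat_lit 608) (nat_lit 3716259272) (nat_lit 76) (nat_lit 3968636642) (nat_lit 252) (nat_lit 5) (nat_lit 260) (nat_lit 5) (nat_lit 253) (nat_lit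 5) (nat_lit 392) (nat_lit 341) (nat_lit 287))) (XT.nd (nat_lit 78) (nat_lit 1064) (nat_lit 0) (XT.lf (nat_lit 0) (nat_lit 7169707828) (nat_lit 532) (nat_lit 346962798) (nat_lit 608) (nat_lit 3101864564) (nat_lit 245) (nat_lit 5) (nat_lit 252) (nat_lit 5) (nat_lit 253) (nat_lit 5) (nat_lit 393) (nat_lit 341) (nat_lit 286)) (XT.nd (nat_lit 78) (nat_lit 532) (nat_lit 0) (XT.lf (nat_lit 0) (nat_lit 1647107652) (nat_lit 532) (nat_lit 3180212557) (nat_lit 76) (nat_lit 5958133512) (nat_lit 238) (nat_lit 5) (nat_lit 245) (nat_lit 5) (nat_lit 239) (nat_lit 5) (nat_lit 394) (nat_lit 341) (nat_lit 285)) (XT.lf (nat_lit 0) (nat_lit 6521661033) (nat_lit 608) (nat_lit 2893865436) (nat_lit 76) (nat_lit 1540938189) (nat_lit 231) (nat_lit 5) (nat_lit 239) (nat_lit 5) (nat_lit 232) (nat_lit 5) (nat_lit 395) (nat_lit 341) (nat_lit 284))))))))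
noncomputable def xc54 : XT := (XT.nd (nat_lit 1482) (nat_lit 3648) (nat_lit 0) (XT.nd (nat_lit 702) (nat_lit 3572) (nat_lit 0) (XT.nd (nat_lit 312) (nat_lit 2508) (nat_lit 0) (XT.nd (nat_lit 156) (nat_lit 988) (nat_lit 0) (XT.nd (nat_lit 78) (nat_lit 456) (nat_lit 0) (XT.lf (nat_lit 0) (nat_lit 451928650) (nat_lit 532) (nat_lit 2591501351) (nat_lit 76) (nat_lit 8088173527) (nat_lit 224) (nat_lit 5) (nat_lit 231) (nat_lit 5) (nat_lit 225) (nat_lit 5) (nat_lit 396) (nat_lit 341) (nat_lit 283)) (XT.lf (nat_lit 0) (nat_lit 5465734166) (nat_lit 532) (nat_lit 2290409527) (nat_lit 76) (nat_lit 3554452132) (nat_lit 218) (nat_lit 5) (nat_lit 225) (nat_lit 5) (nat_lit 219) (nat_lit 5) (nat_lit 397) (nat_lit 341) (nat_lit 282))) (XT.nd (nat_lit 78) (nat_lit 532) (nat_lit 0) (XT.lf (nat_lit 0) (nat_lit 9536243087) (nat_lit 456) (nat_lit 1133224787) (nat_lit 532) (nat_lit 824699738) (nat_lit 212) (nat_lit 5)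 (nat_lit 218) (nat_lit 5) (nat_lit 219) (nat_lit 5) (nat_lit 398) (nat_lit 341) (nat_lit 281)) (XT.lf (nat_lit 0) (nat_lit 4347977117) (nat_lit 532) (nat_lit 1638502849) (nat_lit 76) (nat_lit 5695024045) (nat_lit 205) (nat_lit 5) (nat_lit 212) (nat_lit 5) (nat_lit 206) (nat_lit 5) (nat_lit 399) (nat_lit 341) (nat_lit 280)))) (XT.nd (nat_lit 156) (nat_lit 1596) (nat_lit 0) (XT.nd (nat_lit 78) (nat_lit 532) (nat_lit 0) (XT.lf (nat_lit 0) (nat_lit 9701589860) (nat_lit 456) (nat_lit 1285571045) (nat_lit 76) (nat_lit 886451371) (nat_lit 200) (nat_lit 5) (nat_lit 206) (nat_lit 5) (nat_lit 201) (nat_lit 5) (nat_lit 400) (nat_lit 341) (nat_lit 279)) (XT.lf (nat_lit 0) (nat_lit 3169435219) (nat_lit 532) (nat_lit 940188870) (nat_lit 76) (nat_lit 7960124470) (nat_lit 193) (nat_lit 5) (nat_lit 200) (nat_lit 5) (nat_lit 194) (nat_lit 5) (nat_lit 401) (nat_lit 341) (nat_lit 278))) (XT.nd (nat_lit 78) (nat_lit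 1216) (nat_lit 0) (XT.lf (nat_lit 0) (nat_lit 8689444034) (nat_lit 456) (nat_lit 575673545) (nat_lit 76) (nat_lit 3005407875) (nat_lit 188) (nat_lit 5) (nat_lit 194) (nat_lit 5) (nat_lit 189) (nat_lit 5) (nat_lit 402) (nat_lit 341) (nat_lit 277)) (XT.nd (nat_lit 78) (nat_lit 760) (nat_lit 0) (XT.lf (nat_lit 0) (nat_lit 1930874525) (nat_lit 456) (nat_lit 197275936) (nat_lit 76) (nat_lit 10347768048) (nat_lit 182) (nat_lit 5) (nat_lit 188) (nat_lit 5) (nat_lit 183) (nat_lit 5) (nat_lit 403) (nat_lit 341) (nat_lit 276)) (XT.lf (nat_lit 0) (nat_lit 179795501) (nat_lit 380) (nat_lit 7447974407) (nat_lit 456) (nat_lit 5057865356) (nat_lit 172) (nat_lit 5) (nat_lit 177) (nat_lit 5) (nat_lit 178) (nat_lit 5) (nat_lit 404) (nat_lit 341) (nat_lit 275)))))) (XT.nd (nat_lit 390) (nat_lit 1748) (nat_lit 0) (XT.nd (nat_lit 156) (nat_lit 1064) (nat_lit 0) (XT.nd (nat_lit 78) (nat_lit 380) (nat_lit 0) (XT.lf (nat_lit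 0) (nat_lit 596469563) (nat_lit 304) (nat_lit 40198621) (nat_lit 380) (nat_lit 12263887633) (nat_lit 167) (nat_lit 5) (nat_lit 171) (nat_lit 5) (nat_lit 172) (nat_lit 5) (nat_lit 405) (nat_lit 341) (nat_lit 274)) (XT.lf (nat_lit 0) (nat_lit 985204116) (nat_lit 380) (nat_lit 5534943629) (nat_lit 456) (nat_lit 6599371061) (nat_lit 162) (nat_lit 5) (nat_lit 167) (nat_lit 5) (nat_lit 168) (nat_lit 5) (nat_lit 406) (nat_lit 341) (nat_lit 273))) (XT.nd (nat_lit 78) (nat_lit 760) (nat_lit 0) (XT.lf (nat_lit 0) (nat_lit 1416068935) (nat_lit 304) (nat_lit 11217320342) (nat_lit 380) (nat_lit 710596255) (nat_lit 158) (nat_lit 5) (nat_lit 162) (nat_lit 5) (nat_lit 163) (nat_lit 5) (nat_lit 407) (nat_lit 341) (nat_lit 272)) (XT.nd (nat_lit 78) (nat_lit 304) (nat_lit 0) (XT.lf (nat_lit 0) (nat_lit 1831601116) (nat_lit 380) (nat_lit 3531634351) (nat_lit 456) (nat_lit 8209682981) (nat_lit 152) (nat_lit 5) (nat_lit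 157) (nat_lit 5) (nat_lit 158) (nat_lit 5) (nat_lit 408) (nat_lit 341) (nat_lit 271)) (XT.lf (nat_lit 0) (nat_lit 2271046383) (nat_lit 304) (nat_lit 9410948059) (nat_lit 380) (nat_lit 2125183639) (nat_lit 148) (nat_lit 5) (nat_lit 152) (nat_lit 5) (nat_lit 153) (nat_lit 5) (nat_lit 409) (nat_lit 341) (nat_lit 270))))) (XT.nd (nat_lit 156) (nat_lit 1064) (nat_lit 0) (XT.nd (nat_lit 78) (nat_lit 304) (nat_lit 0) (XT.lf (nat_lit 0) (nat_lit 2717870519) (nat_lit 304) (nat_lit 1439387845) (nat_lit 380) (nat_lit 9889274731) (nat_lit 143) (nat_lit 5) (nat_lit 147) (nat_lit 5) (nat_lit 148) (nat_lit 5) (nat_lit 410) (nat_lit 341) (nat_lit 269)) (XT.lf (nat_lit 0) (nat_lit 3164913612) (nat_lit 304) (nat_lit 7526884519) (nat_lit 380) (nat_lit 3599139731) (nat_lit 139) (nat_lit 5) (nat_lit 143) (nat_lit 5) (nat_lit 144) (nat_lit 5) (nat_lit 411) (nat_lit 341) (nat_lit 268))) (XT.nd (nat_lit 78) (nat_lit 684)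 (nat_lit 0) (XT.lf (nat_lit 0) (nat_lit 2907041423) (nat_lit 380) (nat_lit 10902835691) (nat_lit 76) (nat_lit 731121521) (nat_lit 134) (nat_lit 5) (nat_lit 139) (nat_lit 5) (nat_lit 135) (nat_lit 5) (nat_lit 412) (nat_lit 341) (nat_lit 267)) (XT.nd (nat_lit 78) (nat_lit 380) (nat_lit 0) (XT.lf (nat_lit 0) (nat_lit 4096810695) (nat_lit 304) (nat_lit 5566273561) (nat_lit 380) (nat_lit 5132929681) (nat_lit 130) (nat_lit 5) (nat_lit 134) (nat_lit 5) (nat_lit 135) (nat_lit 5) (nat_lit 413) (nat_lit 341) (nat_lit 266)) (XT.lf (nat_lit 0) (nat_lit 1617500727) (nat_lit 380) (nat_lit 10470487105) (nat_lit 76) (nat_lit 2968991433) (nat_lit 125) (nat_lit 5) (nat_lit 130) (nat_lit 5) (nat_lit 126) (nat_lit 5) (nat_lit 414) (nat_lit 341) (nat_lit 265))))))) (XT.nd (nat_lit 780) (nat_lit 836) (nat_lit 0) (XT.nd (nat_lit 390) (nat_lit 1368) (nat_lit 0) (XT.nd (nat_lit 156) (nat_lit 836) (nat_lit 0) (XT.nd (nat_lit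 78) (nat_lit 380) (nat_lit 0) (XT.lf (nat_lit 0) (nat_lit 5066032451) (nat_lit 228) (nat_lit 3529923642) (nat_lit 304) (nat_lit 6727233917) (nat_lit 122) (nat_lit 5) (nat_lit 125) (nat_lit 5) (nat_lit 126) (nat_lit 5) (nat_lit 415) (nat_lit 341) (nat_lit 264)) (XT.lf (nat_lit 0) (nat_lit 278908395) (nat_lit 380) (nat_lit 10023700889) (nat_lit 76) (nat_lit 5292854099) (nat_lit 117) (nat_lit 5) (nat_lit 122) (nat_lit 5) (nat_lit 118) (nat_lit 5) (nat_lit 416) (nat_lit 341) (nat_lit 263))) (XT.nd (nat_lit 78) (nat_lit 608) (nat_lit 0) (XT.lf (nat_lit 0) (nat_lit 6072018820) (nat_lit 228) (nat_lit 1418325149) (nat_lit 304) (nat_lit 8382941531) (nat_lit 114) (nat_lit 5) (nat_lit 117) (nat_lit 5) (nat_lit 118) (nat_lit 5) (nat_lit 417) (nat_lit 341) (nat_lit 262)) (XT.nd (nat_lit 78) (nat_lit 304) (nat_lit 0) (XT.lf (nat_lit 0) (nat_lit 6586042101) (nat_lit 304) (nat_lit 8447055399) (nat_lit 380) (nat_lit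 1124045284) (nat_lit 110) (nat_lit 5) (nat_lit 114) (nat_lit 5) (nat_lit 115) (nat_lit 5) (nat_lit 418) (nat_lit 341) (nat_lit 261)) (XT.lf (nat_lit 0) (nat_lit 6351000620) (nat_lit 304) (nat_lit 9337799178) (nat_lit 76) (nat_lit 758257109) (nat_lit 106) (nat_lit 5) (nat_lit 110) (nat_lit 5) (nat_lit 107) (nat_lit 5) (nat_lit 419) (nat_lit 341) (nat_lit 260))))) (XT.nd (nat_lit 156) (nat_lit 760) (nat_lit 0) (XT.nd (nat_lit 78) (nat_lit 304) (nat_lit 0) (XT.lf (nat_lit 0) (nat_lit 7634209322) (nat_lit 304) (nat_lit 6527044697) (nat_lit 380) (nat_lit 2581741289) (nat_lit 102) (nat_lit 5) (nat_lit 106) (nat_lit 5) (nat_lit 107) (nat_lit 5) (nat_lit 420) (nat_lit 341) (nat_lit 259)) (XT.lf (nat_lit 0) (nat_lit 5182238312) (nat_lit 304) (nat_lit 8872653140) (nat_lit 76) (nat_lit 2990412958) (nat_lit 98) (nat_lit 5) (nat_lit 102) (nat_lit 5) (nat_lit 99) (nat_lit 5) (nat_lit 421) (nat_lit 341) (nat_lit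 258))) (XT.nd (nat_lit 78) (nat_lit 532) (nat_lit 0) (XT.lf (nat_lit 0) (nat_lit 8717897573) (nat_lit 228) (nat_lit 4544666830) (nat_lit 304) (nat_lit 4091407018) (nat_lit 95) (nat_lit 5) (nat_lit 98) (nat_lit 5) (nat_lit 99) (nat_lit 5) (nat_lit 422) (nat_lit 341) (nat_lit 257)) (XT.nd (nat_lit 78) (nat_lit 228) (nat_lit 0) (XT.lf (nat_lit 0) (nat_lit 3974300034) (nat_lit 304) (nat_lit 8397730803) (nat_lit 76) (nat_lit 5297114977) (nat_lit 91) (nat_lit 5) (nat_lit 95) (nat_lit 5) (nat_lit 92) (nat_lit 5) (nat_lit 423) (nat_lit 341) (nat_lit 256)) (XT.lf (nat_lit 0) (nat_lit 9836984467) (nat_lit 228) (nat_lit 2499891364) (nat_lit 304) (nat_lit 5654149046) (nat_lit 88) (nat_lit 5) (nat_lit 91) (nat_lit 5) (nat_lit 92) (nat_lit 5) (nat_lit 424) (nat_lit 341) (nat_lit 255)))))) (XT.nd (nat_lit 46800) (nat_lit 0) (nat_lit 53428) (XT.nd (nat_lit 156) (nat_lit 304) (nat_lit 0) (XT.nd (nat_lit 78) (nat_lit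 228) (nat_lit 0) (XT.lf (nat_lit 0) (nat_lit 2726488912) (nat_lit 304) (nat_lit 7914071563) (nat_lit 76) (nat_lit 7678994935) (nat_lit 84) (nat_lit 5) (nat_lit 88) (nat_lit 5) (nat_lit 85) (nat_lit 5) (nat_lit 425) (nat_lit 341) (nat_lit 254)) (XT.lf (nat_lit 0) (nat_lit 10991456964) (nat_lit 228) (nat_lit 392450757) (nat_lit 304) (nat_lit 7271243070) (nat_lit 81) (nat_lit 5) (nat_lit 84) (nat_lit 5) (nat_lit 85) (nat_lit 5) (nat_lit 426) (nat_lit 341) (nat_lit 253))) (XT.nd (nat_lit 46488) (nat_lit 0) (nat_lit 54720) (XT.lf (nat_lit 0) (nat_lit 1437963317) (nat_lit 304) (nat_lit 7422650856) (nat_lit 76) (nat_lit 10136935400) (nat_lit 77) (nat_lit 5) (nat_lit 81) (nat_lit 5) (nat_lit 78) (nat_lit 5) (nat_lit 427) (nat_lit 341) (nat_lit 252)) (XT.nd (nat_lit 78) (nat_lit 380) (nat_lit 0) (XT.lf (nat_lit 0) (nat_lit 1378922750) (nat_lit 0) (nat_lit 1378922750) (nat_lit 228) (nat_lit 471693959) (nat_lit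 802) (nat_lit 5) (nat_lit 802) (nat_lit 3) (nat_lit 805) (nat_lit 3) (nat_lit 342) (nat_lit 342) (nat_lit 336)) (XT.lf (nat_lit 76) (nat_lit 1150016571) (nat_lit 0) (nat_lit 2263201225) (nat_lit 380) (nat_lit 3055707681) (nat_lit 798) (nat_lit 5) (nat_lit 797) (nat_lit 3) (nat_lit 802) (nat_lit 5) (nat_lit 343) (nat_lit 342) (nat_lit 335))))) (XT.nd (nat_lit 156) (nat_lit 912) (nat_lit 0) (XT.nd (nat_lit 78) (nat_lit 0) (nat_lit 0) (XT.lf (nat_lit 0) (nat_lit 1244069586) (nat_lit 380) (nat_lit 386705270) (nat_lit 456) (nat_lit 4850909253) (nat_lit 792) (nat_lit 5) (nat_lit 797) (nat_lit 3) (nat_lit 798) (nat_lit 5) (nat_lit 344) (nat_lit 342) (nat_lit 334)) (XT.lf (nat_lit 76) (nat_lit 4646565966) (nat_lit 0) (nat_lit 848664492) (nat_lit 456) (nat_lit 1001912970) (nat_lit 793) (nat_lit 5) (nat_lit 792) (nat_lit 5) (nat_lit 798) (nat_lit 5) (nat_lit 345) (nat_lit 342) (nat_lit 333))) (XT.nd (nat_lit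 78) (nat_lit 532) (nat_lit 0) (XT.lf (nat_lit 0) (nat_lit 3177785202) (nat_lit 456) (nat_lit 3260109405) (nat_lit 532) (nat_lit 77515425) (nat_lit 787) (nat_lit 5) (nat_lit 793) (nat_lit 5) (nat_lit 794) (nat_lit 5) (nat_lit 346) (nat_lit 342) (nat_lit 332)) (XT.nd (nat_lit 78) (nat_lit 0) (nat_lit 0) (XT.lf (nat_lit 0) (nat_lit 794334044) (nat_lit 532) (nat_lit 4613708310) (nat_lit 608) (nat_lit 1128499814) (nat_lit 780) (nat_lit 5) (nat_lit 787) (nat_lit 5) (nat_lit 788) (nat_lit 5) (nat_lit 347) (nat_lit 342) (nat_lit 331)) (XT.lf (nat_lit 76) (nat_lit 643011507) (nat_lit 0) (nat_lit 4232964865) (nat_lit 608) (nat_lit 1684469263) (nat_lit 781) (nat_lit 5) (nat_lit 780) (nat_lit 5) (nat_lit 788) (nat_lit 5) (nat_lit 348) (nat_lit 342) (nat_lit 330))))))))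
noncomputable def xc55 : XT := (XT.nd (nat_lit 1560) (nat_lit 15276) (nat_lit 0) (XT.nd (nat_lit 780) (nat_lit 15200) (nat_lit 0) (XT.nd (nat_lit 390) (nat_lit 4028) (nat_lit 0) (XT.nd (nat_lit 156) (nat_lit 2128) (nat_lit 0) (XT.nd (nat_lit 78) (nat_lit 0) (nat_lit 0) (XT.lf (nat_lit 0) (nat_lit 2341095765) (nat_lit 608) (nat_lit 571792865) (nat_lit 684) (nat_lit 3674277265) (nat_lit 772) (nat_lit 5) (nat_lit 780) (nat_lit 5) (nat_lit 781) (nat_lit 5) (nat_lit 349) (nat_lit 342) (nat_lit 329)) (XT.lf (nat_lit 76) (nat_lit 4898329518) (nat_lit 0) (nat_lit 1449938209) (nat_lit 684) (nat_lit 268522842) (nat_lit 773) (nat_lit 5) (nat_lit 772) (nat_lit 5) (nat_lit 781) (nat_lit 5) (nat_lit 350) (nat_lit 342) (nat_lit 328))) (XT.nd (nat_lit 78) (nat_lit 1520) (nat_lit 0) (XT.lf (nat_lit 0) (nat_lit 3662575567) (nat_lit 684) (nat_lit 2821091154) (nat_lit 76) (nat_lit 165451454) (nat_lit 764) (nat_lit 5)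 (nat_lit 773) (nat_lit 5) (nat_lit 765) (nat_lit 5) (nat_lit 351) (nat_lit 342) (nat_lit 327)) (XT.nd (nat_lit 78) (nat_lit 760) (nat_lit 0) (XT.lf (nat_lit 0) (nat_lit 909778910) (nat_lit 760) (nat_lit 3873870850) (nat_lit 76) (nat_lit 1900644157) (nat_lit 754) (nat_lit 5) (nat_lit 764) (nat_lit 5) (nat_lit 755) (nat_lit 5) (nat_lit 352) (nat_lit 342) (nat_lit 326)) (XT.lf (nat_lit 0) (nat_lit 1841956406) (nat_lit 760) (nat_lit 2933113977) (nat_lit 836) (nat_lit 1947206614) (nat_lit 744) (nat_lit 5) (nat_lit 754) (nat_lit 5) (nat_lit 755) (nat_lit 5) (nat_lit 353) (nat_lit 342) (nat_lit 325))))) (XT.nd (nat_lit 156) (nat_lit 2204) (nat_lit 0) (XT.nd (nat_lit 78) (nat_lit 912) (nat_lit 0) (XT.lf (nat_lit 0) (nat_lit 928679326) (nat_lit 836) (nat_lit 936315738) (nat_lit 912) (nat_lit 4898220702) (nat_lit 732) (nat_lit 5) (nat_lit 743) (nat_lit 5) (nat_lit 744) (nat_lit 5) (nat_lit 354) (nat_lit 342)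 (nat_lit 324)) (XT.lf (nat_lit 0) (nat_lit 61088445) (nat_lit 912) (nat_lit 5612571933) (nat_lit 988) (nat_lit 1133293850) (nat_lit 720) (nat_lit 5) (nat_lit 732) (nat_lit 5) (nat_lit 733) (nat_lit 5) (nat_lit 355) (nat_lit 342) (nat_lit 323))) (XT.nd (nat_lit 78) (nat_lit 2128) (nat_lit 0) (XT.lf (nat_lit 0) (nat_lit 2624495564) (nat_lit 988) (nat_lit 755556267) (nat_lit 76) (nat_lit 3473278412) (nat_lit 719) (nat_lit 5) (nat_lit 732) (nat_lit 5) (nat_lit 720) (nat_lit 5) (nat_lit 356) (nat_lit 342) (nat_lit 322)) (XT.nd (nat_lit 78) (nat_lit 1140) (nat_lit 0) (XT.lf (nat_lit 0) (nat_lit 5386809111) (nat_lit 988) (nat_lit 1001516176) (nat_lit 1064) (nat_lit 514448357) (nat_lit 706) (nat_lit 5) (nat_lit 719) (nat_lit 5) (nat_lit 720) (nat_lit 5) (nat_lit 357) (nat_lit 342) (nat_lit 321)) (XT.lf (nat_lit 0) (nat_lit 3189661657) (nat_lit 1140) (nat_lit 2245379822) (nat_lit 76) (nat_lit 1519794449)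 (nat_lit 691) (nat_lit 5) (nat_lit 706) (nat_lit 5) (nat_lit 692) (nat_lit 5) (nat_lit 358) (nat_lit 342) (nat_lit 320)))))) (XT.nd (nat_lit 390) (nat_lit 8512) (nat_lit 0) (XT.nd (nat_lit 156) (nat_lit 4256) (nat_lit 0) (XT.nd (nat_lit 78) (nat_lit 1292) (nat_lit 0) (XT.lf (nat_lit 0) (nat_lit 4085459184) (nat_lit 1140) (nat_lit 2835214278) (nat_lit 1216) (nat_lit 89263253) (nat_lit 676) (nat_lit 5) (nat_lit 691) (nat_lit 5) (nat_lit 692) (nat_lit 5) (nat_lit 359) (nat_lit 342) (nat_lit 319)) (XT.lf (nat_lit 0) (nat_lit 3500239149) (nat_lit 1216) (nat_lit 67557057) (nat_lit 1292) (nat_lit 3500027121) (nat_lit 659) (nat_lit 5) (nat_lit 675) (nat_lit 5) (nat_lit 676) (nat_lit 5) (nat_lit 360) (nat_lit 342) (nat_lit 318))) (XT.nd (nat_lit 78) (nat_lit 2888) (nat_lit 0) (XT.lf (nat_lit 0) (nat_lit 144406706) (nat_lit 1368) (nat_lit 4172005507) (nat_lit 76) (nat_lit 2812172037) (nat_lit 641) (nat_lit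 5) (nat_lit 659) (nat_lit 5) (nat_lit 642) (nat_lit 5) (nat_lit 361) (nat_lit 342) (nat_lit 317)) (XT.nd (nat_lit 78) (nat_lit 1520) (nat_lit 0) (XT.lf (nat_lit 0) (nat_lit 2449604606) (nat_lit 1368) (nat_lit 1328352687) (nat_lit 1444) (nat_lit 3414201297) (nat_lit 623) (nat_lit 5) (nat_lit 641) (nat_lit 5) (nat_lit 642) (nat_lit 5) (nat_lit 362) (nat_lit 342) (nat_lit 316)) (XT.lf (nat_lit 0) (nat_lit 200994807) (nat_lit 1520) (nat_lit 5269620246) (nat_lit 76) (nat_lit 1788159608) (nat_lit 603) (nat_lit 5) (nat_lit 623) (nat_lit 5) (nat_lit 604) (nat_lit 5) (nat_lit 363) (nat_lit 342) (nat_lit 315))))) (XT.nd (nat_lit 156) (nat_lit 5320) (nat_lit 0) (XT.nd (nat_lit 78) (nat_lit 1672) (nat_lit 0) (XT.lf (nat_lit 0) (nat_lit 1555582330) (nat_lit 1520) (nat_lit 2265399679) (nat_lit 1596) (nat_lit 3507101430) (nat_lit 583) (nat_lit 5) (nat_lit 603) (nat_lit 5) (nat_lit 604) (nat_lit 5) (nat_lit 364)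 (nat_lit 342) (nat_lit 314)) (XT.lf (nat_lit 0) (nat_lit 91829604) (nat_lit 1672) (nat_lit 6228429937) (nat_lit 76) (nat_lit 1080318434) (nat_lit 561) (nat_lit 5) (nat_lit 583) (nat_lit 5) (nat_lit 562) (nat_lit 5) (nat_lit 365) (nat_lit 342) (nat_lit 313))) (XT.nd (nat_lit 78) (nat_lit 3648) (nat_lit 0) (XT.lf (nat_lit 0) (nat_lit 806985562) (nat_lit 1672) (nat_lit 2899719600) (nat_lit 1748) (nat_lit 3768966058) (nat_lit 539) (nat_lit 5) (nat_lit 561) (nat_lit 5) (nat_lit 562) (nat_lit 5) (nat_lit 366) (nat_lit 342) (nat_lit 312)) (XT.nd (nat_lit 78) (nat_lit 1900) (nat_lit 0) (XT.lf (nat_lit 0) (nat_lit 493704882) (nat_lit 1748) (nat_lit 6884145823) (nat_lit 1824) (nat_lit 176210084) (nat_lit 516) (nat_lit 5) (nat_lit 539) (nat_lit 5) (nat_lit 540) (nat_lit 5) (nat_lit 367) (nat_lit 342) (nat_lit 311)) (XT.lf (nat_lit 0) (nat_lit 193536236) (nat_lit 1824) (nat_lit 3250494344) (nat_lit 1900) (nat_lit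 4190995335) (nat_lit 491) (nat_lit 5) (nat_lit 515) (nat_lit 5) (nat_lit 516) (nat_lit 5) (nat_lit 368) (nat_lit 342) (nat_lit 310))))))) (XT.nd (nat_lit 780) (nat_lit 6992) (nat_lit 0) (XT.nd (nat_lit 390) (nat_lit 4332) (nat_lit 0) (XT.nd (nat_lit 156) (nat_lit 2736) (nat_lit 0) (XT.nd (nat_lit 78) (nat_lit 1216) (nat_lit 0) (XT.lf (nat_lit 0) (nat_lit 7123984833) (nat_lit 1900) (nat_lit 55695631) (nat_lit 76) (nat_lit 539646228) (nat_lit 491) (nat_lit 5) (nat_lit 516) (nat_lit 5) (nat_lit 492) (nat_lit 5) (nat_lit 369) (nat_lit 342) (nat_lit 309)) (XT.lf (nat_lit 0) (nat_lit 3042905637) (nat_lit 1216) (nat_lit 290344201) (nat_lit 76) (nat_lit 4472993272) (nat_lit 475) (nat_lit 5) (nat_lit 491) (nat_lit 5) (nat_lit 476) (nat_lit 5) (nat_lit 370) (nat_lit 342) (nat_lit 308))) (XT.nd (nat_lit 78) (nat_lit 1824) (nat_lit 0) (XT.lf (nat_lit 0) (nat_lit 6741800012) (nat_lit 988) (nat_lit 480235714)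 (nat_lit 76) (nat_lit 674460833) (nat_lit 463) (nat_lit 5) (nat_lit 476) (nat_lit 5) (nat_lit 464) (nat_lit 5) (nat_lit 371) (nat_lit 342) (nat_lit 307)) (XT.nd (nat_lit 78) (nat_lit 836) (nat_lit 0) (XT.lf (nat_lit 0) (nat_lit 2509146564) (nat_lit 988) (nat_lit 656169763) (nat_lit 76) (nat_lit 4824197640) (nat_lit 450) (nat_lit 5) (nat_lit 463) (nat_lit 5) (nat_lit 451) (nat_lit 5) (nat_lit 372) (nat_lit 342) (nat_lit 306)) (XT.lf (nat_lit 0) (nat_lit 6235076044) (nat_lit 912) (nat_lit 794501290) (nat_lit 76) (nat_lit 1056234737) (nat_lit 439) (nat_lit 5) (nat_lit 451) (nat_lit 5) (nat_lit 440) (nat_lit 5) (nat_lit 373) (nat_lit 342) (nat_lit 305))))) (XT.nd (nat_lit 156) (nat_lit 2508) (nat_lit 0) (XT.nd (nat_lit 78) (nat_lit 836) (nat_lit 0) (XT.lf (nat_lit 0) (nat_lit 1848025135) (nat_lit 988) (nat_lit 914312451) (nat_lit 76) (nat_lit 5422716404) (nat_lit 426) (nat_lit 5) (nat_lit 439) (nat_lit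 5) (nat_lit 427) (nat_lit 5) (nat_lit 374) (nat_lit 342) (nat_lit 304)) (XT.lf (nat_lit 0) (nat_lit 5610080100) (nat_lit 912) (nat_lit 1005925848) (nat_lit 76) (nat_lit 1671473049) (nat_lit 415) (nat_lit 5) (nat_lit 427) (nat_lit 5) (nat_lit 416) (nat_lit 5) (nat_lit 375) (nat_lit 342) (nat_lit 303))) (XT.nd (nat_lit 78) (nat_lit 1596) (nat_lit 0) (XT.lf (nat_lit 0) (nat_lit 1065362325) (nat_lit 912) (nat_lit 1071947286) (nat_lit 76) (nat_lit 6255772053) (nat_lit 403) (nat_lit 5) (nat_lit 415) (nat_lit 5) (nat_lit 404) (nat_lit 5) (nat_lit 376) (nat_lit 342) (nat_lit 302)) (XT.nd (nat_lit 78) (nat_lit 836) (nat_lit 0) (XT.lf (nat_lit 0) (nat_lit 4872409258) (nat_lit 836) (nat_lit 1121315522) (nat_lit 76) (nat_lit 2508006114) (nat_lit 393) (nat_lit 5) (nat_lit 404) (nat_lit 5) (nat_lit 394) (nat_lit 5) (nat_lit 377) (nat_lit 342) (nat_lit 301)) (XT.lf (nat_lit 0) (nat_lit 166317924) (nat_lit 836)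 (nat_lit 1135639122) (nat_lit 76) (nat_lit 7311886157) (nat_lit 382) (nat_lit 5) (nat_lit 393) (nat_lit 5) (nat_lit 383) (nat_lit 5) (nat_lit 378) (nat_lit 342) (nat_lit 300)))))) (XT.nd (nat_lit 390) (nat_lit 3268) (nat_lit 0) (XT.nd (nat_lit 156) (nat_lit 2204) (nat_lit 0) (XT.nd (nat_lit 78) (nat_lit 760) (nat_lit 0) (XT.lf (nat_lit 0) (nat_lit 4027034557) (nat_lit 836) (nat_lit 1146895281) (nat_lit 76) (nat_lit 3554898925) (nat_lit 372) (nat_lit 5) (nat_lit 383) (nat_lit 5) (nat_lit 373) (nat_lit 5) (nat_lit 379) (nat_lit 342) (nat_lit 299)) (XT.lf (nat_lit 0) (nat_lit 7730557328) (nat_lit 760) (nat_lit 261152846) (nat_lit 836) (nat_lit 855790965) (nat_lit 362) (nat_lit 5) (nat_lit 372) (nat_lit 5) (nat_lit 373) (nat_lit 5) (nat_lit 380) (nat_lit 342) (nat_lit 298))) (XT.nd (nat_lit 78) (nat_lit 1444) (nat_lit 0) (XT.lf (nat_lit 0) (nat_lit 3078341400) (nat_lit 760) (nat_lit 1088351571) (nat_lit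 76) (nat_lit 4802367855) (nat_lit 352) (nat_lit 5) (nat_lit 362) (nat_lit 5) (nat_lit 353) (nat_lit 5) (nat_lit 381) (nat_lit 342) (nat_lit 297)) (XT.nd (nat_lit 78) (nat_lit 760) (nat_lit 0) (XT.lf (nat_lit 0) (nat_lit 7111317713) (nat_lit 760) (nat_lit 1023894227) (nat_lit 76) (nat_lit 959093293) (nat_lit 343) (nat_lit 5) (nat_lit 353) (nat_lit 5) (nat_lit 344) (nat_lit 5) (nat_lit 382) (nat_lit 342) (nat_lit 296)) (XT.lf (nat_lit 0) (nat_lit 2030166586) (nat_lit 760) (nat_lit 950871664) (nat_lit 76) (nat_lit 6241704142) (nat_lit 333) (nat_lit 5) (nat_lit 343) (nat_lit 5) (nat_lit 334) (nat_lit 5) (nat_lit 383) (nat_lit 342) (nat_lit 295))))) (XT.nd (nat_lit 156) (nat_lit 1900) (nat_lit 0) (XT.nd (nat_lit 78) (nat_lit 684) (nat_lit 0) (XT.lf (nat_lit 0) (nat_lit 6141577725) (nat_lit 760) (nat_lit 856934911) (nat_lit 76) (nat_lit 2356161810) (nat_lit 324) (nat_lit 5) (nat_lit 334) (nat_lit 5) (nat_lit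 325) (nat_lit 5) (nat_lit 384) (nat_lit 342) (nat_lit 294)) (XT.lf (nat_lit 0) (nat_lit 885832186) (nat_lit 684) (nat_lit 739179967) (nat_lit 76) (nat_lit 7865203640) (nat_lit 315) (nat_lit 5) (nat_lit 324) (nat_lit 5) (nat_lit 316) (nat_lit 5) (nat_lit 385) (nat_lit 342) (nat_lit 293))) (XT.nd (nat_lit 78) (nat_lit 1292) (nat_lit 0) (XT.lf (nat_lit 0) (nat_lit 5084044499) (nat_lit 684) (nat_lit 618841700) (nat_lit 76) (nat_lit 3926113032) (nat_lit 307) (nat_lit 5) (nat_lit 316) (nat_lit 5) (nat_lit 308) (nat_lit 5) (nat_lit 386) (nat_lit 342) (nat_lit 292)) (XT.nd (nat_lit 78) (nat_lit 684) (nat_lit 0) (XT.lf (nat_lit 0) (nat_lit 9311917985) (nat_lit 608) (nat_lit 103387117) (nat_lit 684) (nat_lit 356499031) (nat_lit 299) (nat_lit 5) (nat_lit 307) (nat_lit 5) (nat_lit 308) (nat_lit 5) (nat_lit 387) (nat_lit 342) (nat_lit 291)) (XT.lf (nat_lit 0) (nat_lit 3941511893) (nat_lit 684) (nat_lit 313676874)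 (nat_lit 76) (nat_lit 5662474381) (nat_lit 290) (nat_lit 5) (nat_lit 299) (nat_lit 5) (nat_lit 291) (nat_lit 5) (nat_lit 388) (nat_lit 342) (nat_lit 290))))))))
noncomputable def xc56 : XT := (XT.nd (nat_lit 1482) (nat_lit 6156) (nat_lit 0) (XT.nd (nat_lit 702) (nat_lit 4256) (nat_lit 0) (XT.nd (nat_lit 312) (nat_lit 2584) (nat_lit 0) (XT.nd (nat_lit 156) (nat_lit 1140) (nat_lit 0) (XT.nd (nat_lit 78) (nat_lit 1216) (nat_lit 0) (XT.lf (nat_lit 0) (nat_lit 8375342067) (nat_lit 608) (nat_lit 131268053) (nat_lit 76) (nat_lit 1561006236) (nat_lit 283) (nat_lit 5) (nat_lit 291) (nat_lit 5) (nat_lit 284) (nat_lit 5) (nat_lit 389) (nat_lit 342) (nat_lit 289)) (XT.lf (nat_lit 0) (nat_lit 55606305) (nat_lit 532) (nat_lit 2661099533) (nat_lit 608) (nat_lit 7504363872) (nat_lit 267) (nat_lit 5) (nat_lit 274) (nat_lit 5) (nat_lit 275) (nat_lit 5) (nat_lit 390) (nat_lit 342) (nat_lit 288))) (XT.nd (nat_lit 78)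 (nat_lit 608) (nat_lit 0) (XT.lf (nat_lit 0) (nat_lit 261022912) (nat_lit 532) (nat_lit 7002511578) (nat_lit 608) (nat_lit 3114797048) (nat_lit 260) (nat_lit 5) (nat_lit 267) (nat_lit 5) (nat_lit 268) (nat_lit 5) (nat_lit 391) (nat_lit 342) (nat_lit 287)) (XT.lf (nat_lit 0) (nat_lit 489915378) (nat_lit 532) (nat_lit 923769319) (nat_lit 608) (nat_lit 9125930412) (nat_lit 252) (nat_lit 5) (nat_lit 259) (nat_lit 5) (nat_lit 260) (nat_lit 5) (nat_lit 392) (nat_lit 342) (nat_lit 286)))) (XT.nd (nat_lit 156) (nat_lit 1520) (nat_lit 0) (XT.nd (nat_lit 78) (nat_lit 532) (nat_lit 0) (XT.lf (nat_lit 0) (nat_lit 713605023) (nat_lit 532) (nat_lit 5367143370) (nat_lit 608) (nat_lit 4623676112) (nat_lit 245) (nat_lit 5) (nat_lit 252) (nat_lit 5) (nat_lit 253) (nat_lit 5) (nat_lit 393) (nat_lit 342) (nat_lit 285)) (XT.lf (nat_lit 0) (nat_lit 38112457) (nat_lit 532) (nat_lit 9897935986) (nat_lit 76) (nat_lit 937635054)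 (nat_lit 238) (nat_lit 5) (nat_lit 245) (nat_lit 5) (nat_lit 239) (nat_lit 5) (nat_lit 394) (nat_lit 342) (nat_lit 284))) (XT.nd (nat_lit 78) (nat_lit 988) (nat_lit 0) (XT.lf (nat_lit 0) (nat_lit 1221866587) (nat_lit 532) (nat_lit 3605865529) (nat_lit 608) (nat_lit 6218660991) (nat_lit 231) (nat_lit 5) (nat_lit 238) (nat_lit 5) (nat_lit 239) (nat_lit 5) (nat_lit 395) (nat_lit 342) (nat_lit 283)) (XT.nd (nat_lit 78) (nat_lit 532) (nat_lit 0) (XT.lf (nat_lit 0) (nat_lit 1500216074) (nat_lit 456) (nat_lit 8296519494) (nat_lit 532) (nat_lit 1426834536) (nat_lit 225) (nat_lit 5) (nat_lit 231) (nat_lit 5) (nat_lit 232) (nat_lit 5) (nat_lit 396) (nat_lit 342) (nat_lit 282)) (XT.lf (nat_lit 0) (nat_lit 1783234684) (nat_lit 456) (nat_lit 1722526716) (nat_lit 532) (nat_lit 7898984736) (nat_lit 218) (nat_lit 5) (nat_lit 224) (nat_lit 5) (nat_lit 225) (nat_lit 5) (nat_lit 397) (nat_lit 342) (nat_lit 281))))))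 (XT.nd (nat_lit 390) (nat_lit 1976) (nat_lit 0) (XT.nd (nat_lit 156) (nat_lit 1292) (nat_lit 0) (XT.nd (nat_lit 78) (nat_lit 532) (nat_lit 0) (XT.lf (nat_lit 0) (nat_lit 2075698820) (nat_lit 456) (nat_lit 6545271561) (nat_lit 532) (nat_lit 2969118035) (nat_lit 212) (nat_lit 5) (nat_lit 218) (nat_lit 5) (nat_lit 219) (nat_lit 5) (nat_lit 398) (nat_lit 342) (nat_lit 280)) (XT.lf (nat_lit 0) (nat_lit 2117608867) (nat_lit 532) (nat_lit 9386426323) (nat_lit 76) (nat_lit 275949572) (nat_lit 205) (nat_lit 5) (nat_lit 212) (nat_lit 5) (nat_lit 206) (nat_lit 5) (nat_lit 399) (nat_lit 342) (nat_lit 279))) (XT.nd (nat_lit 78) (nat_lit 912) (nat_lit 0) (XT.lf (nat_lit 0) (nat_lit 2700293735) (nat_lit 380) (nat_lit 4685793420) (nat_lit 456) (nat_lit 4587708562) (nat_lit 200) (nat_lit 5) (nat_lit 205) (nat_lit 5) (nat_lit 206) (nat_lit 5) (nat_lit 400) (nat_lit 342) (nat_lit 278)) (XT.nd (nat_lit 78) (nat_lit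 380) (nat_lit 0) (XT.lf (nat_lit 0) (nat_lit 674051237) (nat_lit 532) (nat_lit 9132004190) (nat_lit 76) (nat_lit 2366417858) (nat_lit 193) (nat_lit 5) (nat_lit 200) (nat_lit 5) (nat_lit 194) (nat_lit 5) (nat_lit 401) (nat_lit 342) (nat_lit 277)) (XT.lf (nat_lit 0) (nat_lit 3372086314) (nat_lit 380) (nat_lit 2720794127) (nat_lit 456) (nat_lit 6282393331) (nat_lit 188) (nat_lit 5) (nat_lit 193) (nat_lit 5) (nat_lit 194) (nat_lit 5) (nat_lit 402) (nat_lit 342) (nat_lit 276))))) (XT.nd (nat_lit 156) (nat_lit 1140) (nat_lit 0) (XT.nd (nat_lit 78) (nat_lit 456) (nat_lit 0) (XT.lf (nat_lit 0) (nat_lit 3727973660) (nat_lit 380) (nat_lit 8008099000) (nat_lit 456) (nat_lit 846849653) (nat_lit 183) (nat_lit 5) (nat_lit 188) (nat_lit 5) (nat_lit 189) (nat_lit 5) (nat_lit 403) (nat_lit 342) (nat_lit 275)) (XT.lf (nat_lit 0) (nat_lit 4089388802) (nat_lit 380) (nat_lit 652489249) (nat_lit 456) (nat_lit 8053256468)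 (nat_lit 177) (nat_lit 5) (nat_lit 182) (nat_lit 5) (nat_lit 183) (nat_lit 5) (nat_lit 404) (nat_lit 342) (nat_lit 274))) (XT.nd (nat_lit 78) (nat_lit 760) (nat_lit 0) (XT.lf (nat_lit 0) (nat_lit 4455139360) (nat_lit 380) (nat_lit 6113088390) (nat_lit 456) (nat_lit 2443744076) (nat_lit 172) (nat_lit 5) (nat_lit 177) (nat_lit 5) (nat_lit 178) (nat_lit 5) (nat_lit 405) (nat_lit 342) (nat_lit 273)) (XT.nd (nat_lit 78) (nat_lit 380) (nat_lit 0) (XT.lf (nat_lit 0) (nat_lit 3343205400) (nat_lit 380) (nat_lit 8393147586) (nat_lit 76) (nat_lit 1497470762) (nat_lit 167) (nat_lit 5) (nat_lit 172) (nat_lit 5) (nat_lit 168) (nat_lit 5) (nat_lit 406) (nat_lit 342) (nat_lit 272)) (XT.lf (nat_lit 0) (nat_lit 5225118121) (nat_lit 380) (nat_lit 4127393789) (nat_lit 456) (nat_lit 4107857264) (nat_lit 162) (nat_lit 5) (nat_lit 167) (nat_lit 5) (nat_lit 168) (nat_lit 5) (nat_lit 407) (nat_lit 342) (nat_lit 271)))))))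 (XT.nd (nat_lit 780) (nat_lit 2736) (nat_lit 0) (XT.nd (nat_lit 390) (nat_lit 1672) (nat_lit 0) (XT.nd (nat_lit 156) (nat_lit 988) (nat_lit 0) (XT.nd (nat_lit 78) (nat_lit 380) (nat_lit 0) (XT.lf (nat_lit 0) (nat_lit 1891928698) (nat_lit 380) (nat_lit 8062381731) (nat_lit 76) (nat_lit 3737804837) (nat_lit 157) (nat_lit 5) (nat_lit 162) (nat_lit 5) (nat_lit 158) (nat_lit 5) (nat_lit 408) (nat_lit 342) (nat_lit 270)) (XT.lf (nat_lit 0) (nat_lit 6036727339) (nat_lit 380) (nat_lit 2052451539) (nat_lit 456) (nat_lit 5839626197) (nat_lit 152) (nat_lit 5) (nat_lit 157) (nat_lit 5) (nat_lit 158) (nat_lit 5) (nat_lit 409) (nat_lit 342) (nat_lit 269))) (XT.nd (nat_lit 78) (nat_lit 608) (nat_lit 0) (XT.lf (nat_lit 0) (nat_lit 383603648) (nat_lit 380) (nat_lit 7711007031) (nat_lit 76) (nat_lit 6076190297) (nat_lit 147) (nat_lit 5) (nat_lit 152) (nat_lit 5) (nat_lit 148) (nat_lit 5) (nat_lit 410) (nat_lit 342)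 (nat_lit 268)) (XT.nd (nat_lit 78) (nat_lit 304) (nat_lit 0) (XT.lf (nat_lit 0) (nat_lit 6778989091) (nat_lit 380) (nat_lit 7529761001) (nat_lit 76) (nat_lit 109238737) (nat_lit 143) (nat_lit 5) (nat_lit 148) (nat_lit 5) (nat_lit 144) (nat_lit 5) (nat_lit 411) (nat_lit 342) (nat_lit 267)) (XT.lf (nat_lit 0) (nat_lit 7322006329) (nat_lit 304) (nat_lit 6150549791) (nat_lit 380) (nat_lit 1197909797) (nat_lit 139) (nat_lit 5) (nat_lit 143) (nat_lit 5) (nat_lit 144) (nat_lit 5) (nat_lit 412) (nat_lit 342) (nat_lit 266))))) (XT.nd (nat_lit 156) (nat_lit 988) (nat_lit 0) (XT.nd (nat_lit 78) (nat_lit 304) (nat_lit 0) (XT.lf (nat_lit 0) (nat_lit 5434956626) (nat_lit 380) (nat_lit 7163074796) (nat_lit 76) (nat_lit 2330383093) (nat_lit 134) (nat_lit 5) (nat_lit 139) (nat_lit 5) (nat_lit 135) (nat_lit 5) (nat_lit 413) (nat_lit 342) (nat_lit 265)) (XT.lf (nat_lit 0) (nat_lit 8220581237) (nat_lit 304) (nat_lit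 4127987319) (nat_lit 380) (nat_lit 2843413964) (nat_lit 130) (nat_lit 5) (nat_lit 134) (nat_lit 5) (nat_lit 135) (nat_lit 5) (nat_lit 414) (nat_lit 342) (nat_lit 264))) (XT.nd (nat_lit 78) (nat_lit 608) (nat_lit 0) (XT.lf (nat_lit 0) (nat_lit 4043396841) (nat_lit 380) (nat_lit 6780169678) (nat_lit 76) (nat_lit 4637574702) (nat_lit 125) (nat_lit 5) (nat_lit 130) (nat_lit 5) (nat_lit 126) (nat_lit 5) (nat_lit 415) (nat_lit 342) (nat_lit 263)) (XT.nd (nat_lit 78) (nat_lit 380) (nat_lit 0) (XT.lf (nat_lit 0) (nat_lit 9157478312) (nat_lit 228) (nat_lit 2030061357) (nat_lit 304) (nat_lit 4548671944) (nat_lit 122) (nat_lit 5) (nat_lit 125) (nat_lit 5) (nat_lit 126) (nat_lit 5) (nat_lit 416) (nat_lit 342) (nat_lit 262)) (XT.lf (nat_lit 0) (nat_lit 2603764795) (nat_lit 380) (nat_lit 6382414893) (nat_lit 76) (nat_lit 7030817813) (nat_lit 117) (nat_lit 5) (nat_lit 122) (nat_lit 5) (nat_lit 118) (nat_lit 5)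 (nat_lit 417) (nat_lit 342) (nat_lit 261)))))) (XT.nd (nat_lit 390) (nat_lit 1292) (nat_lit 0) (XT.nd (nat_lit 156) (nat_lit 836) (nat_lit 0) (XT.nd (nat_lit 78) (nat_lit 380) (nat_lit 0) (XT.lf (nat_lit 0) (nat_lit 9990179965) (nat_lit 304) (nat_lit 6172706188) (nat_lit 76) (nat_lit 141095399) (nat_lit 114) (nat_lit 5) (nat_lit 118) (nat_lit 5) (nat_lit 115) (nat_lit 5) (nat_lit 418) (nat_lit 342) (nat_lit 260)) (XT.lf (nat_lit 0) (nat_lit 1115335321) (nat_lit 380) (nat_lit 5971082271) (nat_lit 76) (nat_lit 9510431462) (nat_lit 109) (nat_lit 5) (nat_lit 114) (nat_lit 5) (nat_lit 110) (nat_lit 5) (nat_lit 419) (nat_lit 342) (nat_lit 259))) (XT.nd (nat_lit 78) (nat_lit 608) (nat_lit 0) (XT.lf (nat_lit 0) (nat_lit 8768850882) (nat_lit 304) (nat_lit 5767289192) (nat_lit 76) (nat_lit 2359782136) (nat_lit 106) (nat_lit 5) (nat_lit 110) (nat_lit 5) (nat_lit 107) (nat_lit 5) (nat_lit 420) (nat_lit 342)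 (nat_lit 258)) (XT.nd (nat_lit 78) (nat_lit 304) (nat_lit 0) (XT.lf (nat_lit 0) (nat_lit 11651407440) (nat_lit 304) (nat_lit 5121726362) (nat_lit 380) (nat_lit 428410522) (nat_lit 102) (nat_lit 5) (nat_lit 106) (nat_lit 5) (nat_lit 107) (nat_lit 5) (nat_lit 421) (nat_lit 342) (nat_lit 257)) (XT.lf (nat_lit 0) (nat_lit 7509839817) (nat_lit 304) (nat_lit 5350448701) (nat_lit 76) (nat_lit 4652932337) (nat_lit 98) (nat_lit 5) (nat_lit 102) (nat_lit 5) (nat_lit 99) (nat_lit 5) (nat_lit 422) (nat_lit 342) (nat_lit 256))))) (XT.nd (nat_lit 156) (nat_lit 760) (nat_lit 0) (XT.nd (nat_lit 78) (nat_lit 304) (nat_lit 0) (XT.lf (nat_lit 0) (nat_lit 12706356504) (nat_lit 228) (nat_lit 3087150788) (nat_lit 304) (nat_lit 2038421953) (nat_lit 95) (nat_lit 5) (nat_lit 98) (nat_lit 5) (nat_lit 99) (nat_lit 5) (nat_lit 423) (nat_lit 342) (nat_lit 255)) (XT.lf (nat_lit 0) (nat_lit 6212465655) (nat_lit 304) (nat_lit 4923257343)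 (nat_lit 76) (nat_lit 7021118456) (nat_lit 91) (nat_lit 5) (nat_lit 95) (nat_lit 5) (nat_lit 92) (nat_lit 5) (nat_lit 424) (nat_lit 342) (nat_lit 254))) (XT.nd (nat_lit 78) (nat_lit 532) (nat_lit 0) (XT.lf (nat_lit 0) (nat_lit 13798042884) (nat_lit 228) (nat_lit 989961013) (nat_lit 304) (nat_lit 3701131290) (nat_lit 88) (nat_lit 5) (nat_lit 91) (nat_lit 5) (nat_lit 92) (nat_lit 5) (nat_lit 425) (nat_lit 342) (nat_lit 253)) (XT.nd (nat_lit 78) (nat_lit 228) (nat_lit 0) (XT.lf (nat_lit 0) (nat_lit 4875902250) (nat_lit 304) (nat_lit 4486721183) (nat_lit 76) (nat_lit 9465166267) (nat_lit 84) (nat_lit 5) (nat_lit 88) (nat_lit 5) (nat_lit 85) (nat_lit 5) (nat_lit 426) (nat_lit 342) (nat_lit 252)) (XT.lf (nat_lit 0) (nat_lit 13763828102) (nat_lit 304) (nat_lit 4255270877) (nat_lit 76) (nat_lit 1154938274) (nat_lit 81) (nat_lit 5) (nat_lit 85) (nat_lit 5) (nat_lit 82) (nat_lit 5) (nat_lit 427) (nat_lit 342)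 (nat_lit 251))))))))
noncomputable def xc57 : XT := (XT.nd (nat_lit 1482) (nat_lit 21964) (nat_lit 0) (XT.nd (nat_lit 702) (nat_lit 8512) (nat_lit 0) (XT.nd (nat_lit 312) (nat_lit 1976) (nat_lit 0) (XT.nd (nat_lit 156) (nat_lit 988) (nat_lit 0) (XT.nd (nat_lit 78) (nat_lit 0) (nat_lit 0) (XT.lf (nat_lit 0) (nat_lit 292625235) (nat_lit 0) (nat_lit 292625235) (nat_lit 380) (nat_lit 2654906553) (nat_lit 792) (nat_lit 5) (nat_lit 792) (nat_lit 3) (nat_lit 797) (nat_lit 3) (nat_lit 343) (nat_lit 343) (nat_lit 334)) (XT.lf (nat_lit 0) (nat_lit 5344382584) (nat_lit 380) (nat_lit 1021956038) (nat_lit 456) (nat_lit 128053655) (nat_lit 792) (nat_lit 5) (nat_lit 797) (nat_lit 3) (nat_lit 798) (nat_lit 5) (nat_lit 344) (nat_lit 343) (nat_lit 333))) (XT.nd (nat_lit 78) (nat_lit 532) (nat_lit 0) (XT.lf (nat_lit 0) (nat_lit 2960580591) (nat_lit 456) (nat_lit 2570495463) (nat_lit 532) (nat_lit 980067692) (nat_lit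 786) (nat_lit 5) (nat_lit 792) (nat_lit 5) (nat_lit 793) (nat_lit 5) (nat_lit 345) (nat_lit 343) (nat_lit 332)) (XT.lf (nat_lit 0) (nat_lit 505804606) (nat_lit 532) (nat_lit 4057259254) (nat_lit 608) (nat_lit 1967823007) (nat_lit 779) (nat_lit 5) (nat_lit 786) (nat_lit 5) (nat_lit 787) (nat_lit 5) (nat_lit 346) (nat_lit 343) (nat_lit 331)))) (XT.nd (nat_lit 156) (nat_lit 1368) (nat_lit 0) (XT.nd (nat_lit 78) (nat_lit 608) (nat_lit 0) (XT.lf (nat_lit 76) (nat_lit 1057124541) (nat_lit 0) (nat_lit 3447693668) (nat_lit 608) (nat_lit 2048550826) (nat_lit 780) (nat_lit 5) (nat_lit 779) (nat_lit 5) (nat_lit 787) (nat_lit 5) (nat_lit 347) (nat_lit 343) (nat_lit 330)) (XT.lf (nat_lit 0) (nat_lit 1895596360) (nat_lit 608) (nat_lit 295867160) (nat_lit 684) (nat_lit 4387292899) (nat_lit 771) (nat_lit 5) (nat_lit 779) (nat_lit 5) (nat_lit 780) (nat_lit 5) (nat_lit 348) (nat_lit 343) (nat_lit 329))) (XT.nd (nat_lit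 78) (nat_lit 1368) (nat_lit 0) (XT.lf (nat_lit 76) (nat_lit 5028408013) (nat_lit 0) (nat_lit 786571347) (nat_lit 684) (nat_lit 791960384) (nat_lit 772) (nat_lit 5) (nat_lit 771) (nat_lit 5) (nat_lit 780) (nat_lit 5) (nat_lit 349) (nat_lit 343) (nat_lit 328)) (XT.nd (nat_lit 78) (nat_lit 760) (nat_lit 0) (XT.lf (nat_lit 0) (nat_lit 3060399826) (nat_lit 684) (nat_lit 2818035408) (nat_lit 760) (nat_lit 759383676) (nat_lit 763) (nat_lit 5) (nat_lit 772) (nat_lit 5) (nat_lit 773) (nat_lit 5) (nat_lit 350) (nat_lit 343) (nat_lit 327)) (XT.lf (nat_lit 0) (nat_lit 235016178) (nat_lit 760) (nat_lit 4003341350) (nat_lit 836) (nat_lit 2433286440) (nat_lit 753) (nat_lit 5) (nat_lit 763) (nat_lit 5) (nat_lit 764) (nat_lit 5) (nat_lit 351) (nat_lit 343) (nat_lit 326)))))) (XT.nd (nat_lit 390) (nat_lit 5928) (nat_lit 0) (XT.nd (nat_lit 156) (nat_lit 1748) (nat_lit 0) (XT.nd (nat_lit 78) (nat_lit 836) (nat_lit 0)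 (XT.lf (nat_lit 76) (nat_lit 1560936853) (nat_lit 0) (nat_lit 2443384635) (nat_lit 836) (nat_lit 2703867353) (nat_lit 754) (nat_lit 5) (nat_lit 753) (nat_lit 5) (nat_lit 764) (nat_lit 5) (nat_lit 352) (nat_lit 343) (nat_lit 325)) (XT.lf (nat_lit 76) (nat_lit 513218547) (nat_lit 0) (nat_lit 507383978) (nat_lit 912) (nat_lit 5727185601) (nat_lit 743) (nat_lit 5) (nat_lit 742) (nat_lit 5) (nat_lit 754) (nat_lit 5) (nat_lit 353) (nat_lit 343) (nat_lit 324))) (XT.nd (nat_lit 78) (nat_lit 1824) (nat_lit 0) (XT.lf (nat_lit 0) (nat_lit 4732795185) (nat_lit 836) (nat_lit 490994796) (nat_lit 76) (nat_lit 1566173484) (nat_lit 743) (nat_lit 5) (nat_lit 754) (nat_lit 5) (nat_lit 744) (nat_lit 5) (nat_lit 354) (nat_lit 343) (nat_lit 323)) (XT.nd (nat_lit 78) (nat_lit 912) (nat_lit 0) (XT.lf (nat_lit 0) (nat_lit 1609852143) (nat_lit 912) (nat_lit 1439915672) (nat_lit 76) (nat_lit 3785222532) (nat_lit 731) (nat_lit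 5) (nat_lit 743) (nat_lit 5) (nat_lit 732) (nat_lit 5) (nat_lit 355) (nat_lit 343) (nat_lit 322)) (XT.lf (nat_lit 0) (nat_lit 4542150510) (nat_lit 912) (nat_lit 723743997) (nat_lit 988) (nat_lit 1617062367) (nat_lit 719) (nat_lit 5) (nat_lit 731) (nat_lit 5) (nat_lit 732) (nat_lit 5) (nat_lit 356) (nat_lit 343) (nat_lit 321))))) (XT.nd (nat_lit 156) (nat_lit 3800) (nat_lit 0) (XT.nd (nat_lit 78) (nat_lit 1064) (nat_lit 0) (XT.lf (nat_lit 0) (nat_lit 1993499477) (nat_lit 1064) (nat_lit 3205744708) (nat_lit 76) (nat_lit 1734410099) (nat_lit 705) (nat_lit 5) (nat_lit 719) (nat_lit 5) (nat_lit 706) (nat_lit 5) (nat_lit 357) (nat_lit 343) (nat_lit 320)) (XT.lf (nat_lit 0) (nat_lit 2959981615) (nat_lit 1064) (nat_lit 2650117057) (nat_lit 1140) (nat_lit 1377166367) (nat_lit 691) (nat_lit 5) (nat_lit 705) (nat_lit 5) (nat_lit 706) (nat_lit 5) (nat_lit 358) (nat_lit 343) (nat_lit 319))) (XT.nd (nat_lit 78)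 (nat_lit 2584) (nat_lit 0) (XT.lf (nat_lit 0) (nat_lit 2181123634) (nat_lit 1216) (nat_lit 4805753343) (nat_lit 76) (nat_lit 56939801) (nat_lit 675) (nat_lit 5) (nat_lit 691) (nat_lit 5) (nat_lit 676) (nat_lit 5) (nat_lit 359) (nat_lit 343) (nat_lit 318)) (XT.nd (nat_lit 78) (nat_lit 1368) (nat_lit 0) (XT.lf (nat_lit 0) (nat_lit 1548724211) (nat_lit 1216) (nat_lit 4218854968) (nat_lit 1292) (nat_lit 1335501285) (nat_lit 659) (nat_lit 5) (nat_lit 675) (nat_lit 5) (nat_lit 676) (nat_lit 5) (nat_lit 360) (nat_lit 343) (nat_lit 317)) (XT.lf (nat_lit 0) (nat_lit 903357230) (nat_lit 1292) (nat_lit 1289474949) (nat_lit 1368) (nat_lit 4972482383) (nat_lit 641) (nat_lit 5) (nat_lit 658) (nat_lit 5) (nat_lit 659) (nat_lit 5) (nat_lit 361) (nat_lit 343) (nat_lit 316))))))) (XT.nd (nat_lit 780) (nat_lit 8436) (nat_lit 0) (XT.nd (nat_lit 390) (nat_lit 7448) (nat_lit 0) (XT.nd (nat_lit 156) (nat_lit 4636) (nat_lit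 0) (XT.nd (nat_lit 78) (nat_lit 76) (nat_lit 0) (XT.lf (nat_lit 0) (nat_lit 295234111) (nat_lit 1368) (nat_lit 5454445302) (nat_lit 1444) (nat_lit 1480743555) (nat_lit 623) (nat_lit 5) (nat_lit 641) (nat_lit 5) (nat_lit 642) (nat_lit 5) (nat_lit 362) (nat_lit 343) (nat_lit 315)) (XT.lf (nat_lit 0) (nat_lit 2030941317) (nat_lit 1444) (nat_lit 274802661) (nat_lit 76) (nat_lit 4992607067) (nat_lit 622) (nat_lit 5) (nat_lit 641) (nat_lit 5) (nat_lit 623) (nat_lit 5) (nat_lit 363) (nat_lit 343) (nat_lit 314))) (XT.nd (nat_lit 78) (nat_lit 3192) (nat_lit 0) (XT.lf (nat_lit 0) (nat_lit 5571966694) (nat_lit 1520) (nat_lit 801955768) (nat_lit 76) (nat_lit 995316598) (nat_lit 603) (nat_lit 5) (nat_lit 623) (nat_lit 5) (nat_lit 604) (nat_lit 5) (nat_lit 364) (nat_lit 343) (nat_lit 313)) (XT.nd (nat_lit 78) (nat_lit 1596) (nat_lit 0) (XT.lf (nat_lit 0) (nat_lit 1707979725) (nat_lit 1596) (nat_lit 1301442559)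 (nat_lit 76) (nat_lit 4433514369) (nat_lit 582) (nat_lit 5) (nat_lit 603) (nat_lit 5) (nat_lit 583) (nat_lit 5) (nat_lit 365) (nat_lit 343) (nat_lit 312)) (XT.lf (nat_lit 0) (nat_lit 5239521507) (nat_lit 1672) (nat_lit 1762577082) (nat_lit 76) (nat_lit 517597984) (nat_lit 561) (nat_lit 5) (nat_lit 583) (nat_lit 5) (nat_lit 562) (nat_lit 5) (nat_lit 366) (nat_lit 343) (nat_lit 311))))) (XT.nd (nat_lit 156) (nat_lit 3952) (nat_lit 0) (XT.nd (nat_lit 78) (nat_lit 1748) (nat_lit 0) (XT.lf (nat_lit 0) (nat_lit 1226958223) (nat_lit 1748) (nat_lit 2199101137) (nat_lit 76) (nat_lit 4173224499) (nat_lit 538) (nat_lit 5) (nat_lit 561) (nat_lit 5) (nat_lit 539) (nat_lit 5) (nat_lit 367) (nat_lit 343) (nat_lit 310)) (XT.lf (nat_lit 0) (nat_lit 4758895561) (nat_lit 1824) (nat_lit 2600678982) (nat_lit 76) (nat_lit 322371406) (nat_lit 515) (nat_lit 5) (nat_lit 539) (nat_lit 5) (nat_lit 516) (nat_lit 5) (nat_lit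 368) (nat_lit 343) (nat_lit 309))) (XT.nd (nat_lit 78) (nat_lit 2052) (nat_lit 0) (XT.lf (nat_lit 0) (nat_lit 595853367) (nat_lit 1900) (nat_lit 2977635133) (nat_lit 76) (nat_lit 4194029455) (nat_lit 490) (nat_lit 5) (nat_lit 515) (nat_lit 5) (nat_lit 491) (nat_lit 5) (nat_lit 369) (nat_lit 343) (nat_lit 308)) (XT.nd (nat_lit 78) (nat_lit 912) (nat_lit 0) (XT.lf (nat_lit 0) (nat_lit 4137703304) (nat_lit 1216) (nat_lit 3325645035) (nat_lit 76) (nat_lit 392780518) (nat_lit 475) (nat_lit 5) (nat_lit 491) (nat_lit 5) (nat_lit 476) (nat_lit 5) (nat_lit 370) (nat_lit 343) (nat_lit 307)) (XT.lf (nat_lit 0) (nat_lit 4300467325) (nat_lit 912) (nat_lit 3466737330) (nat_lit 988) (nat_lit 180565511) (nat_lit 463) (nat_lit 5) (nat_lit 475) (nat_lit 5) (nat_lit 476) (nat_lit 5) (nat_lit 371) (nat_lit 343) (nat_lit 306)))))) (XT.nd (nat_lit 390) (nat_lit 3876) (nat_lit 0) (XT.nd (nat_lit 156) (nat_lit 2736) (nat_lit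 0) (XT.nd (nat_lit 78) (nat_lit 836) (nat_lit 0) (XT.lf (nat_lit 0) (nat_lit 3382762591) (nat_lit 988) (nat_lit 3946125695) (nat_lit 76) (nat_lit 713527576) (nat_lit 450) (nat_lit 5) (nat_lit 463) (nat_lit 5) (nat_lit 451) (nat_lit 5) (nat_lit 372) (nat_lit 343) (nat_lit 305)) (XT.lf (nat_lit 0) (nat_lit 3920026565) (nat_lit 836) (nat_lit 3116814199) (nat_lit 912) (nat_lit 1103310227) (nat_lit 439) (nat_lit 5) (nat_lit 450) (nat_lit 5) (nat_lit 451) (nat_lit 5) (nat_lit 373) (nat_lit 343) (nat_lit 304))) (XT.nd (nat_lit 78) (nat_lit 1748) (nat_lit 0) (XT.lf (nat_lit 0) (nat_lit 2500147516) (nat_lit 988) (nat_lit 4470094151) (nat_lit 76) (nat_lit 1270764205) (nat_lit 426) (nat_lit 5) (nat_lit 439) (nat_lit 5) (nat_lit 427) (nat_lit 5) (nat_lit 374) (nat_lit 343) (nat_lit 303)) (XT.nd (nat_lit 78) (nat_lit 912) (nat_lit 0) (XT.lf (nat_lit 0) (nat_lit 3645092569) (nat_lit 836) (nat_lit 2541092255) (nat_lit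 912) (nat_lit 2158766408) (nat_lit 415) (nat_lit 5) (nat_lit 426) (nat_lit 5) (nat_lit 427) (nat_lit 5) (nat_lit 375) (nat_lit 343) (nat_lit 302)) (XT.lf (nat_lit 0) (nat_lit 1495236885) (nat_lit 912) (nat_lit 4904897941) (nat_lit 76) (nat_lit 2051990846) (nat_lit 403) (nat_lit 5) (nat_lit 415) (nat_lit 5) (nat_lit 404) (nat_lit 5) (nat_lit 376) (nat_lit 343) (nat_lit 301))))) (XT.nd (nat_lit 156) (nat_lit 2280) (nat_lit 0) (XT.nd (nat_lit 78) (nat_lit 836) (nat_lit 0) (XT.lf (nat_lit 0) (nat_lit 3468829941) (nat_lit 760) (nat_lit 1751647585) (nat_lit 836) (nat_lit 3341933501) (nat_lit 393) (nat_lit 5) (nat_lit 403) (nat_lit 5) (nat_lit 404) (nat_lit 5) (nat_lit 377) (nat_lit 343) (nat_lit 300)) (XT.lf (nat_lit 0) (nat_lit 372758664) (nat_lit 836) (nat_lit 5257306676) (nat_lit 76) (nat_lit 3045964242) (nat_lit 382) (nat_lit 5) (nat_lit 393) (nat_lit 5) (nat_lit 383) (nat_lit 5) (nat_lit 378) (nat_lit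 343) (nat_lit 299))) (XT.nd (nat_lit 78) (nat_lit 1520) (nat_lit 0) (XT.lf (nat_lit 0) (nat_lit 3384988025) (nat_lit 760) (nat_lit 759347002) (nat_lit 836) (nat_lit 4648462921) (nat_lit 372) (nat_lit 5) (nat_lit 382) (nat_lit 5) (nat_lit 383) (nat_lit 5) (nat_lit 379) (nat_lit 343) (nat_lit 298)) (XT.nd (nat_lit 78) (nat_lit 760) (nat_lit 0) (XT.lf (nat_lit 0) (nat_lit 3373650737) (nat_lit 760) (nat_lit 4664594520) (nat_lit 836) (nat_lit 874640374) (nat_lit 362) (nat_lit 5) (nat_lit 372) (nat_lit 5) (nat_lit 373) (nat_lit 5) (nat_lit 380) (nat_lit 343) (nat_lit 297)) (XT.lf (nat_lit 0) (nat_lit 2964554630) (nat_lit 760) (nat_lit 5651314979) (nat_lit 76) (nat_lit 420481849) (nat_lit 352) (nat_lit 5) (nat_lit 362) (nat_lit 5) (nat_lit 353) (nat_lit 5) (nat_lit 381) (nat_lit 343) (nat_lit 296))))))))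
noncomputable def xc58 : XT := (XT.nd (nat_lit 1482) (nat_lit 7296) (nat_lit 0) (XT.nd (nat_lit 702) (nat_lit 5244) (nat_lit 0) (XT.nd (nat_lit 312) (nat_lit 3116) (nat_lit 0) (XT.nd (nat_lit 156) (nat_lit 1368) (nat_lit 0) (XT.nd (nat_lit 78) (nat_lit 760) (nat_lit 0) (XT.lf (nat_lit 0) (nat_lit 3409130579) (nat_lit 684) (nat_lit 3515563450) (nat_lit 760) (nat_lit 2238358575) (nat_lit 343) (nat_lit 5) (nat_lit 352) (nat_lit 5) (nat_lit 353) (nat_lit 5) (nat_lit 382) (nat_lit 343) (nat_lit 295)) (XT.lf (nat_lit 0) (nat_lit 1687979441) (nat_lit 760) (nat_lit 5832985608) (nat_lit 76) (nat_lit 1772361181) (nat_lit 333) (nat_lit 5) (nat_lit 343) (nat_lit 5) (nat_lit 334) (nat_lit 5) (nat_lit 383) (nat_lit 343) (nat_lit 294))) (XT.nd (nat_lit 78) (nat_lit 684) (nat_lit 0) (XT.lf (nat_lit 0) (nat_lit 3522732349) (nat_lit 684) (nat_lit 2193787181) (nat_lit 760) (nat_lit 3710396175) (nat_lit 324) (nat_lit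 5) (nat_lit 333) (nat_lit 5) (nat_lit 334) (nat_lit 5) (nat_lit 384) (nat_lit 343) (nat_lit 293)) (XT.lf (nat_lit 0) (nat_lit 312594815) (nat_lit 684) (nat_lit 5952930628) (nat_lit 76) (nat_lit 3298645387) (nat_lit 315) (nat_lit 5) (nat_lit 324) (nat_lit 5) (nat_lit 316) (nat_lit 5) (nat_lit 385) (nat_lit 343) (nat_lit 292)))) (XT.nd (nat_lit 156) (nat_lit 1900) (nat_lit 0) (XT.nd (nat_lit 78) (nat_lit 608) (nat_lit 0) (XT.lf (nat_lit 0) (nat_lit 3709968676) (nat_lit 608) (nat_lit 706647611) (nat_lit 684) (nat_lit 5288221797) (nat_lit 307) (nat_lit 5) (nat_lit 315) (nat_lit 5) (nat_lit 316) (nat_lit 5) (nat_lit 386) (nat_lit 343) (nat_lit 291)) (XT.lf (nat_lit 0) (nat_lit 3825694018) (nat_lit 608) (nat_lit 4848847046) (nat_lit 684) (nat_lit 1174568639) (nat_lit 299) (nat_lit 5) (nat_lit 307) (nat_lit 5) (nat_lit 308) (nat_lit 5) (nat_lit 387) (nat_lit 343) (nat_lit 290))) (XT.nd (nat_lit 78) (nat_lit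 1216) (nat_lit 0) (XT.lf (nat_lit 0) (nat_lit 3033518744) (nat_lit 684) (nat_lit 6036544482) (nat_lit 76) (nat_lit 927024773) (nat_lit 290) (nat_lit 5) (nat_lit 299) (nat_lit 5) (nat_lit 291) (nat_lit 5) (nat_lit 388) (nat_lit 343) (nat_lit 289)) (XT.nd (nat_lit 78) (nat_lit 684) (nat_lit 0) (XT.lf (nat_lit 0) (nat_lit 4104882814) (nat_lit 532) (nat_lit 3282230232) (nat_lit 608) (nat_lit 2761532881) (nat_lit 283) (nat_lit 5) (nat_lit 290) (nat_lit 5) (nat_lit 291) (nat_lit 5) (nat_lit 389) (nat_lit 343) (nat_lit 288)) (XT.lf (nat_lit 0) (nat_lit 1568713304) (nat_lit 684) (nat_lit 6032802183) (nat_lit 76) (nat_lit 2702577789) (nat_lit 274) (nat_lit 5) (nat_lit 283) (nat_lit 5) (nat_lit 275) (nat_lit 5) (nat_lit 390) (nat_lit 343) (nat_lit 287)))))) (XT.nd (nat_lit 390) (nat_lit 2508) (nat_lit 0) (XT.nd (nat_lit 156) (nat_lit 1596) (nat_lit 0) (XT.nd (nat_lit 78) (nat_lit 608) (nat_lit 0) (XT.lf (nat_lit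 0) (nat_lit 4447415565) (nat_lit 532) (nat_lit 1573266915) (nat_lit 608) (nat_lit 4442569812) (nat_lit 267) (nat_lit 5) (nat_lit 274) (nat_lit 5) (nat_lit 275) (nat_lit 5) (nat_lit 391) (nat_lit 343) (nat_lit 286)) (XT.lf (nat_lit 0) (nat_lit 19173778) (nat_lit 608) (nat_lit 5982804512) (nat_lit 76) (nat_lit 4624413032) (nat_lit 259) (nat_lit 5) (nat_lit 267) (nat_lit 5) (nat_lit 260) (nat_lit 5) (nat_lit 392) (nat_lit 343) (nat_lit 285))) (XT.nd (nat_lit 78) (nat_lit 1064) (nat_lit 0) (XT.lf (nat_lit 0) (nat_lit 4578644806) (nat_lit 608) (nat_lit 5945019849) (nat_lit 76) (nat_lit 269687916) (nat_lit 252) (nat_lit 5) (nat_lit 260) (nat_lit 5) (nat_lit 253) (nat_lit 5) (nat_lit 393) (nat_lit 343) (nat_lit 284)) (XT.nd (nat_lit 78) (nat_lit 532) (nat_lit 0) (XT.lf (nat_lit 0) (nat_lit 5063621730) (nat_lit 532) (nat_lit 4265252557) (nat_lit 608) (nat_lit 1635368883) (nat_lit 245) (nat_lit 5) (nat_lit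 252) (nat_lit 5) (nat_lit 253) (nat_lit 5) (nat_lit 394) (nat_lit 343) (nat_lit 283)) (XT.lf (nat_lit 0) (nat_lit 3071564634) (nat_lit 532) (nat_lit 5843941520) (nat_lit 76) (nat_lit 2223741672) (nat_lit 238) (nat_lit 5) (nat_lit 245) (nat_lit 5) (nat_lit 239) (nat_lit 5) (nat_lit 395) (nat_lit 343) (nat_lit 282))))) (XT.nd (nat_lit 156) (nat_lit 1444) (nat_lit 0) (XT.nd (nat_lit 78) (nat_lit 532) (nat_lit 0) (XT.lf (nat_lit 0) (nat_lit 5538866419) (nat_lit 532) (nat_lit 2405477622) (nat_lit 608) (nat_lit 3374005261) (nat_lit 231) (nat_lit 5) (nat_lit 238) (nat_lit 5) (nat_lit 239) (nat_lit 5) (nat_lit 396) (nat_lit 343) (nat_lit 281)) (XT.lf (nat_lit 0) (nat_lit 1490117489) (nat_lit 532) (nat_lit 5705421870) (nat_lit 76) (nat_lit 4306119036) (nat_lit 224) (nat_lit 5) (nat_lit 231) (nat_lit 5) (nat_lit 225) (nat_lit 5) (nat_lit 397) (nat_lit 343) (nat_lit 280))) (XT.nd (nat_lit 78) (nat_lit 988)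 (nat_lit 0) (XT.lf (nat_lit 0) (nat_lit 6067058765) (nat_lit 456) (nat_lit 426178920) (nat_lit 532) (nat_lit 5196004767) (nat_lit 218) (nat_lit 5) (nat_lit 224) (nat_lit 5) (nat_lit 225) (nat_lit 5) (nat_lit 398) (nat_lit 343) (nat_lit 279)) (XT.nd (nat_lit 78) (nat_lit 532) (nat_lit 0) (XT.lf (nat_lit 0) (nat_lit 6347765356) (nat_lit 456) (nat_lit 5366017122) (nat_lit 532) (nat_lit 167324932) (nat_lit 212) (nat_lit 5) (nat_lit 218) (nat_lit 5) (nat_lit 219) (nat_lit 5) (nat_lit 399) (nat_lit 343) (nat_lit 278)) (XT.lf (nat_lit 0) (nat_lit 4987096966) (nat_lit 532) (nat_lit 5442255198) (nat_lit 76) (nat_lit 1647912946) (nat_lit 205) (nat_lit 5) (nat_lit 212) (nat_lit 5) (nat_lit 206) (nat_lit 5) (nat_lit 400) (nat_lit 343) (nat_lit 277))))))) (XT.nd (nat_lit 780) (nat_lit 3268) (nat_lit 0) (XT.nd (nat_lit 390) (nat_lit 1900) (nat_lit 0) (XT.nd (nat_lit 156) (nat_lit 1216) (nat_lit 0) (XT.nd (nat_lit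 78) (nat_lit 532) (nat_lit 0) (XT.lf (nat_lit 0) (nat_lit 6938508463) (nat_lit 380) (nat_lit 3420385492) (nat_lit 456) (nat_lit 1919091150) (nat_lit 200) (nat_lit 5) (nat_lit 205) (nat_lit 5) (nat_lit 206) (nat_lit 5) (nat_lit 401) (nat_lit 343) (nat_lit 276)) (XT.lf (nat_lit 0) (nat_lit 3418999322) (nat_lit 532) (nat_lit 5234842634) (nat_lit 76) (nat_lit 3829310996) (nat_lit 193) (nat_lit 5) (nat_lit 200) (nat_lit 5) (nat_lit 194) (nat_lit 5) (nat_lit 402) (nat_lit 343) (nat_lit 275))) (XT.nd (nat_lit 78) (nat_lit 836) (nat_lit 0) (XT.lf (nat_lit 0) (nat_lit 7576699092) (nat_lit 380) (nat_lit 1370975664) (nat_lit 456) (nat_lit 3745417072) (nat_lit 188) (nat_lit 5) (nat_lit 193) (nat_lit 5) (nat_lit 194) (nat_lit 5) (nat_lit 403) (nat_lit 343) (nat_lit 274)) (XT.nd (nat_lit 78) (nat_lit 380) (nat_lit 0) (XT.lf (nat_lit 0) (nat_lit 1786297519) (nat_lit 456) (nat_lit 4999448468) (nat_lit 76) (nat_lit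 6121835002) (nat_lit 182) (nat_lit 5) (nat_lit 188) (nat_lit 5) (nat_lit 183) (nat_lit 5) (nat_lit 404) (nat_lit 343) (nat_lit 273)) (XT.lf (nat_lit 0) (nat_lit 7485500420) (nat_lit 456) (nat_lit 4871342146) (nat_lit 76) (nat_lit 770118667) (nat_lit 177) (nat_lit 5) (nat_lit 183) (nat_lit 5) (nat_lit 178) (nat_lit 5) (nat_lit 405) (nat_lit 343) (nat_lit 272))))) (XT.nd (nat_lit 156) (nat_lit 1140) (nat_lit 0) (XT.nd (nat_lit 78) (nat_lit 304) (nat_lit 0) (XT.lf (nat_lit 0) (nat_lit 88848570) (nat_lit 456) (nat_lit 4738165247) (nat_lit 76) (nat_lit 8524186147) (nat_lit 171) (nat_lit 5) (nat_lit 177) (nat_lit 5) (nat_lit 172) (nat_lit 5) (nat_lit 406) (nat_lit 343) (nat_lit 271)) (XT.lf (nat_lit 0) (nat_lit 5976922239) (nat_lit 380) (nat_lit 4610827178) (nat_lit 76) (nat_lit 2992420630) (nat_lit 167) (nat_lit 5) (nat_lit 172) (nat_lit 5) (nat_lit 168) (nat_lit 5) (nat_lit 407) (nat_lit 343) (nat_lit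 270))) (XT.nd (nat_lit 78) (nat_lit 760) (nat_lit 0) (XT.lf (nat_lit 0) (nat_lit 9350537781) (nat_lit 380) (nat_lit 2767948425) (nat_lit 456) (nat_lit 1695986065) (nat_lit 162) (nat_lit 5) (nat_lit 167) (nat_lit 5) (nat_lit 168) (nat_lit 5) (nat_lit 408) (nat_lit 343) (nat_lit 269)) (XT.nd (nat_lit 78) (nat_lit 380) (nat_lit 0) (XT.lf (nat_lit 0) (nat_lit 4412861935) (nat_lit 380) (nat_lit 4327798954) (nat_lit 76) (nat_lit 5312934328) (nat_lit 157) (nat_lit 5) (nat_lit 162) (nat_lit 5) (nat_lit 158) (nat_lit 5) (nat_lit 409) (nat_lit 343) (nat_lit 268)) (XT.lf (nat_lit 0) (nat_lit 10129770143) (nat_lit 380) (nat_lit 619886295) (nat_lit 456) (nat_lit 3548656746) (nat_lit 152) (nat_lit 5) (nat_lit 157) (nat_lit 5) (nat_lit 158) (nat_lit 5) (nat_lit 410) (nat_lit 343) (nat_lit 267)))))) (XT.nd (nat_lit 390) (nat_lit 1596) (nat_lit 0) (XT.nd (nat_lit 156) (nat_lit 988) (nat_lit 0) (XT.nd (nat_lit 78)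 (nat_lit 304) (nat_lit 0) (XT.lf (nat_lit 0) (nat_lit 2792919720) (nat_lit 380) (nat_lit 4023969277) (nat_lit 76) (nat_lit 7731079850) (nat_lit 147) (nat_lit 5) (nat_lit 152) (nat_lit 5) (nat_lit 148) (nat_lit 5) (nat_lit 411) (nat_lit 343) (nat_lit 266)) (XT.lf (nat_lit 0) (nat_lit 9345106242) (nat_lit 380) (nat_lit 3863547478) (nat_lit 76) (nat_lit 1594619823) (nat_lit 143) (nat_lit 5) (nat_lit 148) (nat_lit 5) (nat_lit 144) (nat_lit 5) (nat_lit 412) (nat_lit 343) (nat_lit 265))) (XT.nd (nat_lit 78) (nat_lit 608) (nat_lit 0) (XT.lf (nat_lit 0) (nat_lit 1116481007) (nat_lit 380) (nat_lit 3700921300) (nat_lit 76) (nat_lit 10246654887) (nat_lit 138) (nat_lit 5) (nat_lit 143) (nat_lit 5) (nat_lit 139) (nat_lit 5) (nat_lit 413) (nat_lit 343) (nat_lit 264)) (XT.nd (nat_lit 78) (nat_lit 304) (nat_lit 0) (XT.lf (nat_lit 0) (nat_lit 7898602893) (nat_lit 380) (nat_lit 3544574670) (nat_lit 76) (nat_lit 3887077437)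 (nat_lit 134) (nat_lit 5) (nat_lit 139) (nat_lit 5) (nat_lit 135) (nat_lit 5) (nat_lit 414) (nat_lit 343) (nat_lit 263)) (XT.lf (nat_lit 0) (nat_lit 12238398807) (nat_lit 304) (nat_lit 2738701810) (nat_lit 380) (nat_lit 625479878) (nat_lit 130) (nat_lit 5) (nat_lit 134) (nat_lit 5) (nat_lit 135) (nat_lit 5) (nat_lit 415) (nat_lit 343) (nat_lit 262))))) (XT.nd (nat_lit 156) (nat_lit 988) (nat_lit 0) (XT.nd (nat_lit 78) (nat_lit 228) (nat_lit 0) (XT.lf (nat_lit 0) (nat_lit 6405599012) (nat_lit 380) (nat_lit 3209013509) (nat_lit 76) (nat_lit 6265544931) (nat_lit 125) (nat_lit 5) (nat_lit 130) (nat_lit 5) (nat_lit 126) (nat_lit 5) (nat_lit 416) (nat_lit 343) (nat_lit 261)) (XT.lf (nat_lit 0) (nat_lit 13145526148) (nat_lit 228) (nat_lit 577380396) (nat_lit 304) (nat_lit 2441396604) (nat_lit 122) (nat_lit 5) (nat_lit 125) (nat_lit 5) (nat_lit 126) (nat_lit 5) (nat_lit 417) (nat_lit 343) (nat_lit 260)))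 (XT.nd (nat_lit 78) (nat_lit 608) (nat_lit 0) (XT.lf (nat_lit 0) (nat_lit 4865390933) (nat_lit 380) (nat_lit 2858177072) (nat_lit 76) (nat_lit 8730269156) (nat_lit 117) (nat_lit 5) (nat_lit 122) (nat_lit 5) (nat_lit 118) (nat_lit 5) (nat_lit 418) (nat_lit 343) (nat_lit 259)) (XT.nd (nat_lit 78) (nat_lit 380) (nat_lit 0) (XT.lf (nat_lit 0) (nat_lit 12443350011) (nat_lit 304) (nat_lit 2669402573) (nat_lit 76) (nat_lit 1637279120) (nat_lit 114) (nat_lit 5) (nat_lit 118) (nat_lit 5) (nat_lit 115) (nat_lit 5) (nat_lit 419) (nat_lit 343) (nat_lit 258)) (XT.lf (nat_lit 0) (nat_lit 3277099317) (nat_lit 380) (nat_lit 2493287184) (nat_lit 76) (nat_lit 11281801946) (nat_lit 109) (nat_lit 5) (nat_lit 114) (nat_lit 5) (nat_lit 110) (nat_lit 5) (nat_lit 420) (nat_lit 343) (nat_lit 257))))))))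
noncomputable def xc59 : XT := (XT.nd (nat_lit 48204) (nat_lit 0) (nat_lit 23940) (XT.nd (nat_lit 47424) (nat_lit 0) (nat_lit 46892) (XT.nd (nat_lit 390) (nat_lit 228) (nat_lit 0) (XT.nd (nat_lit 156) (nat_lit 760) (nat_lit 0) (XT.nd (nat_lit 78) (nat_lit 380) (nat_lit 0) (XT.lf (nat_lit 0) (nat_lit 11131379359) (nat_lit 304) (nat_lit 2310706621) (nat_lit 76) (nat_lit 3918724638) (nat_lit 106) (nat_lit 5) (nat_lit 110) (nat_lit 5) (nat_lit 107) (nat_lit 5) (nat_lit 421) (nat_lit 343) (nat_lit 256)) (XT.lf (nat_lit 0) (nat_lit 1639673696) (nat_lit 380) (nat_lit 2115483100) (nat_lit 76) (nat_lit 13920988171) (nat_lit 101) (nat_lit 5) (nat_lit 106) (nat_lit 5) (nat_lit 102) (nat_lit 5) (nat_lit 422) (nat_lit 343) (nat_lit 255))) (XT.nd (nat_lit 78) (nat_lit 532) (nat_lit 0) (XT.lf (nat_lit 0) (nat_lit 9782579969) (nat_lit 304) (nat_lit 1940046870) (nat_lit 76) (nat_lit 6275041742) (nat_lit 98) (nat_lit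 5) (nat_lit 102) (nat_lit 5) (nat_lit 99) (nat_lit 5) (nat_lit 423) (nat_lit 343) (nat_lit 254)) (XT.nd (nat_lit 78) (nat_lit 304) (nat_lit 0) (XT.lf (nat_lit 0) (nat_lit 16600528633) (nat_lit 228) (nat_lit 1677403122) (nat_lit 304) (nat_lit 48742983) (nat_lit 95) (nat_lit 5) (nat_lit 98) (nat_lit 5) (nat_lit 99) (nat_lit 5) (nat_lit 424) (nat_lit 343) (nat_lit 253)) (XT.lf (nat_lit 0) (nat_lit 8396140615) (nat_lit 304) (nat_lit 1558460593) (nat_lit 76) (nat_lit 8706999470) (nat_lit 91) (nat_lit 5) (nat_lit 95) (nat_lit 5) (nat_lit 92) (nat_lit 5) (nat_lit 425) (nat_lit 343) (nat_lit 252))))) (XT.nd (nat_lit 46800) (nat_lit 0) (nat_lit 51832) (XT.nd (nat_lit 46722) (nat_lit 0) (nat_lit 52972) (XT.lf (nat_lit 0) (nat_lit 17196286022) (nat_lit 304) (nat_lit 1340164779) (nat_lit 76) (nat_lit 468065602) (nat_lit 88) (nat_lit 5) (nat_lit 92) (nat_lit 5) (nat_lit 89) (nat_lit 5) (nat_lit 426) (nat_lit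 343) (nat_lit 251)) (XT.lf (nat_lit 0) (nat_lit 1444102260) (nat_lit 532) (nat_lit 905379364) (nat_lit 532) (nat_lit 905379364) (nat_lit 785) (nat_lit 3) (nat_lit 792) (nat_lit 3) (nat_lit 792) (nat_lit 5) (nat_lit 344) (nat_lit 344) (nat_lit 332))) (XT.nd (nat_lit 78) (nat_lit 608) (nat_lit 0) (XT.lf (nat_lit 0) (nat_lit 361615995) (nat_lit 532) (nat_lit 3431320753) (nat_lit 608) (nat_lit 2735123441) (nat_lit 778) (nat_lit 5) (nat_lit 785) (nat_lit 3) (nat_lit 786) (nat_lit 5) (nat_lit 345) (nat_lit 344) (nat_lit 331)) (XT.nd (nat_lit 78) (nat_lit 608) (nat_lit 0) (XT.lf (nat_lit 76) (nat_lit 1543907068) (nat_lit 0) (nat_lit 2738371849) (nat_lit 608) (nat_lit 2266846111) (nat_lit 779) (nat_lit 5) (nat_lit 778) (nat_lit 5) (nat_lit 786) (nat_lit 5) (nat_lit 346) (nat_lit 344) (nat_lit 330)) (XT.lf (nat_lit 76) (nat_lit 51880546) (nat_lit 0) (nat_lit 1546238269) (nat_lit 684) (nat_lit 4975049247)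 (nat_lit 771) (nat_lit 5) (nat_lit 770) (nat_lit 5) (nat_lit 779) (nat_lit 5) (nat_lit 347) (nat_lit 344) (nat_lit 329)))))) (XT.nd (nat_lit 390) (nat_lit 2736) (nat_lit 0) (XT.nd (nat_lit 156) (nat_lit 1596) (nat_lit 0) (XT.nd (nat_lit 78) (nat_lit 608) (nat_lit 0) (XT.lf (nat_lit 76) (nat_lit 5232889573) (nat_lit 0) (nat_lit 200836522) (nat_lit 684) (nat_lit 1166196797) (nat_lit 771) (nat_lit 5) (nat_lit 770) (nat_lit 5) (nat_lit 779) (nat_lit 5) (nat_lit 348) (nat_lit 344) (nat_lit 328)) (XT.lf (nat_lit 0) (nat_lit 2609316872) (nat_lit 684) (nat_lit 2743416886) (nat_lit 760) (nat_lit 1276617550) (nat_lit 762) (nat_lit 5) (nat_lit 771) (nat_lit 5) (nat_lit 772) (nat_lit 5) (nat_lit 349) (nat_lit 344) (nat_lit 327))) (XT.nd (nat_lit 78) (nat_lit 1596) (nat_lit 0) (XT.lf (nat_lit 76) (nat_lit 2598147497) (nat_lit 0) (nat_lit 3770716818) (nat_lit 760) (nat_lit 292911841) (nat_lit 763) (nat_lit 5)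 (nat_lit 762) (nat_lit 5) (nat_lit 772) (nat_lit 5) (nat_lit 350) (nat_lit 344) (nat_lit 326)) (XT.nd (nat_lit 78) (nat_lit 836) (nat_lit 0) (XT.lf (nat_lit 76) (nat_lit 1354374508) (nat_lit 0) (nat_lit 2034305786) (nat_lit 836) (nat_lit 3308249741) (nat_lit 753) (nat_lit 5) (nat_lit 752) (nat_lit 5) (nat_lit 763) (nat_lit 5) (nat_lit 351) (nat_lit 344) (nat_lit 325)) (XT.lf (nat_lit 76) (nat_lit 171788429) (nat_lit 0) (nat_lit 159140358) (nat_lit 912) (nat_lit 6404251284) (nat_lit 742) (nat_lit 5) (nat_lit 741) (nat_lit 5) (nat_lit 753) (nat_lit 5) (nat_lit 352) (nat_lit 344) (nat_lit 324))))) (XT.nd (nat_lit 156) (nat_lit 1900) (nat_lit 0) (XT.nd (nat_lit 78) (nat_lit 912) (nat_lit 0) (XT.lf (nat_lit 0) (nat_lit 3950551573) (nat_lit 836) (nat_lit 968060239) (nat_lit 912) (nat_lit 1857204146) (nat_lit 742) (nat_lit 5) (nat_lit 753) (nat_lit 5) (nat_lit 754) (nat_lit 5) (nat_lit 353) (nat_lit 344)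 (nat_lit 323)) (XT.lf (nat_lit 0) (nat_lit 753077273) (nat_lit 912) (nat_lit 2050418932) (nat_lit 988) (nat_lit 4015997330) (nat_lit 730) (nat_lit 5) (nat_lit 742) (nat_lit 5) (nat_lit 743) (nat_lit 5) (nat_lit 354) (nat_lit 344) (nat_lit 322))) (XT.nd (nat_lit 78) (nat_lit 1900) (nat_lit 0) (XT.lf (nat_lit 76) (nat_lit 3774911265) (nat_lit 0) (nat_lit 531036514) (nat_lit 988) (nat_lit 2560048902) (nat_lit 731) (nat_lit 5) (nat_lit 730) (nat_lit 5) (nat_lit 743) (nat_lit 5) (nat_lit 355) (nat_lit 344) (nat_lit 321)) (XT.nd (nat_lit 78) (nat_lit 988) (nat_lit 0) (XT.lf (nat_lit 0) (nat_lit 958945283) (nat_lit 988) (nat_lit 4091296211) (nat_lit 76) (nat_lit 1865092357) (nat_lit 718) (nat_lit 5) (nat_lit 731) (nat_lit 5) (nat_lit 719) (nat_lit 5) (nat_lit 356) (nat_lit 344) (nat_lit 320)) (XT.lf (nat_lit 0) (nat_lit 1912983744) (nat_lit 988) (nat_lit 2552866963) (nat_lit 1064) (nat_lit 2501619540) (nat_lit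 705) (nat_lit 5) (nat_lit 718) (nat_lit 5) (nat_lit 719) (nat_lit 5) (nat_lit 357) (nat_lit 344) (nat_lit 319))))))) (XT.nd (nat_lit 780) (nat_lit 10260) (nat_lit 0) (XT.nd (nat_lit 390) (nat_lit 7752) (nat_lit 0) (XT.nd (nat_lit 156) (nat_lit 2660) (nat_lit 0) (XT.nd (nat_lit 78) (nat_lit 1140) (nat_lit 0) (XT.lf (nat_lit 0) (nat_lit 960357798) (nat_lit 1140) (nat_lit 5968432365) (nat_lit 76) (nat_lit 93894840) (nat_lit 690) (nat_lit 5) (nat_lit 705) (nat_lit 5) (nat_lit 691) (nat_lit 5) (nat_lit 358) (nat_lit 344) (nat_lit 318)) (XT.lf (nat_lit 0) (nat_lit 219602418) (nat_lit 1140) (nat_lit 4210925764) (nat_lit 1216) (nat_lit 2649930886) (nat_lit 675) (nat_lit 5) (nat_lit 690) (nat_lit 5) (nat_lit 691) (nat_lit 5) (nat_lit 359) (nat_lit 344) (nat_lit 317))) (XT.nd (nat_lit 78) (nat_lit 2584) (nat_lit 0) (XT.lf (nat_lit 0) (nat_lit 781413142) (nat_lit 1216) (nat_lit 555990654) (nat_lit 76) (nat_lit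 5803891890) (nat_lit 674) (nat_lit 5) (nat_lit 690) (nat_lit 5) (nat_lit 675) (nat_lit 5) (nat_lit 360) (nat_lit 344) (nat_lit 316)) (XT.nd (nat_lit 78) (nat_lit 1368) (nat_lit 0) (XT.lf (nat_lit 0) (nat_lit 4219867029) (nat_lit 1292) (nat_lit 1301652930) (nat_lit 76) (nat_lit 1683283690) (nat_lit 658) (nat_lit 5) (nat_lit 675) (nat_lit 5) (nat_lit 659) (nat_lit 5) (nat_lit 361) (nat_lit 344) (nat_lit 315)) (XT.lf (nat_lit 0) (nat_lit 424676630) (nat_lit 1368) (nat_lit 2004898304) (nat_lit 76) (nat_lit 4841780888) (nat_lit 640) (nat_lit 5) (nat_lit 658) (nat_lit 5) (nat_lit 641) (nat_lit 5) (nat_lit 362) (nat_lit 344) (nat_lit 314))))) (XT.nd (nat_lit 156) (nat_lit 4940) (nat_lit 0) (XT.nd (nat_lit 78) (nat_lit 1444) (nat_lit 0) (XT.lf (nat_lit 0) (nat_lit 3836048082) (nat_lit 1444) (nat_lit 2679754110) (nat_lit 76) (nat_lit 824907291) (nat_lit 622) (nat_lit 5) (nat_lit 641) (nat_lit 5) (nat_lit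 623) (nat_lit 5) (nat_lit 363) (nat_lit 344) (nat_lit 313)) (XT.lf (nat_lit 0) (nat_lit 4094525567) (nat_lit 1444) (nat_lit 3209570229) (nat_lit 1520) (nat_lit 108961255) (nat_lit 603) (nat_lit 5) (nat_lit 622) (nat_lit 5) (nat_lit 623) (nat_lit 5) (nat_lit 364) (nat_lit 344) (nat_lit 312))) (XT.nd (nat_lit 78) (nat_lit 3344) (nat_lit 0) (XT.lf (nat_lit 0) (nat_lit 3286955772) (nat_lit 1596) (nat_lit 3929167295) (nat_lit 76) (nat_lit 272156196) (nat_lit 582) (nat_lit 5) (nat_lit 603) (nat_lit 5) (nat_lit 583) (nat_lit 5) (nat_lit 365) (nat_lit 344) (nat_lit 311)) (XT.nd (nat_lit 78) (nat_lit 1748) (nat_lit 0) (XT.lf (nat_lit 0) (nat_lit 3055110857) (nat_lit 1596) (nat_lit 3694175044) (nat_lit 1672) (nat_lit 817137516) (nat_lit 561) (nat_lit 5) (nat_lit 582) (nat_lit 5) (nat_lit 583) (nat_lit 5) (nat_lit 366) (nat_lit 344) (nat_lit 310)) (XT.lf (nat_lit 0) (nat_lit 2580955823) (nat_lit 1748) (nat_lit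 5060614153) (nat_lit 76) (nat_lit 6047784) (nat_lit 538) (nat_lit 5) (nat_lit 561) (nat_lit 5) (nat_lit 539) (nat_lit 5) (nat_lit 367) (nat_lit 344) (nat_lit 309)))))) (XT.nd (nat_lit 390) (nat_lit 3572) (nat_lit 0) (XT.nd (nat_lit 156) (nat_lit 3040) (nat_lit 0) (XT.nd (nat_lit 78) (nat_lit 1900) (nat_lit 0) (XT.lf (nat_lit 0) (nat_lit 2140833718) (nat_lit 1748) (nat_lit 3904558174) (nat_lit 1824) (nat_lit 1686237984) (nat_lit 515) (nat_lit 5) (nat_lit 538) (nat_lit 5) (nat_lit 539) (nat_lit 5) (nat_lit 368) (nat_lit 344) (nat_lit 308)) (XT.lf (nat_lit 0) (nat_lit 1725532882) (nat_lit 1900) (nat_lit 6084019141) (nat_lit 76) (nat_lit 9307492) (nat_lit 490) (nat_lit 5) (nat_lit 515) (nat_lit 5) (nat_lit 491) (nat_lit 5) (nat_lit 369) (nat_lit 344) (nat_lit 307))) (XT.nd (nat_lit 78) (nat_lit 1900) (nat_lit 0) (XT.lf (nat_lit 0) (nat_lit 1342262213) (nat_lit 1140) (nat_lit 3857393351) (nat_lit 1216)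 (nat_lit 2709169397) (nat_lit 475) (nat_lit 5) (nat_lit 490) (nat_lit 5) (nat_lit 491) (nat_lit 5) (nat_lit 370) (nat_lit 344) (nat_lit 306)) (XT.nd (nat_lit 78) (nat_lit 912) (nat_lit 0) (XT.lf (nat_lit 0) (nat_lit 727348778) (nat_lit 988) (nat_lit 7008571648) (nat_lit 76) (nat_lit 266247705) (nat_lit 462) (nat_lit 5) (nat_lit 475) (nat_lit 5) (nat_lit 463) (nat_lit 5) (nat_lit 371) (nat_lit 344) (nat_lit 305)) (XT.lf (nat_lit 0) (nat_lit 650701334) (nat_lit 912) (nat_lit 3567825903) (nat_lit 988) (nat_lit 3879658774) (nat_lit 450) (nat_lit 5) (nat_lit 462) (nat_lit 5) (nat_lit 463) (nat_lit 5) (nat_lit 372) (nat_lit 344) (nat_lit 304))))) (XT.nd (nat_lit 156) (nat_lit 1748) (nat_lit 0) (XT.nd (nat_lit 78) (nat_lit 988) (nat_lit 0) (XT.lf (nat_lit 0) (nat_lit 352216290) (nat_lit 836) (nat_lit 7432343564) (nat_lit 912) (nat_lit 413122197) (nat_lit 439) (nat_lit 5) (nat_lit 450) (nat_lit 5) (nat_lit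 451) (nat_lit 5) (nat_lit 373) (nat_lit 344) (nat_lit 303)) (XT.lf (nat_lit 0) (nat_lit 58136962) (nat_lit 912) (nat_lit 3049580395) (nat_lit 988) (nat_lit 5192201276) (nat_lit 426) (nat_lit 5) (nat_lit 438) (nat_lit 5) (nat_lit 439) (nat_lit 5) (nat_lit 374) (nat_lit 344) (nat_lit 302))) (XT.nd (nat_lit 78) (nat_lit 1748) (nat_lit 0) (XT.lf (nat_lit 0) (nat_lit 6710154442) (nat_lit 988) (nat_lit 197373335) (nat_lit 76) (nat_lit 1498008220) (nat_lit 426) (nat_lit 5) (nat_lit 439) (nat_lit 5) (nat_lit 427) (nat_lit 5) (nat_lit 375) (nat_lit 344) (nat_lit 301)) (XT.nd (nat_lit 78) (nat_lit 836) (nat_lit 0) (XT.lf (nat_lit 0) (nat_lit 1875118883) (nat_lit 912) (nat_lit 437008303) (nat_lit 76) (nat_lit 6202071589) (nat_lit 414) (nat_lit 5) (nat_lit 426) (nat_lit 5) (nat_lit 415) (nat_lit 5) (nat_lit 376) (nat_lit 344) (nat_lit 300)) (XT.lf (nat_lit 0) (nat_lit 5521290484) (nat_lit 912) (nat_lit 656470784)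 (nat_lit 76) (nat_lit 2448304245) (nat_lit 403) (nat_lit 5) (nat_lit 415) (nat_lit 5) (nat_lit 404) (nat_lit 5) (nat_lit 377) (nat_lit 344) (nat_lit 299))))))))
noncomputable def xc60 : XT := (XT.nd (nat_lit 1482) (nat_lit 8588) (nat_lit 0) (XT.nd (nat_lit 702) (nat_lit 5852) (nat_lit 0) (XT.nd (nat_lit 312) (nat_lit 3496) (nat_lit 0) (XT.nd (nat_lit 156) (nat_lit 1596) (nat_lit 0) (XT.nd (nat_lit 78) (nat_lit 760) (nat_lit 0) (XT.lf (nat_lit 0) (nat_lit 522052283) (nat_lit 836) (nat_lit 847695640) (nat_lit 76) (nat_lit 7371600438) (nat_lit 392) (nat_lit 5) (nat_lit 403) (nat_lit 5) (nat_lit 393) (nat_lit 5) (nat_lit 378) (nat_lit 344) (nat_lit 298)) (XT.lf (nat_lit 0) (nat_lit 4219912276) (nat_lit 836) (nat_lit 1036092289) (nat_lit 76) (nat_lit 3603586488) (nat_lit 382) (nat_lit 5) (nat_lit 393) (nat_lit 5) (nat_lit 383) (nat_lit 5) (nat_lit 379) (nat_lit 344) (nat_lit 297))) (XT.nd (nat_lit 78)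 (nat_lit 836) (nat_lit 0) (XT.lf (nat_lit 0) (nat_lit 7794428258) (nat_lit 760) (nat_lit 226450048) (nat_lit 836) (nat_lit 960659316) (nat_lit 372) (nat_lit 5) (nat_lit 382) (nat_lit 5) (nat_lit 383) (nat_lit 5) (nat_lit 380) (nat_lit 344) (nat_lit 296)) (XT.lf (nat_lit 0) (nat_lit 2809669793) (nat_lit 836) (nat_lit 1342130951) (nat_lit 76) (nat_lit 4954613755) (nat_lit 361) (nat_lit 5) (nat_lit 372) (nat_lit 5) (nat_lit 362) (nat_lit 5) (nat_lit 381) (nat_lit 344) (nat_lit 295)))) (XT.nd (nat_lit 156) (nat_lit 2052) (nat_lit 0) (XT.nd (nat_lit 78) (nat_lit 760) (nat_lit 0) (XT.lf (nat_lit 0) (nat_lit 6676664133) (nat_lit 760) (nat_lit 1466076431) (nat_lit 76) (nat_lit 1092237981) (nat_lit 352) (nat_lit 5) (nat_lit 362) (nat_lit 5) (nat_lit 353) (nat_lit 5) (nat_lit 382) (nat_lit 344) (nat_lit 294)) (XT.lf (nat_lit 0) (nat_lit 1293666647) (nat_lit 760) (nat_lit 1580014574) (nat_lit 76) (nat_lit 6493183563)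 (nat_lit 342) (nat_lit 5) (nat_lit 352) (nat_lit 5) (nat_lit 343) (nat_lit 5) (nat_lit 383) (nat_lit 344) (nat_lit 293))) (XT.nd (nat_lit 78) (nat_lit 1368) (nat_lit 0) (XT.lf (nat_lit 0) (nat_lit 5236265457) (nat_lit 760) (nat_lit 1681830617) (nat_lit 76) (nat_lit 2584077010) (nat_lit 333) (nat_lit 5) (nat_lit 343) (nat_lit 5) (nat_lit 334) (nat_lit 5) (nat_lit 384) (nat_lit 344) (nat_lit 292)) (XT.nd (nat_lit 78) (nat_lit 684) (nat_lit 0) (XT.lf (nat_lit 0) (nat_lit 7884372323) (nat_lit 684) (nat_lit 1427048725) (nat_lit 760) (nat_lit 329834009) (nat_lit 324) (nat_lit 5) (nat_lit 333) (nat_lit 5) (nat_lit 334) (nat_lit 5) (nat_lit 385) (nat_lit 344) (nat_lit 291)) (XT.lf (nat_lit 0) (nat_lit 3700731454) (nat_lit 684) (nat_lit 1837666958) (nat_lit 76) (nat_lit 4245122367) (nat_lit 315) (nat_lit 5) (nat_lit 324) (nat_lit 5) (nat_lit 316) (nat_lit 5) (nat_lit 386) (nat_lit 344) (nat_lit 290))))))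 (XT.nd (nat_lit 390) (nat_lit 2736) (nat_lit 0) (XT.nd (nat_lit 156) (nat_lit 1824) (nat_lit 0) (XT.nd (nat_lit 78) (nat_lit 684) (nat_lit 0) (XT.lf (nat_lit 0) (nat_lit 7858113661) (nat_lit 684) (nat_lit 1885595355) (nat_lit 76) (nat_lit 186094233) (nat_lit 307) (nat_lit 5) (nat_lit 316) (nat_lit 5) (nat_lit 308) (nat_lit 5) (nat_lit 387) (nat_lit 344) (nat_lit 289)) (XT.lf (nat_lit 0) (nat_lit 2072122498) (nat_lit 684) (nat_lit 1937973799) (nat_lit 76) (nat_lit 6069322567) (nat_lit 298) (nat_lit 5) (nat_lit 307) (nat_lit 5) (nat_lit 299) (nat_lit 5) (nat_lit 388) (nat_lit 344) (nat_lit 288))) (XT.nd (nat_lit 78) (nat_lit 1216) (nat_lit 0) (XT.lf (nat_lit 0) (nat_lit 6329091466) (nat_lit 684) (nat_lit 1970909051) (nat_lit 76) (nat_lit 1932908780) (nat_lit 290) (nat_lit 5) (nat_lit 299) (nat_lit 5) (nat_lit 291) (nat_lit 5) (nat_lit 389) (nat_lit 344) (nat_lit 287)) (XT.nd (nat_lit 78) (nat_lit 608)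 (nat_lit 0) (XT.lf (nat_lit 0) (nat_lit 352065002) (nat_lit 608) (nat_lit 1986791525) (nat_lit 76) (nat_lit 8051435342) (nat_lit 282) (nat_lit 5) (nat_lit 290) (nat_lit 5) (nat_lit 283) (nat_lit 5) (nat_lit 390) (nat_lit 344) (nat_lit 286)) (XT.lf (nat_lit 0) (nat_lit 4716718159) (nat_lit 684) (nat_lit 2007413840) (nat_lit 76) (nat_lit 3827065207) (nat_lit 274) (nat_lit 5) (nat_lit 283) (nat_lit 5) (nat_lit 275) (nat_lit 5) (nat_lit 391) (nat_lit 344) (nat_lit 285))))) (XT.nd (nat_lit 156) (nat_lit 1596) (nat_lit 0) (XT.nd (nat_lit 78) (nat_lit 608) (nat_lit 0) (XT.lf (nat_lit 0) (nat_lit 8718967047) (nat_lit 532) (nat_lit 519828101) (nat_lit 608) (nat_lit 1477604870) (nat_lit 267) (nat_lit 5) (nat_lit 274) (nat_lit 5) (nat_lit 275) (nat_lit 5) (nat_lit 392) (nat_lit 344) (nat_lit 284)) (XT.lf (nat_lit 0) (nat_lit 3022235636) (nat_lit 608) (nat_lit 1998660271) (nat_lit 76) (nat_lit 5864237422) (nat_lit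 259) (nat_lit 5) (nat_lit 267) (nat_lit 5) (nat_lit 260) (nat_lit 5) (nat_lit 393) (nat_lit 344) (nat_lit 283))) (XT.nd (nat_lit 78) (nat_lit 1064) (nat_lit 0) (XT.lf (nat_lit 0) (nat_lit 7665129630) (nat_lit 608) (nat_lit 1975954836) (nat_lit 76) (nat_lit 1417086172) (nat_lit 252) (nat_lit 5) (nat_lit 260) (nat_lit 5) (nat_lit 253) (nat_lit 5) (nat_lit 394) (nat_lit 344) (nat_lit 282)) (XT.nd (nat_lit 78) (nat_lit 456) (nat_lit 0) (XT.lf (nat_lit 0) (nat_lit 1246518390) (nat_lit 608) (nat_lit 1947917755) (nat_lit 76) (nat_lit 8040775914) (nat_lit 244) (nat_lit 5) (nat_lit 252) (nat_lit 5) (nat_lit 245) (nat_lit 5) (nat_lit 395) (nat_lit 344) (nat_lit 281)) (XT.lf (nat_lit 0) (nat_lit 6021953446) (nat_lit 532) (nat_lit 1918088547) (nat_lit 76) (nat_lit 3476218430) (nat_lit 238) (nat_lit 5) (nat_lit 245) (nat_lit 5) (nat_lit 239) (nat_lit 5) (nat_lit 396) (nat_lit 344) (nat_lit 280))))))) (XT.nd (nat_lit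 780) (nat_lit 3952) (nat_lit 0) (XT.nd (nat_lit 390) (nat_lit 2128) (nat_lit 0) (XT.nd (nat_lit 156) (nat_lit 1444) (nat_lit 0) (XT.nd (nat_lit 78) (nat_lit 532) (nat_lit 0) (XT.lf (nat_lit 0) (nat_lit 9739666999) (nat_lit 532) (nat_lit 1244194997) (nat_lit 608) (nat_lit 618014032) (nat_lit 231) (nat_lit 5) (nat_lit 238) (nat_lit 5) (nat_lit 239) (nat_lit 5) (nat_lit 397) (nat_lit 344) (nat_lit 279)) (XT.lf (nat_lit 0) (nat_lit 4306507764) (nat_lit 532) (nat_lit 1823336429) (nat_lit 76) (nat_lit 5661430218) (nat_lit 224) (nat_lit 5) (nat_lit 231) (nat_lit 5) (nat_lit 225) (nat_lit 5) (nat_lit 398) (nat_lit 344) (nat_lit 278))) (XT.nd (nat_lit 78) (nat_lit 988) (nat_lit 0) (XT.lf (nat_lit 0) (nat_lit 9410282050) (nat_lit 532) (nat_lit 1754423087) (nat_lit 76) (nat_lit 820769643) (nat_lit 218) (nat_lit 5) (nat_lit 225) (nat_lit 5) (nat_lit 219) (nat_lit 5) (nat_lit 399) (nat_lit 344) (nat_lit 277))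 (XT.nd (nat_lit 78) (nat_lit 456) (nat_lit 0) (XT.lf (nat_lit 0) (nat_lit 2519096920) (nat_lit 532) (nat_lit 1694349453) (nat_lit 76) (nat_lit 7970333013) (nat_lit 211) (nat_lit 5) (nat_lit 218) (nat_lit 5) (nat_lit 212) (nat_lit 5) (nat_lit 400) (nat_lit 344) (nat_lit 276)) (XT.lf (nat_lit 0) (nat_lit 7781596135) (nat_lit 532) (nat_lit 1622335074) (nat_lit 76) (nat_lit 2982754129) (nat_lit 205) (nat_lit 5) (nat_lit 212) (nat_lit 5) (nat_lit 206) (nat_lit 5) (nat_lit 401) (nat_lit 344) (nat_lit 275))))) (XT.nd (nat_lit 156) (nat_lit 1216) (nat_lit 0) (XT.nd (nat_lit 78) (nat_lit 456) (nat_lit 0) (XT.lf (nat_lit 0) (nat_lit 659727203) (nat_lit 456) (nat_lit 1533570109) (nat_lit 76) (nat_lit 10401074687) (nat_lit 199) (nat_lit 5) (nat_lit 205) (nat_lit 5) (nat_lit 200) (nat_lit 5) (nat_lit 402) (nat_lit 344) (nat_lit 274)) (XT.lf (nat_lit 0) (nat_lit 6089885400) (nat_lit 532) (nat_lit 1460205679) (nat_lit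 76) (nat_lit 5256190140) (nat_lit 193) (nat_lit 5) (nat_lit 200) (nat_lit 5) (nat_lit 194) (nat_lit 5) (nat_lit 403) (nat_lit 344) (nat_lit 273))) (XT.nd (nat_lit 78) (nat_lit 836) (nat_lit 0) (XT.lf (nat_lit 0) (nat_lit 11671895425) (nat_lit 380) (nat_lit 62833290) (nat_lit 456) (nat_lit 1288783393) (nat_lit 188) (nat_lit 5) (nat_lit 193) (nat_lit 5) (nat_lit 194) (nat_lit 5) (nat_lit 404) (nat_lit 344) (nat_lit 272)) (XT.nd (nat_lit 78) (nat_lit 380) (nat_lit 0) (XT.lf (nat_lit 0) (nat_lit 4335044216) (nat_lit 456) (nat_lit 1270192234) (nat_lit 76) (nat_lit 7639668813) (nat_lit 182) (nat_lit 5) (nat_lit 188) (nat_lit 5) (nat_lit 183) (nat_lit 5) (nat_lit 405) (nat_lit 344) (nat_lit 271)) (XT.lf (nat_lit 0) (nat_lit 10166215411) (nat_lit 456) (nat_lit 1161122284) (nat_lit 76) (nat_lit 2144309376) (nat_lit 177) (nat_lit 5) (nat_lit 183) (nat_lit 5) (nat_lit 178) (nat_lit 5) (nat_lit 406) (nat_lit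 344) (nat_lit 270)))))) (XT.nd (nat_lit 390) (nat_lit 2052) (nat_lit 0) (XT.nd (nat_lit 156) (nat_lit 1140) (nat_lit 0) (XT.nd (nat_lit 78) (nat_lit 304) (nat_lit 0) (XT.lf (nat_lit 0) (nat_lit 2516712747) (nat_lit 456) (nat_lit 1054285325) (nat_lit 76) (nat_lit 10132233917) (nat_lit 171) (nat_lit 5) (nat_lit 177) (nat_lit 5) (nat_lit 172) (nat_lit 5) (nat_lit 407) (nat_lit 344) (nat_lit 269)) (XT.lf (nat_lit 0) (nat_lit 8544221873) (nat_lit 380) (nat_lit 946611851) (nat_lit 76) (nat_lit 4448981585) (nat_lit 167) (nat_lit 5) (nat_lit 172) (nat_lit 5) (nat_lit 168) (nat_lit 5) (nat_lit 408) (nat_lit 344) (nat_lit 268))) (XT.nd (nat_lit 78) (nat_lit 684) (nat_lit 0) (XT.lf (nat_lit 0) (nat_lit 634286428) (nat_lit 456) (nat_lit 814322480) (nat_lit 76) (nat_lit 12733359535) (nat_lit 161) (nat_lit 5) (nat_lit 167) (nat_lit 5) (nat_lit 162) (nat_lit 5) (nat_lit 409) (nat_lit 344) (nat_lit 267)) (XT.nd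 (nat_lit 78) (nat_lit 380) (nat_lit 0) (XT.lf (nat_lit 0) (nat_lit 6867969422) (nat_lit 380) (nat_lit 709443433) (nat_lit 76) (nat_lit 6851335786) (nat_lit 157) (nat_lit 5) (nat_lit 162) (nat_lit 5) (nat_lit 158) (nat_lit 5) (nat_lit 410) (nat_lit 344) (nat_lit 266)) (XT.lf (nat_lit 0) (nat_lit 13356155200) (nat_lit 456) (nat_lit 565638167) (nat_lit 76) (nat_lit 759789031) (nat_lit 152) (nat_lit 5) (nat_lit 158) (nat_lit 5) (nat_lit 153) (nat_lit 5) (nat_lit 411) (nat_lit 344) (nat_lit 265))))) (XT.nd (nat_lit 156) (nat_lit 1368) (nat_lit 0) (XT.nd (nat_lit 78) (nat_lit 304) (nat_lit 0) (XT.lf (nat_lit 0) (nat_lit 5136871287) (nat_lit 380) (nat_lit 451250741) (nat_lit 76) (nat_lit 9351082604) (nat_lit 147) (nat_lit 5) (nat_lit 152) (nat_lit 5) (nat_lit 148) (nat_lit 5) (nat_lit 412) (nat_lit 344) (nat_lit 264)) (XT.lf (nat_lit 0) (nat_lit 11852575537) (nat_lit 380) (nat_lit 310770377) (nat_lit 76)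 (nat_lit 3039483514) (nat_lit 143) (nat_lit 5) (nat_lit 148) (nat_lit 5) (nat_lit 144) (nat_lit 5) (nat_lit 413) (nat_lit 344) (nat_lit 263))) (XT.nd (nat_lit 78) (nat_lit 988) (nat_lit 0) (XT.lf (nat_lit 0) (nat_lit 3350131882) (nat_lit 380) (nat_lit 173546524) (nat_lit 76) (nat_lit 11948297375) (nat_lit 138) (nat_lit 5) (nat_lit 143) (nat_lit 5) (nat_lit 139) (nat_lit 5) (nat_lit 414) (nat_lit 344) (nat_lit 262)) (XT.nd (nat_lit 78) (nat_lit 684) (nat_lit 0) (XT.lf (nat_lit 0) (nat_lit 10304094836) (nat_lit 380) (nat_lit 37571943) (nat_lit 76) (nat_lit 5405125193) (nat_lit 134) (nat_lit 5) (nat_lit 139) (nat_lit 5) (nat_lit 135) (nat_lit 5) (nat_lit 415) (nat_lit 344) (nat_lit 261)) (XT.lf (nat_lit 0) (nat_lit 123891737) (nat_lit 304) (nat_lit 1383665726) (nat_lit 380) (nat_lit 14520317056) (nat_lit 125) (nat_lit 5) (nat_lit 129) (nat_lit 5) (nat_lit 130) (nat_lit 5) (nat_lit 416) (nat_lit 344)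 (nat_lit 260))))))))
noncomputable def xc61 : XT := (XT.nd (nat_lit 48204) (nat_lit 0) (nat_lit 27436) (XT.nd (nat_lit 702) (nat_lit 228) (nat_lit 0) (XT.nd (nat_lit 312) (nat_lit 1444) (nat_lit 0) (XT.nd (nat_lit 156) (nat_lit 608) (nat_lit 0) (XT.nd (nat_lit 78) (nat_lit 304) (nat_lit 0) (XT.lf (nat_lit 0) (nat_lit 255959035) (nat_lit 228) (nat_lit 8455733226) (nat_lit 304) (nat_lit 7602591409) (nat_lit 122) (nat_lit 5) (nat_lit 125) (nat_lit 5) (nat_lit 126) (nat_lit 5) (nat_lit 417) (nat_lit 344) (nat_lit 259)) (XT.lf (nat_lit 0) (nat_lit 432563837) (nat_lit 304) (nat_lit 15783706830) (nat_lit 380) (nat_lit 391328036) (nat_lit 118) (nat_lit 5) (nat_lit 122) (nat_lit 5) (nat_lit 123) (nat_lit 5) (nat_lit 418) (nat_lit 344) (nat_lit 258))) (XT.nd (nat_lit 78) (nat_lit 304) (nat_lit 0) (XT.lf (nat_lit 0) (nat_lit 565912962) (nat_lit 228) (nat_lit 6507284585) (nat_lit 304) (nat_lit 9833017831) (nat_lit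 114) (nat_lit 5) (nat_lit 117) (nat_lit 5) (nat_lit 118) (nat_lit 5) (nat_lit 419) (nat_lit 344) (nat_lit 257)) (XT.lf (nat_lit 0) (nat_lit 736931015) (nat_lit 304) (nat_lit 14114351109) (nat_lit 380) (nat_lit 2360557901) (nat_lit 110) (nat_lit 5) (nat_lit 114) (nat_lit 5) (nat_lit 115) (nat_lit 5) (nat_lit 420) (nat_lit 344) (nat_lit 256)))) (XT.nd (nat_lit 156) (nat_lit 836) (nat_lit 0) (XT.nd (nat_lit 78) (nat_lit 304) (nat_lit 0) (XT.lf (nat_lit 0) (nat_lit 890599526) (nat_lit 228) (nat_lit 4496725716) (nat_lit 304) (nat_lit 12136190599) (nat_lit 106) (nat_lit 5) (nat_lit 109) (nat_lit 5) (nat_lit 110) (nat_lit 5) (nat_lit 421) (nat_lit 344) (nat_lit 255)) (XT.lf (nat_lit 0) (nat_lit 1055056724) (nat_lit 304) (nat_lit 12396059331) (nat_lit 380) (nat_lit 4390802975) (nat_lit 102) (nat_lit 5) (nat_lit 106) (nat_lit 5) (nat_lit 107) (nat_lit 5) (nat_lit 422) (nat_lit 344) (nat_lit 254))) (XT.nd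 (nat_lit 78) (nat_lit 532) (nat_lit 0) (XT.lf (nat_lit 0) (nat_lit 1228905915) (nat_lit 228) (nat_lit 2423964099) (nat_lit 304) (nat_lit 14514279180) (nat_lit 98) (nat_lit 5) (nat_lit 101) (nat_lit 5) (nat_lit 102) (nat_lit 5) (nat_lit 423) (nat_lit 344) (nat_lit 253)) (XT.nd (nat_lit 78) (nat_lit 304) (nat_lit 0) (XT.lf (nat_lit 0) (nat_lit 1385857642) (nat_lit 228) (nat_lit 10629110874) (nat_lit 304) (nat_lit 6483851900) (nat_lit 95) (nat_lit 5) (nat_lit 98) (nat_lit 5) (nat_lit 99) (nat_lit 5) (nat_lit 424) (nat_lit 344) (nat_lit 252)) (XT.lf (nat_lit 0) (nat_lit 1579789657) (nat_lit 228) (nat_lit 288673040) (nat_lit 304) (nat_lit 16969658611) (nat_lit 91) (nat_lit 5) (nat_lit 94) (nat_lit 5) (nat_lit 95) (nat_lit 5) (nat_lit 425) (nat_lit 344) (nat_lit 251)))))) (XT.nd (nat_lit 47112) (nat_lit 0) (nat_lit 48716) (XT.nd (nat_lit 46878) (nat_lit 0) (nat_lit 51148) (XT.nd (nat_lit 46800) (nat_lit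 0) (nat_lit 52440) (XT.lf (nat_lit 0) (nat_lit 1728315677) (nat_lit 228) (nat_lit 8813578271) (nat_lit 304) (nat_lit 8641677369) (nat_lit 88) (nat_lit 5) (nat_lit 91) (nat_lit 5) (nat_lit 92) (nat_lit 5) (nat_lit 426) (nat_lit 344) (nat_lit 250)) (XT.lf (nat_lit 0) (nat_lit 1052031270) (nat_lit 0) (nat_lit 1052031270) (nat_lit 532) (nat_lit 1169792802) (nat_lit 778) (nat_lit 5) (nat_lit 778) (nat_lit 3) (nat_lit 785) (nat_lit 3) (nat_lit 345) (nat_lit 345) (nat_lit 330))) (XT.nd (nat_lit 78) (nat_lit 608) (nat_lit 0) (XT.lf (nat_lit 76) (nat_lit 476288336) (nat_lit 0) (nat_lit 974142432) (nat_lit 684) (nat_lit 5119924621) (nat_lit 770) (nat_lit 5) (nat_lit 769) (nat_lit 3) (nat_lit 778) (nat_lit 5) (nat_lit 346) (nat_lit 345) (nat_lit 329)) (XT.nd (nat_lit 78) (nat_lit 684) (nat_lit 0) (XT.lf (nat_lit 0) (nat_lit 5206109301) (nat_lit 608) (nat_lit 1085397753) (nat_lit 684) (nat_lit 304188137) (nat_lit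 770) (nat_lit 5) (nat_lit 778) (nat_lit 5) (nat_lit 779) (nat_lit 5) (nat_lit 347) (nat_lit 345) (nat_lit 328)) (XT.lf (nat_lit 0) (nat_lit 2308856116) (nat_lit 684) (nat_lit 2596733427) (nat_lit 760) (nat_lit 1718119954) (nat_lit 761) (nat_lit 5) (nat_lit 770) (nat_lit 5) (nat_lit 771) (nat_lit 5) (nat_lit 348) (nat_lit 345) (nat_lit 327))))) (XT.nd (nat_lit 156) (nat_lit 1672) (nat_lit 0) (XT.nd (nat_lit 78) (nat_lit 760) (nat_lit 0) (XT.lf (nat_lit 76) (nat_lit 2601762926) (nat_lit 0) (nat_lit 3381108932) (nat_lit 760) (nat_lit 671838682) (nat_lit 762) (nat_lit 5) (nat_lit 761) (nat_lit 5) (nat_lit 771) (nat_lit 5) (nat_lit 349) (nat_lit 345) (nat_lit 326)) (XT.lf (nat_lit 76) (nat_lit 1222639547) (nat_lit 0) (nat_lit 1704868229) (nat_lit 836) (nat_lit 3760984984) (nat_lit 752) (nat_lit 5) (nat_lit 751) (nat_lit 5) (nat_lit 762) (nat_lit 5) (nat_lit 350) (nat_lit 345) (nat_lit 325))) (XT.nd (nat_lit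 78) (nat_lit 1748) (nat_lit 0) (XT.lf (nat_lit 0) (nat_lit 6519230755) (nat_lit 760) (nat_lit 96118082) (nat_lit 836) (nat_lit 109980318) (nat_lit 752) (nat_lit 5) (nat_lit 762) (nat_lit 5) (nat_lit 763) (nat_lit 5) (nat_lit 351) (nat_lit 345) (nat_lit 324)) (XT.nd (nat_lit 78) (nat_lit 912) (nat_lit 0) (XT.lf (nat_lit 0) (nat_lit 3325724652) (nat_lit 836) (nat_lit 1370674977) (nat_lit 912) (nat_lit 2068110141) (nat_lit 741) (nat_lit 5) (nat_lit 752) (nat_lit 5) (nat_lit 753) (nat_lit 5) (nat_lit 352) (nat_lit 345) (nat_lit 323)) (XT.lf (nat_lit 0) (nat_lit 53284964) (nat_lit 912) (nat_lit 2586891429) (nat_lit 988) (nat_lit 4166652620) (nat_lit 729) (nat_lit 5) (nat_lit 741) (nat_lit 5) (nat_lit 742) (nat_lit 5) (nat_lit 353) (nat_lit 345) (nat_lit 322))))))) (XT.nd (nat_lit 780) (nat_lit 13148) (nat_lit 0) (XT.nd (nat_lit 390) (nat_lit 6232) (nat_lit 0) (XT.nd (nat_lit 156) (nat_lit 988) (nat_lit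 0) (XT.nd (nat_lit 78) (nat_lit 912) (nat_lit 0) (XT.lf (nat_lit 76) (nat_lit 3085188819) (nat_lit 0) (nat_lit 422308427) (nat_lit 988) (nat_lit 3344383985) (nat_lit 730) (nat_lit 5) (nat_lit 729) (nat_lit 5) (nat_lit 742) (nat_lit 5) (nat_lit 354) (nat_lit 345) (nat_lit 321)) (XT.lf (nat_lit 0) (nat_lit 84939701) (nat_lit 988) (nat_lit 4901991275) (nat_lit 1064) (nat_lit 1912930753) (nat_lit 717) (nat_lit 5) (nat_lit 730) (nat_lit 5) (nat_lit 731) (nat_lit 5) (nat_lit 355) (nat_lit 345) (nat_lit 320))) (XT.nd (nat_lit 78) (nat_lit 988) (nat_lit 0) (XT.lf (nat_lit 76) (nat_lit 944428435) (nat_lit 0) (nat_lit 2542334601) (nat_lit 1064) (nat_lit 3463775337) (nat_lit 718) (nat_lit 5) (nat_lit 717) (nat_lit 5) (nat_lit 731) (nat_lit 5) (nat_lit 356) (nat_lit 345) (nat_lit 319)) (XT.nd (nat_lit 78) (nat_lit 1064) (nat_lit 0) (XT.lf (nat_lit 0) (nat_lit 6907286731) (nat_lit 988) (nat_lit 50820377) (nat_lit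 76) (nat_lit 46295296) (nat_lit 718) (nat_lit 5) (nat_lit 731) (nat_lit 5) (nat_lit 719) (nat_lit 5) (nat_lit 357) (nat_lit 345) (nat_lit 318)) (XT.lf (nat_lit 0) (nat_lit 3269112250) (nat_lit 1064) (nat_lit 1016481906) (nat_lit 76) (nat_lit 2774995049) (nat_lit 704) (nat_lit 5) (nat_lit 718) (nat_lit 5) (nat_lit 705) (nat_lit 5) (nat_lit 358) (nat_lit 345) (nat_lit 317))))) (XT.nd (nat_lit 156) (nat_lit 3952) (nat_lit 0) (XT.nd (nat_lit 78) (nat_lit 1216) (nat_lit 0) (XT.lf (nat_lit 0) (nat_lit 5191738455) (nat_lit 1064) (nat_lit 1466153296) (nat_lit 1140) (nat_lit 462099337) (nat_lit 690) (nat_lit 5) (nat_lit 704) (nat_lit 5) (nat_lit 705) (nat_lit 5) (nat_lit 359) (nat_lit 345) (nat_lit 316)) (XT.lf (nat_lit 0) (nat_lit 2864316808) (nat_lit 1216) (nat_lit 2814953409) (nat_lit 76) (nat_lit 1502798074) (nat_lit 674) (nat_lit 5) (nat_lit 690) (nat_lit 5) (nat_lit 675) (nat_lit 5) (nat_lit 360) (nat_lit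 345) (nat_lit 315))) (XT.nd (nat_lit 78) (nat_lit 2736) (nat_lit 0) (XT.lf (nat_lit 0) (nat_lit 3585035071) (nat_lit 1216) (nat_lit 2639163561) (nat_lit 1292) (nat_lit 1022949062) (nat_lit 658) (nat_lit 5) (nat_lit 674) (nat_lit 5) (nat_lit 675) (nat_lit 5) (nat_lit 361) (nat_lit 345) (nat_lit 314)) (XT.nd (nat_lit 78) (nat_lit 1368) (nat_lit 0) (XT.lf (nat_lit 0) (nat_lit 2276533665) (nat_lit 1368) (nat_lit 4476454440) (nat_lit 76) (nat_lit 562144966) (nat_lit 640) (nat_lit 5) (nat_lit 658) (nat_lit 5) (nat_lit 641) (nat_lit 5) (nat_lit 362) (nat_lit 345) (nat_lit 313)) (XT.lf (nat_lit 0) (nat_lit 2121191515) (nat_lit 1368) (nat_lit 3494633314) (nat_lit 1444) (nat_lit 1770103509) (nat_lit 622) (nat_lit 5) (nat_lit 640) (nat_lit 5) (nat_lit 641) (nat_lit 5) (nat_lit 363) (nat_lit 345) (nat_lit 312)))))) (XT.nd (nat_lit 390) (nat_lit 6764) (nat_lit 0) (XT.nd (nat_lit 156) (nat_lit 3344) (nat_lit 0)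 (XT.nd (nat_lit 78) (nat_lit 1520) (nat_lit 0) (XT.lf (nat_lit 0) (nat_lit 1446269842) (nat_lit 1444) (nat_lit 69188591) (nat_lit 1520) (nat_lit 5944382748) (nat_lit 602) (nat_lit 5) (nat_lit 621) (nat_lit 5) (nat_lit 622) (nat_lit 5) (nat_lit 364) (nat_lit 345) (nat_lit 311)) (XT.lf (nat_lit 0) (nat_lit 788558053) (nat_lit 1520) (nat_lit 4053130200) (nat_lit 1596) (nat_lit 2694726155) (nat_lit 582) (nat_lit 5) (nat_lit 602) (nat_lit 5) (nat_lit 603) (nat_lit 5) (nat_lit 365) (nat_lit 345) (nat_lit 310))) (XT.nd (nat_lit 78) (nat_lit 1672) (nat_lit 0) (XT.lf (nat_lit 0) (nat_lit 177356426) (nat_lit 1596) (nat_lit 413344757) (nat_lit 1672) (nat_lit 7025562175) (nat_lit 560) (nat_lit 5) (nat_lit 581) (nat_lit 5) (nat_lit 582) (nat_lit 5) (nat_lit 366) (nat_lit 345) (nat_lit 309)) (XT.nd (nat_lit 78) (nat_lit 1672) (nat_lit 0) (XT.lf (nat_lit 0) (nat_lit 3912520878) (nat_lit 1672) (nat_lit 418090423)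 (nat_lit 76) (nat_lit 3368051427) (nat_lit 560) (nat_lit 5) (nat_lit 582) (nat_lit 5) (nat_lit 561) (nat_lit 5) (nat_lit 367) (nat_lit 345) (nat_lit 308)) (XT.lf (nat_lit 0) (nat_lit 6819237739) (nat_lit 1672) (nat_lit 471064651) (nat_lit 1748) (nat_lit 494105546) (nat_lit 538) (nat_lit 5) (nat_lit 560) (nat_lit 5) (nat_lit 561) (nat_lit 5) (nat_lit 368) (nat_lit 345) (nat_lit 307))))) (XT.nd (nat_lit 156) (nat_lit 3116) (nat_lit 0) (XT.nd (nat_lit 78) (nat_lit 1824) (nat_lit 0) (XT.lf (nat_lit 0) (nat_lit 2837081752) (nat_lit 1824) (nat_lit 1505396887) (nat_lit 76) (nat_lit 3530303103) (nat_lit 514) (nat_lit 5) (nat_lit 538) (nat_lit 5) (nat_lit 515) (nat_lit 5) (nat_lit 369) (nat_lit 345) (nat_lit 306)) (XT.lf (nat_lit 0) (nat_lit 5959977533) (nat_lit 1824) (nat_lit 262923302) (nat_lit 1900) (nat_lit 1741612426) (nat_lit 490) (nat_lit 5) (nat_lit 514) (nat_lit 5) (nat_lit 515) (nat_lit 5) (nat_lit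 370) (nat_lit 345) (nat_lit 305))) (XT.nd (nat_lit 78) (nat_lit 1900) (nat_lit 0) (XT.lf (nat_lit 0) (nat_lit 1616600428) (nat_lit 1216) (nat_lit 2492823852) (nat_lit 76) (nat_lit 3949618824) (nat_lit 474) (nat_lit 5) (nat_lit 490) (nat_lit 5) (nat_lit 475) (nat_lit 5) (nat_lit 371) (nat_lit 345) (nat_lit 304)) (XT.nd (nat_lit 78) (nat_lit 988) (nat_lit 0) (XT.lf (nat_lit 0) (nat_lit 5018922383) (nat_lit 988) (nat_lit 2949234938) (nat_lit 76) (nat_lit 188680792) (nat_lit 462) (nat_lit 5) (nat_lit 475) (nat_lit 5) (nat_lit 463) (nat_lit 5) (nat_lit 372) (nat_lit 345) (nat_lit 303)) (XT.lf (nat_lit 0) (nat_lit 256656578) (nat_lit 988) (nat_lit 3388819723) (nat_lit 76) (nat_lit 4612168266) (nat_lit 449) (nat_lit 5) (nat_lit 462) (nat_lit 5) (nat_lit 450) (nat_lit 5) (nat_lit 373) (nat_lit 345) (nat_lit 302))))))))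
noncomputable def xc62 : XT := (XT.nd (nat_lit 1482) (nat_lit 9120) (nat_lit 0) (XT.nd (nat_lit 702) (nat_lit 6460) (nat_lit 0) (XT.nd (nat_lit 312) (nat_lit 3876) (nat_lit 0) (XT.nd (nat_lit 156) (nat_lit 1748) (nat_lit 0) (XT.nd (nat_lit 78) (nat_lit 912) (nat_lit 0) (XT.lf (nat_lit 0) (nat_lit 3685739818) (nat_lit 912) (nat_lit 3809402613) (nat_lit 76) (nat_lit 866411836) (nat_lit 438) (nat_lit 5) (nat_lit 450) (nat_lit 5) (nat_lit 439) (nat_lit 5) (nat_lit 374) (nat_lit 345) (nat_lit 301)) (XT.lf (nat_lit 0) (nat_lit 4259291452) (nat_lit 912) (nat_lit 2955014983) (nat_lit 988) (nat_lit 1254342607) (nat_lit 426) (nat_lit 5) (nat_lit 438) (nat_lit 5) (nat_lit 439) (nat_lit 5) (nat_lit 375) (nat_lit 345) (nat_lit 300))) (XT.nd (nat_lit 78) (nat_lit 836) (nat_lit 0) (XT.lf (nat_lit 0) (nat_lit 2226270535) (nat_lit 912) (nat_lit 4590815801) (nat_lit 76) (nat_lit 1761850271) (nat_lit 414) (nat_lit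 5) (nat_lit 426) (nat_lit 5) (nat_lit 415) (nat_lit 5) (nat_lit 376) (nat_lit 345) (nat_lit 299)) (XT.lf (nat_lit 0) (nat_lit 3736323433) (nat_lit 836) (nat_lit 2055188842) (nat_lit 912) (nat_lit 2900909668) (nat_lit 403) (nat_lit 5) (nat_lit 414) (nat_lit 5) (nat_lit 415) (nat_lit 5) (nat_lit 377) (nat_lit 345) (nat_lit 298)))) (XT.nd (nat_lit 156) (nat_lit 2280) (nat_lit 0) (XT.nd (nat_lit 78) (nat_lit 760) (nat_lit 0) (XT.lf (nat_lit 0) (nat_lit 644495399) (nat_lit 836) (nat_lit 5300417202) (nat_lit 76) (nat_lit 2864340687) (nat_lit 392) (nat_lit 5) (nat_lit 403) (nat_lit 5) (nat_lit 393) (nat_lit 5) (nat_lit 378) (nat_lit 345) (nat_lit 297)) (XT.lf (nat_lit 0) (nat_lit 3295214669) (nat_lit 760) (nat_lit 958020425) (nat_lit 836) (nat_lit 4676043293) (nat_lit 382) (nat_lit 5) (nat_lit 392) (nat_lit 5) (nat_lit 393) (nat_lit 5) (nat_lit 379) (nat_lit 345) (nat_lit 296))) (XT.nd (nat_lit 78) (nat_lit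 1520) (nat_lit 0) (XT.lf (nat_lit 0) (nat_lit 3101060797) (nat_lit 760) (nat_lit 4881353424) (nat_lit 836) (nat_lit 1070246473) (nat_lit 372) (nat_lit 5) (nat_lit 382) (nat_lit 5) (nat_lit 383) (nat_lit 5) (nat_lit 380) (nat_lit 345) (nat_lit 295)) (XT.nd (nat_lit 78) (nat_lit 684) (nat_lit 0) (XT.lf (nat_lit 0) (nat_lit 2604890288) (nat_lit 836) (nat_lit 6251608232) (nat_lit 76) (nat_lit 322985874) (nat_lit 361) (nat_lit 5) (nat_lit 372) (nat_lit 5) (nat_lit 362) (nat_lit 5) (nat_lit 381) (nat_lit 345) (nat_lit 294)) (XT.lf (nat_lit 0) (nat_lit 2761115108) (nat_lit 684) (nat_lit 3637183479) (nat_lit 760) (nat_lit 2911221574) (nat_lit 352) (nat_lit 5) (nat_lit 361) (nat_lit 5) (nat_lit 362) (nat_lit 5) (nat_lit 382) (nat_lit 345) (nat_lit 293)))))) (XT.nd (nat_lit 390) (nat_lit 3040) (nat_lit 0) (XT.nd (nat_lit 156) (nat_lit 1976) (nat_lit 0) (XT.nd (nat_lit 78) (nat_lit 684) (nat_lit 0) (XT.lf (nat_lit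 0) (nat_lit 854484238) (nat_lit 760) (nat_lit 6819784446) (nat_lit 76) (nat_lit 1769001615) (nat_lit 342) (nat_lit 5) (nat_lit 352) (nat_lit 5) (nat_lit 343) (nat_lit 5) (nat_lit 383) (nat_lit 345) (nat_lit 292)) (XT.lf (nat_lit 0) (nat_lit 2488124355) (nat_lit 684) (nat_lit 2224573967) (nat_lit 760) (nat_lit 4867567971) (nat_lit 333) (nat_lit 5) (nat_lit 342) (nat_lit 5) (nat_lit 343) (nat_lit 5) (nat_lit 384) (nat_lit 345) (nat_lit 291))) (XT.nd (nat_lit 78) (nat_lit 1292) (nat_lit 0) (XT.lf (nat_lit 0) (nat_lit 2376691362) (nat_lit 684) (nat_lit 6328960523) (nat_lit 760) (nat_lit 1015340423) (nat_lit 324) (nat_lit 5) (nat_lit 333) (nat_lit 5) (nat_lit 334) (nat_lit 5) (nat_lit 385) (nat_lit 345) (nat_lit 290)) (XT.nd (nat_lit 78) (nat_lit 608) (nat_lit 0) (XT.lf (nat_lit 0) (nat_lit 2277299977) (nat_lit 608) (nat_lit 650470890) (nat_lit 684) (nat_lit 6937505071) (nat_lit 315) (nat_lit 5) (nat_lit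 323) (nat_lit 5) (nat_lit 324) (nat_lit 5) (nat_lit 386) (nat_lit 345) (nat_lit 289)) (XT.lf (nat_lit 0) (nat_lit 2183203076) (nat_lit 608) (nat_lit 4827529341) (nat_lit 684) (nat_lit 3002314405) (nat_lit 307) (nat_lit 5) (nat_lit 315) (nat_lit 5) (nat_lit 316) (nat_lit 5) (nat_lit 387) (nat_lit 345) (nat_lit 288))))) (XT.nd (nat_lit 156) (nat_lit 1748) (nat_lit 0) (XT.nd (nat_lit 78) (nat_lit 608) (nat_lit 0) (XT.lf (nat_lit 0) (nat_lit 1052216791) (nat_lit 684) (nat_lit 8047725866) (nat_lit 76) (nat_lit 1064870348) (nat_lit 298) (nat_lit 5) (nat_lit 307) (nat_lit 5) (nat_lit 299) (nat_lit 5) (nat_lit 388) (nat_lit 345) (nat_lit 287)) (XT.lf (nat_lit 0) (nat_lit 2044547858) (nat_lit 608) (nat_lit 3181588969) (nat_lit 684) (nat_lit 5093827589) (nat_lit 290) (nat_lit 5) (nat_lit 298) (nat_lit 5) (nat_lit 299) (nat_lit 5) (nat_lit 389) (nat_lit 345) (nat_lit 286))) (XT.nd (nat_lit 78) (nat_lit 1216)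 (nat_lit 0) (XT.lf (nat_lit 0) (nat_lit 1999134676) (nat_lit 532) (nat_lit 7553421136) (nat_lit 608) (nat_lit 926668931) (nat_lit 283) (nat_lit 5) (nat_lit 290) (nat_lit 5) (nat_lit 291) (nat_lit 5) (nat_lit 390) (nat_lit 345) (nat_lit 285)) (XT.nd (nat_lit 78) (nat_lit 532) (nat_lit 0) (XT.lf (nat_lit 0) (nat_lit 1956851320) (nat_lit 608) (nat_lit 1396272617) (nat_lit 684) (nat_lit 7289066748) (nat_lit 274) (nat_lit 5) (nat_lit 282) (nat_lit 5) (nat_lit 283) (nat_lit 5) (nat_lit 391) (nat_lit 345) (nat_lit 284)) (XT.lf (nat_lit 0) (nat_lit 1922486931) (nat_lit 532) (nat_lit 5871151448) (nat_lit 608) (nat_lit 3015386369) (nat_lit 267) (nat_lit 5) (nat_lit 274) (nat_lit 5) (nat_lit 275) (nat_lit 5) (nat_lit 392) (nat_lit 345) (nat_lit 283))))))) (XT.nd (nat_lit 780) (nat_lit 4028) (nat_lit 0) (XT.nd (nat_lit 390) (nat_lit 2356) (nat_lit 0) (XT.nd (nat_lit 156) (nat_lit 1596) (nat_lit 0) (XT.nd (nat_lit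 78) (nat_lit 532) (nat_lit 0) (XT.lf (nat_lit 0) (nat_lit 1395961791) (nat_lit 608) (nat_lit 9067054859) (nat_lit 76) (nat_lit 517114309) (nat_lit 259) (nat_lit 5) (nat_lit 267) (nat_lit 5) (nat_lit 260) (nat_lit 5) (nat_lit 393) (nat_lit 345) (nat_lit 282)) (XT.lf (nat_lit 0) (nat_lit 1890797139) (nat_lit 532) (nat_lit 4064513503) (nat_lit 608) (nat_lit 5199528528) (nat_lit 252) (nat_lit 5) (nat_lit 259) (nat_lit 5) (nat_lit 260) (nat_lit 5) (nat_lit 394) (nat_lit 345) (nat_lit 281))) (XT.nd (nat_lit 78) (nat_lit 1064) (nat_lit 0) (XT.lf (nat_lit 0) (nat_lit 1899009353) (nat_lit 532) (nat_lit 8788237407) (nat_lit 608) (nat_lit 646825732) (nat_lit 245) (nat_lit 5) (nat_lit 252) (nat_lit 5) (nat_lit 253) (nat_lit 5) (nat_lit 395) (nat_lit 345) (nat_lit 280)) (XT.nd (nat_lit 78) (nat_lit 532) (nat_lit 0) (XT.lf (nat_lit 0) (nat_lit 1900926437) (nat_lit 456) (nat_lit 2137206042) (nat_lit 532) (nat_lit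 7479051571) (nat_lit 238) (nat_lit 5) (nat_lit 244) (nat_lit 5) (nat_lit 245) (nat_lit 5) (nat_lit 396) (nat_lit 345) (nat_lit 279)) (XT.lf (nat_lit 0) (nat_lit 1915234656) (nat_lit 532) (nat_lit 6993979464) (nat_lit 608) (nat_lit 2795402074) (nat_lit 231) (nat_lit 5) (nat_lit 238) (nat_lit 5) (nat_lit 239) (nat_lit 5) (nat_lit 397) (nat_lit 345) (nat_lit 278))))) (XT.nd (nat_lit 156) (nat_lit 1368) (nat_lit 0) (XT.nd (nat_lit 78) (nat_lit 456) (nat_lit 0) (XT.lf (nat_lit 0) (nat_lit 1949983825) (nat_lit 456) (nat_lit 92344852) (nat_lit 532) (nat_lit 9854275598) (nat_lit 224) (nat_lit 5) (nat_lit 230) (nat_lit 5) (nat_lit 231) (nat_lit 5) (nat_lit 398) (nat_lit 345) (nat_lit 277)) (XT.lf (nat_lit 0) (nat_lit 1968353867) (nat_lit 456) (nat_lit 5092709582) (nat_lit 532) (nat_lit 5031441986) (nat_lit 218) (nat_lit 5) (nat_lit 224) (nat_lit 5) (nat_lit 225) (nat_lit 5) (nat_lit 399) (nat_lit 345) (nat_lit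 276))) (XT.nd (nat_lit 78) (nat_lit 912) (nat_lit 0) (XT.lf (nat_lit 0) (nat_lit 2021488704) (nat_lit 456) (nat_lit 10252892202) (nat_lit 532) (nat_lit 19022310) (nat_lit 212) (nat_lit 5) (nat_lit 218) (nat_lit 5) (nat_lit 219) (nat_lit 5) (nat_lit 400) (nat_lit 345) (nat_lit 275)) (XT.nd (nat_lit 78) (nat_lit 380) (nat_lit 0) (XT.lf (nat_lit 0) (nat_lit 2055817628) (nat_lit 456) (nat_lit 3087011195) (nat_lit 532) (nat_lit 7355500765) (nat_lit 205) (nat_lit 5) (nat_lit 211) (nat_lit 5) (nat_lit 212) (nat_lit 5) (nat_lit 401) (nat_lit 345) (nat_lit 274)) (XT.lf (nat_lit 0) (nat_lit 2111220414) (nat_lit 380) (nat_lit 8410590015) (nat_lit 456) (nat_lit 2186340140) (nat_lit 200) (nat_lit 5) (nat_lit 205) (nat_lit 5) (nat_lit 206) (nat_lit 5) (nat_lit 402) (nat_lit 345) (nat_lit 273)))))) (XT.nd (nat_lit 390) (nat_lit 1900) (nat_lit 0) (XT.nd (nat_lit 156) (nat_lit 1216) (nat_lit 0) (XT.nd (nat_lit 78)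 (nat_lit 380) (nat_lit 0) (XT.lf (nat_lit 0) (nat_lit 2175275815) (nat_lit 456) (nat_lit 978981850) (nat_lit 532) (nat_lit 9768450720) (nat_lit 193) (nat_lit 5) (nat_lit 199) (nat_lit 5) (nat_lit 200) (nat_lit 5) (nat_lit 403) (nat_lit 345) (nat_lit 272)) (XT.lf (nat_lit 0) (nat_lit 2231238838) (nat_lit 380) (nat_lit 6476714053) (nat_lit 456) (nat_lit 4433809346) (nat_lit 188) (nat_lit 5) (nat_lit 193) (nat_lit 5) (nat_lit 194) (nat_lit 5) (nat_lit 404) (nat_lit 345) (nat_lit 271))) (XT.nd (nat_lit 78) (nat_lit 760) (nat_lit 0) (XT.lf (nat_lit 0) (nat_lit 1102806251) (nat_lit 456) (nat_lit 11049715340) (nat_lit 76) (nat_lit 1213611385) (nat_lit 182) (nat_lit 5) (nat_lit 188) (nat_lit 5) (nat_lit 183) (nat_lit 5) (nat_lit 405) (nat_lit 345) (nat_lit 270)) (XT.nd (nat_lit 78) (nat_lit 380) (nat_lit 0) (XT.lf (nat_lit 0) (nat_lit 2379464564) (nat_lit 380) (nat_lit 4453005548) (nat_lit 456) (nat_lit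 6762434818) (nat_lit 177) (nat_lit 5) (nat_lit 182) (nat_lit 5) (nat_lit 183) (nat_lit 5) (nat_lit 406) (nat_lit 345) (nat_lit 269)) (XT.lf (nat_lit 0) (nat_lit 2471446795) (nat_lit 380) (nat_lit 10330958272) (nat_lit 456) (nat_lit 1026767352) (nat_lit 172) (nat_lit 5) (nat_lit 177) (nat_lit 5) (nat_lit 178) (nat_lit 5) (nat_lit 407) (nat_lit 345) (nat_lit 268))))) (XT.nd (nat_lit 156) (nat_lit 1140) (nat_lit 0) (XT.nd (nat_lit 78) (nat_lit 380) (nat_lit 0) (XT.lf (nat_lit 0) (nat_lit 2553977387) (nat_lit 304) (nat_lit 2340801249) (nat_lit 380) (nat_lit 9173499022) (nat_lit 167) (nat_lit 5) (nat_lit 171) (nat_lit 5) (nat_lit 172) (nat_lit 5) (nat_lit 408) (nat_lit 345) (nat_lit 267)) (XT.lf (nat_lit 0) (nat_lit 2643924114) (nat_lit 380) (nat_lit 8424701982) (nat_lit 456) (nat_lit 3244022121) (nat_lit 162) (nat_lit 5) (nat_lit 167) (nat_lit 5) (nat_lit 168) (nat_lit 5) (nat_lit 409) (nat_lit 345)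 (nat_lit 266))) (XT.nd (nat_lit 78) (nat_lit 760) (nat_lit 0) (XT.lf (nat_lit 0) (nat_lit 2753003175) (nat_lit 304) (nat_lit 141055071) (nat_lit 380) (nat_lit 11668554386) (nat_lit 157) (nat_lit 5) (nat_lit 161) (nat_lit 5) (nat_lit 162) (nat_lit 5) (nat_lit 410) (nat_lit 345) (nat_lit 265)) (XT.nd (nat_lit 78) (nat_lit 380) (nat_lit 0) (XT.lf (nat_lit 0) (nat_lit 2839542452) (nat_lit 380) (nat_lit 6442290150) (nat_lit 456) (nat_lit 5535622016) (nat_lit 152) (nat_lit 5) (nat_lit 157) (nat_lit 5) (nat_lit 158) (nat_lit 5) (nat_lit 411) (nat_lit 345) (nat_lit 264)) (XT.lf (nat_lit 0) (nat_lit 843190328) (nat_lit 380) (nat_lit 12117705523) (nat_lit 76) (nat_lit 2117501781) (nat_lit 147) (nat_lit 5) (nat_lit 152) (nat_lit 5) (nat_lit 148) (nat_lit 5) (nat_lit 412) (nat_lit 345) (nat_lit 263))))))))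
noncomputable def xc63 : XT := (XT.nd (nat_lit 48360) (nat_lit 0) (nat_lit 29108) (XT.nd (nat_lit 780) (nat_lit 1140) (nat_lit 0) (XT.nd (nat_lit 390) (nat_lit 1444) (nat_lit 0) (XT.nd (nat_lit 156) (nat_lit 1064) (nat_lit 0) (XT.nd (nat_lit 78) (nat_lit 304) (nat_lit 0) (XT.lf (nat_lit 0) (nat_lit 3056720359) (nat_lit 304) (nat_lit 4384524639) (nat_lit 380) (nat_lit 7903130421) (nat_lit 143) (nat_lit 5) (nat_lit 147) (nat_lit 5) (nat_lit 148) (nat_lit 5) (nat_lit 413) (nat_lit 345) (nat_lit 262)) (XT.lf (nat_lit 0) (nat_lit 3179694864) (nat_lit 304) (nat_lit 11148373159) (nat_lit 380) (nat_lit 1288447984) (nat_lit 139) (nat_lit 5) (nat_lit 143) (nat_lit 5) (nat_lit 144) (nat_lit 5) (nat_lit 414) (nat_lit 345) (nat_lit 261))) (XT.nd (nat_lit 78) (nat_lit 684) (nat_lit 0) (XT.lf (nat_lit 0) (nat_lit 3293991604) (nat_lit 304) (nat_lit 2251889477) (nat_lit 380) (nat_lit 10348349068) (nat_lit 134) (nat_lit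 5) (nat_lit 138) (nat_lit 5) (nat_lit 139) (nat_lit 5) (nat_lit 415) (nat_lit 345) (nat_lit 260)) (XT.nd (nat_lit 78) (nat_lit 380) (nat_lit 0) (XT.lf (nat_lit 0) (nat_lit 3411968954) (nat_lit 304) (nat_lit 9267452633) (nat_lit 380) (nat_lit 3498450065) (nat_lit 130) (nat_lit 5) (nat_lit 134) (nat_lit 5) (nat_lit 135) (nat_lit 5) (nat_lit 416) (nat_lit 345) (nat_lit 259)) (XT.lf (nat_lit 0) (nat_lit 3549995027) (nat_lit 304) (nat_lit 44566518) (nat_lit 380) (nat_lit 12873313663) (nat_lit 125) (nat_lit 5) (nat_lit 129) (nat_lit 5) (nat_lit 130) (nat_lit 5) (nat_lit 417) (nat_lit 345) (nat_lit 258))))) (XT.nd (nat_lit 156) (nat_lit 836) (nat_lit 0) (XT.nd (nat_lit 78) (nat_lit 380) (nat_lit 0) (XT.lf (nat_lit 0) (nat_lit 3661854824) (nat_lit 228) (nat_lit 7324262546) (nat_lit 304) (nat_lit 5777333324) (nat_lit 122) (nat_lit 5) (nat_lit 125) (nat_lit 5) (nat_lit 126) (nat_lit 5) (nat_lit 418) (nat_lit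 345) (nat_lit 257)) (XT.lf (nat_lit 0) (nat_lit 1600442317) (nat_lit 380) (nat_lit 13257267669) (nat_lit 76) (nat_lit 2208204540) (nat_lit 117) (nat_lit 5) (nat_lit 122) (nat_lit 5) (nat_lit 118) (nat_lit 5) (nat_lit 419) (nat_lit 345) (nat_lit 256))) (XT.nd (nat_lit 78) (nat_lit 608) (nat_lit 0) (XT.lf (nat_lit 0) (nat_lit 3928124140) (nat_lit 228) (nat_lit 5319012003) (nat_lit 304) (nat_lit 8127030844) (nat_lit 114) (nat_lit 5) (nat_lit 117) (nat_lit 5) (nat_lit 118) (nat_lit 5) (nat_lit 420) (nat_lit 345) (nat_lit 255)) (XT.nd (nat_lit 78) (nat_lit 304) (nat_lit 0) (XT.lf (nat_lit 0) (nat_lit 4079761794) (nat_lit 304) (nat_lit 13151944576) (nat_lit 380) (nat_lit 457791139) (nat_lit 110) (nat_lit 5) (nat_lit 114) (nat_lit 5) (nat_lit 115) (nat_lit 5) (nat_lit 421) (nat_lit 345) (nat_lit 254)) (XT.lf (nat_lit 0) (nat_lit 4209629545) (nat_lit 228) (nat_lit 3251661810) (nat_lit 304) (nat_lit 10549683035)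 (nat_lit 106) (nat_lit 5) (nat_lit 109) (nat_lit 5) (nat_lit 110) (nat_lit 5) (nat_lit 422) (nat_lit 345) (nat_lit 253)))))) (XT.nd (nat_lit 47190) (nat_lit 0) (nat_lit 49324) (XT.nd (nat_lit 156) (nat_lit 532) (nat_lit 0) (XT.nd (nat_lit 78) (nat_lit 304) (nat_lit 0) (XT.lf (nat_lit 0) (nat_lit 4354418730) (nat_lit 304) (nat_lit 11386792587) (nat_lit 380) (nat_lit 2598234048) (nat_lit 102) (nat_lit 5) (nat_lit 106) (nat_lit 5) (nat_lit 107) (nat_lit 5) (nat_lit 423) (nat_lit 345) (nat_lit 252)) (XT.lf (nat_lit 0) (nat_lit 4505296681) (nat_lit 228) (nat_lit 1121935839) (nat_lit 304) (nat_lit 13047635621) (nat_lit 98) (nat_lit 5) (nat_lit 101) (nat_lit 5) (nat_lit 102) (nat_lit 5) (nat_lit 424) (nat_lit 345) (nat_lit 251))) (XT.nd (nat_lit 78) (nat_lit 304) (nat_lit 0) (XT.lf (nat_lit 0) (nat_lit 4642309030) (nat_lit 228) (nat_lit 9573109973) (nat_lit 304) (nat_lit 4801565997) (nat_lit 95) (nat_lit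 5) (nat_lit 98) (nat_lit 5) (nat_lit 99) (nat_lit 5) (nat_lit 425) (nat_lit 345) (nat_lit 250)) (XT.nd (nat_lit 46878) (nat_lit 0) (nat_lit 51528) (XT.lf (nat_lit 0) (nat_lit 3750399437) (nat_lit 304) (nat_lit 14559721099) (nat_lit 76) (nat_lit 1056626755) (nat_lit 91) (nat_lit 5) (nat_lit 95) (nat_lit 5) (nat_lit 92) (nat_lit 5) (nat_lit 426) (nat_lit 345) (nat_lit 249)) (XT.lf (nat_lit 0) (nat_lit 2565348954) (nat_lit 684) (nat_lit 365894921) (nat_lit 684) (nat_lit 365894921) (nat_lit 769) (nat_lit 3) (nat_lit 778) (nat_lit 3) (nat_lit 778) (nat_lit 5) (nat_lit 346) (nat_lit 346) (nat_lit 328))))) (XT.nd (nat_lit 156) (nat_lit 1520) (nat_lit 0) (XT.nd (nat_lit 78) (nat_lit 0) (nat_lit 0) (XT.lf (nat_lit 0) (nat_lit 2158704074) (nat_lit 684) (nat_lit 2377406167) (nat_lit 760) (nat_lit 2084779330) (nat_lit 760) (nat_lit 5) (nat_lit 769) (nat_lit 3) (nat_lit 770) (nat_lit 5) (nat_lit 347) (nat_lit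 346) (nat_lit 327)) (XT.lf (nat_lit 76) (nat_lit 2681236697) (nat_lit 0) (nat_lit 3070199772) (nat_lit 760) (nat_lit 899036664) (nat_lit 761) (nat_lit 5) (nat_lit 760) (nat_lit 5) (nat_lit 770) (nat_lit 5) (nat_lit 348) (nat_lit 346) (nat_lit 326))) (XT.nd (nat_lit 78) (nat_lit 760) (nat_lit 0) (XT.lf (nat_lit 76) (nat_lit 1166181123) (nat_lit 0) (nat_lit 1454144057) (nat_lit 836) (nat_lit 4062545981) (nat_lit 751) (nat_lit 5) (nat_lit 750) (nat_lit 5) (nat_lit 761) (nat_lit 5) (nat_lit 349) (nat_lit 346) (nat_lit 325)) (XT.nd (nat_lit 78) (nat_lit 836) (nat_lit 0) (XT.lf (nat_lit 0) (nat_lit 6127380746) (nat_lit 760) (nat_lit 289720832) (nat_lit 836) (nat_lit 301134156) (nat_lit 751) (nat_lit 5) (nat_lit 761) (nat_lit 5) (nat_lit 762) (nat_lit 5) (nat_lit 350) (nat_lit 346) (nat_lit 324)) (XT.lf (nat_lit 0) (nat_lit 2857668699) (nat_lit 836) (nat_lit 1698526041) (nat_lit 912) (nat_lit 2199842281)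 (nat_lit 740) (nat_lit 5) (nat_lit 751) (nat_lit 5) (nat_lit 752) (nat_lit 5) (nat_lit 351) (nat_lit 346) (nat_lit 323))))))) (XT.nd (nat_lit 780) (nat_lit 13908) (nat_lit 0) (XT.nd (nat_lit 390) (nat_lit 4484) (nat_lit 0) (XT.nd (nat_lit 156) (nat_lit 912) (nat_lit 0) (XT.nd (nat_lit 78) (nat_lit 912) (nat_lit 0) (XT.lf (nat_lit 76) (nat_lit 3744618179) (nat_lit 0) (nat_lit 2555541543) (nat_lit 912) (nat_lit 496763733) (nat_lit 741) (nat_lit 5) (nat_lit 740) (nat_lit 5) (nat_lit 752) (nat_lit 5) (nat_lit 352) (nat_lit 346) (nat_lit 322)) (XT.lf (nat_lit 76) (nat_lit 2473161984) (nat_lit 0) (nat_lit 396559075) (nat_lit 988) (nat_lit 3970879610) (nat_lit 729) (nat_lit 5) (nat_lit 728) (nat_lit 5) (nat_lit 741) (nat_lit 5) (nat_lit 353) (nat_lit 346) (nat_lit 321))) (XT.nd (nat_lit 78) (nat_lit 988) (nat_lit 0) (XT.lf (nat_lit 76) (nat_lit 1245296168) (nat_lit 0) (nat_lit 5004072004) (nat_lit 988)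 (nat_lit 637776018) (nat_lit 730) (nat_lit 5) (nat_lit 729) (nat_lit 5) (nat_lit 742) (nat_lit 5) (nat_lit 354) (nat_lit 346) (nat_lit 320)) (XT.nd (nat_lit 78) (nat_lit 0) (nat_lit 0) (XT.lf (nat_lit 76) (nat_lit 54361106) (nat_lit 0) (nat_lit 2617477138) (nat_lit 1064) (nat_lit 4264619218) (nat_lit 717) (nat_lit 5) (nat_lit 716) (nat_lit 5) (nat_lit 730) (nat_lit 5) (nat_lit 355) (nat_lit 346) (nat_lit 319)) (XT.lf (nat_lit 76) (nat_lit 5918553463) (nat_lit 0) (nat_lit 75149323) (nat_lit 1064) (nat_lit 995030496) (nat_lit 717) (nat_lit 5) (nat_lit 716) (nat_lit 5) (nat_lit 730) (nat_lit 5) (nat_lit 356) (nat_lit 346) (nat_lit 318))))) (XT.nd (nat_lit 156) (nat_lit 3496) (nat_lit 0) (XT.nd (nat_lit 78) (nat_lit 0) (nat_lit 0) (XT.lf (nat_lit 0) (nat_lit 2276375214) (nat_lit 1064) (nat_lit 2171287992) (nat_lit 1140) (nat_lit 2595909136) (nat_lit 703) (nat_lit 5) (nat_lit 717) (nat_lit 5) (nat_lit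 718) (nat_lit 5) (nat_lit 357) (nat_lit 346) (nat_lit 317)) (XT.lf (nat_lit 76) (nat_lit 3875016005) (nat_lit 0) (nat_lit 1679530459) (nat_lit 1140) (nat_lit 1546935728) (nat_lit 704) (nat_lit 5) (nat_lit 703) (nat_lit 5) (nat_lit 718) (nat_lit 5) (nat_lit 358) (nat_lit 346) (nat_lit 316))) (XT.nd (nat_lit 78) (nat_lit 2432) (nat_lit 0) (XT.lf (nat_lit 0) (nat_lit 1679747172) (nat_lit 1140) (nat_lit 4248761039) (nat_lit 76) (nat_lit 1233730761) (nat_lit 689) (nat_lit 5) (nat_lit 704) (nat_lit 5) (nat_lit 690) (nat_lit 5) (nat_lit 359) (nat_lit 346) (nat_lit 315)) (XT.nd (nat_lit 78) (nat_lit 1292) (nat_lit 0) (XT.lf (nat_lit 0) (nat_lit 1984052841) (nat_lit 1140) (nat_lit 2938414178) (nat_lit 1216) (nat_lit 2303341867) (nat_lit 674) (nat_lit 5) (nat_lit 689) (nat_lit 5) (nat_lit 690) (nat_lit 5) (nat_lit 360) (nat_lit 346) (nat_lit 314)) (XT.lf (nat_lit 0) (nat_lit 891866130) (nat_lit 1292) (nat_lit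 6192413749) (nat_lit 76) (nat_lit 208211491) (nat_lit 657) (nat_lit 5) (nat_lit 674) (nat_lit 5) (nat_lit 658) (nat_lit 5) (nat_lit 361) (nat_lit 346) (nat_lit 313)))))) (XT.nd (nat_lit 390) (nat_lit 8132) (nat_lit 0) (XT.nd (nat_lit 156) (nat_lit 4484) (nat_lit 0) (XT.nd (nat_lit 78) (nat_lit 0) (nat_lit 0) (XT.lf (nat_lit 0) (nat_lit 232507087) (nat_lit 1292) (nat_lit 3874838534) (nat_lit 1368) (nat_lit 3254410033) (nat_lit 640) (nat_lit 5) (nat_lit 657) (nat_lit 5) (nat_lit 658) (nat_lit 5) (nat_lit 362) (nat_lit 346) (nat_lit 312)) (XT.lf (nat_lit 0) (nat_lit 6857509730) (nat_lit 1292) (nat_lit 504806922) (nat_lit 1368) (nat_lit 71920672) (nat_lit 640) (nat_lit 5) (nat_lit 657) (nat_lit 5) (nat_lit 658) (nat_lit 5) (nat_lit 363) (nat_lit 346) (nat_lit 311))) (XT.nd (nat_lit 78) (nat_lit 3040) (nat_lit 0) (XT.lf (nat_lit 0) (nat_lit 3127067391) (nat_lit 1444) (nat_lit 1373575042) (nat_lit 76)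 (nat_lit 3008573257) (nat_lit 621) (nat_lit 5) (nat_lit 640) (nat_lit 5) (nat_lit 622) (nat_lit 5) (nat_lit 364) (nat_lit 346) (nat_lit 310)) (XT.nd (nat_lit 78) (nat_lit 1596) (nat_lit 0) (XT.lf (nat_lit 0) (nat_lit 5461424505) (nat_lit 1444) (nat_lit 908161067) (nat_lit 1520) (nat_lit 1217877578) (nat_lit 602) (nat_lit 5) (nat_lit 621) (nat_lit 5) (nat_lit 622) (nat_lit 5) (nat_lit 365) (nat_lit 346) (nat_lit 309)) (XT.lf (nat_lit 0) (nat_lit 1981237189) (nat_lit 1596) (nat_lit 2862251666) (nat_lit 76) (nat_lit 2824970340) (nat_lit 581) (nat_lit 5) (nat_lit 602) (nat_lit 5) (nat_lit 582) (nat_lit 5) (nat_lit 366) (nat_lit 346) (nat_lit 308))))) (XT.nd (nat_lit 156) (nat_lit 4788) (nat_lit 0) (XT.nd (nat_lit 78) (nat_lit 1748) (nat_lit 0) (XT.lf (nat_lit 0) (nat_lit 4186665438) (nat_lit 1596) (nat_lit 1030668918) (nat_lit 1672) (nat_lit 2535238660) (nat_lit 560) (nat_lit 5) (nat_lit 581) (nat_lit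 5) (nat_lit 582) (nat_lit 5) (nat_lit 367) (nat_lit 346) (nat_lit 307)) (XT.lf (nat_lit 0) (nat_lit 675396848) (nat_lit 1748) (nat_lit 4246962777) (nat_lit 76) (nat_lit 2917289831) (nat_lit 537) (nat_lit 5) (nat_lit 560) (nat_lit 5) (nat_lit 538) (nat_lit 5) (nat_lit 368) (nat_lit 346) (nat_lit 306))) (XT.nd (nat_lit 78) (nat_lit 3040) (nat_lit 0) (XT.lf (nat_lit 0) (nat_lit 3023329686) (nat_lit 1748) (nat_lit 889025580) (nat_lit 1824) (nat_lit 4017358808) (nat_lit 514) (nat_lit 5) (nat_lit 537) (nat_lit 5) (nat_lit 538) (nat_lit 5) (nat_lit 369) (nat_lit 346) (nat_lit 305)) (XT.nd (nat_lit 78) (nat_lit 1216) (nat_lit 0) (XT.lf (nat_lit 0) (nat_lit 2480318217) (nat_lit 1824) (nat_lit 4747854590) (nat_lit 1900) (nat_lit 794672816) (nat_lit 490) (nat_lit 5) (nat_lit 514) (nat_lit 5) (nat_lit 515) (nat_lit 5) (nat_lit 370) (nat_lit 346) (nat_lit 304)) (XT.lf (nat_lit 0) (nat_lit 1962246999) (nat_lit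 1140) (nat_lit 498376322) (nat_lit 1216) (nat_lit 5658439130) (nat_lit 474) (nat_lit 5) (nat_lit 489) (nat_lit 5) (nat_lit 490) (nat_lit 5) (nat_lit 371) (nat_lit 346) (nat_lit 303))))))))
noncomputable def xc64 : XT := (XT.nd (nat_lit 1482) (nat_lit 9728) (nat_lit 0) (XT.nd (nat_lit 702) (nat_lit 6992) (nat_lit 0) (XT.nd (nat_lit 312) (nat_lit 3344) (nat_lit 0) (XT.nd (nat_lit 156) (nat_lit 1748) (nat_lit 0) (XT.nd (nat_lit 78) (nat_lit 988) (nat_lit 0) (XT.lf (nat_lit 0) (nat_lit 1460040801) (nat_lit 912) (nat_lit 4334103341) (nat_lit 988) (nat_lit 2424089341) (nat_lit 462) (nat_lit 5) (nat_lit 474) (nat_lit 5) (nat_lit 475) (nat_lit 5) (nat_lit 372) (nat_lit 346) (nat_lit 302)) (XT.lf (nat_lit 0) (nat_lit 868175955) (nat_lit 988) (nat_lit 7326728429) (nat_lit 76) (nat_lit 125901761) (nat_lit 449) (nat_lit 5) (nat_lit 462) (nat_lit 5) (nat_lit 450) (nat_lit 5) (nat_lit 373) (nat_lit 346) (nat_lit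 301))) (XT.nd (nat_lit 78) (nat_lit 912) (nat_lit 0) (XT.lf (nat_lit 0) (nat_lit 528268412) (nat_lit 836) (nat_lit 3698699768) (nat_lit 912) (nat_lit 4199153486) (nat_lit 438) (nat_lit 5) (nat_lit 449) (nat_lit 5) (nat_lit 450) (nat_lit 5) (nat_lit 374) (nat_lit 346) (nat_lit 300)) (XT.lf (nat_lit 0) (nat_lit 101269060) (nat_lit 912) (nat_lit 7565692884) (nat_lit 988) (nat_lit 868025953) (nat_lit 426) (nat_lit 5) (nat_lit 438) (nat_lit 5) (nat_lit 439) (nat_lit 5) (nat_lit 375) (nat_lit 346) (nat_lit 299)))) (XT.nd (nat_lit 156) (nat_lit 2432) (nat_lit 0) (XT.nd (nat_lit 78) (nat_lit 836) (nat_lit 0) (XT.lf (nat_lit 0) (nat_lit 2532998796) (nat_lit 988) (nat_lit 318296250) (nat_lit 76) (nat_lit 5795420690) (nat_lit 425) (nat_lit 5) (nat_lit 438) (nat_lit 5) (nat_lit 426) (nat_lit 5) (nat_lit 376) (nat_lit 346) (nat_lit 298)) (XT.lf (nat_lit 0) (nat_lit 6017215094) (nat_lit 912) (nat_lit 711608788)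 (nat_lit 76) (nat_lit 2032997696) (nat_lit 414) (nat_lit 5) (nat_lit 426) (nat_lit 5) (nat_lit 415) (nat_lit 5) (nat_lit 377) (nat_lit 346) (nat_lit 297))) (XT.nd (nat_lit 78) (nat_lit 1520) (nat_lit 0) (XT.lf (nat_lit 0) (nat_lit 716708552) (nat_lit 912) (nat_lit 1084908241) (nat_lit 76) (nat_lit 7078656638) (nat_lit 402) (nat_lit 5) (nat_lit 414) (nat_lit 5) (nat_lit 403) (nat_lit 5) (nat_lit 378) (nat_lit 346) (nat_lit 296)) (XT.nd (nat_lit 78) (nat_lit 760) (nat_lit 0) (XT.lf (nat_lit 0) (nat_lit 4250360867) (nat_lit 836) (nat_lit 1454455111) (nat_lit 76) (nat_lit 3296984298) (nat_lit 392) (nat_lit 5) (nat_lit 403) (nat_lit 5) (nat_lit 393) (nat_lit 5) (nat_lit 379) (nat_lit 346) (nat_lit 295)) (XT.lf (nat_lit 0) (nat_lit 7334069762) (nat_lit 760) (nat_lit 554412019) (nat_lit 836) (nat_lit 1238521965) (nat_lit 382) (nat_lit 5) (nat_lit 392) (nat_lit 5) (nat_lit 393) (nat_lit 5) (nat_lit 380)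 (nat_lit 346) (nat_lit 294)))))) (XT.nd (nat_lit 390) (nat_lit 3268) (nat_lit 0) (XT.nd (nat_lit 156) (nat_lit 2128) (nat_lit 0) (XT.nd (nat_lit 78) (nat_lit 760) (nat_lit 0) (XT.lf (nat_lit 0) (nat_lit 2368650782) (nat_lit 836) (nat_lit 2134724846) (nat_lit 76) (nat_lit 4751877089) (nat_lit 371) (nat_lit 5) (nat_lit 382) (nat_lit 5) (nat_lit 372) (nat_lit 5) (nat_lit 381) (nat_lit 346) (nat_lit 293)) (XT.lf (nat_lit 0) (nat_lit 6067902733) (nat_lit 836) (nat_lit 2451489035) (nat_lit 76) (nat_lit 867779843) (nat_lit 361) (nat_lit 5) (nat_lit 372) (nat_lit 5) (nat_lit 362) (nat_lit 5) (nat_lit 382) (nat_lit 346) (nat_lit 292))) (XT.nd (nat_lit 78) (nat_lit 1368) (nat_lit 0) (XT.lf (nat_lit 0) (nat_lit 374448466) (nat_lit 760) (nat_lit 2758113445) (nat_lit 76) (nat_lit 6389959625) (nat_lit 351) (nat_lit 5) (nat_lit 361) (nat_lit 5) (nat_lit 352) (nat_lit 5) (nat_lit 383) (nat_lit 346) (nat_lit 291))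 (XT.nd (nat_lit 78) (nat_lit 684) (nat_lit 0) (XT.lf (nat_lit 0) (nat_lit 4146203350) (nat_lit 760) (nat_lit 3060390436) (nat_lit 76) (nat_lit 2454652929) (nat_lit 342) (nat_lit 5) (nat_lit 352) (nat_lit 5) (nat_lit 343) (nat_lit 5) (nat_lit 384) (nat_lit 346) (nat_lit 290)) (XT.lf (nat_lit 0) (nat_lit 6462444641) (nat_lit 684) (nat_lit 1587909826) (nat_lit 760) (nat_lit 1753394312) (nat_lit 333) (nat_lit 5) (nat_lit 342) (nat_lit 5) (nat_lit 343) (nat_lit 5) (nat_lit 385) (nat_lit 346) (nat_lit 289))))) (XT.nd (nat_lit 156) (nat_lit 1900) (nat_lit 0) (XT.nd (nat_lit 78) (nat_lit 608) (nat_lit 0) (XT.lf (nat_lit 0) (nat_lit 2121564303) (nat_lit 760) (nat_lit 3621125137) (nat_lit 76) (nat_lit 4206995455) (nat_lit 323) (nat_lit 5) (nat_lit 333) (nat_lit 5) (nat_lit 324) (nat_lit 5) (nat_lit 386) (nat_lit 346) (nat_lit 288)) (XT.lf (nat_lit 0) (nat_lit 6103296936) (nat_lit 684) (nat_lit 3881782785)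 (nat_lit 76) (nat_lit 114400637) (nat_lit 315) (nat_lit 5) (nat_lit 324) (nat_lit 5) (nat_lit 316) (nat_lit 5) (nat_lit 387) (nat_lit 346) (nat_lit 287))) (XT.nd (nat_lit 78) (nat_lit 1292) (nat_lit 0) (XT.lf (nat_lit 0) (nat_lit 6114430452) (nat_lit 608) (nat_lit 4133706256) (nat_lit 684) (nat_lit 4759872) (nat_lit 307) (nat_lit 5) (nat_lit 315) (nat_lit 5) (nat_lit 316) (nat_lit 5) (nat_lit 388) (nat_lit 346) (nat_lit 286)) (XT.nd (nat_lit 78) (nat_lit 608) (nat_lit 0) (XT.lf (nat_lit 0) (nat_lit 4072692124) (nat_lit 684) (nat_lit 4392219526) (nat_lit 76) (nat_lit 1945067569) (nat_lit 298) (nat_lit 5) (nat_lit 307) (nat_lit 5) (nat_lit 299) (nat_lit 5) (nat_lit 389) (nat_lit 346) (nat_lit 285)) (XT.lf (nat_lit 0) (nat_lit 5939599219) (nat_lit 608) (nat_lit 2370065966) (nat_lit 684) (nat_lit 2261363279) (nat_lit 290) (nat_lit 5) (nat_lit 298) (nat_lit 5) (nat_lit 299) (nat_lit 5) (nat_lit 390) (nat_lit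 346) (nat_lit 284))))))) (XT.nd (nat_lit 780) (nat_lit 4256) (nat_lit 0) (XT.nd (nat_lit 390) (nat_lit 2584) (nat_lit 0) (XT.nd (nat_lit 156) (nat_lit 1672) (nat_lit 0) (XT.nd (nat_lit 78) (nat_lit 608) (nat_lit 0) (XT.lf (nat_lit 0) (nat_lit 1949109041) (nat_lit 608) (nat_lit 4866565496) (nat_lit 76) (nat_lit 3920229689) (nat_lit 282) (nat_lit 5) (nat_lit 290) (nat_lit 5) (nat_lit 283) (nat_lit 5) (nat_lit 391) (nat_lit 346) (nat_lit 283)) (XT.lf (nat_lit 0) (nat_lit 5814635102) (nat_lit 608) (nat_lit 470603066) (nat_lit 684) (nat_lit 4619587827) (nat_lit 274) (nat_lit 5) (nat_lit 282) (nat_lit 5) (nat_lit 283) (nat_lit 5) (nat_lit 392) (nat_lit 346) (nat_lit 282))) (XT.nd (nat_lit 78) (nat_lit 1140) (nat_lit 0) (XT.lf (nat_lit 0) (nat_lit 5767135792) (nat_lit 532) (nat_lit 5040047384) (nat_lit 608) (nat_lit 270517602) (nat_lit 267) (nat_lit 5) (nat_lit 274) (nat_lit 5) (nat_lit 275) (nat_lit 5)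 (nat_lit 393) (nat_lit 346) (nat_lit 281)) (XT.nd (nat_lit 78) (nat_lit 532) (nat_lit 0) (XT.lf (nat_lit 0) (nat_lit 4185541255) (nat_lit 608) (nat_lit 5528756723) (nat_lit 76) (nat_lit 1540282897) (nat_lit 259) (nat_lit 5) (nat_lit 267) (nat_lit 5) (nat_lit 260) (nat_lit 5) (nat_lit 394) (nat_lit 346) (nat_lit 280)) (XT.lf (nat_lit 0) (nat_lit 5696013086) (nat_lit 532) (nat_lit 3129965068) (nat_lit 608) (nat_lit 2609666028) (nat_lit 252) (nat_lit 5) (nat_lit 259) (nat_lit 5) (nat_lit 260) (nat_lit 5) (nat_lit 395) (nat_lit 346) (nat_lit 279))))) (XT.nd (nat_lit 156) (nat_lit 1520) (nat_lit 0) (XT.nd (nat_lit 78) (nat_lit 456) (nat_lit 0) (XT.lf (nat_lit 0) (nat_lit 2004523210) (nat_lit 608) (nat_lit 5944516867) (nat_lit 76) (nat_lit 3671900782) (nat_lit 244) (nat_lit 5) (nat_lit 252) (nat_lit 5) (nat_lit 245) (nat_lit 5) (nat_lit 396) (nat_lit 346) (nat_lit 278)) (XT.lf (nat_lit 0) (nat_lit 5666074817)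 (nat_lit 456) (nat_lit 1101758751) (nat_lit 532) (nat_lit 5042694861) (nat_lit 238) (nat_lit 5) (nat_lit 244) (nat_lit 5) (nat_lit 245) (nat_lit 5) (nat_lit 397) (nat_lit 346) (nat_lit 277))) (XT.nd (nat_lit 78) (nat_lit 988) (nat_lit 0) (XT.lf (nat_lit 0) (nat_lit 5664953887) (nat_lit 532) (nat_lit 6075020155) (nat_lit 608) (nat_lit 264510967) (nat_lit 231) (nat_lit 5) (nat_lit 238) (nat_lit 5) (nat_lit 239) (nat_lit 5) (nat_lit 398) (nat_lit 346) (nat_lit 276)) (XT.nd (nat_lit 78) (nat_lit 456) (nat_lit 0) (XT.lf (nat_lit 0) (nat_lit 4639467000) (nat_lit 532) (nat_lit 6535105324) (nat_lit 76) (nat_lit 1028212711) (nat_lit 224) (nat_lit 5) (nat_lit 231) (nat_lit 5) (nat_lit 225) (nat_lit 5) (nat_lit 399) (nat_lit 346) (nat_lit 275)) (XT.lf (nat_lit 0) (nat_lit 5676521749) (nat_lit 456) (nat_lit 4082673873) (nat_lit 532) (nat_lit 2646358971) (nat_lit 218) (nat_lit 5) (nat_lit 224) (nat_lit 5) (nat_lit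 225) (nat_lit 5) (nat_lit 400) (nat_lit 346) (nat_lit 274)))))) (XT.nd (nat_lit 390) (nat_lit 1976) (nat_lit 0) (XT.nd (nat_lit 156) (nat_lit 1292) (nat_lit 0) (XT.nd (nat_lit 78) (nat_lit 456) (nat_lit 0) (XT.lf (nat_lit 0) (nat_lit 2441645795) (nat_lit 532) (nat_lit 6915832944) (nat_lit 76) (nat_lit 3255509482) (nat_lit 211) (nat_lit 5) (nat_lit 218) (nat_lit 5) (nat_lit 212) (nat_lit 5) (nat_lit 401) (nat_lit 346) (nat_lit 273)) (XT.lf (nat_lit 0) (nat_lit 5722158089) (nat_lit 456) (nat_lit 1987662208) (nat_lit 532) (nat_lit 5115205047) (nat_lit 205) (nat_lit 5) (nat_lit 211) (nat_lit 5) (nat_lit 212) (nat_lit 5) (nat_lit 402) (nat_lit 346) (nat_lit 272))) (XT.nd (nat_lit 78) (nat_lit 836) (nat_lit 0) (XT.lf (nat_lit 0) (nat_lit 166551033) (nat_lit 456) (nat_lit 7282426846) (nat_lit 76) (nat_lit 5592930691) (nat_lit 199) (nat_lit 5) (nat_lit 205) (nat_lit 5) (nat_lit 200) (nat_lit 5) (nat_lit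 403) (nat_lit 346) (nat_lit 271)) (XT.nd (nat_lit 78) (nat_lit 380) (nat_lit 0) (XT.lf (nat_lit 0) (nat_lit 5592711566) (nat_lit 532) (nat_lit 7465262459) (nat_lit 76) (nat_lit 205539089) (nat_lit 193) (nat_lit 5) (nat_lit 200) (nat_lit 5) (nat_lit 194) (nat_lit 5) (nat_lit 404) (nat_lit 346) (nat_lit 270)) (XT.lf (nat_lit 0) (nat_lit 5837848182) (nat_lit 380) (nat_lit 5436240783) (nat_lit 456) (nat_lit 2215828189) (nat_lit 188) (nat_lit 5) (nat_lit 193) (nat_lit 5) (nat_lit 194) (nat_lit 5) (nat_lit 405) (nat_lit 346) (nat_lit 269))))) (XT.nd (nat_lit 156) (nat_lit 1140) (nat_lit 0) (XT.nd (nat_lit 78) (nat_lit 380) (nat_lit 0) (XT.lf (nat_lit 0) (nat_lit 3419313261) (nat_lit 456) (nat_lit 7831152955) (nat_lit 76) (nat_lit 2470982293) (nat_lit 182) (nat_lit 5) (nat_lit 188) (nat_lit 5) (nat_lit 183) (nat_lit 5) (nat_lit 406) (nat_lit 346) (nat_lit 268)) (XT.lf (nat_lit 0) (nat_lit 5943306940) (nat_lit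 380) (nat_lit 3333727994) (nat_lit 456) (nat_lit 4680925330) (nat_lit 177) (nat_lit 5) (nat_lit 182) (nat_lit 5) (nat_lit 183) (nat_lit 5) (nat_lit 407) (nat_lit 346) (nat_lit 267))) (XT.nd (nat_lit 78) (nat_lit 684) (nat_lit 0) (XT.lf (nat_lit 0) (nat_lit 1175700232) (nat_lit 456) (nat_lit 8190236188) (nat_lit 76) (nat_lit 4833860493) (nat_lit 171) (nat_lit 5) (nat_lit 177) (nat_lit 5) (nat_lit 172) (nat_lit 5) (nat_lit 408) (nat_lit 346) (nat_lit 266)) (XT.nd (nat_lit 78) (nat_lit 380) (nat_lit 0) (XT.lf (nat_lit 0) (nat_lit 6075146145) (nat_lit 304) (nat_lit 1143597801) (nat_lit 380) (nat_lit 7228039602) (nat_lit 167) (nat_lit 5) (nat_lit 171) (nat_lit 5) (nat_lit 172) (nat_lit 5) (nat_lit 409) (nat_lit 346) (nat_lit 265)) (XT.lf (nat_lit 0) (nat_lit 6146648091) (nat_lit 380) (nat_lit 7397963745) (nat_lit 456) (nat_lit 1154537288) (nat_lit 162) (nat_lit 5) (nat_lit 167) (nat_lit 5) (nat_lit 168)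 (nat_lit 5) (nat_lit 410) (nat_lit 346) (nat_lit 264))))))))
noncomputable def xc65 : XT := (XT.nd (nat_lit 48360) (nat_lit 0) (nat_lit 33592) (XT.nd (nat_lit 702) (nat_lit 2052) (nat_lit 0) (XT.nd (nat_lit 312) (nat_lit 1596) (nat_lit 0) (XT.nd (nat_lit 156) (nat_lit 684) (nat_lit 0) (XT.nd (nat_lit 78) (nat_lit 380) (nat_lit 0) (XT.lf (nat_lit 0) (nat_lit 5105556022) (nat_lit 380) (nat_lit 8732830095) (nat_lit 76) (nat_lit 1118611374) (nat_lit 157) (nat_lit 5) (nat_lit 162) (nat_lit 5) (nat_lit 158) (nat_lit 5) (nat_lit 411) (nat_lit 346) (nat_lit 263)) (XT.lf (nat_lit 0) (nat_lit 6299203382) (nat_lit 380) (nat_lit 5346701609) (nat_lit 456) (nat_lit 3574360917) (nat_lit 152) (nat_lit 5) (nat_lit 157) (nat_lit 5) (nat_lit 158) (nat_lit 5) (nat_lit 412) (nat_lit 346) (nat_lit 262))) (XT.nd (nat_lit 78) (nat_lit 304) (nat_lit 0) (XT.lf (nat_lit 0) (nat_lit 2936856249) (nat_lit 380) (nat_lit 9101218061)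 (nat_lit 76) (nat_lit 3451307846) (nat_lit 147) (nat_lit 5) (nat_lit 152) (nat_lit 5) (nat_lit 148) (nat_lit 5) (nat_lit 413) (nat_lit 346) (nat_lit 261)) (XT.lf (nat_lit 0) (nat_lit 6473603811) (nat_lit 304) (nat_lit 3220594243) (nat_lit 380) (nat_lit 6069914314) (nat_lit 143) (nat_lit 5) (nat_lit 147) (nat_lit 5) (nat_lit 148) (nat_lit 5) (nat_lit 414) (nat_lit 346) (nat_lit 260)))) (XT.nd (nat_lit 156) (nat_lit 912) (nat_lit 0) (XT.nd (nat_lit 78) (nat_lit 304) (nat_lit 0) (XT.lf (nat_lit 0) (nat_lit 703758569) (nat_lit 380) (nat_lit 9471655732) (nat_lit 76) (nat_lit 5869500418) (nat_lit 138) (nat_lit 5) (nat_lit 143) (nat_lit 5) (nat_lit 139) (nat_lit 5) (nat_lit 415) (nat_lit 346) (nat_lit 259)) (XT.lf (nat_lit 0) (nat_lit 6668445302) (nat_lit 304) (nat_lit 1019890305) (nat_lit 380) (nat_lit 8643199886) (nat_lit 134) (nat_lit 5) (nat_lit 138) (nat_lit 5) (nat_lit 139) (nat_lit 5) (nat_lit 416)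 (nat_lit 346) (nat_lit 258))) (XT.nd (nat_lit 78) (nat_lit 608) (nat_lit 0) (XT.lf (nat_lit 0) (nat_lit 6767398386) (nat_lit 304) (nat_lit 8240241184) (nat_lit 380) (nat_lit 1616611526) (nat_lit 130) (nat_lit 5) (nat_lit 134) (nat_lit 5) (nat_lit 135) (nat_lit 5) (nat_lit 417) (nat_lit 346) (nat_lit 257)) (XT.nd (nat_lit 78) (nat_lit 228) (nat_lit 0) (XT.lf (nat_lit 0) (nat_lit 5635120610) (nat_lit 380) (nat_lit 10049148852) (nat_lit 76) (nat_lit 1238987558) (nat_lit 125) (nat_lit 5) (nat_lit 130) (nat_lit 5) (nat_lit 126) (nat_lit 5) (nat_lit 418) (nat_lit 346) (nat_lit 256)) (XT.lf (nat_lit 0) (nat_lit 6974855927) (nat_lit 228) (nat_lit 6238360601) (nat_lit 304) (nat_lit 4015187372) (nat_lit 122) (nat_lit 5) (nat_lit 125) (nat_lit 5) (nat_lit 126) (nat_lit 5) (nat_lit 419) (nat_lit 346) (nat_lit 255)))))) (XT.nd (nat_lit 390) (nat_lit 532) (nat_lit 0) (XT.nd (nat_lit 156) (nat_lit 912) (nat_lit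 0) (XT.nd (nat_lit 78) (nat_lit 228) (nat_lit 0) (XT.lf (nat_lit 0) (nat_lit 3531973249) (nat_lit 380) (nat_lit 10449781382) (nat_lit 76) (nat_lit 3558466977) (nat_lit 117) (nat_lit 5) (nat_lit 122) (nat_lit 5) (nat_lit 118) (nat_lit 5) (nat_lit 420) (nat_lit 346) (nat_lit 254)) (XT.lf (nat_lit 0) (nat_lit 7199171549) (nat_lit 228) (nat_lit 4174509293) (nat_lit 304) (nat_lit 6484728542) (nat_lit 114) (nat_lit 5) (nat_lit 117) (nat_lit 5) (nat_lit 118) (nat_lit 5) (nat_lit 421) (nat_lit 346) (nat_lit 253))) (XT.nd (nat_lit 78) (nat_lit 532) (nat_lit 0) (XT.lf (nat_lit 0) (nat_lit 1370552931) (nat_lit 380) (nat_lit 10860468502) (nat_lit 76) (nat_lit 5952504357) (nat_lit 109) (nat_lit 5) (nat_lit 114) (nat_lit 5) (nat_lit 110) (nat_lit 5) (nat_lit 422) (nat_lit 346) (nat_lit 252)) (XT.nd (nat_lit 78) (nat_lit 304) (nat_lit 0) (XT.lf (nat_lit 0) (nat_lit 7439238285) (nat_lit 228) (nat_lit 2048461662)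 (nat_lit 304) (nat_lit 9027552278) (nat_lit 106) (nat_lit 5) (nat_lit 109) (nat_lit 5) (nat_lit 110) (nat_lit 5) (nat_lit 423) (nat_lit 346) (nat_lit 251)) (XT.lf (nat_lit 0) (nat_lit 7565181658) (nat_lit 304) (nat_lit 10426531417) (nat_lit 380) (nat_lit 862350344) (nat_lit 102) (nat_lit 5) (nat_lit 106) (nat_lit 5) (nat_lit 107) (nat_lit 5) (nat_lit 424) (nat_lit 346) (nat_lit 250))))) (XT.nd (nat_lit 47034) (nat_lit 0) (nat_lit 49704) (XT.nd (nat_lit 78) (nat_lit 228) (nat_lit 0) (XT.lf (nat_lit 0) (nat_lit 7554690620) (nat_lit 304) (nat_lit 11506852824) (nat_lit 76) (nat_lit 138397920) (nat_lit 98) (nat_lit 5) (nat_lit 102) (nat_lit 5) (nat_lit 99) (nat_lit 5) (nat_lit 425) (nat_lit 346) (nat_lit 249)) (XT.lf (nat_lit 0) (nat_lit 7811906945) (nat_lit 228) (nat_lit 8564352450) (nat_lit 304) (nat_lit 3176547598) (nat_lit 95) (nat_lit 5) (nat_lit 98) (nat_lit 5) (nat_lit 99) (nat_lit 5) (nat_lit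 426) (nat_lit 346) (nat_lit 248))) (XT.nd (nat_lit 78) (nat_lit 836) (nat_lit 0) (XT.lf (nat_lit 0) (nat_lit 1418579503) (nat_lit 0) (nat_lit 1418579503) (nat_lit 684) (nat_lit 487371489) (nat_lit 760) (nat_lit 5) (nat_lit 760) (nat_lit 3) (nat_lit 769) (nat_lit 3) (nat_lit 347) (nat_lit 347) (nat_lit 326)) (XT.nd (nat_lit 78) (nat_lit 0) (nat_lit 76) (XT.lf (nat_lit 76) (nat_lit 1185527473) (nat_lit 0) (nat_lit 1281286105) (nat_lit 836) (nat_lit 4213247760) (nat_lit 750) (nat_lit 5) (nat_lit 749) (nat_lit 3) (nat_lit 760) (nat_lit 5) (nat_lit 348) (nat_lit 347) (nat_lit 325)) (XT.lf (nat_lit 0) (nat_lit 5892432518) (nat_lit 760) (nat_lit 407595529) (nat_lit 836) (nat_lit 413953614) (nat_lit 750) (nat_lit 5) (nat_lit 760) (nat_lit 5) (nat_lit 761) (nat_lit 5) (nat_lit 349) (nat_lit 347) (nat_lit 324))))))) (XT.nd (nat_lit 780) (nat_lit 11476) (nat_lit 0) (XT.nd (nat_lit 390) (nat_lit 2052) (nat_lit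 0) (XT.nd (nat_lit 156) (nat_lit 1824) (nat_lit 0) (XT.nd (nat_lit 78) (nat_lit 0) (nat_lit 0) (XT.lf (nat_lit 0) (nat_lit 2545899933) (nat_lit 836) (nat_lit 1951221564) (nat_lit 912) (nat_lit 2253270304) (nat_lit 739) (nat_lit 5) (nat_lit 750) (nat_lit 5) (nat_lit 751) (nat_lit 5) (nat_lit 350) (nat_lit 347) (nat_lit 323)) (XT.lf (nat_lit 76) (nat_lit 3347418367) (nat_lit 0) (nat_lit 2552674673) (nat_lit 912) (nat_lit 889754951) (nat_lit 740) (nat_lit 5) (nat_lit 739) (nat_lit 5) (nat_lit 751) (nat_lit 5) (nat_lit 351) (nat_lit 347) (nat_lit 322))) (XT.nd (nat_lit 78) (nat_lit 912) (nat_lit 0) (XT.lf (nat_lit 76) (nat_lit 1939090871) (nat_lit 0) (nat_lit 452871770) (nat_lit 988) (nat_lit 4440184486) (nat_lit 728) (nat_lit 5) (nat_lit 727) (nat_lit 5) (nat_lit 740) (nat_lit 5) (nat_lit 352) (nat_lit 347) (nat_lit 321)) (XT.nd (nat_lit 78) (nat_lit 988) (nat_lit 0) (XT.lf (nat_lit 76) (nat_lit 571228329)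 (nat_lit 0) (nat_lit 5105452581) (nat_lit 988) (nat_lit 1200583952) (nat_lit 729) (nat_lit 5) (nat_lit 728) (nat_lit 5) (nat_lit 741) (nat_lit 5) (nat_lit 353) (nat_lit 347) (nat_lit 320)) (XT.lf (nat_lit 0) (nat_lit 2025162650) (nat_lit 988) (nat_lit 747161067) (nat_lit 1064) (nat_lit 4152795523) (nat_lit 715) (nat_lit 5) (nat_lit 728) (nat_lit 5) (nat_lit 729) (nat_lit 5) (nat_lit 354) (nat_lit 347) (nat_lit 319))))) (XT.nd (nat_lit 156) (nat_lit 1064) (nat_lit 0) (XT.nd (nat_lit 78) (nat_lit 988) (nat_lit 0) (XT.lf (nat_lit 76) (nat_lit 4964308495) (nat_lit 0) (nat_lit 283434768) (nat_lit 1064) (nat_lit 1728179813) (nat_lit 716) (nat_lit 5) (nat_lit 715) (nat_lit 5) (nat_lit 729) (nat_lit 5) (nat_lit 355) (nat_lit 347) (nat_lit 318)) (XT.lf (nat_lit 0) (nat_lit 1449883787) (nat_lit 1064) (nat_lit 3247701286) (nat_lit 1140) (nat_lit 2331839853) (nat_lit 702) (nat_lit 5) (nat_lit 716) (nat_lit 5)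 (nat_lit 717) (nat_lit 5) (nat_lit 356) (nat_lit 347) (nat_lit 317))) (XT.nd (nat_lit 78) (nat_lit 1064) (nat_lit 0) (XT.lf (nat_lit 76) (nat_lit 2640296533) (nat_lit 0) (nat_lit 1981748248) (nat_lit 1140) (nat_lit 2463813890) (nat_lit 703) (nat_lit 5) (nat_lit 702) (nat_lit 5) (nat_lit 717) (nat_lit 5) (nat_lit 357) (nat_lit 347) (nat_lit 316)) (XT.nd (nat_lit 78) (nat_lit 0) (nat_lit 0) (XT.lf (nat_lit 0) (nat_lit 664967410) (nat_lit 1140) (nat_lit 5603213694) (nat_lit 1216) (nat_lit 877120374) (nat_lit 688) (nat_lit 5) (nat_lit 703) (nat_lit 5) (nat_lit 704) (nat_lit 5) (nat_lit 358) (nat_lit 347) (nat_lit 315)) (XT.lf (nat_lit 76) (nat_lit 466139984) (nat_lit 0) (nat_lit 3329092994) (nat_lit 1216) (nat_lit 3412146984) (nat_lit 689) (nat_lit 5) (nat_lit 688) (nat_lit 5) (nat_lit 704) (nat_lit 5) (nat_lit 359) (nat_lit 347) (nat_lit 314)))))) (XT.nd (nat_lit 390) (nat_lit 6384) (nat_lit 0) (XT.nd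 (nat_lit 156) (nat_lit 3952) (nat_lit 0) (XT.nd (nat_lit 78) (nat_lit 1140) (nat_lit 0) (XT.lf (nat_lit 76) (nat_lit 6721139732) (nat_lit 0) (nat_lit 233139980) (nat_lit 1216) (nat_lit 318343626) (nat_lit 689) (nat_lit 5) (nat_lit 688) (nat_lit 5) (nat_lit 704) (nat_lit 5) (nat_lit 360) (nat_lit 347) (nat_lit 313)) (XT.lf (nat_lit 0) (nat_lit 2787364907) (nat_lit 1216) (nat_lit 1551270103) (nat_lit 76) (nat_lit 3001682371) (nat_lit 673) (nat_lit 5) (nat_lit 689) (nat_lit 5) (nat_lit 674) (nat_lit 5) (nat_lit 361) (nat_lit 347) (nat_lit 312))) (XT.nd (nat_lit 78) (nat_lit 2736) (nat_lit 0) (XT.lf (nat_lit 0) (nat_lit 4904679146) (nat_lit 1216) (nat_lit 1016323088) (nat_lit 1292) (nat_lit 1490216275) (nat_lit 657) (nat_lit 5) (nat_lit 673) (nat_lit 5) (nat_lit 674) (nat_lit 5) (nat_lit 362) (nat_lit 347) (nat_lit 311)) (XT.nd (nat_lit 78) (nat_lit 1368) (nat_lit 0) (XT.lf (nat_lit 0) (nat_lit 1599250270)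 (nat_lit 1368) (nat_lit 3440820993) (nat_lit 76) (nat_lit 2444825735) (nat_lit 639) (nat_lit 5) (nat_lit 657) (nat_lit 5) (nat_lit 640) (nat_lit 5) (nat_lit 363) (nat_lit 347) (nat_lit 310)) (XT.lf (nat_lit 0) (nat_lit 3216147772) (nat_lit 1368) (nat_lit 1496024876) (nat_lit 1444) (nat_lit 2849395827) (nat_lit 621) (nat_lit 5) (nat_lit 639) (nat_lit 5) (nat_lit 640) (nat_lit 5) (nat_lit 364) (nat_lit 347) (nat_lit 309))))) (XT.nd (nat_lit 156) (nat_lit 3344) (nat_lit 0) (XT.nd (nat_lit 78) (nat_lit 1520) (nat_lit 0) (XT.lf (nat_lit 0) (nat_lit 235737818) (nat_lit 1520) (nat_lit 5220357080) (nat_lit 76) (nat_lit 2185180297) (nat_lit 601) (nat_lit 5) (nat_lit 621) (nat_lit 5) (nat_lit 602) (nat_lit 5) (nat_lit 365) (nat_lit 347) (nat_lit 308)) (XT.lf (nat_lit 0) (nat_lit 1644295973) (nat_lit 1520) (nat_lit 1691061674) (nat_lit 1596) (nat_lit 4388425893) (nat_lit 581) (nat_lit 5) (nat_lit 601) (nat_lit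 5) (nat_lit 602) (nat_lit 5) (nat_lit 366) (nat_lit 347) (nat_lit 307))) (XT.nd (nat_lit 78) (nat_lit 1748) (nat_lit 0) (XT.lf (nat_lit 0) (nat_lit 900069130) (nat_lit 1596) (nat_lit 5595881630) (nat_lit 1672) (nat_lit 1313456682) (nat_lit 560) (nat_lit 5) (nat_lit 581) (nat_lit 5) (nat_lit 582) (nat_lit 5) (nat_lit 367) (nat_lit 347) (nat_lit 306)) (XT.nd (nat_lit 78) (nat_lit 0) (nat_lit 0) (XT.lf (nat_lit 0) (nat_lit 178672144) (nat_lit 1672) (nat_lit 1618551907) (nat_lit 1748) (nat_lit 6100779795) (nat_lit 537) (nat_lit 5) (nat_lit 559) (nat_lit 5) (nat_lit 560) (nat_lit 5) (nat_lit 368) (nat_lit 347) (nat_lit 305)) (XT.lf (nat_lit 0) (nat_lit 4962629459) (nat_lit 1748) (nat_lit 515634597) (nat_lit 76) (nat_lit 2511235469) (nat_lit 537) (nat_lit 5) (nat_lit 560) (nat_lit 5) (nat_lit 538) (nat_lit 5) (nat_lit 369) (nat_lit 347) (nat_lit 304))))))))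
noncomputable def xc66 : XT := (XT.nd (nat_lit 1482) (nat_lit 10488) (nat_lit 0) (XT.nd (nat_lit 702) (nat_lit 6612) (nat_lit 0) (XT.nd (nat_lit 312) (nat_lit 4484) (nat_lit 0) (XT.nd (nat_lit 156) (nat_lit 2128) (nat_lit 0) (XT.nd (nat_lit 78) (nat_lit 1824) (nat_lit 0) (XT.lf (nat_lit 0) (nat_lit 111324743) (nat_lit 1824) (nat_lit 1174827940) (nat_lit 76) (nat_lit 6798091424) (nat_lit 513) (nat_lit 5) (nat_lit 537) (nat_lit 5) (nat_lit 514) (nat_lit 5) (nat_lit 370) (nat_lit 347) (nat_lit 303)) (XT.lf (nat_lit 0) (nat_lit 3287578357) (nat_lit 1900) (nat_lit 1830152352) (nat_lit 76) (nat_lit 3063999441) (nat_lit 489) (nat_lit 5) (nat_lit 514) (nat_lit 5) (nat_lit 490) (nat_lit 5) (nat_lit 371) (nat_lit 347) (nat_lit 302))) (XT.nd (nat_lit 78) (nat_lit 988) (nat_lit 0) (XT.lf (nat_lit 0) (nat_lit 5831610673) (nat_lit 1140) (nat_lit 703645804) (nat_lit 1216) (nat_lit 1747361558) (nat_lit 474) (nat_lit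 5) (nat_lit 489) (nat_lit 5) (nat_lit 490) (nat_lit 5) (nat_lit 372) (nat_lit 347) (nat_lit 301)) (XT.lf (nat_lit 0) (nat_lit 1469758610) (nat_lit 988) (nat_lit 3063839813) (nat_lit 76) (nat_lit 3852829794) (nat_lit 461) (nat_lit 5) (nat_lit 474) (nat_lit 5) (nat_lit 462) (nat_lit 5) (nat_lit 373) (nat_lit 347) (nat_lit 300)))) (XT.nd (nat_lit 156) (nat_lit 2736) (nat_lit 0) (XT.nd (nat_lit 78) (nat_lit 836) (nat_lit 0) (XT.lf (nat_lit 0) (nat_lit 4738087288) (nat_lit 988) (nat_lit 3651555144) (nat_lit 76) (nat_lit 103910577) (nat_lit 449) (nat_lit 5) (nat_lit 462) (nat_lit 5) (nat_lit 450) (nat_lit 5) (nat_lit 374) (nat_lit 347) (nat_lit 299)) (XT.lf (nat_lit 0) (nat_lit 4375900258) (nat_lit 836) (nat_lit 3734664240) (nat_lit 912) (nat_lit 493205072) (nat_lit 438) (nat_lit 5) (nat_lit 449) (nat_lit 5) (nat_lit 450) (nat_lit 5) (nat_lit 375) (nat_lit 347) (nat_lit 298))) (XT.nd (nat_lit 78) (nat_lit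 1748) (nat_lit 0) (XT.lf (nat_lit 0) (nat_lit 2814772924) (nat_lit 988) (nat_lit 4788737448) (nat_lit 76) (nat_lit 1113700983) (nat_lit 425) (nat_lit 5) (nat_lit 438) (nat_lit 5) (nat_lit 426) (nat_lit 5) (nat_lit 376) (nat_lit 347) (nat_lit 297)) (XT.nd (nat_lit 78) (nat_lit 912) (nat_lit 0) (XT.lf (nat_lit 0) (nat_lit 3496839926) (nat_lit 836) (nat_lit 2724283522) (nat_lit 912) (nat_lit 2612751066) (nat_lit 414) (nat_lit 5) (nat_lit 425) (nat_lit 5) (nat_lit 426) (nat_lit 5) (nat_lit 377) (nat_lit 347) (nat_lit 296)) (XT.lf (nat_lit 0) (nat_lit 763974450) (nat_lit 912) (nat_lit 5865129091) (nat_lit 76) (nat_lit 2324862908) (nat_lit 402) (nat_lit 5) (nat_lit 414) (nat_lit 5) (nat_lit 403) (nat_lit 5) (nat_lit 378) (nat_lit 347) (nat_lit 295)))))) (XT.nd (nat_lit 390) (nat_lit 2812) (nat_lit 0) (XT.nd (nat_lit 156) (nat_lit 2280) (nat_lit 0) (XT.nd (nat_lit 78) (nat_lit 760) (nat_lit 0) (XT.lf (nat_lit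 0) (nat_lit 2688636470) (nat_lit 760) (nat_lit 1522075634) (nat_lit 836) (nat_lit 4866519483) (nat_lit 392) (nat_lit 5) (nat_lit 402) (nat_lit 5) (nat_lit 403) (nat_lit 5) (nat_lit 379) (nat_lit 347) (nat_lit 294)) (XT.lf (nat_lit 0) (nat_lit 2307243835) (nat_lit 760) (nat_lit 5466257093) (nat_lit 836) (nat_lit 1430440772) (nat_lit 382) (nat_lit 5) (nat_lit 392) (nat_lit 5) (nat_lit 393) (nat_lit 5) (nat_lit 380) (nat_lit 347) (nat_lit 293))) (XT.nd (nat_lit 78) (nat_lit 1444) (nat_lit 0) (XT.lf (nat_lit 0) (nat_lit 1945127776) (nat_lit 760) (nat_lit 136746597) (nat_lit 836) (nat_lit 7252288712) (nat_lit 371) (nat_lit 5) (nat_lit 381) (nat_lit 5) (nat_lit 382) (nat_lit 5) (nat_lit 381) (nat_lit 347) (nat_lit 292)) (XT.nd (nat_lit 78) (nat_lit 684) (nat_lit 0) (XT.lf (nat_lit 0) (nat_lit 1581295444) (nat_lit 760) (nat_lit 4126808819) (nat_lit 836) (nat_lit 3759438156) (nat_lit 361) (nat_lit 5) (nat_lit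 371) (nat_lit 5) (nat_lit 372) (nat_lit 5) (nat_lit 382) (nat_lit 347) (nat_lit 291)) (XT.lf (nat_lit 0) (nat_lit 1250120873) (nat_lit 684) (nat_lit 8198496152) (nat_lit 760) (nat_lit 156196190) (nat_lit 352) (nat_lit 5) (nat_lit 361) (nat_lit 5) (nat_lit 362) (nat_lit 5) (nat_lit 383) (nat_lit 347) (nat_lit 290))))) (XT.nd (nat_lit 156) (nat_lit 1368) (nat_lit 0) (XT.nd (nat_lit 78) (nat_lit 684) (nat_lit 0) (XT.lf (nat_lit 0) (nat_lit 910623449) (nat_lit 684) (nat_lit 2623284028) (nat_lit 760) (nat_lit 6211325195) (nat_lit 342) (nat_lit 5) (nat_lit 351) (nat_lit 5) (nat_lit 352) (nat_lit 5) (nat_lit 384) (nat_lit 347) (nat_lit 289)) (XT.lf (nat_lit 0) (nat_lit 592000484) (nat_lit 684) (nat_lit 6761030595) (nat_lit 760) (nat_lit 2536404206) (nat_lit 333) (nat_lit 5) (nat_lit 342) (nat_lit 5) (nat_lit 343) (nat_lit 5) (nat_lit 385) (nat_lit 347) (nat_lit 288))) (XT.nd (nat_lit 78) (nat_lit 608) (nat_lit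 0) (XT.lf (nat_lit 0) (nat_lit 290110103) (nat_lit 684) (nat_lit 962211520) (nat_lit 760) (nat_lit 8785081497) (nat_lit 323) (nat_lit 5) (nat_lit 332) (nat_lit 5) (nat_lit 333) (nat_lit 5) (nat_lit 386) (nat_lit 347) (nat_lit 287)) (XT.nd (nat_lit 78) (nat_lit 608) (nat_lit 0) (XT.lf (nat_lit 0) (nat_lit 5157827951) (nat_lit 760) (nat_lit 19027620) (nat_lit 76) (nat_lit 5011867537) (nat_lit 323) (nat_lit 5) (nat_lit 333) (nat_lit 5) (nat_lit 324) (nat_lit 5) (nat_lit 387) (nat_lit 347) (nat_lit 286)) (XT.lf (nat_lit 0) (nat_lit 9200942861) (nat_lit 684) (nat_lit 294322169) (nat_lit 76) (nat_lit 848908799) (nat_lit 315) (nat_lit 5) (nat_lit 324) (nat_lit 5) (nat_lit 316) (nat_lit 5) (nat_lit 388) (nat_lit 347) (nat_lit 285))))))) (XT.nd (nat_lit 780) (nat_lit 4636) (nat_lit 0) (XT.nd (nat_lit 390) (nat_lit 2736) (nat_lit 0) (XT.nd (nat_lit 156) (nat_lit 1824) (nat_lit 0) (XT.nd (nat_lit 78) (nat_lit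 608) (nat_lit 0) (XT.lf (nat_lit 0) (nat_lit 2867373169) (nat_lit 684) (nat_lit 580595608) (nat_lit 76) (nat_lit 7055071107) (nat_lit 306) (nat_lit 5) (nat_lit 315) (nat_lit 5) (nat_lit 307) (nat_lit 5) (nat_lit 389) (nat_lit 347) (nat_lit 284)) (XT.lf (nat_lit 0) (nat_lit 7012206123) (nat_lit 684) (nat_lit 850748186) (nat_lit 76) (nat_lit 2802977622) (nat_lit 298) (nat_lit 5) (nat_lit 307) (nat_lit 5) (nat_lit 299) (nat_lit 5) (nat_lit 390) (nat_lit 347) (nat_lit 283))) (XT.nd (nat_lit 78) (nat_lit 1140) (nat_lit 0) (XT.lf (nat_lit 0) (nat_lit 478350695) (nat_lit 684) (nat_lit 1104700419) (nat_lit 76) (nat_lit 9249870520) (nat_lit 289) (nat_lit 5) (nat_lit 298) (nat_lit 5) (nat_lit 290) (nat_lit 5) (nat_lit 391) (nat_lit 347) (nat_lit 282)) (XT.nd (nat_lit 78) (nat_lit 608) (nat_lit 0) (XT.lf (nat_lit 0) (nat_lit 4732683649) (nat_lit 608) (nat_lit 1372511346) (nat_lit 76) (nat_lit 4898284331) (nat_lit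 282) (nat_lit 5) (nat_lit 290) (nat_lit 5) (nat_lit 283) (nat_lit 5) (nat_lit 392) (nat_lit 347) (nat_lit 281)) (XT.lf (nat_lit 0) (nat_lit 9145549247) (nat_lit 684) (nat_lit 1611295699) (nat_lit 76) (nat_lit 421690751) (nat_lit 274) (nat_lit 5) (nat_lit 283) (nat_lit 5) (nat_lit 275) (nat_lit 5) (nat_lit 393) (nat_lit 347) (nat_lit 280))))) (XT.nd (nat_lit 156) (nat_lit 1596) (nat_lit 0) (XT.nd (nat_lit 78) (nat_lit 532) (nat_lit 0) (XT.lf (nat_lit 0) (nat_lit 2362540743) (nat_lit 608) (nat_lit 1863435179) (nat_lit 76) (nat_lit 7131341670) (nat_lit 266) (nat_lit 5) (nat_lit 274) (nat_lit 5) (nat_lit 267) (nat_lit 5) (nat_lit 394) (nat_lit 347) (nat_lit 279)) (XT.lf (nat_lit 0) (nat_lit 6901078847) (nat_lit 608) (nat_lit 2103037012) (nat_lit 76) (nat_lit 2536303015) (nat_lit 259) (nat_lit 5) (nat_lit 267) (nat_lit 5) (nat_lit 260) (nat_lit 5) (nat_lit 395) (nat_lit 347) (nat_lit 278))) (XT.nd (nat_lit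 78) (nat_lit 1064) (nat_lit 0) (XT.lf (nat_lit 0) (nat_lit 9400206733) (nat_lit 532) (nat_lit 2228026674) (nat_lit 608) (nat_lit 99730582) (nat_lit 252) (nat_lit 5) (nat_lit 259) (nat_lit 5) (nat_lit 260) (nat_lit 5) (nat_lit 396) (nat_lit 347) (nat_lit 277)) (XT.nd (nat_lit 78) (nat_lit 456) (nat_lit 0) (XT.lf (nat_lit 0) (nat_lit 4573864282) (nat_lit 608) (nat_lit 2569951481) (nat_lit 76) (nat_lit 4775569215) (nat_lit 244) (nat_lit 5) (nat_lit 252) (nat_lit 5) (nat_lit 245) (nat_lit 5) (nat_lit 397) (nat_lit 347) (nat_lit 276)) (XT.lf (nat_lit 0) (nat_lit 9331316358) (nat_lit 456) (nat_lit 98367484) (nat_lit 532) (nat_lit 2685984136) (nat_lit 238) (nat_lit 5) (nat_lit 244) (nat_lit 5) (nat_lit 245) (nat_lit 5) (nat_lit 398) (nat_lit 347) (nat_lit 275)))))) (XT.nd (nat_lit 390) (nat_lit 2128) (nat_lit 0) (XT.nd (nat_lit 156) (nat_lit 1444) (nat_lit 0) (XT.nd (nat_lit 78) (nat_lit 456) (nat_lit 0)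 (XT.lf (nat_lit 0) (nat_lit 2163458124) (nat_lit 608) (nat_lit 3015312516) (nat_lit 76) (nat_lit 7137237674) (nat_lit 230) (nat_lit 5) (nat_lit 238) (nat_lit 5) (nat_lit 231) (nat_lit 5) (nat_lit 399) (nat_lit 347) (nat_lit 274)) (XT.lf (nat_lit 0) (nat_lit 7169532349) (nat_lit 532) (nat_lit 3234791070) (nat_lit 76) (nat_lit 2116727540) (nat_lit 224) (nat_lit 5) (nat_lit 231) (nat_lit 5) (nat_lit 225) (nat_lit 5) (nat_lit 400) (nat_lit 347) (nat_lit 273))) (XT.nd (nat_lit 78) (nat_lit 988) (nat_lit 0) (XT.lf (nat_lit 0) (nat_lit 9286460408) (nat_lit 456) (nat_lit 3109087545) (nat_lit 532) (nat_lit 335301749) (nat_lit 218) (nat_lit 5) (nat_lit 224) (nat_lit 5) (nat_lit 225) (nat_lit 5) (nat_lit 401) (nat_lit 347) (nat_lit 272)) (XT.nd (nat_lit 78) (nat_lit 456) (nat_lit 0) (XT.lf (nat_lit 0) (nat_lit 4834606554) (nat_lit 532) (nat_lit 3669531146) (nat_lit 76) (nat_lit 4440845939) (nat_lit 211) (nat_lit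 5) (nat_lit 218) (nat_lit 5) (nat_lit 212) (nat_lit 5) (nat_lit 402) (nat_lit 347) (nat_lit 271)) (XT.lf (nat_lit 0) (nat_lit 9291566193) (nat_lit 456) (nat_lit 923756093) (nat_lit 532) (nat_lit 2948969670) (nat_lit 205) (nat_lit 5) (nat_lit 211) (nat_lit 5) (nat_lit 212) (nat_lit 5) (nat_lit 403) (nat_lit 347) (nat_lit 270))))) (XT.nd (nat_lit 156) (nat_lit 1216) (nat_lit 0) (XT.nd (nat_lit 78) (nat_lit 456) (nat_lit 0) (XT.lf (nat_lit 0) (nat_lit 2423359144) (nat_lit 456) (nat_lit 4090785419) (nat_lit 76) (nat_lit 6873985031) (nat_lit 199) (nat_lit 5) (nat_lit 205) (nat_lit 5) (nat_lit 200) (nat_lit 5) (nat_lit 404) (nat_lit 347) (nat_lit 269)) (XT.lf (nat_lit 0) (nat_lit 7975944940) (nat_lit 532) (nat_lit 4297716701) (nat_lit 76) (nat_lit 1343447826) (nat_lit 193) (nat_lit 5) (nat_lit 200) (nat_lit 5) (nat_lit 194) (nat_lit 5) (nat_lit 405) (nat_lit 347) (nat_lit 268))) (XT.nd (nat_lit 78) (nat_lit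 836) (nat_lit 0) (XT.lf (nat_lit 0) (nat_lit 9349464142) (nat_lit 380) (nat_lit 4435434435) (nat_lit 456) (nat_lit 66264353) (nat_lit 188) (nat_lit 5) (nat_lit 193) (nat_lit 5) (nat_lit 194) (nat_lit 5) (nat_lit 406) (nat_lit 347) (nat_lit 267)) (XT.nd (nat_lit 78) (nat_lit 380) (nat_lit 0) (XT.lf (nat_lit 0) (nat_lit 5674237671) (nat_lit 456) (nat_lit 4719821312) (nat_lit 76) (nat_lit 3695986081) (nat_lit 182) (nat_lit 5) (nat_lit 188) (nat_lit 5) (nat_lit 183) (nat_lit 5) (nat_lit 407) (nat_lit 347) (nat_lit 266)) (XT.lf (nat_lit 0) (nat_lit 9413583186) (nat_lit 380) (nat_lit 2252791846) (nat_lit 456) (nat_lit 2668103459) (nat_lit 177) (nat_lit 5) (nat_lit 182) (nat_lit 5) (nat_lit 183) (nat_lit 5) (nat_lit 408) (nat_lit 347) (nat_lit 265))))))))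
noncomputable def xc67 : XT := (XT.nd (nat_lit 48438) (nat_lit 0) (nat_lit 35036) (XT.nd (nat_lit 702) (nat_lit 2736) (nat_lit 0) (XT.nd (nat_lit 312) (nat_lit 1748) (nat_lit 0) (XT.nd (nat_lit 156) (nat_lit 760) (nat_lit 0) (XT.nd (nat_lit 78) (nat_lit 304) (nat_lit 0) (XT.lf (nat_lit 0) (nat_lit 3302968959) (nat_lit 456) (nat_lit 5135580603) (nat_lit 76) (nat_lit 6145401304) (nat_lit 171) (nat_lit 5) (nat_lit 177) (nat_lit 5) (nat_lit 172) (nat_lit 5) (nat_lit 409) (nat_lit 347) (nat_lit 264)) (XT.lf (nat_lit 0) (nat_lit 9487561366) (nat_lit 380) (nat_lit 5335034252) (nat_lit 76) (nat_lit 16546334) (nat_lit 167) (nat_lit 5) (nat_lit 172) (nat_lit 5) (nat_lit 168) (nat_lit 5) (nat_lit 410) (nat_lit 347) (nat_lit 263))) (XT.nd (nat_lit 78) (nat_lit 304) (nat_lit 0) (XT.lf (nat_lit 0) (nat_lit 860662752) (nat_lit 456) (nat_lit 5547432454) (nat_lit 76) (nat_lit 8691498012) (nat_lit 161) (nat_lit 5)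 (nat_lit 167) (nat_lit 5) (nat_lit 162) (nat_lit 5) (nat_lit 411) (nat_lit 347) (nat_lit 262)) (XT.lf (nat_lit 0) (nat_lit 7262322783) (nat_lit 380) (nat_lit 5761593819) (nat_lit 76) (nat_lit 2341718812) (nat_lit 157) (nat_lit 5) (nat_lit 162) (nat_lit 5) (nat_lit 158) (nat_lit 5) (nat_lit 412) (nat_lit 347) (nat_lit 261)))) (XT.nd (nat_lit 156) (nat_lit 988) (nat_lit 0) (XT.nd (nat_lit 78) (nat_lit 380) (nat_lit 0) (XT.lf (nat_lit 0) (nat_lit 9668945490) (nat_lit 380) (nat_lit 4292231090) (nat_lit 456) (nat_lit 1676379417) (nat_lit 152) (nat_lit 5) (nat_lit 157) (nat_lit 5) (nat_lit 158) (nat_lit 5) (nat_lit 413) (nat_lit 347) (nat_lit 260)) (XT.lf (nat_lit 0) (nat_lit 4974599236) (nat_lit 380) (nat_lit 6188262872) (nat_lit 76) (nat_lit 4752208767) (nat_lit 147) (nat_lit 5) (nat_lit 152) (nat_lit 5) (nat_lit 148) (nat_lit 5) (nat_lit 414) (nat_lit 347) (nat_lit 259))) (XT.nd (nat_lit 78) (nat_lit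 684) (nat_lit 0) (XT.lf (nat_lit 0) (nat_lit 9802114725) (nat_lit 304) (nat_lit 2096110990) (nat_lit 380) (nat_lit 4300545989) (nat_lit 143) (nat_lit 5) (nat_lit 147) (nat_lit 5) (nat_lit 148) (nat_lit 5) (nat_lit 415) (nat_lit 347) (nat_lit 258)) (XT.nd (nat_lit 78) (nat_lit 304) (nat_lit 0) (XT.lf (nat_lit 0) (nat_lit 2622745603) (nat_lit 380) (nat_lit 6617287519) (nat_lit 76) (nat_lit 7248271553) (nat_lit 138) (nat_lit 5) (nat_lit 143) (nat_lit 5) (nat_lit 139) (nat_lit 5) (nat_lit 416) (nat_lit 347) (nat_lit 257)) (XT.lf (nat_lit 0) (nat_lit 9782761570) (nat_lit 380) (nat_lit 6829263642) (nat_lit 76) (nat_lit 172180826) (nat_lit 134) (nat_lit 5) (nat_lit 139) (nat_lit 5) (nat_lit 135) (nat_lit 5) (nat_lit 417) (nat_lit 347) (nat_lit 256)))))) (XT.nd (nat_lit 390) (nat_lit 1216) (nat_lit 0) (XT.nd (nat_lit 156) (nat_lit 836) (nat_lit 0) (XT.nd (nat_lit 78) (nat_lit 304) (nat_lit 0) (XT.lf (nat_lit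 0) (nat_lit 204909045) (nat_lit 380) (nat_lit 7050855130) (nat_lit 76) (nat_lit 9830467060) (nat_lit 129) (nat_lit 5) (nat_lit 134) (nat_lit 5) (nat_lit 130) (nat_lit 5) (nat_lit 418) (nat_lit 347) (nat_lit 255)) (XT.lf (nat_lit 0) (nat_lit 7626231212) (nat_lit 380) (nat_lit 7281559599) (nat_lit 76) (nat_lit 2486722781) (nat_lit 125) (nat_lit 5) (nat_lit 130) (nat_lit 5) (nat_lit 126) (nat_lit 5) (nat_lit 419) (nat_lit 347) (nat_lit 254))) (XT.nd (nat_lit 78) (nat_lit 608) (nat_lit 0) (XT.lf (nat_lit 0) (nat_lit 10203373412) (nat_lit 228) (nat_lit 5194830091) (nat_lit 304) (nat_lit 2311280706) (nat_lit 122) (nat_lit 5) (nat_lit 125) (nat_lit 5) (nat_lit 126) (nat_lit 5) (nat_lit 420) (nat_lit 347) (nat_lit 253)) (XT.nd (nat_lit 78) (nat_lit 228) (nat_lit 0) (XT.lf (nat_lit 0) (nat_lit 5413328490) (nat_lit 380) (nat_lit 7742062347) (nat_lit 76) (nat_lit 4875529499) (nat_lit 117) (nat_lit 5) (nat_lit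 122) (nat_lit 5) (nat_lit 118) (nat_lit 5) (nat_lit 421) (nat_lit 347) (nat_lit 252)) (XT.lf (nat_lit 0) (nat_lit 10387343589) (nat_lit 228) (nat_lit 3070530631) (nat_lit 304) (nat_lit 4901427787) (nat_lit 114) (nat_lit 5) (nat_lit 117) (nat_lit 5) (nat_lit 118) (nat_lit 5) (nat_lit 422) (nat_lit 347) (nat_lit 251))))) (XT.nd (nat_lit 156) (nat_lit 608) (nat_lit 0) (XT.nd (nat_lit 78) (nat_lit 228) (nat_lit 0) (XT.lf (nat_lit 0) (nat_lit 3142175383) (nat_lit 380) (nat_lit 8212865804) (nat_lit 76) (nat_lit 7339380259) (nat_lit 109) (nat_lit 5) (nat_lit 114) (nat_lit 5) (nat_lit 110) (nat_lit 5) (nat_lit 423) (nat_lit 347) (nat_lit 250)) (XT.lf (nat_lit 0) (nat_lit 10587592032) (nat_lit 228) (nat_lit 883833881) (nat_lit 304) (nat_lit 7565301979) (nat_lit 106) (nat_lit 5) (nat_lit 109) (nat_lit 5) (nat_lit 110) (nat_lit 5) (nat_lit 424) (nat_lit 347) (nat_lit 249))) (XT.nd (nat_lit 78) (nat_lit 228)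 (nat_lit 0) (XT.lf (nat_lit 0) (nat_lit 810714597) (nat_lit 380) (nat_lit 8696039866) (nat_lit 76) (nat_lit 9879300471) (nat_lit 101) (nat_lit 5) (nat_lit 106) (nat_lit 5) (nat_lit 102) (nat_lit 5) (nat_lit 425) (nat_lit 347) (nat_lit 248)) (XT.nd (nat_lit 47034) (nat_lit 0) (nat_lit 49476) (XT.lf (nat_lit 0) (nat_lit 9446091454) (nat_lit 304) (nat_lit 8948577496) (nat_lit 76) (nat_lit 1347975452) (nat_lit 98) (nat_lit 5) (nat_lit 102) (nat_lit 5) (nat_lit 99) (nat_lit 5) (nat_lit 426) (nat_lit 347) (nat_lit 247)) (XT.lf (nat_lit 0) (nat_lit 2907071698) (nat_lit 836) (nat_lit 224605142) (nat_lit 836) (nat_lit 224605142) (nat_lit 749) (nat_lit 3) (nat_lit 760) (nat_lit 3) (nat_lit 760) (nat_lit 5) (nat_lit 348) (nat_lit 348) (nat_lit 324))))))) (XT.nd (nat_lit 780) (nat_lit 9728) (nat_lit 0) (XT.nd (nat_lit 390) (nat_lit 2052) (nat_lit 0) (XT.nd (nat_lit 156) (nat_lit 1824) (nat_lit 0) (XT.nd (nat_lit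 78) (nat_lit 0) (nat_lit 0) (XT.lf (nat_lit 0) (nat_lit 2390096082) (nat_lit 836) (nat_lit 2128290688) (nat_lit 912) (nat_lit 2229183403) (nat_lit 738) (nat_lit 5) (nat_lit 749) (nat_lit 3) (nat_lit 750) (nat_lit 5) (nat_lit 349) (nat_lit 348) (nat_lit 323)) (XT.lf (nat_lit 76) (nat_lit 3029098523) (nat_lit 0) (nat_lit 2631119016) (nat_lit 912) (nat_lit 1125387150) (nat_lit 739) (nat_lit 5) (nat_lit 738) (nat_lit 5) (nat_lit 750) (nat_lit 5) (nat_lit 350) (nat_lit 348) (nat_lit 322))) (XT.nd (nat_lit 78) (nat_lit 912) (nat_lit 0) (XT.lf (nat_lit 76) (nat_lit 1483316884) (nat_lit 0) (nat_lit 590413196) (nat_lit 988) (nat_lit 4752784625) (nat_lit 727) (nat_lit 5) (nat_lit 726) (nat_lit 5) (nat_lit 739) (nat_lit 5) (nat_lit 351) (nat_lit 348) (nat_lit 321)) (XT.nd (nat_lit 78) (nat_lit 988) (nat_lit 0) (XT.lf (nat_lit 0) (nat_lit 5267451446) (nat_lit 912) (nat_lit 23183875) (nat_lit 988) (nat_lit 1579589520)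 (nat_lit 727) (nat_lit 5) (nat_lit 739) (nat_lit 5) (nat_lit 740) (nat_lit 5) (nat_lit 352) (nat_lit 348) (nat_lit 320)) (XT.lf (nat_lit 0) (nat_lit 1541000113) (nat_lit 988) (nat_lit 1470178242) (nat_lit 1064) (nat_lit 3905438870) (nat_lit 714) (nat_lit 5) (nat_lit 727) (nat_lit 5) (nat_lit 728) (nat_lit 5) (nat_lit 353) (nat_lit 348) (nat_lit 319))))) (XT.nd (nat_lit 156) (nat_lit 1064) (nat_lit 0) (XT.nd (nat_lit 78) (nat_lit 988) (nat_lit 0) (XT.lf (nat_lit 76) (nat_lit 4091291514) (nat_lit 0) (nat_lit 577049997) (nat_lit 1064) (nat_lit 2297627379) (nat_lit 715) (nat_lit 5) (nat_lit 714) (nat_lit 5) (nat_lit 728) (nat_lit 5) (nat_lit 354) (nat_lit 348) (nat_lit 318)) (XT.lf (nat_lit 0) (nat_lit 788800329) (nat_lit 1064) (nat_lit 4245644811) (nat_lit 1140) (nat_lit 1983691763) (nat_lit 701) (nat_lit 5) (nat_lit 715) (nat_lit 5) (nat_lit 716) (nat_lit 5) (nat_lit 355) (nat_lit 348) (nat_lit 317)))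 (XT.nd (nat_lit 78) (nat_lit 1064) (nat_lit 0) (XT.lf (nat_lit 76) (nat_lit 1487580390) (nat_lit 0) (nat_lit 2371864539) (nat_lit 1140) (nat_lit 3213664486) (nat_lit 702) (nat_lit 5) (nat_lit 701) (nat_lit 5) (nat_lit 716) (nat_lit 5) (nat_lit 356) (nat_lit 348) (nat_lit 316)) (XT.nd (nat_lit 78) (nat_lit 1140) (nat_lit 0) (XT.lf (nat_lit 76) (nat_lit 251663013) (nat_lit 0) (nat_lit 6696110603) (nat_lit 1140) (nat_lit 183446191) (nat_lit 703) (nat_lit 5) (nat_lit 702) (nat_lit 5) (nat_lit 717) (nat_lit 5) (nat_lit 357) (nat_lit 348) (nat_lit 315)) (XT.lf (nat_lit 0) (nat_lit 2847659620) (nat_lit 1140) (nat_lit 956131177) (nat_lit 1216) (nat_lit 3387931064) (nat_lit 687) (nat_lit 5) (nat_lit 702) (nat_lit 5) (nat_lit 703) (nat_lit 5) (nat_lit 358) (nat_lit 348) (nat_lit 314)))))) (XT.nd (nat_lit 390) (nat_lit 6080) (nat_lit 0) (XT.nd (nat_lit 156) (nat_lit 2508) (nat_lit 0) (XT.nd (nat_lit 78) (nat_lit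 1140) (nat_lit 0) (XT.lf (nat_lit 76) (nat_lit 5142225868) (nat_lit 0) (nat_lit 756000280) (nat_lit 1216) (nat_lit 1357168179) (nat_lit 688) (nat_lit 5) (nat_lit 687) (nat_lit 5) (nat_lit 703) (nat_lit 5) (nat_lit 359) (nat_lit 348) (nat_lit 313)) (XT.lf (nat_lit 0) (nat_lit 1645322438) (nat_lit 1216) (nat_lit 3249078256) (nat_lit 1292) (nat_lit 2427382230) (nat_lit 672) (nat_lit 5) (nat_lit 688) (nat_lit 5) (nat_lit 689) (nat_lit 5) (nat_lit 360) (nat_lit 348) (nat_lit 312))) (XT.nd (nat_lit 78) (nat_lit 2508) (nat_lit 0) (XT.lf (nat_lit 76) (nat_lit 3038593639) (nat_lit 0) (nat_lit 1622337866) (nat_lit 1292) (nat_lit 2730222610) (nat_lit 673) (nat_lit 5) (nat_lit 672) (nat_lit 5) (nat_lit 689) (nat_lit 5) (nat_lit 361) (nat_lit 348) (nat_lit 311)) (XT.nd (nat_lit 78) (nat_lit 1292) (nat_lit 0) (XT.lf (nat_lit 0) (nat_lit 251603667) (nat_lit 1292) (nat_lit 5423924092) (nat_lit 76) (nat_lit 1788015285)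 (nat_lit 656) (nat_lit 5) (nat_lit 673) (nat_lit 5) (nat_lit 657) (nat_lit 5) (nat_lit 362) (nat_lit 348) (nat_lit 310)) (XT.lf (nat_lit 0) (nat_lit 1058951600) (nat_lit 1292) (nat_lit 2180920241) (nat_lit 1368) (nat_lit 4298789262) (nat_lit 639) (nat_lit 5) (nat_lit 656) (nat_lit 5) (nat_lit 657) (nat_lit 5) (nat_lit 363) (nat_lit 348) (nat_lit 309))))) (XT.nd (nat_lit 156) (nat_lit 4636) (nat_lit 0) (XT.nd (nat_lit 78) (nat_lit 76) (nat_lit 0) (XT.lf (nat_lit 0) (nat_lit 115248279) (nat_lit 1368) (nat_lit 6158356919) (nat_lit 1444) (nat_lit 1343311162) (nat_lit 621) (nat_lit 5) (nat_lit 639) (nat_lit 5) (nat_lit 640) (nat_lit 5) (nat_lit 364) (nat_lit 348) (nat_lit 308)) (XT.lf (nat_lit 0) (nat_lit 1647775088) (nat_lit 1444) (nat_lit 797899412) (nat_lit 76) (nat_lit 5252238906) (nat_lit 620) (nat_lit 5) (nat_lit 639) (nat_lit 5) (nat_lit 621) (nat_lit 5) (nat_lit 365) (nat_lit 348) (nat_lit 307)))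 (XT.nd (nat_lit 78) (nat_lit 3192) (nat_lit 0) (XT.lf (nat_lit 0) (nat_lit 4672561243) (nat_lit 1520) (nat_lit 1683369682) (nat_lit 76) (nat_lit 1425987500) (nat_lit 601) (nat_lit 5) (nat_lit 621) (nat_lit 5) (nat_lit 602) (nat_lit 5) (nat_lit 366) (nat_lit 348) (nat_lit 306)) (XT.nd (nat_lit 78) (nat_lit 1672) (nat_lit 0) (XT.lf (nat_lit 0) (nat_lit 5327298722) (nat_lit 1520) (nat_lit 2432441284) (nat_lit 1596) (nat_lit 109270608) (nat_lit 581) (nat_lit 5) (nat_lit 601) (nat_lit 5) (nat_lit 602) (nat_lit 5) (nat_lit 367) (nat_lit 348) (nat_lit 305)) (XT.lf (nat_lit 0) (nat_lit 2910622625) (nat_lit 1672) (nat_lit 3387194630) (nat_lit 76) (nat_lit 1661133283) (nat_lit 559) (nat_lit 5) (nat_lit 581) (nat_lit 5) (nat_lit 560) (nat_lit 5) (nat_lit 368) (nat_lit 348) (nat_lit 304))))))))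
noncomputable def xc68 : XT := (XT.nd (nat_lit 1482) (nat_lit 10336) (nat_lit 0) (XT.nd (nat_lit 702) (nat_lit 7752) (nat_lit 0) (XT.nd (nat_lit 312) (nat_lit 3724) (nat_lit 0) (XT.nd (nat_lit 156) (nat_lit 2964) (nat_lit 0) (XT.nd (nat_lit 78) (nat_lit 1824) (nat_lit 0) (XT.lf (nat_lit 0) (nat_lit 3844309506) (nat_lit 1672) (nat_lit 2152673885) (nat_lit 1748) (nat_lit 2055043719) (nat_lit 537) (nat_lit 5) (nat_lit 559) (nat_lit 5) (nat_lit 560) (nat_lit 5) (nat_lit 369) (nat_lit 348) (nat_lit 303)) (XT.lf (nat_lit 0) (nat_lit 992448171) (nat_lit 1824) (nat_lit 5007459577) (nat_lit 76) (nat_lit 2148296894) (nat_lit 513) (nat_lit 5) (nat_lit 537) (nat_lit 5) (nat_lit 514) (nat_lit 5) (nat_lit 370) (nat_lit 348) (nat_lit 302))) (XT.nd (nat_lit 78) (nat_lit 1140) (nat_lit 0) (XT.lf (nat_lit 0) (nat_lit 2452865320) (nat_lit 1824) (nat_lit 1631853629) (nat_lit 1900) (nat_lit 4162651393) (nat_lit 489)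 (nat_lit 5) (nat_lit 513) (nat_lit 5) (nat_lit 514) (nat_lit 5) (nat_lit 371) (nat_lit 348) (nat_lit 301)) (XT.lf (nat_lit 0) (nat_lit 1789402598) (nat_lit 1140) (nat_lit 5468687299) (nat_lit 1216) (nat_lit 1091654473) (nat_lit 474) (nat_lit 5) (nat_lit 489) (nat_lit 5) (nat_lit 490) (nat_lit 5) (nat_lit 372) (nat_lit 348) (nat_lit 300)))) (XT.nd (nat_lit 156) (nat_lit 1824) (nat_lit 0) (XT.nd (nat_lit 78) (nat_lit 912) (nat_lit 0) (XT.lf (nat_lit 0) (nat_lit 1144363028) (nat_lit 912) (nat_lit 883014852) (nat_lit 988) (nat_lit 6427881289) (nat_lit 461) (nat_lit 5) (nat_lit 473) (nat_lit 5) (nat_lit 474) (nat_lit 5) (nat_lit 373) (nat_lit 348) (nat_lit 299)) (XT.lf (nat_lit 0) (nat_lit 509029871) (nat_lit 912) (nat_lit 4716133332) (nat_lit 988) (nat_lit 3338631624) (nat_lit 449) (nat_lit 5) (nat_lit 461) (nat_lit 5) (nat_lit 462) (nat_lit 5) (nat_lit 374) (nat_lit 348) (nat_lit 298))) (XT.nd (nat_lit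 78) (nat_lit 1824) (nat_lit 0) (XT.lf (nat_lit 0) (nat_lit 8503442324) (nat_lit 988) (nat_lit 89714167) (nat_lit 76) (nat_lit 82738859) (nat_lit 449) (nat_lit 5) (nat_lit 462) (nat_lit 5) (nat_lit 450) (nat_lit 5) (nat_lit 375) (nat_lit 348) (nat_lit 297)) (XT.nd (nat_lit 78) (nat_lit 912) (nat_lit 0) (XT.lf (nat_lit 0) (nat_lit 3063244824) (nat_lit 912) (nat_lit 692211943) (nat_lit 76) (nat_lit 5035200186) (nat_lit 437) (nat_lit 5) (nat_lit 449) (nat_lit 5) (nat_lit 438) (nat_lit 5) (nat_lit 376) (nat_lit 348) (nat_lit 296)) (XT.lf (nat_lit 0) (nat_lit 6384100465) (nat_lit 988) (nat_lit 1263639009) (nat_lit 76) (nat_lit 1261290535) (nat_lit 425) (nat_lit 5) (nat_lit 438) (nat_lit 5) (nat_lit 426) (nat_lit 5) (nat_lit 377) (nat_lit 348) (nat_lit 295)))))) (XT.nd (nat_lit 390) (nat_lit 3648) (nat_lit 0) (XT.nd (nat_lit 156) (nat_lit 2356) (nat_lit 0) (XT.nd (nat_lit 78) (nat_lit 836) (nat_lit 0) (XT.lf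 (nat_lit 0) (nat_lit 773539243) (nat_lit 912) (nat_lit 1824859090) (nat_lit 76) (nat_lit 6432254305) (nat_lit 413) (nat_lit 5) (nat_lit 425) (nat_lit 5) (nat_lit 414) (nat_lit 5) (nat_lit 378) (nat_lit 348) (nat_lit 294)) (XT.lf (nat_lit 0) (nat_lit 4141307164) (nat_lit 912) (nat_lit 2380082955) (nat_lit 76) (nat_lit 2634107053) (nat_lit 402) (nat_lit 5) (nat_lit 414) (nat_lit 5) (nat_lit 403) (nat_lit 5) (nat_lit 379) (nat_lit 348) (nat_lit 293))) (XT.nd (nat_lit 78) (nat_lit 1596) (nat_lit 0) (XT.lf (nat_lit 0) (nat_lit 6370900197) (nat_lit 760) (nat_lit 1246229394) (nat_lit 836) (nat_lit 1666817021) (nat_lit 392) (nat_lit 5) (nat_lit 402) (nat_lit 5) (nat_lit 403) (nat_lit 5) (nat_lit 380) (nat_lit 348) (nat_lit 292)) (XT.nd (nat_lit 78) (nat_lit 760) (nat_lit 0) (XT.lf (nat_lit 0) (nat_lit 1777223867) (nat_lit 836) (nat_lit 3445434232) (nat_lit 76) (nat_lit 4192968080) (nat_lit 381) (nat_lit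 5) (nat_lit 392) (nat_lit 5) (nat_lit 382) (nat_lit 5) (nat_lit 381) (nat_lit 348) (nat_lit 291)) (XT.lf (nat_lit 0) (nat_lit 5306646351) (nat_lit 836) (nat_lit 3959963668) (nat_lit 76) (nat_lit 284331642) (nat_lit 371) (nat_lit 5) (nat_lit 382) (nat_lit 5) (nat_lit 372) (nat_lit 5) (nat_lit 382) (nat_lit 348) (nat_lit 290))))) (XT.nd (nat_lit 156) (nat_lit 2128) (nat_lit 0) (XT.nd (nat_lit 78) (nat_lit 760) (nat_lit 0) (XT.lf (nat_lit 0) (nat_lit 5219348396) (nat_lit 760) (nat_lit 3754408956) (nat_lit 836) (nat_lit 715923141) (nat_lit 361) (nat_lit 5) (nat_lit 371) (nat_lit 5) (nat_lit 372) (nat_lit 5) (nat_lit 383) (nat_lit 348) (nat_lit 289)) (XT.lf (nat_lit 0) (nat_lit 2892017421) (nat_lit 760) (nat_lit 4973669814) (nat_lit 76) (nat_lit 1966275478) (nat_lit 351) (nat_lit 5) (nat_lit 361) (nat_lit 5) (nat_lit 352) (nat_lit 5) (nat_lit 384) (nat_lit 348) (nat_lit 288))) (XT.nd (nat_lit 78) (nat_lit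 1444) (nat_lit 0) (XT.lf (nat_lit 0) (nat_lit 4509658423) (nat_lit 684) (nat_lit 2115387783) (nat_lit 760) (nat_lit 3352841016) (nat_lit 342) (nat_lit 5) (nat_lit 351) (nat_lit 5) (nat_lit 352) (nat_lit 5) (nat_lit 385) (nat_lit 348) (nat_lit 287)) (XT.nd (nat_lit 78) (nat_lit 684) (nat_lit 0) (XT.lf (nat_lit 0) (nat_lit 366182768) (nat_lit 760) (nat_lit 5951509577) (nat_lit 76) (nat_lit 3809876925) (nat_lit 332) (nat_lit 5) (nat_lit 342) (nat_lit 5) (nat_lit 333) (nat_lit 5) (nat_lit 386) (nat_lit 348) (nat_lit 286)) (XT.lf (nat_lit 0) (nat_lit 3848165947) (nat_lit 684) (nat_lit 323426135) (nat_lit 760) (nat_lit 6109299115) (nat_lit 323) (nat_lit 5) (nat_lit 332) (nat_lit 5) (nat_lit 333) (nat_lit 5) (nat_lit 387) (nat_lit 348) (nat_lit 285))))))) (XT.nd (nat_lit 780) (nat_lit 4332) (nat_lit 0) (XT.nd (nat_lit 390) (nat_lit 2888) (nat_lit 0) (XT.nd (nat_lit 156) (nat_lit 1824) (nat_lit 0) (XT.nd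 (nat_lit 78) (nat_lit 684) (nat_lit 0) (XT.lf (nat_lit 0) (nat_lit 3524344073) (nat_lit 608) (nat_lit 4613077453) (nat_lit 684) (nat_lit 2300466100) (nat_lit 315) (nat_lit 5) (nat_lit 323) (nat_lit 5) (nat_lit 324) (nat_lit 5) (nat_lit 388) (nat_lit 348) (nat_lit 284)) (XT.lf (nat_lit 0) (nat_lit 1624462856) (nat_lit 684) (nat_lit 7379310826) (nat_lit 76) (nat_lit 1595147321) (nat_lit 306) (nat_lit 5) (nat_lit 315) (nat_lit 5) (nat_lit 307) (nat_lit 5) (nat_lit 389) (nat_lit 348) (nat_lit 283))) (XT.nd (nat_lit 78) (nat_lit 1216) (nat_lit 0) (XT.lf (nat_lit 0) (nat_lit 2910793333) (nat_lit 608) (nat_lit 2768834678) (nat_lit 684) (nat_lit 5083978396) (nat_lit 298) (nat_lit 5) (nat_lit 306) (nat_lit 5) (nat_lit 307) (nat_lit 5) (nat_lit 390) (nat_lit 348) (nat_lit 282)) (XT.nd (nat_lit 78) (nat_lit 608) (nat_lit 0) (XT.lf (nat_lit 0) (nat_lit 2620476430) (nat_lit 608) (nat_lit 7274716530) (nat_lit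 684) (nat_lit 1037264516) (nat_lit 290) (nat_lit 5) (nat_lit 298) (nat_lit 5) (nat_lit 299) (nat_lit 5) (nat_lit 391) (nat_lit 348) (nat_lit 281)) (XT.lf (nat_lit 0) (nat_lit 2333758754) (nat_lit 532) (nat_lit 791690154) (nat_lit 608) (nat_lit 7979805421) (nat_lit 282) (nat_lit 5) (nat_lit 289) (nat_lit 5) (nat_lit 290) (nat_lit 5) (nat_lit 392) (nat_lit 348) (nat_lit 280))))) (XT.nd (nat_lit 156) (nat_lit 1672) (nat_lit 0) (XT.nd (nat_lit 78) (nat_lit 608) (nat_lit 0) (XT.lf (nat_lit 0) (nat_lit 2044220928) (nat_lit 608) (nat_lit 5412385041) (nat_lit 684) (nat_lit 3825338902) (nat_lit 274) (nat_lit 5) (nat_lit 282) (nat_lit 5) (nat_lit 283) (nat_lit 5) (nat_lit 393) (nat_lit 348) (nat_lit 279)) (XT.lf (nat_lit 0) (nat_lit 483194463) (nat_lit 608) (nat_lit 9682484354) (nat_lit 76) (nat_lit 1297490708) (nat_lit 266) (nat_lit 5) (nat_lit 274) (nat_lit 5) (nat_lit 267) (nat_lit 5) (nat_lit 394) (nat_lit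 348) (nat_lit 278))) (XT.nd (nat_lit 78) (nat_lit 1140) (nat_lit 0) (XT.lf (nat_lit 0) (nat_lit 1498025373) (nat_lit 532) (nat_lit 3431232904) (nat_lit 608) (nat_lit 6718862016) (nat_lit 259) (nat_lit 5) (nat_lit 266) (nat_lit 5) (nat_lit 267) (nat_lit 5) (nat_lit 395) (nat_lit 348) (nat_lit 277)) (XT.nd (nat_lit 78) (nat_lit 608) (nat_lit 0) (XT.lf (nat_lit 0) (nat_lit 1235486392) (nat_lit 532) (nat_lit 8321942820) (nat_lit 608) (nat_lit 2280215868) (nat_lit 252) (nat_lit 5) (nat_lit 259) (nat_lit 5) (nat_lit 260) (nat_lit 5) (nat_lit 396) (nat_lit 348) (nat_lit 276)) (XT.lf (nat_lit 0) (nat_lit 978391830) (nat_lit 532) (nat_lit 1334239504) (nat_lit 608) (nat_lit 9718904782) (nat_lit 244) (nat_lit 5) (nat_lit 251) (nat_lit 5) (nat_lit 252) (nat_lit 5) (nat_lit 397) (nat_lit 348) (nat_lit 275)))))) (XT.nd (nat_lit 390) (nat_lit 2280) (nat_lit 0) (XT.nd (nat_lit 156) (nat_lit 1064) (nat_lit 0) (XT.nd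 (nat_lit 78) (nat_lit 532) (nat_lit 0) (XT.lf (nat_lit 0) (nat_lit 711227699) (nat_lit 456) (nat_lit 6369636996) (nat_lit 532) (nat_lit 5148706144) (nat_lit 238) (nat_lit 5) (nat_lit 244) (nat_lit 5) (nat_lit 245) (nat_lit 5) (nat_lit 398) (nat_lit 348) (nat_lit 274)) (XT.lf (nat_lit 0) (nat_lit 473614704) (nat_lit 532) (nat_lit 11565389051) (nat_lit 608) (nat_lit 393605674) (nat_lit 231) (nat_lit 5) (nat_lit 238) (nat_lit 5) (nat_lit 239) (nat_lit 5) (nat_lit 399) (nat_lit 348) (nat_lit 273))) (XT.nd (nat_lit 78) (nat_lit 532) (nat_lit 0) (XT.lf (nat_lit 0) (nat_lit 207951412) (nat_lit 456) (nat_lit 4314466089) (nat_lit 532) (nat_lit 8117189950) (nat_lit 224) (nat_lit 5) (nat_lit 230) (nat_lit 5) (nat_lit 231) (nat_lit 5) (nat_lit 400) (nat_lit 348) (nat_lit 272)) (XT.nd (nat_lit 78) (nat_lit 532) (nat_lit 0) (XT.lf (nat_lit 0) (nat_lit 9638253289) (nat_lit 532) (nat_lit 36173181) (nat_lit 76) (nat_lit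 3177183319) (nat_lit 224) (nat_lit 5) (nat_lit 231) (nat_lit 5) (nat_lit 225) (nat_lit 5) (nat_lit 401) (nat_lit 348) (nat_lit 271)) (XT.lf (nat_lit 0) (nat_lit 1882843694) (nat_lit 532) (nat_lit 273733764) (nat_lit 76) (nat_lit 10911769080) (nat_lit 217) (nat_lit 5) (nat_lit 224) (nat_lit 5) (nat_lit 218) (nat_lit 5) (nat_lit 402) (nat_lit 348) (nat_lit 270))))) (XT.nd (nat_lit 156) (nat_lit 1368) (nat_lit 0) (XT.nd (nat_lit 78) (nat_lit 456) (nat_lit 0) (XT.lf (nat_lit 0) (nat_lit 7166195214) (nat_lit 532) (nat_lit 524101210) (nat_lit 76) (nat_lit 5599305716) (nat_lit 211) (nat_lit 5) (nat_lit 218) (nat_lit 5) (nat_lit 212) (nat_lit 5) (nat_lit 403) (nat_lit 348) (nat_lit 269)) (XT.lf (nat_lit 0) (nat_lit 12666138955) (nat_lit 532) (nat_lit 744033798) (nat_lit 76) (nat_lit 106160822) (nat_lit 205) (nat_lit 5) (nat_lit 212) (nat_lit 5) (nat_lit 206) (nat_lit 5) (nat_lit 404) (nat_lit 348) (nat_lit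 268))) (XT.nd (nat_lit 78) (nat_lit 912) (nat_lit 0) (XT.lf (nat_lit 0) (nat_lit 4618608303) (nat_lit 456) (nat_lit 999149257) (nat_lit 76) (nat_lit 8129564955) (nat_lit 199) (nat_lit 5) (nat_lit 205) (nat_lit 5) (nat_lit 200) (nat_lit 5) (nat_lit 405) (nat_lit 348) (nat_lit 267)) (XT.nd (nat_lit 78) (nat_lit 456) (nat_lit 0) (XT.lf (nat_lit 0) (nat_lit 10303499306) (nat_lit 532) (nat_lit 1229830752) (nat_lit 76) (nat_lit 2450527173) (nat_lit 193) (nat_lit 5) (nat_lit 200) (nat_lit 5) (nat_lit 194) (nat_lit 5) (nat_lit 406) (nat_lit 348) (nat_lit 266)) (XT.lf (nat_lit 0) (nat_lit 1994076484) (nat_lit 456) (nat_lit 1463958361) (nat_lit 76) (nat_lit 10767443164) (nat_lit 187) (nat_lit 5) (nat_lit 193) (nat_lit 5) (nat_lit 188) (nat_lit 5) (nat_lit 407) (nat_lit 348) (nat_lit 265))))))))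
noncomputable def xc69 : XT := (XT.nd (nat_lit 48516) (nat_lit 0) (nat_lit 34808) (XT.nd (nat_lit 702) (nat_lit 3192) (nat_lit 0) (XT.nd (nat_lit 312) (nat_lit 1824) (nat_lit 0) (XT.nd (nat_lit 156) (nat_lit 760) (nat_lit 0) (XT.nd (nat_lit 78) (nat_lit 380) (nat_lit 0) (XT.lf (nat_lit 0) (nat_lit 7873256404) (nat_lit 456) (nat_lit 1707239091) (nat_lit 76) (nat_lit 4891675089) (nat_lit 182) (nat_lit 5) (nat_lit 188) (nat_lit 5) (nat_lit 183) (nat_lit 5) (nat_lit 408) (nat_lit 348) (nat_lit 264)) (XT.lf (nat_lit 0) (nat_lit 12798994770) (nat_lit 380) (nat_lit 1207218859) (nat_lit 456) (nat_lit 718502270) (nat_lit 177) (nat_lit 5) (nat_lit 182) (nat_lit 5) (nat_lit 183) (nat_lit 5) (nat_lit 409) (nat_lit 348) (nat_lit 263))) (XT.nd (nat_lit 78) (nat_lit 304) (nat_lit 0) (XT.lf (nat_lit 0) (nat_lit 5373966520) (nat_lit 456) (nat_lit 2178739670) (nat_lit 76) (nat_lit 7429325033) (nat_lit 171) (nat_lit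 5) (nat_lit 177) (nat_lit 5) (nat_lit 172) (nat_lit 5) (nat_lit 410) (nat_lit 348) (nat_lit 262)) (XT.lf (nat_lit 0) (nat_lit 11713844205) (nat_lit 380) (nat_lit 2403272168) (nat_lit 76) (nat_lit 1128366718) (nat_lit 167) (nat_lit 5) (nat_lit 172) (nat_lit 5) (nat_lit 168) (nat_lit 5) (nat_lit 411) (nat_lit 348) (nat_lit 261)))) (XT.nd (nat_lit 156) (nat_lit 1064) (nat_lit 0) (XT.nd (nat_lit 78) (nat_lit 304) (nat_lit 0) (XT.lf (nat_lit 0) (nat_lit 2803948876) (nat_lit 456) (nat_lit 2646721194) (nat_lit 76) (nat_lit 10063561619) (nat_lit 161) (nat_lit 5) (nat_lit 167) (nat_lit 5) (nat_lit 162) (nat_lit 5) (nat_lit 412) (nat_lit 348) (nat_lit 260)) (XT.lf (nat_lit 0) (nat_lit 9368777706) (nat_lit 380) (nat_lit 2886820576) (nat_lit 76) (nat_lit 3533234489) (nat_lit 157) (nat_lit 5) (nat_lit 162) (nat_lit 5) (nat_lit 158) (nat_lit 5) (nat_lit 413) (nat_lit 348) (nat_lit 259))) (XT.nd (nat_lit 78) (nat_lit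 608) (nat_lit 0) (XT.lf (nat_lit 0) (nat_lit 161290669) (nat_lit 456) (nat_lit 3113492038) (nat_lit 76) (nat_lit 12794817866) (nat_lit 151) (nat_lit 5) (nat_lit 157) (nat_lit 5) (nat_lit 152) (nat_lit 5) (nat_lit 414) (nat_lit 348) (nat_lit 258)) (XT.nd (nat_lit 78) (nat_lit 304) (nat_lit 0) (XT.lf (nat_lit 0) (nat_lit 6961557356) (nat_lit 380) (nat_lit 3370807987) (nat_lit 76) (nat_lit 6023403256) (nat_lit 147) (nat_lit 5) (nat_lit 152) (nat_lit 5) (nat_lit 148) (nat_lit 5) (nat_lit 415) (nat_lit 348) (nat_lit 257)) (XT.lf (nat_lit 0) (nat_lit 13050559164) (nat_lit 304) (nat_lit 1007989437) (nat_lit 380) (nat_lit 2590118732) (nat_lit 143) (nat_lit 5) (nat_lit 147) (nat_lit 5) (nat_lit 148) (nat_lit 5) (nat_lit 416) (nat_lit 348) (nat_lit 256)))))) (XT.nd (nat_lit 390) (nat_lit 1596) (nat_lit 0) (XT.nd (nat_lit 156) (nat_lit 912) (nat_lit 0) (XT.nd (nat_lit 78) (nat_lit 304) (nat_lit 0) (XT.lf (nat_lit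 0) (nat_lit 4490356500) (nat_lit 380) (nat_lit 3857452026) (nat_lit 76) (nat_lit 8599366719) (nat_lit 138) (nat_lit 5) (nat_lit 143) (nat_lit 5) (nat_lit 139) (nat_lit 5) (nat_lit 417) (nat_lit 348) (nat_lit 255)) (XT.lf (nat_lit 0) (nat_lit 11839460888) (nat_lit 380) (nat_lit 4096165497) (nat_lit 76) (nat_lit 1316841505) (nat_lit 134) (nat_lit 5) (nat_lit 139) (nat_lit 5) (nat_lit 135) (nat_lit 5) (nat_lit 418) (nat_lit 348) (nat_lit 254))) (XT.nd (nat_lit 78) (nat_lit 532) (nat_lit 0) (XT.lf (nat_lit 0) (nat_lit 1953143885) (nat_lit 380) (nat_lit 4348918473) (nat_lit 76) (nat_lit 11261914062) (nat_lit 129) (nat_lit 5) (nat_lit 134) (nat_lit 5) (nat_lit 130) (nat_lit 5) (nat_lit 419) (nat_lit 348) (nat_lit 253)) (XT.nd (nat_lit 78) (nat_lit 228) (nat_lit 0) (XT.lf (nat_lit 0) (nat_lit 9572481608) (nat_lit 380) (nat_lit 4607119480) (nat_lit 76) (nat_lit 3702398642) (nat_lit 125) (nat_lit 5) (nat_lit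 130) (nat_lit 5) (nat_lit 126) (nat_lit 5) (nat_lit 420) (nat_lit 348) (nat_lit 252)) (XT.lf (nat_lit 0) (nat_lit 13355427867) (nat_lit 228) (nat_lit 4190639809) (nat_lit 304) (nat_lit 660982698) (nat_lit 122) (nat_lit 5) (nat_lit 125) (nat_lit 5) (nat_lit 126) (nat_lit 5) (nat_lit 421) (nat_lit 348) (nat_lit 251))))) (XT.nd (nat_lit 156) (nat_lit 988) (nat_lit 0) (XT.nd (nat_lit 78) (nat_lit 228) (nat_lit 0) (XT.lf (nat_lit 0) (nat_lit 7249209392) (nat_lit 380) (nat_lit 5126541696) (nat_lit 76) (nat_lit 6162627237) (nat_lit 117) (nat_lit 5) (nat_lit 122) (nat_lit 5) (nat_lit 118) (nat_lit 5) (nat_lit 422) (nat_lit 348) (nat_lit 250)) (XT.lf (nat_lit 0) (nat_lit 13500544530) (nat_lit 228) (nat_lit 2003994517) (nat_lit 304) (nat_lit 3372683447) (nat_lit 114) (nat_lit 5) (nat_lit 117) (nat_lit 5) (nat_lit 118) (nat_lit 5) (nat_lit 423) (nat_lit 348) (nat_lit 249))) (XT.nd (nat_lit 78) (nat_lit 608)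 (nat_lit 0) (XT.lf (nat_lit 0) (nat_lit 4867608393) (nat_lit 380) (nat_lit 5656521311) (nat_lit 76) (nat_lit 8698501031) (nat_lit 109) (nat_lit 5) (nat_lit 114) (nat_lit 5) (nat_lit 110) (nat_lit 5) (nat_lit 424) (nat_lit 348) (nat_lit 248)) (XT.nd (nat_lit 78) (nat_lit 380) (nat_lit 0) (XT.lf (nat_lit 0) (nat_lit 13418721635) (nat_lit 304) (nat_lit 5914912221) (nat_lit 76) (nat_lit 242132814) (nat_lit 106) (nat_lit 5) (nat_lit 110) (nat_lit 5) (nat_lit 107) (nat_lit 5) (nat_lit 425) (nat_lit 348) (nat_lit 247)) (XT.lf (nat_lit 0) (nat_lit 2425465175) (nat_lit 380) (nat_lit 6199129160) (nat_lit 76) (nat_lit 11311233663) (nat_lit 101) (nat_lit 5) (nat_lit 106) (nat_lit 5) (nat_lit 102) (nat_lit 5) (nat_lit 426) (nat_lit 348) (nat_lit 246))))))) (XT.nd (nat_lit 780) (nat_lit 9652) (nat_lit 0) (XT.nd (nat_lit 390) (nat_lit 2052) (nat_lit 0) (XT.nd (nat_lit 156) (nat_lit 912) (nat_lit 0) (XT.nd (nat_lit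 78) (nat_lit 988) (nat_lit 0) (XT.lf (nat_lit 0) (nat_lit 1395071612) (nat_lit 0) (nat_lit 1395071612) (nat_lit 836) (nat_lit 601952067) (nat_lit 738) (nat_lit 5) (nat_lit 738) (nat_lit 3) (nat_lit 749) (nat_lit 3) (nat_lit 349) (nat_lit 349) (nat_lit 322)) (XT.lf (nat_lit 76) (nat_lit 1106262795) (nat_lit 0) (nat_lit 808432891) (nat_lit 988) (nat_lit 4909003791) (nat_lit 726) (nat_lit 5) (nat_lit 725) (nat_lit 3) (nat_lit 738) (nat_lit 5) (nat_lit 350) (nat_lit 349) (nat_lit 321))) (XT.nd (nat_lit 78) (nat_lit 988) (nat_lit 0) (XT.lf (nat_lit 0) (nat_lit 5024305205) (nat_lit 912) (nat_lit 531448362) (nat_lit 988) (nat_lit 1310204752) (nat_lit 726) (nat_lit 5) (nat_lit 738) (nat_lit 5) (nat_lit 739) (nat_lit 5) (nat_lit 351) (nat_lit 349) (nat_lit 320)) (XT.nd (nat_lit 78) (nat_lit 0) (nat_lit 0) (XT.lf (nat_lit 0) (nat_lit 1218500865) (nat_lit 988) (nat_lit 2115114860) (nat_lit 1064) (nat_lit 3577336794)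 (nat_lit 713) (nat_lit 5) (nat_lit 726) (nat_lit 5) (nat_lit 727) (nat_lit 5) (nat_lit 352) (nat_lit 349) (nat_lit 319)) (XT.lf (nat_lit 76) (nat_lit 3299720189) (nat_lit 0) (nat_lit 955185330) (nat_lit 1064) (nat_lit 2703958220) (nat_lit 714) (nat_lit 5) (nat_lit 713) (nat_lit 5) (nat_lit 727) (nat_lit 5) (nat_lit 353) (nat_lit 349) (nat_lit 318))))) (XT.nd (nat_lit 156) (nat_lit 1064) (nat_lit 0) (XT.nd (nat_lit 78) (nat_lit 0) (nat_lit 0) (XT.lf (nat_lit 0) (nat_lit 292456275) (nat_lit 1064) (nat_lit 5164959406) (nat_lit 1140) (nat_lit 1552284549) (nat_lit 700) (nat_lit 5) (nat_lit 714) (nat_lit 5) (nat_lit 715) (nat_lit 5) (nat_lit 354) (nat_lit 349) (nat_lit 317)) (XT.lf (nat_lit 76) (nat_lit 416952952) (nat_lit 0) (nat_lit 2849025131) (nat_lit 1140) (nat_lit 3797247249) (nat_lit 701) (nat_lit 5) (nat_lit 700) (nat_lit 5) (nat_lit 715) (nat_lit 5) (nat_lit 355) (nat_lit 349) (nat_lit 316)))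 (XT.nd (nat_lit 78) (nat_lit 1064) (nat_lit 0) (XT.lf (nat_lit 76) (nat_lit 6171950868) (nat_lit 0) (nat_lit 84231648) (nat_lit 1140) (nat_lit 863624131) (nat_lit 701) (nat_lit 5) (nat_lit 700) (nat_lit 5) (nat_lit 715) (nat_lit 5) (nat_lit 356) (nat_lit 349) (nat_lit 315)) (XT.nd (nat_lit 78) (nat_lit 0) (nat_lit 0) (XT.lf (nat_lit 0) (nat_lit 2074993695) (nat_lit 1140) (nat_lit 2290488636) (nat_lit 1216) (nat_lit 2813417072) (nat_lit 686) (nat_lit 5) (nat_lit 701) (nat_lit 5) (nat_lit 702) (nat_lit 5) (nat_lit 357) (nat_lit 349) (nat_lit 314)) (XT.lf (nat_lit 76) (nat_lit 3648750457) (nat_lit 0) (nat_lit 1369890920) (nat_lit 1216) (nat_lit 2222437303) (nat_lit 687) (nat_lit 5) (nat_lit 686) (nat_lit 5) (nat_lit 702) (nat_lit 5) (nat_lit 358) (nat_lit 349) (nat_lit 313)))))) (XT.nd (nat_lit 390) (nat_lit 7296) (nat_lit 0) (XT.nd (nat_lit 156) (nat_lit 1216) (nat_lit 0) (XT.nd (nat_lit 78) (nat_lit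 0) (nat_lit 0) (XT.lf (nat_lit 0) (nat_lit 678570418) (nat_lit 1216) (nat_lit 4864146863) (nat_lit 1292) (nat_lit 1763451805) (nat_lit 671) (nat_lit 5) (nat_lit 687) (nat_lit 5) (nat_lit 688) (nat_lit 5) (nat_lit 359) (nat_lit 349) (nat_lit 312)) (XT.lf (nat_lit 76) (nat_lit 1258990814) (nat_lit 0) (nat_lit 2321860964) (nat_lit 1292) (nat_lit 3793177868) (nat_lit 672) (nat_lit 5) (nat_lit 671) (nat_lit 5) (nat_lit 688) (nat_lit 5) (nat_lit 360) (nat_lit 349) (nat_lit 311))) (XT.nd (nat_lit 78) (nat_lit 1292) (nat_lit 0) (XT.lf (nat_lit 76) (nat_lit 115784580) (nat_lit 0) (nat_lit 6399840047) (nat_lit 1292) (nat_lit 929392935) (nat_lit 673) (nat_lit 5) (nat_lit 672) (nat_lit 5) (nat_lit 689) (nat_lit 5) (nat_lit 361) (nat_lit 349) (nat_lit 310)) (XT.nd (nat_lit 78) (nat_lit 0) (nat_lit 76) (XT.lf (nat_lit 0) (nat_lit 1957792947) (nat_lit 1292) (nat_lit 997310453) (nat_lit 1368) (nat_lit 4563489690)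 (nat_lit 655) (nat_lit 5) (nat_lit 672) (nat_lit 5) (nat_lit 673) (nat_lit 5) (nat_lit 362) (nat_lit 349) (nat_lit 309)) (XT.lf (nat_lit 0) (nat_lit 4868655080) (nat_lit 1292) (nat_lit 2075153399) (nat_lit 76) (nat_lit 651450791) (nat_lit 656) (nat_lit 5) (nat_lit 673) (nat_lit 5) (nat_lit 657) (nat_lit 5) (nat_lit 363) (nat_lit 349) (nat_lit 308))))) (XT.nd (nat_lit 156) (nat_lit 4636) (nat_lit 0) (XT.nd (nat_lit 78) (nat_lit 1368) (nat_lit 0) (XT.lf (nat_lit 0) (nat_lit 157778714) (nat_lit 1368) (nat_lit 3130666618) (nat_lit 76) (nat_lit 4386401344) (nat_lit 638) (nat_lit 5) (nat_lit 656) (nat_lit 5) (nat_lit 639) (nat_lit 5) (nat_lit 364) (nat_lit 349) (nat_lit 307)) (XT.lf (nat_lit 0) (nat_lit 3046342931) (nat_lit 1444) (nat_lit 4165473894) (nat_lit 76) (nat_lit 545550549) (nat_lit 620) (nat_lit 5) (nat_lit 639) (nat_lit 5) (nat_lit 621) (nat_lit 5) (nat_lit 365) (nat_lit 349) (nat_lit 306)))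 (XT.nd (nat_lit 78) (nat_lit 3192) (nat_lit 0) (XT.lf (nat_lit 0) (nat_lit 2661871531) (nat_lit 1444) (nat_lit 3335927336) (nat_lit 1520) (nat_lit 1845040131) (nat_lit 601) (nat_lit 5) (nat_lit 620) (nat_lit 5) (nat_lit 621) (nat_lit 5) (nat_lit 366) (nat_lit 349) (nat_lit 305)) (XT.nd (nat_lit 78) (nat_lit 1596) (nat_lit 0) (XT.lf (nat_lit 0) (nat_lit 1054056977) (nat_lit 1596) (nat_lit 6167645589) (nat_lit 76) (nat_lit 709795450) (nat_lit 580) (nat_lit 5) (nat_lit 601) (nat_lit 5) (nat_lit 581) (nat_lit 5) (nat_lit 367) (nat_lit 349) (nat_lit 304)) (XT.lf (nat_lit 0) (nat_lit 873842009) (nat_lit 1596) (nat_lit 3123840759) (nat_lit 1672) (nat_lit 4025237671) (nat_lit 559) (nat_lit 5) (nat_lit 580) (nat_lit 5) (nat_lit 581) (nat_lit 5) (nat_lit 368) (nat_lit 349) (nat_lit 303))))))))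
noncomputable def xc70 : XT := (XT.nd (nat_lit 1482) (nat_lit 10944) (nat_lit 0) (XT.nd (nat_lit 702) (nat_lit 7068) (nat_lit 0) (XT.nd (nat_lit 312) (nat_lit 4864) (nat_lit 0) (XT.nd (nat_lit 156) (nat_lit 3572) (nat_lit 0) (XT.nd (nat_lit 78) (nat_lit 76) (nat_lit 0) (XT.lf (nat_lit 0) (nat_lit 18492257) (nat_lit 1672) (nat_lit 6981586266) (nat_lit 1748) (nat_lit 1117597787) (nat_lit 537) (nat_lit 5) (nat_lit 559) (nat_lit 5) (nat_lit 560) (nat_lit 5) (nat_lit 369) (nat_lit 349) (nat_lit 302)) (XT.lf (nat_lit 0) (nat_lit 1844799926) (nat_lit 1748) (nat_lit 817766575) (nat_lit 76) (nat_lit 5552621600) (nat_lit 536) (nat_lit 5) (nat_lit 559) (nat_lit 5) (nat_lit 537) (nat_lit 5) (nat_lit 370) (nat_lit 349) (nat_lit 301))) (XT.nd (nat_lit 78) (nat_lit 1824) (nat_lit 0) (XT.lf (nat_lit 0) (nat_lit 4861181650) (nat_lit 1824) (nat_lit 1632665569) (nat_lit 76) (nat_lit 1822024362) (nat_lit 513) (nat_lit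 5) (nat_lit 537) (nat_lit 5) (nat_lit 514) (nat_lit 5) (nat_lit 371) (nat_lit 349) (nat_lit 300)) (XT.lf (nat_lit 0) (nat_lit 5994279849) (nat_lit 1824) (nat_lit 1962641775) (nat_lit 1900) (nat_lit 462876605) (nat_lit 489) (nat_lit 5) (nat_lit 513) (nat_lit 5) (nat_lit 514) (nat_lit 5) (nat_lit 372) (nat_lit 349) (nat_lit 299)))) (XT.nd (nat_lit 156) (nat_lit 2736) (nat_lit 0) (XT.nd (nat_lit 78) (nat_lit 912) (nat_lit 0) (XT.lf (nat_lit 0) (nat_lit 2575901733) (nat_lit 1216) (nat_lit 3213728635) (nat_lit 76) (nat_lit 2737041159) (nat_lit 473) (nat_lit 5) (nat_lit 489) (nat_lit 5) (nat_lit 474) (nat_lit 5) (nat_lit 373) (nat_lit 349) (nat_lit 298)) (XT.lf (nat_lit 0) (nat_lit 4657447538) (nat_lit 912) (nat_lit 1031550753) (nat_lit 988) (nat_lit 2947902671) (nat_lit 461) (nat_lit 5) (nat_lit 473) (nat_lit 5) (nat_lit 474) (nat_lit 5) (nat_lit 374) (nat_lit 349) (nat_lit 297))) (XT.nd (nat_lit 78)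 (nat_lit 1748) (nat_lit 0) (XT.lf (nat_lit 0) (nat_lit 147443819) (nat_lit 988) (nat_lit 4733079061) (nat_lit 76) (nat_lit 3869809650) (nat_lit 448) (nat_lit 5) (nat_lit 461) (nat_lit 5) (nat_lit 449) (nat_lit 5) (nat_lit 375) (nat_lit 349) (nat_lit 296)) (XT.nd (nat_lit 78) (nat_lit 912) (nat_lit 0) (XT.lf (nat_lit 0) (nat_lit 3284851730) (nat_lit 912) (nat_lit 5476044022) (nat_lit 76) (nat_lit 106096550) (nat_lit 437) (nat_lit 5) (nat_lit 449) (nat_lit 5) (nat_lit 438) (nat_lit 5) (nat_lit 376) (nat_lit 349) (nat_lit 295)) (XT.lf (nat_lit 0) (nat_lit 2772526274) (nat_lit 912) (nat_lit 3760578819) (nat_lit 988) (nat_lit 2453712310) (nat_lit 425) (nat_lit 5) (nat_lit 437) (nat_lit 5) (nat_lit 438) (nat_lit 5) (nat_lit 377) (nat_lit 349) (nat_lit 294)))))) (XT.nd (nat_lit 390) (nat_lit 3724) (nat_lit 0) (XT.nd (nat_lit 156) (nat_lit 1596) (nat_lit 0) (XT.nd (nat_lit 78) (nat_lit 836) (nat_lit 0) (XT.lf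 (nat_lit 0) (nat_lit 754304737) (nat_lit 912) (nat_lit 6930012185) (nat_lit 76) (nat_lit 1425904217) (nat_lit 413) (nat_lit 5) (nat_lit 425) (nat_lit 5) (nat_lit 414) (nat_lit 5) (nat_lit 378) (nat_lit 349) (nat_lit 293)) (XT.lf (nat_lit 0) (nat_lit 1586211223) (nat_lit 836) (nat_lit 2453350739) (nat_lit 912) (nat_lit 5197153924) (nat_lit 402) (nat_lit 5) (nat_lit 413) (nat_lit 5) (nat_lit 414) (nat_lit 5) (nat_lit 379) (nat_lit 349) (nat_lit 292))) (XT.nd (nat_lit 78) (nat_lit 836) (nat_lit 0) (XT.lf (nat_lit 0) (nat_lit 1012639130) (nat_lit 760) (nat_lit 6421338398) (nat_lit 836) (nat_lit 1932815936) (nat_lit 392) (nat_lit 5) (nat_lit 402) (nat_lit 5) (nat_lit 403) (nat_lit 5) (nat_lit 380) (nat_lit 349) (nat_lit 291)) (XT.nd (nat_lit 78) (nat_lit 0) (nat_lit 0) (XT.lf (nat_lit 0) (nat_lit 452866729) (nat_lit 760) (nat_lit 968049191) (nat_lit 836) (nat_lit 8079467605) (nat_lit 381) (nat_lit 5)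 (nat_lit 391) (nat_lit 5) (nat_lit 392) (nat_lit 5) (nat_lit 381) (nat_lit 349) (nat_lit 290)) (XT.lf (nat_lit 0) (nat_lit 4876307913) (nat_lit 836) (nat_lit 109643166) (nat_lit 76) (nat_lit 4651228539) (nat_lit 381) (nat_lit 5) (nat_lit 392) (nat_lit 5) (nat_lit 382) (nat_lit 5) (nat_lit 382) (nat_lit 349) (nat_lit 289))))) (XT.nd (nat_lit 156) (nat_lit 2128) (nat_lit 0) (XT.nd (nat_lit 78) (nat_lit 836) (nat_lit 0) (XT.lf (nat_lit 0) (nat_lit 8447493618) (nat_lit 836) (nat_lit 638449434) (nat_lit 76) (nat_lit 691893903) (nat_lit 371) (nat_lit 5) (nat_lit 382) (nat_lit 5) (nat_lit 372) (nat_lit 5) (nat_lit 383) (nat_lit 349) (nat_lit 288)) (XT.lf (nat_lit 0) (nat_lit 2208364891) (nat_lit 836) (nat_lit 1176137062) (nat_lit 76) (nat_lit 6537242817) (nat_lit 360) (nat_lit 5) (nat_lit 371) (nat_lit 5) (nat_lit 361) (nat_lit 5) (nat_lit 384) (nat_lit 349) (nat_lit 287))) (XT.nd (nat_lit 78) (nat_lit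 1444) (nat_lit 0) (XT.lf (nat_lit 0) (nat_lit 5854439647) (nat_lit 760) (nat_lit 1700673530) (nat_lit 76) (nat_lit 2514295183) (nat_lit 351) (nat_lit 5) (nat_lit 361) (nat_lit 5) (nat_lit 352) (nat_lit 5) (nat_lit 385) (nat_lit 349) (nat_lit 286)) (XT.nd (nat_lit 78) (nat_lit 760) (nat_lit 0) (XT.lf (nat_lit 0) (nat_lit 8011633320) (nat_lit 684) (nat_lit 1625927590) (nat_lit 760) (nat_lit 583387662) (nat_lit 342) (nat_lit 5) (nat_lit 351) (nat_lit 5) (nat_lit 352) (nat_lit 5) (nat_lit 386) (nat_lit 349) (nat_lit 285)) (XT.lf (nat_lit 0) (nat_lit 3152562484) (nat_lit 760) (nat_lit 2729276083) (nat_lit 76) (nat_lit 4494049896) (nat_lit 332) (nat_lit 5) (nat_lit 342) (nat_lit 5) (nat_lit 333) (nat_lit 5) (nat_lit 387) (nat_lit 349) (nat_lit 284))))))) (XT.nd (nat_lit 780) (nat_lit 4788) (nat_lit 0) (XT.nd (nat_lit 390) (nat_lit 2888) (nat_lit 0) (XT.nd (nat_lit 156) (nat_lit 1900) (nat_lit 0) (XT.nd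 (nat_lit 78) (nat_lit 684) (nat_lit 0) (XT.lf (nat_lit 0) (nat_lit 7014942348) (nat_lit 760) (nat_lit 3227699341) (nat_lit 76) (nat_lit 292312194) (nat_lit 323) (nat_lit 5) (nat_lit 333) (nat_lit 5) (nat_lit 324) (nat_lit 5) (nat_lit 388) (nat_lit 349) (nat_lit 283)) (XT.lf (nat_lit 0) (nat_lit 342052480) (nat_lit 684) (nat_lit 3729192544) (nat_lit 76) (nat_lit 6626477788) (nat_lit 314) (nat_lit 5) (nat_lit 323) (nat_lit 5) (nat_lit 315) (nat_lit 5) (nat_lit 389) (nat_lit 349) (nat_lit 282))) (XT.nd (nat_lit 78) (nat_lit 1292) (nat_lit 0) (XT.lf (nat_lit 0) (nat_lit 4301677175) (nat_lit 684) (nat_lit 4231145266) (nat_lit 76) (nat_lit 2331496583) (nat_lit 306) (nat_lit 5) (nat_lit 315) (nat_lit 5) (nat_lit 307) (nat_lit 5) (nat_lit 390) (nat_lit 349) (nat_lit 281)) (XT.nd (nat_lit 78) (nat_lit 684) (nat_lit 0) (XT.lf (nat_lit 0) (nat_lit 6312995155) (nat_lit 608) (nat_lit 2110466834) (nat_lit 684)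 (nat_lit 2611583708) (nat_lit 298) (nat_lit 5) (nat_lit 306) (nat_lit 5) (nat_lit 307) (nat_lit 5) (nat_lit 391) (nat_lit 349) (nat_lit 280)) (XT.lf (nat_lit 0) (nat_lit 1486984316) (nat_lit 684) (nat_lit 5213634393) (nat_lit 76) (nat_lit 4509124129) (nat_lit 289) (nat_lit 5) (nat_lit 298) (nat_lit 5) (nat_lit 290) (nat_lit 5) (nat_lit 392) (nat_lit 349) (nat_lit 279))))) (XT.nd (nat_lit 156) (nat_lit 1748) (nat_lit 0) (XT.nd (nat_lit 78) (nat_lit 608) (nat_lit 0) (XT.lf (nat_lit 0) (nat_lit 5690340939) (nat_lit 532) (nat_lit 17544725) (nat_lit 608) (nat_lit 5680752829) (nat_lit 282) (nat_lit 5) (nat_lit 289) (nat_lit 5) (nat_lit 290) (nat_lit 5) (nat_lit 393) (nat_lit 349) (nat_lit 278)) (XT.lf (nat_lit 0) (nat_lit 5382665820) (nat_lit 608) (nat_lit 4740132795) (nat_lit 684) (nat_lit 1448754712) (nat_lit 274) (nat_lit 5) (nat_lit 282) (nat_lit 5) (nat_lit 283) (nat_lit 5) (nat_lit 394) (nat_lit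 349) (nat_lit 277))) (XT.nd (nat_lit 78) (nat_lit 1140) (nat_lit 0) (XT.lf (nat_lit 0) (nat_lit 2911394314) (nat_lit 608) (nat_lit 6674204772) (nat_lit 76) (nat_lit 2173191444) (nat_lit 266) (nat_lit 5) (nat_lit 274) (nat_lit 5) (nat_lit 267) (nat_lit 5) (nat_lit 395) (nat_lit 349) (nat_lit 276)) (XT.nd (nat_lit 78) (nat_lit 608) (nat_lit 0) (XT.lf (nat_lit 0) (nat_lit 4788201880) (nat_lit 532) (nat_lit 2653406327) (nat_lit 608) (nat_lit 4508666251) (nat_lit 259) (nat_lit 5) (nat_lit 266) (nat_lit 5) (nat_lit 267) (nat_lit 5) (nat_lit 396) (nat_lit 349) (nat_lit 275)) (XT.lf (nat_lit 0) (nat_lit 19708650) (nat_lit 608) (nat_lit 7640427958) (nat_lit 76) (nat_lit 4486192233) (nat_lit 251) (nat_lit 5) (nat_lit 259) (nat_lit 5) (nat_lit 252) (nat_lit 5) (nat_lit 397) (nat_lit 349) (nat_lit 274)))))) (XT.nd (nat_lit 390) (nat_lit 2280) (nat_lit 0) (XT.nd (nat_lit 156) (nat_lit 1520) (nat_lit 0) (XT.nd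 (nat_lit 78) (nat_lit 456) (nat_lit 0) (XT.lf (nat_lit 0) (nat_lit 4219326870) (nat_lit 532) (nat_lit 452980171) (nat_lit 608) (nat_lit 7674369222) (nat_lit 244) (nat_lit 5) (nat_lit 251) (nat_lit 5) (nat_lit 252) (nat_lit 5) (nat_lit 398) (nat_lit 349) (nat_lit 273)) (XT.lf (nat_lit 0) (nat_lit 3931221922) (nat_lit 456) (nat_lit 5612232996) (nat_lit 532) (nat_lit 3007999760) (nat_lit 238) (nat_lit 5) (nat_lit 244) (nat_lit 5) (nat_lit 245) (nat_lit 5) (nat_lit 399) (nat_lit 349) (nat_lit 272))) (XT.nd (nat_lit 78) (nat_lit 912) (nat_lit 0) (XT.lf (nat_lit 0) (nat_lit 1825830876) (nat_lit 608) (nat_lit 9100573144) (nat_lit 76) (nat_lit 1834717782) (nat_lit 230) (nat_lit 5) (nat_lit 238) (nat_lit 5) (nat_lit 231) (nat_lit 5) (nat_lit 400) (nat_lit 349) (nat_lit 271)) (XT.nd (nat_lit 78) (nat_lit 456) (nat_lit 0) (XT.lf (nat_lit 0) (nat_lit 3376596758) (nat_lit 456) (nat_lit 3463120513) (nat_lit 532)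 (nat_lit 6135445859) (nat_lit 224) (nat_lit 5) (nat_lit 230) (nat_lit 5) (nat_lit 231) (nat_lit 5) (nat_lit 401) (nat_lit 349) (nat_lit 270)) (XT.lf (nat_lit 0) (nat_lit 3110007087) (nat_lit 456) (nat_lit 8961853132) (nat_lit 532) (nat_lit 1122408677) (nat_lit 218) (nat_lit 5) (nat_lit 224) (nat_lit 5) (nat_lit 225) (nat_lit 5) (nat_lit 402) (nat_lit 349) (nat_lit 269))))) (XT.nd (nat_lit 156) (nat_lit 1292) (nat_lit 0) (XT.nd (nat_lit 78) (nat_lit 456) (nat_lit 0) (XT.lf (nat_lit 0) (nat_lit 2839224518) (nat_lit 456) (nat_lit 1214565598) (nat_lit 532) (nat_lit 9364317595) (nat_lit 211) (nat_lit 5) (nat_lit 217) (nat_lit 5) (nat_lit 218) (nat_lit 5) (nat_lit 403) (nat_lit 349) (nat_lit 268)) (XT.lf (nat_lit 0) (nat_lit 2562418271) (nat_lit 456) (nat_lit 6896433239) (nat_lit 532) (nat_lit 4187885285) (nat_lit 205) (nat_lit 5) (nat_lit 211) (nat_lit 5) (nat_lit 212) (nat_lit 5) (nat_lit 404) (nat_lit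 349) (nat_lit 267))) (XT.nd (nat_lit 78) (nat_lit 836) (nat_lit 0) (XT.lf (nat_lit 0) (nat_lit 1191435898) (nat_lit 456) (nat_lit 11572007070) (nat_lit 76) (nat_lit 1117381299) (nat_lit 199) (nat_lit 5) (nat_lit 205) (nat_lit 5) (nat_lit 200) (nat_lit 5) (nat_lit 405) (nat_lit 349) (nat_lit 266)) (XT.nd (nat_lit 78) (nat_lit 380) (nat_lit 0) (XT.lf (nat_lit 0) (nat_lit 2027307089) (nat_lit 456) (nat_lit 4743727509) (nat_lit 532) (nat_lit 7348430231) (nat_lit 193) (nat_lit 5) (nat_lit 199) (nat_lit 5) (nat_lit 200) (nat_lit 5) (nat_lit 406) (nat_lit 349) (nat_lit 265)) (XT.lf (nat_lit 0) (nat_lit 1769792522) (nat_lit 380) (nat_lit 10822702861) (nat_lit 456) (nat_lit 1771279743) (nat_lit 188) (nat_lit 5) (nat_lit 193) (nat_lit 5) (nat_lit 194) (nat_lit 5) (nat_lit 407) (nat_lit 349) (nat_lit 264))))))))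
noncomputable def xc71 : XT := (XT.nd (nat_lit 48750) (nat_lit 0) (nat_lit 30704) (XT.nd (nat_lit 780) (nat_lit 2584) (nat_lit 0) (XT.nd (nat_lit 390) (nat_lit 1444) (nat_lit 0) (XT.nd (nat_lit 156) (nat_lit 1140) (nat_lit 0) (XT.nd (nat_lit 78) (nat_lit 380) (nat_lit 0) (XT.lf (nat_lit 0) (nat_lit 1502065228) (nat_lit 380) (nat_lit 2504684858) (nat_lit 456) (nat_lit 10606435236) (nat_lit 182) (nat_lit 5) (nat_lit 187) (nat_lit 5) (nat_lit 188) (nat_lit 5) (nat_lit 408) (nat_lit 349) (nat_lit 263)) (XT.lf (nat_lit 0) (nat_lit 1230800106) (nat_lit 380) (nat_lit 8798975826) (nat_lit 456) (nat_lit 4838153333) (nat_lit 177) (nat_lit 5) (nat_lit 182) (nat_lit 5) (nat_lit 183) (nat_lit 5) (nat_lit 409) (nat_lit 349) (nat_lit 262))) (XT.nd (nat_lit 78) (nat_lit 684) (nat_lit 0) (XT.lf (nat_lit 0) (nat_lit 984190071) (nat_lit 380) (nat_lit 179891896) (nat_lit 456) (nat_lit 13964582841) (nat_lit 171) (nat_lit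 5) (nat_lit 176) (nat_lit 5) (nat_lit 177) (nat_lit 5) (nat_lit 410) (nat_lit 349) (nat_lit 261)) (XT.nd (nat_lit 78) (nat_lit 380) (nat_lit 0) (XT.lf (nat_lit 0) (nat_lit 697373808) (nat_lit 304) (nat_lit 6701052398) (nat_lit 380) (nat_lit 7995801139) (nat_lit 167) (nat_lit 5) (nat_lit 171) (nat_lit 5) (nat_lit 172) (nat_lit 5) (nat_lit 411) (nat_lit 349) (nat_lit 260)) (XT.lf (nat_lit 0) (nat_lit 444793603) (nat_lit 380) (nat_lit 13453550822) (nat_lit 456) (nat_lit 1767841461) (nat_lit 162) (nat_lit 5) (nat_lit 167) (nat_lit 5) (nat_lit 168) (nat_lit 5) (nat_lit 412) (nat_lit 349) (nat_lit 259))))) (XT.nd (nat_lit 156) (nat_lit 1064) (nat_lit 0) (XT.nd (nat_lit 78) (nat_lit 0) (nat_lit 0) (XT.lf (nat_lit 0) (nat_lit 167137387) (nat_lit 304) (nat_lit 4529410958) (nat_lit 380) (nat_lit 11246940675) (nat_lit 157) (nat_lit 5) (nat_lit 161) (nat_lit 5) (nat_lit 162) (nat_lit 5) (nat_lit 413) (nat_lit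 349) (nat_lit 258)) (XT.lf (nat_lit 0) (nat_lit 11430013758) (nat_lit 380) (nat_lit 100750053) (nat_lit 76) (nat_lit 4696130489) (nat_lit 157) (nat_lit 5) (nat_lit 162) (nat_lit 5) (nat_lit 158) (nat_lit 5) (nat_lit 414) (nat_lit 349) (nat_lit 257))) (XT.nd (nat_lit 78) (nat_lit 608) (nat_lit 0) (XT.lf (nat_lit 0) (nat_lit 1924368499) (nat_lit 456) (nat_lit 357461328) (nat_lit 76) (nat_lit 14234693982) (nat_lit 151) (nat_lit 5) (nat_lit 157) (nat_lit 5) (nat_lit 152) (nat_lit 5) (nat_lit 415) (nat_lit 349) (nat_lit 256)) (XT.nd (nat_lit 78) (nat_lit 304) (nat_lit 0) (XT.lf (nat_lit 0) (nat_lit 8902631566) (nat_lit 380) (nat_lit 641219839) (nat_lit 76) (nat_lit 7267945702) (nat_lit 147) (nat_lit 5) (nat_lit 152) (nat_lit 5) (nat_lit 148) (nat_lit 5) (nat_lit 416) (nat_lit 349) (nat_lit 255)) (XT.lf (nat_lit 0) (nat_lit 16180463238) (nat_lit 380) (nat_lit 887570103) (nat_lit 76) (nat_lit 46090849)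 (nat_lit 143) (nat_lit 5) (nat_lit 148) (nat_lit 5) (nat_lit 144) (nat_lit 5) (nat_lit 417) (nat_lit 349) (nat_lit 254)))))) (XT.nd (nat_lit 390) (nat_lit 912) (nat_lit 0) (XT.nd (nat_lit 156) (nat_lit 988) (nat_lit 0) (XT.nd (nat_lit 78) (nat_lit 304) (nat_lit 0) (XT.lf (nat_lit 0) (nat_lit 6311303908) (nat_lit 380) (nat_lit 1184643097) (nat_lit 76) (nat_lit 9925918763) (nat_lit 138) (nat_lit 5) (nat_lit 143) (nat_lit 5) (nat_lit 139) (nat_lit 5) (nat_lit 418) (nat_lit 349) (nat_lit 253)) (XT.lf (nat_lit 0) (nat_lit 13856645347) (nat_lit 380) (nat_lit 1449726252) (nat_lit 76) (nat_lit 2430430316) (nat_lit 134) (nat_lit 5) (nat_lit 139) (nat_lit 5) (nat_lit 135) (nat_lit 5) (nat_lit 419) (nat_lit 349) (nat_lit 252))) (XT.nd (nat_lit 78) (nat_lit 608) (nat_lit 0) (XT.lf (nat_lit 0) (nat_lit 3653822817) (nat_lit 380) (nat_lit 1733168373) (nat_lit 76) (nat_lit 12671062831) (nat_lit 129) (nat_lit 5)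 (nat_lit 134) (nat_lit 5) (nat_lit 130) (nat_lit 5) (nat_lit 420) (nat_lit 349) (nat_lit 251)) (XT.nd (nat_lit 78) (nat_lit 304) (nat_lit 0) (XT.lf (nat_lit 0) (nat_lit 11478530087) (nat_lit 380) (nat_lit 2018509701) (nat_lit 76) (nat_lit 4889042453) (nat_lit 125) (nat_lit 5) (nat_lit 130) (nat_lit 5) (nat_lit 126) (nat_lit 5) (nat_lit 421) (nat_lit 349) (nat_lit 250)) (XT.lf (nat_lit 0) (nat_lit 927780371) (nat_lit 304) (nat_lit 2288908317) (nat_lit 76) (nat_lit 15504668331) (nat_lit 121) (nat_lit 5) (nat_lit 125) (nat_lit 5) (nat_lit 122) (nat_lit 5) (nat_lit 422) (nat_lit 349) (nat_lit 249))))) (XT.nd (nat_lit 156) (nat_lit 380) (nat_lit 0) (XT.nd (nat_lit 78) (nat_lit 228) (nat_lit 0) (XT.lf (nat_lit 0) (nat_lit 9044102064) (nat_lit 380) (nat_lit 2596029792) (nat_lit 76) (nat_lit 7422849491) (nat_lit 117) (nat_lit 5) (nat_lit 122) (nat_lit 5) (nat_lit 118) (nat_lit 5) (nat_lit 423) (nat_lit 349)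 (nat_lit 248)) (XT.lf (nat_lit 0) (nat_lit 16546319310) (nat_lit 228) (nat_lit 971973687) (nat_lit 304) (nat_lit 1894273817) (nat_lit 114) (nat_lit 5) (nat_lit 117) (nat_lit 5) (nat_lit 118) (nat_lit 5) (nat_lit 424) (nat_lit 349) (nat_lit 247))) (XT.nd (nat_lit 47268) (nat_lit 0) (nat_lit 45828) (XT.lf (nat_lit 0) (nat_lit 6551168691) (nat_lit 380) (nat_lit 3184374677) (nat_lit 76) (nat_lit 10033015648) (nat_lit 109) (nat_lit 5) (nat_lit 114) (nat_lit 5) (nat_lit 110) (nat_lit 5) (nat_lit 425) (nat_lit 349) (nat_lit 246)) (XT.nd (nat_lit 78) (nat_lit 988) (nat_lit 0) (XT.lf (nat_lit 0) (nat_lit 2471642071) (nat_lit 988) (nat_lit 480313083) (nat_lit 988) (nat_lit 480313083) (nat_lit 725) (nat_lit 3) (nat_lit 738) (nat_lit 3) (nat_lit 738) (nat_lit 5) (nat_lit 350) (nat_lit 350) (nat_lit 320)) (XT.lf (nat_lit 0) (nat_lit 1057333944) (nat_lit 988) (nat_lit 2681601168) (nat_lit 1064) (nat_lit 3169186045)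 (nat_lit 712) (nat_lit 5) (nat_lit 725) (nat_lit 3) (nat_lit 726) (nat_lit 5) (nat_lit 351) (nat_lit 350) (nat_lit 319))))))) (XT.nd (nat_lit 780) (nat_lit 10716) (nat_lit 0) (XT.nd (nat_lit 390) (nat_lit 2356) (nat_lit 0) (XT.nd (nat_lit 156) (nat_lit 2052) (nat_lit 0) (XT.nd (nat_lit 78) (nat_lit 0) (nat_lit 76) (XT.lf (nat_lit 76) (nat_lit 2589896142) (nat_lit 0) (nat_lit 1417116667) (nat_lit 1064) (nat_lit 2947589832) (nat_lit 713) (nat_lit 5) (nat_lit 712) (nat_lit 5) (nat_lit 726) (nat_lit 5) (nat_lit 352) (nat_lit 350) (nat_lit 318)) (XT.lf (nat_lit 76) (nat_lit 998439041) (nat_lit 0) (nat_lit 5965489231) (nat_lit 1064) (nat_lit 40175374) (nat_lit 714) (nat_lit 5) (nat_lit 713) (nat_lit 5) (nat_lit 727) (nat_lit 5) (nat_lit 353) (nat_lit 350) (nat_lit 317))) (XT.nd (nat_lit 78) (nat_lit 1064) (nat_lit 0) (XT.lf (nat_lit 0) (nat_lit 2844757671) (nat_lit 1064) (nat_lit 563921256) (nat_lit 1140)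 (nat_lit 3647446219) (nat_lit 699) (nat_lit 5) (nat_lit 713) (nat_lit 5) (nat_lit 714) (nat_lit 5) (nat_lit 354) (nat_lit 350) (nat_lit 316)) (XT.nd (nat_lit 78) (nat_lit 1064) (nat_lit 0) (XT.lf (nat_lit 76) (nat_lit 5046022335) (nat_lit 0) (nat_lit 695440696) (nat_lit 1140) (nat_lit 1369723546) (nat_lit 700) (nat_lit 5) (nat_lit 699) (nat_lit 5) (nat_lit 714) (nat_lit 5) (nat_lit 355) (nat_lit 350) (nat_lit 315)) (XT.lf (nat_lit 0) (nat_lit 1473432353) (nat_lit 1140) (nat_lit 3543008308) (nat_lit 1216) (nat_lit 2152523281) (nat_lit 685) (nat_lit 5) (nat_lit 700) (nat_lit 5) (nat_lit 701) (nat_lit 5) (nat_lit 356) (nat_lit 350) (nat_lit 314))))) (XT.nd (nat_lit 156) (nat_lit 2356) (nat_lit 0) (XT.nd (nat_lit 78) (nat_lit 0) (nat_lit 76) (XT.lf (nat_lit 76) (nat_lit 2240675082) (nat_lit 0) (nat_lit 2073968911) (nat_lit 1216) (nat_lit 2915022153) (nat_lit 686) (nat_lit 5) (nat_lit 685) (nat_lit 5)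 (nat_lit 701) (nat_lit 5) (nat_lit 357) (nat_lit 350) (nat_lit 313)) (XT.lf (nat_lit 76) (nat_lit 896130598) (nat_lit 0) (nat_lit 6281954177) (nat_lit 1216) (nat_lit 115364786) (nat_lit 687) (nat_lit 5) (nat_lit 686) (nat_lit 5) (nat_lit 702) (nat_lit 5) (nat_lit 358) (nat_lit 350) (nat_lit 312))) (XT.nd (nat_lit 78) (nat_lit 1216) (nat_lit 0) (XT.lf (nat_lit 0) (nat_lit 2682511853) (nat_lit 1216) (nat_lit 428606650) (nat_lit 1292) (nat_lit 4248657783) (nat_lit 670) (nat_lit 5) (nat_lit 686) (nat_lit 5) (nat_lit 687) (nat_lit 5) (nat_lit 359) (nat_lit 350) (nat_lit 311)) (XT.nd (nat_lit 78) (nat_lit 1292) (nat_lit 0) (XT.lf (nat_lit 0) (nat_lit 5506915210) (nat_lit 1216) (nat_lit 1699424228) (nat_lit 1292) (nat_lit 222854967) (nat_lit 671) (nat_lit 5) (nat_lit 687) (nat_lit 5) (nat_lit 688) (nat_lit 5) (nat_lit 360) (nat_lit 350) (nat_lit 310)) (XT.lf (nat_lit 0) (nat_lit 864416453) (nat_lit 1292)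 (nat_lit 2953459314) (nat_lit 1368) (nat_lit 3683479121) (nat_lit 654) (nat_lit 5) (nat_lit 671) (nat_lit 5) (nat_lit 672) (nat_lit 5) (nat_lit 361) (nat_lit 350) (nat_lit 309)))))) (XT.nd (nat_lit 390) (nat_lit 8132) (nat_lit 0) (XT.nd (nat_lit 156) (nat_lit 2584) (nat_lit 0) (XT.nd (nat_lit 78) (nat_lit 0) (nat_lit 76) (XT.lf (nat_lit 76) (nat_lit 3398586496) (nat_lit 0) (nat_lit 253524763) (nat_lit 1368) (nat_lit 3924444512) (nat_lit 655) (nat_lit 5) (nat_lit 654) (nat_lit 5) (nat_lit 672) (nat_lit 5) (nat_lit 362) (nat_lit 350) (nat_lit 308)) (XT.lf (nat_lit 76) (nat_lit 2271071752) (nat_lit 0) (nat_lit 4221545046) (nat_lit 1368) (nat_lit 1162012284) (nat_lit 656) (nat_lit 5) (nat_lit 655) (nat_lit 5) (nat_lit 673) (nat_lit 5) (nat_lit 363) (nat_lit 350) (nat_lit 307))) (XT.nd (nat_lit 78) (nat_lit 1292) (nat_lit 0) (XT.lf (nat_lit 76) (nat_lit 1174382686) (nat_lit 0) (nat_lit 438331704) (nat_lit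 1444) (nat_lit 6123081657) (nat_lit 638) (nat_lit 5) (nat_lit 637) (nat_lit 5) (nat_lit 656) (nat_lit 5) (nat_lit 364) (nat_lit 350) (nat_lit 306)) (XT.nd (nat_lit 78) (nat_lit 0) (nat_lit 0) (XT.lf (nat_lit 0) (nat_lit 89516295) (nat_lit 1368) (nat_lit 4341143082) (nat_lit 1444) (nat_lit 3389069753) (nat_lit 620) (nat_lit 5) (nat_lit 638) (nat_lit 5) (nat_lit 639) (nat_lit 5) (nat_lit 365) (nat_lit 350) (nat_lit 305)) (XT.lf (nat_lit 0) (nat_lit 6962601600) (nat_lit 1368) (nat_lit 335863618) (nat_lit 1444) (nat_lit 608408537) (nat_lit 620) (nat_lit 5) (nat_lit 638) (nat_lit 5) (nat_lit 639) (nat_lit 5) (nat_lit 366) (nat_lit 350) (nat_lit 304))))) (XT.nd (nat_lit 156) (nat_lit 5092) (nat_lit 0) (XT.nd (nat_lit 78) (nat_lit 1520) (nat_lit 0) (XT.lf (nat_lit 0) (nat_lit 2210227693) (nat_lit 1520) (nat_lit 1975737495) (nat_lit 76) (nat_lit 3810691850) (nat_lit 600) (nat_lit 5) (nat_lit 620) (nat_lit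 5) (nat_lit 601) (nat_lit 5) (nat_lit 367) (nat_lit 350) (nat_lit 303)) (XT.lf (nat_lit 0) (nat_lit 5069253286) (nat_lit 1596) (nat_lit 2974409012) (nat_lit 76) (nat_lit 46109167) (nat_lit 580) (nat_lit 5) (nat_lit 601) (nat_lit 5) (nat_lit 581) (nat_lit 5) (nat_lit 368) (nat_lit 350) (nat_lit 302))) (XT.nd (nat_lit 78) (nat_lit 3496) (nat_lit 0) (XT.lf (nat_lit 0) (nat_lit 4223514862) (nat_lit 1596) (nat_lit 3783224635) (nat_lit 1672) (nat_lit 179086031) (nat_lit 559) (nat_lit 5) (nat_lit 580) (nat_lit 5) (nat_lit 581) (nat_lit 5) (nat_lit 369) (nat_lit 350) (nat_lit 301)) (XT.nd (nat_lit 78) (nat_lit 1748) (nat_lit 0) (XT.lf (nat_lit 0) (nat_lit 2683130840) (nat_lit 1748) (nat_lit 4934258937) (nat_lit 76) (nat_lit 667583113) (nat_lit 536) (nat_lit 5) (nat_lit 559) (nat_lit 5) (nat_lit 537) (nat_lit 5) (nat_lit 370) (nat_lit 350) (nat_lit 300)) (XT.lf (nat_lit 0) (nat_lit 2491765591) (nat_lit 1748)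 (nat_lit 3132478218) (nat_lit 1824) (nat_lit 2762917937) (nat_lit 513) (nat_lit 5) (nat_lit 536) (nat_lit 5) (nat_lit 537) (nat_lit 5) (nat_lit 371) (nat_lit 350) (nat_lit 299))))))))
noncomputable def xc72 : XT := (XT.nd (nat_lit 1482) (nat_lit 10412) (nat_lit 0) (XT.nd (nat_lit 702) (nat_lit 6688) (nat_lit 0) (XT.nd (nat_lit 312) (nat_lit 4408) (nat_lit 0) (XT.nd (nat_lit 156) (nat_lit 988) (nat_lit 0) (XT.nd (nat_lit 78) (nat_lit 1140) (nat_lit 0) (XT.lf (nat_lit 0) (nat_lit 141757393) (nat_lit 1900) (nat_lit 6830862526) (nat_lit 76) (nat_lit 1520121473) (nat_lit 488) (nat_lit 5) (nat_lit 513) (nat_lit 5) (nat_lit 489) (nat_lit 5) (nat_lit 372) (nat_lit 350) (nat_lit 298)) (XT.lf (nat_lit 0) (nat_lit 831762851) (nat_lit 1140) (nat_lit 2260949375) (nat_lit 1216) (nat_lit 5508477414) (nat_lit 473) (nat_lit 5) (nat_lit 488) (nat_lit 5) (nat_lit 489) (nat_lit 5) (nat_lit 373) (nat_lit 350) (nat_lit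 297))) (XT.nd (nat_lit 78) (nat_lit 76) (nat_lit 0) (XT.lf (nat_lit 0) (nat_lit 23300178) (nat_lit 912) (nat_lit 6104022798) (nat_lit 988) (nat_lit 2585665813) (nat_lit 461) (nat_lit 5) (nat_lit 473) (nat_lit 5) (nat_lit 474) (nat_lit 5) (nat_lit 374) (nat_lit 350) (nat_lit 296)) (XT.lf (nat_lit 0) (nat_lit 420058341) (nat_lit 988) (nat_lit 754659669) (nat_lit 76) (nat_lit 7653352741) (nat_lit 460) (nat_lit 5) (nat_lit 473) (nat_lit 5) (nat_lit 461) (nat_lit 5) (nat_lit 375) (nat_lit 350) (nat_lit 295)))) (XT.nd (nat_lit 156) (nat_lit 2660) (nat_lit 0) (XT.nd (nat_lit 78) (nat_lit 836) (nat_lit 0) (XT.lf (nat_lit 0) (nat_lit 3489725589) (nat_lit 988) (nat_lit 1537337495) (nat_lit 76) (nat_lit 3919022252) (nat_lit 448) (nat_lit 5) (nat_lit 461) (nat_lit 5) (nat_lit 449) (nat_lit 5) (nat_lit 376) (nat_lit 350) (nat_lit 294)) (XT.lf (nat_lit 0) (nat_lit 6645496161) (nat_lit 912) (nat_lit 2291643405)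 (nat_lit 76) (nat_lit 130620528) (nat_lit 437) (nat_lit 5) (nat_lit 449) (nat_lit 5) (nat_lit 438) (nat_lit 5) (nat_lit 377) (nat_lit 350) (nat_lit 293))) (XT.nd (nat_lit 78) (nat_lit 1672) (nat_lit 0) (XT.lf (nat_lit 0) (nat_lit 715413774) (nat_lit 988) (nat_lit 3047303473) (nat_lit 76) (nat_lit 5429841036) (nat_lit 424) (nat_lit 5) (nat_lit 437) (nat_lit 5) (nat_lit 425) (nat_lit 5) (nat_lit 378) (nat_lit 350) (nat_lit 292)) (XT.nd (nat_lit 78) (nat_lit 836) (nat_lit 0) (XT.lf (nat_lit 0) (nat_lit 3915300682) (nat_lit 912) (nat_lit 3793240083) (nat_lit 76) (nat_lit 1612219672) (nat_lit 413) (nat_lit 5) (nat_lit 425) (nat_lit 5) (nat_lit 414) (nat_lit 5) (nat_lit 379) (nat_lit 350) (nat_lit 291)) (XT.lf (nat_lit 0) (nat_lit 4924206691) (nat_lit 836) (nat_lit 2304863710) (nat_lit 912) (nat_lit 2223380531) (nat_lit 402) (nat_lit 5) (nat_lit 413) (nat_lit 5) (nat_lit 414) (nat_lit 5) (nat_lit 380)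 (nat_lit 350) (nat_lit 290)))))) (XT.nd (nat_lit 390) (nat_lit 2812) (nat_lit 0) (XT.nd (nat_lit 156) (nat_lit 2280) (nat_lit 0) (XT.nd (nat_lit 78) (nat_lit 760) (nat_lit 0) (XT.lf (nat_lit 0) (nat_lit 1056941056) (nat_lit 836) (nat_lit 5255719032) (nat_lit 76) (nat_lit 3274963057) (nat_lit 391) (nat_lit 5) (nat_lit 402) (nat_lit 5) (nat_lit 392) (nat_lit 5) (nat_lit 381) (nat_lit 350) (nat_lit 289)) (XT.lf (nat_lit 0) (nat_lit 3748462250) (nat_lit 760) (nat_lit 670013203) (nat_lit 836) (nat_lit 5307820936) (nat_lit 381) (nat_lit 5) (nat_lit 391) (nat_lit 5) (nat_lit 392) (nat_lit 5) (nat_lit 382) (nat_lit 350) (nat_lit 288))) (XT.nd (nat_lit 78) (nat_lit 1520) (nat_lit 0) (XT.lf (nat_lit 0) (nat_lit 3170380224) (nat_lit 760) (nat_lit 4743728962) (nat_lit 836) (nat_lit 1954355580) (nat_lit 371) (nat_lit 5) (nat_lit 381) (nat_lit 5) (nat_lit 382) (nat_lit 5) (nat_lit 383) (nat_lit 350) (nat_lit 287))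 (XT.nd (nat_lit 78) (nat_lit 684) (nat_lit 0) (XT.lf (nat_lit 0) (nat_lit 1493939763) (nat_lit 836) (nat_lit 7404872251) (nat_lit 76) (nat_lit 1115613535) (nat_lit 360) (nat_lit 5) (nat_lit 371) (nat_lit 5) (nat_lit 361) (nat_lit 5) (nat_lit 384) (nat_lit 350) (nat_lit 286)) (XT.lf (nat_lit 0) (nat_lit 2042358124) (nat_lit 684) (nat_lit 3013068799) (nat_lit 760) (nat_lit 5108353969) (nat_lit 351) (nat_lit 5) (nat_lit 360) (nat_lit 5) (nat_lit 361) (nat_lit 5) (nat_lit 385) (nat_lit 350) (nat_lit 285))))) (XT.nd (nat_lit 156) (nat_lit 1368) (nat_lit 0) (XT.nd (nat_lit 78) (nat_lit 760) (nat_lit 0) (XT.lf (nat_lit 0) (nat_lit 1493653529) (nat_lit 684) (nat_lit 7256704053) (nat_lit 760) (nat_lit 1566727334) (nat_lit 342) (nat_lit 5) (nat_lit 351) (nat_lit 5) (nat_lit 352) (nat_lit 5) (nat_lit 386) (nat_lit 350) (nat_lit 284)) (XT.lf (nat_lit 0) (nat_lit 949665662) (nat_lit 684) (nat_lit 1133297984)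 (nat_lit 760) (nat_lit 8391171967) (nat_lit 332) (nat_lit 5) (nat_lit 341) (nat_lit 5) (nat_lit 342) (nat_lit 5) (nat_lit 387) (nat_lit 350) (nat_lit 283))) (XT.nd (nat_lit 78) (nat_lit 684) (nat_lit 0) (XT.lf (nat_lit 0) (nat_lit 399647246) (nat_lit 684) (nat_lit 5466162138) (nat_lit 760) (nat_lit 4768982333) (nat_lit 323) (nat_lit 5) (nat_lit 332) (nat_lit 5) (nat_lit 333) (nat_lit 5) (nat_lit 388) (nat_lit 350) (nat_lit 282)) (XT.nd (nat_lit 78) (nat_lit 684) (nat_lit 0) (XT.lf (nat_lit 0) (nat_lit 9789595912) (nat_lit 760) (nat_lit 123620931) (nat_lit 76) (nat_lit 886501551) (nat_lit 323) (nat_lit 5) (nat_lit 333) (nat_lit 5) (nat_lit 324) (nat_lit 5) (nat_lit 389) (nat_lit 350) (nat_lit 281)) (XT.lf (nat_lit 0) (nat_lit 2878901299) (nat_lit 684) (nat_lit 658512866) (nat_lit 76) (nat_lit 7430708587) (nat_lit 314) (nat_lit 5) (nat_lit 323) (nat_lit 5) (nat_lit 315) (nat_lit 5) (nat_lit 390) (nat_lit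 350) (nat_lit 280))))))) (XT.nd (nat_lit 780) (nat_lit 4636) (nat_lit 0) (XT.nd (nat_lit 390) (nat_lit 2660) (nat_lit 0) (XT.nd (nat_lit 156) (nat_lit 1900) (nat_lit 0) (XT.nd (nat_lit 78) (nat_lit 608) (nat_lit 0) (XT.lf (nat_lit 0) (nat_lit 6908322394) (nat_lit 684) (nat_lit 1181960400) (nat_lit 76) (nat_lit 3050413903) (nat_lit 306) (nat_lit 5) (nat_lit 315) (nat_lit 5) (nat_lit 307) (nat_lit 5) (nat_lit 391) (nat_lit 350) (nat_lit 279)) (XT.lf (nat_lit 0) (nat_lit 9626975473) (nat_lit 608) (nat_lit 1474909235) (nat_lit 684) (nat_lit 215697982) (nat_lit 298) (nat_lit 5) (nat_lit 306) (nat_lit 5) (nat_lit 307) (nat_lit 5) (nat_lit 392) (nat_lit 350) (nat_lit 278))) (XT.nd (nat_lit 78) (nat_lit 1216) (nat_lit 0) (XT.lf (nat_lit 0) (nat_lit 3927064428) (nat_lit 684) (nat_lit 2221047819) (nat_lit 76) (nat_lit 5350013465) (nat_lit 289) (nat_lit 5) (nat_lit 298) (nat_lit 5) (nat_lit 290) (nat_lit 5)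 (nat_lit 393) (nat_lit 350) (nat_lit 277)) (XT.nd (nat_lit 78) (nat_lit 684) (nat_lit 0) (XT.lf (nat_lit 0) (nat_lit 8229701257) (nat_lit 608) (nat_lit 2729189085) (nat_lit 76) (nat_lit 724395727) (nat_lit 282) (nat_lit 5) (nat_lit 290) (nat_lit 5) (nat_lit 283) (nat_lit 5) (nat_lit 394) (nat_lit 350) (nat_lit 276)) (XT.lf (nat_lit 0) (nat_lit 844885561) (nat_lit 684) (nat_lit 3245068614) (nat_lit 76) (nat_lit 7782588877) (nat_lit 273) (nat_lit 5) (nat_lit 282) (nat_lit 5) (nat_lit 274) (nat_lit 5) (nat_lit 395) (nat_lit 350) (nat_lit 275))))) (XT.nd (nat_lit 156) (nat_lit 1596) (nat_lit 0) (XT.nd (nat_lit 78) (nat_lit 532) (nat_lit 0) (XT.lf (nat_lit 0) (nat_lit 5273883677) (nat_lit 608) (nat_lit 3765038783) (nat_lit 76) (nat_lit 3027128836) (nat_lit 266) (nat_lit 5) (nat_lit 274) (nat_lit 5) (nat_lit 267) (nat_lit 5) (nat_lit 396) (nat_lit 350) (nat_lit 274)) (XT.lf (nat_lit 0) (nat_lit 7990793875)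 (nat_lit 532) (nat_lit 1902804384) (nat_lit 608) (nat_lit 2370609597) (nat_lit 259) (nat_lit 5) (nat_lit 266) (nat_lit 5) (nat_lit 267) (nat_lit 5) (nat_lit 397) (nat_lit 350) (nat_lit 273))) (XT.nd (nat_lit 78) (nat_lit 988) (nat_lit 0) (XT.lf (nat_lit 0) (nat_lit 2223644607) (nat_lit 608) (nat_lit 4792492454) (nat_lit 76) (nat_lit 5450514751) (nat_lit 251) (nat_lit 5) (nat_lit 259) (nat_lit 5) (nat_lit 252) (nat_lit 5) (nat_lit 398) (nat_lit 350) (nat_lit 272)) (XT.nd (nat_lit 78) (nat_lit 456) (nat_lit 0) (XT.lf (nat_lit 0) (nat_lit 6973909573) (nat_lit 608) (nat_lit 5303377077) (nat_lit 76) (nat_lit 396561235) (nat_lit 244) (nat_lit 5) (nat_lit 252) (nat_lit 5) (nat_lit 245) (nat_lit 5) (nat_lit 399) (nat_lit 350) (nat_lit 271)) (XT.lf (nat_lit 0) (nat_lit 7064199952) (nat_lit 456) (nat_lit 4886554260) (nat_lit 532) (nat_lit 934824193) (nat_lit 238) (nat_lit 5) (nat_lit 244) (nat_lit 5) (nat_lit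 245) (nat_lit 5) (nat_lit 400) (nat_lit 350) (nat_lit 270)))))) (XT.nd (nat_lit 390) (nat_lit 2128) (nat_lit 0) (XT.nd (nat_lit 156) (nat_lit 1444) (nat_lit 0) (XT.nd (nat_lit 78) (nat_lit 456) (nat_lit 0) (XT.lf (nat_lit 0) (nat_lit 3978756096) (nat_lit 608) (nat_lit 6343559980) (nat_lit 76) (nat_lit 2779676376) (nat_lit 230) (nat_lit 5) (nat_lit 238) (nat_lit 5) (nat_lit 231) (nat_lit 5) (nat_lit 401) (nat_lit 350) (nat_lit 269)) (XT.lf (nat_lit 0) (nat_lit 6458766376) (nat_lit 456) (nat_lit 2642535328) (nat_lit 532) (nat_lit 4221988460) (nat_lit 224) (nat_lit 5) (nat_lit 230) (nat_lit 5) (nat_lit 231) (nat_lit 5) (nat_lit 402) (nat_lit 350) (nat_lit 268))) (XT.nd (nat_lit 78) (nat_lit 912) (nat_lit 0) (XT.lf (nat_lit 0) (nat_lit 894058925) (nat_lit 532) (nat_lit 7385173565) (nat_lit 76) (nat_lit 5270315040) (nat_lit 217) (nat_lit 5) (nat_lit 224) (nat_lit 5) (nat_lit 218) (nat_lit 5) (nat_lit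 403) (nat_lit 350) (nat_lit 267)) (XT.nd (nat_lit 78) (nat_lit 456) (nat_lit 0) (XT.lf (nat_lit 0) (nat_lit 5869935430) (nat_lit 456) (nat_lit 300299212) (nat_lit 532) (nat_lit 7610519685) (nat_lit 211) (nat_lit 5) (nat_lit 217) (nat_lit 5) (nat_lit 218) (nat_lit 5) (nat_lit 404) (nat_lit 350) (nat_lit 266)) (XT.lf (nat_lit 0) (nat_lit 5570214090) (nat_lit 456) (nat_lit 6134154229) (nat_lit 532) (nat_lit 2312535554) (nat_lit 205) (nat_lit 5) (nat_lit 211) (nat_lit 5) (nat_lit 212) (nat_lit 5) (nat_lit 405) (nat_lit 350) (nat_lit 265))))) (XT.nd (nat_lit 156) (nat_lit 1216) (nat_lit 0) (XT.nd (nat_lit 78) (nat_lit 456) (nat_lit 0) (XT.lf (nat_lit 0) (nat_lit 3169611425) (nat_lit 456) (nat_lit 8977572790) (nat_lit 76) (nat_lit 2111216131) (nat_lit 199) (nat_lit 5) (nat_lit 205) (nat_lit 5) (nat_lit 200) (nat_lit 5) (nat_lit 406) (nat_lit 350) (nat_lit 264)) (XT.lf (nat_lit 0) (nat_lit 4981996918) (nat_lit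 456) (nat_lit 3896814393) (nat_lit 532) (nat_lit 5626144549) (nat_lit 193) (nat_lit 5) (nat_lit 199) (nat_lit 5) (nat_lit 200) (nat_lit 5) (nat_lit 407) (nat_lit 350) (nat_lit 263))) (XT.nd (nat_lit 78) (nat_lit 760) (nat_lit 0) (XT.lf (nat_lit 0) (nat_lit 86013227) (nat_lit 456) (nat_lit 10056808706) (nat_lit 76) (nat_lit 4614373278) (nat_lit 187) (nat_lit 5) (nat_lit 193) (nat_lit 5) (nat_lit 188) (nat_lit 5) (nat_lit 408) (nat_lit 350) (nat_lit 262)) (XT.nd (nat_lit 78) (nat_lit 380) (nat_lit 0) (XT.lf (nat_lit 0) (nat_lit 4403175101) (nat_lit 380) (nat_lit 1573877923) (nat_lit 456) (nat_lit 9037525849) (nat_lit 182) (nat_lit 5) (nat_lit 187) (nat_lit 5) (nat_lit 188) (nat_lit 5) (nat_lit 409) (nat_lit 350) (nat_lit 261)) (XT.lf (nat_lit 0) (nat_lit 4107412420) (nat_lit 380) (nat_lit 8044248992) (nat_lit 456) (nat_lit 3125885886) (nat_lit 177) (nat_lit 5) (nat_lit 182) (nat_lit 5) (nat_lit 183)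 (nat_lit 5) (nat_lit 410) (nat_lit 350) (nat_lit 260))))))))
noncomputable def xc73 : XT := (XT.nd (nat_lit 48750) (nat_lit 0) (nat_lit 27284) (XT.nd (nat_lit 702) (nat_lit 1520) (nat_lit 0) (XT.nd (nat_lit 312) (nat_lit 1748) (nat_lit 0) (XT.nd (nat_lit 156) (nat_lit 760) (nat_lit 0) (XT.nd (nat_lit 78) (nat_lit 304) (nat_lit 0) (XT.lf (nat_lit 0) (nat_lit 3002377019) (nat_lit 456) (nat_lit 11720684132) (nat_lit 76) (nat_lit 823396149) (nat_lit 171) (nat_lit 5) (nat_lit 177) (nat_lit 5) (nat_lit 172) (nat_lit 5) (nat_lit 411) (nat_lit 350) (nat_lit 259)) (XT.lf (nat_lit 0) (nat_lit 3519028929) (nat_lit 304) (nat_lit 5871549441) (nat_lit 380) (nat_lit 6430071808) (nat_lit 167) (nat_lit 5) (nat_lit 171) (nat_lit 5) (nat_lit 172) (nat_lit 5) (nat_lit 412) (nat_lit 350) (nat_lit 258))) (XT.nd (nat_lit 78) (nat_lit 380) (nat_lit 0) (XT.lf (nat_lit 0) (nat_lit 3241679976) (nat_lit 380) (nat_lit 12816823591)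 (nat_lit 456) (nat_lit 42803719) (nat_lit 162) (nat_lit 5) (nat_lit 167) (nat_lit 5) (nat_lit 168) (nat_lit 5) (nat_lit 413) (nat_lit 350) (nat_lit 257)) (XT.lf (nat_lit 0) (nat_lit 2933475814) (nat_lit 304) (nat_lit 3625541251) (nat_lit 380) (nat_lit 9828345180) (nat_lit 157) (nat_lit 5) (nat_lit 161) (nat_lit 5) (nat_lit 162) (nat_lit 5) (nat_lit 414) (nat_lit 350) (nat_lit 256)))) (XT.nd (nat_lit 156) (nat_lit 988) (nat_lit 0) (XT.nd (nat_lit 78) (nat_lit 380) (nat_lit 0) (XT.lf (nat_lit 0) (nat_lit 2638605060) (nat_lit 380) (nat_lit 10829424208) (nat_lit 456) (nat_lit 3211769559) (nat_lit 152) (nat_lit 5) (nat_lit 157) (nat_lit 5) (nat_lit 158) (nat_lit 5) (nat_lit 415) (nat_lit 350) (nat_lit 255)) (XT.lf (nat_lit 0) (nat_lit 2348481812) (nat_lit 304) (nat_lit 1306174635) (nat_lit 380) (nat_lit 13323911938) (nat_lit 147) (nat_lit 5) (nat_lit 151) (nat_lit 5) (nat_lit 152) (nat_lit 5) (nat_lit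 416) (nat_lit 350) (nat_lit 254))) (XT.nd (nat_lit 78) (nat_lit 684) (nat_lit 0) (XT.lf (nat_lit 0) (nat_lit 2034443575) (nat_lit 304) (nat_lit 8781266439) (nat_lit 380) (nat_lit 6467521016) (nat_lit 143) (nat_lit 5) (nat_lit 147) (nat_lit 5) (nat_lit 148) (nat_lit 5) (nat_lit 417) (nat_lit 350) (nat_lit 253)) (XT.nd (nat_lit 78) (nat_lit 304) (nat_lit 0) (XT.lf (nat_lit 0) (nat_lit 682010439) (nat_lit 380) (nat_lit 15840417880) (nat_lit 76) (nat_lit 1072623098) (nat_lit 138) (nat_lit 5) (nat_lit 143) (nat_lit 5) (nat_lit 139) (nat_lit 5) (nat_lit 418) (nat_lit 350) (nat_lit 252)) (XT.lf (nat_lit 0) (nat_lit 1426992186) (nat_lit 304) (nat_lit 6672355647) (nat_lit 380) (nat_lit 9813199813) (nat_lit 134) (nat_lit 5) (nat_lit 138) (nat_lit 5) (nat_lit 139) (nat_lit 5) (nat_lit 419) (nat_lit 350) (nat_lit 251)))))) (XT.nd (nat_lit 390) (nat_lit 228) (nat_lit 0) (XT.nd (nat_lit 156) (nat_lit 608) (nat_lit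 0) (XT.nd (nat_lit 78) (nat_lit 380) (nat_lit 0) (XT.lf (nat_lit 0) (nat_lit 1131981775) (nat_lit 304) (nat_lit 14714307505) (nat_lit 380) (nat_lit 2391137801) (nat_lit 130) (nat_lit 5) (nat_lit 134) (nat_lit 5) (nat_lit 135) (nat_lit 5) (nat_lit 420) (nat_lit 350) (nat_lit 250)) (XT.lf (nat_lit 0) (nat_lit 814087000) (nat_lit 304) (nat_lit 4502458336) (nat_lit 380) (nat_lit 13252188149) (nat_lit 125) (nat_lit 5) (nat_lit 129) (nat_lit 5) (nat_lit 130) (nat_lit 5) (nat_lit 421) (nat_lit 350) (nat_lit 249))) (XT.nd (nat_lit 78) (nat_lit 380) (nat_lit 0) (XT.lf (nat_lit 0) (nat_lit 497755710) (nat_lit 228) (nat_lit 12854306078) (nat_lit 304) (nat_lit 5555019404) (nat_lit 122) (nat_lit 5) (nat_lit 125) (nat_lit 5) (nat_lit 126) (nat_lit 5) (nat_lit 422) (nat_lit 350) (nat_lit 248)) (XT.nd (nat_lit 78) (nat_lit 0) (nat_lit 0) (XT.lf (nat_lit 0) (nat_lit 193594414) (nat_lit 304) (nat_lit 2271112654) (nat_lit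 380) (nat_lit 16788108796) (nat_lit 117) (nat_lit 5) (nat_lit 121) (nat_lit 5) (nat_lit 122) (nat_lit 5) (nat_lit 423) (nat_lit 350) (nat_lit 247)) (XT.lf (nat_lit 0) (nat_lit 10802291361) (nat_lit 380) (nat_lit 143692801) (nat_lit 76) (nat_lit 8659149301) (nat_lit 117) (nat_lit 5) (nat_lit 122) (nat_lit 5) (nat_lit 118) (nat_lit 5) (nat_lit 424) (nat_lit 350) (nat_lit 246))))) (XT.nd (nat_lit 47424) (nat_lit 0) (nat_lit 44384) (XT.nd (nat_lit 47346) (nat_lit 0) (nat_lit 45448) (XT.lf (nat_lit 0) (nat_lit 19503746406) (nat_lit 304) (nat_lit 434056244) (nat_lit 76) (nat_lit 27943076) (nat_lit 114) (nat_lit 5) (nat_lit 118) (nat_lit 5) (nat_lit 115) (nat_lit 5) (nat_lit 425) (nat_lit 350) (nat_lit 245)) (XT.lf (nat_lit 0) (nat_lit 981102511) (nat_lit 0) (nat_lit 981102511) (nat_lit 988) (nat_lit 1514386281) (nat_lit 712) (nat_lit 5) (nat_lit 712) (nat_lit 3) (nat_lit 725) (nat_lit 3) (nat_lit 351)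 (nat_lit 351) (nat_lit 318))) (XT.nd (nat_lit 78) (nat_lit 1064) (nat_lit 0) (XT.lf (nat_lit 76) (nat_lit 233309619) (nat_lit 0) (nat_lit 6557413642) (nat_lit 1064) (nat_lit 210608145) (nat_lit 713) (nat_lit 5) (nat_lit 712) (nat_lit 5) (nat_lit 726) (nat_lit 5) (nat_lit 352) (nat_lit 351) (nat_lit 317)) (XT.nd (nat_lit 78) (nat_lit 0) (nat_lit 0) (XT.lf (nat_lit 0) (nat_lit 2593820208) (nat_lit 1064) (nat_lit 1457895003) (nat_lit 1140) (nat_lit 3000119350) (nat_lit 698) (nat_lit 5) (nat_lit 712) (nat_lit 5) (nat_lit 713) (nat_lit 5) (nat_lit 353) (nat_lit 351) (nat_lit 316)) (XT.lf (nat_lit 76) (nat_lit 4004919917) (nat_lit 0) (nat_lit 1393686874) (nat_lit 1140) (nat_lit 1706836444) (nat_lit 699) (nat_lit 5) (nat_lit 698) (nat_lit 5) (nat_lit 713) (nat_lit 5) (nat_lit 354) (nat_lit 351) (nat_lit 315))))))) (XT.nd (nat_lit 780) (nat_lit 12388) (nat_lit 0) (XT.nd (nat_lit 390) (nat_lit 2508) (nat_lit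 0) (XT.nd (nat_lit 156) (nat_lit 1140) (nat_lit 0) (XT.nd (nat_lit 78) (nat_lit 0) (nat_lit 0) (XT.lf (nat_lit 0) (nat_lit 1042373091) (nat_lit 1140) (nat_lit 4713567802) (nat_lit 1216) (nat_lit 1405967437) (nat_lit 684) (nat_lit 5) (nat_lit 699) (nat_lit 5) (nat_lit 700) (nat_lit 5) (nat_lit 355) (nat_lit 351) (nat_lit 314)) (XT.lf (nat_lit 76) (nat_lit 918048996) (nat_lit 0) (nat_lit 2867481351) (nat_lit 1216) (nat_lit 3435618175) (nat_lit 685) (nat_lit 5) (nat_lit 684) (nat_lit 5) (nat_lit 700) (nat_lit 5) (nat_lit 356) (nat_lit 351) (nat_lit 313))) (XT.nd (nat_lit 78) (nat_lit 1216) (nat_lit 0) (XT.lf (nat_lit 0) (nat_lit 6544783398) (nat_lit 1140) (nat_lit 560168225) (nat_lit 1216) (nat_lit 178538275) (nat_lit 685) (nat_lit 5) (nat_lit 700) (nat_lit 5) (nat_lit 701) (nat_lit 5) (nat_lit 357) (nat_lit 351) (nat_lit 312)) (XT.nd (nat_lit 78) (nat_lit 0) (nat_lit 0) (XT.lf (nat_lit 0) (nat_lit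 1969816087) (nat_lit 1216) (nat_lit 2014598099) (nat_lit 1292) (nat_lit 3363873606) (nat_lit 669) (nat_lit 5) (nat_lit 685) (nat_lit 5) (nat_lit 686) (nat_lit 5) (nat_lit 358) (nat_lit 351) (nat_lit 311)) (XT.lf (nat_lit 76) (nat_lit 3984988274) (nat_lit 0) (nat_lit 699959093) (nat_lit 1292) (nat_lit 2731276816) (nat_lit 670) (nat_lit 5) (nat_lit 669) (nat_lit 5) (nat_lit 686) (nat_lit 5) (nat_lit 359) (nat_lit 351) (nat_lit 310))))) (XT.nd (nat_lit 156) (nat_lit 1292) (nat_lit 0) (XT.nd (nat_lit 78) (nat_lit 1292) (nat_lit 0) (XT.lf (nat_lit 76) (nat_lit 2663147985) (nat_lit 0) (nat_lit 4775062261) (nat_lit 1292) (nat_lit 48854867) (nat_lit 671) (nat_lit 5) (nat_lit 670) (nat_lit 5) (nat_lit 687) (nat_lit 5) (nat_lit 360) (nat_lit 351) (nat_lit 309)) (XT.lf (nat_lit 76) (nat_lit 1362479460) (nat_lit 0) (nat_lit 1262816211) (nat_lit 1368) (nat_lit 4935446151) (nat_lit 654) (nat_lit 5) (nat_lit 653)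 (nat_lit 5) (nat_lit 671) (nat_lit 5) (nat_lit 361) (nat_lit 351) (nat_lit 308))) (XT.nd (nat_lit 78) (nat_lit 1368) (nat_lit 0) (XT.lf (nat_lit 76) (nat_lit 88195330) (nat_lit 0) (nat_lit 5251919380) (nat_lit 1368) (nat_lit 2297285511) (nat_lit 655) (nat_lit 5) (nat_lit 654) (nat_lit 5) (nat_lit 672) (nat_lit 5) (nat_lit 362) (nat_lit 351) (nat_lit 307)) (XT.nd (nat_lit 78) (nat_lit 0) (nat_lit 76) (XT.lf (nat_lit 0) (nat_lit 379166646) (nat_lit 1368) (nat_lit 1140675271) (nat_lit 1444) (nat_lit 6197168805) (nat_lit 636) (nat_lit 5) (nat_lit 654) (nat_lit 5) (nat_lit 655) (nat_lit 5) (nat_lit 363) (nat_lit 351) (nat_lit 306)) (XT.lf (nat_lit 0) (nat_lit 3072322416) (nat_lit 1368) (nat_lit 2358933192) (nat_lit 1444) (nat_lit 2368097806) (nat_lit 637) (nat_lit 5) (nat_lit 655) (nat_lit 5) (nat_lit 656) (nat_lit 5) (nat_lit 364) (nat_lit 351) (nat_lit 305)))))) (XT.nd (nat_lit 390) (nat_lit 6460) (nat_lit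 0) (XT.nd (nat_lit 156) (nat_lit 4636) (nat_lit 0) (XT.nd (nat_lit 78) (nat_lit 1368) (nat_lit 0) (XT.lf (nat_lit 76) (nat_lit 4336409020) (nat_lit 0) (nat_lit 1474597611) (nat_lit 1444) (nat_lit 2073865082) (nat_lit 638) (nat_lit 5) (nat_lit 637) (nat_lit 5) (nat_lit 656) (nat_lit 5) (nat_lit 365) (nat_lit 351) (nat_lit 304)) (XT.lf (nat_lit 0) (nat_lit 624950367) (nat_lit 1444) (nat_lit 4721115074) (nat_lit 76) (nat_lit 2627310638) (nat_lit 619) (nat_lit 5) (nat_lit 638) (nat_lit 5) (nat_lit 620) (nat_lit 5) (nat_lit 366) (nat_lit 351) (nat_lit 303))) (XT.nd (nat_lit 78) (nat_lit 3192) (nat_lit 0) (XT.lf (nat_lit 0) (nat_lit 2184723293) (nat_lit 1444) (nat_lit 1162388777) (nat_lit 1520) (nat_lit 4717738190) (nat_lit 600) (nat_lit 5) (nat_lit 619) (nat_lit 5) (nat_lit 620) (nat_lit 5) (nat_lit 367) (nat_lit 351) (nat_lit 302)) (XT.nd (nat_lit 78) (nat_lit 1672) (nat_lit 0) (XT.lf (nat_lit 0) (nat_lit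 1136002362) (nat_lit 1520) (nat_lit 4999067288) (nat_lit 1596) (nat_lit 2024316398) (nat_lit 580) (nat_lit 5) (nat_lit 600) (nat_lit 5) (nat_lit 601) (nat_lit 5) (nat_lit 368) (nat_lit 351) (nat_lit 301)) (XT.lf (nat_lit 0) (nat_lit 113559000) (nat_lit 1596) (nat_lit 600577039) (nat_lit 1672) (nat_lit 7543043227) (nat_lit 558) (nat_lit 5) (nat_lit 579) (nat_lit 5) (nat_lit 580) (nat_lit 5) (nat_lit 369) (nat_lit 351) (nat_lit 300))))) (XT.nd (nat_lit 156) (nat_lit 4788) (nat_lit 0) (XT.nd (nat_lit 78) (nat_lit 1672) (nat_lit 0) (XT.lf (nat_lit 0) (nat_lit 3508112399) (nat_lit 1672) (nat_lit 898264652) (nat_lit 76) (nat_lit 3951244159) (nat_lit 558) (nat_lit 5) (nat_lit 580) (nat_lit 5) (nat_lit 559) (nat_lit 5) (nat_lit 370) (nat_lit 351) (nat_lit 299)) (XT.lf (nat_lit 0) (nat_lit 6363548736) (nat_lit 1748) (nat_lit 1877058346) (nat_lit 76) (nat_lit 220916515) (nat_lit 536) (nat_lit 5) (nat_lit 559)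 (nat_lit 5) (nat_lit 537) (nat_lit 5) (nat_lit 371) (nat_lit 351) (nat_lit 298))) (XT.nd (nat_lit 78) (nat_lit 2964) (nat_lit 0) (XT.lf (nat_lit 0) (nat_lit 730344187) (nat_lit 1824) (nat_lit 2853524706) (nat_lit 76) (nat_lit 4984500714) (nat_lit 512) (nat_lit 5) (nat_lit 536) (nat_lit 5) (nat_lit 513) (nat_lit 5) (nat_lit 372) (nat_lit 351) (nat_lit 297)) (XT.nd (nat_lit 78) (nat_lit 1140) (nat_lit 0) (XT.lf (nat_lit 0) (nat_lit 3600206177) (nat_lit 1900) (nat_lit 3816329562) (nat_lit 76) (nat_lit 1261903973) (nat_lit 488) (nat_lit 5) (nat_lit 513) (nat_lit 5) (nat_lit 489) (nat_lit 5) (nat_lit 373) (nat_lit 351) (nat_lit 296)) (XT.lf (nat_lit 0) (nat_lit 4023942681) (nat_lit 1140) (nat_lit 2535703060) (nat_lit 1216) (nat_lit 2232096545) (nat_lit 473) (nat_lit 5) (nat_lit 488) (nat_lit 5) (nat_lit 489) (nat_lit 5) (nat_lit 374) (nat_lit 351) (nat_lit 295))))))))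
noncomputable def xc74 : XT := (XT.nd (nat_lit 1482) (nat_lit 9272) (nat_lit 0) (XT.nd (nat_lit 702) (nat_lit 6992) (nat_lit 0) (XT.nd (nat_lit 312) (nat_lit 3268) (nat_lit 0) (XT.nd (nat_lit 156) (nat_lit 1824) (nat_lit 0) (XT.nd (nat_lit 78) (nat_lit 912) (nat_lit 0) (XT.lf (nat_lit 0) (nat_lit 688757058) (nat_lit 988) (nat_lit 5705453382) (nat_lit 76) (nat_lit 2514172563) (nat_lit 460) (nat_lit 5) (nat_lit 473) (nat_lit 5) (nat_lit 461) (nat_lit 5) (nat_lit 375) (nat_lit 351) (nat_lit 294)) (XT.lf (nat_lit 0) (nat_lit 2387640501) (nat_lit 912) (nat_lit 1280972250) (nat_lit 988) (nat_lit 5359581069) (nat_lit 448) (nat_lit 5) (nat_lit 460) (nat_lit 5) (nat_lit 461) (nat_lit 5) (nat_lit 376) (nat_lit 351) (nat_lit 293))) (XT.nd (nat_lit 78) (nat_lit 988) (nat_lit 0) (XT.lf (nat_lit 0) (nat_lit 1583443886) (nat_lit 836) (nat_lit 5167505964) (nat_lit 912) (nat_lit 2400387397) (nat_lit 437) (nat_lit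 5) (nat_lit 448) (nat_lit 5) (nat_lit 449) (nat_lit 5) (nat_lit 377) (nat_lit 351) (nat_lit 292)) (XT.lf (nat_lit 0) (nat_lit 638265801) (nat_lit 988) (nat_lit 8475750026) (nat_lit 76) (nat_lit 164091521) (nat_lit 424) (nat_lit 5) (nat_lit 437) (nat_lit 5) (nat_lit 425) (nat_lit 5) (nat_lit 378) (nat_lit 351) (nat_lit 291)))) (XT.nd (nat_lit 156) (nat_lit 2432) (nat_lit 0) (XT.nd (nat_lit 78) (nat_lit 0) (nat_lit 0) (XT.lf (nat_lit 0) (nat_lit 6816275) (nat_lit 836) (nat_lit 3755451656) (nat_lit 912) (nat_lit 5645559266) (nat_lit 413) (nat_lit 5) (nat_lit 424) (nat_lit 5) (nat_lit 425) (nat_lit 5) (nat_lit 379) (nat_lit 351) (nat_lit 290)) (XT.lf (nat_lit 0) (nat_lit 6990971412) (nat_lit 912) (nat_lit 754362700) (nat_lit 76) (nat_lit 1795884904) (nat_lit 413) (nat_lit 5) (nat_lit 425) (nat_lit 5) (nat_lit 414) (nat_lit 5) (nat_lit 380) (nat_lit 351) (nat_lit 289))) (XT.nd (nat_lit 78) (nat_lit 1520)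 (nat_lit 0) (XT.lf (nat_lit 0) (nat_lit 651293816) (nat_lit 912) (nat_lit 1509006464) (nat_lit 76) (nat_lit 7517794736) (nat_lit 401) (nat_lit 5) (nat_lit 413) (nat_lit 5) (nat_lit 402) (nat_lit 5) (nat_lit 381) (nat_lit 351) (nat_lit 288)) (XT.nd (nat_lit 78) (nat_lit 760) (nat_lit 0) (XT.lf (nat_lit 0) (nat_lit 3936827029) (nat_lit 836) (nat_lit 2268764026) (nat_lit 76) (nat_lit 3612697229) (nat_lit 391) (nat_lit 5) (nat_lit 402) (nat_lit 5) (nat_lit 392) (nat_lit 5) (nat_lit 382) (nat_lit 351) (nat_lit 287)) (XT.lf (nat_lit 0) (nat_lit 6954524865) (nat_lit 760) (nat_lit 381811721) (nat_lit 836) (nat_lit 2626042559) (nat_lit 381) (nat_lit 5) (nat_lit 391) (nat_lit 5) (nat_lit 392) (nat_lit 5) (nat_lit 383) (nat_lit 351) (nat_lit 286)))))) (XT.nd (nat_lit 390) (nat_lit 3268) (nat_lit 0) (XT.nd (nat_lit 156) (nat_lit 2128) (nat_lit 0) (XT.nd (nat_lit 78) (nat_lit 760) (nat_lit 0) (XT.lf (nat_lit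 0) (nat_lit 757696661) (nat_lit 836) (nat_lit 3753235603) (nat_lit 76) (nat_lit 5598962193) (nat_lit 370) (nat_lit 5) (nat_lit 381) (nat_lit 5) (nat_lit 371) (nat_lit 5) (nat_lit 384) (nat_lit 351) (nat_lit 285)) (XT.lf (nat_lit 0) (nat_lit 4225700424) (nat_lit 836) (nat_lit 4494015113) (nat_lit 76) (nat_lit 1541403930) (nat_lit 360) (nat_lit 5) (nat_lit 371) (nat_lit 5) (nat_lit 361) (nat_lit 5) (nat_lit 385) (nat_lit 351) (nat_lit 284))) (XT.nd (nat_lit 78) (nat_lit 1444) (nat_lit 0) (XT.lf (nat_lit 0) (nat_lit 5185802916) (nat_lit 684) (nat_lit 2649980340) (nat_lit 760) (nat_lit 2580337192) (nat_lit 351) (nat_lit 5) (nat_lit 360) (nat_lit 5) (nat_lit 361) (nat_lit 5) (nat_lit 386) (nat_lit 351) (nat_lit 283)) (XT.nd (nat_lit 78) (nat_lit 684) (nat_lit 0) (XT.lf (nat_lit 0) (nat_lit 999480153) (nat_lit 760) (nat_lit 5962216185) (nat_lit 76) (nat_lit 3613269774) (nat_lit 341) (nat_lit 5) (nat_lit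 351) (nat_lit 5) (nat_lit 342) (nat_lit 5) (nat_lit 387) (nat_lit 351) (nat_lit 282)) (XT.lf (nat_lit 0) (nat_lit 4043052051) (nat_lit 684) (nat_lit 638848350) (nat_lit 760) (nat_lit 6055730324) (nat_lit 332) (nat_lit 5) (nat_lit 341) (nat_lit 5) (nat_lit 342) (nat_lit 5) (nat_lit 388) (nat_lit 351) (nat_lit 281))))) (XT.nd (nat_lit 156) (nat_lit 1900) (nat_lit 0) (XT.nd (nat_lit 78) (nat_lit 684) (nat_lit 0) (XT.lf (nat_lit 0) (nat_lit 3473339344) (nat_lit 684) (nat_lit 5054224755) (nat_lit 760) (nat_lit 2376555761) (nat_lit 323) (nat_lit 5) (nat_lit 332) (nat_lit 5) (nat_lit 333) (nat_lit 5) (nat_lit 389) (nat_lit 351) (nat_lit 280)) (XT.lf (nat_lit 0) (nat_lit 1425373300) (nat_lit 684) (nat_lit 8156128055) (nat_lit 76) (nat_lit 1493300612) (nat_lit 314) (nat_lit 5) (nat_lit 323) (nat_lit 5) (nat_lit 315) (nat_lit 5) (nat_lit 390) (nat_lit 351) (nat_lit 279))) (XT.nd (nat_lit 78) (nat_lit 1292)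 (nat_lit 0) (XT.lf (nat_lit 0) (nat_lit 2352448280) (nat_lit 608) (nat_lit 3009644512) (nat_lit 684) (nat_lit 5887137153) (nat_lit 306) (nat_lit 5) (nat_lit 314) (nat_lit 5) (nat_lit 315) (nat_lit 5) (nat_lit 391) (nat_lit 351) (nat_lit 278)) (XT.nd (nat_lit 78) (nat_lit 684) (nat_lit 0) (XT.lf (nat_lit 0) (nat_lit 1799984900) (nat_lit 608) (nat_lit 7662644682) (nat_lit 684) (nat_lit 1965346866) (nat_lit 298) (nat_lit 5) (nat_lit 306) (nat_lit 5) (nat_lit 307) (nat_lit 5) (nat_lit 392) (nat_lit 351) (nat_lit 277)) (XT.lf (nat_lit 0) (nat_lit 1252355336) (nat_lit 608) (nat_lit 838135524) (nat_lit 684) (nat_lit 9520453240) (nat_lit 289) (nat_lit 5) (nat_lit 297) (nat_lit 5) (nat_lit 298) (nat_lit 5) (nat_lit 393) (nat_lit 351) (nat_lit 276))))))) (XT.nd (nat_lit 780) (nat_lit 4332) (nat_lit 0) (XT.nd (nat_lit 390) (nat_lit 2660) (nat_lit 0) (XT.nd (nat_lit 156) (nat_lit 1140) (nat_lit 0) (XT.nd (nat_lit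 78) (nat_lit 608) (nat_lit 0) (XT.lf (nat_lit 0) (nat_lit 689595287) (nat_lit 532) (nat_lit 5617719154) (nat_lit 608) (nat_lit 5490506280) (nat_lit 282) (nat_lit 5) (nat_lit 289) (nat_lit 5) (nat_lit 290) (nat_lit 5) (nat_lit 394) (nat_lit 351) (nat_lit 275)) (XT.lf (nat_lit 0) (nat_lit 150605118) (nat_lit 608) (nat_lit 10542721769) (nat_lit 684) (nat_lit 1296123071) (nat_lit 274) (nat_lit 5) (nat_lit 282) (nat_lit 5) (nat_lit 283) (nat_lit 5) (nat_lit 395) (nat_lit 351) (nat_lit 274))) (XT.nd (nat_lit 78) (nat_lit 1064) (nat_lit 0) (XT.lf (nat_lit 0) (nat_lit 3054728514) (nat_lit 684) (nat_lit 401712732) (nat_lit 76) (nat_lit 8728588170) (nat_lit 273) (nat_lit 5) (nat_lit 282) (nat_lit 5) (nat_lit 274) (nat_lit 5) (nat_lit 396) (nat_lit 351) (nat_lit 273)) (XT.nd (nat_lit 78) (nat_lit 532) (nat_lit 0) (XT.lf (nat_lit 0) (nat_lit 7576644944) (nat_lit 608) (nat_lit 947089643) (nat_lit 76) (nat_lit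 3861407352) (nat_lit 266) (nat_lit 5) (nat_lit 274) (nat_lit 5) (nat_lit 267) (nat_lit 5) (nat_lit 397) (nat_lit 351) (nat_lit 272)) (XT.lf (nat_lit 0) (nat_lit 11113867620) (nat_lit 532) (nat_lit 1177341496) (nat_lit 608) (nat_lit 298908918) (nat_lit 259) (nat_lit 5) (nat_lit 266) (nat_lit 5) (nat_lit 267) (nat_lit 5) (nat_lit 398) (nat_lit 351) (nat_lit 271))))) (XT.nd (nat_lit 156) (nat_lit 1520) (nat_lit 0) (XT.nd (nat_lit 78) (nat_lit 532) (nat_lit 0) (XT.lf (nat_lit 0) (nat_lit 4367217644) (nat_lit 608) (nat_lit 2035759788) (nat_lit 76) (nat_lit 6396136661) (nat_lit 251) (nat_lit 5) (nat_lit 259) (nat_lit 5) (nat_lit 252) (nat_lit 5) (nat_lit 399) (nat_lit 351) (nat_lit 270)) (XT.lf (nat_lit 0) (nat_lit 9223340451) (nat_lit 608) (nat_lit 2573644833) (nat_lit 76) (nat_lit 1216273765) (nat_lit 244) (nat_lit 5) (nat_lit 252) (nat_lit 5) (nat_lit 245) (nat_lit 5) (nat_lit 400) (nat_lit 351) (nat_lit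 269))) (XT.nd (nat_lit 78) (nat_lit 988) (nat_lit 0) (XT.lf (nat_lit 0) (nat_lit 1062241112) (nat_lit 532) (nat_lit 3121057736) (nat_lit 76) (nat_lit 9048722305) (nat_lit 237) (nat_lit 5) (nat_lit 244) (nat_lit 5) (nat_lit 238) (nat_lit 5) (nat_lit 401) (nat_lit 351) (nat_lit 268)) (XT.nd (nat_lit 78) (nat_lit 456) (nat_lit 0) (XT.lf (nat_lit 0) (nat_lit 6075826662) (nat_lit 608) (nat_lit 3677772558) (nat_lit 76) (nat_lit 3701898847) (nat_lit 230) (nat_lit 5) (nat_lit 238) (nat_lit 5) (nat_lit 231) (nat_lit 5) (nat_lit 402) (nat_lit 351) (nat_lit 267)) (XT.lf (nat_lit 0) (nat_lit 9462286853) (nat_lit 456) (nat_lit 1850401453) (nat_lit 532) (nat_lit 2371533613) (nat_lit 224) (nat_lit 5) (nat_lit 230) (nat_lit 5) (nat_lit 231) (nat_lit 5) (nat_lit 403) (nat_lit 351) (nat_lit 266)))))) (XT.nd (nat_lit 390) (nat_lit 1976) (nat_lit 0) (XT.nd (nat_lit 156) (nat_lit 1368) (nat_lit 0) (XT.nd (nat_lit 78)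 (nat_lit 456) (nat_lit 0) (XT.lf (nat_lit 0) (nat_lit 2839042305) (nat_lit 532) (nat_lit 4784492883) (nat_lit 76) (nat_lit 6294135536) (nat_lit 217) (nat_lit 5) (nat_lit 224) (nat_lit 5) (nat_lit 218) (nat_lit 5) (nat_lit 404) (nat_lit 351) (nat_lit 265)) (XT.lf (nat_lit 0) (nat_lit 8239471085) (nat_lit 532) (nat_lit 5337898643) (nat_lit 76) (nat_lit 579124641) (nat_lit 211) (nat_lit 5) (nat_lit 218) (nat_lit 5) (nat_lit 212) (nat_lit 5) (nat_lit 405) (nat_lit 351) (nat_lit 264))) (XT.nd (nat_lit 78) (nat_lit 912) (nat_lit 0) (XT.lf (nat_lit 0) (nat_lit 8499996798) (nat_lit 456) (nat_lit 5404641287) (nat_lit 532) (nat_lit 495790131) (nat_lit 205) (nat_lit 5) (nat_lit 211) (nat_lit 5) (nat_lit 212) (nat_lit 5) (nat_lit 406) (nat_lit 351) (nat_lit 263)) (XT.nd (nat_lit 78) (nat_lit 456) (nat_lit 0) (XT.lf (nat_lit 0) (nat_lit 5095628650) (nat_lit 456) (nat_lit 6474165039) (nat_lit 76) (nat_lit 3079740091)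 (nat_lit 199) (nat_lit 5) (nat_lit 205) (nat_lit 5) (nat_lit 200) (nat_lit 5) (nat_lit 407) (nat_lit 351) (nat_lit 262)) (XT.lf (nat_lit 0) (nat_lit 7859207430) (nat_lit 456) (nat_lit 3081279443) (nat_lit 532) (nat_lit 3963711439) (nat_lit 193) (nat_lit 5) (nat_lit 199) (nat_lit 5) (nat_lit 200) (nat_lit 5) (nat_lit 408) (nat_lit 351) (nat_lit 261))))) (XT.nd (nat_lit 156) (nat_lit 1140) (nat_lit 0) (XT.nd (nat_lit 78) (nat_lit 380) (nat_lit 0) (XT.lf (nat_lit 0) (nat_lit 1866804379) (nat_lit 456) (nat_lit 7622017498) (nat_lit 76) (nat_lit 5675524975) (nat_lit 187) (nat_lit 5) (nat_lit 193) (nat_lit 5) (nat_lit 188) (nat_lit 5) (nat_lit 409) (nat_lit 351) (nat_lit 260)) (XT.lf (nat_lit 0) (nat_lit 7227369436) (nat_lit 380) (nat_lit 672892282) (nat_lit 456) (nat_lit 7529876580) (nat_lit 182) (nat_lit 5) (nat_lit 187) (nat_lit 5) (nat_lit 188) (nat_lit 5) (nat_lit 410) (nat_lit 351) (nat_lit 259)))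 (XT.nd (nat_lit 78) (nat_lit 760) (nat_lit 0) (XT.lf (nat_lit 0) (nat_lit 6907313377) (nat_lit 380) (nat_lit 7325357678) (nat_lit 456) (nat_lit 1468873466) (nat_lit 177) (nat_lit 5) (nat_lit 182) (nat_lit 5) (nat_lit 183) (nat_lit 5) (nat_lit 411) (nat_lit 351) (nat_lit 258)) (XT.nd (nat_lit 78) (nat_lit 304) (nat_lit 0) (XT.lf (nat_lit 0) (nat_lit 4793433917) (nat_lit 456) (nat_lit 9388807785) (nat_lit 76) (nat_lit 1796589606) (nat_lit 171) (nat_lit 5) (nat_lit 177) (nat_lit 5) (nat_lit 172) (nat_lit 5) (nat_lit 412) (nat_lit 351) (nat_lit 257)) (XT.lf (nat_lit 0) (nat_lit 6264560120) (nat_lit 304) (nat_lit 5076318293) (nat_lit 380) (nat_lit 4921019617) (nat_lit 167) (nat_lit 5) (nat_lit 171) (nat_lit 5) (nat_lit 172) (nat_lit 5) (nat_lit 413) (nat_lit 351) (nat_lit 256))))))))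
noncomputable def xc75 : XT := (XT.nd (nat_lit 48906) (nat_lit 0) (nat_lit 23560) (XT.nd (nat_lit 780) (nat_lit 608) (nat_lit 0) (XT.nd (nat_lit 390) (nat_lit 1596) (nat_lit 0) (XT.nd (nat_lit 156) (nat_lit 1064) (nat_lit 0) (XT.nd (nat_lit 78) (nat_lit 304) (nat_lit 0) (XT.lf (nat_lit 0) (nat_lit 1610513612) (nat_lit 456) (nat_lit 10599392950) (nat_lit 76) (nat_lit 4341365203) (nat_lit 161) (nat_lit 5) (nat_lit 167) (nat_lit 5) (nat_lit 162) (nat_lit 5) (nat_lit 414) (nat_lit 351) (nat_lit 255)) (XT.lf (nat_lit 0) (nat_lit 5624293082) (nat_lit 304) (nat_lit 2754241474) (nat_lit 380) (nat_lit 8467993617) (nat_lit 157) (nat_lit 5) (nat_lit 161) (nat_lit 5) (nat_lit 162) (nat_lit 5) (nat_lit 415) (nat_lit 351) (nat_lit 254))) (XT.nd (nat_lit 78) (nat_lit 684) (nat_lit 0) (XT.lf (nat_lit 0) (nat_lit 5304017052) (nat_lit 380) (nat_lit 10166505176) (nat_lit 456) (nat_lit 1677701523) (nat_lit 152) (nat_lit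 5) (nat_lit 157) (nat_lit 5) (nat_lit 158) (nat_lit 5) (nat_lit 416) (nat_lit 351) (nat_lit 253)) (XT.nd (nat_lit 78) (nat_lit 304) (nat_lit 0) (XT.lf (nat_lit 0) (nat_lit 4984267558) (nat_lit 304) (nat_lit 358857090) (nat_lit 380) (nat_lit 12113224218) (nat_lit 147) (nat_lit 5) (nat_lit 151) (nat_lit 5) (nat_lit 152) (nat_lit 5) (nat_lit 417) (nat_lit 351) (nat_lit 252)) (XT.lf (nat_lit 0) (nat_lit 4643951883) (nat_lit 304) (nat_lit 8051837510) (nat_lit 380) (nat_lit 5074826406) (nat_lit 143) (nat_lit 5) (nat_lit 147) (nat_lit 5) (nat_lit 148) (nat_lit 5) (nat_lit 418) (nat_lit 351) (nat_lit 251))))) (XT.nd (nat_lit 156) (nat_lit 912) (nat_lit 0) (XT.nd (nat_lit 78) (nat_lit 304) (nat_lit 0) (XT.lf (nat_lit 0) (nat_lit 2245616216) (nat_lit 380) (nat_lit 13763728166) (nat_lit 76) (nat_lit 2082695668) (nat_lit 138) (nat_lit 5) (nat_lit 143) (nat_lit 5) (nat_lit 139) (nat_lit 5) (nat_lit 419) (nat_lit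 351) (nat_lit 250)) (XT.lf (nat_lit 0) (nat_lit 3980302619) (nat_lit 304) (nat_lit 5876524963) (nat_lit 380) (nat_lit 8562806506) (nat_lit 134) (nat_lit 5) (nat_lit 138) (nat_lit 5) (nat_lit 139) (nat_lit 5) (nat_lit 420) (nat_lit 351) (nat_lit 249))) (XT.nd (nat_lit 78) (nat_lit 608) (nat_lit 0) (XT.lf (nat_lit 0) (nat_lit 3659148786) (nat_lit 304) (nat_lit 14155382765) (nat_lit 380) (nat_lit 940161271) (nat_lit 130) (nat_lit 5) (nat_lit 134) (nat_lit 5) (nat_lit 135) (nat_lit 5) (nat_lit 421) (nat_lit 351) (nat_lit 248)) (XT.nd (nat_lit 78) (nat_lit 228) (nat_lit 0) (XT.lf (nat_lit 0) (nat_lit 3310914461) (nat_lit 304) (nat_lit 3640150639) (nat_lit 380) (nat_lit 12145229921) (nat_lit 125) (nat_lit 5) (nat_lit 129) (nat_lit 5) (nat_lit 130) (nat_lit 5) (nat_lit 422) (nat_lit 351) (nat_lit 247)) (XT.lf (nat_lit 0) (nat_lit 2967632657) (nat_lit 228) (nat_lit 12239278719) (nat_lit 304) (nat_lit 4238296497)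 (nat_lit 122) (nat_lit 5) (nat_lit 125) (nat_lit 5) (nat_lit 126) (nat_lit 5) (nat_lit 423) (nat_lit 351) (nat_lit 246)))))) (XT.nd (nat_lit 47736) (nat_lit 0) (nat_lit 42104) (XT.nd (nat_lit 47502) (nat_lit 0) (nat_lit 43244) (XT.nd (nat_lit 78) (nat_lit 228) (nat_lit 0) (XT.lf (nat_lit 0) (nat_lit 2633657048) (nat_lit 304) (nat_lit 1342076397) (nat_lit 380) (nat_lit 15825925191) (nat_lit 117) (nat_lit 5) (nat_lit 121) (nat_lit 5) (nat_lit 122) (nat_lit 5) (nat_lit 424) (nat_lit 351) (nat_lit 245)) (XT.lf (nat_lit 0) (nat_lit 2266697589) (nat_lit 228) (nat_lit 10275893448) (nat_lit 304) (nat_lit 7622371811) (nat_lit 114) (nat_lit 5) (nat_lit 117) (nat_lit 5) (nat_lit 118) (nat_lit 5) (nat_lit 425) (nat_lit 351) (nat_lit 244))) (XT.nd (nat_lit 78) (nat_lit 1064) (nat_lit 0) (XT.lf (nat_lit 0) (nat_lit 1255101398) (nat_lit 1140) (nat_lit 1135050476) (nat_lit 1140) (nat_lit 1135050476) (nat_lit 697)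 (nat_lit 3) (nat_lit 712) (nat_lit 3) (nat_lit 712) (nat_lit 5) (nat_lit 352) (nat_lit 352) (nat_lit 316)) (XT.nd (nat_lit 78) (nat_lit 1064) (nat_lit 0) (XT.lf (nat_lit 76) (nat_lit 3048911999) (nat_lit 0) (nat_lit 2178353666) (nat_lit 1140) (nat_lit 1875306911) (nat_lit 698) (nat_lit 5) (nat_lit 697) (nat_lit 3) (nat_lit 712) (nat_lit 5) (nat_lit 353) (nat_lit 352) (nat_lit 315)) (XT.lf (nat_lit 0) (nat_lit 781386726) (nat_lit 1140) (nat_lit 5801959962) (nat_lit 1216) (nat_lit 574380768) (nat_lit 683) (nat_lit 5) (nat_lit 698) (nat_lit 5) (nat_lit 699) (nat_lit 5) (nat_lit 354) (nat_lit 352) (nat_lit 314))))) (XT.nd (nat_lit 156) (nat_lit 1140) (nat_lit 0) (XT.nd (nat_lit 78) (nat_lit 0) (nat_lit 0) (XT.lf (nat_lit 0) (nat_lit 3432845010) (nat_lit 1140) (nat_lit 314807338) (nat_lit 1216) (nat_lit 3467825882) (nat_lit 683) (nat_lit 5) (nat_lit 698) (nat_lit 5) (nat_lit 699) (nat_lit 5) (nat_lit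 355) (nat_lit 352) (nat_lit 313)) (XT.lf (nat_lit 76) (nat_lit 5352307062) (nat_lit 0) (nat_lit 747434648) (nat_lit 1216) (nat_lit 1176501922) (nat_lit 684) (nat_lit 5) (nat_lit 683) (nat_lit 5) (nat_lit 699) (nat_lit 5) (nat_lit 356) (nat_lit 352) (nat_lit 312))) (XT.nd (nat_lit 78) (nat_lit 0) (nat_lit 0) (XT.lf (nat_lit 0) (nat_lit 1433879955) (nat_lit 1216) (nat_lit 3515491226) (nat_lit 1292) (nat_lit 2390348184) (nat_lit 668) (nat_lit 5) (nat_lit 684) (nat_lit 5) (nat_lit 685) (nat_lit 5) (nat_lit 357) (nat_lit 352) (nat_lit 311)) (XT.nd (nat_lit 78) (nat_lit 0) (nat_lit 76) (XT.lf (nat_lit 76) (nat_lit 2327403886) (nat_lit 0) (nat_lit 1718276426) (nat_lit 1292) (nat_lit 3360481703) (nat_lit 669) (nat_lit 5) (nat_lit 668) (nat_lit 5) (nat_lit 685) (nat_lit 5) (nat_lit 358) (nat_lit 352) (nat_lit 310)) (XT.lf (nat_lit 76) (nat_lit 862631232) (nat_lit 0) (nat_lit 5821621779) (nat_lit 1292) (nat_lit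 791376567) (nat_lit 670) (nat_lit 5) (nat_lit 669) (nat_lit 5) (nat_lit 686) (nat_lit 5) (nat_lit 359) (nat_lit 352) (nat_lit 309))))))) (XT.nd (nat_lit 780) (nat_lit 11780) (nat_lit 0) (XT.nd (nat_lit 390) (nat_lit 4332) (nat_lit 0) (XT.nd (nat_lit 156) (nat_lit 1216) (nat_lit 0) (XT.nd (nat_lit 78) (nat_lit 0) (nat_lit 76) (XT.lf (nat_lit 0) (nat_lit 1786704472) (nat_lit 1292) (nat_lit 576390445) (nat_lit 1368) (nat_lit 5184720821) (nat_lit 652) (nat_lit 5) (nat_lit 669) (nat_lit 5) (nat_lit 670) (nat_lit 5) (nat_lit 360) (nat_lit 352) (nat_lit 308)) (XT.lf (nat_lit 0) (nat_lit 4389125752) (nat_lit 1292) (nat_lit 1977393381) (nat_lit 1368) (nat_lit 1256388742) (nat_lit 653) (nat_lit 5) (nat_lit 670) (nat_lit 5) (nat_lit 671) (nat_lit 5) (nat_lit 361) (nat_lit 352) (nat_lit 307))) (XT.nd (nat_lit 78) (nat_lit 1292) (nat_lit 0) (XT.lf (nat_lit 76) (nat_lit 4345744355) (nat_lit 0) (nat_lit 2686915402)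 (nat_lit 1368) (nat_lit 668332216) (nat_lit 654) (nat_lit 5) (nat_lit 653) (nat_lit 5) (nat_lit 671) (nat_lit 5) (nat_lit 362) (nat_lit 352) (nat_lit 306)) (XT.nd (nat_lit 78) (nat_lit 0) (nat_lit 0) (XT.lf (nat_lit 0) (nat_lit 1905926790) (nat_lit 1368) (nat_lit 4715280612) (nat_lit 1444) (nat_lit 1160800131) (nat_lit 636) (nat_lit 5) (nat_lit 654) (nat_lit 5) (nat_lit 655) (nat_lit 5) (nat_lit 363) (nat_lit 352) (nat_lit 305)) (XT.lf (nat_lit 76) (nat_lit 1805126071) (nat_lit 0) (nat_lit 2714706208) (nat_lit 1444) (nat_lit 3346102952) (nat_lit 637) (nat_lit 5) (nat_lit 636) (nat_lit 5) (nat_lit 655) (nat_lit 5) (nat_lit 364) (nat_lit 352) (nat_lit 304))))) (XT.nd (nat_lit 156) (nat_lit 2964) (nat_lit 0) (XT.nd (nat_lit 78) (nat_lit 1444) (nat_lit 0) (XT.lf (nat_lit 76) (nat_lit 573732519) (nat_lit 0) (nat_lit 6603814313) (nat_lit 1444) (nat_lit 775526091) (nat_lit 638) (nat_lit 5) (nat_lit 637)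 (nat_lit 5) (nat_lit 656) (nat_lit 5) (nat_lit 365) (nat_lit 352) (nat_lit 303)) (XT.lf (nat_lit 0) (nat_lit 1829528227) (nat_lit 1444) (nat_lit 641415129) (nat_lit 1520) (nat_lit 5572000002) (nat_lit 618) (nat_lit 5) (nat_lit 637) (nat_lit 5) (nat_lit 638) (nat_lit 5) (nat_lit 366) (nat_lit 352) (nat_lit 302))) (XT.nd (nat_lit 78) (nat_lit 3040) (nat_lit 0) (XT.lf (nat_lit 0) (nat_lit 4479979872) (nat_lit 1444) (nat_lit 1829154469) (nat_lit 76) (nat_lit 1826717400) (nat_lit 619) (nat_lit 5) (nat_lit 638) (nat_lit 5) (nat_lit 620) (nat_lit 5) (nat_lit 367) (nat_lit 352) (nat_lit 301)) (XT.nd (nat_lit 78) (nat_lit 1596) (nat_lit 0) (XT.lf (nat_lit 0) (nat_lit 5234642590) (nat_lit 1444) (nat_lit 1956804056) (nat_lit 1520) (nat_lit 1040470698) (nat_lit 600) (nat_lit 5) (nat_lit 619) (nat_lit 5) (nat_lit 620) (nat_lit 5) (nat_lit 368) (nat_lit 352) (nat_lit 300)) (XT.lf (nat_lit 0) (nat_lit 1616128896)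 (nat_lit 1596) (nat_lit 4157249760) (nat_lit 76) (nat_lit 2557583142) (nat_lit 579) (nat_lit 5) (nat_lit 600) (nat_lit 5) (nat_lit 580) (nat_lit 5) (nat_lit 369) (nat_lit 352) (nat_lit 299)))))) (XT.nd (nat_lit 390) (nat_lit 4864) (nat_lit 0) (XT.nd (nat_lit 156) (nat_lit 3648) (nat_lit 0) (XT.nd (nat_lit 78) (nat_lit 1672) (nat_lit 0) (XT.lf (nat_lit 0) (nat_lit 3130565336) (nat_lit 1596) (nat_lit 1191385378) (nat_lit 1672) (nat_lit 4111216119) (nat_lit 558) (nat_lit 5) (nat_lit 579) (nat_lit 5) (nat_lit 580) (nat_lit 5) (nat_lit 370) (nat_lit 352) (nat_lit 298)) (XT.lf (nat_lit 0) (nat_lit 2101422030) (nat_lit 1672) (nat_lit 5003899560) (nat_lit 1748) (nat_lit 1433188940) (nat_lit 536) (nat_lit 5) (nat_lit 558) (nat_lit 5) (nat_lit 559) (nat_lit 5) (nat_lit 371) (nat_lit 352) (nat_lit 297))) (XT.nd (nat_lit 78) (nat_lit 1824) (nat_lit 0) (XT.lf (nat_lit 0) (nat_lit 1092343037) (nat_lit 1748) (nat_lit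 199327823) (nat_lit 1824) (nat_lit 7355494164) (nat_lit 512) (nat_lit 5) (nat_lit 535) (nat_lit 5) (nat_lit 536) (nat_lit 5) (nat_lit 372) (nat_lit 352) (nat_lit 296)) (XT.nd (nat_lit 78) (nat_lit 0) (nat_lit 0) (XT.lf (nat_lit 0) (nat_lit 78447063) (nat_lit 1824) (nat_lit 4010000079) (nat_lit 1900) (nat_lit 4670249700) (nat_lit 488) (nat_lit 5) (nat_lit 512) (nat_lit 5) (nat_lit 513) (nat_lit 5) (nat_lit 373) (nat_lit 352) (nat_lit 295)) (XT.lf (nat_lit 0) (nat_lit 6964123439) (nat_lit 1900) (nat_lit 896170718) (nat_lit 76) (nat_lit 1013380525) (nat_lit 488) (nat_lit 5) (nat_lit 513) (nat_lit 5) (nat_lit 489) (nat_lit 5) (nat_lit 374) (nat_lit 352) (nat_lit 294))))) (XT.nd (nat_lit 156) (nat_lit 2736) (nat_lit 0) (XT.nd (nat_lit 78) (nat_lit 912) (nat_lit 0) (XT.lf (nat_lit 0) (nat_lit 932617809) (nat_lit 1216) (nat_lit 1867944836) (nat_lit 76) (nat_lit 6191199957) (nat_lit 472) (nat_lit 5) (nat_lit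 488) (nat_lit 5) (nat_lit 473) (nat_lit 5) (nat_lit 375) (nat_lit 352) (nat_lit 293)) (XT.lf (nat_lit 0) (nat_lit 3836070755) (nat_lit 988) (nat_lit 2834262007) (nat_lit 76) (nat_lit 2442768712) (nat_lit 460) (nat_lit 5) (nat_lit 473) (nat_lit 5) (nat_lit 461) (nat_lit 5) (nat_lit 376) (nat_lit 352) (nat_lit 292))) (XT.nd (nat_lit 78) (nat_lit 1824) (nat_lit 0) (XT.lf (nat_lit 0) (nat_lit 5452266098) (nat_lit 912) (nat_lit 1381421034) (nat_lit 988) (nat_lit 2404252183) (nat_lit 448) (nat_lit 5) (nat_lit 460) (nat_lit 5) (nat_lit 461) (nat_lit 5) (nat_lit 377) (nat_lit 352) (nat_lit 291)) (XT.nd (nat_lit 78) (nat_lit 912) (nat_lit 0) (XT.lf (nat_lit 0) (nat_lit 564950264) (nat_lit 912) (nat_lit 4734000107) (nat_lit 76) (nat_lit 4067149574) (nat_lit 436) (nat_lit 5) (nat_lit 448) (nat_lit 5) (nat_lit 437) (nat_lit 5) (nat_lit 378) (nat_lit 352) (nat_lit 290)) (XT.lf (nat_lit 0) (nat_lit 3594644346)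 (nat_lit 988) (nat_lit 5676188103) (nat_lit 76) (nat_lit 226873508) (nat_lit 424) (nat_lit 5) (nat_lit 437) (nat_lit 5) (nat_lit 425) (nat_lit 5) (nat_lit 379) (nat_lit 352) (nat_lit 289))))))))
noncomputable def xc76 : XT := (XT.nd (nat_lit 1482) (nat_lit 8512) (nat_lit 0) (XT.nd (nat_lit 702) (nat_lit 6232) (nat_lit 0) (XT.nd (nat_lit 312) (nat_lit 3040) (nat_lit 0) (XT.nd (nat_lit 156) (nat_lit 1520) (nat_lit 0) (XT.nd (nat_lit 78) (nat_lit 912) (nat_lit 0) (XT.lf (nat_lit 0) (nat_lit 3011310352) (nat_lit 836) (nat_lit 3735011624) (nat_lit 912) (nat_lit 2886316317) (nat_lit 413) (nat_lit 5) (nat_lit 424) (nat_lit 5) (nat_lit 425) (nat_lit 5) (nat_lit 380) (nat_lit 352) (nat_lit 288)) (XT.lf (nat_lit 0) (nat_lit 229094268) (nat_lit 912) (nat_lit 7549034991) (nat_lit 76) (nat_lit 1993239443) (nat_lit 401) (nat_lit 5) (nat_lit 413) (nat_lit 5) (nat_lit 402) (nat_lit 5) (nat_lit 381) (nat_lit 352)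 (nat_lit 287))) (XT.nd (nat_lit 78) (nat_lit 760) (nat_lit 0) (XT.lf (nat_lit 0) (nat_lit 1424359177) (nat_lit 760) (nat_lit 1999939386) (nat_lit 836) (nat_lit 6489069985) (nat_lit 391) (nat_lit 5) (nat_lit 401) (nat_lit 5) (nat_lit 402) (nat_lit 5) (nat_lit 382) (nat_lit 352) (nat_lit 286)) (XT.lf (nat_lit 0) (nat_lit 635621490) (nat_lit 760) (nat_lit 6108117914) (nat_lit 836) (nat_lit 3315321379) (nat_lit 381) (nat_lit 5) (nat_lit 391) (nat_lit 5) (nat_lit 392) (nat_lit 5) (nat_lit 383) (nat_lit 352) (nat_lit 285)))) (XT.nd (nat_lit 156) (nat_lit 2204) (nat_lit 0) (XT.nd (nat_lit 78) (nat_lit 836) (nat_lit 0) (XT.lf (nat_lit 0) (nat_lit 10079183560) (nat_lit 760) (nat_lit 102661983) (nat_lit 836) (nat_lit 26896599) (nat_lit 381) (nat_lit 5) (nat_lit 391) (nat_lit 5) (nat_lit 392) (nat_lit 5) (nat_lit 384) (nat_lit 352) (nat_lit 284)) (XT.lf (nat_lit 0) (nat_lit 3367176766) (nat_lit 836) (nat_lit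 912941887) (nat_lit 76) (nat_lit 6081337653) (nat_lit 370) (nat_lit 5) (nat_lit 381) (nat_lit 5) (nat_lit 371) (nat_lit 5) (nat_lit 385) (nat_lit 352) (nat_lit 283))) (XT.nd (nat_lit 78) (nat_lit 1444) (nat_lit 0) (XT.lf (nat_lit 0) (nat_lit 6885172415) (nat_lit 836) (nat_lit 1675679468) (nat_lit 76) (nat_lit 1957447149) (nat_lit 360) (nat_lit 5) (nat_lit 371) (nat_lit 5) (nat_lit 361) (nat_lit 5) (nat_lit 386) (nat_lit 352) (nat_lit 282)) (XT.nd (nat_lit 78) (nat_lit 760) (nat_lit 0) (XT.lf (nat_lit 0) (nat_lit 8246621654) (nat_lit 684) (nat_lit 2302030864) (nat_lit 760) (nat_lit 130395628) (nat_lit 351) (nat_lit 5) (nat_lit 360) (nat_lit 5) (nat_lit 361) (nat_lit 5) (nat_lit 387) (nat_lit 352) (nat_lit 281)) (XT.lf (nat_lit 0) (nat_lit 3472715533) (nat_lit 760) (nat_lit 3204480971) (nat_lit 76) (nat_lit 4166153572) (nat_lit 341) (nat_lit 5) (nat_lit 351) (nat_lit 5) (nat_lit 342) (nat_lit 5) (nat_lit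 388) (nat_lit 352) (nat_lit 280)))))) (XT.nd (nat_lit 390) (nat_lit 2888) (nat_lit 0) (XT.nd (nat_lit 156) (nat_lit 1976) (nat_lit 0) (XT.nd (nat_lit 78) (nat_lit 684) (nat_lit 0) (XT.lf (nat_lit 0) (nat_lit 7053302438) (nat_lit 684) (nat_lit 159900337) (nat_lit 760) (nat_lit 3798739964) (nat_lit 332) (nat_lit 5) (nat_lit 341) (nat_lit 5) (nat_lit 342) (nat_lit 5) (nat_lit 389) (nat_lit 352) (nat_lit 279)) (XT.lf (nat_lit 0) (nat_lit 6463487947) (nat_lit 684) (nat_lit 4662989543) (nat_lit 760) (nat_lit 57904236) (nat_lit 323) (nat_lit 5) (nat_lit 332) (nat_lit 5) (nat_lit 333) (nat_lit 5) (nat_lit 390) (nat_lit 352) (nat_lit 278))) (XT.nd (nat_lit 78) (nat_lit 1292) (nat_lit 0) (XT.lf (nat_lit 0) (nat_lit 3780319742) (nat_lit 684) (nat_lit 5488322818) (nat_lit 76) (nat_lit 2092159762) (nat_lit 314) (nat_lit 5) (nat_lit 323) (nat_lit 5) (nat_lit 315) (nat_lit 5) (nat_lit 391) (nat_lit 352) (nat_lit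 277)) (XT.nd (nat_lit 78) (nat_lit 684) (nat_lit 0) (XT.lf (nat_lit 0) (nat_lit 5288259133) (nat_lit 608) (nat_lit 2498139507) (nat_lit 684) (nat_lit 3755039343) (nat_lit 306) (nat_lit 5) (nat_lit 314) (nat_lit 5) (nat_lit 315) (nat_lit 5) (nat_lit 392) (nat_lit 352) (nat_lit 276)) (XT.lf (nat_lit 0) (nat_lit 236819431) (nat_lit 684) (nat_lit 7014548889) (nat_lit 76) (nat_lit 4475018734) (nat_lit 297) (nat_lit 5) (nat_lit 306) (nat_lit 5) (nat_lit 298) (nat_lit 5) (nat_lit 393) (nat_lit 352) (nat_lit 275))))) (XT.nd (nat_lit 156) (nat_lit 1748) (nat_lit 0) (XT.nd (nat_lit 78) (nat_lit 532) (nat_lit 0) (XT.lf (nat_lit 0) (nat_lit 4132192405) (nat_lit 608) (nat_lit 208959827) (nat_lit 684) (nat_lit 7574361259) (nat_lit 289) (nat_lit 5) (nat_lit 297) (nat_lit 5) (nat_lit 298) (nat_lit 5) (nat_lit 394) (nat_lit 352) (nat_lit 274)) (XT.lf (nat_lit 0) (nat_lit 3545306800) (nat_lit 532) (nat_lit 5097978515)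 (nat_lit 608) (nat_lit 3465534999) (nat_lit 282) (nat_lit 5) (nat_lit 289) (nat_lit 5) (nat_lit 290) (nat_lit 5) (nat_lit 395) (nat_lit 352) (nat_lit 273))) (XT.nd (nat_lit 78) (nat_lit 1064) (nat_lit 0) (XT.lf (nat_lit 0) (nat_lit 803372367) (nat_lit 684) (nat_lit 9330286184) (nat_lit 76) (nat_lit 2173230855) (nat_lit 273) (nat_lit 5) (nat_lit 282) (nat_lit 5) (nat_lit 274) (nat_lit 5) (nat_lit 396) (nat_lit 352) (nat_lit 272)) (XT.nd (nat_lit 78) (nat_lit 532) (nat_lit 0) (XT.lf (nat_lit 0) (nat_lit 2389473534) (nat_lit 532) (nat_lit 2831508238) (nat_lit 608) (nat_lit 7288106298) (nat_lit 266) (nat_lit 5) (nat_lit 273) (nat_lit 5) (nat_lit 274) (nat_lit 5) (nat_lit 397) (nat_lit 352) (nat_lit 271)) (XT.lf (nat_lit 0) (nat_lit 1810902616) (nat_lit 532) (nat_lit 8026238372) (nat_lit 608) (nat_lit 2878891276) (nat_lit 259) (nat_lit 5) (nat_lit 266) (nat_lit 5) (nat_lit 267) (nat_lit 5) (nat_lit 398)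 (nat_lit 352) (nat_lit 270))))))) (XT.nd (nat_lit 780) (nat_lit 3952) (nat_lit 0) (XT.nd (nat_lit 390) (nat_lit 2356) (nat_lit 0) (XT.nd (nat_lit 156) (nat_lit 1064) (nat_lit 0) (XT.nd (nat_lit 78) (nat_lit 532) (nat_lit 0) (XT.lf (nat_lit 0) (nat_lit 1242075096) (nat_lit 532) (nat_lit 455473133) (nat_lit 608) (nat_lit 11230285592) (nat_lit 251) (nat_lit 5) (nat_lit 258) (nat_lit 5) (nat_lit 259) (nat_lit 5) (nat_lit 399) (nat_lit 352) (nat_lit 269)) (XT.lf (nat_lit 0) (nat_lit 645641570) (nat_lit 532) (nat_lit 5814427763) (nat_lit 608) (nat_lit 6683781480) (nat_lit 244) (nat_lit 5) (nat_lit 251) (nat_lit 5) (nat_lit 252) (nat_lit 5) (nat_lit 400) (nat_lit 352) (nat_lit 268))) (XT.nd (nat_lit 78) (nat_lit 608) (nat_lit 0) (XT.lf (nat_lit 0) (nat_lit 73107329) (nat_lit 456) (nat_lit 11350504982) (nat_lit 532) (nat_lit 1941573078) (nat_lit 238) (nat_lit 5) (nat_lit 244) (nat_lit 5) (nat_lit 245) (nat_lit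 5) (nat_lit 401) (nat_lit 352) (nat_lit 267)) (XT.nd (nat_lit 78) (nat_lit 532) (nat_lit 0) (XT.lf (nat_lit 0) (nat_lit 2991065488) (nat_lit 532) (nat_lit 510654697) (nat_lit 76) (nat_lit 10089322459) (nat_lit 237) (nat_lit 5) (nat_lit 244) (nat_lit 5) (nat_lit 238) (nat_lit 5) (nat_lit 402) (nat_lit 352) (nat_lit 266)) (XT.lf (nat_lit 0) (nat_lit 8122280822) (nat_lit 608) (nat_lit 1095963007) (nat_lit 76) (nat_lit 4603635593) (nat_lit 230) (nat_lit 5) (nat_lit 238) (nat_lit 5) (nat_lit 231) (nat_lit 5) (nat_lit 403) (nat_lit 352) (nat_lit 265))))) (XT.nd (nat_lit 156) (nat_lit 1368) (nat_lit 0) (XT.nd (nat_lit 78) (nat_lit 532) (nat_lit 0) (XT.lf (nat_lit 0) (nat_lit 12394621369) (nat_lit 456) (nat_lit 1084526057) (nat_lit 532) (nat_lit 579059581) (nat_lit 224) (nat_lit 5) (nat_lit 230) (nat_lit 5) (nat_lit 231) (nat_lit 5) (nat_lit 404) (nat_lit 352) (nat_lit 264)) (XT.lf (nat_lit 0) (nat_lit 4732264863)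 (nat_lit 532) (nat_lit 2267799666) (nat_lit 76) (nat_lit 7298975291) (nat_lit 217) (nat_lit 5) (nat_lit 224) (nat_lit 5) (nat_lit 218) (nat_lit 5) (nat_lit 405) (nat_lit 352) (nat_lit 263))) (XT.nd (nat_lit 78) (nat_lit 912) (nat_lit 0) (XT.lf (nat_lit 0) (nat_lit 10264520838) (nat_lit 532) (nat_lit 2851003283) (nat_lit 76) (nat_lit 1430107767) (nat_lit 211) (nat_lit 5) (nat_lit 218) (nat_lit 5) (nat_lit 212) (nat_lit 5) (nat_lit 406) (nat_lit 352) (nat_lit 262)) (XT.nd (nat_lit 78) (nat_lit 380) (nat_lit 0) (XT.lf (nat_lit 0) (nat_lit 1250567186) (nat_lit 532) (nat_lit 3446724599) (nat_lit 76) (nat_lit 10100124917) (nat_lit 204) (nat_lit 5) (nat_lit 211) (nat_lit 5) (nat_lit 205) (nat_lit 5) (nat_lit 407) (nat_lit 352) (nat_lit 261)) (XT.lf (nat_lit 0) (nat_lit 6974323583) (nat_lit 456) (nat_lit 4054821383) (nat_lit 76) (nat_lit 4025358305) (nat_lit 199) (nat_lit 5) (nat_lit 205) (nat_lit 5) (nat_lit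 200) (nat_lit 5) (nat_lit 408) (nat_lit 352) (nat_lit 260)))))) (XT.nd (nat_lit 390) (nat_lit 1824) (nat_lit 0) (XT.nd (nat_lit 156) (nat_lit 1216) (nat_lit 0) (XT.nd (nat_lit 78) (nat_lit 456) (nat_lit 0) (XT.lf (nat_lit 0) (nat_lit 10666150214) (nat_lit 456) (nat_lit 2294804278) (nat_lit 532) (nat_lit 2356524709) (nat_lit 193) (nat_lit 5) (nat_lit 199) (nat_lit 5) (nat_lit 200) (nat_lit 5) (nat_lit 409) (nat_lit 352) (nat_lit 259)) (XT.lf (nat_lit 0) (nat_lit 3598942695) (nat_lit 456) (nat_lit 5271268587) (nat_lit 76) (nat_lit 6715543291) (nat_lit 187) (nat_lit 5) (nat_lit 193) (nat_lit 5) (nat_lit 188) (nat_lit 5) (nat_lit 410) (nat_lit 352) (nat_lit 258))) (XT.nd (nat_lit 78) (nat_lit 836) (nat_lit 0) (XT.lf (nat_lit 0) (nat_lit 9782362872) (nat_lit 456) (nat_lit 5879717568) (nat_lit 76) (nat_lit 198060141) (nat_lit 182) (nat_lit 5) (nat_lit 188) (nat_lit 5) (nat_lit 183) (nat_lit 5) (nat_lit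 411) (nat_lit 352) (nat_lit 257)) (XT.nd (nat_lit 78) (nat_lit 380) (nat_lit 0) (XT.lf (nat_lit 0) (nat_lit 135545545) (nat_lit 456) (nat_lit 6503564982) (nat_lit 76) (nat_lit 9501103935) (nat_lit 176) (nat_lit 5) (nat_lit 182) (nat_lit 5) (nat_lit 177) (nat_lit 5) (nat_lit 412) (nat_lit 352) (nat_lit 256)) (XT.lf (nat_lit 0) (nat_lit 6540578991) (nat_lit 456) (nat_lit 7141018845) (nat_lit 76) (nat_lit 2744531570) (nat_lit 171) (nat_lit 5) (nat_lit 177) (nat_lit 5) (nat_lit 172) (nat_lit 5) (nat_lit 413) (nat_lit 352) (nat_lit 255))))) (XT.nd (nat_lit 156) (nat_lit 1064) (nat_lit 0) (XT.nd (nat_lit 78) (nat_lit 456) (nat_lit 0) (XT.lf (nat_lit 0) (nat_lit 8940912724) (nat_lit 304) (nat_lit 4312991260) (nat_lit 380) (nat_lit 3464395002) (nat_lit 167) (nat_lit 5) (nat_lit 171) (nat_lit 5) (nat_lit 172) (nat_lit 5) (nat_lit 414) (nat_lit 352) (nat_lit 254)) (XT.lf (nat_lit 0) (nat_lit 3217904546) (nat_lit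 456) (nat_lit 8423513929) (nat_lit 76) (nat_lit 5375209933) (nat_lit 161) (nat_lit 5) (nat_lit 167) (nat_lit 5) (nat_lit 162) (nat_lit 5) (nat_lit 415) (nat_lit 352) (nat_lit 253))) (XT.nd (nat_lit 78) (nat_lit 760) (nat_lit 0) (XT.lf (nat_lit 0) (nat_lit 8246422755) (nat_lit 304) (nat_lit 1913062502) (nat_lit 380) (nat_lit 7161846868) (nat_lit 157) (nat_lit 5) (nat_lit 161) (nat_lit 5) (nat_lit 162) (nat_lit 5) (nat_lit 416) (nat_lit 352) (nat_lit 252)) (XT.nd (nat_lit 78) (nat_lit 380) (nat_lit 0) (XT.lf (nat_lit 0) (nat_lit 7900929852) (nat_lit 380) (nat_lit 9540402434) (nat_lit 456) (nat_lit 191204289) (nat_lit 152) (nat_lit 5) (nat_lit 157) (nat_lit 5) (nat_lit 158) (nat_lit 5) (nat_lit 417) (nat_lit 352) (nat_lit 251)) (XT.lf (nat_lit 0) (nat_lit 6995253200) (nat_lit 380) (nat_lit 10402046540) (nat_lit 76) (nat_lit 552902896) (nat_lit 147) (nat_lit 5) (nat_lit 152) (nat_lit 5) (nat_lit 148)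 (nat_lit 5) (nat_lit 418) (nat_lit 352) (nat_lit 250))))))))
noncomputable def xc77 : XT := (XT.nd (nat_lit 48906) (nat_lit 0) (nat_lit 20064) (XT.nd (nat_lit 48126) (nat_lit 0) (nat_lit 39292) (XT.nd (nat_lit 312) (nat_lit 912) (nat_lit 0) (XT.nd (nat_lit 156) (nat_lit 684) (nat_lit 0) (XT.nd (nat_lit 78) (nat_lit 380) (nat_lit 0) (XT.lf (nat_lit 0) (nat_lit 7185452550) (nat_lit 304) (nat_lit 7357520336) (nat_lit 380) (nat_lit 3731435192) (nat_lit 143) (nat_lit 5) (nat_lit 147) (nat_lit 5) (nat_lit 148) (nat_lit 5) (nat_lit 419) (nat_lit 352) (nat_lit 249)) (XT.lf (nat_lit 0) (nat_lit 3767547304) (nat_lit 380) (nat_lit 11771227390) (nat_lit 76) (nat_lit 3066935306) (nat_lit 138) (nat_lit 5) (nat_lit 143) (nat_lit 5) (nat_lit 139) (nat_lit 5) (nat_lit 420) (nat_lit 352) (nat_lit 248))) (XT.nd (nat_lit 78) (nat_lit 380) (nat_lit 0) (XT.lf (nat_lit 0) (nat_lit 6466099357) (nat_lit 304) (nat_lit 5113993911)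 (nat_lit 380) (nat_lit 7363578625) (nat_lit 134) (nat_lit 5) (nat_lit 138) (nat_lit 5) (nat_lit 139) (nat_lit 5) (nat_lit 421) (nat_lit 352) (nat_lit 247)) (XT.lf (nat_lit 0) (nat_lit 460810800) (nat_lit 380) (nat_lit 13173211610) (nat_lit 76) (nat_lit 5655107410) (nat_lit 129) (nat_lit 5) (nat_lit 134) (nat_lit 5) (nat_lit 130) (nat_lit 5) (nat_lit 422) (nat_lit 352) (nat_lit 246)))) (XT.nd (nat_lit 156) (nat_lit 380) (nat_lit 0) (XT.nd (nat_lit 78) (nat_lit 228) (nat_lit 0) (XT.lf (nat_lit 0) (nat_lit 5740720593) (nat_lit 304) (nat_lit 2809227487) (nat_lit 380) (nat_lit 11091428771) (nat_lit 125) (nat_lit 5) (nat_lit 129) (nat_lit 5) (nat_lit 130) (nat_lit 5) (nat_lit 423) (nat_lit 352) (nat_lit 245)) (XT.lf (nat_lit 0) (nat_lit 5370682069) (nat_lit 228) (nat_lit 11663242319) (nat_lit 304) (nat_lit 2967223608) (nat_lit 122) (nat_lit 5) (nat_lit 125) (nat_lit 5) (nat_lit 126) (nat_lit 5) (nat_lit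 424) (nat_lit 352) (nat_lit 244))) (XT.nd (nat_lit 47502) (nat_lit 0) (nat_lit 42940) (XT.lf (nat_lit 0) (nat_lit 5007185378) (nat_lit 304) (nat_lit 442410669) (nat_lit 380) (nat_lit 14919020537) (nat_lit 117) (nat_lit 5) (nat_lit 121) (nat_lit 5) (nat_lit 122) (nat_lit 5) (nat_lit 425) (nat_lit 352) (nat_lit 243)) (XT.nd (nat_lit 78) (nat_lit 0) (nat_lit 0) (XT.lf (nat_lit 0) (nat_lit 173116242) (nat_lit 0) (nat_lit 173116242) (nat_lit 1140) (nat_lit 3231954151) (nat_lit 682) (nat_lit 5) (nat_lit 682) (nat_lit 3) (nat_lit 697) (nat_lit 3) (nat_lit 353) (nat_lit 353) (nat_lit 314)) (XT.lf (nat_lit 0) (nat_lit 3259570429) (nat_lit 1140) (nat_lit 1450938171) (nat_lit 1216) (nat_lit 2502075899) (nat_lit 682) (nat_lit 5) (nat_lit 697) (nat_lit 3) (nat_lit 698) (nat_lit 5) (nat_lit 354) (nat_lit 353) (nat_lit 313)))))) (XT.nd (nat_lit 390) (nat_lit 1292) (nat_lit 0) (XT.nd (nat_lit 156) (nat_lit 1216)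 (nat_lit 0) (XT.nd (nat_lit 78) (nat_lit 1140) (nat_lit 0) (XT.lf (nat_lit 76) (nat_lit 4068206174) (nat_lit 0) (nat_lit 1765394476) (nat_lit 1216) (nat_lit 1438283183) (nat_lit 683) (nat_lit 5) (nat_lit 682) (nat_lit 5) (nat_lit 698) (nat_lit 5) (nat_lit 355) (nat_lit 353) (nat_lit 312)) (XT.lf (nat_lit 0) (nat_lit 1074171851) (nat_lit 1216) (nat_lit 4931194419) (nat_lit 1292) (nat_lit 1328698512) (nat_lit 667) (nat_lit 5) (nat_lit 683) (nat_lit 5) (nat_lit 684) (nat_lit 5) (nat_lit 356) (nat_lit 353) (nat_lit 311))) (XT.nd (nat_lit 78) (nat_lit 1216) (nat_lit 0) (XT.lf (nat_lit 76) (nat_lit 758531536) (nat_lit 0) (nat_lit 2828482723) (nat_lit 1292) (nat_lit 3812015672) (nat_lit 668) (nat_lit 5) (nat_lit 667) (nat_lit 5) (nat_lit 684) (nat_lit 5) (nat_lit 357) (nat_lit 353) (nat_lit 310)) (XT.nd (nat_lit 78) (nat_lit 1292) (nat_lit 0) (XT.lf (nat_lit 0) (nat_lit 6120271000) (nat_lit 1216) (nat_lit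 836786122) (nat_lit 1292) (nat_lit 509986331) (nat_lit 668) (nat_lit 5) (nat_lit 684) (nat_lit 5) (nat_lit 685) (nat_lit 5) (nat_lit 358) (nat_lit 353) (nat_lit 309)) (XT.lf (nat_lit 0) (nat_lit 1139986437) (nat_lit 1292) (nat_lit 2409102508) (nat_lit 1368) (nat_lit 3988589649) (nat_lit 651) (nat_lit 5) (nat_lit 668) (nat_lit 5) (nat_lit 669) (nat_lit 5) (nat_lit 359) (nat_lit 353) (nat_lit 308))))) (XT.nd (nat_lit 156) (nat_lit 1368) (nat_lit 0) (XT.nd (nat_lit 78) (nat_lit 0) (nat_lit 0) (XT.lf (nat_lit 0) (nat_lit 3625692719) (nat_lit 1292) (nat_lit 3952195736) (nat_lit 1368) (nat_lit 33513452) (nat_lit 652) (nat_lit 5) (nat_lit 669) (nat_lit 5) (nat_lit 670) (nat_lit 5) (nat_lit 360) (nat_lit 353) (nat_lit 307)) (XT.lf (nat_lit 76) (nat_lit 2206027250) (nat_lit 0) (nat_lit 3949688887) (nat_lit 1368) (nat_lit 1532225863) (nat_lit 653) (nat_lit 5) (nat_lit 652) (nat_lit 5) (nat_lit 670) (nat_lit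 5) (nat_lit 361) (nat_lit 353) (nat_lit 306))) (XT.nd (nat_lit 78) (nat_lit 0) (nat_lit 76) (XT.lf (nat_lit 76) (nat_lit 785708351) (nat_lit 0) (nat_lit 144993916) (nat_lit 1444) (nat_lit 6836969081) (nat_lit 635) (nat_lit 5) (nat_lit 634) (nat_lit 5) (nat_lit 653) (nat_lit 5) (nat_lit 362) (nat_lit 353) (nat_lit 305)) (XT.nd (nat_lit 78) (nat_lit 0) (nat_lit 0) (XT.lf (nat_lit 0) (nat_lit 3427792341) (nat_lit 1368) (nat_lit 623368541) (nat_lit 1444) (nat_lit 3798807314) (nat_lit 635) (nat_lit 5) (nat_lit 653) (nat_lit 5) (nat_lit 654) (nat_lit 5) (nat_lit 363) (nat_lit 353) (nat_lit 304)) (XT.lf (nat_lit 76) (nat_lit 5948937039) (nat_lit 0) (nat_lit 11886045) (nat_lit 1444) (nat_lit 1974690305) (nat_lit 636) (nat_lit 5) (nat_lit 635) (nat_lit 5) (nat_lit 654) (nat_lit 5) (nat_lit 364) (nat_lit 353) (nat_lit 303))))))) (XT.nd (nat_lit 780) (nat_lit 8132) (nat_lit 0) (XT.nd (nat_lit 390) (nat_lit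 8436) (nat_lit 0) (XT.nd (nat_lit 156) (nat_lit 1368) (nat_lit 0) (XT.nd (nat_lit 78) (nat_lit 0) (nat_lit 76) (XT.lf (nat_lit 0) (nat_lit 524078325) (nat_lit 1444) (nat_lit 3344416932) (nat_lit 1520) (nat_lit 4155358307) (nat_lit 617) (nat_lit 5) (nat_lit 636) (nat_lit 5) (nat_lit 637) (nat_lit 5) (nat_lit 365) (nat_lit 353) (nat_lit 302)) (XT.lf (nat_lit 0) (nat_lit 3034591392) (nat_lit 1444) (nat_lit 4683269678) (nat_lit 1520) (nat_lit 397449627) (nat_lit 618) (nat_lit 5) (nat_lit 637) (nat_lit 5) (nat_lit 638) (nat_lit 5) (nat_lit 366) (nat_lit 353) (nat_lit 301))) (XT.nd (nat_lit 78) (nat_lit 1444) (nat_lit 0) (XT.lf (nat_lit 76) (nat_lit 2195579243) (nat_lit 0) (nat_lit 3414650150) (nat_lit 1520) (nat_lit 2599485960) (nat_lit 619) (nat_lit 5) (nat_lit 618) (nat_lit 5) (nat_lit 638) (nat_lit 5) (nat_lit 367) (nat_lit 353) (nat_lit 300)) (XT.nd (nat_lit 78) (nat_lit 76) (nat_lit 0) (XT.lf (nat_lit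 0) (nat_lit 988387119) (nat_lit 1444) (nat_lit 7248472185) (nat_lit 1520) (nat_lit 70618389) (nat_lit 600) (nat_lit 5) (nat_lit 619) (nat_lit 5) (nat_lit 620) (nat_lit 5) (nat_lit 368) (nat_lit 353) (nat_lit 299)) (XT.lf (nat_lit 0) (nat_lit 2494746232) (nat_lit 1520) (nat_lit 219963590) (nat_lit 76) (nat_lit 5693256689) (nat_lit 599) (nat_lit 5) (nat_lit 619) (nat_lit 5) (nat_lit 600) (nat_lit 5) (nat_lit 369) (nat_lit 353) (nat_lit 298))))) (XT.nd (nat_lit 156) (nat_lit 5320) (nat_lit 0) (XT.nd (nat_lit 78) (nat_lit 1596) (nat_lit 0) (XT.lf (nat_lit 0) (nat_lit 5127548983) (nat_lit 1596) (nat_lit 1394515150) (nat_lit 76) (nat_lit 1989567795) (nat_lit 579) (nat_lit 5) (nat_lit 600) (nat_lit 5) (nat_lit 580) (nat_lit 5) (nat_lit 370) (nat_lit 353) (nat_lit 297)) (XT.lf (nat_lit 0) (nat_lit 6065088918) (nat_lit 1596) (nat_lit 1767037418) (nat_lit 1672) (nat_lit 786425159) (nat_lit 558) (nat_lit 5)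 (nat_lit 579) (nat_lit 5) (nat_lit 580) (nat_lit 5) (nat_lit 371) (nat_lit 353) (nat_lit 296))) (XT.nd (nat_lit 78) (nat_lit 3572) (nat_lit 0) (XT.lf (nat_lit 0) (nat_lit 1862262119) (nat_lit 1748) (nat_lit 3712024691) (nat_lit 76) (nat_lit 3154188997) (nat_lit 535) (nat_lit 5) (nat_lit 558) (nat_lit 5) (nat_lit 536) (nat_lit 5) (nat_lit 372) (nat_lit 353) (nat_lit 295)) (XT.nd (nat_lit 78) (nat_lit 1824) (nat_lit 0) (XT.lf (nat_lit 0) (nat_lit 3986516971) (nat_lit 1748) (nat_lit 584896030) (nat_lit 1824) (nat_lit 4270347133) (nat_lit 512) (nat_lit 5) (nat_lit 535) (nat_lit 5) (nat_lit 536) (nat_lit 5) (nat_lit 373) (nat_lit 353) (nat_lit 294)) (XT.lf (nat_lit 0) (nat_lit 2961974014) (nat_lit 1824) (nat_lit 4412034465) (nat_lit 1900) (nat_lit 1584191111) (nat_lit 488) (nat_lit 5) (nat_lit 512) (nat_lit 5) (nat_lit 513) (nat_lit 5) (nat_lit 374) (nat_lit 353) (nat_lit 293)))))) (XT.nd (nat_lit 390)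 (nat_lit 4180) (nat_lit 0) (XT.nd (nat_lit 156) (nat_lit 1824) (nat_lit 0) (XT.nd (nat_lit 78) (nat_lit 912) (nat_lit 0) (XT.lf (nat_lit 0) (nat_lit 1161121079) (nat_lit 1216) (nat_lit 7122750234) (nat_lit 76) (nat_lit 794225742) (nat_lit 472) (nat_lit 5) (nat_lit 488) (nat_lit 5) (nat_lit 473) (nat_lit 5) (nat_lit 375) (nat_lit 353) (nat_lit 292)) (XT.lf (nat_lit 0) (nat_lit 942522518) (nat_lit 912) (nat_lit 3041937366) (nat_lit 988) (nat_lit 5216578325) (nat_lit 460) (nat_lit 5) (nat_lit 472) (nat_lit 5) (nat_lit 473) (nat_lit 5) (nat_lit 376) (nat_lit 353) (nat_lit 291))) (XT.nd (nat_lit 78) (nat_lit 1824) (nat_lit 0) (XT.lf (nat_lit 0) (nat_lit 6898321305) (nat_lit 988) (nat_lit 51578512) (nat_lit 76) (nat_lit 2377651332) (nat_lit 460) (nat_lit 5) (nat_lit 473) (nat_lit 5) (nat_lit 461) (nat_lit 5) (nat_lit 377) (nat_lit 353) (nat_lit 290)) (XT.nd (nat_lit 78) (nat_lit 836) (nat_lit 0) (XT.lf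 (nat_lit 0) (nat_lit 454814500) (nat_lit 988) (nat_lit 1023456557) (nat_lit 76) (nat_lit 7979153681) (nat_lit 447) (nat_lit 5) (nat_lit 460) (nat_lit 5) (nat_lit 448) (nat_lit 5) (nat_lit 378) (nat_lit 353) (nat_lit 289)) (XT.lf (nat_lit 0) (nat_lit 3414327207) (nat_lit 912) (nat_lit 2005930941) (nat_lit 76) (nat_lit 4170176228) (nat_lit 436) (nat_lit 5) (nat_lit 448) (nat_lit 5) (nat_lit 437) (nat_lit 5) (nat_lit 379) (nat_lit 353) (nat_lit 288))))) (XT.nd (nat_lit 156) (nat_lit 2432) (nat_lit 0) (XT.nd (nat_lit 78) (nat_lit 836) (nat_lit 0) (XT.lf (nat_lit 0) (nat_lit 6471105197) (nat_lit 988) (nat_lit 2967941910) (nat_lit 76) (nat_lit 288217598) (nat_lit 424) (nat_lit 5) (nat_lit 437) (nat_lit 5) (nat_lit 425) (nat_lit 5) (nat_lit 380) (nat_lit 353) (nat_lit 287)) (XT.lf (nat_lit 0) (nat_lit 5933480738) (nat_lit 836) (nat_lit 3721599081) (nat_lit 912) (nat_lit 212410259) (nat_lit 413) (nat_lit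 5) (nat_lit 424) (nat_lit 5) (nat_lit 425) (nat_lit 5) (nat_lit 381) (nat_lit 353) (nat_lit 286))) (XT.nd (nat_lit 78) (nat_lit 1520) (nat_lit 0) (XT.lf (nat_lit 0) (nat_lit 2900256463) (nat_lit 912) (nat_lit 4901763217) (nat_lit 76) (nat_lit 2209204295) (nat_lit 401) (nat_lit 5) (nat_lit 413) (nat_lit 5) (nat_lit 402) (nat_lit 5) (nat_lit 382) (nat_lit 353) (nat_lit 285)) (XT.nd (nat_lit 78) (nat_lit 760) (nat_lit 0) (XT.lf (nat_lit 0) (nat_lit 4294209712) (nat_lit 760) (nat_lit 1837862050) (nat_lit 836) (nat_lit 4026596957) (nat_lit 391) (nat_lit 5) (nat_lit 401) (nat_lit 5) (nat_lit 402) (nat_lit 5) (nat_lit 383) (nat_lit 353) (nat_lit 284)) (XT.lf (nat_lit 0) (nat_lit 3485780376) (nat_lit 760) (nat_lit 6009221558) (nat_lit 836) (nat_lit 814851664) (nat_lit 381) (nat_lit 5) (nat_lit 391) (nat_lit 5) (nat_lit 392) (nat_lit 5) (nat_lit 384) (nat_lit 353) (nat_lit 283))))))))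
noncomputable def xc78 : XT := (XT.nd (nat_lit 1482) (nat_lit 7676) (nat_lit 0) (XT.nd (nat_lit 702) (nat_lit 5776) (nat_lit 0) (XT.nd (nat_lit 312) (nat_lit 2660) (nat_lit 0) (XT.nd (nat_lit 156) (nat_lit 1444) (nat_lit 0) (XT.nd (nat_lit 78) (nat_lit 760) (nat_lit 0) (XT.lf (nat_lit 0) (nat_lit 2482496544) (nat_lit 836) (nat_lit 7782484237) (nat_lit 76) (nat_lit 199830488) (nat_lit 370) (nat_lit 5) (nat_lit 381) (nat_lit 5) (nat_lit 371) (nat_lit 5) (nat_lit 385) (nat_lit 353) (nat_lit 282)) (XT.lf (nat_lit 0) (nat_lit 1867545828) (nat_lit 760) (nat_lit 4051030806) (nat_lit 836) (nat_lit 4704715670) (nat_lit 360) (nat_lit 5) (nat_lit 370) (nat_lit 5) (nat_lit 371) (nat_lit 5) (nat_lit 386) (nat_lit 353) (nat_lit 281))) (XT.nd (nat_lit 78) (nat_lit 760) (nat_lit 0) (XT.lf (nat_lit 0) (nat_lit 1071739056) (nat_lit 684) (nat_lit 8414260553) (nat_lit 760) (nat_lit 1299962953) (nat_lit 351) (nat_lit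 5) (nat_lit 360) (nat_lit 5) (nat_lit 361) (nat_lit 5) (nat_lit 387) (nat_lit 353) (nat_lit 280)) (XT.lf (nat_lit 0) (nat_lit 268712578) (nat_lit 684) (nat_lit 1951513487) (nat_lit 760) (nat_lit 8732155524) (nat_lit 341) (nat_lit 5) (nat_lit 350) (nat_lit 5) (nat_lit 351) (nat_lit 5) (nat_lit 388) (nat_lit 353) (nat_lit 279)))) (XT.nd (nat_lit 156) (nat_lit 1976) (nat_lit 0) (XT.nd (nat_lit 78) (nat_lit 684) (nat_lit 0) (XT.lf (nat_lit 0) (nat_lit 5879895374) (nat_lit 760) (nat_lit 532586651) (nat_lit 76) (nat_lit 4710108586) (nat_lit 341) (nat_lit 5) (nat_lit 351) (nat_lit 5) (nat_lit 342) (nat_lit 5) (nat_lit 389) (nat_lit 353) (nat_lit 278)) (XT.lf (nat_lit 0) (nat_lit 9685179026) (nat_lit 760) (nat_lit 1311185827) (nat_lit 76) (nat_lit 300824565) (nat_lit 332) (nat_lit 5) (nat_lit 342) (nat_lit 5) (nat_lit 333) (nat_lit 5) (nat_lit 390) (nat_lit 353) (nat_lit 277))) (XT.nd (nat_lit 78) (nat_lit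 1216) (nat_lit 0) (XT.lf (nat_lit 0) (nat_lit 2164350944) (nat_lit 760) (nat_lit 2112304893) (nat_lit 76) (nat_lit 7198800883) (nat_lit 322) (nat_lit 5) (nat_lit 332) (nat_lit 5) (nat_lit 323) (nat_lit 5) (nat_lit 391) (nat_lit 353) (nat_lit 276)) (XT.nd (nat_lit 78) (nat_lit 608) (nat_lit 0) (XT.lf (nat_lit 0) (nat_lit 6073185686) (nat_lit 684) (nat_lit 2907672211) (nat_lit 76) (nat_lit 2677179368) (nat_lit 314) (nat_lit 5) (nat_lit 323) (nat_lit 5) (nat_lit 315) (nat_lit 5) (nat_lit 392) (nat_lit 353) (nat_lit 275)) (XT.lf (nat_lit 0) (nat_lit 8147667962) (nat_lit 608) (nat_lit 2005834808) (nat_lit 684) (nat_lit 1691508108) (nat_lit 306) (nat_lit 5) (nat_lit 314) (nat_lit 5) (nat_lit 315) (nat_lit 5) (nat_lit 393) (nat_lit 353) (nat_lit 274)))))) (XT.nd (nat_lit 390) (nat_lit 2736) (nat_lit 0) (XT.nd (nat_lit 156) (nat_lit 1748) (nat_lit 0) (XT.nd (nat_lit 78) (nat_lit 608) (nat_lit 0) (XT.lf (nat_lit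 0) (nat_lit 2350227671) (nat_lit 684) (nat_lit 4501694508) (nat_lit 76) (nat_lit 5184130413) (nat_lit 297) (nat_lit 5) (nat_lit 306) (nat_lit 5) (nat_lit 298) (nat_lit 5) (nat_lit 394) (nat_lit 353) (nat_lit 273)) (XT.lf (nat_lit 0) (nat_lit 6536343359) (nat_lit 684) (nat_lit 5299072040) (nat_lit 76) (nat_lit 396264365) (nat_lit 289) (nat_lit 5) (nat_lit 298) (nat_lit 5) (nat_lit 290) (nat_lit 5) (nat_lit 395) (nat_lit 353) (nat_lit 272))) (XT.nd (nat_lit 78) (nat_lit 1216) (nat_lit 0) (XT.lf (nat_lit 0) (nat_lit 6323947703) (nat_lit 532) (nat_lit 4602155297) (nat_lit 608) (nat_lit 1505511541) (nat_lit 282) (nat_lit 5) (nat_lit 289) (nat_lit 5) (nat_lit 290) (nat_lit 5) (nat_lit 396) (nat_lit 353) (nat_lit 271)) (XT.nd (nat_lit 78) (nat_lit 532) (nat_lit 0) (XT.lf (nat_lit 0) (nat_lit 2826597186) (nat_lit 684) (nat_lit 6919030426) (nat_lit 76) (nat_lit 2890486004) (nat_lit 273) (nat_lit 5) (nat_lit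 282) (nat_lit 5) (nat_lit 274) (nat_lit 5) (nat_lit 397) (nat_lit 353) (nat_lit 270)) (XT.lf (nat_lit 0) (nat_lit 5108661140) (nat_lit 532) (nat_lit 2227036179) (nat_lit 608) (nat_lit 5509501672) (nat_lit 266) (nat_lit 5) (nat_lit 273) (nat_lit 5) (nat_lit 274) (nat_lit 5) (nat_lit 398) (nat_lit 353) (nat_lit 269))))) (XT.nd (nat_lit 156) (nat_lit 1596) (nat_lit 0) (XT.nd (nat_lit 78) (nat_lit 608) (nat_lit 0) (XT.lf (nat_lit 0) (nat_lit 4503903333) (nat_lit 532) (nat_lit 7550884145) (nat_lit 608) (nat_lit 1004275109) (nat_lit 259) (nat_lit 5) (nat_lit 266) (nat_lit 5) (nat_lit 267) (nat_lit 5) (nat_lit 399) (nat_lit 353) (nat_lit 268)) (XT.lf (nat_lit 0) (nat_lit 3646053218) (nat_lit 608) (nat_lit 9378910346) (nat_lit 76) (nat_lit 252753702) (nat_lit 251) (nat_lit 5) (nat_lit 259) (nat_lit 5) (nat_lit 252) (nat_lit 5) (nat_lit 400) (nat_lit 353) (nat_lit 267))) (XT.nd (nat_lit 78) (nat_lit 1064)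 (nat_lit 0) (XT.lf (nat_lit 0) (nat_lit 3276321925) (nat_lit 532) (nat_lit 5239770349) (nat_lit 608) (nat_lit 4984829647) (nat_lit 244) (nat_lit 5) (nat_lit 251) (nat_lit 5) (nat_lit 252) (nat_lit 5) (nat_lit 401) (nat_lit 353) (nat_lit 266)) (XT.nd (nat_lit 78) (nat_lit 608) (nat_lit 0) (XT.lf (nat_lit 0) (nat_lit 2676101722) (nat_lit 456) (nat_lit 10919808435) (nat_lit 532) (nat_lit 133639004) (nat_lit 238) (nat_lit 5) (nat_lit 244) (nat_lit 5) (nat_lit 245) (nat_lit 5) (nat_lit 402) (nat_lit 353) (nat_lit 265)) (XT.lf (nat_lit 0) (nat_lit 2049720223) (nat_lit 532) (nat_lit 2832449415) (nat_lit 608) (nat_lit 9080576842) (nat_lit 230) (nat_lit 5) (nat_lit 237) (nat_lit 5) (nat_lit 238) (nat_lit 5) (nat_lit 403) (nat_lit 353) (nat_lit 264))))))) (XT.nd (nat_lit 780) (nat_lit 3572) (nat_lit 0) (XT.nd (nat_lit 390) (nat_lit 2128) (nat_lit 0) (XT.nd (nat_lit 156) (nat_lit 988) (nat_lit 0) (XT.nd (nat_lit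 78) (nat_lit 532) (nat_lit 0) (XT.lf (nat_lit 0) (nat_lit 1427482515) (nat_lit 456) (nat_lit 8704902733) (nat_lit 532) (nat_lit 4068821837) (nat_lit 224) (nat_lit 5) (nat_lit 230) (nat_lit 5) (nat_lit 231) (nat_lit 5) (nat_lit 404) (nat_lit 353) (nat_lit 263)) (XT.lf (nat_lit 0) (nat_lit 820613505) (nat_lit 456) (nat_lit 329707366) (nat_lit 532) (nat_lit 13294931196) (nat_lit 217) (nat_lit 5) (nat_lit 223) (nat_lit 5) (nat_lit 224) (nat_lit 5) (nat_lit 405) (nat_lit 353) (nat_lit 262))) (XT.nd (nat_lit 78) (nat_lit 532) (nat_lit 0) (XT.lf (nat_lit 0) (nat_lit 173967998) (nat_lit 456) (nat_lit 6405656074) (nat_lit 532) (nat_lit 8114279118) (nat_lit 211) (nat_lit 5) (nat_lit 217) (nat_lit 5) (nat_lit 218) (nat_lit 5) (nat_lit 406) (nat_lit 353) (nat_lit 261)) (XT.nd (nat_lit 78) (nat_lit 532) (nat_lit 0) (XT.lf (nat_lit 0) (nat_lit 12248265324) (nat_lit 532) (nat_lit 441451546) (nat_lit 76) (nat_lit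 2258767797) (nat_lit 211) (nat_lit 5) (nat_lit 218) (nat_lit 5) (nat_lit 212) (nat_lit 5) (nat_lit 407) (nat_lit 353) (nat_lit 260)) (XT.lf (nat_lit 0) (nat_lit 2941900370) (nat_lit 532) (nat_lit 1073545894) (nat_lit 76) (nat_lit 11192816616) (nat_lit 204) (nat_lit 5) (nat_lit 211) (nat_lit 5) (nat_lit 205) (nat_lit 5) (nat_lit 408) (nat_lit 353) (nat_lit 259))))) (XT.nd (nat_lit 156) (nat_lit 1292) (nat_lit 0) (XT.nd (nat_lit 78) (nat_lit 456) (nat_lit 0) (XT.lf (nat_lit 0) (nat_lit 8810309887) (nat_lit 456) (nat_lit 1712926948) (nat_lit 76) (nat_lit 4950366402) (nat_lit 199) (nat_lit 5) (nat_lit 205) (nat_lit 5) (nat_lit 200) (nat_lit 5) (nat_lit 409) (nat_lit 353) (nat_lit 258)) (XT.lf (nat_lit 0) (nat_lit 13409705803) (nat_lit 456) (nat_lit 1535188092) (nat_lit 532) (nat_lit 800207467) (nat_lit 193) (nat_lit 5) (nat_lit 199) (nat_lit 5) (nat_lit 200) (nat_lit 5) (nat_lit 410) (nat_lit 353) (nat_lit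 257))) (XT.nd (nat_lit 78) (nat_lit 836) (nat_lit 0) (XT.lf (nat_lit 0) (nat_lit 5286828200) (nat_lit 456) (nat_lit 2998065864) (nat_lit 76) (nat_lit 7736834802) (nat_lit 187) (nat_lit 5) (nat_lit 193) (nat_lit 5) (nat_lit 188) (nat_lit 5) (nat_lit 411) (nat_lit 353) (nat_lit 256)) (XT.nd (nat_lit 78) (nat_lit 456) (nat_lit 0) (XT.lf (nat_lit 0) (nat_lit 11630733589) (nat_lit 456) (nat_lit 3638695173) (nat_lit 76) (nat_lit 1035418040) (nat_lit 182) (nat_lit 5) (nat_lit 188) (nat_lit 5) (nat_lit 183) (nat_lit 5) (nat_lit 412) (nat_lit 353) (nat_lit 255)) (XT.lf (nat_lit 0) (nat_lit 1674763897) (nat_lit 456) (nat_lit 4300076316) (nat_lit 76) (nat_lit 10618877644) (nat_lit 176) (nat_lit 5) (nat_lit 182) (nat_lit 5) (nat_lit 177) (nat_lit 5) (nat_lit 413) (nat_lit 353) (nat_lit 254)))))) (XT.nd (nat_lit 390) (nat_lit 1672) (nat_lit 0) (XT.nd (nat_lit 156) (nat_lit 1216) (nat_lit 0) (XT.nd (nat_lit 78)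 (nat_lit 304) (nat_lit 0) (XT.lf (nat_lit 0) (nat_lit 8248100024) (nat_lit 456) (nat_lit 4970997196) (nat_lit 76) (nat_lit 3669589995) (nat_lit 171) (nat_lit 5) (nat_lit 177) (nat_lit 5) (nat_lit 172) (nat_lit 5) (nat_lit 414) (nat_lit 353) (nat_lit 253)) (XT.lf (nat_lit 0) (nat_lit 11554710660) (nat_lit 304) (nat_lit 3579324553) (nat_lit 380) (nat_lit 2056162461) (nat_lit 167) (nat_lit 5) (nat_lit 171) (nat_lit 5) (nat_lit 172) (nat_lit 5) (nat_lit 415) (nat_lit 353) (nat_lit 252))) (XT.nd (nat_lit 78) (nat_lit 760) (nat_lit 0) (XT.lf (nat_lit 0) (nat_lit 4784019894) (nat_lit 456) (nat_lit 6325516350) (nat_lit 76) (nat_lit 6388199452) (nat_lit 161) (nat_lit 5) (nat_lit 167) (nat_lit 5) (nat_lit 162) (nat_lit 5) (nat_lit 416) (nat_lit 353) (nat_lit 251)) (XT.nd (nat_lit 78) (nat_lit 456) (nat_lit 0) (XT.lf (nat_lit 0) (nat_lit 10806381071) (nat_lit 304) (nat_lit 1099678416) (nat_lit 380) (nat_lit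 5906076808) (nat_lit 157) (nat_lit 5) (nat_lit 161) (nat_lit 5) (nat_lit 162) (nat_lit 5) (nat_lit 417) (nat_lit 353) (nat_lit 250)) (XT.lf (nat_lit 0) (nat_lit 1235251785) (nat_lit 456) (nat_lit 7705424463) (nat_lit 76) (nat_lit 9192269811) (nat_lit 151) (nat_lit 5) (nat_lit 157) (nat_lit 5) (nat_lit 152) (nat_lit 5) (nat_lit 418) (nat_lit 353) (nat_lit 249))))) (XT.nd (nat_lit 156) (nat_lit 1064) (nat_lit 0) (XT.nd (nat_lit 78) (nat_lit 304) (nat_lit 0) (XT.lf (nat_lit 0) (nat_lit 8613570263) (nat_lit 380) (nat_lit 8412479723) (nat_lit 76) (nat_lit 1434489540) (nat_lit 147) (nat_lit 5) (nat_lit 152) (nat_lit 5) (nat_lit 148) (nat_lit 5) (nat_lit 419) (nat_lit 353) (nat_lit 248)) (XT.lf (nat_lit 0) (nat_lit 9665303156) (nat_lit 304) (nat_lit 6696096545) (nat_lit 380) (nat_lit 2433597866) (nat_lit 143) (nat_lit 5) (nat_lit 147) (nat_lit 5) (nat_lit 148) (nat_lit 5) (nat_lit 420) (nat_lit 353) (nat_lit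 247))) (XT.nd (nat_lit 78) (nat_lit 684) (nat_lit 0) (XT.lf (nat_lit 0) (nat_lit 5251638481) (nat_lit 380) (nat_lit 9857032115) (nat_lit 76) (nat_lit 4027789409) (nat_lit 138) (nat_lit 5) (nat_lit 143) (nat_lit 5) (nat_lit 139) (nat_lit 5) (nat_lit 421) (nat_lit 353) (nat_lit 246)) (XT.nd (nat_lit 78) (nat_lit 380) (nat_lit 0) (XT.lf (nat_lit 0) (nat_lit 8890629665) (nat_lit 304) (nat_lit 4382479427) (nat_lit 380) (nat_lit 6211960698) (nat_lit 134) (nat_lit 5) (nat_lit 138) (nat_lit 5) (nat_lit 139) (nat_lit 5) (nat_lit 422) (nat_lit 353) (nat_lit 245)) (XT.lf (nat_lit 0) (nat_lit 1809800186) (nat_lit 380) (nat_lit 11335481694) (nat_lit 76) (nat_lit 6695818532) (nat_lit 129) (nat_lit 5) (nat_lit 134) (nat_lit 5) (nat_lit 130) (nat_lit 5) (nat_lit 423) (nat_lit 353) (nat_lit 244))))))))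
noncomputable def xc79 : XT := (XT.nd (nat_lit 49062) (nat_lit 0) (nat_lit 15200) (XT.nd (nat_lit 48282) (nat_lit 0) (nat_lit 33136) (XT.nd (nat_lit 47892) (nat_lit 0) (nat_lit 38836) (XT.nd (nat_lit 47658) (nat_lit 0) (nat_lit 41344) (XT.nd (nat_lit 78) (nat_lit 228) (nat_lit 0) (XT.lf (nat_lit 0) (nat_lit 8109641899) (nat_lit 304) (nat_lit 2007343815) (nat_lit 380) (nat_lit 10087421659) (nat_lit 125) (nat_lit 5) (nat_lit 129) (nat_lit 5) (nat_lit 130) (nat_lit 5) (nat_lit 424) (nat_lit 353) (nat_lit 243)) (XT.lf (nat_lit 0) (nat_lit 7712988723) (nat_lit 228) (nat_lit 11124069213) (nat_lit 304) (nat_lit 1738282184) (nat_lit 122) (nat_lit 5) (nat_lit 125) (nat_lit 5) (nat_lit 126) (nat_lit 5) (nat_lit 425) (nat_lit 353) (nat_lit 242))) (XT.nd (nat_lit 78) (nat_lit 1216) (nat_lit 0) (XT.lf (nat_lit 0) (nat_lit 1436229205) (nat_lit 0) (nat_lit 1436229205) (nat_lit 1140) (nat_lit 762757044) (nat_lit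 682) (nat_lit 5) (nat_lit 682) (nat_lit 3) (nat_lit 697) (nat_lit 3) (nat_lit 354) (nat_lit 354) (nat_lit 312)) (XT.nd (nat_lit 78) (nat_lit 0) (nat_lit 0) (XT.lf (nat_lit 0) (nat_lit 890338410) (nat_lit 1216) (nat_lit 6261528671) (nat_lit 1292) (nat_lit 179452802) (nat_lit 666) (nat_lit 5) (nat_lit 682) (nat_lit 5) (nat_lit 683) (nat_lit 5) (nat_lit 355) (nat_lit 354) (nat_lit 311)) (XT.lf (nat_lit 0) (nat_lit 3313182230) (nat_lit 1216) (nat_lit 712056619) (nat_lit 1292) (nat_lit 3369490175) (nat_lit 666) (nat_lit 5) (nat_lit 682) (nat_lit 5) (nat_lit 683) (nat_lit 5) (nat_lit 356) (nat_lit 354) (nat_lit 310))))) (XT.nd (nat_lit 156) (nat_lit 1292) (nat_lit 0) (XT.nd (nat_lit 78) (nat_lit 1216) (nat_lit 0) (XT.lf (nat_lit 76) (nat_lit 5020426343) (nat_lit 0) (nat_lit 729535852) (nat_lit 1292) (nat_lit 1711253227) (nat_lit 667) (nat_lit 5) (nat_lit 666) (nat_lit 5) (nat_lit 683) (nat_lit 5) (nat_lit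 357) (nat_lit 354) (nat_lit 309)) (XT.lf (nat_lit 0) (nat_lit 675655980) (nat_lit 1292) (nat_lit 4153549462) (nat_lit 1368) (nat_lit 2701294500) (nat_lit 650) (nat_lit 5) (nat_lit 667) (nat_lit 5) (nat_lit 668) (nat_lit 5) (nat_lit 358) (nat_lit 354) (nat_lit 308))) (XT.nd (nat_lit 78) (nat_lit 1292) (nat_lit 0) (XT.lf (nat_lit 76) (nat_lit 1756812351) (nat_lit 0) (nat_lit 1300129837) (nat_lit 1368) (nat_lit 4545774203) (nat_lit 651) (nat_lit 5) (nat_lit 650) (nat_lit 5) (nat_lit 668) (nat_lit 5) (nat_lit 359) (nat_lit 354) (nat_lit 307)) (XT.nd (nat_lit 78) (nat_lit 1368) (nat_lit 0) (XT.lf (nat_lit 76) (nat_lit 159557014) (nat_lit 0) (nat_lit 5310025482) (nat_lit 1368) (nat_lit 2208318527) (nat_lit 652) (nat_lit 5) (nat_lit 651) (nat_lit 5) (nat_lit 669) (nat_lit 5) (nat_lit 360) (nat_lit 354) (nat_lit 306)) (XT.lf (nat_lit 0) (nat_lit 162192377) (nat_lit 1368) (nat_lit 1391850885) (nat_lit 1444)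 (nat_lit 6201961159) (nat_lit 633) (nat_lit 5) (nat_lit 651) (nat_lit 5) (nat_lit 652) (nat_lit 5) (nat_lit 361) (nat_lit 354) (nat_lit 305)))))) (XT.nd (nat_lit 390) (nat_lit 4408) (nat_lit 0) (XT.nd (nat_lit 156) (nat_lit 1368) (nat_lit 0) (XT.nd (nat_lit 78) (nat_lit 0) (nat_lit 0) (XT.lf (nat_lit 0) (nat_lit 2540838264) (nat_lit 1368) (nat_lit 2935229379) (nat_lit 1444) (nat_lit 2360750899) (nat_lit 634) (nat_lit 5) (nat_lit 652) (nat_lit 5) (nat_lit 653) (nat_lit 5) (nat_lit 362) (nat_lit 354) (nat_lit 304)) (XT.lf (nat_lit 76) (nat_lit 3466356912) (nat_lit 0) (nat_lit 1488481643) (nat_lit 1444) (nat_lit 2965938630) (nat_lit 635) (nat_lit 5) (nat_lit 634) (nat_lit 5) (nat_lit 653) (nat_lit 5) (nat_lit 363) (nat_lit 354) (nat_lit 303))) (XT.nd (nat_lit 78) (nat_lit 1444) (nat_lit 0) (XT.lf (nat_lit 76) (nat_lit 2050548162) (nat_lit 0) (nat_lit 5364770737) (nat_lit 1444) (nat_lit 592454486) (nat_lit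 636) (nat_lit 5) (nat_lit 635) (nat_lit 5) (nat_lit 654) (nat_lit 5) (nat_lit 364) (nat_lit 354) (nat_lit 302)) (XT.nd (nat_lit 78) (nat_lit 0) (nat_lit 76) (XT.lf (nat_lit 76) (nat_lit 648522377) (nat_lit 0) (nat_lit 1149084409) (nat_lit 1520) (nat_lit 6300138868) (nat_lit 617) (nat_lit 5) (nat_lit 616) (nat_lit 5) (nat_lit 636) (nat_lit 5) (nat_lit 365) (nat_lit 354) (nat_lit 301)) (XT.lf (nat_lit 0) (nat_lit 4239831859) (nat_lit 1444) (nat_lit 733994769) (nat_lit 1520) (nat_lit 3216741919) (nat_lit 617) (nat_lit 5) (nat_lit 636) (nat_lit 5) (nat_lit 637) (nat_lit 5) (nat_lit 366) (nat_lit 354) (nat_lit 300))))) (XT.nd (nat_lit 156) (nat_lit 3040) (nat_lit 0) (XT.nd (nat_lit 78) (nat_lit 1444) (nat_lit 0) (XT.lf (nat_lit 76) (nat_lit 6204525256) (nat_lit 0) (nat_lit 527988397) (nat_lit 1520) (nat_lit 1554118675) (nat_lit 618) (nat_lit 5) (nat_lit 617) (nat_lit 5) (nat_lit 637) (nat_lit 5) (nat_lit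 367) (nat_lit 354) (nat_lit 299)) (XT.lf (nat_lit 0) (nat_lit 896965176) (nat_lit 1520) (nat_lit 3429587633) (nat_lit 1596) (nat_lit 4059015279) (nat_lit 598) (nat_lit 5) (nat_lit 618) (nat_lit 5) (nat_lit 619) (nat_lit 5) (nat_lit 368) (nat_lit 354) (nat_lit 298))) (XT.nd (nat_lit 78) (nat_lit 3116) (nat_lit 0) (XT.lf (nat_lit 0) (nat_lit 3377125475) (nat_lit 1520) (nat_lit 4761228590) (nat_lit 76) (nat_lit 349379234) (nat_lit 599) (nat_lit 5) (nat_lit 619) (nat_lit 5) (nat_lit 600) (nat_lit 5) (nat_lit 369) (nat_lit 354) (nat_lit 297)) (XT.nd (nat_lit 78) (nat_lit 1596) (nat_lit 0) (XT.lf (nat_lit 0) (nat_lit 2502336133) (nat_lit 1520) (nat_lit 3431954126) (nat_lit 1596) (nat_lit 2658621216) (nat_lit 579) (nat_lit 5) (nat_lit 599) (nat_lit 5) (nat_lit 600) (nat_lit 5) (nat_lit 370) (nat_lit 354) (nat_lit 296)) (XT.lf (nat_lit 0) (nat_lit 1302431558) (nat_lit 1596) (nat_lit 7251549657) (nat_lit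 1672) (nat_lit 147547555) (nat_lit 558) (nat_lit 5) (nat_lit 579) (nat_lit 5) (nat_lit 580) (nat_lit 5) (nat_lit 371) (nat_lit 354) (nat_lit 295))))))) (XT.nd (nat_lit 780) (nat_lit 7752) (nat_lit 0) (XT.nd (nat_lit 390) (nat_lit 3648) (nat_lit 0) (XT.nd (nat_lit 156) (nat_lit 4788) (nat_lit 0) (XT.nd (nat_lit 78) (nat_lit 0) (nat_lit 0) (XT.lf (nat_lit 0) (nat_lit 96631071) (nat_lit 1672) (nat_lit 2312165923) (nat_lit 1748) (nat_lit 6404252402) (nat_lit 535) (nat_lit 5) (nat_lit 557) (nat_lit 5) (nat_lit 558) (nat_lit 5) (nat_lit 372) (nat_lit 354) (nat_lit 294)) (XT.lf (nat_lit 0) (nat_lit 5046687152) (nat_lit 1748) (nat_lit 1081758422) (nat_lit 76) (nat_lit 2799313363) (nat_lit 535) (nat_lit 5) (nat_lit 558) (nat_lit 5) (nat_lit 536) (nat_lit 5) (nat_lit 373) (nat_lit 354) (nat_lit 293))) (XT.nd (nat_lit 78) (nat_lit 3040) (nat_lit 0) (XT.lf (nat_lit 0) (nat_lit 6803259849) (nat_lit 1748) (nat_lit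 960241357) (nat_lit 1824) (nat_lit 1282412816) (nat_lit 512) (nat_lit 5) (nat_lit 535) (nat_lit 5) (nat_lit 536) (nat_lit 5) (nat_lit 374) (nat_lit 354) (nat_lit 292)) (XT.nd (nat_lit 78) (nat_lit 1140) (nat_lit 0) (XT.lf (nat_lit 0) (nat_lit 1390771484) (nat_lit 1900) (nat_lit 3409852883) (nat_lit 76) (nat_lit 4366511333) (nat_lit 487) (nat_lit 5) (nat_lit 512) (nat_lit 5) (nat_lit 488) (nat_lit 5) (nat_lit 375) (nat_lit 354) (nat_lit 291)) (XT.lf (nat_lit 0) (nat_lit 4125803314) (nat_lit 1216) (nat_lit 4565418810) (nat_lit 76) (nat_lit 600620870) (nat_lit 472) (nat_lit 5) (nat_lit 488) (nat_lit 5) (nat_lit 473) (nat_lit 5) (nat_lit 376) (nat_lit 354) (nat_lit 290))))) (XT.nd (nat_lit 156) (nat_lit 1748) (nat_lit 0) (XT.nd (nat_lit 78) (nat_lit 988) (nat_lit 0) (XT.lf (nat_lit 0) (nat_lit 3696855715) (nat_lit 912) (nat_lit 3269350545) (nat_lit 988) (nat_lit 2453618843) (nat_lit 460) (nat_lit 5)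 (nat_lit 472) (nat_lit 5) (nat_lit 473) (nat_lit 5) (nat_lit 377) (nat_lit 354) (nat_lit 289)) (XT.lf (nat_lit 0) (nat_lit 344644471) (nat_lit 988) (nat_lit 6868552832) (nat_lit 76) (nat_lit 2338226575) (nat_lit 447) (nat_lit 5) (nat_lit 460) (nat_lit 5) (nat_lit 448) (nat_lit 5) (nat_lit 378) (nat_lit 354) (nat_lit 288))) (XT.nd (nat_lit 78) (nat_lit 912) (nat_lit 0) (XT.lf (nat_lit 0) (nat_lit 1663202532) (nat_lit 836) (nat_lit 1548372938) (nat_lit 912) (nat_lit 6474709680) (nat_lit 436) (nat_lit 5) (nat_lit 447) (nat_lit 5) (nat_lit 448) (nat_lit 5) (nat_lit 379) (nat_lit 354) (nat_lit 287)) (XT.nd (nat_lit 78) (nat_lit 0) (nat_lit 0) (XT.lf (nat_lit 0) (nat_lit 647720410) (nat_lit 912) (nat_lit 5543077498) (nat_lit 988) (nat_lit 3633868681) (nat_lit 424) (nat_lit 5) (nat_lit 436) (nat_lit 5) (nat_lit 437) (nat_lit 5) (nat_lit 380) (nat_lit 354) (nat_lit 286)) (XT.lf (nat_lit 0) (nat_lit 9274929672)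 (nat_lit 988) (nat_lit 343687835) (nat_lit 76) (nat_lit 348271313) (nat_lit 424) (nat_lit 5) (nat_lit 437) (nat_lit 5) (nat_lit 425) (nat_lit 5) (nat_lit 381) (nat_lit 354) (nat_lit 285)))))) (XT.nd (nat_lit 390) (nat_lit 3648) (nat_lit 0) (XT.nd (nat_lit 156) (nat_lit 2356) (nat_lit 0) (XT.nd (nat_lit 78) (nat_lit 836) (nat_lit 0) (XT.lf (nat_lit 0) (nat_lit 2351992501) (nat_lit 912) (nat_lit 1347210636) (nat_lit 76) (nat_lit 6412981940) (nat_lit 412) (nat_lit 5) (nat_lit 424) (nat_lit 5) (nat_lit 413) (nat_lit 5) (nat_lit 382) (nat_lit 354) (nat_lit 284)) (XT.lf (nat_lit 0) (nat_lit 5498612415) (nat_lit 912) (nat_lit 2340037884) (nat_lit 76) (nat_lit 2422683430) (nat_lit 401) (nat_lit 5) (nat_lit 413) (nat_lit 5) (nat_lit 402) (nat_lit 5) (nat_lit 383) (nat_lit 354) (nat_lit 283))) (XT.nd (nat_lit 78) (nat_lit 1596) (nat_lit 0) (XT.lf (nat_lit 0) (nat_lit 7087867525) (nat_lit 760) (nat_lit 1683670437)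 (nat_lit 836) (nat_lit 1642780739) (nat_lit 391) (nat_lit 5) (nat_lit 401) (nat_lit 5) (nat_lit 402) (nat_lit 5) (nat_lit 384) (nat_lit 354) (nat_lit 282)) (XT.nd (nat_lit 78) (nat_lit 760) (nat_lit 0) (XT.lf (nat_lit 0) (nat_lit 1590251949) (nat_lit 836) (nat_lit 4322630919) (nat_lit 76) (nat_lit 4658004491) (nat_lit 380) (nat_lit 5) (nat_lit 391) (nat_lit 5) (nat_lit 381) (nat_lit 5) (nat_lit 385) (nat_lit 354) (nat_lit 281)) (XT.lf (nat_lit 0) (nat_lit 4924213401) (nat_lit 836) (nat_lit 5313645392) (nat_lit 76) (nat_lit 493551975) (nat_lit 370) (nat_lit 5) (nat_lit 381) (nat_lit 5) (nat_lit 371) (nat_lit 5) (nat_lit 386) (nat_lit 354) (nat_lit 280))))) (XT.nd (nat_lit 156) (nat_lit 2128) (nat_lit 0) (XT.nd (nat_lit 78) (nat_lit 760) (nat_lit 0) (XT.lf (nat_lit 0) (nat_lit 4582043751) (nat_lit 760) (nat_lit 3829643908) (nat_lit 836) (nat_lit 2483992340) (nat_lit 360) (nat_lit 5) (nat_lit 370) (nat_lit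 5) (nat_lit 371) (nat_lit 5) (nat_lit 387) (nat_lit 354) (nat_lit 279)) (XT.lf (nat_lit 0) (nat_lit 961149792) (nat_lit 760) (nat_lit 7307912474) (nat_lit 76) (nat_lit 2795002023) (nat_lit 350) (nat_lit 5) (nat_lit 360) (nat_lit 5) (nat_lit 351) (nat_lit 5) (nat_lit 388) (nat_lit 354) (nat_lit 278))) (XT.nd (nat_lit 78) (nat_lit 1444) (nat_lit 0) (XT.lf (nat_lit 0) (nat_lit 2922191716) (nat_lit 684) (nat_lit 1597885782) (nat_lit 760) (nat_lit 6716210646) (nat_lit 341) (nat_lit 5) (nat_lit 350) (nat_lit 5) (nat_lit 351) (nat_lit 5) (nat_lit 389) (nat_lit 354) (nat_lit 277)) (XT.nd (nat_lit 78) (nat_lit 760) (nat_lit 0) (XT.lf (nat_lit 0) (nat_lit 2087952192) (nat_lit 684) (nat_lit 6152693259) (nat_lit 760) (nat_lit 3171935814) (nat_lit 332) (nat_lit 5) (nat_lit 341) (nat_lit 5) (nat_lit 342) (nat_lit 5) (nat_lit 390) (nat_lit 354) (nat_lit 276)) (XT.lf (nat_lit 0) (nat_lit 510917914) (nat_lit 760)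 (nat_lit 10324176477) (nat_lit 76) (nat_lit 758236064) (nat_lit 322) (nat_lit 5) (nat_lit 332) (nat_lit 5) (nat_lit 323) (nat_lit 5) (nat_lit 391) (nat_lit 354) (nat_lit 275))))))))
noncomputable def xc80 : XT := (XT.nd (nat_lit 1482) (nat_lit 4864) (nat_lit 0) (XT.nd (nat_lit 702) (nat_lit 4940) (nat_lit 0) (XT.nd (nat_lit 312) (nat_lit 2964) (nat_lit 0) (XT.nd (nat_lit 156) (nat_lit 1292) (nat_lit 0) (XT.nd (nat_lit 78) (nat_lit 0) (nat_lit 0) (XT.lf (nat_lit 0) (nat_lit 421835473) (nat_lit 608) (nat_lit 3905773582) (nat_lit 684) (nat_lit 7450144816) (nat_lit 314) (nat_lit 5) (nat_lit 322) (nat_lit 5) (nat_lit 323) (nat_lit 5) (nat_lit 392) (nat_lit 354) (nat_lit 274)) (XT.lf (nat_lit 0) (nat_lit 8309727897) (nat_lit 684) (nat_lit 407193553) (nat_lit 76) (nat_lit 3249769999) (nat_lit 314) (nat_lit 5) (nat_lit 323) (nat_lit 5) (nat_lit 315) (nat_lit 5) (nat_lit 393) (nat_lit 354) (nat_lit 273)))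 (XT.nd (nat_lit 78) (nat_lit 608) (nat_lit 0) (XT.lf (nat_lit 0) (nat_lit 304954604) (nat_lit 684) (nat_lit 1224322365) (nat_lit 76) (nat_lit 10630823313) (nat_lit 305) (nat_lit 5) (nat_lit 314) (nat_lit 5) (nat_lit 306) (nat_lit 5) (nat_lit 394) (nat_lit 354) (nat_lit 272)) (XT.lf (nat_lit 0) (nat_lit 4406127712) (nat_lit 684) (nat_lit 2069782530) (nat_lit 76) (nat_lit 5881516064) (nat_lit 297) (nat_lit 5) (nat_lit 306) (nat_lit 5) (nat_lit 298) (nat_lit 5) (nat_lit 395) (nat_lit 354) (nat_lit 271)))) (XT.nd (nat_lit 156) (nat_lit 1748) (nat_lit 0) (XT.nd (nat_lit 78) (nat_lit 608) (nat_lit 0) (XT.lf (nat_lit 0) (nat_lit 8680170456) (nat_lit 684) (nat_lit 2897622605) (nat_lit 76) (nat_lit 981882359) (nat_lit 289) (nat_lit 5) (nat_lit 298) (nat_lit 5) (nat_lit 290) (nat_lit 5) (nat_lit 396) (nat_lit 354) (nat_lit 270)) (XT.lf (nat_lit 0) (nat_lit 389652896) (nat_lit 608) (nat_lit 3736431335) (nat_lit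 76) (nat_lit 8640280259) (nat_lit 281) (nat_lit 5) (nat_lit 289) (nat_lit 5) (nat_lit 282) (nat_lit 5) (nat_lit 397) (nat_lit 354) (nat_lit 269))) (XT.nd (nat_lit 78) (nat_lit 1140) (nat_lit 0) (XT.lf (nat_lit 0) (nat_lit 4795760873) (nat_lit 684) (nat_lit 4589920837) (nat_lit 76) (nat_lit 3591827998) (nat_lit 273) (nat_lit 5) (nat_lit 282) (nat_lit 5) (nat_lit 274) (nat_lit 5) (nat_lit 398) (nat_lit 354) (nat_lit 268)) (XT.nd (nat_lit 78) (nat_lit 608) (nat_lit 0) (XT.lf (nat_lit 0) (nat_lit 7757446848) (nat_lit 532) (nat_lit 1644005332) (nat_lit 608) (nat_lit 3792189102) (nat_lit 266) (nat_lit 5) (nat_lit 273) (nat_lit 5) (nat_lit 274) (nat_lit 5) (nat_lit 399) (nat_lit 354) (nat_lit 267)) (XT.lf (nat_lit 0) (nat_lit 803335199) (nat_lit 608) (nat_lit 6293652735) (nat_lit 76) (nat_lit 6317497407) (nat_lit 258) (nat_lit 5) (nat_lit 266) (nat_lit 5) (nat_lit 259) (nat_lit 5) (nat_lit 400) (nat_lit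 354) (nat_lit 266)))))) (XT.nd (nat_lit 390) (nat_lit 2356) (nat_lit 0) (XT.nd (nat_lit 156) (nat_lit 1520) (nat_lit 0) (XT.nd (nat_lit 78) (nat_lit 532) (nat_lit 0) (XT.lf (nat_lit 0) (nat_lit 5546955685) (nat_lit 608) (nat_lit 7158274460) (nat_lit 76) (nat_lit 934988222) (nat_lit 251) (nat_lit 5) (nat_lit 259) (nat_lit 5) (nat_lit 252) (nat_lit 5) (nat_lit 401) (nat_lit 354) (nat_lit 265)) (XT.lf (nat_lit 0) (nat_lit 5836022750) (nat_lit 532) (nat_lit 4690874057) (nat_lit 608) (nat_lit 3343946336) (nat_lit 244) (nat_lit 5) (nat_lit 251) (nat_lit 5) (nat_lit 252) (nat_lit 5) (nat_lit 402) (nat_lit 354) (nat_lit 264))) (XT.nd (nat_lit 78) (nat_lit 988) (nat_lit 0) (XT.lf (nat_lit 0) (nat_lit 1600141613) (nat_lit 532) (nat_lit 8909582293) (nat_lit 76) (nat_lit 3597009914) (nat_lit 237) (nat_lit 5) (nat_lit 244) (nat_lit 5) (nat_lit 238) (nat_lit 5) (nat_lit 403) (nat_lit 354) (nat_lit 263)) (XT.nd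 (nat_lit 78) (nat_lit 456) (nat_lit 0) (XT.lf (nat_lit 0) (nat_lit 4545639659) (nat_lit 532) (nat_lit 2184222839) (nat_lit 608) (nat_lit 7617741820) (nat_lit 230) (nat_lit 5) (nat_lit 237) (nat_lit 5) (nat_lit 238) (nat_lit 5) (nat_lit 404) (nat_lit 354) (nat_lit 262)) (XT.lf (nat_lit 0) (nat_lit 3894028479) (nat_lit 456) (nat_lit 8214363950) (nat_lit 532) (nat_lit 2485410155) (nat_lit 224) (nat_lit 5) (nat_lit 230) (nat_lit 5) (nat_lit 231) (nat_lit 5) (nat_lit 405) (nat_lit 354) (nat_lit 261))))) (XT.nd (nat_lit 156) (nat_lit 1368) (nat_lit 0) (XT.nd (nat_lit 78) (nat_lit 456) (nat_lit 0) (XT.lf (nat_lit 0) (nat_lit 2837248655) (nat_lit 532) (nat_lit 11596687351) (nat_lit 76) (nat_lit 411625260) (nat_lit 217) (nat_lit 5) (nat_lit 224) (nat_lit 5) (nat_lit 218) (nat_lit 5) (nat_lit 406) (nat_lit 354) (nat_lit 260)) (XT.lf (nat_lit 0) (nat_lit 2574175873) (nat_lit 456) (nat_lit 5824816929) (nat_lit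 532) (nat_lit 6703287883) (nat_lit 211) (nat_lit 5) (nat_lit 217) (nat_lit 5) (nat_lit 218) (nat_lit 5) (nat_lit 407) (nat_lit 354) (nat_lit 259))) (XT.nd (nat_lit 78) (nat_lit 912) (nat_lit 0) (XT.lf (nat_lit 0) (nat_lit 1922371080) (nat_lit 456) (nat_lit 12285434087) (nat_lit 532) (nat_lit 1157292201) (nat_lit 205) (nat_lit 5) (nat_lit 211) (nat_lit 5) (nat_lit 212) (nat_lit 5) (nat_lit 408) (nat_lit 354) (nat_lit 258)) (XT.nd (nat_lit 78) (nat_lit 456) (nat_lit 0) (XT.lf (nat_lit 0) (nat_lit 1244990598) (nat_lit 380) (nat_lit 3352130441) (nat_lit 456) (nat_lit 11036050453) (nat_lit 199) (nat_lit 5) (nat_lit 204) (nat_lit 5) (nat_lit 205) (nat_lit 5) (nat_lit 409) (nat_lit 354) (nat_lit 257)) (XT.lf (nat_lit 0) (nat_lit 565220062) (nat_lit 456) (nat_lit 10046443019) (nat_lit 532) (nat_lit 5295407376) (nat_lit 193) (nat_lit 5) (nat_lit 199) (nat_lit 5) (nat_lit 200) (nat_lit 5) (nat_lit 410) (nat_lit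 354) (nat_lit 256))))))) (XT.nd (nat_lit 780) (nat_lit 1368) (nat_lit 0) (XT.nd (nat_lit 390) (nat_lit 1824) (nat_lit 0) (XT.nd (nat_lit 156) (nat_lit 1216) (nat_lit 0) (XT.nd (nat_lit 78) (nat_lit 380) (nat_lit 0) (XT.lf (nat_lit 0) (nat_lit 700098154) (nat_lit 532) (nat_lit 95544250) (nat_lit 76) (nat_lit 15391648983) (nat_lit 192) (nat_lit 5) (nat_lit 199) (nat_lit 5) (nat_lit 193) (nat_lit 5) (nat_lit 411) (nat_lit 354) (nat_lit 255)) (XT.lf (nat_lit 0) (nat_lit 6934656559) (nat_lit 456) (nat_lit 796235965) (nat_lit 76) (nat_lit 8741703737) (nat_lit 187) (nat_lit 5) (nat_lit 193) (nat_lit 5) (nat_lit 188) (nat_lit 5) (nat_lit 412) (nat_lit 354) (nat_lit 254))) (XT.nd (nat_lit 78) (nat_lit 836) (nat_lit 0) (XT.lf (nat_lit 0) (nat_lit 13445297816) (nat_lit 456) (nat_lit 1469211553) (nat_lit 76) (nat_lit 1850169991) (nat_lit 182) (nat_lit 5) (nat_lit 188) (nat_lit 5) (nat_lit 183) (nat_lit 5) (nat_lit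 413) (nat_lit 354) (nat_lit 253)) (XT.nd (nat_lit 78) (nat_lit 380) (nat_lit 0) (XT.lf (nat_lit 0) (nat_lit 3172034795) (nat_lit 456) (nat_lit 2168172190) (nat_lit 76) (nat_lit 11722381848) (nat_lit 176) (nat_lit 5) (nat_lit 182) (nat_lit 5) (nat_lit 177) (nat_lit 5) (nat_lit 414) (nat_lit 354) (nat_lit 252)) (XT.lf (nat_lit 0) (nat_lit 9920091675) (nat_lit 456) (nat_lit 2872740730) (nat_lit 76) (nat_lit 4574024454) (nat_lit 171) (nat_lit 5) (nat_lit 177) (nat_lit 5) (nat_lit 172) (nat_lit 5) (nat_lit 415) (nat_lit 354) (nat_lit 251))))) (XT.nd (nat_lit 156) (nat_lit 1064) (nat_lit 0) (XT.nd (nat_lit 78) (nat_lit 456) (nat_lit 0) (XT.lf (nat_lit 0) (nat_lit 14112277189) (nat_lit 304) (nat_lit 2873190816) (nat_lit 380) (nat_lit 692487365) (nat_lit 167) (nat_lit 5) (nat_lit 171) (nat_lit 5) (nat_lit 172) (nat_lit 5) (nat_lit 416) (nat_lit 354) (nat_lit 250)) (XT.lf (nat_lit 0) (nat_lit 6312758901)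 (nat_lit 456) (nat_lit 4299518813) (nat_lit 76) (nat_lit 7382685685) (nat_lit 161) (nat_lit 5) (nat_lit 167) (nat_lit 5) (nat_lit 162) (nat_lit 5) (nat_lit 417) (nat_lit 354) (nat_lit 249))) (XT.nd (nat_lit 78) (nat_lit 760) (nat_lit 0) (XT.lf (nat_lit 0) (nat_lit 13310387409) (nat_lit 304) (nat_lit 311878911) (nat_lit 380) (nat_lit 4697053564) (nat_lit 157) (nat_lit 5) (nat_lit 161) (nat_lit 5) (nat_lit 162) (nat_lit 5) (nat_lit 418) (nat_lit 354) (nat_lit 248)) (XT.nd (nat_lit 78) (nat_lit 304) (nat_lit 0) (XT.lf (nat_lit 0) (nat_lit 2619853212) (nat_lit 456) (nat_lit 5752732174) (nat_lit 76) (nat_lit 10277398179) (nat_lit 151) (nat_lit 5) (nat_lit 157) (nat_lit 5) (nat_lit 152) (nat_lit 5) (nat_lit 419) (nat_lit 354) (nat_lit 247)) (XT.lf (nat_lit 0) (nat_lit 10199585503) (nat_lit 380) (nat_lit 6495348776) (nat_lit 76) (nat_lit 2292869270) (nat_lit 147) (nat_lit 5) (nat_lit 152) (nat_lit 5) (nat_lit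 148) (nat_lit 5) (nat_lit 420) (nat_lit 354) (nat_lit 246)))))) (XT.nd (nat_lit 48048) (nat_lit 0) (nat_lit 39520) (XT.nd (nat_lit 156) (nat_lit 684) (nat_lit 0) (XT.nd (nat_lit 78) (nat_lit 380) (nat_lit 0) (XT.lf (nat_lit 0) (nat_lit 12089569943) (nat_lit 304) (nat_lit 6065469024) (nat_lit 380) (nat_lit 1177752582) (nat_lit 143) (nat_lit 5) (nat_lit 147) (nat_lit 5) (nat_lit 148) (nat_lit 5) (nat_lit 421) (nat_lit 354) (nat_lit 245)) (XT.lf (nat_lit 0) (nat_lit 6701547667) (nat_lit 380) (nat_lit 8015565120) (nat_lit 76) (nat_lit 4967593818) (nat_lit 138) (nat_lit 5) (nat_lit 143) (nat_lit 5) (nat_lit 139) (nat_lit 5) (nat_lit 422) (nat_lit 354) (nat_lit 244))) (XT.nd (nat_lit 78) (nat_lit 380) (nat_lit 0) (XT.lf (nat_lit 0) (nat_lit 11259853340) (nat_lit 304) (nat_lit 3679818357) (nat_lit 380) (nat_lit 5104582799) (nat_lit 134) (nat_lit 5) (nat_lit 138) (nat_lit 5) (nat_lit 139) (nat_lit 5) (nat_lit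 423) (nat_lit 354) (nat_lit 243)) (XT.nd (nat_lit 47736) (nat_lit 0) (nat_lit 40736) (XT.lf (nat_lit 0) (nat_lit 3122615317) (nat_lit 380) (nat_lit 9570798984) (nat_lit 76) (nat_lit 7717748702) (nat_lit 129) (nat_lit 5) (nat_lit 134) (nat_lit 5) (nat_lit 130) (nat_lit 5) (nat_lit 424) (nat_lit 354) (nat_lit 242)) (XT.lf (nat_lit 0) (nat_lit 1611788320) (nat_lit 1292) (nat_lit 1042421565) (nat_lit 1292) (nat_lit 1042421565) (nat_lit 665) (nat_lit 3) (nat_lit 682) (nat_lit 3) (nat_lit 682) (nat_lit 5) (nat_lit 355) (nat_lit 355) (nat_lit 310))))) (XT.nd (nat_lit 156) (nat_lit 0) (nat_lit 0) (XT.nd (nat_lit 78) (nat_lit 1216) (nat_lit 0) (XT.lf (nat_lit 76) (nat_lit 3498489233) (nat_lit 0) (nat_lit 2068088348) (nat_lit 1292) (nat_lit 1891691319) (nat_lit 666) (nat_lit 5) (nat_lit 665) (nat_lit 3) (nat_lit 682) (nat_lit 5) (nat_lit 356) (nat_lit 355) (nat_lit 309)) (XT.lf (nat_lit 0) (nat_lit 393257293)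 (nat_lit 1292) (nat_lit 5809664832) (nat_lit 1368) (nat_lit 1323352384) (nat_lit 649) (nat_lit 5) (nat_lit 666) (nat_lit 5) (nat_lit 667) (nat_lit 5) (nat_lit 357) (nat_lit 355) (nat_lit 308))) (XT.nd (nat_lit 78) (nat_lit 0) (nat_lit 76) (XT.lf (nat_lit 0) (nat_lit 2675061250) (nat_lit 1292) (nat_lit 53209076) (nat_lit 1368) (nat_lit 4868719729) (nat_lit 649) (nat_lit 5) (nat_lit 666) (nat_lit 5) (nat_lit 667) (nat_lit 5) (nat_lit 358) (nat_lit 355) (nat_lit 307)) (XT.nd (nat_lit 78) (nat_lit 0) (nat_lit 0) (XT.lf (nat_lit 0) (nat_lit 4985243214) (nat_lit 1292) (nat_lit 1770218112) (nat_lit 1368) (nat_lit 915167262) (nat_lit 650) (nat_lit 5) (nat_lit 667) (nat_lit 5) (nat_lit 668) (nat_lit 5) (nat_lit 359) (nat_lit 355) (nat_lit 306)) (XT.lf (nat_lit 76) (nat_lit 4276766243) (nat_lit 0) (nat_lit 3052289206) (nat_lit 1368) (nat_lit 418134334) (nat_lit 651) (nat_lit 5) (nat_lit 650) (nat_lit 5) (nat_lit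 668) (nat_lit 5) (nat_lit 360) (nat_lit 355) (nat_lit 305))))))))
noncomputable def xc81 : XT := (XT.nd (nat_lit 1482) (nat_lit 13224) (nat_lit 0) (XT.nd (nat_lit 702) (nat_lit 11400) (nat_lit 0) (XT.nd (nat_lit 312) (nat_lit 1368) (nat_lit 0) (XT.nd (nat_lit 156) (nat_lit 1368) (nat_lit 0) (XT.nd (nat_lit 78) (nat_lit 0) (nat_lit 0) (XT.lf (nat_lit 0) (nat_lit 1846389453) (nat_lit 1368) (nat_lit 5154341939) (nat_lit 1444) (nat_lit 825979499) (nat_lit 633) (nat_lit 5) (nat_lit 651) (nat_lit 5) (nat_lit 652) (nat_lit 5) (nat_lit 361) (nat_lit 355) (nat_lit 304)) (XT.lf (nat_lit 76) (nat_lit 1080353280) (nat_lit 0) (nat_lit 3065686390) (nat_lit 1444) (nat_lit 3763065253) (nat_lit 634) (nat_lit 5) (nat_lit 633) (nat_lit 5) (nat_lit 652) (nat_lit 5) (nat_lit 362) (nat_lit 355) (nat_lit 303))) (XT.nd (nat_lit 78) (nat_lit 1444) (nat_lit 0) (XT.lf (nat_lit 0) (nat_lit 6480134976) (nat_lit 1368) (nat_lit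 477432606) (nat_lit 1444) (nat_lit 1037094084) (nat_lit 634) (nat_lit 5) (nat_lit 652) (nat_lit 5) (nat_lit 653) (nat_lit 5) (nat_lit 363) (nat_lit 355) (nat_lit 302)) (XT.lf (nat_lit 0) (nat_lit 776910914) (nat_lit 1444) (nat_lit 2013277612) (nat_lit 1520) (nat_lit 5292773426) (nat_lit 615) (nat_lit 5) (nat_lit 634) (nat_lit 5) (nat_lit 635) (nat_lit 5) (nat_lit 364) (nat_lit 355) (nat_lit 301)))) (XT.nd (nat_lit 156) (nat_lit 1444) (nat_lit 0) (XT.nd (nat_lit 78) (nat_lit 0) (nat_lit 0) (XT.lf (nat_lit 0) (nat_lit 3087728328) (nat_lit 1444) (nat_lit 3536849002) (nat_lit 1520) (nat_lit 1549709433) (nat_lit 616) (nat_lit 5) (nat_lit 635) (nat_lit 5) (nat_lit 636) (nat_lit 5) (nat_lit 365) (nat_lit 355) (nat_lit 300)) (XT.lf (nat_lit 76) (nat_lit 3221006105) (nat_lit 0) (nat_lit 2229583670) (nat_lit 1520) (nat_lit 2818107154) (nat_lit 617) (nat_lit 5) (nat_lit 616) (nat_lit 5) (nat_lit 636) (nat_lit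 5) (nat_lit 366) (nat_lit 355) (nat_lit 299))) (XT.nd (nat_lit 78) (nat_lit 1520) (nat_lit 0) (XT.lf (nat_lit 76) (nat_lit 1823041163) (nat_lit 0) (nat_lit 6043456302) (nat_lit 1520) (nat_lit 499798726) (nat_lit 618) (nat_lit 5) (nat_lit 617) (nat_lit 5) (nat_lit 637) (nat_lit 5) (nat_lit 367) (nat_lit 355) (nat_lit 298)) (XT.nd (nat_lit 78) (nat_lit 0) (nat_lit 76) (XT.lf (nat_lit 76) (nat_lit 430678463) (nat_lit 0) (nat_lit 1417275079) (nat_lit 1596) (nat_lit 6618931581) (nat_lit 598) (nat_lit 5) (nat_lit 597) (nat_lit 5) (nat_lit 618) (nat_lit 5) (nat_lit 368) (nat_lit 355) (nat_lit 297)) (XT.lf (nat_lit 0) (nat_lit 4260022880) (nat_lit 1520) (nat_lit 942609444) (nat_lit 1596) (nat_lit 3367779831) (nat_lit 598) (nat_lit 5) (nat_lit 618) (nat_lit 5) (nat_lit 619) (nat_lit 5) (nat_lit 369) (nat_lit 355) (nat_lit 296)))))) (XT.nd (nat_lit 390) (nat_lit 4940) (nat_lit 0) (XT.nd (nat_lit 156) (nat_lit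 5016) (nat_lit 0) (XT.nd (nat_lit 78) (nat_lit 1520) (nat_lit 0) (XT.lf (nat_lit 76) (nat_lit 6388563027) (nat_lit 0) (nat_lit 343030397) (nat_lit 1596) (nat_lit 1945708791) (nat_lit 599) (nat_lit 5) (nat_lit 598) (nat_lit 5) (nat_lit 619) (nat_lit 5) (nat_lit 370) (nat_lit 355) (nat_lit 295)) (XT.lf (nat_lit 0) (nat_lit 491506446) (nat_lit 1596) (nat_lit 3637980272) (nat_lit 76) (nat_lit 4657688249) (nat_lit 578) (nat_lit 5) (nat_lit 599) (nat_lit 5) (nat_lit 579) (nat_lit 5) (nat_lit 371) (nat_lit 355) (nat_lit 294))) (XT.nd (nat_lit 78) (nat_lit 3420) (nat_lit 0) (XT.lf (nat_lit 0) (nat_lit 2964158975) (nat_lit 1672) (nat_lit 4979140676) (nat_lit 76) (nat_lit 957011920) (nat_lit 557) (nat_lit 5) (nat_lit 579) (nat_lit 5) (nat_lit 558) (nat_lit 5) (nat_lit 372) (nat_lit 355) (nat_lit 293)) (XT.nd (nat_lit 78) (nat_lit 1748) (nat_lit 0) (XT.lf (nat_lit 0) (nat_lit 2697626581) (nat_lit 1672) (nat_lit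 2823739580) (nat_lit 1748) (nat_lit 3495268612) (nat_lit 535) (nat_lit 5) (nat_lit 557) (nat_lit 5) (nat_lit 558) (nat_lit 5) (nat_lit 373) (nat_lit 355) (nat_lit 292)) (XT.lf (nat_lit 0) (nat_lit 1489571222) (nat_lit 1748) (nat_lit 6667153018) (nat_lit 1824) (nat_lit 979694736) (nat_lit 512) (nat_lit 5) (nat_lit 535) (nat_lit 5) (nat_lit 536) (nat_lit 5) (nat_lit 374) (nat_lit 355) (nat_lit 291))))) (XT.nd (nat_lit 156) (nat_lit 3040) (nat_lit 0) (XT.nd (nat_lit 78) (nat_lit 0) (nat_lit 0) (XT.lf (nat_lit 0) (nat_lit 283198059) (nat_lit 1824) (nat_lit 1313728586) (nat_lit 1900) (nat_lit 7662526555) (nat_lit 487) (nat_lit 5) (nat_lit 511) (nat_lit 5) (nat_lit 512) (nat_lit 5) (nat_lit 375) (nat_lit 355) (nat_lit 290)) (XT.lf (nat_lit 0) (nat_lit 4261307965) (nat_lit 1900) (nat_lit 914669656) (nat_lit 76) (nat_lit 4209595883) (nat_lit 487) (nat_lit 5) (nat_lit 512) (nat_lit 5) (nat_lit 488) (nat_lit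 5) (nat_lit 376) (nat_lit 355) (nat_lit 289))) (XT.nd (nat_lit 78) (nat_lit 1900) (nat_lit 0) (XT.lf (nat_lit 0) (nat_lit 7011240720) (nat_lit 1216) (nat_lit 2090434980) (nat_lit 76) (nat_lit 413689318) (nat_lit 472) (nat_lit 5) (nat_lit 488) (nat_lit 5) (nat_lit 473) (nat_lit 5) (nat_lit 377) (nat_lit 355) (nat_lit 288)) (XT.nd (nat_lit 78) (nat_lit 912) (nat_lit 0) (XT.lf (nat_lit 0) (nat_lit 221694454) (nat_lit 988) (nat_lit 3272588121) (nat_lit 76) (nat_lit 6154149914) (nat_lit 459) (nat_lit 5) (nat_lit 472) (nat_lit 5) (nat_lit 460) (nat_lit 5) (nat_lit 378) (nat_lit 355) (nat_lit 287)) (XT.lf (nat_lit 0) (nat_lit 3007719652) (nat_lit 988) (nat_lit 4457570983) (nat_lit 76) (nat_lit 2319621243) (nat_lit 447) (nat_lit 5) (nat_lit 460) (nat_lit 5) (nat_lit 448) (nat_lit 5) (nat_lit 379) (nat_lit 355) (nat_lit 286))))))) (XT.nd (nat_lit 780) (nat_lit 5852) (nat_lit 0) (XT.nd (nat_lit 390) (nat_lit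 3116) (nat_lit 0) (XT.nd (nat_lit 156) (nat_lit 2508) (nat_lit 0) (XT.nd (nat_lit 78) (nat_lit 912) (nat_lit 0) (XT.lf (nat_lit 0) (nat_lit 4287678702) (nat_lit 836) (nat_lit 1612431608) (nat_lit 912) (nat_lit 4024919642) (nat_lit 436) (nat_lit 5) (nat_lit 447) (nat_lit 5) (nat_lit 448) (nat_lit 5) (nat_lit 380) (nat_lit 355) (nat_lit 285)) (XT.lf (nat_lit 0) (nat_lit 3251077726) (nat_lit 912) (nat_lit 5658796657) (nat_lit 988) (nat_lit 1158865153) (nat_lit 424) (nat_lit 5) (nat_lit 436) (nat_lit 5) (nat_lit 437) (nat_lit 5) (nat_lit 381) (nat_lit 355) (nat_lit 284))) (XT.nd (nat_lit 78) (nat_lit 1596) (nat_lit 0) (XT.lf (nat_lit 0) (nat_lit 1787397465) (nat_lit 912) (nat_lit 7995343387) (nat_lit 76) (nat_lit 433431822) (nat_lit 412) (nat_lit 5) (nat_lit 424) (nat_lit 5) (nat_lit 413) (nat_lit 5) (nat_lit 382) (nat_lit 355) (nat_lit 283)) (XT.nd (nat_lit 78) (nat_lit 760) (nat_lit 0) (XT.lf (nat_lit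 0) (nat_lit 1176008983) (nat_lit 836) (nat_lit 3674676126) (nat_lit 912) (nat_lit 5516302863) (nat_lit 401) (nat_lit 5) (nat_lit 412) (nat_lit 5) (nat_lit 413) (nat_lit 5) (nat_lit 383) (nat_lit 355) (nat_lit 282)) (XT.lf (nat_lit 0) (nat_lit 144945239) (nat_lit 760) (nat_lit 7886753223) (nat_lit 836) (nat_lit 2490112725) (nat_lit 391) (nat_lit 5) (nat_lit 401) (nat_lit 5) (nat_lit 402) (nat_lit 5) (nat_lit 384) (nat_lit 355) (nat_lit 281))))) (XT.nd (nat_lit 156) (nat_lit 2280) (nat_lit 0) (XT.nd (nat_lit 78) (nat_lit 760) (nat_lit 0) (XT.lf (nat_lit 0) (nat_lit 660003766) (nat_lit 836) (nat_lit 872436590) (nat_lit 76) (nat_lit 9147930101) (nat_lit 390) (nat_lit 5) (nat_lit 401) (nat_lit 5) (nat_lit 391) (nat_lit 5) (nat_lit 385) (nat_lit 355) (nat_lit 280)) (XT.lf (nat_lit 0) (nat_lit 3917666953) (nat_lit 836) (nat_lit 1906626723) (nat_lit 76) (nat_lit 5018126154) (nat_lit 380) (nat_lit 5) (nat_lit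 391) (nat_lit 5) (nat_lit 381) (nat_lit 5) (nat_lit 386) (nat_lit 355) (nat_lit 279))) (XT.nd (nat_lit 78) (nat_lit 1520) (nat_lit 0) (XT.lf (nat_lit 0) (nat_lit 7303292391) (nat_lit 836) (nat_lit 2925865224) (nat_lit 76) (nat_lit 779568425) (nat_lit 370) (nat_lit 5) (nat_lit 381) (nat_lit 5) (nat_lit 371) (nat_lit 5) (nat_lit 387) (nat_lit 355) (nat_lit 278)) (XT.nd (nat_lit 78) (nat_lit 760) (nat_lit 0) (XT.lf (nat_lit 0) (nat_lit 7225369470) (nat_lit 760) (nat_lit 3621300289) (nat_lit 836) (nat_lit 332228012) (nat_lit 360) (nat_lit 5) (nat_lit 370) (nat_lit 5) (nat_lit 371) (nat_lit 5) (nat_lit 388) (nat_lit 355) (nat_lit 277)) (XT.lf (nat_lit 0) (nat_lit 3141507435) (nat_lit 760) (nat_lit 4992467682) (nat_lit 76) (nat_lit 3218980638) (nat_lit 350) (nat_lit 5) (nat_lit 360) (nat_lit 5) (nat_lit 351) (nat_lit 5) (nat_lit 389) (nat_lit 355) (nat_lit 276)))))) (XT.nd (nat_lit 390) (nat_lit 2508)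 (nat_lit 0) (XT.nd (nat_lit 156) (nat_lit 1976) (nat_lit 0) (XT.nd (nat_lit 78) (nat_lit 684) (nat_lit 0) (XT.lf (nat_lit 0) (nat_lit 5503417426) (nat_lit 684) (nat_lit 1257309668) (nat_lit 760) (nat_lit 4770548748) (nat_lit 341) (nat_lit 5) (nat_lit 350) (nat_lit 5) (nat_lit 351) (nat_lit 5) (nat_lit 390) (nat_lit 355) (nat_lit 275)) (XT.lf (nat_lit 0) (nat_lit 4642632019) (nat_lit 684) (nat_lit 5907597008) (nat_lit 760) (nat_lit 1163482392) (nat_lit 332) (nat_lit 5) (nat_lit 341) (nat_lit 5) (nat_lit 342) (nat_lit 5) (nat_lit 391) (nat_lit 355) (nat_lit 274))) (XT.nd (nat_lit 78) (nat_lit 1216) (nat_lit 0) (XT.lf (nat_lit 0) (nat_lit 2560797632) (nat_lit 760) (nat_lit 8117419184) (nat_lit 76) (nat_lit 1222222508) (nat_lit 322) (nat_lit 5) (nat_lit 332) (nat_lit 5) (nat_lit 323) (nat_lit 5) (nat_lit 392) (nat_lit 355) (nat_lit 273)) (XT.nd (nat_lit 78) (nat_lit 608) (nat_lit 0) (XT.lf (nat_lit 0)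 (nat_lit 2910146185) (nat_lit 608) (nat_lit 3538658120) (nat_lit 684) (nat_lit 5642454842) (nat_lit 314) (nat_lit 5) (nat_lit 322) (nat_lit 5) (nat_lit 323) (nat_lit 5) (nat_lit 393) (nat_lit 355) (nat_lit 272)) (XT.lf (nat_lit 0) (nat_lit 2046595863) (nat_lit 608) (nat_lit 8462130468) (nat_lit 684) (nat_lit 1777971730) (nat_lit 306) (nat_lit 5) (nat_lit 314) (nat_lit 5) (nat_lit 315) (nat_lit 5) (nat_lit 394) (nat_lit 355) (nat_lit 271))))) (XT.nd (nat_lit 156) (nat_lit 1216) (nat_lit 0) (XT.nd (nat_lit 78) (nat_lit 608) (nat_lit 0) (XT.lf (nat_lit 0) (nat_lit 1179365095) (nat_lit 608) (nat_lit 1050546927) (nat_lit 684) (nat_lit 10256675093) (nat_lit 297) (nat_lit 5) (nat_lit 305) (nat_lit 5) (nat_lit 306) (nat_lit 5) (nat_lit 395) (nat_lit 355) (nat_lit 270)) (XT.lf (nat_lit 0) (nat_lit 291556455) (nat_lit 608) (nat_lit 6120071585) (nat_lit 684) (nat_lit 6279054726) (nat_lit 289) (nat_lit 5) (nat_lit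 297) (nat_lit 5) (nat_lit 298) (nat_lit 5) (nat_lit 396) (nat_lit 355) (nat_lit 269))) (XT.nd (nat_lit 78) (nat_lit 1216) (nat_lit 0) (XT.lf (nat_lit 0) (nat_lit 10776504306) (nat_lit 684) (nat_lit 571108361) (nat_lit 76) (nat_lit 1552134441) (nat_lit 289) (nat_lit 5) (nat_lit 298) (nat_lit 5) (nat_lit 290) (nat_lit 5) (nat_lit 397) (nat_lit 355) (nat_lit 268)) (XT.nd (nat_lit 78) (nat_lit 608) (nat_lit 0) (XT.lf (nat_lit 0) (nat_lit 2211119445) (nat_lit 608) (nat_lit 1450185614) (nat_lit 76) (nat_lit 9451854828) (nat_lit 281) (nat_lit 5) (nat_lit 289) (nat_lit 5) (nat_lit 282) (nat_lit 5) (nat_lit 398) (nat_lit 355) (nat_lit 267)) (XT.lf (nat_lit 0) (nat_lit 6715829167) (nat_lit 684) (nat_lit 2336553799) (nat_lit 76) (nat_lit 4278928124) (nat_lit 273) (nat_lit 5) (nat_lit 282) (nat_lit 5) (nat_lit 274) (nat_lit 5) (nat_lit 399) (nat_lit 355) (nat_lit 266))))))))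
noncomputable def xc82 : XT := (XT.nd (nat_lit 1482) (nat_lit 2052) (nat_lit 0) (XT.nd (nat_lit 702) (nat_lit 3800) (nat_lit 0) (XT.nd (nat_lit 312) (nat_lit 2508) (nat_lit 0) (XT.nd (nat_lit 156) (nat_lit 1064) (nat_lit 0) (XT.nd (nat_lit 78) (nat_lit 608) (nat_lit 0) (XT.lf (nat_lit 0) (nat_lit 10342442733) (nat_lit 532) (nat_lit 1080787144) (nat_lit 608) (nat_lit 2131425960) (nat_lit 266) (nat_lit 5) (nat_lit 273) (nat_lit 5) (nat_lit 274) (nat_lit 5) (nat_lit 400) (nat_lit 355) (nat_lit 265)) (XT.lf (nat_lit 0) (nat_lit 2546892486) (nat_lit 608) (nat_lit 4115184285) (nat_lit 76) (nat_lit 7120453987) (nat_lit 258) (nat_lit 5) (nat_lit 266) (nat_lit 5) (nat_lit 259) (nat_lit 5) (nat_lit 401) (nat_lit 355) (nat_lit 264))) (XT.nd (nat_lit 78) (nat_lit 532) (nat_lit 0) (XT.lf (nat_lit 0) (nat_lit 7402044599) (nat_lit 608) (nat_lit 5014644715) (nat_lit 76) (nat_lit 1598961998) (nat_lit 251) (nat_lit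 5) (nat_lit 259) (nat_lit 5) (nat_lit 252) (nat_lit 5) (nat_lit 402) (nat_lit 355) (nat_lit 263)) (XT.lf (nat_lit 0) (nat_lit 8331219529) (nat_lit 532) (nat_lit 4166043296) (nat_lit 608) (nat_lit 1756614429) (nat_lit 244) (nat_lit 5) (nat_lit 251) (nat_lit 5) (nat_lit 252) (nat_lit 5) (nat_lit 403) (nat_lit 355) (nat_lit 262)))) (XT.nd (nat_lit 156) (nat_lit 1444) (nat_lit 0) (XT.nd (nat_lit 78) (nat_lit 532) (nat_lit 0) (XT.lf (nat_lit 0) (nat_lit 3284477756) (nat_lit 532) (nat_lit 6844345615) (nat_lit 76) (nat_lit 4368385825) (nat_lit 237) (nat_lit 5) (nat_lit 244) (nat_lit 5) (nat_lit 238) (nat_lit 5) (nat_lit 404) (nat_lit 355) (nat_lit 261)) (XT.lf (nat_lit 0) (nat_lit 6976690562) (nat_lit 532) (nat_lit 1558638150) (nat_lit 608) (nat_lit 6210632330) (nat_lit 230) (nat_lit 5) (nat_lit 237) (nat_lit 5) (nat_lit 238) (nat_lit 5) (nat_lit 405) (nat_lit 355) (nat_lit 260))) (XT.nd (nat_lit 78) (nat_lit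 988) (nat_lit 0) (XT.lf (nat_lit 0) (nat_lit 6295439293) (nat_lit 456) (nat_lit 7752258848) (nat_lit 532) (nat_lit 952397442) (nat_lit 224) (nat_lit 5) (nat_lit 230) (nat_lit 5) (nat_lit 231) (nat_lit 5) (nat_lit 406) (nat_lit 355) (nat_lit 259)) (XT.nd (nat_lit 78) (nat_lit 456) (nat_lit 0) (XT.lf (nat_lit 0) (nat_lit 4482007038) (nat_lit 532) (nat_lit 9649851927) (nat_lit 76) (nat_lit 1127876320) (nat_lit 217) (nat_lit 5) (nat_lit 224) (nat_lit 5) (nat_lit 218) (nat_lit 5) (nat_lit 407) (nat_lit 355) (nat_lit 258)) (XT.lf (nat_lit 0) (nat_lit 4908907827) (nat_lit 456) (nat_lit 5270926479) (nat_lit 532) (nat_lit 5344937365) (nat_lit 211) (nat_lit 5) (nat_lit 217) (nat_lit 5) (nat_lit 218) (nat_lit 5) (nat_lit 408) (nat_lit 355) (nat_lit 257)))))) (XT.nd (nat_lit 390) (nat_lit 1596) (nat_lit 0) (XT.nd (nat_lit 156) (nat_lit 1292) (nat_lit 0) (XT.nd (nat_lit 78) (nat_lit 380) (nat_lit 0) (XT.lf (nat_lit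 0) (nat_lit 337098542) (nat_lit 532) (nat_lit 11571846816) (nat_lit 76) (nat_lit 3886990197) (nat_lit 204) (nat_lit 5) (nat_lit 211) (nat_lit 5) (nat_lit 205) (nat_lit 5) (nat_lit 409) (nat_lit 355) (nat_lit 256)) (XT.lf (nat_lit 0) (nat_lit 3511992249) (nat_lit 380) (nat_lit 2706913046) (nat_lit 456) (nat_lit 9853583929) (nat_lit 199) (nat_lit 5) (nat_lit 204) (nat_lit 5) (nat_lit 205) (nat_lit 5) (nat_lit 410) (nat_lit 355) (nat_lit 255))) (XT.nd (nat_lit 78) (nat_lit 836) (nat_lit 0) (XT.lf (nat_lit 0) (nat_lit 2800087525) (nat_lit 456) (nat_lit 9589677762) (nat_lit 532) (nat_lit 3965322236) (nat_lit 193) (nat_lit 5) (nat_lit 199) (nat_lit 5) (nat_lit 200) (nat_lit 5) (nat_lit 411) (nat_lit 355) (nat_lit 254)) (XT.nd (nat_lit 78) (nat_lit 380) (nat_lit 0) (XT.lf (nat_lit 0) (nat_lit 2101420486) (nat_lit 380) (nat_lit 59945349) (nat_lit 456) (nat_lit 14482738999) (nat_lit 187) (nat_lit 5) (nat_lit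 192) (nat_lit 5) (nat_lit 193) (nat_lit 5) (nat_lit 412) (nat_lit 355) (nat_lit 253)) (XT.lf (nat_lit 0) (nat_lit 1357900862) (nat_lit 380) (nat_lit 7197347778) (nat_lit 456) (nat_lit 8383274462) (nat_lit 182) (nat_lit 5) (nat_lit 187) (nat_lit 5) (nat_lit 188) (nat_lit 5) (nat_lit 413) (nat_lit 355) (nat_lit 252))))) (XT.nd (nat_lit 156) (nat_lit 1140) (nat_lit 0) (XT.nd (nat_lit 78) (nat_lit 76) (nat_lit 0) (XT.lf (nat_lit 0) (nat_lit 642985935) (nat_lit 380) (nat_lit 14591353867) (nat_lit 456) (nat_lit 2005566279) (nat_lit 177) (nat_lit 5) (nat_lit 182) (nat_lit 5) (nat_lit 183) (nat_lit 5) (nat_lit 414) (nat_lit 355) (nat_lit 251)) (XT.lf (nat_lit 0) (nat_lit 4631158494) (nat_lit 456) (nat_lit 102096218) (nat_lit 76) (nat_lit 12813932533) (nat_lit 176) (nat_lit 5) (nat_lit 182) (nat_lit 5) (nat_lit 177) (nat_lit 5) (nat_lit 415) (nat_lit 355) (nat_lit 250))) (XT.nd (nat_lit 78) (nat_lit 760)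 (nat_lit 0) (XT.lf (nat_lit 0) (nat_lit 11560468155) (nat_lit 456) (nat_lit 840545741) (nat_lit 76) (nat_lit 5459993193) (nat_lit 171) (nat_lit 5) (nat_lit 177) (nat_lit 5) (nat_lit 172) (nat_lit 5) (nat_lit 416) (nat_lit 355) (nat_lit 249)) (XT.nd (nat_lit 78) (nat_lit 380) (nat_lit 0) (XT.lf (nat_lit 0) (nat_lit 622010300) (nat_lit 380) (nat_lit 1566387751) (nat_lit 76) (nat_lit 15993470244) (nat_lit 166) (nat_lit 5) (nat_lit 171) (nat_lit 5) (nat_lit 167) (nat_lit 5) (nat_lit 417) (nat_lit 355) (nat_lit 248)) (XT.lf (nat_lit 0) (nat_lit 7807842875) (nat_lit 456) (nat_lit 2339935211) (nat_lit 76) (nat_lit 8360920191) (nat_lit 161) (nat_lit 5) (nat_lit 167) (nat_lit 5) (nat_lit 162) (nat_lit 5) (nat_lit 418) (nat_lit 355) (nat_lit 247))))))) (XT.nd (nat_lit 48516) (nat_lit 0) (nat_lit 35112) (XT.nd (nat_lit 390) (nat_lit 304) (nat_lit 0) (XT.nd (nat_lit 156) (nat_lit 988) (nat_lit 0) (XT.nd (nat_lit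 78) (nat_lit 456) (nat_lit 0) (XT.lf (nat_lit 0) (nat_lit 15314883287) (nat_lit 380) (nat_lit 3081833134) (nat_lit 76) (nat_lit 446504079) (nat_lit 157) (nat_lit 5) (nat_lit 162) (nat_lit 5) (nat_lit 158) (nat_lit 5) (nat_lit 419) (nat_lit 355) (nat_lit 246)) (XT.lf (nat_lit 0) (nat_lit 3968638150) (nat_lit 456) (nat_lit 3866821328) (nat_lit 76) (nat_lit 11348619806) (nat_lit 151) (nat_lit 5) (nat_lit 157) (nat_lit 5) (nat_lit 152) (nat_lit 5) (nat_lit 420) (nat_lit 355) (nat_lit 245))) (XT.nd (nat_lit 78) (nat_lit 684) (nat_lit 0) (XT.lf (nat_lit 0) (nat_lit 11756971062) (nat_lit 380) (nat_lit 4645242383) (nat_lit 76) (nat_lit 3130196251) (nat_lit 147) (nat_lit 5) (nat_lit 152) (nat_lit 5) (nat_lit 148) (nat_lit 5) (nat_lit 421) (nat_lit 355) (nat_lit 244)) (XT.nd (nat_lit 78) (nat_lit 304) (nat_lit 0) (XT.lf (nat_lit 0) (nat_lit 38968578) (nat_lit 380) (nat_lit 5424424700) (nat_lit 76) (nat_lit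 14424816662) (nat_lit 142) (nat_lit 5) (nat_lit 147) (nat_lit 5) (nat_lit 143) (nat_lit 5) (nat_lit 422) (nat_lit 355) (nat_lit 243)) (XT.lf (nat_lit 0) (nat_lit 8120767376) (nat_lit 380) (nat_lit 6241536872) (nat_lit 76) (nat_lit 5888580089) (nat_lit 138) (nat_lit 5) (nat_lit 143) (nat_lit 5) (nat_lit 139) (nat_lit 5) (nat_lit 423) (nat_lit 355) (nat_lit 242))))) (XT.nd (nat_lit 47892) (nat_lit 0) (nat_lit 39064) (XT.nd (nat_lit 47814) (nat_lit 0) (nat_lit 39064) (XT.lf (nat_lit 0) (nat_lit 13579461351) (nat_lit 304) (nat_lit 3003960243) (nat_lit 380) (nat_lit 4038249344) (nat_lit 134) (nat_lit 5) (nat_lit 138) (nat_lit 5) (nat_lit 139) (nat_lit 5) (nat_lit 424) (nat_lit 355) (nat_lit 241)) (XT.lf (nat_lit 0) (nat_lit 73367630) (nat_lit 0) (nat_lit 73367630) (nat_lit 1292) (nat_lit 3615754774) (nat_lit 648) (nat_lit 5) (nat_lit 648) (nat_lit 3) (nat_lit 665) (nat_lit 3) (nat_lit 356) (nat_lit 356)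 (nat_lit 308))) (XT.nd (nat_lit 78) (nat_lit 0) (nat_lit 0) (XT.lf (nat_lit 0) (nat_lit 2489916976) (nat_lit 1292) (nat_lit 1749418379) (nat_lit 1368) (nat_lit 3354678526) (nat_lit 648) (nat_lit 5) (nat_lit 665) (nat_lit 3) (nat_lit 666) (nat_lit 5) (nat_lit 357) (nat_lit 356) (nat_lit 307)) (XT.nd (nat_lit 78) (nat_lit 0) (nat_lit 76) (XT.lf (nat_lit 76) (nat_lit 4056176344) (nat_lit 0) (nat_lit 638984055) (nat_lit 1368) (nat_lit 2971100239) (nat_lit 649) (nat_lit 5) (nat_lit 648) (nat_lit 5) (nat_lit 666) (nat_lit 5) (nat_lit 358) (nat_lit 356) (nat_lit 306)) (XT.lf (nat_lit 76) (nat_lit 2283904972) (nat_lit 0) (nat_lit 4647359730) (nat_lit 1368) (nat_lit 810116022) (nat_lit 650) (nat_lit 5) (nat_lit 649) (nat_lit 5) (nat_lit 667) (nat_lit 5) (nat_lit 359) (nat_lit 356) (nat_lit 305)))))) (XT.nd (nat_lit 390) (nat_lit 1368) (nat_lit 0) (XT.nd (nat_lit 156) (nat_lit 1292) (nat_lit 0) (XT.nd (nat_lit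 78) (nat_lit 0) (nat_lit 76) (XT.lf (nat_lit 76) (nat_lit 533413018) (nat_lit 0) (nat_lit 815660824) (nat_lit 1444) (nat_lit 6470457874) (nat_lit 632) (nat_lit 5) (nat_lit 631) (nat_lit 5) (nat_lit 650) (nat_lit 5) (nat_lit 360) (nat_lit 356) (nat_lit 304)) (XT.lf (nat_lit 0) (nat_lit 3541498288) (nat_lit 1368) (nat_lit 1193407618) (nat_lit 1444) (nat_lit 3165424930) (nat_lit 632) (nat_lit 5) (nat_lit 650) (nat_lit 5) (nat_lit 651) (nat_lit 5) (nat_lit 361) (nat_lit 356) (nat_lit 303))) (XT.nd (nat_lit 78) (nat_lit 1368) (nat_lit 0) (XT.lf (nat_lit 76) (nat_lit 5097995821) (nat_lit 0) (nat_lit 664377684) (nat_lit 1444) (nat_lit 2221926864) (nat_lit 633) (nat_lit 5) (nat_lit 632) (nat_lit 5) (nat_lit 651) (nat_lit 5) (nat_lit 362) (nat_lit 356) (nat_lit 302)) (XT.nd (nat_lit 78) (nat_lit 1444) (nat_lit 0) (XT.lf (nat_lit 76) (nat_lit 3500370221) (nat_lit 0) (nat_lit 4529512553) (nat_lit 1444) (nat_lit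 41306059) (nat_lit 634) (nat_lit 5) (nat_lit 633) (nat_lit 5) (nat_lit 652) (nat_lit 5) (nat_lit 363) (nat_lit 356) (nat_lit 301)) (XT.lf (nat_lit 76) (nat_lit 1917486858) (nat_lit 0) (nat_lit 222520180) (nat_lit 1520) (nat_lit 6021106838) (nat_lit 615) (nat_lit 5) (nat_lit 614) (nat_lit 5) (nat_lit 634) (nat_lit 5) (nat_lit 364) (nat_lit 356) (nat_lit 300))))) (XT.nd (nat_lit 156) (nat_lit 1444) (nat_lit 0) (XT.nd (nat_lit 78) (nat_lit 0) (nat_lit 76) (XT.lf (nat_lit 76) (nat_lit 339047400) (nat_lit 0) (nat_lit 4037471437) (nat_lit 1520) (nat_lit 3877405963) (nat_lit 616) (nat_lit 5) (nat_lit 615) (nat_lit 5) (nat_lit 635) (nat_lit 5) (nat_lit 365) (nat_lit 356) (nat_lit 299)) (XT.lf (nat_lit 0) (nat_lit 6658494967) (nat_lit 1444) (nat_lit 1196794633) (nat_lit 1520) (nat_lit 494663070) (nat_lit 616) (nat_lit 5) (nat_lit 635) (nat_lit 5) (nat_lit 636) (nat_lit 5) (nat_lit 366) (nat_lit 356) (nat_lit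 298))) (XT.nd (nat_lit 78) (nat_lit 0) (nat_lit 76) (XT.lf (nat_lit 0) (nat_lit 550339314) (nat_lit 1520) (nat_lit 2728419314) (nat_lit 1596) (nat_lit 5170077708) (nat_lit 596) (nat_lit 5) (nat_lit 616) (nat_lit 5) (nat_lit 617) (nat_lit 5) (nat_lit 367) (nat_lit 356) (nat_lit 297)) (XT.nd (nat_lit 78) (nat_lit 0) (nat_lit 0) (XT.lf (nat_lit 0) (nat_lit 2817109887) (nat_lit 1520) (nat_lit 4251543078) (nat_lit 1596) (nat_lit 1482195940) (nat_lit 597) (nat_lit 5) (nat_lit 617) (nat_lit 5) (nat_lit 618) (nat_lit 5) (nat_lit 368) (nat_lit 356) (nat_lit 296)) (XT.lf (nat_lit 76) (nat_lit 2887955269) (nat_lit 0) (nat_lit 2259609183) (nat_lit 1596) (nat_lit 3508443780) (nat_lit 598) (nat_lit 5) (nat_lit 597) (nat_lit 5) (nat_lit 618) (nat_lit 5) (nat_lit 369) (nat_lit 356) (nat_lit 295))))))))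
noncomputable def xc83 : XT := (XT.nd (nat_lit 1560) (nat_lit 11248) (nat_lit 0) (XT.nd (nat_lit 780) (nat_lit 7600) (nat_lit 0) (XT.nd (nat_lit 390) (nat_lit 5776) (nat_lit 0) (XT.nd (nat_lit 156) (nat_lit 3192) (nat_lit 0) (XT.nd (nat_lit 78) (nat_lit 1596) (nat_lit 0) (XT.lf (nat_lit 76) (nat_lit 1489848832) (nat_lit 0) (nat_lit 6052287984) (nat_lit 1596) (nat_lit 1222301439) (nat_lit 599) (nat_lit 5) (nat_lit 598) (nat_lit 5) (nat_lit 619) (nat_lit 5) (nat_lit 370) (nat_lit 356) (nat_lit 294)) (XT.lf (nat_lit 76) (nat_lit 99558282) (nat_lit 0) (nat_lit 1012255486) (nat_lit 1672) (nat_lit 7764275551) (nat_lit 578) (nat_lit 5) (nat_lit 577) (nat_lit 5) (nat_lit 599) (nat_lit 5) (nat_lit 371) (nat_lit 356) (nat_lit 293))) (XT.nd (nat_lit 78) (nat_lit 3268) (nat_lit 0) (XT.lf (nat_lit 0) (nat_lit 3516876537) (nat_lit 1596) (nat_lit 1279843828) (nat_lit 76) (nat_lit 4193857353) (nat_lit 578) (nat_lit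 5) (nat_lit 599) (nat_lit 5) (nat_lit 579) (nat_lit 5) (nat_lit 372) (nat_lit 356) (nat_lit 292)) (XT.nd (nat_lit 78) (nat_lit 1672) (nat_lit 0) (XT.lf (nat_lit 0) (nat_lit 5988459173) (nat_lit 1672) (nat_lit 2639173076) (nat_lit 76) (nat_lit 480981161) (nat_lit 557) (nat_lit 5) (nat_lit 579) (nat_lit 5) (nat_lit 558) (nat_lit 5) (nat_lit 373) (nat_lit 356) (nat_lit 291)) (XT.lf (nat_lit 0) (nat_lit 5227510585) (nat_lit 1672) (nat_lit 3325275859) (nat_lit 1748) (nat_lit 677031786) (nat_lit 535) (nat_lit 5) (nat_lit 557) (nat_lit 5) (nat_lit 558) (nat_lit 5) (nat_lit 374) (nat_lit 356) (nat_lit 290))))) (XT.nd (nat_lit 156) (nat_lit 2128) (nat_lit 0) (XT.nd (nat_lit 78) (nat_lit 1824) (nat_lit 0) (XT.lf (nat_lit 0) (nat_lit 1818371566) (nat_lit 1824) (nat_lit 5364030076) (nat_lit 76) (nat_lit 2171956481) (nat_lit 511) (nat_lit 5) (nat_lit 535) (nat_lit 5) (nat_lit 512) (nat_lit 5) (nat_lit 375) (nat_lit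 356) (nat_lit 289)) (XT.lf (nat_lit 0) (nat_lit 2756713916) (nat_lit 1824) (nat_lit 1636380224) (nat_lit 1900) (nat_lit 5089177462) (nat_lit 487) (nat_lit 5) (nat_lit 511) (nat_lit 5) (nat_lit 512) (nat_lit 5) (nat_lit 376) (nat_lit 356) (nat_lit 288))) (XT.nd (nat_lit 78) (nat_lit 988) (nat_lit 0) (XT.lf (nat_lit 0) (nat_lit 1526280601) (nat_lit 1140) (nat_lit 5539204108) (nat_lit 1216) (nat_lit 2548129250) (nat_lit 472) (nat_lit 5) (nat_lit 487) (nat_lit 5) (nat_lit 488) (nat_lit 5) (nat_lit 377) (nat_lit 356) (nat_lit 287)) (XT.nd (nat_lit 78) (nat_lit 0) (nat_lit 0) (XT.lf (nat_lit 0) (nat_lit 76996541) (nat_lit 988) (nat_lit 9436262665) (nat_lit 76) (nat_lit 235453340) (nat_lit 459) (nat_lit 5) (nat_lit 472) (nat_lit 5) (nat_lit 460) (nat_lit 5) (nat_lit 378) (nat_lit 356) (nat_lit 286)) (XT.lf (nat_lit 0) (nat_lit 2788225410) (nat_lit 988) (nat_lit 914679506) (nat_lit 76) (nat_lit 6183782946)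 (nat_lit 459) (nat_lit 5) (nat_lit 472) (nat_lit 5) (nat_lit 460) (nat_lit 5) (nat_lit 379) (nat_lit 356) (nat_lit 285)))))) (XT.nd (nat_lit 390) (nat_lit 3192) (nat_lit 0) (XT.nd (nat_lit 156) (nat_lit 2660) (nat_lit 0) (XT.nd (nat_lit 78) (nat_lit 836) (nat_lit 0) (XT.lf (nat_lit 0) (nat_lit 5598409198) (nat_lit 988) (nat_lit 2124488390) (nat_lit 76) (nat_lit 2305552486) (nat_lit 447) (nat_lit 5) (nat_lit 460) (nat_lit 5) (nat_lit 448) (nat_lit 5) (nat_lit 380) (nat_lit 356) (nat_lit 284)) (XT.lf (nat_lit 0) (nat_lit 6843097728) (nat_lit 836) (nat_lit 1677401298) (nat_lit 912) (nat_lit 1653414117) (nat_lit 436) (nat_lit 5) (nat_lit 447) (nat_lit 5) (nat_lit 448) (nat_lit 5) (nat_lit 381) (nat_lit 356) (nat_lit 283))) (XT.nd (nat_lit 78) (nat_lit 1672) (nat_lit 0) (XT.lf (nat_lit 0) (nat_lit 1225765407) (nat_lit 988) (nat_lit 4546899559) (nat_lit 76) (nat_lit 4550216918) (nat_lit 423) (nat_lit 5)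 (nat_lit 436) (nat_lit 5) (nat_lit 424) (nat_lit 5) (nat_lit 382) (nat_lit 356) (nat_lit 282)) (XT.nd (nat_lit 78) (nat_lit 836) (nat_lit 0) (XT.lf (nat_lit 0) (nat_lit 4191016868) (nat_lit 912) (nat_lit 5761211097) (nat_lit 76) (nat_lit 523429940) (nat_lit 412) (nat_lit 5) (nat_lit 424) (nat_lit 5) (nat_lit 413) (nat_lit 5) (nat_lit 383) (nat_lit 356) (nat_lit 281)) (XT.lf (nat_lit 0) (nat_lit 3645144253) (nat_lit 836) (nat_lit 3648414561) (nat_lit 912) (nat_lit 3338491734) (nat_lit 401) (nat_lit 5) (nat_lit 412) (nat_lit 5) (nat_lit 413) (nat_lit 5) (nat_lit 384) (nat_lit 356) (nat_lit 280))))) (XT.nd (nat_lit 156) (nat_lit 1596) (nat_lit 0) (XT.nd (nat_lit 78) (nat_lit 836) (nat_lit 0) (XT.lf (nat_lit 0) (nat_lit 2587991936) (nat_lit 760) (nat_lit 7931791528) (nat_lit 836) (nat_lit 272739378) (nat_lit 391) (nat_lit 5) (nat_lit 401) (nat_lit 5) (nat_lit 402) (nat_lit 5) (nat_lit 385) (nat_lit 356)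 (nat_lit 279)) (XT.lf (nat_lit 0) (nat_lit 1518154913) (nat_lit 760) (nat_lit 1367637611) (nat_lit 836) (nat_lit 8070869274) (nat_lit 380) (nat_lit 5) (nat_lit 390) (nat_lit 5) (nat_lit 391) (nat_lit 5) (nat_lit 386) (nat_lit 356) (nat_lit 278))) (XT.nd (nat_lit 78) (nat_lit 836) (nat_lit 0) (XT.lf (nat_lit 0) (nat_lit 441515528) (nat_lit 760) (nat_lit 5745390958) (nat_lit 836) (nat_lit 4937751750) (nat_lit 370) (nat_lit 5) (nat_lit 380) (nat_lit 5) (nat_lit 381) (nat_lit 5) (nat_lit 387) (nat_lit 356) (nat_lit 277)) (XT.nd (nat_lit 78) (nat_lit 836) (nat_lit 0) (XT.lf (nat_lit 0) (nat_lit 9625654983) (nat_lit 836) (nat_lit 612670750) (nat_lit 76) (nat_lit 1058596811) (nat_lit 370) (nat_lit 5) (nat_lit 381) (nat_lit 5) (nat_lit 371) (nat_lit 5) (nat_lit 388) (nat_lit 356) (nat_lit 276)) (XT.lf (nat_lit 0) (nat_lit 1733257353) (nat_lit 836) (nat_lit 1680372831) (nat_lit 76) (nat_lit 8059259669) (nat_lit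 359) (nat_lit 5) (nat_lit 370) (nat_lit 5) (nat_lit 360) (nat_lit 5) (nat_lit 389) (nat_lit 356) (nat_lit 275))))))) (XT.nd (nat_lit 780) (nat_lit 4712) (nat_lit 0) (XT.nd (nat_lit 390) (nat_lit 3116) (nat_lit 0) (XT.nd (nat_lit 156) (nat_lit 2052) (nat_lit 0) (XT.nd (nat_lit 78) (nat_lit 684) (nat_lit 0) (XT.lf (nat_lit 0) (nat_lit 5263769577) (nat_lit 760) (nat_lit 2753060672) (nat_lit 76) (nat_lit 3636153840) (nat_lit 350) (nat_lit 5) (nat_lit 360) (nat_lit 5) (nat_lit 351) (nat_lit 5) (nat_lit 390) (nat_lit 356) (nat_lit 274)) (XT.lf (nat_lit 0) (nat_lit 8018939366) (nat_lit 684) (nat_lit 928818489) (nat_lit 760) (nat_lit 2889772084) (nat_lit 341) (nat_lit 5) (nat_lit 350) (nat_lit 5) (nat_lit 351) (nat_lit 5) (nat_lit 391) (nat_lit 356) (nat_lit 273))) (XT.nd (nat_lit 78) (nat_lit 1292) (nat_lit 0) (XT.lf (nat_lit 0) (nat_lit 774180278) (nat_lit 760) (nat_lit 4900437654) (nat_lit 76) (nat_lit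 6351523442) (nat_lit 331) (nat_lit 5) (nat_lit 341) (nat_lit 5) (nat_lit 332) (nat_lit 5) (nat_lit 392) (nat_lit 356) (nat_lit 272)) (XT.nd (nat_lit 78) (nat_lit 608) (nat_lit 0) (XT.lf (nat_lit 0) (nat_lit 4555382125) (nat_lit 760) (nat_lit 5988915566) (nat_lit 76) (nat_lit 1674799602) (nat_lit 322) (nat_lit 5) (nat_lit 332) (nat_lit 5) (nat_lit 323) (nat_lit 5) (nat_lit 393) (nat_lit 356) (nat_lit 271)) (XT.lf (nat_lit 0) (nat_lit 5330993456) (nat_lit 608) (nat_lit 3188329345) (nat_lit 684) (nat_lit 3897133033) (nat_lit 314) (nat_lit 5) (nat_lit 322) (nat_lit 5) (nat_lit 323) (nat_lit 5) (nat_lit 394) (nat_lit 356) (nat_lit 270))))) (XT.nd (nat_lit 156) (nat_lit 1824) (nat_lit 0) (XT.nd (nat_lit 78) (nat_lit 608) (nat_lit 0) (XT.lf (nat_lit 0) (nat_lit 45281419) (nat_lit 684) (nat_lit 8181095230) (nat_lit 76) (nat_lit 4392108669) (nat_lit 305) (nat_lit 5) (nat_lit 314) (nat_lit 5) (nat_lit 306)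 (nat_lit 5) (nat_lit 395) (nat_lit 356) (nat_lit 269)) (XT.lf (nat_lit 0) (nat_lit 3530869953) (nat_lit 608) (nat_lit 579593097) (nat_lit 684) (nat_lit 8714448605) (nat_lit 297) (nat_lit 5) (nat_lit 305) (nat_lit 5) (nat_lit 306) (nat_lit 5) (nat_lit 396) (nat_lit 356) (nat_lit 268))) (XT.nd (nat_lit 78) (nat_lit 1216) (nat_lit 0) (XT.lf (nat_lit 0) (nat_lit 2611325838) (nat_lit 608) (nat_lit 5771651888) (nat_lit 684) (nat_lit 4652845506) (nat_lit 289) (nat_lit 5) (nat_lit 297) (nat_lit 5) (nat_lit 298) (nat_lit 5) (nat_lit 397) (nat_lit 356) (nat_lit 267)) (XT.nd (nat_lit 78) (nat_lit 684) (nat_lit 0) (XT.lf (nat_lit 0) (nat_lit 1709074633) (nat_lit 532) (nat_lit 11132360164) (nat_lit 608) (nat_lit 410472018) (nat_lit 282) (nat_lit 5) (nat_lit 289) (nat_lit 5) (nat_lit 290) (nat_lit 5) (nat_lit 398) (nat_lit 356) (nat_lit 266)) (XT.lf (nat_lit 0) (nat_lit 777165696) (nat_lit 608) (nat_lit 3211221568)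 (nat_lit 684) (nat_lit 9483948735) (nat_lit 273) (nat_lit 5) (nat_lit 281) (nat_lit 5) (nat_lit 282) (nat_lit 5) (nat_lit 399) (nat_lit 356) (nat_lit 265)))))) (XT.nd (nat_lit 390) (nat_lit 2508) (nat_lit 0) (XT.nd (nat_lit 156) (nat_lit 1672) (nat_lit 0) (XT.nd (nat_lit 78) (nat_lit 532) (nat_lit 0) (XT.lf (nat_lit 0) (nat_lit 8591538624) (nat_lit 684) (nat_lit 152842643) (nat_lit 76) (nat_lit 4953384465) (nat_lit 273) (nat_lit 5) (nat_lit 282) (nat_lit 5) (nat_lit 274) (nat_lit 5) (nat_lit 400) (nat_lit 356) (nat_lit 264)) (XT.lf (nat_lit 0) (nat_lit 12869958432) (nat_lit 532) (nat_lit 535834618) (nat_lit 608) (nat_lit 522705137) (nat_lit 266) (nat_lit 5) (nat_lit 273) (nat_lit 5) (nat_lit 274) (nat_lit 5) (nat_lit 401) (nat_lit 356) (nat_lit 263))) (XT.nd (nat_lit 78) (nat_lit 1064) (nat_lit 0) (XT.lf (nat_lit 0) (nat_lit 4244052612) (nat_lit 608) (nat_lit 2007253224) (nat_lit 76) (nat_lit 7912285777)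 (nat_lit 258) (nat_lit 5) (nat_lit 266) (nat_lit 5) (nat_lit 259) (nat_lit 5) (nat_lit 402) (nat_lit 356) (nat_lit 262)) (XT.nd (nat_lit 78) (nat_lit 532) (nat_lit 0) (XT.lf (nat_lit 0) (nat_lit 9215849027) (nat_lit 608) (nat_lit 2942086623) (nat_lit 76) (nat_lit 2246350341) (nat_lit 251) (nat_lit 5) (nat_lit 259) (nat_lit 5) (nat_lit 252) (nat_lit 5) (nat_lit 403) (nat_lit 356) (nat_lit 261)) (XT.lf (nat_lit 0) (nat_lit 10768088057) (nat_lit 532) (nat_lit 3663673306) (nat_lit 608) (nat_lit 218540596) (nat_lit 244) (nat_lit 5) (nat_lit 251) (nat_lit 5) (nat_lit 252) (nat_lit 5) (nat_lit 404) (nat_lit 356) (nat_lit 260))))) (XT.nd (nat_lit 156) (nat_lit 1444) (nat_lit 0) (XT.nd (nat_lit 78) (nat_lit 532) (nat_lit 0) (XT.lf (nat_lit 0) (nat_lit 4925411839) (nat_lit 532) (nat_lit 4851048265) (nat_lit 76) (nat_lit 5124817373) (nat_lit 237) (nat_lit 5) (nat_lit 244) (nat_lit 5) (nat_lit 238) (nat_lit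 5) (nat_lit 405) (nat_lit 356) (nat_lit 259)) (XT.lf (nat_lit 0) (nat_lit 9348948874) (nat_lit 532) (nat_lit 953958539) (nat_lit 608) (nat_lit 4855202082) (nat_lit 230) (nat_lit 5) (nat_lit 237) (nat_lit 5) (nat_lit 238) (nat_lit 5) (nat_lit 406) (nat_lit 356) (nat_lit 258))) (XT.nd (nat_lit 78) (nat_lit 912) (nat_lit 0) (XT.lf (nat_lit 0) (nat_lit 527316510) (nat_lit 532) (nat_lit 6786108377) (nat_lit 76) (nat_lit 8106892541) (nat_lit 223) (nat_lit 5) (nat_lit 230) (nat_lit 5) (nat_lit 224) (nat_lit 5) (nat_lit 407) (nat_lit 356) (nat_lit 257)) (XT.nd (nat_lit 78) (nat_lit 456) (nat_lit 0) (XT.lf (nat_lit 0) (nat_lit 6086578404) (nat_lit 532) (nat_lit 7776338677) (nat_lit 76) (nat_lit 1825208039) (nat_lit 217) (nat_lit 5) (nat_lit 224) (nat_lit 5) (nat_lit 218) (nat_lit 5) (nat_lit 408) (nat_lit 356) (nat_lit 256)) (XT.lf (nat_lit 0) (nat_lit 7184091622) (nat_lit 456) (nat_lit 4742245943) (nat_lit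 532) (nat_lit 4035355092) (nat_lit 211) (nat_lit 5) (nat_lit 217) (nat_lit 5) (nat_lit 218) (nat_lit 5) (nat_lit 409) (nat_lit 356) (nat_lit 255))))))))
noncomputable def xc84 : XT := (XT.nd (nat_lit 49374) (nat_lit 0) (nat_lit 22344) (XT.nd (nat_lit 702) (nat_lit 1444) (nat_lit 0) (XT.nd (nat_lit 312) (nat_lit 1976) (nat_lit 0) (XT.nd (nat_lit 156) (nat_lit 912) (nat_lit 0) (XT.nd (nat_lit 78) (nat_lit 380) (nat_lit 0) (XT.lf (nat_lit 0) (nat_lit 1773807853) (nat_lit 532) (nat_lit 9782682174) (nat_lit 76) (nat_lit 4684791667) (nat_lit 204) (nat_lit 5) (nat_lit 211) (nat_lit 5) (nat_lit 205) (nat_lit 5) (nat_lit 410) (nat_lit 356) (nat_lit 254)) (XT.lf (nat_lit 0) (nat_lit 5719012808) (nat_lit 380) (nat_lit 2085150027) (nat_lit 456) (nat_lit 8722527259) (nat_lit 199) (nat_lit 5) (nat_lit 204) (nat_lit 5) (nat_lit 205) (nat_lit 5) (nat_lit 411) (nat_lit 356) (nat_lit 253))) (XT.nd (nat_lit 78) (nat_lit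 456) (nat_lit 0) (XT.lf (nat_lit 0) (nat_lit 4974683856) (nat_lit 456) (nat_lit 9162730951) (nat_lit 532) (nat_lit 2680806212) (nat_lit 193) (nat_lit 5) (nat_lit 199) (nat_lit 5) (nat_lit 200) (nat_lit 5) (nat_lit 412) (nat_lit 356) (nat_lit 252)) (XT.lf (nat_lit 0) (nat_lit 3588656406) (nat_lit 456) (nat_lit 12881268081) (nat_lit 76) (nat_lit 646254499) (nat_lit 187) (nat_lit 5) (nat_lit 193) (nat_lit 5) (nat_lit 188) (nat_lit 5) (nat_lit 413) (nat_lit 356) (nat_lit 251)))) (XT.nd (nat_lit 156) (nat_lit 1216) (nat_lit 0) (XT.nd (nat_lit 78) (nat_lit 380) (nat_lit 0) (XT.lf (nat_lit 0) (nat_lit 3461907670) (nat_lit 380) (nat_lit 6686550348) (nat_lit 456) (nat_lit 7271489739) (nat_lit 182) (nat_lit 5) (nat_lit 187) (nat_lit 5) (nat_lit 188) (nat_lit 5) (nat_lit 414) (nat_lit 356) (nat_lit 250)) (XT.lf (nat_lit 0) (nat_lit 2713726768) (nat_lit 380) (nat_lit 14293166740) (nat_lit 456) (nat_lit 723899285)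 (nat_lit 177) (nat_lit 5) (nat_lit 182) (nat_lit 5) (nat_lit 183) (nat_lit 5) (nat_lit 415) (nat_lit 356) (nat_lit 249))) (XT.nd (nat_lit 78) (nat_lit 760) (nat_lit 0) (XT.lf (nat_lit 0) (nat_lit 1928925161) (nat_lit 380) (nat_lit 4139357568) (nat_lit 456) (nat_lit 11979356343) (nat_lit 171) (nat_lit 5) (nat_lit 176) (nat_lit 5) (nat_lit 177) (nat_lit 5) (nat_lit 416) (nat_lit 356) (nat_lit 248)) (XT.nd (nat_lit 78) (nat_lit 456) (nat_lit 0) (XT.lf (nat_lit 0) (nat_lit 1146042128) (nat_lit 304) (nat_lit 12034373963) (nat_lit 380) (nat_lit 5190958534) (nat_lit 167) (nat_lit 5) (nat_lit 171) (nat_lit 5) (nat_lit 172) (nat_lit 5) (nat_lit 417) (nat_lit 356) (nat_lit 247)) (XT.lf (nat_lit 0) (nat_lit 372493594) (nat_lit 380) (nat_lit 1520400117) (nat_lit 456) (nat_lit 16809386172) (nat_lit 161) (nat_lit 5) (nat_lit 166) (nat_lit 5) (nat_lit 167) (nat_lit 5) (nat_lit 418) (nat_lit 356) (nat_lit 246))))))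 (XT.nd (nat_lit 48282) (nat_lit 0) (nat_lit 37088) (XT.nd (nat_lit 156) (nat_lit 1140) (nat_lit 0) (XT.nd (nat_lit 78) (nat_lit 304) (nat_lit 0) (XT.lf (nat_lit 0) (nat_lit 9272826778) (nat_lit 456) (nat_lit 441456515) (nat_lit 76) (nat_lit 9325060960) (nat_lit 161) (nat_lit 5) (nat_lit 167) (nat_lit 5) (nat_lit 162) (nat_lit 5) (nat_lit 419) (nat_lit 356) (nat_lit 245)) (XT.lf (nat_lit 0) (nat_lit 16986540785) (nat_lit 380) (nat_lit 1218136142) (nat_lit 76) (nat_lit 1179595968) (nat_lit 157) (nat_lit 5) (nat_lit 162) (nat_lit 5) (nat_lit 158) (nat_lit 5) (nat_lit 420) (nat_lit 356) (nat_lit 244))) (XT.nd (nat_lit 78) (nat_lit 684) (nat_lit 0) (XT.lf (nat_lit 0) (nat_lit 5284972573) (nat_lit 456) (nat_lit 2042499065) (nat_lit 76) (nat_lit 12408184520) (nat_lit 151) (nat_lit 5) (nat_lit 157) (nat_lit 5) (nat_lit 152) (nat_lit 5) (nat_lit 421) (nat_lit 356) (nat_lit 243)) (XT.nd (nat_lit 78) (nat_lit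 380) (nat_lit 0) (XT.lf (nat_lit 0) (nat_lit 13289242824) (nat_lit 380) (nat_lit 2857022261) (nat_lit 76) (nat_lit 3948525649) (nat_lit 147) (nat_lit 5) (nat_lit 152) (nat_lit 5) (nat_lit 148) (nat_lit 5) (nat_lit 422) (nat_lit 356) (nat_lit 242)) (XT.lf (nat_lit 0) (nat_lit 1205321825) (nat_lit 380) (nat_lit 3675368016) (nat_lit 76) (nat_lit 15580862713) (nat_lit 142) (nat_lit 5) (nat_lit 147) (nat_lit 5) (nat_lit 143) (nat_lit 5) (nat_lit 423) (nat_lit 356) (nat_lit 241))))) (XT.nd (nat_lit 156) (nat_lit 1368) (nat_lit 0) (XT.nd (nat_lit 78) (nat_lit 0) (nat_lit 0) (XT.lf (nat_lit 0) (nat_lit 1150126171) (nat_lit 0) (nat_lit 1150126171) (nat_lit 1292) (nat_lit 1532130091) (nat_lit 648) (nat_lit 5) (nat_lit 648) (nat_lit 3) (nat_lit 665) (nat_lit 3) (nat_lit 357) (nat_lit 357) (nat_lit 306)) (XT.lf (nat_lit 76) (nat_lit 386697970) (nat_lit 0) (nat_lit 6339919031) (nat_lit 1368) (nat_lit 1011977246)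 (nat_lit 649) (nat_lit 5) (nat_lit 648) (nat_lit 5) (nat_lit 666) (nat_lit 5) (nat_lit 358) (nat_lit 357) (nat_lit 305))) (XT.nd (nat_lit 78) (nat_lit 0) (nat_lit 76) (XT.lf (nat_lit 0) (nat_lit 1059027083) (nat_lit 1368) (nat_lit 1496206185) (nat_lit 1444) (nat_lit 5259830073) (nat_lit 630) (nat_lit 5) (nat_lit 648) (nat_lit 5) (nat_lit 649) (nat_lit 5) (nat_lit 359) (nat_lit 357) (nat_lit 304)) (XT.nd (nat_lit 78) (nat_lit 0) (nat_lit 0) (XT.lf (nat_lit 0) (nat_lit 3139168863) (nat_lit 1368) (nat_lit 3357975650) (nat_lit 1444) (nat_lit 1397333089) (nat_lit 631) (nat_lit 5) (nat_lit 649) (nat_lit 5) (nat_lit 650) (nat_lit 5) (nat_lit 360) (nat_lit 357) (nat_lit 303)) (XT.lf (nat_lit 76) (nat_lit 2770591946) (nat_lit 0) (nat_lit 2480603428) (nat_lit 1444) (nat_lit 2725689307) (nat_lit 632) (nat_lit 5) (nat_lit 631) (nat_lit 5) (nat_lit 650) (nat_lit 5) (nat_lit 361) (nat_lit 357) (nat_lit 302)))))))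 (XT.nd (nat_lit 780) (nat_lit 10716) (nat_lit 0) (XT.nd (nat_lit 390) (nat_lit 2736) (nat_lit 0) (XT.nd (nat_lit 156) (nat_lit 0) (nat_lit 76) (XT.nd (nat_lit 78) (nat_lit 1444) (nat_lit 0) (XT.lf (nat_lit 76) (nat_lit 1026053397) (nat_lit 0) (nat_lit 6367184939) (nat_lit 1444) (nat_lit 669192523) (nat_lit 633) (nat_lit 5) (nat_lit 632) (nat_lit 5) (nat_lit 651) (nat_lit 5) (nat_lit 362) (nat_lit 357) (nat_lit 301)) (XT.lf (nat_lit 0) (nat_lit 1409819040) (nat_lit 1444) (nat_lit 703847998) (nat_lit 1520) (nat_lit 6037091754) (nat_lit 613) (nat_lit 5) (nat_lit 632) (nat_lit 5) (nat_lit 633) (nat_lit 5) (nat_lit 363) (nat_lit 357) (nat_lit 300))) (XT.nd (nat_lit 78) (nat_lit 0) (nat_lit 0) (XT.lf (nat_lit 0) (nat_lit 3525134070) (nat_lit 1444) (nat_lit 2409713804) (nat_lit 1520) (nat_lit 2307139722) (nat_lit 614) (nat_lit 5) (nat_lit 633) (nat_lit 5) (nat_lit 634) (nat_lit 5) (nat_lit 364) (nat_lit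 357) (nat_lit 299)) (XT.nd (nat_lit 78) (nat_lit 0) (nat_lit 76) (XT.lf (nat_lit 76) (nat_lit 4235683040) (nat_lit 0) (nat_lit 1446426574) (nat_lit 1520) (nat_lit 2654279631) (nat_lit 615) (nat_lit 5) (nat_lit 614) (nat_lit 5) (nat_lit 634) (nat_lit 5) (nat_lit 365) (nat_lit 357) (nat_lit 298)) (XT.lf (nat_lit 76) (nat_lit 2649418089) (nat_lit 0) (nat_lit 5242262086) (nat_lit 1520) (nat_lit 542185052) (nat_lit 616) (nat_lit 5) (nat_lit 615) (nat_lit 5) (nat_lit 635) (nat_lit 5) (nat_lit 366) (nat_lit 357) (nat_lit 297))))) (XT.nd (nat_lit 156) (nat_lit 1368) (nat_lit 0) (XT.nd (nat_lit 78) (nat_lit 0) (nat_lit 76) (XT.lf (nat_lit 76) (nat_lit 1073214960) (nat_lit 0) (nat_lit 518090295) (nat_lit 1596) (nat_lit 6943159079) (nat_lit 596) (nat_lit 5) (nat_lit 595) (nat_lit 5) (nat_lit 616) (nat_lit 5) (nat_lit 367) (nat_lit 357) (nat_lit 296)) (XT.lf (nat_lit 0) (nat_lit 3785739965) (nat_lit 1520) (nat_lit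 499162173) (nat_lit 1596) (nat_lit 4353021479) (nat_lit 596) (nat_lit 5) (nat_lit 616) (nat_lit 5) (nat_lit 617) (nat_lit 5) (nat_lit 368) (nat_lit 357) (nat_lit 295))) (XT.nd (nat_lit 78) (nat_lit 1520) (nat_lit 0) (XT.lf (nat_lit 0) (nat_lit 6035896892) (nat_lit 1520) (nat_lit 2037052208) (nat_lit 1596) (nat_lit 671739798) (nat_lit 597) (nat_lit 5) (nat_lit 617) (nat_lit 5) (nat_lit 618) (nat_lit 5) (nat_lit 369) (nat_lit 357) (nat_lit 294)) (XT.nd (nat_lit 78) (nat_lit 1520) (nat_lit 0) (XT.lf (nat_lit 76) (nat_lit 5278634319) (nat_lit 0) (nat_lit 3081300608) (nat_lit 1596) (nat_lit 494594681) (nat_lit 598) (nat_lit 5) (nat_lit 597) (nat_lit 5) (nat_lit 618) (nat_lit 5) (nat_lit 370) (nat_lit 357) (nat_lit 293)) (XT.lf (nat_lit 0) (nat_lit 1756534884) (nat_lit 1596) (nat_lit 5113155845) (nat_lit 1672) (nat_lit 2097864280) (nat_lit 577) (nat_lit 5) (nat_lit 598) (nat_lit 5) (nat_lit 599) (nat_lit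 5) (nat_lit 371) (nat_lit 357) (nat_lit 292)))))) (XT.nd (nat_lit 390) (nat_lit 5700) (nat_lit 0) (XT.nd (nat_lit 156) (nat_lit 3496) (nat_lit 0) (XT.nd (nat_lit 78) (nat_lit 1520) (nat_lit 0) (XT.lf (nat_lit 76) (nat_lit 2435567495) (nat_lit 0) (nat_lit 1636392625) (nat_lit 1672) (nat_lit 5011876039) (nat_lit 578) (nat_lit 5) (nat_lit 577) (nat_lit 5) (nat_lit 599) (nat_lit 5) (nat_lit 372) (nat_lit 357) (nat_lit 291)) (XT.lf (nat_lit 0) (nat_lit 1020792864) (nat_lit 1596) (nat_lit 5446020347) (nat_lit 1672) (nat_lit 2736593232) (nat_lit 557) (nat_lit 5) (nat_lit 578) (nat_lit 5) (nat_lit 579) (nat_lit 5) (nat_lit 373) (nat_lit 357) (nat_lit 290))) (XT.nd (nat_lit 78) (nat_lit 3496) (nat_lit 0) (XT.lf (nat_lit 0) (nat_lit 8934985818) (nat_lit 1672) (nat_lit 371904852) (nat_lit 76) (nat_lit 19643684) (nat_lit 557) (nat_lit 5) (nat_lit 579) (nat_lit 5) (nat_lit 558) (nat_lit 5) (nat_lit 374) (nat_lit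 357) (nat_lit 289)) (XT.nd (nat_lit 78) (nat_lit 1748) (nat_lit 0) (XT.lf (nat_lit 0) (nat_lit 2030964095) (nat_lit 1748) (nat_lit 1773337884) (nat_lit 76) (nat_lit 5648118129) (nat_lit 534) (nat_lit 5) (nat_lit 557) (nat_lit 5) (nat_lit 535) (nat_lit 5) (nat_lit 375) (nat_lit 357) (nat_lit 288)) (XT.lf (nat_lit 0) (nat_lit 4525597617) (nat_lit 1824) (nat_lit 3163115312) (nat_lit 76) (nat_lit 1893222439) (nat_lit 511) (nat_lit 5) (nat_lit 535) (nat_lit 5) (nat_lit 512) (nat_lit 5) (nat_lit 376) (nat_lit 357) (nat_lit 287))))) (XT.nd (nat_lit 156) (nat_lit 2736) (nat_lit 0) (XT.nd (nat_lit 78) (nat_lit 1140) (nat_lit 0) (XT.lf (nat_lit 0) (nat_lit 5162933022) (nat_lit 1824) (nat_lit 1952452288) (nat_lit 1900) (nat_lit 2599544472) (nat_lit 487) (nat_lit 5) (nat_lit 511) (nat_lit 5) (nat_lit 512) (nat_lit 5) (nat_lit 377) (nat_lit 357) (nat_lit 286)) (XT.lf (nat_lit 0) (nat_lit 3910565098) (nat_lit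 1140) (nat_lit 5895431230) (nat_lit 1216) (nat_lit 45455108) (nat_lit 472) (nat_lit 5) (nat_lit 487) (nat_lit 5) (nat_lit 488) (nat_lit 5) (nat_lit 378) (nat_lit 357) (nat_lit 285))) (XT.nd (nat_lit 78) (nat_lit 1748) (nat_lit 0) (XT.lf (nat_lit 0) (nat_lit 2564626944) (nat_lit 988) (nat_lit 7334800779) (nat_lit 76) (nat_lit 92039790) (nat_lit 459) (nat_lit 5) (nat_lit 472) (nat_lit 5) (nat_lit 460) (nat_lit 5) (nat_lit 379) (nat_lit 357) (nat_lit 284)) (XT.nd (nat_lit 78) (nat_lit 836) (nat_lit 0) (XT.lf (nat_lit 0) (nat_lit 1391223109) (nat_lit 912) (nat_lit 3902614336) (nat_lit 988) (nat_lit 4841011746) (nat_lit 447) (nat_lit 5) (nat_lit 459) (nat_lit 5) (nat_lit 460) (nat_lit 5) (nat_lit 380) (nat_lit 357) (nat_lit 283)) (XT.lf (nat_lit 0) (nat_lit 138802124) (nat_lit 836) (nat_lit 7985381986) (nat_lit 912) (nat_lit 2157963014) (nat_lit 436) (nat_lit 5) (nat_lit 447) (nat_lit 5) (nat_lit 448)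 (nat_lit 5) (nat_lit 381) (nat_lit 357) (nat_lit 282))))))))
noncomputable def xc85 : XT := (XT.nd (nat_lit 1482) (nat_lit 8816) (nat_lit 0) (XT.nd (nat_lit 702) (nat_lit 5852) (nat_lit 0) (XT.nd (nat_lit 312) (nat_lit 3876) (nat_lit 0) (XT.nd (nat_lit 156) (nat_lit 1672) (nat_lit 0) (XT.nd (nat_lit 78) (nat_lit 912) (nat_lit 0) (XT.lf (nat_lit 0) (nat_lit 637696398) (nat_lit 912) (nat_lit 1101391680) (nat_lit 76) (nat_lit 8693896051) (nat_lit 435) (nat_lit 5) (nat_lit 447) (nat_lit 5) (nat_lit 436) (nat_lit 5) (nat_lit 382) (nat_lit 357) (nat_lit 281)) (XT.lf (nat_lit 0) (nat_lit 3528295584) (nat_lit 988) (nat_lit 2357411304) (nat_lit 76) (nat_lit 4701546307) (nat_lit 423) (nat_lit 5) (nat_lit 436) (nat_lit 5) (nat_lit 424) (nat_lit 5) (nat_lit 383) (nat_lit 357) (nat_lit 280))) (XT.nd (nat_lit 78) (nat_lit 836) (nat_lit 0) (XT.lf (nat_lit 0) (nat_lit 6531845384) (nat_lit 912) (nat_lit 3602072134)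 (nat_lit 76) (nat_lit 611708164) (nat_lit 412) (nat_lit 5) (nat_lit 424) (nat_lit 5) (nat_lit 413) (nat_lit 5) (nat_lit 384) (nat_lit 357) (nat_lit 279)) (XT.lf (nat_lit 0) (nat_lit 6048640349) (nat_lit 836) (nat_lit 3629200913) (nat_lit 912) (nat_lit 1229861290) (nat_lit 401) (nat_lit 5) (nat_lit 412) (nat_lit 5) (nat_lit 413) (nat_lit 5) (nat_lit 385) (nat_lit 357) (nat_lit 278)))) (XT.nd (nat_lit 156) (nat_lit 2280) (nat_lit 0) (XT.nd (nat_lit 78) (nat_lit 760) (nat_lit 0) (XT.lf (nat_lit 0) (nat_lit 1854929550) (nat_lit 836) (nat_lit 6121800451) (nat_lit 76) (nat_lit 3096961669) (nat_lit 390) (nat_lit 5) (nat_lit 401) (nat_lit 5) (nat_lit 391) (nat_lit 5) (nat_lit 386) (nat_lit 357) (nat_lit 277)) (XT.lf (nat_lit 0) (nat_lit 3852988514) (nat_lit 760) (nat_lit 1204306197) (nat_lit 836) (nat_lit 6186368373) (nat_lit 380) (nat_lit 5) (nat_lit 390) (nat_lit 5) (nat_lit 391) (nat_lit 5) (nat_lit 387)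 (nat_lit 357) (nat_lit 276))) (XT.nd (nat_lit 78) (nat_lit 1520) (nat_lit 0) (XT.lf (nat_lit 0) (nat_lit 2746625694) (nat_lit 760) (nat_lit 5666258831) (nat_lit 836) (nat_lit 3004706041) (nat_lit 370) (nat_lit 5) (nat_lit 380) (nat_lit 5) (nat_lit 381) (nat_lit 5) (nat_lit 388) (nat_lit 357) (nat_lit 275)) (XT.nd (nat_lit 78) (nat_lit 684) (nat_lit 0) (XT.lf (nat_lit 0) (nat_lit 307636722) (nat_lit 836) (nat_lit 9944205137) (nat_lit 76) (nat_lit 1344082576) (nat_lit 359) (nat_lit 5) (nat_lit 370) (nat_lit 5) (nat_lit 360) (nat_lit 5) (nat_lit 389) (nat_lit 357) (nat_lit 274)) (XT.lf (nat_lit 0) (nat_lit 528517806) (nat_lit 684) (nat_lit 3212251194) (nat_lit 760) (nat_lit 8037197270) (nat_lit 350) (nat_lit 5) (nat_lit 359) (nat_lit 5) (nat_lit 360) (nat_lit 5) (nat_lit 390) (nat_lit 357) (nat_lit 273)))))) (XT.nd (nat_lit 390) (nat_lit 3116) (nat_lit 0) (XT.nd (nat_lit 156) (nat_lit 2052) (nat_lit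 0) (XT.nd (nat_lit 78) (nat_lit 684) (nat_lit 0) (XT.lf (nat_lit 0) (nat_lit 7333283116) (nat_lit 760) (nat_lit 583620217) (nat_lit 76) (nat_lit 4047438270) (nat_lit 350) (nat_lit 5) (nat_lit 360) (nat_lit 5) (nat_lit 351) (nat_lit 5) (nat_lit 391) (nat_lit 357) (nat_lit 272)) (XT.lf (nat_lit 0) (nat_lit 10475003274) (nat_lit 684) (nat_lit 611494553) (nat_lit 760) (nat_lit 1068751866) (nat_lit 341) (nat_lit 5) (nat_lit 350) (nat_lit 5) (nat_lit 351) (nat_lit 5) (nat_lit 392) (nat_lit 357) (nat_lit 271))) (XT.nd (nat_lit 78) (nat_lit 1292) (nat_lit 0) (XT.lf (nat_lit 0) (nat_lit 2641924569) (nat_lit 760) (nat_lit 2808791716) (nat_lit 76) (nat_lit 6899318953) (nat_lit 331) (nat_lit 5) (nat_lit 341) (nat_lit 5) (nat_lit 332) (nat_lit 5) (nat_lit 393) (nat_lit 357) (nat_lit 270)) (XT.nd (nat_lit 78) (nat_lit 608) (nat_lit 0) (XT.lf (nat_lit 0) (nat_lit 6499716850) (nat_lit 760) (nat_lit 3932720848) (nat_lit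 76) (nat_lit 2117079049) (nat_lit 322) (nat_lit 5) (nat_lit 332) (nat_lit 5) (nat_lit 323) (nat_lit 5) (nat_lit 394) (nat_lit 357) (nat_lit 269)) (XT.lf (nat_lit 0) (nat_lit 7690511238) (nat_lit 608) (nat_lit 2853695015) (nat_lit 684) (nat_lit 2209357181) (nat_lit 314) (nat_lit 5) (nat_lit 322) (nat_lit 5) (nat_lit 323) (nat_lit 5) (nat_lit 395) (nat_lit 357) (nat_lit 268))))) (XT.nd (nat_lit 156) (nat_lit 1824) (nat_lit 0) (XT.nd (nat_lit 78) (nat_lit 608) (nat_lit 0) (XT.lf (nat_lit 0) (nat_lit 1792868847) (nat_lit 684) (nat_lit 6207355735) (nat_lit 76) (nat_lit 4961890716) (nat_lit 305) (nat_lit 5) (nat_lit 314) (nat_lit 5) (nat_lit 306) (nat_lit 5) (nat_lit 396) (nat_lit 357) (nat_lit 267)) (XT.lf (nat_lit 0) (nat_lit 5819964969) (nat_lit 608) (nat_lit 123354500) (nat_lit 684) (nat_lit 7232148685) (nat_lit 297) (nat_lit 5) (nat_lit 305) (nat_lit 5) (nat_lit 306) (nat_lit 5) (nat_lit 397) (nat_lit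 357) (nat_lit 266))) (XT.nd (nat_lit 78) (nat_lit 1216) (nat_lit 0) (XT.lf (nat_lit 0) (nat_lit 4868026147) (nat_lit 608) (nat_lit 5443319830) (nat_lit 684) (nat_lit 3082014374) (nat_lit 289) (nat_lit 5) (nat_lit 297) (nat_lit 5) (nat_lit 298) (nat_lit 5) (nat_lit 398) (nat_lit 357) (nat_lit 265)) (XT.nd (nat_lit 78) (nat_lit 608) (nat_lit 0) (XT.lf (nat_lit 0) (nat_lit 1238961029) (nat_lit 608) (nat_lit 9691552517) (nat_lit 76) (nat_lit 2685881327) (nat_lit 281) (nat_lit 5) (nat_lit 289) (nat_lit 5) (nat_lit 282) (nat_lit 5) (nat_lit 399) (nat_lit 357) (nat_lit 264)) (XT.lf (nat_lit 0) (nat_lit 2959691948) (nat_lit 608) (nat_lit 2770329355) (nat_lit 684) (nat_lit 8114045127) (nat_lit 273) (nat_lit 5) (nat_lit 281) (nat_lit 5) (nat_lit 282) (nat_lit 5) (nat_lit 400) (nat_lit 357) (nat_lit 263))))))) (XT.nd (nat_lit 780) (nat_lit 4104) (nat_lit 0) (XT.nd (nat_lit 390) (nat_lit 2432) (nat_lit 0) (XT.nd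 (nat_lit 156) (nat_lit 1140) (nat_lit 0) (XT.nd (nat_lit 78) (nat_lit 608) (nat_lit 0) (XT.lf (nat_lit 0) (nat_lit 1993142483) (nat_lit 532) (nat_lit 8447209770) (nat_lit 608) (nat_lit 3636525101) (nat_lit 266) (nat_lit 5) (nat_lit 273) (nat_lit 5) (nat_lit 274) (nat_lit 5) (nat_lit 401) (nat_lit 357) (nat_lit 262)) (XT.lf (nat_lit 0) (nat_lit 1031417818) (nat_lit 608) (nat_lit 13277760827) (nat_lit 76) (nat_lit 5989537) (nat_lit 258) (nat_lit 5) (nat_lit 266) (nat_lit 5) (nat_lit 259) (nat_lit 5) (nat_lit 402) (nat_lit 357) (nat_lit 261))) (XT.nd (nat_lit 78) (nat_lit 608) (nat_lit 0) (XT.lf (nat_lit 0) (nat_lit 36301145) (nat_lit 532) (nat_lit 5863024215) (nat_lit 608) (nat_lit 8658614978) (nat_lit 251) (nat_lit 5) (nat_lit 258) (nat_lit 5) (nat_lit 259) (nat_lit 5) (nat_lit 403) (nat_lit 357) (nat_lit 260)) (XT.nd (nat_lit 78) (nat_lit 608) (nat_lit 0) (XT.lf (nat_lit 0) (nat_lit 10992695022)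 (nat_lit 608) (nat_lit 934960934) (nat_lit 76) (nat_lit 2878751203) (nat_lit 251) (nat_lit 5) (nat_lit 259) (nat_lit 5) (nat_lit 252) (nat_lit 5) (nat_lit 404) (nat_lit 357) (nat_lit 259)) (XT.lf (nat_lit 0) (nat_lit 1257645173) (nat_lit 608) (nat_lit 1916160112) (nat_lit 76) (nat_lit 11886439166) (nat_lit 243) (nat_lit 5) (nat_lit 251) (nat_lit 5) (nat_lit 244) (nat_lit 5) (nat_lit 405) (nat_lit 357) (nat_lit 258))))) (XT.nd (nat_lit 156) (nat_lit 1444) (nat_lit 0) (XT.nd (nat_lit 78) (nat_lit 532) (nat_lit 0) (XT.lf (nat_lit 0) (nat_lit 6527033888) (nat_lit 532) (nat_lit 2924162221) (nat_lit 76) (nat_lit 5868042499) (nat_lit 237) (nat_lit 5) (nat_lit 244) (nat_lit 5) (nat_lit 238) (nat_lit 5) (nat_lit 406) (nat_lit 357) (nat_lit 257)) (XT.lf (nat_lit 0) (nat_lit 11668212322) (nat_lit 532) (nat_lit 368533790) (nat_lit 608) (nat_lit 3547611639) (nat_lit 230) (nat_lit 5) (nat_lit 237) (nat_lit 5)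 (nat_lit 238) (nat_lit 5) (nat_lit 407) (nat_lit 357) (nat_lit 256))) (XT.nd (nat_lit 78) (nat_lit 912) (nat_lit 0) (XT.lf (nat_lit 0) (nat_lit 1952713050) (nat_lit 532) (nat_lit 4941130502) (nat_lit 76) (nat_lit 8960891858) (nat_lit 223) (nat_lit 5) (nat_lit 230) (nat_lit 5) (nat_lit 224) (nat_lit 5) (nat_lit 408) (nat_lit 357) (nat_lit 255)) (XT.nd (nat_lit 78) (nat_lit 456) (nat_lit 0) (XT.lf (nat_lit 0) (nat_lit 7654896517) (nat_lit 532) (nat_lit 5970785584) (nat_lit 76) (nat_lit 2505372359) (nat_lit 217) (nat_lit 5) (nat_lit 224) (nat_lit 5) (nat_lit 218) (nat_lit 5) (nat_lit 409) (nat_lit 357) (nat_lit 254)) (XT.lf (nat_lit 0) (nat_lit 9405379814) (nat_lit 456) (nat_lit 4237130598) (nat_lit 532) (nat_lit 2770865370) (nat_lit 211) (nat_lit 5) (nat_lit 217) (nat_lit 5) (nat_lit 218) (nat_lit 5) (nat_lit 410) (nat_lit 357) (nat_lit 253)))))) (XT.nd (nat_lit 390) (nat_lit 1900) (nat_lit 0) (XT.nd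 (nat_lit 156) (nat_lit 1292) (nat_lit 0) (XT.nd (nat_lit 78) (nat_lit 380) (nat_lit 0) (XT.lf (nat_lit 0) (nat_lit 3171725977) (nat_lit 532) (nat_lit 8062476104) (nat_lit 76) (nat_lit 5467423987) (nat_lit 204) (nat_lit 5) (nat_lit 211) (nat_lit 5) (nat_lit 205) (nat_lit 5) (nat_lit 411) (nat_lit 357) (nat_lit 252)) (XT.lf (nat_lit 0) (nat_lit 7871600056) (nat_lit 380) (nat_lit 1485087494) (nat_lit 456) (nat_lit 7639435250) (nat_lit 199) (nat_lit 5) (nat_lit 204) (nat_lit 5) (nat_lit 205) (nat_lit 5) (nat_lit 412) (nat_lit 357) (nat_lit 251))) (XT.nd (nat_lit 78) (nat_lit 836) (nat_lit 0) (XT.lf (nat_lit 0) (nat_lit 7094509446) (nat_lit 456) (nat_lit 8763998830) (nat_lit 532) (nat_lit 1438319953) (nat_lit 193) (nat_lit 5) (nat_lit 199) (nat_lit 5) (nat_lit 200) (nat_lit 5) (nat_lit 413) (nat_lit 357) (nat_lit 250)) (XT.nd (nat_lit 78) (nat_lit 380) (nat_lit 0) (XT.lf (nat_lit 0) (nat_lit 4980933383)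 (nat_lit 456) (nat_lit 11290803573) (nat_lit 76) (nat_lit 1332235055) (nat_lit 187) (nat_lit 5) (nat_lit 193) (nat_lit 5) (nat_lit 188) (nat_lit 5) (nat_lit 414) (nat_lit 357) (nat_lit 249)) (XT.lf (nat_lit 0) (nat_lit 5510594555) (nat_lit 380) (nat_lit 6202145574) (nat_lit 456) (nat_lit 6204609493) (nat_lit 182) (nat_lit 5) (nat_lit 187) (nat_lit 5) (nat_lit 188) (nat_lit 5) (nat_lit 415) (nat_lit 357) (nat_lit 248))))) (XT.nd (nat_lit 156) (nat_lit 1064) (nat_lit 0) (XT.nd (nat_lit 78) (nat_lit 380) (nat_lit 0) (XT.lf (nat_lit 0) (nat_lit 512381674) (nat_lit 456) (nat_lit 13512459237) (nat_lit 76) (nat_lit 4213008106) (nat_lit 176) (nat_lit 5) (nat_lit 182) (nat_lit 5) (nat_lit 177) (nat_lit 5) (nat_lit 416) (nat_lit 357) (nat_lit 247)) (XT.lf (nat_lit 0) (nat_lit 3905429711) (nat_lit 380) (nat_lit 3569221716) (nat_lit 456) (nat_lit 11089930414) (nat_lit 171) (nat_lit 5) (nat_lit 176) (nat_lit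 5) (nat_lit 177) (nat_lit 5) (nat_lit 417) (nat_lit 357) (nat_lit 246))) (XT.nd (nat_lit 78) (nat_lit 760) (nat_lit 0) (XT.lf (nat_lit 0) (nat_lit 3087586898) (nat_lit 304) (nat_lit 11693661313) (nat_lit 380) (nat_lit 4117159260) (nat_lit 167) (nat_lit 5) (nat_lit 171) (nat_lit 5) (nat_lit 172) (nat_lit 5) (nat_lit 418) (nat_lit 357) (nat_lit 245)) (XT.nd (nat_lit 78) (nat_lit 304) (nat_lit 0) (XT.lf (nat_lit 0) (nat_lit 2275754310) (nat_lit 380) (nat_lit 864271616) (nat_lit 456) (nat_lit 16099515445) (nat_lit 161) (nat_lit 5) (nat_lit 166) (nat_lit 5) (nat_lit 167) (nat_lit 5) (nat_lit 419) (nat_lit 357) (nat_lit 244)) (XT.lf (nat_lit 0) (nat_lit 1419584548) (nat_lit 304) (nat_lit 9300742529) (nat_lit 380) (nat_lit 8866811194) (nat_lit 157) (nat_lit 5) (nat_lit 161) (nat_lit 5) (nat_lit 162) (nat_lit 5) (nat_lit 420) (nat_lit 357) (nat_lit 243))))))))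
noncomputable def xc86 : XT := (XT.nd (nat_lit 49452) (nat_lit 0) (nat_lit 13984) (XT.nd (nat_lit 48672) (nat_lit 0) (nat_lit 32528) (XT.nd (nat_lit 48282) (nat_lit 0) (nat_lit 35340) (XT.nd (nat_lit 156) (nat_lit 304) (nat_lit 0) (XT.nd (nat_lit 78) (nat_lit 76) (nat_lit 0) (XT.lf (nat_lit 0) (nat_lit 597010534) (nat_lit 380) (nat_lit 18045627792) (nat_lit 456) (nat_lit 1300232730) (nat_lit 152) (nat_lit 5) (nat_lit 157) (nat_lit 5) (nat_lit 158) (nat_lit 5) (nat_lit 421) (nat_lit 357) (nat_lit 242)) (XT.lf (nat_lit 0) (nat_lit 6572068529) (nat_lit 456) (nat_lit 274829836) (nat_lit 76) (nat_lit 13458256542) (nat_lit 151) (nat_lit 5) (nat_lit 157) (nat_lit 5) (nat_lit 152) (nat_lit 5) (nat_lit 422) (nat_lit 357) (nat_lit 241))) (XT.nd (nat_lit 48048) (nat_lit 0) (nat_lit 36632) (XT.lf (nat_lit 0) (nat_lit 14799771018) (nat_lit 380) (nat_lit 1125806363) (nat_lit 76) (nat_lit 4749820057) (nat_lit 147)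 (nat_lit 5) (nat_lit 152) (nat_lit 5) (nat_lit 148) (nat_lit 5) (nat_lit 423) (nat_lit 357) (nat_lit 240)) (XT.lf (nat_lit 0) (nat_lit 481765566) (nat_lit 1444) (nat_lit 1712505005) (nat_lit 1444) (nat_lit 1712505005) (nat_lit 629) (nat_lit 3) (nat_lit 648) (nat_lit 3) (nat_lit 648) (nat_lit 5) (nat_lit 358) (nat_lit 358) (nat_lit 304)))) (XT.nd (nat_lit 156) (nat_lit 1292) (nat_lit 0) (XT.nd (nat_lit 78) (nat_lit 0) (nat_lit 76) (XT.lf (nat_lit 76) (nat_lit 2461024985) (nat_lit 0) (nat_lit 473699814) (nat_lit 1444) (nat_lit 4956894808) (nat_lit 630) (nat_lit 5) (nat_lit 629) (nat_lit 3) (nat_lit 648) (nat_lit 5) (nat_lit 359) (nat_lit 358) (nat_lit 303)) (XT.lf (nat_lit 76) (nat_lit 541904686) (nat_lit 0) (nat_lit 4397377982) (nat_lit 1444) (nat_lit 3033262878) (nat_lit 631) (nat_lit 5) (nat_lit 630) (nat_lit 5) (nat_lit 649) (nat_lit 5) (nat_lit 360) (nat_lit 358) (nat_lit 302))) (XT.nd (nat_lit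 78) (nat_lit 1368) (nat_lit 0) (XT.lf (nat_lit 76) (nat_lit 6724466190) (nat_lit 0) (nat_lit 245645414) (nat_lit 1444) (nat_lit 1086464973) (nat_lit 631) (nat_lit 5) (nat_lit 630) (nat_lit 5) (nat_lit 649) (nat_lit 5) (nat_lit 361) (nat_lit 358) (nat_lit 301)) (XT.nd (nat_lit 78) (nat_lit 0) (nat_lit 76) (XT.lf (nat_lit 0) (nat_lit 893440998) (nat_lit 1444) (nat_lit 3201888004) (nat_lit 1520) (nat_lit 4047945165) (nat_lit 612) (nat_lit 5) (nat_lit 631) (nat_lit 5) (nat_lit 632) (nat_lit 5) (nat_lit 362) (nat_lit 358) (nat_lit 300)) (XT.lf (nat_lit 0) (nat_lit 2881313821) (nat_lit 1444) (nat_lit 5054462845) (nat_lit 1520) (nat_lit 297385778) (nat_lit 613) (nat_lit 5) (nat_lit 632) (nat_lit 5) (nat_lit 633) (nat_lit 5) (nat_lit 363) (nat_lit 358) (nat_lit 299)))))) (XT.nd (nat_lit 390) (nat_lit 1444) (nat_lit 0) (XT.nd (nat_lit 156) (nat_lit 1444) (nat_lit 0) (XT.nd (nat_lit 78) (nat_lit 0) (nat_lit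 76) (XT.lf (nat_lit 76) (nat_lit 1418426623) (nat_lit 0) (nat_lit 3500704358) (nat_lit 1520) (nat_lit 3406810227) (nat_lit 614) (nat_lit 5) (nat_lit 613) (nat_lit 5) (nat_lit 633) (nat_lit 5) (nat_lit 364) (nat_lit 358) (nat_lit 298)) (XT.lf (nat_lit 0) (nat_lit 6993242059) (nat_lit 1444) (nat_lit 315963993) (nat_lit 1520) (nat_lit 1112794092) (nat_lit 614) (nat_lit 5) (nat_lit 633) (nat_lit 5) (nat_lit 634) (nat_lit 5) (nat_lit 365) (nat_lit 358) (nat_lit 297))) (XT.nd (nat_lit 78) (nat_lit 0) (nat_lit 76) (XT.lf (nat_lit 0) (nat_lit 601914525) (nat_lit 1520) (nat_lit 2031222446) (nat_lit 1596) (nat_lit 5887699621) (nat_lit 594) (nat_lit 5) (nat_lit 614) (nat_lit 5) (nat_lit 615) (nat_lit 5) (nat_lit 366) (nat_lit 358) (nat_lit 296)) (XT.nd (nat_lit 78) (nat_lit 0) (nat_lit 0) (XT.lf (nat_lit 0) (nat_lit 2659614910) (nat_lit 1520) (nat_lit 3743527239) (nat_lit 1596) (nat_lit 2219596726) (nat_lit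 595) (nat_lit 5) (nat_lit 615) (nat_lit 5) (nat_lit 616) (nat_lit 5) (nat_lit 367) (nat_lit 358) (nat_lit 295)) (XT.lf (nat_lit 76) (nat_lit 3280370842) (nat_lit 0) (nat_lit 1490019446) (nat_lit 1596) (nat_lit 3957481058) (nat_lit 596) (nat_lit 5) (nat_lit 595) (nat_lit 5) (nat_lit 616) (nat_lit 5) (nat_lit 368) (nat_lit 358) (nat_lit 294))))) (XT.nd (nat_lit 156) (nat_lit 0) (nat_lit 76) (XT.nd (nat_lit 78) (nat_lit 1596) (nat_lit 0) (XT.lf (nat_lit 76) (nat_lit 1686423274) (nat_lit 0) (nat_lit 5257951259) (nat_lit 1596) (nat_lit 1891785546) (nat_lit 597) (nat_lit 5) (nat_lit 596) (nat_lit 5) (nat_lit 617) (nat_lit 5) (nat_lit 369) (nat_lit 358) (nat_lit 293)) (XT.lf (nat_lit 76) (nat_lit 108650823) (nat_lit 0) (nat_lit 113264419) (nat_lit 1672) (nat_lit 8725969042) (nat_lit 576) (nat_lit 5) (nat_lit 575) (nat_lit 5) (nat_lit 597) (nat_lit 5) (nat_lit 370) (nat_lit 358) (nat_lit 292))) (XT.nd (nat_lit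 78) (nat_lit 0) (nat_lit 76) (XT.lf (nat_lit 0) (nat_lit 2398742624) (nat_lit 1596) (nat_lit 1469526200) (nat_lit 1672) (nat_lit 5193932946) (nat_lit 576) (nat_lit 5) (nat_lit 597) (nat_lit 5) (nat_lit 598) (nat_lit 5) (nat_lit 371) (nat_lit 358) (nat_lit 291)) (XT.nd (nat_lit 78) (nat_lit 0) (nat_lit 0) (XT.lf (nat_lit 0) (nat_lit 4636070164) (nat_lit 1596) (nat_lit 3031186971) (nat_lit 1672) (nat_lit 1512787740) (nat_lit 577) (nat_lit 5) (nat_lit 598) (nat_lit 5) (nat_lit 599) (nat_lit 5) (nat_lit 372) (nat_lit 358) (nat_lit 290)) (XT.lf (nat_lit 76) (nat_lit 4707731951) (nat_lit 0) (nat_lit 2245169082) (nat_lit 1672) (nat_lit 2348274569) (nat_lit 578) (nat_lit 5) (nat_lit 577) (nat_lit 5) (nat_lit 599) (nat_lit 5) (nat_lit 373) (nat_lit 358) (nat_lit 289))))))) (XT.nd (nat_lit 780) (nat_lit 6992) (nat_lit 0) (XT.nd (nat_lit 390) (nat_lit 4864) (nat_lit 0) (XT.nd (nat_lit 156) (nat_lit 3572) (nat_lit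 0) (XT.nd (nat_lit 78) (nat_lit 1748) (nat_lit 0) (XT.lf (nat_lit 0) (nat_lit 3272691710) (nat_lit 1596) (nat_lit 6077449116) (nat_lit 1672) (nat_lit 75581345) (nat_lit 557) (nat_lit 5) (nat_lit 578) (nat_lit 5) (nat_lit 579) (nat_lit 5) (nat_lit 374) (nat_lit 358) (nat_lit 288)) (XT.lf (nat_lit 0) (nat_lit 1835266554) (nat_lit 1672) (nat_lit 406794276) (nat_lit 1748) (nat_lit 7311520595) (nat_lit 534) (nat_lit 5) (nat_lit 556) (nat_lit 5) (nat_lit 557) (nat_lit 5) (nat_lit 375) (nat_lit 358) (nat_lit 287))) (XT.nd (nat_lit 78) (nat_lit 1824) (nat_lit 0) (XT.lf (nat_lit 0) (nat_lit 388483848) (nat_lit 1748) (nat_lit 4269001556) (nat_lit 1824) (nat_lit 5027195460) (nat_lit 511) (nat_lit 5) (nat_lit 534) (nat_lit 5) (nat_lit 535) (nat_lit 5) (nat_lit 376) (nat_lit 358) (nat_lit 286)) (XT.nd (nat_lit 78) (nat_lit 1824) (nat_lit 0) (XT.lf (nat_lit 0) (nat_lit 7161766059) (nat_lit 1824) (nat_lit 1031752134)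 (nat_lit 76) (nat_lit 1625867226) (nat_lit 511) (nat_lit 5) (nat_lit 535) (nat_lit 5) (nat_lit 512) (nat_lit 5) (nat_lit 377) (nat_lit 358) (nat_lit 285)) (XT.lf (nat_lit 0) (nat_lit 7507959281) (nat_lit 1824) (nat_lit 2262680733) (nat_lit 1900) (nat_lit 186901800) (nat_lit 487) (nat_lit 5) (nat_lit 511) (nat_lit 5) (nat_lit 512) (nat_lit 5) (nat_lit 378) (nat_lit 358) (nat_lit 284))))) (XT.nd (nat_lit 156) (nat_lit 2736) (nat_lit 0) (XT.nd (nat_lit 78) (nat_lit 912) (nat_lit 0) (XT.lf (nat_lit 0) (nat_lit 2352977500) (nat_lit 1216) (nat_lit 3882668244) (nat_lit 76) (nat_lit 3863371671) (nat_lit 471) (nat_lit 5) (nat_lit 487) (nat_lit 5) (nat_lit 472) (nat_lit 5) (nat_lit 379) (nat_lit 358) (nat_lit 283)) (XT.lf (nat_lit 0) (nat_lit 4936864881) (nat_lit 912) (nat_lit 47663275) (nat_lit 988) (nat_lit 5259824134) (nat_lit 459) (nat_lit 5) (nat_lit 471) (nat_lit 5) (nat_lit 472) (nat_lit 5) (nat_lit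 380) (nat_lit 358) (nat_lit 282))) (XT.nd (nat_lit 78) (nat_lit 1824) (nat_lit 0) (XT.lf (nat_lit 0) (nat_lit 3644160933) (nat_lit 912) (nat_lit 4097268553) (nat_lit 988) (nat_lit 2651689643) (nat_lit 447) (nat_lit 5) (nat_lit 459) (nat_lit 5) (nat_lit 460) (nat_lit 5) (nat_lit 381) (nat_lit 358) (nat_lit 281)) (XT.nd (nat_lit 78) (nat_lit 912) (nat_lit 0) (XT.lf (nat_lit 0) (nat_lit 57301241) (nat_lit 912) (nat_lit 8182446051) (nat_lit 76) (nat_lit 2306135830) (nat_lit 435) (nat_lit 5) (nat_lit 447) (nat_lit 5) (nat_lit 436) (nat_lit 5) (nat_lit 382) (nat_lit 358) (nat_lit 280)) (XT.lf (nat_lit 0) (nat_lit 1064742552) (nat_lit 912) (nat_lit 1784290967) (nat_lit 988) (nat_lit 7853096008) (nat_lit 423) (nat_lit 5) (nat_lit 435) (nat_lit 5) (nat_lit 436) (nat_lit 5) (nat_lit 383) (nat_lit 358) (nat_lit 279)))))) (XT.nd (nat_lit 390) (nat_lit 3724) (nat_lit 0) (XT.nd (nat_lit 156) (nat_lit 2432) (nat_lit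 0) (XT.nd (nat_lit 78) (nat_lit 836) (nat_lit 0) (XT.lf (nat_lit 0) (nat_lit 5769837934) (nat_lit 988) (nat_lit 235754303) (nat_lit 76) (nat_lit 4856564685) (nat_lit 423) (nat_lit 5) (nat_lit 436) (nat_lit 5) (nat_lit 424) (nat_lit 5) (nat_lit 384) (nat_lit 358) (nat_lit 278)) (XT.lf (nat_lit 0) (nat_lit 8815743069) (nat_lit 912) (nat_lit 1512023923) (nat_lit 76) (nat_lit 698468614) (nat_lit 412) (nat_lit 5) (nat_lit 424) (nat_lit 5) (nat_lit 413) (nat_lit 5) (nat_lit 385) (nat_lit 358) (nat_lit 277))) (XT.nd (nat_lit 78) (nat_lit 1520) (nat_lit 0) (XT.lf (nat_lit 0) (nat_lit 804542810) (nat_lit 912) (nat_lit 2806855098) (nat_lit 76) (nat_lit 7582606488) (nat_lit 400) (nat_lit 5) (nat_lit 412) (nat_lit 5) (nat_lit 401) (nat_lit 5) (nat_lit 386) (nat_lit 358) (nat_lit 276)) (XT.nd (nat_lit 78) (nat_lit 760) (nat_lit 0) (XT.lf (nat_lit 0) (nat_lit 3920349115) (nat_lit 836) (nat_lit 4111993768) (nat_lit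 76) (nat_lit 3333364104) (nat_lit 390) (nat_lit 5) (nat_lit 401) (nat_lit 5) (nat_lit 391) (nat_lit 5) (nat_lit 387) (nat_lit 358) (nat_lit 275)) (XT.lf (nat_lit 0) (nat_lit 6126452572) (nat_lit 760) (nat_lit 1047805971) (nat_lit 836) (nat_lit 4367409534) (nat_lit 380) (nat_lit 5) (nat_lit 390) (nat_lit 5) (nat_lit 391) (nat_lit 5) (nat_lit 388) (nat_lit 358) (nat_lit 274))))) (XT.nd (nat_lit 156) (nat_lit 2128) (nat_lit 0) (XT.nd (nat_lit 78) (nat_lit 836) (nat_lit 0) (XT.lf (nat_lit 0) (nat_lit 4989326757) (nat_lit 760) (nat_lit 5599189516) (nat_lit 836) (nat_lit 1133137106) (nat_lit 370) (nat_lit 5) (nat_lit 380) (nat_lit 5) (nat_lit 381) (nat_lit 5) (nat_lit 389) (nat_lit 358) (nat_lit 273)) (XT.lf (nat_lit 0) (nat_lit 2212091492) (nat_lit 836) (nat_lit 8055764090) (nat_lit 76) (nat_lit 1638042072) (nat_lit 359) (nat_lit 5) (nat_lit 370) (nat_lit 5) (nat_lit 360) (nat_lit 5) (nat_lit 390) (nat_lit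 358) (nat_lit 272))) (XT.nd (nat_lit 78) (nat_lit 1444) (nat_lit 0) (XT.lf (nat_lit 0) (nat_lit 2695662841) (nat_lit 684) (nat_lit 3011321748) (nat_lit 760) (nat_lit 6387240818) (nat_lit 350) (nat_lit 5) (nat_lit 359) (nat_lit 5) (nat_lit 360) (nat_lit 5) (nat_lit 391) (nat_lit 358) (nat_lit 271)) (XT.nd (nat_lit 78) (nat_lit 760) (nat_lit 0) (XT.lf (nat_lit 0) (nat_lit 1541849215) (nat_lit 684) (nat_lit 7823309867) (nat_lit 760) (nat_lit 2921875219) (nat_lit 341) (nat_lit 5) (nat_lit 350) (nat_lit 5) (nat_lit 351) (nat_lit 5) (nat_lit 392) (nat_lit 358) (nat_lit 270)) (XT.lf (nat_lit 0) (nat_lit 393555924) (nat_lit 684) (nat_lit 297241333) (nat_lit 760) (nat_lit 11793709384) (nat_lit 331) (nat_lit 5) (nat_lit 340) (nat_lit 5) (nat_lit 341) (nat_lit 5) (nat_lit 393) (nat_lit 358) (nat_lit 269))))))))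
noncomputable def xc87 : XT := (XT.nd (nat_lit 1560) (nat_lit 4256) (nat_lit 0) (XT.nd (nat_lit 780) (nat_lit 4484) (nat_lit 0) (XT.nd (nat_lit 390) (nat_lit 2964) (nat_lit 0) (XT.nd (nat_lit 156) (nat_lit 1900) (nat_lit 0) (XT.nd (nat_lit 78) (nat_lit 684) (nat_lit 0) (XT.lf (nat_lit 0) (nat_lit 4459818259) (nat_lit 760) (nat_lit 782904587) (nat_lit 76) (nat_lit 7443040729) (nat_lit 331) (nat_lit 5) (nat_lit 341) (nat_lit 5) (nat_lit 332) (nat_lit 5) (nat_lit 394) (nat_lit 358) (nat_lit 268)) (XT.lf (nat_lit 0) (nat_lit 8398613776) (nat_lit 760) (nat_lit 1943187923) (nat_lit 76) (nat_lit 2550122441) (nat_lit 322) (nat_lit 5) (nat_lit 332) (nat_lit 5) (nat_lit 323) (nat_lit 5) (nat_lit 395) (nat_lit 358) (nat_lit 267))) (XT.nd (nat_lit 78) (nat_lit 1292) (nat_lit 0) (XT.lf (nat_lit 0) (nat_lit 9994549205) (nat_lit 608) (nat_lit 2533721730) (nat_lit 684) (nat_lit 574544632) (nat_lit 314) (nat_lit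 5) (nat_lit 322) (nat_lit 5) (nat_lit 323) (nat_lit 5) (nat_lit 396) (nat_lit 358) (nat_lit 266)) (XT.nd (nat_lit 78) (nat_lit 608) (nat_lit 0) (XT.lf (nat_lit 0) (nat_lit 3492643210) (nat_lit 684) (nat_lit 4301793626) (nat_lit 76) (nat_lit 5523622155) (nat_lit 305) (nat_lit 5) (nat_lit 314) (nat_lit 5) (nat_lit 306) (nat_lit 5) (nat_lit 397) (nat_lit 358) (nat_lit 265)) (XT.lf (nat_lit 0) (nat_lit 7735100494) (nat_lit 684) (nat_lit 5488167682) (nat_lit 76) (nat_lit 315194394) (nat_lit 297) (nat_lit 5) (nat_lit 306) (nat_lit 5) (nat_lit 298) (nat_lit 5) (nat_lit 398) (nat_lit 358) (nat_lit 264))))) (XT.nd (nat_lit 156) (nat_lit 1748) (nat_lit 0) (XT.nd (nat_lit 78) (nat_lit 608) (nat_lit 0) (XT.lf (nat_lit 0) (nat_lit 7067380658) (nat_lit 608) (nat_lit 5133924906) (nat_lit 684) (nat_lit 1562243212) (nat_lit 289) (nat_lit 5) (nat_lit 297) (nat_lit 5) (nat_lit 298) (nat_lit 5) (nat_lit 399) (nat_lit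 358) (nat_lit 263)) (XT.lf (nat_lit 0) (nat_lit 2837259365) (nat_lit 608) (nat_lit 7913471096) (nat_lit 76) (nat_lit 3242933669) (nat_lit 281) (nat_lit 5) (nat_lit 289) (nat_lit 5) (nat_lit 282) (nat_lit 5) (nat_lit 400) (nat_lit 358) (nat_lit 262))) (XT.nd (nat_lit 78) (nat_lit 1140) (nat_lit 0) (XT.lf (nat_lit 0) (nat_lit 5083746427) (nat_lit 608) (nat_lit 2347049510) (nat_lit 684) (nat_lit 6798015005) (nat_lit 273) (nat_lit 5) (nat_lit 281) (nat_lit 5) (nat_lit 282) (nat_lit 5) (nat_lit 401) (nat_lit 358) (nat_lit 261)) (XT.nd (nat_lit 78) (nat_lit 608) (nat_lit 0) (XT.lf (nat_lit 0) (nat_lit 4082027662) (nat_lit 532) (nat_lit 8172245104) (nat_lit 608) (nat_lit 2214896710) (nat_lit 266) (nat_lit 5) (nat_lit 273) (nat_lit 5) (nat_lit 274) (nat_lit 5) (nat_lit 402) (nat_lit 358) (nat_lit 260)) (XT.lf (nat_lit 0) (nat_lit 2545579264) (nat_lit 608) (nat_lit 11634058826) (nat_lit 76) (nat_lit 535320759)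 (nat_lit 258) (nat_lit 5) (nat_lit 266) (nat_lit 5) (nat_lit 259) (nat_lit 5) (nat_lit 403) (nat_lit 358) (nat_lit 259)))))) (XT.nd (nat_lit 390) (nat_lit 2356) (nat_lit 0) (XT.nd (nat_lit 156) (nat_lit 1064) (nat_lit 0) (XT.nd (nat_lit 78) (nat_lit 532) (nat_lit 0) (XT.lf (nat_lit 0) (nat_lit 2046295416) (nat_lit 532) (nat_lit 5483071211) (nat_lit 608) (nat_lit 7436250691) (nat_lit 251) (nat_lit 5) (nat_lit 258) (nat_lit 5) (nat_lit 259) (nat_lit 5) (nat_lit 404) (nat_lit 358) (nat_lit 258)) (XT.lf (nat_lit 0) (nat_lit 1025544870) (nat_lit 532) (nat_lit 11717832638) (nat_lit 608) (nat_lit 2478803833) (nat_lit 244) (nat_lit 5) (nat_lit 251) (nat_lit 5) (nat_lit 252) (nat_lit 5) (nat_lit 405) (nat_lit 358) (nat_lit 257))) (XT.nd (nat_lit 78) (nat_lit 988) (nat_lit 0) (XT.lf (nat_lit 0) (nat_lit 2690218343) (nat_lit 608) (nat_lit 12047470) (nat_lit 76) (nat_lit 12781889095) (nat_lit 243) (nat_lit 5)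 (nat_lit 251) (nat_lit 5) (nat_lit 244) (nat_lit 5) (nat_lit 406) (nat_lit 358) (nat_lit 256)) (XT.nd (nat_lit 78) (nat_lit 532) (nat_lit 0) (XT.lf (nat_lit 0) (nat_lit 8093247105) (nat_lit 532) (nat_lit 1058434836) (nat_lit 76) (nat_lit 6599725780) (nat_lit 237) (nat_lit 5) (nat_lit 244) (nat_lit 5) (nat_lit 238) (nat_lit 5) (nat_lit 407) (nat_lit 358) (nat_lit 255)) (XT.lf (nat_lit 0) (nat_lit 13742106780) (nat_lit 608) (nat_lit 2086304057) (nat_lit 76) (nat_lit 196592480) (nat_lit 230) (nat_lit 5) (nat_lit 238) (nat_lit 5) (nat_lit 231) (nat_lit 5) (nat_lit 408) (nat_lit 358) (nat_lit 254))))) (XT.nd (nat_lit 156) (nat_lit 1368) (nat_lit 0) (XT.nd (nat_lit 78) (nat_lit 456) (nat_lit 0) (XT.lf (nat_lit 0) (nat_lit 3339955998) (nat_lit 532) (nat_lit 3158399079) (nat_lit 76) (nat_lit 9805449163) (nat_lit 223) (nat_lit 5) (nat_lit 230) (nat_lit 5) (nat_lit 224) (nat_lit 5) (nat_lit 409) (nat_lit 358)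 (nat_lit 253)) (XT.lf (nat_lit 0) (nat_lit 9190718132) (nat_lit 532) (nat_lit 4228103841) (nat_lit 76) (nat_lit 3170040625) (nat_lit 217) (nat_lit 5) (nat_lit 224) (nat_lit 5) (nat_lit 218) (nat_lit 5) (nat_lit 410) (nat_lit 358) (nat_lit 252))) (XT.nd (nat_lit 78) (nat_lit 912) (nat_lit 0) (XT.lf (nat_lit 0) (nat_lit 11578167511) (nat_lit 456) (nat_lit 3754024210) (nat_lit 532) (nat_lit 1547977215) (nat_lit 211) (nat_lit 5) (nat_lit 217) (nat_lit 5) (nat_lit 218) (nat_lit 5) (nat_lit 411) (nat_lit 358) (nat_lit 251)) (XT.nd (nat_lit 78) (nat_lit 380) (nat_lit 0) (XT.lf (nat_lit 0) (nat_lit 4534390140) (nat_lit 532) (nat_lit 6406257696) (nat_lit 76) (nat_lit 6236676766) (nat_lit 204) (nat_lit 5) (nat_lit 211) (nat_lit 5) (nat_lit 205) (nat_lit 5) (nat_lit 412) (nat_lit 358) (nat_lit 250)) (XT.lf (nat_lit 0) (nat_lit 9975046450) (nat_lit 380) (nat_lit 905060014) (nat_lit 456) (nat_lit 6601045655)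 (nat_lit 199) (nat_lit 5) (nat_lit 204) (nat_lit 5) (nat_lit 205) (nat_lit 5) (nat_lit 413) (nat_lit 358) (nat_lit 249))))))) (XT.nd (nat_lit 780) (nat_lit 304) (nat_lit 0) (XT.nd (nat_lit 390) (nat_lit 1824) (nat_lit 0) (XT.nd (nat_lit 156) (nat_lit 1216) (nat_lit 0) (XT.nd (nat_lit 78) (nat_lit 456) (nat_lit 0) (XT.lf (nat_lit 0) (nat_lit 9164810159) (nat_lit 456) (nat_lit 8391972948) (nat_lit 532) (nat_lit 234499577) (nat_lit 193) (nat_lit 5) (nat_lit 199) (nat_lit 5) (nat_lit 200) (nat_lit 5) (nat_lit 414) (nat_lit 358) (nat_lit 248)) (XT.lf (nat_lit 0) (nat_lit 6341236381) (nat_lit 456) (nat_lit 9766107423) (nat_lit 76) (nat_lit 2000529867) (nat_lit 187) (nat_lit 5) (nat_lit 193) (nat_lit 5) (nat_lit 188) (nat_lit 5) (nat_lit 415) (nat_lit 358) (nat_lit 247))) (XT.nd (nat_lit 78) (nat_lit 836) (nat_lit 0) (XT.lf (nat_lit 0) (nat_lit 7509100869) (nat_lit 380) (nat_lit 5742530533) (nat_lit 456)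 (nat_lit 5179488528) (nat_lit 182) (nat_lit 5) (nat_lit 187) (nat_lit 5) (nat_lit 188) (nat_lit 5) (nat_lit 416) (nat_lit 358) (nat_lit 246)) (XT.nd (nat_lit 78) (nat_lit 380) (nat_lit 0) (XT.lf (nat_lit 0) (nat_lit 1704319292) (nat_lit 456) (nat_lit 12079509200) (nat_lit 76) (nat_lit 4977624671) (nat_lit 176) (nat_lit 5) (nat_lit 182) (nat_lit 5) (nat_lit 177) (nat_lit 5) (nat_lit 417) (nat_lit 358) (nat_lit 245)) (XT.lf (nat_lit 0) (nat_lit 5831091797) (nat_lit 380) (nat_lit 3021838400) (nat_lit 456) (nat_lit 10245508315) (nat_lit 171) (nat_lit 5) (nat_lit 176) (nat_lit 5) (nat_lit 177) (nat_lit 5) (nat_lit 418) (nat_lit 358) (nat_lit 244))))) (XT.nd (nat_lit 156) (nat_lit 1064) (nat_lit 0) (XT.nd (nat_lit 78) (nat_lit 456) (nat_lit 0) (XT.lf (nat_lit 0) (nat_lit 4977899025) (nat_lit 304) (nat_lit 11383010252) (nat_lit 380) (nat_lit 3081725945) (nat_lit 167) (nat_lit 5) (nat_lit 171) (nat_lit 5)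 (nat_lit 172) (nat_lit 5) (nat_lit 419) (nat_lit 358) (nat_lit 243)) (XT.lf (nat_lit 0) (nat_lit 4127499377) (nat_lit 380) (nat_lit 228742035) (nat_lit 456) (nat_lit 15438045905) (nat_lit 161) (nat_lit 5) (nat_lit 166) (nat_lit 5) (nat_lit 167) (nat_lit 5) (nat_lit 420) (nat_lit 358) (nat_lit 242))) (XT.nd (nat_lit 78) (nat_lit 760) (nat_lit 0) (XT.lf (nat_lit 0) (nat_lit 3234561080) (nat_lit 304) (nat_lit 8912387538) (nat_lit 380) (nat_lit 8005703566) (nat_lit 157) (nat_lit 5) (nat_lit 161) (nat_lit 5) (nat_lit 162) (nat_lit 5) (nat_lit 421) (nat_lit 358) (nat_lit 241)) (XT.nd (nat_lit 78) (nat_lit 380) (nat_lit 0) (XT.lf (nat_lit 0) (nat_lit 2376033867) (nat_lit 380) (nat_lit 17914351695) (nat_lit 456) (nat_lit 229002264) (nat_lit 152) (nat_lit 5) (nat_lit 157) (nat_lit 5) (nat_lit 158) (nat_lit 5) (nat_lit 422) (nat_lit 358) (nat_lit 240)) (XT.lf (nat_lit 0) (nat_lit 1460029134) (nat_lit 304)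 (nat_lit 6382444505) (nat_lit 380) (nat_lit 13050371055) (nat_lit 147) (nat_lit 5) (nat_lit 151) (nat_lit 5) (nat_lit 152) (nat_lit 5) (nat_lit 423) (nat_lit 358) (nat_lit 239)))))) (XT.nd (nat_lit 48360) (nat_lit 0) (nat_lit 34200) (XT.nd (nat_lit 48126) (nat_lit 0) (nat_lit 35568) (XT.nd (nat_lit 48048) (nat_lit 0) (nat_lit 36936) (XT.lf (nat_lit 0) (nat_lit 560396696) (nat_lit 304) (nat_lit 15735032037) (nat_lit 380) (nat_lit 4979197335) (nat_lit 143) (nat_lit 5) (nat_lit 147) (nat_lit 5) (nat_lit 148) (nat_lit 5) (nat_lit 424) (nat_lit 358) (nat_lit 238)) (XT.lf (nat_lit 0) (nat_lit 2418324834) (nat_lit 1444) (nat_lit 783605942) (nat_lit 1444) (nat_lit 783605942) (nat_lit 629) (nat_lit 3) (nat_lit 648) (nat_lit 3) (nat_lit 648) (nat_lit 5) (nat_lit 359) (nat_lit 359) (nat_lit 302))) (XT.nd (nat_lit 78) (nat_lit 1368) (nat_lit 0) (XT.lf (nat_lit 76) (nat_lit 4463596592) (nat_lit 0) (nat_lit 2303937860)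 (nat_lit 1444) (nat_lit 1285938385) (nat_lit 630) (nat_lit 5) (nat_lit 629) (nat_lit 3) (nat_lit 648) (nat_lit 5) (nat_lit 360) (nat_lit 359) (nat_lit 301)) (XT.nd (nat_lit 78) (nat_lit 0) (nat_lit 0) (XT.lf (nat_lit 0) (nat_lit 577924145) (nat_lit 1444) (nat_lit 5601890605) (nat_lit 1520) (nat_lit 1959088664) (nat_lit 611) (nat_lit 5) (nat_lit 630) (nat_lit 5) (nat_lit 631) (nat_lit 5) (nat_lit 361) (nat_lit 359) (nat_lit 300)) (XT.lf (nat_lit 76) (nat_lit 615482297) (nat_lit 0) (nat_lit 1838704051) (nat_lit 1520) (nat_lit 5773061467) (nat_lit 612) (nat_lit 5) (nat_lit 611) (nat_lit 5) (nat_lit 631) (nat_lit 5) (nat_lit 362) (nat_lit 359) (nat_lit 299))))) (XT.nd (nat_lit 156) (nat_lit 1444) (nat_lit 0) (XT.nd (nat_lit 78) (nat_lit 0) (nat_lit 0) (XT.lf (nat_lit 0) (nat_lit 4373991652) (nat_lit 1444) (nat_lit 1278559574) (nat_lit 1520) (nat_lit 2665946217) (nat_lit 612) (nat_lit 5) (nat_lit 631)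 (nat_lit 5) (nat_lit 632) (nat_lit 5) (nat_lit 363) (nat_lit 359) (nat_lit 298)) (XT.lf (nat_lit 76) (nat_lit 5262739019) (nat_lit 0) (nat_lit 1069050350) (nat_lit 1520) (nat_lit 2081087226) (nat_lit 613) (nat_lit 5) (nat_lit 612) (nat_lit 5) (nat_lit 632) (nat_lit 5) (nat_lit 364) (nat_lit 359) (nat_lit 297))) (XT.nd (nat_lit 78) (nat_lit 1520) (nat_lit 0) (XT.lf (nat_lit 76) (nat_lit 3490411454) (nat_lit 0) (nat_lit 4848785553) (nat_lit 1520) (nat_lit 171072594) (nat_lit 614) (nat_lit 5) (nat_lit 613) (nat_lit 5) (nat_lit 633) (nat_lit 5) (nat_lit 365) (nat_lit 359) (nat_lit 296)) (XT.nd (nat_lit 78) (nat_lit 0) (nat_lit 76) (XT.lf (nat_lit 76) (nat_lit 1727179671) (nat_lit 0) (nat_lit 22341184) (nat_lit 1596) (nat_lit 6861293567) (nat_lit 594) (nat_lit 5) (nat_lit 593) (nat_lit 5) (nat_lit 614) (nat_lit 5) (nat_lit 366) (nat_lit 359) (nat_lit 295)) (XT.lf (nat_lit 0) (nat_lit 3730507214) (nat_lit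 1520) (nat_lit 42244328) (nat_lit 1596) (nat_lit 4941499443) (nat_lit 594) (nat_lit 5) (nat_lit 614) (nat_lit 5) (nat_lit 615) (nat_lit 5) (nat_lit 367) (nat_lit 359) (nat_lit 294))))))))
noncomputable def xc88 : XT := (XT.nd (nat_lit 1482) (nat_lit 11932) (nat_lit 0) (XT.nd (nat_lit 702) (nat_lit 10108) (nat_lit 0) (XT.nd (nat_lit 312) (nat_lit 3116) (nat_lit 0) (XT.nd (nat_lit 156) (nat_lit 1520) (nat_lit 0) (XT.nd (nat_lit 78) (nat_lit 0) (nat_lit 0) (XT.lf (nat_lit 0) (nat_lit 5765835004) (nat_lit 1520) (nat_lit 1771916116) (nat_lit 1596) (nat_lit 1283141288) (nat_lit 595) (nat_lit 5) (nat_lit 615) (nat_lit 5) (nat_lit 616) (nat_lit 5) (nat_lit 368) (nat_lit 359) (nat_lit 293)) (XT.lf (nat_lit 76) (nat_lit 5428889831) (nat_lit 0) (nat_lit 2436205978) (nat_lit 1596) (nat_lit 1065579801) (nat_lit 596) (nat_lit 5) (nat_lit 595) (nat_lit 5) (nat_lit 616) (nat_lit 5) (nat_lit 369) (nat_lit 359) (nat_lit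 292))) (XT.nd (nat_lit 78) (nat_lit 0) (nat_lit 0) (XT.lf (nat_lit 0) (nat_lit 969497453) (nat_lit 1596) (nat_lit 5232458609) (nat_lit 1672) (nat_lit 2841692220) (nat_lit 575) (nat_lit 5) (nat_lit 596) (nat_lit 5) (nat_lit 597) (nat_lit 5) (nat_lit 370) (nat_lit 359) (nat_lit 291)) (XT.lf (nat_lit 76) (nat_lit 2196649250) (nat_lit 0) (nat_lit 853693060) (nat_lit 1672) (nat_lit 6109543111) (nat_lit 576) (nat_lit 5) (nat_lit 575) (nat_lit 5) (nat_lit 597) (nat_lit 5) (nat_lit 371) (nat_lit 359) (nat_lit 290)))) (XT.nd (nat_lit 156) (nat_lit 3192) (nat_lit 0) (XT.nd (nat_lit 78) (nat_lit 0) (nat_lit 76) (XT.lf (nat_lit 76) (nat_lit 577416848) (nat_lit 0) (nat_lit 4631973259) (nat_lit 1672) (nat_lit 4069904012) (nat_lit 577) (nat_lit 5) (nat_lit 576) (nat_lit 5) (nat_lit 598) (nat_lit 5) (nat_lit 372) (nat_lit 359) (nat_lit 289)) (XT.lf (nat_lit 0) (nat_lit 7439719366) (nat_lit 1596) (nat_lit 1015078043)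 (nat_lit 1672) (nat_lit 947357470) (nat_lit 577) (nat_lit 5) (nat_lit 598) (nat_lit 5) (nat_lit 599) (nat_lit 5) (nat_lit 373) (nat_lit 359) (nat_lit 288))) (XT.nd (nat_lit 78) (nat_lit 1596) (nat_lit 0) (XT.lf (nat_lit 0) (nat_lit 230637211) (nat_lit 1672) (nat_lit 2607895733) (nat_lit 1748) (nat_lit 6689639244) (nat_lit 555) (nat_lit 5) (nat_lit 577) (nat_lit 5) (nat_lit 578) (nat_lit 5) (nat_lit 374) (nat_lit 359) (nat_lit 287)) (XT.nd (nat_lit 78) (nat_lit 1672) (nat_lit 0) (XT.lf (nat_lit 0) (nat_lit 2474904995) (nat_lit 1672) (nat_lit 4209439959) (nat_lit 76) (nat_lit 2973124336) (nat_lit 556) (nat_lit 5) (nat_lit 578) (nat_lit 5) (nat_lit 557) (nat_lit 5) (nat_lit 375) (nat_lit 359) (nat_lit 286)) (XT.lf (nat_lit 0) (nat_lit 3983481506) (nat_lit 1672) (nat_lit 816841778) (nat_lit 1748) (nat_lit 4990045570) (nat_lit 534) (nat_lit 5) (nat_lit 556) (nat_lit 5) (nat_lit 557) (nat_lit 5) (nat_lit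 376) (nat_lit 359) (nat_lit 285)))))) (XT.nd (nat_lit 390) (nat_lit 4408) (nat_lit 0) (XT.nd (nat_lit 156) (nat_lit 2128) (nat_lit 0) (XT.nd (nat_lit 78) (nat_lit 1824) (nat_lit 0) (XT.lf (nat_lit 0) (nat_lit 2510889234) (nat_lit 1748) (nat_lit 4715964510) (nat_lit 1824) (nat_lit 2699774670) (nat_lit 511) (nat_lit 5) (nat_lit 534) (nat_lit 5) (nat_lit 535) (nat_lit 5) (nat_lit 377) (nat_lit 359) (nat_lit 284)) (XT.lf (nat_lit 0) (nat_lit 1049520347) (nat_lit 1824) (nat_lit 8690780170) (nat_lit 1900) (nat_lit 326392835) (nat_lit 487) (nat_lit 5) (nat_lit 511) (nat_lit 5) (nat_lit 512) (nat_lit 5) (nat_lit 378) (nat_lit 359) (nat_lit 283))) (XT.nd (nat_lit 78) (nat_lit 2052) (nat_lit 0) (XT.lf (nat_lit 0) (nat_lit 2126882707) (nat_lit 1900) (nat_lit 426614802) (nat_lit 76) (nat_lit 7656458222) (nat_lit 486) (nat_lit 5) (nat_lit 511) (nat_lit 5) (nat_lit 487) (nat_lit 5) (nat_lit 379) (nat_lit 359)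 (nat_lit 282)) (XT.nd (nat_lit 78) (nat_lit 912) (nat_lit 0) (XT.lf (nat_lit 0) (nat_lit 4685026176) (nat_lit 1216) (nat_lit 1891371209) (nat_lit 76) (nat_lit 3780361366) (nat_lit 471) (nat_lit 5) (nat_lit 487) (nat_lit 5) (nat_lit 472) (nat_lit 5) (nat_lit 380) (nat_lit 359) (nat_lit 281)) (XT.lf (nat_lit 0) (nat_lit 7158551731) (nat_lit 912) (nat_lit 184566935) (nat_lit 988) (nat_lit 3164383099) (nat_lit 459) (nat_lit 5) (nat_lit 471) (nat_lit 5) (nat_lit 472) (nat_lit 5) (nat_lit 381) (nat_lit 359) (nat_lit 280))))) (XT.nd (nat_lit 156) (nat_lit 2584) (nat_lit 0) (XT.nd (nat_lit 78) (nat_lit 912) (nat_lit 0) (XT.lf (nat_lit 0) (nat_lit 5837754900) (nat_lit 912) (nat_lit 4293309229) (nat_lit 988) (nat_lit 530700739) (nat_lit 447) (nat_lit 5) (nat_lit 459) (nat_lit 5) (nat_lit 460) (nat_lit 5) (nat_lit 382) (nat_lit 359) (nat_lit 279)) (XT.lf (nat_lit 0) (nat_lit 2180664177) (nat_lit 912) (nat_lit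 6306354682) (nat_lit 76) (nat_lit 2332807880) (nat_lit 435) (nat_lit 5) (nat_lit 447) (nat_lit 5) (nat_lit 436) (nat_lit 5) (nat_lit 383) (nat_lit 359) (nat_lit 278))) (XT.nd (nat_lit 78) (nat_lit 1672) (nat_lit 0) (XT.lf (nat_lit 0) (nat_lit 3183829712) (nat_lit 912) (nat_lit 1824074387) (nat_lit 988) (nat_lit 5973821323) (nat_lit 423) (nat_lit 5) (nat_lit 435) (nat_lit 5) (nat_lit 436) (nat_lit 5) (nat_lit 384) (nat_lit 359) (nat_lit 277)) (XT.nd (nat_lit 78) (nat_lit 836) (nat_lit 0) (XT.lf (nat_lit 0) (nat_lit 1847936889) (nat_lit 836) (nat_lit 6120090154) (nat_lit 912) (nat_lit 3179492707) (nat_lit 412) (nat_lit 5) (nat_lit 423) (nat_lit 5) (nat_lit 424) (nat_lit 5) (nat_lit 385) (nat_lit 359) (nat_lit 276)) (XT.lf (nat_lit 0) (nat_lit 521383240) (nat_lit 836) (nat_lit 10530303179) (nat_lit 912) (nat_lit 265906834) (nat_lit 401) (nat_lit 5) (nat_lit 412) (nat_lit 5) (nat_lit 413) (nat_lit 5)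 (nat_lit 386) (nat_lit 359) (nat_lit 275))))))) (XT.nd (nat_lit 780) (nat_lit 5928) (nat_lit 0) (XT.nd (nat_lit 390) (nat_lit 2812) (nat_lit 0) (XT.nd (nat_lit 156) (nat_lit 2356) (nat_lit 0) (XT.nd (nat_lit 78) (nat_lit 760) (nat_lit 0) (XT.lf (nat_lit 0) (nat_lit 2765417894) (nat_lit 912) (nat_lit 827007265) (nat_lit 76) (nat_lit 7898664593) (nat_lit 400) (nat_lit 5) (nat_lit 412) (nat_lit 5) (nat_lit 401) (nat_lit 5) (nat_lit 387) (nat_lit 359) (nat_lit 274)) (XT.lf (nat_lit 0) (nat_lit 5932362150) (nat_lit 836) (nat_lit 2167806502) (nat_lit 76) (nat_lit 3568621493) (nat_lit 390) (nat_lit 5) (nat_lit 401) (nat_lit 5) (nat_lit 391) (nat_lit 5) (nat_lit 388) (nat_lit 359) (nat_lit 273))) (XT.nd (nat_lit 78) (nat_lit 1596) (nat_lit 0) (XT.lf (nat_lit 0) (nat_lit 8344249733) (nat_lit 760) (nat_lit 897668454) (nat_lit 836) (nat_lit 2608951293) (nat_lit 380) (nat_lit 5) (nat_lit 390) (nat_lit 5) (nat_lit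 391) (nat_lit 5) (nat_lit 389) (nat_lit 359) (nat_lit 272)) (XT.nd (nat_lit 78) (nat_lit 760) (nat_lit 0) (XT.lf (nat_lit 0) (nat_lit 673024567) (nat_lit 836) (nat_lit 4866175250) (nat_lit 76) (nat_lit 6497757745) (nat_lit 369) (nat_lit 5) (nat_lit 380) (nat_lit 5) (nat_lit 370) (nat_lit 5) (nat_lit 390) (nat_lit 359) (nat_lit 271)) (XT.lf (nat_lit 0) (nat_lit 4064886199) (nat_lit 836) (nat_lit 6236199195) (nat_lit 76) (nat_lit 1926260551) (nat_lit 359) (nat_lit 5) (nat_lit 370) (nat_lit 5) (nat_lit 360) (nat_lit 5) (nat_lit 391) (nat_lit 359) (nat_lit 270))))) (XT.nd (nat_lit 156) (nat_lit 1444) (nat_lit 0) (XT.nd (nat_lit 78) (nat_lit 684) (nat_lit 0) (XT.lf (nat_lit 0) (nat_lit 4804329409) (nat_lit 684) (nat_lit 2821430482) (nat_lit 760) (nat_lit 4796340963) (nat_lit 350) (nat_lit 5) (nat_lit 359) (nat_lit 5) (nat_lit 360) (nat_lit 5) (nat_lit 392) (nat_lit 359) (nat_lit 269)) (XT.lf (nat_lit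 0) (nat_lit 3615597127) (nat_lit 684) (nat_lit 7742112795) (nat_lit 760) (nat_lit 1263703487) (nat_lit 341) (nat_lit 5) (nat_lit 350) (nat_lit 5) (nat_lit 351) (nat_lit 5) (nat_lit 393) (nat_lit 359) (nat_lit 268))) (XT.nd (nat_lit 78) (nat_lit 684) (nat_lit 0) (XT.lf (nat_lit 0) (nat_lit 2397529462) (nat_lit 760) (nat_lit 10403001280) (nat_lit 76) (nat_lit 24790933) (nat_lit 331) (nat_lit 5) (nat_lit 341) (nat_lit 5) (nat_lit 332) (nat_lit 5) (nat_lit 394) (nat_lit 359) (nat_lit 267)) (XT.nd (nat_lit 78) (nat_lit 0) (nat_lit 0) (XT.lf (nat_lit 0) (nat_lit 1198344363) (nat_lit 684) (nat_lit 5041880027) (nat_lit 760) (nat_lit 6793179861) (nat_lit 322) (nat_lit 5) (nat_lit 331) (nat_lit 5) (nat_lit 332) (nat_lit 5) (nat_lit 395) (nat_lit 359) (nat_lit 266)) (XT.lf (nat_lit 0) (nat_lit 10256666469) (nat_lit 760) (nat_lit 14948968) (nat_lit 76) (nat_lit 2974944542) (nat_lit 322) (nat_lit 5) (nat_lit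 332) (nat_lit 5) (nat_lit 323) (nat_lit 5) (nat_lit 396) (nat_lit 359) (nat_lit 265)))))) (XT.nd (nat_lit 390) (nat_lit 2812) (nat_lit 0) (XT.nd (nat_lit 156) (nat_lit 1824) (nat_lit 0) (XT.nd (nat_lit 78) (nat_lit 608) (nat_lit 0) (XT.lf (nat_lit 0) (nat_lit 998394442) (nat_lit 684) (nat_lit 1222337239) (nat_lit 76) (nat_lit 11243596915) (nat_lit 313) (nat_lit 5) (nat_lit 322) (nat_lit 5) (nat_lit 314) (nat_lit 5) (nat_lit 397) (nat_lit 359) (nat_lit 264)) (XT.lf (nat_lit 0) (nat_lit 5148924342) (nat_lit 684) (nat_lit 2459141542) (nat_lit 76) (nat_lit 6078504840) (nat_lit 305) (nat_lit 5) (nat_lit 314) (nat_lit 5) (nat_lit 306) (nat_lit 5) (nat_lit 398) (nat_lit 359) (nat_lit 263))) (XT.nd (nat_lit 78) (nat_lit 1216) (nat_lit 0) (XT.lf (nat_lit 0) (nat_lit 9488792086) (nat_lit 684) (nat_lit 3685449462) (nat_lit 76) (nat_lit 739942128) (nat_lit 297) (nat_lit 5) (nat_lit 306) (nat_lit 5) (nat_lit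 298) (nat_lit 5) (nat_lit 399) (nat_lit 359) (nat_lit 262)) (XT.nd (nat_lit 78) (nat_lit 608) (nat_lit 0) (XT.lf (nat_lit 0) (nat_lit 9214847198) (nat_lit 608) (nat_lit 4842382734) (nat_lit 684) (nat_lit 89427604) (nat_lit 289) (nat_lit 5) (nat_lit 297) (nat_lit 5) (nat_lit 298) (nat_lit 5) (nat_lit 400) (nat_lit 359) (nat_lit 261)) (XT.lf (nat_lit 0) (nat_lit 4393891431) (nat_lit 608) (nat_lit 6200806422) (nat_lit 76) (nat_lit 3789345916) (nat_lit 281) (nat_lit 5) (nat_lit 289) (nat_lit 5) (nat_lit 282) (nat_lit 5) (nat_lit 401) (nat_lit 359) (nat_lit 260))))) (XT.nd (nat_lit 156) (nat_lit 1672) (nat_lit 0) (XT.nd (nat_lit 78) (nat_lit 532) (nat_lit 0) (XT.lf (nat_lit 0) (nat_lit 7154690077) (nat_lit 608) (nat_lit 1940140112) (nat_lit 684) (nat_lit 5532022874) (nat_lit 273) (nat_lit 5) (nat_lit 281) (nat_lit 5) (nat_lit 282) (nat_lit 5) (nat_lit 402) (nat_lit 359) (nat_lit 259)) (XT.lf (nat_lit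 0) (nat_lit 6117101278) (nat_lit 532) (nat_lit 7919362727) (nat_lit 608) (nat_lit 838489295) (nat_lit 266) (nat_lit 5) (nat_lit 273) (nat_lit 5) (nat_lit 274) (nat_lit 5) (nat_lit 403) (nat_lit 359) (nat_lit 258))) (XT.nd (nat_lit 78) (nat_lit 1064) (nat_lit 0) (XT.lf (nat_lit 0) (nat_lit 4020022720) (nat_lit 608) (nat_lit 10058266918) (nat_lit 76) (nat_lit 1050156455) (nat_lit 258) (nat_lit 5) (nat_lit 266) (nat_lit 5) (nat_lit 259) (nat_lit 5) (nat_lit 404) (nat_lit 359) (nat_lit 257)) (XT.nd (nat_lit 78) (nat_lit 532) (nat_lit 0) (XT.lf (nat_lit 0) (nat_lit 4001270136) (nat_lit 532) (nat_lit 5123627320) (nat_lit 608) (nat_lit 6262295384) (nat_lit 251) (nat_lit 5) (nat_lit 258) (nat_lit 5) (nat_lit 259) (nat_lit 5) (nat_lit 405) (nat_lit 359) (nat_lit 256)) (XT.lf (nat_lit 0) (nat_lit 2942777920) (nat_lit 532) (nat_lit 11528208885) (nat_lit 608) (nat_lit 1180953817) (nat_lit 244) (nat_lit 5) (nat_lit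 251) (nat_lit 5) (nat_lit 252) (nat_lit 5) (nat_lit 406) (nat_lit 359) (nat_lit 255))))))))
noncomputable def xc89 : XT := (XT.nd (nat_lit 49608) (nat_lit 0) (nat_lit 23408) (XT.nd (nat_lit 702) (nat_lit 3116) (nat_lit 0) (XT.nd (nat_lit 312) (nat_lit 2356) (nat_lit 0) (XT.nd (nat_lit 156) (nat_lit 532) (nat_lit 0) (XT.nd (nat_lit 78) (nat_lit 532) (nat_lit 0) (XT.lf (nat_lit 0) (nat_lit 1860992078) (nat_lit 456) (nat_lit 2236789684) (nat_lit 532) (nat_lit 11824360657) (nat_lit 237) (nat_lit 5) (nat_lit 243) (nat_lit 5) (nat_lit 244) (nat_lit 5) (nat_lit 407) (nat_lit 359) (nat_lit 254)) (XT.lf (nat_lit 0) (nat_lit 761110317) (nat_lit 532) (nat_lit 8871611343) (nat_lit 608) (nat_lit 6565294751) (nat_lit 230) (nat_lit 5) (nat_lit 237) (nat_lit 5) (nat_lit 238) (nat_lit 5) (nat_lit 408) (nat_lit 359) (nat_lit 253))) (XT.nd (nat_lit 78) (nat_lit 532) (nat_lit 0) (XT.lf (nat_lit 0) (nat_lit 15423785417)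 (nat_lit 608) (nat_lit 315674981) (nat_lit 76) (nat_lit 740904711) (nat_lit 230) (nat_lit 5) (nat_lit 238) (nat_lit 5) (nat_lit 231) (nat_lit 5) (nat_lit 409) (nat_lit 359) (nat_lit 252)) (XT.lf (nat_lit 0) (nat_lit 4692545625) (nat_lit 532) (nat_lit 1433031024) (nat_lit 76) (nat_lit 10642293900) (nat_lit 223) (nat_lit 5) (nat_lit 230) (nat_lit 5) (nat_lit 224) (nat_lit 5) (nat_lit 410) (nat_lit 359) (nat_lit 251)))) (XT.nd (nat_lit 156) (nat_lit 1444) (nat_lit 0) (XT.nd (nat_lit 78) (nat_lit 456) (nat_lit 0) (XT.lf (nat_lit 0) (nat_lit 10697634624) (nat_lit 532) (nat_lit 2543461132) (nat_lit 76) (nat_lit 3820808821) (nat_lit 217) (nat_lit 5) (nat_lit 224) (nat_lit 5) (nat_lit 218) (nat_lit 5) (nat_lit 411) (nat_lit 359) (nat_lit 250)) (XT.lf (nat_lit 0) (nat_lit 13707609155) (nat_lit 456) (nat_lit 3291453772) (nat_lit 532) (nat_lit 363372968) (nat_lit 211) (nat_lit 5) (nat_lit 217) (nat_lit 5) (nat_lit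 218) (nat_lit 5) (nat_lit 412) (nat_lit 359) (nat_lit 249))) (XT.nd (nat_lit 78) (nat_lit 912) (nat_lit 0) (XT.lf (nat_lit 0) (nat_lit 5865173832) (nat_lit 532) (nat_lit 4809311022) (nat_lit 76) (nat_lit 6994264447) (nat_lit 204) (nat_lit 5) (nat_lit 211) (nat_lit 5) (nat_lit 205) (nat_lit 5) (nat_lit 413) (nat_lit 359) (nat_lit 248)) (XT.nd (nat_lit 78) (nat_lit 532) (nat_lit 0) (XT.lf (nat_lit 0) (nat_lit 12034405669) (nat_lit 380) (nat_lit 343485163) (nat_lit 456) (nat_lit 5604268227) (nat_lit 199) (nat_lit 5) (nat_lit 204) (nat_lit 5) (nat_lit 205) (nat_lit 5) (nat_lit 414) (nat_lit 359) (nat_lit 247)) (XT.lf (nat_lit 0) (nat_lit 921606564) (nat_lit 532) (nat_lit 7117443748) (nat_lit 76) (nat_lit 10262802749) (nat_lit 192) (nat_lit 5) (nat_lit 199) (nat_lit 5) (nat_lit 193) (nat_lit 5) (nat_lit 415) (nat_lit 359) (nat_lit 246)))))) (XT.nd (nat_lit 390) (nat_lit 1216) (nat_lit 0) (XT.nd (nat_lit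 156) (nat_lit 1140) (nat_lit 0) (XT.nd (nat_lit 78) (nat_lit 380) (nat_lit 0) (XT.lf (nat_lit 0) (nat_lit 7672839291) (nat_lit 456) (nat_lit 8302638335) (nat_lit 76) (nat_lit 2652804939) (nat_lit 187) (nat_lit 5) (nat_lit 193) (nat_lit 5) (nat_lit 188) (nat_lit 5) (nat_lit 416) (nat_lit 359) (nat_lit 245)) (XT.lf (nat_lit 0) (nat_lit 9462329854) (nat_lit 380) (nat_lit 5306191680) (nat_lit 456) (nat_lit 4193145170) (nat_lit 182) (nat_lit 5) (nat_lit 187) (nat_lit 5) (nat_lit 188) (nat_lit 5) (nat_lit 417) (nat_lit 359) (nat_lit 244))) (XT.nd (nat_lit 78) (nat_lit 684) (nat_lit 0) (XT.lf (nat_lit 0) (nat_lit 2864475328) (nat_lit 456) (nat_lit 10709097969) (nat_lit 76) (nat_lit 5728542933) (nat_lit 176) (nat_lit 5) (nat_lit 182) (nat_lit 5) (nat_lit 177) (nat_lit 5) (nat_lit 418) (nat_lit 359) (nat_lit 243)) (XT.nd (nat_lit 78) (nat_lit 304) (nat_lit 0) (XT.lf (nat_lit 0) (nat_lit 7710708493) (nat_lit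 380) (nat_lit 2495602264) (nat_lit 456) (nat_lit 9443325057) (nat_lit 171) (nat_lit 5) (nat_lit 176) (nat_lit 5) (nat_lit 177) (nat_lit 5) (nat_lit 419) (nat_lit 359) (nat_lit 242)) (XT.lf (nat_lit 0) (nat_lit 6821726069) (nat_lit 304) (nat_lit 11101010222) (nat_lit 380) (nat_lit 2081757993) (nat_lit 167) (nat_lit 5) (nat_lit 171) (nat_lit 5) (nat_lit 172) (nat_lit 5) (nat_lit 420) (nat_lit 359) (nat_lit 241))))) (XT.nd (nat_lit 156) (nat_lit 456) (nat_lit 0) (XT.nd (nat_lit 78) (nat_lit 304) (nat_lit 0) (XT.lf (nat_lit 0) (nat_lit 5547053524) (nat_lit 456) (nat_lit 14437064020) (nat_lit 76) (nat_lit 382795896) (nat_lit 161) (nat_lit 5) (nat_lit 167) (nat_lit 5) (nat_lit 162) (nat_lit 5) (nat_lit 421) (nat_lit 359) (nat_lit 240)) (XT.lf (nat_lit 0) (nat_lit 5002244530) (nat_lit 304) (nat_lit 8550692083) (nat_lit 380) (nat_lit 7183463546) (nat_lit 157) (nat_lit 5) (nat_lit 161) (nat_lit 5) (nat_lit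 162) (nat_lit 5) (nat_lit 422) (nat_lit 359) (nat_lit 239))) (XT.nd (nat_lit 48204) (nat_lit 0) (nat_lit 34884) (XT.lf (nat_lit 0) (nat_lit 800001347) (nat_lit 456) (nat_lit 17012380108) (nat_lit 76) (nat_lit 3301963031) (nat_lit 151) (nat_lit 5) (nat_lit 157) (nat_lit 5) (nat_lit 152) (nat_lit 5) (nat_lit 423) (nat_lit 359) (nat_lit 238)) (XT.nd (nat_lit 78) (nat_lit 0) (nat_lit 0) (XT.lf (nat_lit 0) (nat_lit 116119340) (nat_lit 0) (nat_lit 116119340) (nat_lit 1444) (nat_lit 3836567831) (nat_lit 610) (nat_lit 5) (nat_lit 610) (nat_lit 3) (nat_lit 629) (nat_lit 3) (nat_lit 360) (nat_lit 360) (nat_lit 300)) (XT.lf (nat_lit 0) (nat_lit 2246033825) (nat_lit 1444) (nat_lit 1823729771) (nat_lit 1520) (nat_lit 4154421837) (nat_lit 610) (nat_lit 5) (nat_lit 629) (nat_lit 3) (nat_lit 630) (nat_lit 5) (nat_lit 361) (nat_lit 360) (nat_lit 299))))))) (XT.nd (nat_lit 780) (nat_lit 8740) (nat_lit 0) (XT.nd (nat_lit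 390) (nat_lit 1368) (nat_lit 0) (XT.nd (nat_lit 156) (nat_lit 1444) (nat_lit 0) (XT.nd (nat_lit 78) (nat_lit 0) (nat_lit 0) (XT.lf (nat_lit 0) (nat_lit 4046303125) (nat_lit 1444) (nat_lit 3855172408) (nat_lit 1520) (nat_lit 412574159) (nat_lit 611) (nat_lit 5) (nat_lit 630) (nat_lit 5) (nat_lit 631) (nat_lit 5) (nat_lit 362) (nat_lit 360) (nat_lit 298)) (XT.lf (nat_lit 76) (nat_lit 2517656733) (nat_lit 0) (nat_lit 3372910991) (nat_lit 1520) (nat_lit 2516242410) (nat_lit 612) (nat_lit 5) (nat_lit 611) (nat_lit 5) (nat_lit 631) (nat_lit 5) (nat_lit 363) (nat_lit 360) (nat_lit 297))) (XT.nd (nat_lit 78) (nat_lit 1520) (nat_lit 0) (XT.lf (nat_lit 76) (nat_lit 594342655) (nat_lit 0) (nat_lit 7170215806) (nat_lit 1520) (nat_lit 738306964) (nat_lit 613) (nat_lit 5) (nat_lit 612) (nat_lit 5) (nat_lit 632) (nat_lit 5) (nat_lit 364) (nat_lit 360) (nat_lit 296)) (XT.nd (nat_lit 78) (nat_lit 0) (nat_lit 76)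 (XT.lf (nat_lit 0) (nat_lit 1078431096) (nat_lit 1520) (nat_lit 1315697459) (nat_lit 1596) (nat_lit 6207535915) (nat_lit 592) (nat_lit 5) (nat_lit 612) (nat_lit 5) (nat_lit 613) (nat_lit 5) (nat_lit 365) (nat_lit 360) (nat_lit 295)) (XT.lf (nat_lit 0) (nat_lit 2931171912) (nat_lit 1520) (nat_lit 3215110832) (nat_lit 1596) (nat_lit 2557216511) (nat_lit 593) (nat_lit 5) (nat_lit 613) (nat_lit 5) (nat_lit 614) (nat_lit 5) (nat_lit 366) (nat_lit 360) (nat_lit 294))))) (XT.nd (nat_lit 156) (nat_lit 1444) (nat_lit 0) (XT.nd (nat_lit 78) (nat_lit 0) (nat_lit 76) (XT.lf (nat_lit 76) (nat_lit 3701489525) (nat_lit 0) (nat_lit 1127625985) (nat_lit 1596) (nat_lit 3979481164) (nat_lit 594) (nat_lit 5) (nat_lit 593) (nat_lit 5) (nat_lit 614) (nat_lit 5) (nat_lit 367) (nat_lit 360) (nat_lit 293)) (XT.lf (nat_lit 76) (nat_lit 1913829860) (nat_lit 0) (nat_lit 4872996228) (nat_lit 1596) (nat_lit 2129964353) (nat_lit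 595) (nat_lit 5) (nat_lit 594) (nat_lit 5) (nat_lit 615) (nat_lit 5) (nat_lit 368) (nat_lit 360) (nat_lit 292))) (XT.nd (nat_lit 78) (nat_lit 1596) (nat_lit 0) (XT.lf (nat_lit 76) (nat_lit 141068117) (nat_lit 0) (nat_lit 8651359934) (nat_lit 1596) (nat_lit 236018769) (nat_lit 596) (nat_lit 5) (nat_lit 595) (nat_lit 5) (nat_lit 616) (nat_lit 5) (nat_lit 369) (nat_lit 360) (nat_lit 291)) (XT.nd (nat_lit 78) (nat_lit 0) (nat_lit 76) (XT.lf (nat_lit 0) (nat_lit 1717432488) (nat_lit 1596) (nat_lit 1630071760) (nat_lit 1672) (nat_lit 5795222447) (nat_lit 574) (nat_lit 5) (nat_lit 595) (nat_lit 5) (nat_lit 596) (nat_lit 5) (nat_lit 370) (nat_lit 360) (nat_lit 290)) (XT.lf (nat_lit 0) (nat_lit 3725023253) (nat_lit 1596) (nat_lit 3391959381) (nat_lit 1672) (nat_lit 2143446280) (nat_lit 575) (nat_lit 5) (nat_lit 596) (nat_lit 5) (nat_lit 597) (nat_lit 5) (nat_lit 371) (nat_lit 360) (nat_lit 289)))))) (XT.nd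 (nat_lit 390) (nat_lit 7296) (nat_lit 0) (XT.nd (nat_lit 156) (nat_lit 1520) (nat_lit 0) (XT.nd (nat_lit 78) (nat_lit 0) (nat_lit 76) (XT.lf (nat_lit 76) (nat_lit 4227615088) (nat_lit 0) (nat_lit 1574025982) (nat_lit 1672) (nat_lit 3579845143) (nat_lit 576) (nat_lit 5) (nat_lit 575) (nat_lit 5) (nat_lit 597) (nat_lit 5) (nat_lit 372) (nat_lit 360) (nat_lit 288)) (XT.lf (nat_lit 76) (nat_lit 2584694996) (nat_lit 0) (nat_lit 5371836629) (nat_lit 1672) (nat_lit 1549324121) (nat_lit 577) (nat_lit 5) (nat_lit 576) (nat_lit 5) (nat_lit 598) (nat_lit 5) (nat_lit 373) (nat_lit 360) (nat_lit 287))) (XT.nd (nat_lit 78) (nat_lit 0) (nat_lit 0) (XT.lf (nat_lit 0) (nat_lit 539673352) (nat_lit 1672) (nat_lit 8684353311) (nat_lit 1748) (nat_lit 409765893) (nat_lit 555) (nat_lit 5) (nat_lit 577) (nat_lit 5) (nat_lit 578) (nat_lit 5) (nat_lit 374) (nat_lit 360) (nat_lit 286)) (XT.nd (nat_lit 78) (nat_lit 0) (nat_lit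 76) (XT.lf (nat_lit 0) (nat_lit 2704931229) (nat_lit 1672) (nat_lit 699472907) (nat_lit 1748) (nat_lit 6360265720) (nat_lit 555) (nat_lit 5) (nat_lit 577) (nat_lit 5) (nat_lit 578) (nat_lit 5) (nat_lit 375) (nat_lit 360) (nat_lit 285)) (XT.lf (nat_lit 0) (nat_lit 4954405025) (nat_lit 1672) (nat_lit 2330184492) (nat_lit 76) (nat_lit 2614498795) (nat_lit 556) (nat_lit 5) (nat_lit 578) (nat_lit 5) (nat_lit 557) (nat_lit 5) (nat_lit 376) (nat_lit 360) (nat_lit 284))))) (XT.nd (nat_lit 156) (nat_lit 3952) (nat_lit 0) (XT.nd (nat_lit 78) (nat_lit 1748) (nat_lit 0) (XT.lf (nat_lit 0) (nat_lit 6075987135) (nat_lit 1672) (nat_lit 1216352851) (nat_lit 1748) (nat_lit 2744779794) (nat_lit 534) (nat_lit 5) (nat_lit 556) (nat_lit 5) (nat_lit 557) (nat_lit 5) (nat_lit 377) (nat_lit 360) (nat_lit 283)) (XT.lf (nat_lit 0) (nat_lit 4575801048) (nat_lit 1748) (nat_lit 5158030595) (nat_lit 1824) (nat_lit 444792178)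 (nat_lit 511) (nat_lit 5) (nat_lit 534) (nat_lit 5) (nat_lit 535) (nat_lit 5) (nat_lit 378) (nat_lit 360) (nat_lit 282))) (XT.nd (nat_lit 78) (nat_lit 2052) (nat_lit 0) (XT.lf (nat_lit 0) (nat_lit 1917609717) (nat_lit 1900) (nat_lit 7251325548) (nat_lit 76) (nat_lit 1154814838) (nat_lit 486) (nat_lit 5) (nat_lit 511) (nat_lit 5) (nat_lit 487) (nat_lit 5) (nat_lit 379) (nat_lit 360) (nat_lit 281)) (XT.nd (nat_lit 78) (nat_lit 912) (nat_lit 0) (XT.lf (nat_lit 0) (nat_lit 1555924944) (nat_lit 1140) (nat_lit 2828735483) (nat_lit 1216) (nat_lit 6087714551) (nat_lit 471) (nat_lit 5) (nat_lit 486) (nat_lit 5) (nat_lit 487) (nat_lit 5) (nat_lit 380) (nat_lit 360) (nat_lit 280)) (XT.lf (nat_lit 0) (nat_lit 39183610) (nat_lit 912) (nat_lit 6918290090) (nat_lit 988) (nat_lit 3667349878) (nat_lit 459) (nat_lit 5) (nat_lit 471) (nat_lit 5) (nat_lit 472) (nat_lit 5) (nat_lit 381) (nat_lit 360) (nat_lit 279))))))))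
noncomputable def xc90 : XT := (XT.nd (nat_lit 1482) (nat_lit 9576) (nat_lit 0) (XT.nd (nat_lit 702) (nat_lit 6308) (nat_lit 0) (XT.nd (nat_lit 312) (nat_lit 3268) (nat_lit 0) (XT.nd (nat_lit 156) (nat_lit 1748) (nat_lit 0) (XT.nd (nat_lit 78) (nat_lit 988) (nat_lit 0) (XT.lf (nat_lit 0) (nat_lit 9327857160) (nat_lit 912) (nat_lit 317800957) (nat_lit 988) (nat_lit 1135423784) (nat_lit 459) (nat_lit 5) (nat_lit 471) (nat_lit 5) (nat_lit 472) (nat_lit 5) (nat_lit 382) (nat_lit 360) (nat_lit 278)) (XT.lf (nat_lit 0) (nat_lit 1507563137) (nat_lit 988) (nat_lit 2973353908) (nat_lit 76) (nat_lit 6459831433) (nat_lit 446) (nat_lit 5) (nat_lit 459) (nat_lit 5) (nat_lit 447) (nat_lit 5) (nat_lit 383) (nat_lit 360) (nat_lit 277))) (XT.nd (nat_lit 78) (nat_lit 912) (nat_lit 0) (XT.lf (nat_lit 0) (nat_lit 4245936961) (nat_lit 912) (nat_lit 4495767068) (nat_lit 76) (nat_lit 2362720455) (nat_lit 435) (nat_lit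 5) (nat_lit 447) (nat_lit 5) (nat_lit 436) (nat_lit 5) (nat_lit 384) (nat_lit 360) (nat_lit 276)) (XT.lf (nat_lit 0) (nat_lit 5246678832) (nat_lit 912) (nat_lit 1865840346) (nat_lit 988) (nat_lit 4159570447) (nat_lit 423) (nat_lit 5) (nat_lit 435) (nat_lit 5) (nat_lit 436) (nat_lit 5) (nat_lit 385) (nat_lit 360) (nat_lit 275)))) (XT.nd (nat_lit 156) (nat_lit 1520) (nat_lit 0) (XT.nd (nat_lit 78) (nat_lit 912) (nat_lit 0) (XT.lf (nat_lit 0) (nat_lit 3877162218) (nat_lit 836) (nat_lit 6240256769) (nat_lit 912) (nat_lit 1326319333) (nat_lit 412) (nat_lit 5) (nat_lit 423) (nat_lit 5) (nat_lit 424) (nat_lit 5) (nat_lit 386) (nat_lit 360) (nat_lit 274)) (XT.lf (nat_lit 0) (nat_lit 1610036929) (nat_lit 912) (nat_lit 9114382654) (nat_lit 76) (nat_lit 895130453) (nat_lit 400) (nat_lit 5) (nat_lit 412) (nat_lit 5) (nat_lit 401) (nat_lit 5) (nat_lit 387) (nat_lit 360) (nat_lit 273))) (XT.nd (nat_lit 78) (nat_lit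 760) (nat_lit 0) (XT.lf (nat_lit 0) (nat_lit 1108286261) (nat_lit 760) (nat_lit 3572851968) (nat_lit 836) (nat_lit 7118029060) (nat_lit 390) (nat_lit 5) (nat_lit 400) (nat_lit 5) (nat_lit 401) (nat_lit 5) (nat_lit 388) (nat_lit 360) (nat_lit 272)) (XT.nd (nat_lit 78) (nat_lit 760) (nat_lit 0) (XT.lf (nat_lit 0) (nat_lit 7895989120) (nat_lit 836) (nat_lit 283979278) (nat_lit 76) (nat_lit 3803172330) (nat_lit 390) (nat_lit 5) (nat_lit 401) (nat_lit 5) (nat_lit 391) (nat_lit 5) (nat_lit 389) (nat_lit 360) (nat_lit 271)) (XT.lf (nat_lit 0) (nat_lit 10511820683) (nat_lit 760) (nat_lit 753449771) (nat_lit 836) (nat_lit 906203217) (nat_lit 380) (nat_lit 5) (nat_lit 390) (nat_lit 5) (nat_lit 391) (nat_lit 5) (nat_lit 390) (nat_lit 360) (nat_lit 270)))))) (XT.nd (nat_lit 390) (nat_lit 2584) (nat_lit 0) (XT.nd (nat_lit 156) (nat_lit 2128) (nat_lit 0) (XT.nd (nat_lit 78) (nat_lit 760) (nat_lit 0) (XT.lf (nat_lit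 0) (nat_lit 2413310178) (nat_lit 836) (nat_lit 3069900747) (nat_lit 76) (nat_lit 6880453467) (nat_lit 369) (nat_lit 5) (nat_lit 380) (nat_lit 5) (nat_lit 370) (nat_lit 5) (nat_lit 391) (nat_lit 360) (nat_lit 269)) (XT.lf (nat_lit 0) (nat_lit 5870716244) (nat_lit 836) (nat_lit 4480370837) (nat_lit 76) (nat_lit 2209401573) (nat_lit 359) (nat_lit 5) (nat_lit 370) (nat_lit 5) (nat_lit 360) (nat_lit 5) (nat_lit 392) (nat_lit 360) (nat_lit 268))) (XT.nd (nat_lit 78) (nat_lit 1444) (nat_lit 0) (XT.lf (nat_lit 0) (nat_lit 6859852149) (nat_lit 684) (nat_lit 2641928879) (nat_lit 760) (nat_lit 3260037885) (nat_lit 350) (nat_lit 5) (nat_lit 359) (nat_lit 5) (nat_lit 360) (nat_lit 5) (nat_lit 393) (nat_lit 360) (nat_lit 267)) (XT.nd (nat_lit 78) (nat_lit 684) (nat_lit 0) (XT.lf (nat_lit 0) (nat_lit 339484162) (nat_lit 760) (nat_lit 7334851275) (nat_lit 76) (nat_lit 5293408836) (nat_lit 340) (nat_lit 5) (nat_lit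 350) (nat_lit 5) (nat_lit 341) (nat_lit 5) (nat_lit 394) (nat_lit 360) (nat_lit 266)) (XT.lf (nat_lit 0) (nat_lit 4060553537) (nat_lit 760) (nat_lit 8784004341) (nat_lit 76) (nat_lit 333701483) (nat_lit 331) (nat_lit 5) (nat_lit 341) (nat_lit 5) (nat_lit 332) (nat_lit 5) (nat_lit 395) (nat_lit 360) (nat_lit 265))))) (XT.nd (nat_lit 156) (nat_lit 1292) (nat_lit 0) (XT.nd (nat_lit 78) (nat_lit 608) (nat_lit 0) (XT.lf (nat_lit 0) (nat_lit 3134052080) (nat_lit 684) (nat_lit 4850469053) (nat_lit 760) (nat_lit 5408743446) (nat_lit 322) (nat_lit 5) (nat_lit 331) (nat_lit 5) (nat_lit 332) (nat_lit 5) (nat_lit 396) (nat_lit 360) (nat_lit 264)) (XT.lf (nat_lit 0) (nat_lit 1881781850) (nat_lit 608) (nat_lit 10208700287) (nat_lit 684) (nat_lit 1522952329) (nat_lit 314) (nat_lit 5) (nat_lit 322) (nat_lit 5) (nat_lit 323) (nat_lit 5) (nat_lit 397) (nat_lit 360) (nat_lit 263))) (XT.nd (nat_lit 78) (nat_lit 608)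 (nat_lit 0) (XT.lf (nat_lit 0) (nat_lit 610947911) (nat_lit 608) (nat_lit 1912942101) (nat_lit 684) (nat_lit 11314457568) (nat_lit 305) (nat_lit 5) (nat_lit 313) (nat_lit 5) (nat_lit 314) (nat_lit 5) (nat_lit 398) (nat_lit 360) (nat_lit 262)) (XT.nd (nat_lit 78) (nat_lit 608) (nat_lit 0) (XT.lf (nat_lit 0) (nat_lit 6765831356) (nat_lit 684) (nat_lit 674393880) (nat_lit 76) (nat_lit 6627693824) (nat_lit 305) (nat_lit 5) (nat_lit 314) (nat_lit 5) (nat_lit 306) (nat_lit 5) (nat_lit 399) (nat_lit 360) (nat_lit 261)) (XT.lf (nat_lit 0) (nat_lit 11207746146) (nat_lit 684) (nat_lit 1941584394) (nat_lit 76) (nat_lit 1153592841) (nat_lit 297) (nat_lit 5) (nat_lit 306) (nat_lit 5) (nat_lit 298) (nat_lit 5) (nat_lit 400) (nat_lit 360) (nat_lit 260))))))) (XT.nd (nat_lit 780) (nat_lit 3952) (nat_lit 0) (XT.nd (nat_lit 390) (nat_lit 2660) (nat_lit 0) (XT.nd (nat_lit 156) (nat_lit 1748) (nat_lit 0) (XT.nd (nat_lit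 78) (nat_lit 532) (nat_lit 0) (XT.lf (nat_lit 0) (nat_lit 1322757702) (nat_lit 684) (nat_lit 3236037156) (nat_lit 76) (nat_lit 9984001163) (nat_lit 288) (nat_lit 5) (nat_lit 297) (nat_lit 5) (nat_lit 289) (nat_lit 5) (nat_lit 401) (nat_lit 360) (nat_lit 259)) (XT.lf (nat_lit 0) (nat_lit 5912751519) (nat_lit 608) (nat_lit 4548703735) (nat_lit 76) (nat_lit 4326368961) (nat_lit 281) (nat_lit 5) (nat_lit 289) (nat_lit 5) (nat_lit 282) (nat_lit 5) (nat_lit 402) (nat_lit 360) (nat_lit 258))) (XT.nd (nat_lit 78) (nat_lit 1140) (nat_lit 0) (XT.lf (nat_lit 0) (nat_lit 9177636234) (nat_lit 608) (nat_lit 1548423603) (nat_lit 684) (nat_lit 4312431123) (nat_lit 273) (nat_lit 5) (nat_lit 281) (nat_lit 5) (nat_lit 282) (nat_lit 5) (nat_lit 403) (nat_lit 360) (nat_lit 257)) (XT.nd (nat_lit 78) (nat_lit 532) (nat_lit 0) (XT.lf (nat_lit 0) (nat_lit 489874428) (nat_lit 608) (nat_lit 7194322226) (nat_lit 76) (nat_lit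 7610273560) (nat_lit 265) (nat_lit 5) (nat_lit 273) (nat_lit 5) (nat_lit 266) (nat_lit 5) (nat_lit 404) (nat_lit 360) (nat_lit 256)) (XT.lf (nat_lit 0) (nat_lit 5458444194) (nat_lit 608) (nat_lit 8545693432) (nat_lit 76) (nat_lit 1551805435) (nat_lit 258) (nat_lit 5) (nat_lit 266) (nat_lit 5) (nat_lit 259) (nat_lit 5) (nat_lit 405) (nat_lit 360) (nat_lit 255))))) (XT.nd (nat_lit 156) (nat_lit 1520) (nat_lit 0) (XT.nd (nat_lit 78) (nat_lit 608) (nat_lit 0) (XT.lf (nat_lit 0) (nat_lit 5906194524) (nat_lit 532) (nat_lit 4783476185) (nat_lit 608) (nat_lit 5133317391) (nat_lit 251) (nat_lit 5) (nat_lit 258) (nat_lit 5) (nat_lit 259) (nat_lit 5) (nat_lit 406) (nat_lit 360) (nat_lit 254)) (XT.lf (nat_lit 0) (nat_lit 76050325) (nat_lit 608) (nat_lit 11287400481) (nat_lit 76) (nat_lit 4732676393) (nat_lit 243) (nat_lit 5) (nat_lit 251) (nat_lit 5) (nat_lit 244) (nat_lit 5) (nat_lit 407) (nat_lit 360) (nat_lit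 253))) (XT.nd (nat_lit 78) (nat_lit 1064) (nat_lit 0) (XT.lf (nat_lit 0) (nat_lit 3682837375) (nat_lit 456) (nat_lit 1788644647) (nat_lit 532) (nat_lit 10903309334) (nat_lit 237) (nat_lit 5) (nat_lit 243) (nat_lit 5) (nat_lit 244) (nat_lit 5) (nat_lit 408) (nat_lit 360) (nat_lit 252)) (XT.nd (nat_lit 78) (nat_lit 532) (nat_lit 0) (XT.lf (nat_lit 0) (nat_lit 2542626086) (nat_lit 532) (nat_lit 8608080361) (nat_lit 608) (nat_lit 5508670392) (nat_lit 230) (nat_lit 5) (nat_lit 237) (nat_lit 5) (nat_lit 238) (nat_lit 5) (nat_lit 409) (nat_lit 360) (nat_lit 251)) (XT.lf (nat_lit 0) (nat_lit 139756127) (nat_lit 532) (nat_lit 15530098279) (nat_lit 76) (nat_lit 1280787767) (nat_lit 223) (nat_lit 5) (nat_lit 230) (nat_lit 5) (nat_lit 224) (nat_lit 5) (nat_lit 410) (nat_lit 360) (nat_lit 250)))))) (XT.nd (nat_lit 390) (nat_lit 2128) (nat_lit 0) (XT.nd (nat_lit 156) (nat_lit 1368) (nat_lit 0) (XT.nd (nat_lit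 78) (nat_lit 0) (nat_lit 0) (XT.lf (nat_lit 0) (nat_lit 242800103) (nat_lit 456) (nat_lit 5772596893) (nat_lit 532) (nat_lit 11231868169) (nat_lit 217) (nat_lit 5) (nat_lit 223) (nat_lit 5) (nat_lit 224) (nat_lit 5) (nat_lit 411) (nat_lit 360) (nat_lit 249)) (XT.lf (nat_lit 0) (nat_lit 12179082984) (nat_lit 532) (nat_lit 912265840) (nat_lit 76) (nat_lit 4459202505) (nat_lit 217) (nat_lit 5) (nat_lit 224) (nat_lit 5) (nat_lit 218) (nat_lit 5) (nat_lit 412) (nat_lit 360) (nat_lit 248))) (XT.nd (nat_lit 78) (nat_lit 836) (nat_lit 0) (XT.lf (nat_lit 0) (nat_lit 775792593) (nat_lit 532) (nat_lit 2067025976) (nat_lit 76) (nat_lit 15017635841) (nat_lit 210) (nat_lit 5) (nat_lit 217) (nat_lit 5) (nat_lit 211) (nat_lit 5) (nat_lit 413) (nat_lit 360) (nat_lit 247)) (XT.nd (nat_lit 78) (nat_lit 380) (nat_lit 0) (XT.lf (nat_lit 0) (nat_lit 7167297383) (nat_lit 532) (nat_lit 3267159581) (nat_lit 76) (nat_lit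 7741831450) (nat_lit 204) (nat_lit 5) (nat_lit 211) (nat_lit 5) (nat_lit 205) (nat_lit 5) (nat_lit 414) (nat_lit 360) (nat_lit 246)) (XT.lf (nat_lit 0) (nat_lit 13854672604) (nat_lit 456) (nat_lit 4446338719) (nat_lit 76) (nat_lit 198503606) (nat_lit 199) (nat_lit 5) (nat_lit 205) (nat_lit 5) (nat_lit 200) (nat_lit 5) (nat_lit 415) (nat_lit 360) (nat_lit 245))))) (XT.nd (nat_lit 156) (nat_lit 1216) (nat_lit 0) (XT.nd (nat_lit 78) (nat_lit 380) (nat_lit 0) (XT.lf (nat_lit 0) (nat_lit 2042640906) (nat_lit 532) (nat_lit 5666102559) (nat_lit 76) (nat_lit 11120297466) (nat_lit 192) (nat_lit 5) (nat_lit 199) (nat_lit 5) (nat_lit 193) (nat_lit 5) (nat_lit 416) (nat_lit 360) (nat_lit 244)) (XT.lf (nat_lit 0) (nat_lit 8978871221) (nat_lit 456) (nat_lit 6896092722) (nat_lit 76) (nat_lit 3290650164) (nat_lit 187) (nat_lit 5) (nat_lit 193) (nat_lit 5) (nat_lit 188) (nat_lit 5) (nat_lit 417) (nat_lit 360) (nat_lit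 243))) (XT.nd (nat_lit 78) (nat_lit 836) (nat_lit 0) (XT.lf (nat_lit 0) (nat_lit 11374963968) (nat_lit 380) (nat_lit 4891699639) (nat_lit 456) (nat_lit 3242751369) (nat_lit 182) (nat_lit 5) (nat_lit 187) (nat_lit 5) (nat_lit 188) (nat_lit 5) (nat_lit 418) (nat_lit 360) (nat_lit 242)) (XT.nd (nat_lit 78) (nat_lit 380) (nat_lit 0) (XT.lf (nat_lit 0) (nat_lit 3995773389) (nat_lit 456) (nat_lit 9397044010) (nat_lit 76) (nat_lit 6467455042) (nat_lit 176) (nat_lit 5) (nat_lit 182) (nat_lit 5) (nat_lit 177) (nat_lit 5) (nat_lit 419) (nat_lit 360) (nat_lit 241)) (XT.lf (nat_lit 0) (nat_lit 9548857858) (nat_lit 380) (nat_lit 1988991127) (nat_lit 456) (nat_lit 8680768924) (nat_lit 171) (nat_lit 5) (nat_lit 176) (nat_lit 5) (nat_lit 177) (nat_lit 5) (nat_lit 420) (nat_lit 360) (nat_lit 240))))))))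
noncomputable def xc91 : XT := (XT.nd (nat_lit 49764) (nat_lit 0) (nat_lit 12540) (XT.nd (nat_lit 48984) (nat_lit 0) (nat_lit 30172) (XT.nd (nat_lit 48594) (nat_lit 0) (nat_lit 32984) (XT.nd (nat_lit 156) (nat_lit 304) (nat_lit 0) (XT.nd (nat_lit 78) (nat_lit 456) (nat_lit 0) (XT.lf (nat_lit 0) (nat_lit 8623597263) (nat_lit 304) (nat_lit 10846341086) (nat_lit 380) (nat_lit 1114500364) (nat_lit 167) (nat_lit 5) (nat_lit 171) (nat_lit 5) (nat_lit 172) (nat_lit 5) (nat_lit 421) (nat_lit 360) (nat_lit 239)) (XT.lf (nat_lit 0) (nat_lit 6714176382) (nat_lit 456) (nat_lit 13269461585) (nat_lit 76) (nat_lit 974268651) (nat_lit 161) (nat_lit 5) (nat_lit 167) (nat_lit 5) (nat_lit 162) (nat_lit 5) (nat_lit 422) (nat_lit 360) (nat_lit 238))) (XT.nd (nat_lit 48282) (nat_lit 0) (nat_lit 34428) (XT.lf (nat_lit 0) (nat_lit 6727056533) (nat_lit 304) (nat_lit 8214256789) (nat_lit 380) (nat_lit 6397543070) (nat_lit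 157) (nat_lit 5) (nat_lit 161) (nat_lit 5) (nat_lit 162) (nat_lit 5) (nat_lit 423) (nat_lit 360) (nat_lit 237)) (XT.nd (nat_lit 78) (nat_lit 0) (nat_lit 0) (XT.lf (nat_lit 0) (nat_lit 984833856) (nat_lit 0) (nat_lit 984833856) (nat_lit 1444) (nat_lit 2186593757) (nat_lit 610) (nat_lit 5) (nat_lit 610) (nat_lit 3) (nat_lit 629) (nat_lit 3) (nat_lit 361) (nat_lit 361) (nat_lit 298)) (XT.lf (nat_lit 0) (nat_lit 5662626915) (nat_lit 1444) (nat_lit 120271127) (nat_lit 1520) (nat_lit 2621028713) (nat_lit 610) (nat_lit 5) (nat_lit 629) (nat_lit 3) (nat_lit 630) (nat_lit 5) (nat_lit 362) (nat_lit 361) (nat_lit 297))))) (XT.nd (nat_lit 156) (nat_lit 0) (nat_lit 76) (XT.nd (nat_lit 78) (nat_lit 1444) (nat_lit 0) (XT.lf (nat_lit 76) (nat_lit 6325141559) (nat_lit 0) (nat_lit 1102647146) (nat_lit 1520) (nat_lit 1070480548) (nat_lit 611) (nat_lit 5) (nat_lit 610) (nat_lit 5) (nat_lit 630) (nat_lit 5) (nat_lit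 363) (nat_lit 361) (nat_lit 296)) (XT.lf (nat_lit 0) (nat_lit 632972687) (nat_lit 1520) (nat_lit 4231020591) (nat_lit 1596) (nat_lit 3731543477) (nat_lit 591) (nat_lit 5) (nat_lit 611) (nat_lit 5) (nat_lit 612) (nat_lit 5) (nat_lit 364) (nat_lit 361) (nat_lit 295))) (XT.nd (nat_lit 78) (nat_lit 0) (nat_lit 0) (XT.lf (nat_lit 0) (nat_lit 2350331221) (nat_lit 1520) (nat_lit 6281591463) (nat_lit 1596) (nat_lit 64111174) (nat_lit 592) (nat_lit 5) (nat_lit 612) (nat_lit 5) (nat_lit 613) (nat_lit 5) (nat_lit 365) (nat_lit 361) (nat_lit 294)) (XT.nd (nat_lit 78) (nat_lit 0) (nat_lit 76) (XT.lf (nat_lit 76) (nat_lit 455907630) (nat_lit 0) (nat_lit 3668335361) (nat_lit 1596) (nat_lit 4675202234) (nat_lit 593) (nat_lit 5) (nat_lit 592) (nat_lit 5) (nat_lit 613) (nat_lit 5) (nat_lit 366) (nat_lit 361) (nat_lit 293)) (XT.lf (nat_lit 0) (nat_lit 5945929322) (nat_lit 1520) (nat_lit 1469544154) (nat_lit 1596) (nat_lit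 1490594312) (nat_lit 593) (nat_lit 5) (nat_lit 613) (nat_lit 5) (nat_lit 614) (nat_lit 5) (nat_lit 367) (nat_lit 361) (nat_lit 292)))))) (XT.nd (nat_lit 390) (nat_lit 1444) (nat_lit 0) (XT.nd (nat_lit 156) (nat_lit 0) (nat_lit 0) (XT.nd (nat_lit 78) (nat_lit 1520) (nat_lit 0) (XT.lf (nat_lit 76) (nat_lit 5624669628) (nat_lit 0) (nat_lit 2202659936) (nat_lit 1596) (nat_lit 1188458199) (nat_lit 594) (nat_lit 5) (nat_lit 593) (nat_lit 5) (nat_lit 614) (nat_lit 5) (nat_lit 368) (nat_lit 361) (nat_lit 291)) (XT.lf (nat_lit 0) (nat_lit 628944103) (nat_lit 1596) (nat_lit 5316146974) (nat_lit 1672) (nat_lit 3183607268) (nat_lit 573) (nat_lit 5) (nat_lit 594) (nat_lit 5) (nat_lit 595) (nat_lit 5) (nat_lit 369) (nat_lit 361) (nat_lit 290))) (XT.nd (nat_lit 78) (nat_lit 0) (nat_lit 76) (XT.lf (nat_lit 76) (nat_lit 2001620377) (nat_lit 0) (nat_lit 480603693) (nat_lit 1672) (nat_lit 6762665020) (nat_lit 574)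 (nat_lit 5) (nat_lit 573) (nat_lit 5) (nat_lit 595) (nat_lit 5) (nat_lit 370) (nat_lit 361) (nat_lit 289)) (XT.nd (nat_lit 78) (nat_lit 0) (nat_lit 76) (XT.lf (nat_lit 76) (nat_lit 179962430) (nat_lit 0) (nat_lit 4229981578) (nat_lit 1672) (nat_lit 4954244717) (nat_lit 575) (nat_lit 5) (nat_lit 574) (nat_lit 5) (nat_lit 596) (nat_lit 5) (nat_lit 371) (nat_lit 361) (nat_lit 288)) (XT.lf (nat_lit 0) (nat_lit 6406705968) (nat_lit 1596) (nat_lit 1610908297) (nat_lit 1672) (nat_lit 1469228877) (nat_lit 575) (nat_lit 5) (nat_lit 596) (nat_lit 5) (nat_lit 597) (nat_lit 5) (nat_lit 372) (nat_lit 361) (nat_lit 287))))) (XT.nd (nat_lit 156) (nat_lit 0) (nat_lit 0) (XT.nd (nat_lit 78) (nat_lit 1596) (nat_lit 0) (XT.lf (nat_lit 76) (nat_lit 6206707053) (nat_lit 0) (nat_lit 2276089000) (nat_lit 1672) (nat_lit 1129992631) (nat_lit 576) (nat_lit 5) (nat_lit 575) (nat_lit 5) (nat_lit 597) (nat_lit 5) (nat_lit 373)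 (nat_lit 361) (nat_lit 286)) (XT.lf (nat_lit 0) (nat_lit 883432344) (nat_lit 1672) (nat_lit 5210040903) (nat_lit 1748) (nat_lit 3648599254) (nat_lit 554) (nat_lit 5) (nat_lit 576) (nat_lit 5) (nat_lit 577) (nat_lit 5) (nat_lit 374) (nat_lit 361) (nat_lit 285))) (XT.nd (nat_lit 78) (nat_lit 0) (nat_lit 76) (XT.lf (nat_lit 76) (nat_lit 2858186894) (nat_lit 0) (nat_lit 93795252) (nat_lit 1748) (nat_lit 6922901815) (nat_lit 555) (nat_lit 5) (nat_lit 554) (nat_lit 5) (nat_lit 577) (nat_lit 5) (nat_lit 375) (nat_lit 361) (nat_lit 284)) (XT.nd (nat_lit 78) (nat_lit 0) (nat_lit 76) (XT.lf (nat_lit 76) (nat_lit 1167471813) (nat_lit 0) (nat_lit 3951924843) (nat_lit 1748) (nat_lit 4891546946) (nat_lit 556) (nat_lit 5) (nat_lit 555) (nat_lit 5) (nat_lit 578) (nat_lit 5) (nat_lit 376) (nat_lit 361) (nat_lit 283)) (XT.lf (nat_lit 0) (nat_lit 7370218701) (nat_lit 1672) (nat_lit 509677484) (nat_lit 76) (nat_lit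 2270821145) (nat_lit 556) (nat_lit 5) (nat_lit 578) (nat_lit 5) (nat_lit 557) (nat_lit 5) (nat_lit 377) (nat_lit 361) (nat_lit 282))))))) (XT.nd (nat_lit 780) (nat_lit 6764) (nat_lit 0) (XT.nd (nat_lit 390) (nat_lit 3648) (nat_lit 0) (XT.nd (nat_lit 156) (nat_lit 3876) (nat_lit 0) (XT.nd (nat_lit 78) (nat_lit 1824) (nat_lit 0) (XT.lf (nat_lit 0) (nat_lit 8118009594) (nat_lit 1672) (nat_lit 1606322388) (nat_lit 1748) (nat_lit 569636956) (nat_lit 534) (nat_lit 5) (nat_lit 556) (nat_lit 5) (nat_lit 557) (nat_lit 5) (nat_lit 378) (nat_lit 361) (nat_lit 281)) (XT.lf (nat_lit 0) (nat_lit 1720875691) (nat_lit 1824) (nat_lit 3863680057) (nat_lit 76) (nat_lit 4856026216) (nat_lit 510) (nat_lit 5) (nat_lit 534) (nat_lit 5) (nat_lit 511) (nat_lit 5) (nat_lit 379) (nat_lit 361) (nat_lit 280))) (XT.nd (nat_lit 78) (nat_lit 2052) (nat_lit 0) (XT.lf (nat_lit 0) (nat_lit 4095399312) (nat_lit 1900) (nat_lit 5551455648)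 (nat_lit 76) (nat_lit 944202420) (nat_lit 486) (nat_lit 5) (nat_lit 511) (nat_lit 5) (nat_lit 487) (nat_lit 5) (nat_lit 380) (nat_lit 361) (nat_lit 279)) (XT.nd (nat_lit 78) (nat_lit 912) (nat_lit 0) (XT.lf (nat_lit 0) (nat_lit 3488904664) (nat_lit 1140) (nat_lit 3098048818) (nat_lit 1216) (nat_lit 4158177680) (nat_lit 471) (nat_lit 5) (nat_lit 486) (nat_lit 5) (nat_lit 487) (nat_lit 5) (nat_lit 381) (nat_lit 361) (nat_lit 278)) (XT.lf (nat_lit 0) (nat_lit 1937979387) (nat_lit 912) (nat_lit 7249816477) (nat_lit 988) (nat_lit 1715340463) (nat_lit 459) (nat_lit 5) (nat_lit 471) (nat_lit 5) (nat_lit 472) (nat_lit 5) (nat_lit 382) (nat_lit 361) (nat_lit 277))))) (XT.nd (nat_lit 156) (nat_lit 2660) (nat_lit 0) (XT.nd (nat_lit 78) (nat_lit 0) (nat_lit 0) (XT.lf (nat_lit 0) (nat_lit 384419308) (nat_lit 912) (nat_lit 439642705) (nat_lit 988) (nat_lit 10241039997) (nat_lit 446) (nat_lit 5) (nat_lit 458) (nat_lit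 5) (nat_lit 459) (nat_lit 5) (nat_lit 383) (nat_lit 361) (nat_lit 276)) (XT.lf (nat_lit 0) (nat_lit 3482298803) (nat_lit 988) (nat_lit 1185066234) (nat_lit 76) (nat_lit 6563015719) (nat_lit 446) (nat_lit 5) (nat_lit 459) (nat_lit 5) (nat_lit 447) (nat_lit 5) (nat_lit 384) (nat_lit 361) (nat_lit 275))) (XT.nd (nat_lit 78) (nat_lit 1824) (nat_lit 0) (XT.lf (nat_lit 0) (nat_lit 6258368194) (nat_lit 912) (nat_lit 2745657277) (nat_lit 76) (nat_lit 2395830684) (nat_lit 435) (nat_lit 5) (nat_lit 447) (nat_lit 5) (nat_lit 436) (nat_lit 5) (nat_lit 385) (nat_lit 361) (nat_lit 274)) (XT.nd (nat_lit 78) (nat_lit 912) (nat_lit 0) (XT.lf (nat_lit 0) (nat_lit 7258480393) (nat_lit 912) (nat_lit 1909603027) (nat_lit 988) (nat_lit 2405325121) (nat_lit 423) (nat_lit 5) (nat_lit 435) (nat_lit 5) (nat_lit 436) (nat_lit 5) (nat_lit 386) (nat_lit 361) (nat_lit 273)) (XT.lf (nat_lit 0) (nat_lit 464422107) (nat_lit 912)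 (nat_lit 5900131250) (nat_lit 76) (nat_lit 5386422221) (nat_lit 411) (nat_lit 5) (nat_lit 423) (nat_lit 5) (nat_lit 412) (nat_lit 5) (nat_lit 387) (nat_lit 361) (nat_lit 272)))))) (XT.nd (nat_lit 390) (nat_lit 3572) (nat_lit 0) (XT.nd (nat_lit 156) (nat_lit 1596) (nat_lit 0) (XT.nd (nat_lit 78) (nat_lit 760) (nat_lit 0) (XT.lf (nat_lit 0) (nat_lit 3430728396) (nat_lit 912) (nat_lit 7498912801) (nat_lit 76) (nat_lit 1003047533) (nat_lit 400) (nat_lit 5) (nat_lit 412) (nat_lit 5) (nat_lit 401) (nat_lit 5) (nat_lit 388) (nat_lit 361) (nat_lit 271)) (XT.lf (nat_lit 0) (nat_lit 2999791001) (nat_lit 760) (nat_lit 3554613745) (nat_lit 836) (nat_lit 5564080914) (nat_lit 390) (nat_lit 5) (nat_lit 400) (nat_lit 5) (nat_lit 401) (nat_lit 5) (nat_lit 389) (nat_lit 361) (nat_lit 270))) (XT.nd (nat_lit 78) (nat_lit 836) (nat_lit 0) (XT.lf (nat_lit 0) (nat_lit 1565015605) (nat_lit 760) (nat_lit 8261166448) (nat_lit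 836) (nat_lit 2482586632) (nat_lit 380) (nat_lit 5) (nat_lit 390) (nat_lit 5) (nat_lit 391) (nat_lit 5) (nat_lit 390) (nat_lit 361) (nat_lit 269)) (XT.nd (nat_lit 78) (nat_lit 0) (nat_lit 0) (XT.lf (nat_lit 0) (nat_lit 127493026) (nat_lit 760) (nat_lit 608948484) (nat_lit 836) (nat_lit 11767145790) (nat_lit 369) (nat_lit 5) (nat_lit 379) (nat_lit 5) (nat_lit 380) (nat_lit 5) (nat_lit 391) (nat_lit 361) (nat_lit 268)) (XT.lf (nat_lit 0) (nat_lit 4107063875) (nat_lit 836) (nat_lit 1331231664) (nat_lit 76) (nat_lit 7263851697) (nat_lit 369) (nat_lit 5) (nat_lit 380) (nat_lit 5) (nat_lit 370) (nat_lit 5) (nat_lit 392) (nat_lit 361) (nat_lit 267))))) (XT.nd (nat_lit 156) (nat_lit 2128) (nat_lit 0) (XT.nd (nat_lit 78) (nat_lit 684) (nat_lit 0) (XT.lf (nat_lit 0) (nat_lit 7634059392) (nat_lit 836) (nat_lit 2783398858) (nat_lit 76) (nat_lit 2488100631) (nat_lit 359) (nat_lit 5) (nat_lit 370) (nat_lit 5)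 (nat_lit 360) (nat_lit 5) (nat_lit 393) (nat_lit 361) (nat_lit 266)) (XT.lf (nat_lit 0) (nat_lit 8867318802) (nat_lit 684) (nat_lit 2472205204) (nat_lit 760) (nat_lit 1774095684) (nat_lit 350) (nat_lit 5) (nat_lit 359) (nat_lit 5) (nat_lit 360) (nat_lit 5) (nat_lit 394) (nat_lit 361) (nat_lit 265))) (XT.nd (nat_lit 78) (nat_lit 1368) (nat_lit 0) (XT.lf (nat_lit 0) (nat_lit 1880470690) (nat_lit 760) (nat_lit 5733152491) (nat_lit 76) (nat_lit 5712537380) (nat_lit 340) (nat_lit 5) (nat_lit 350) (nat_lit 5) (nat_lit 341) (nat_lit 5) (nat_lit 395) (nat_lit 361) (nat_lit 264)) (XT.nd (nat_lit 78) (nat_lit 684) (nat_lit 0) (XT.lf (nat_lit 0) (nat_lit 5682132790) (nat_lit 760) (nat_lit 7227289786) (nat_lit 76) (nat_lit 634189314) (nat_lit 331) (nat_lit 5) (nat_lit 341) (nat_lit 5) (nat_lit 332) (nat_lit 5) (nat_lit 396) (nat_lit 361) (nat_lit 263)) (XT.lf (nat_lit 0) (nat_lit 5018777182) (nat_lit 684) (nat_lit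 4672986259) (nat_lit 760) (nat_lit 4073944942) (nat_lit 322) (nat_lit 5) (nat_lit 331) (nat_lit 5) (nat_lit 332) (nat_lit 5) (nat_lit 397) (nat_lit 361) (nat_lit 262))))))))
noncomputable def xc92 : XT := (XT.nd (nat_lit 1482) (nat_lit 2432) (nat_lit 0) (XT.nd (nat_lit 702) (nat_lit 4484) (nat_lit 0) (XT.nd (nat_lit 312) (nat_lit 2964) (nat_lit 0) (XT.nd (nat_lit 156) (nat_lit 608) (nat_lit 0) (XT.nd (nat_lit 78) (nat_lit 684) (nat_lit 0) (XT.lf (nat_lit 0) (nat_lit 3726701619) (nat_lit 608) (nat_lit 10165100857) (nat_lit 684) (nat_lit 101262906) (nat_lit 314) (nat_lit 5) (nat_lit 322) (nat_lit 5) (nat_lit 323) (nat_lit 5) (nat_lit 398) (nat_lit 361) (nat_lit 261)) (XT.lf (nat_lit 0) (nat_lit 2407659621) (nat_lit 608) (nat_lit 1609447968) (nat_lit 684) (nat_lit 10208040401) (nat_lit 305) (nat_lit 5) (nat_lit 313) (nat_lit 5) (nat_lit 314) (nat_lit 5) (nat_lit 399) (nat_lit 361) (nat_lit 260))) (XT.nd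 (nat_lit 78) (nat_lit 0) (nat_lit 0) (XT.lf (nat_lit 0) (nat_lit 1071259207) (nat_lit 608) (nat_lit 7282991700) (nat_lit 684) (nat_lit 6107996832) (nat_lit 297) (nat_lit 5) (nat_lit 305) (nat_lit 5) (nat_lit 306) (nat_lit 5) (nat_lit 400) (nat_lit 361) (nat_lit 259)) (XT.lf (nat_lit 0) (nat_lit 12895934698) (nat_lit 684) (nat_lit 251855158) (nat_lit 76) (nat_lit 1557182102) (nat_lit 297) (nat_lit 5) (nat_lit 306) (nat_lit 5) (nat_lit 298) (nat_lit 5) (nat_lit 401) (nat_lit 361) (nat_lit 258)))) (XT.nd (nat_lit 156) (nat_lit 1748) (nat_lit 0) (XT.nd (nat_lit 78) (nat_lit 532) (nat_lit 0) (XT.lf (nat_lit 0) (nat_lit 2694950651) (nat_lit 684) (nat_lit 1595791990) (nat_lit 76) (nat_lit 10661687055) (nat_lit 288) (nat_lit 5) (nat_lit 297) (nat_lit 5) (nat_lit 289) (nat_lit 5) (nat_lit 402) (nat_lit 361) (nat_lit 257)) (XT.lf (nat_lit 0) (nat_lit 7397555447) (nat_lit 608) (nat_lit 2952553969) (nat_lit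 76) (nat_lit 4855201097) (nat_lit 281) (nat_lit 5) (nat_lit 289) (nat_lit 5) (nat_lit 282) (nat_lit 5) (nat_lit 403) (nat_lit 361) (nat_lit 256))) (XT.nd (nat_lit 78) (nat_lit 1140) (nat_lit 0) (XT.lf (nat_lit 0) (nat_lit 11157466646) (nat_lit 608) (nat_lit 1170782889) (nat_lit 684) (nat_lit 3135787997) (nat_lit 273) (nat_lit 5) (nat_lit 281) (nat_lit 5) (nat_lit 282) (nat_lit 5) (nat_lit 404) (nat_lit 361) (nat_lit 255)) (XT.nd (nat_lit 78) (nat_lit 532) (nat_lit 0) (XT.lf (nat_lit 0) (nat_lit 1769714931) (nat_lit 608) (nat_lit 5694007104) (nat_lit 76) (nat_lit 8264279400) (nat_lit 265) (nat_lit 5) (nat_lit 273) (nat_lit 5) (nat_lit 266) (nat_lit 5) (nat_lit 405) (nat_lit 361) (nat_lit 254)) (XT.lf (nat_lit 0) (nat_lit 6864370008) (nat_lit 608) (nat_lit 7091892216) (nat_lit 76) (nat_lit 2041515679) (nat_lit 258) (nat_lit 5) (nat_lit 266) (nat_lit 5) (nat_lit 259) (nat_lit 5) (nat_lit 406) (nat_lit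 361) (nat_lit 253)))))) (XT.nd (nat_lit 390) (nat_lit 1824) (nat_lit 0) (XT.nd (nat_lit 156) (nat_lit 1520) (nat_lit 0) (XT.nd (nat_lit 78) (nat_lit 608) (nat_lit 0) (XT.lf (nat_lit 0) (nat_lit 7765806869) (nat_lit 532) (nat_lit 4461470097) (nat_lit 608) (nat_lit 4046062454) (nat_lit 251) (nat_lit 5) (nat_lit 258) (nat_lit 5) (nat_lit 259) (nat_lit 5) (nat_lit 407) (nat_lit 361) (nat_lit 252)) (XT.lf (nat_lit 0) (nat_lit 1281536362) (nat_lit 608) (nat_lit 9933931308) (nat_lit 76) (nat_lit 5339479255) (nat_lit 243) (nat_lit 5) (nat_lit 251) (nat_lit 5) (nat_lit 244) (nat_lit 5) (nat_lit 408) (nat_lit 361) (nat_lit 251))) (XT.nd (nat_lit 78) (nat_lit 1064) (nat_lit 0) (XT.lf (nat_lit 0) (nat_lit 5457961514) (nat_lit 456) (nat_lit 1356632644) (nat_lit 532) (nat_lit 10027861584) (nat_lit 237) (nat_lit 5) (nat_lit 243) (nat_lit 5) (nat_lit 244) (nat_lit 5) (nat_lit 409) (nat_lit 361) (nat_lit 250)) (XT.nd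 (nat_lit 78) (nat_lit 532) (nat_lit 0) (XT.lf (nat_lit 0) (nat_lit 4276631762) (nat_lit 532) (nat_lit 8367049210) (nat_lit 608) (nat_lit 4492308107) (nat_lit 230) (nat_lit 5) (nat_lit 237) (nat_lit 5) (nat_lit 238) (nat_lit 5) (nat_lit 410) (nat_lit 361) (nat_lit 249)) (XT.lf (nat_lit 0) (nat_lit 1290063940) (nat_lit 532) (nat_lit 14330333566) (nat_lit 76) (nat_lit 1815841630) (nat_lit 223) (nat_lit 5) (nat_lit 230) (nat_lit 5) (nat_lit 224) (nat_lit 5) (nat_lit 411) (nat_lit 361) (nat_lit 248))))) (XT.nd (nat_lit 156) (nat_lit 912) (nat_lit 0) (XT.nd (nat_lit 78) (nat_lit 456) (nat_lit 0) (XT.lf (nat_lit 0) (nat_lit 1888728290) (nat_lit 456) (nat_lit 5430502917) (nat_lit 532) (nat_lit 10422984467) (nat_lit 217) (nat_lit 5) (nat_lit 223) (nat_lit 5) (nat_lit 224) (nat_lit 5) (nat_lit 412) (nat_lit 361) (nat_lit 247)) (XT.lf (nat_lit 0) (nat_lit 678749802) (nat_lit 456) (nat_lit 12964013330) (nat_lit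 532) (nat_lit 4412338584) (nat_lit 211) (nat_lit 5) (nat_lit 217) (nat_lit 5) (nat_lit 218) (nat_lit 5) (nat_lit 413) (nat_lit 361) (nat_lit 246))) (XT.nd (nat_lit 78) (nat_lit 836) (nat_lit 0) (XT.lf (nat_lit 0) (nat_lit 1878487691) (nat_lit 532) (nat_lit 531322051) (nat_lit 76) (nat_lit 15964869875) (nat_lit 210) (nat_lit 5) (nat_lit 217) (nat_lit 5) (nat_lit 211) (nat_lit 5) (nat_lit 414) (nat_lit 361) (nat_lit 245)) (XT.nd (nat_lit 78) (nat_lit 380) (nat_lit 0) (XT.lf (nat_lit 0) (nat_lit 8443837971) (nat_lit 532) (nat_lit 1775551622) (nat_lit 76) (nat_lit 8480957040) (nat_lit 204) (nat_lit 5) (nat_lit 211) (nat_lit 5) (nat_lit 205) (nat_lit 5) (nat_lit 415) (nat_lit 361) (nat_lit 244)) (XT.lf (nat_lit 0) (nat_lit 15314465939) (nat_lit 456) (nat_lit 2998476892) (nat_lit 76) (nat_lit 720674484) (nat_lit 199) (nat_lit 5) (nat_lit 205) (nat_lit 5) (nat_lit 200) (nat_lit 5) (nat_lit 416) (nat_lit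 361) (nat_lit 243))))))) (XT.nd (nat_lit 49140) (nat_lit 0) (nat_lit 29336) (XT.nd (nat_lit 390) (nat_lit 304) (nat_lit 0) (XT.nd (nat_lit 156) (nat_lit 1216) (nat_lit 0) (XT.nd (nat_lit 78) (nat_lit 380) (nat_lit 0) (XT.lf (nat_lit 0) (nat_lit 3134541440) (nat_lit 532) (nat_lit 4266791166) (nat_lit 76) (nat_lit 11971967126) (nat_lit 192) (nat_lit 5) (nat_lit 199) (nat_lit 5) (nat_lit 193) (nat_lit 5) (nat_lit 417) (nat_lit 361) (nat_lit 242)) (XT.lf (nat_lit 0) (nat_lit 10262326105) (nat_lit 456) (nat_lit 5542390375) (nat_lit 76) (nat_lit 3915584276) (nat_lit 187) (nat_lit 5) (nat_lit 193) (nat_lit 5) (nat_lit 188) (nat_lit 5) (nat_lit 418) (nat_lit 361) (nat_lit 241))) (XT.nd (nat_lit 78) (nat_lit 836) (nat_lit 0) (XT.lf (nat_lit 0) (nat_lit 13251479376) (nat_lit 380) (nat_lit 4497704289) (nat_lit 456) (nat_lit 2325623358) (nat_lit 182) (nat_lit 5) (nat_lit 187) (nat_lit 5) (nat_lit 188) (nat_lit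 5) (nat_lit 419) (nat_lit 361) (nat_lit 240)) (XT.nd (nat_lit 78) (nat_lit 380) (nat_lit 0) (XT.lf (nat_lit 0) (nat_lit 5101002234) (nat_lit 456) (nat_lit 8139388077) (nat_lit 76) (nat_lit 7195983191) (nat_lit 176) (nat_lit 5) (nat_lit 182) (nat_lit 5) (nat_lit 177) (nat_lit 5) (nat_lit 420) (nat_lit 361) (nat_lit 239)) (XT.lf (nat_lit 0) (nat_lit 11349913197) (nat_lit 380) (nat_lit 1500560942) (nat_lit 456) (nat_lit 7955372514) (nat_lit 171) (nat_lit 5) (nat_lit 176) (nat_lit 5) (nat_lit 177) (nat_lit 5) (nat_lit 421) (nat_lit 361) (nat_lit 238))))) (XT.nd (nat_lit 48516) (nat_lit 0) (nat_lit 32148) (XT.nd (nat_lit 48438) (nat_lit 0) (nat_lit 33668) (XT.lf (nat_lit 0) (nat_lit 10387837665) (nat_lit 304) (nat_lit 10617768229) (nat_lit 380) (nat_lit 177334594) (nat_lit 167) (nat_lit 5) (nat_lit 171) (nat_lit 5) (nat_lit 172) (nat_lit 5) (nat_lit 422) (nat_lit 361) (nat_lit 237)) (XT.lf (nat_lit 0)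 (nat_lit 1829942012) (nat_lit 0) (nat_lit 1829942012) (nat_lit 1444) (nat_lit 588442763) (nat_lit 610) (nat_lit 5) (nat_lit 610) (nat_lit 3) (nat_lit 629) (nat_lit 3) (nat_lit 362) (nat_lit 362) (nat_lit 296))) (XT.nd (nat_lit 78) (nat_lit 0) (nat_lit 0) (XT.lf (nat_lit 0) (nat_lit 401507696) (nat_lit 1520) (nat_lit 7041602517) (nat_lit 1596) (nat_lit 1149540684) (nat_lit 590) (nat_lit 5) (nat_lit 610) (nat_lit 5) (nat_lit 611) (nat_lit 5) (nat_lit 363) (nat_lit 362) (nat_lit 295)) (XT.nd (nat_lit 78) (nat_lit 0) (nat_lit 76) (XT.lf (nat_lit 0) (nat_lit 2007822762) (nat_lit 1520) (nat_lit 559661574) (nat_lit 1596) (nat_lit 6123957030) (nat_lit 590) (nat_lit 5) (nat_lit 610) (nat_lit 5) (nat_lit 611) (nat_lit 5) (nat_lit 364) (nat_lit 362) (nat_lit 294)) (XT.lf (nat_lit 0) (nat_lit 3659513351) (nat_lit 1520) (nat_lit 2644330525) (nat_lit 1596) (nat_lit 2489407952) (nat_lit 591) (nat_lit 5) (nat_lit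 611) (nat_lit 5) (nat_lit 612) (nat_lit 5) (nat_lit 365) (nat_lit 362) (nat_lit 293)))))) (XT.nd (nat_lit 390) (nat_lit 1444) (nat_lit 0) (XT.nd (nat_lit 156) (nat_lit 1444) (nat_lit 0) (XT.nd (nat_lit 78) (nat_lit 0) (nat_lit 76) (XT.lf (nat_lit 76) (nat_lit 4173138018) (nat_lit 0) (nat_lit 1178167055) (nat_lit 1596) (nat_lit 3547000523) (nat_lit 592) (nat_lit 5) (nat_lit 591) (nat_lit 5) (nat_lit 612) (nat_lit 5) (nat_lit 366) (nat_lit 362) (nat_lit 292)) (XT.lf (nat_lit 76) (nat_lit 2193673358) (nat_lit 0) (nat_lit 4903174804) (nat_lit 1596) (nat_lit 1909602862) (nat_lit 593) (nat_lit 5) (nat_lit 592) (nat_lit 5) (nat_lit 613) (nat_lit 5) (nat_lit 367) (nat_lit 362) (nat_lit 291))) (XT.nd (nat_lit 78) (nat_lit 1596) (nat_lit 0) (XT.lf (nat_lit 76) (nat_lit 225608942) (nat_lit 0) (nat_lit 8658973745) (nat_lit 1596) (nat_lit 233461626) (nat_lit 594) (nat_lit 5) (nat_lit 593) (nat_lit 5) (nat_lit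 614) (nat_lit 5) (nat_lit 368) (nat_lit 362) (nat_lit 290)) (XT.nd (nat_lit 78) (nat_lit 0) (nat_lit 76) (XT.lf (nat_lit 0) (nat_lit 1499301238) (nat_lit 1596) (nat_lit 1740813129) (nat_lit 1672) (nat_lit 5992158808) (nat_lit 572) (nat_lit 5) (nat_lit 593) (nat_lit 5) (nat_lit 594) (nat_lit 5) (nat_lit 369) (nat_lit 362) (nat_lit 289)) (XT.lf (nat_lit 0) (nat_lit 3281457894) (nat_lit 1596) (nat_lit 3701045268) (nat_lit 1672) (nat_lit 2367383224) (nat_lit 573) (nat_lit 5) (nat_lit 594) (nat_lit 5) (nat_lit 595) (nat_lit 5) (nat_lit 370) (nat_lit 362) (nat_lit 288))))) (XT.nd (nat_lit 156) (nat_lit 1520) (nat_lit 0) (XT.nd (nat_lit 78) (nat_lit 0) (nat_lit 76) (XT.lf (nat_lit 76) (nat_lit 3807464552) (nat_lit 0) (nat_lit 1317498451) (nat_lit 1672) (nat_lit 4345907316) (nat_lit 574) (nat_lit 5) (nat_lit 573) (nat_lit 5) (nat_lit 595) (nat_lit 5) (nat_lit 371) (nat_lit 362) (nat_lit 287)) (XT.lf (nat_lit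 76) (nat_lit 1958618936) (nat_lit 0) (nat_lit 5083420194) (nat_lit 1672) (nat_lit 2553079320) (nat_lit 575) (nat_lit 5) (nat_lit 574) (nat_lit 5) (nat_lit 596) (nat_lit 5) (nat_lit 372) (nat_lit 362) (nat_lit 286))) (XT.nd (nat_lit 78) (nat_lit 1672) (nat_lit 0) (XT.lf (nat_lit 76) (nat_lit 117028176) (nat_lit 0) (nat_lit 8905046200) (nat_lit 1672) (nat_lit 700910715) (nat_lit 576) (nat_lit 5) (nat_lit 575) (nat_lit 5) (nat_lit 597) (nat_lit 5) (nat_lit 373) (nat_lit 362) (nat_lit 285)) (XT.nd (nat_lit 78) (nat_lit 0) (nat_lit 76) (XT.lf (nat_lit 0) (nat_lit 1230210121) (nat_lit 1672) (nat_lit 1723157806) (nat_lit 1748) (nat_lit 6900378796) (nat_lit 553) (nat_lit 5) (nat_lit 575) (nat_lit 5) (nat_lit 576) (nat_lit 5) (nat_lit 374) (nat_lit 362) (nat_lit 284)) (XT.lf (nat_lit 0) (nat_lit 3227125374) (nat_lit 1672) (nat_lit 3567498079) (nat_lit 1748) (nat_lit 3193367422) (nat_lit 554) (nat_lit 5) (nat_lit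 576) (nat_lit 5) (nat_lit 577) (nat_lit 5) (nat_lit 375) (nat_lit 362) (nat_lit 283))))))))
noncomputable def xc93 : XT := (XT.nd (nat_lit 1482) (nat_lit 11248) (nat_lit 0) (XT.nd (nat_lit 702) (nat_lit 6612) (nat_lit 0) (XT.nd (nat_lit 312) (nat_lit 6612) (nat_lit 0) (XT.nd (nat_lit 156) (nat_lit 1596) (nat_lit 0) (XT.nd (nat_lit 78) (nat_lit 0) (nat_lit 76) (XT.lf (nat_lit 76) (nat_lit 4713592445) (nat_lit 0) (nat_lit 588138060) (nat_lit 1748) (nat_lit 4824176198) (nat_lit 555) (nat_lit 5) (nat_lit 554) (nat_lit 5) (nat_lit 577) (nat_lit 5) (nat_lit 376) (nat_lit 362) (nat_lit 282)) (XT.lf (nat_lit 76) (nat_lit 2991074912) (nat_lit 0) (nat_lit 4485746926) (nat_lit 1748) (nat_lit 2790373206) (nat_lit 556) (nat_lit 5) (nat_lit 555) (nat_lit 5) (nat_lit 578) (nat_lit 5) (nat_lit 377) (nat_lit 362) (nat_lit 281))) (XT.nd (nat_lit 78) (nat_lit 76) (nat_lit 0) (XT.lf (nat_lit 0) (nat_lit 1273631221)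 (nat_lit 1672) (nat_lit 8462999329) (nat_lit 1748) (nat_lit 675702193) (nat_lit 534) (nat_lit 5) (nat_lit 556) (nat_lit 5) (nat_lit 557) (nat_lit 5) (nat_lit 378) (nat_lit 362) (nat_lit 280)) (XT.lf (nat_lit 0) (nat_lit 1520958484) (nat_lit 1748) (nat_lit 456534957) (nat_lit 76) (nat_lit 8583370963) (nat_lit 533) (nat_lit 5) (nat_lit 556) (nat_lit 5) (nat_lit 534) (nat_lit 5) (nat_lit 379) (nat_lit 362) (nat_lit 279)))) (XT.nd (nat_lit 156) (nat_lit 3040) (nat_lit 0) (XT.nd (nat_lit 78) (nat_lit 1824) (nat_lit 0) (XT.lf (nat_lit 0) (nat_lit 3820765795) (nat_lit 1824) (nat_lit 2184649486) (nat_lit 76) (nat_lit 4707418865) (nat_lit 510) (nat_lit 5) (nat_lit 534) (nat_lit 5) (nat_lit 511) (nat_lit 5) (nat_lit 380) (nat_lit 362) (nat_lit 278)) (XT.lf (nat_lit 0) (nat_lit 6216810922) (nat_lit 1900) (nat_lit 3910656811) (nat_lit 76) (nat_lit 741350377) (nat_lit 486) (nat_lit 5) (nat_lit 511) (nat_lit 5)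 (nat_lit 487) (nat_lit 5) (nat_lit 381) (nat_lit 362) (nat_lit 277))) (XT.nd (nat_lit 78) (nat_lit 1900) (nat_lit 0) (XT.lf (nat_lit 0) (nat_lit 5371592326) (nat_lit 1140) (nat_lit 3364853297) (nat_lit 1216) (nat_lit 2292001803) (nat_lit 471) (nat_lit 5) (nat_lit 486) (nat_lit 5) (nat_lit 487) (nat_lit 5) (nat_lit 382) (nat_lit 362) (nat_lit 276)) (XT.nd (nat_lit 78) (nat_lit 912) (nat_lit 0) (XT.lf (nat_lit 0) (nat_lit 174540727) (nat_lit 988) (nat_lit 7408459841) (nat_lit 76) (nat_lit 3609095883) (nat_lit 458) (nat_lit 5) (nat_lit 471) (nat_lit 5) (nat_lit 459) (nat_lit 5) (nat_lit 383) (nat_lit 362) (nat_lit 275)) (XT.lf (nat_lit 0) (nat_lit 2180699529) (nat_lit 912) (nat_lit 541972592) (nat_lit 988) (nat_lit 8636905185) (nat_lit 446) (nat_lit 5) (nat_lit 458) (nat_lit 5) (nat_lit 459) (nat_lit 5) (nat_lit 384) (nat_lit 362) (nat_lit 274)))))) (XT.nd (nat_lit 390) (nat_lit 3116) (nat_lit 0) (XT.nd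 (nat_lit 156) (nat_lit 2660) (nat_lit 0) (XT.nd (nat_lit 78) (nat_lit 0) (nat_lit 0) (XT.lf (nat_lit 0) (nat_lit 556391738) (nat_lit 836) (nat_lit 4852735567) (nat_lit 912) (nat_lit 6121717683) (nat_lit 435) (nat_lit 5) (nat_lit 446) (nat_lit 5) (nat_lit 447) (nat_lit 5) (nat_lit 385) (nat_lit 362) (nat_lit 273)) (XT.lf (nat_lit 0) (nat_lit 8222962602) (nat_lit 912) (nat_lit 1051249917) (nat_lit 76) (nat_lit 2432102453) (nat_lit 435) (nat_lit 5) (nat_lit 447) (nat_lit 5) (nat_lit 436) (nat_lit 5) (nat_lit 386) (nat_lit 362) (nat_lit 272))) (XT.nd (nat_lit 78) (nat_lit 1748) (nat_lit 0) (XT.lf (nat_lit 0) (nat_lit 9224185786) (nat_lit 912) (nat_lit 1955379638) (nat_lit 988) (nat_lit 706316584) (nat_lit 423) (nat_lit 5) (nat_lit 435) (nat_lit 5) (nat_lit 436) (nat_lit 5) (nat_lit 387) (nat_lit 362) (nat_lit 271)) (XT.nd (nat_lit 78) (nat_lit 836) (nat_lit 0) (XT.lf (nat_lit 0) (nat_lit 2186917553)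 (nat_lit 912) (nat_lit 4300744906) (nat_lit 76) (nat_lit 5581671131) (nat_lit 411) (nat_lit 5) (nat_lit 423) (nat_lit 5) (nat_lit 412) (nat_lit 5) (nat_lit 388) (nat_lit 362) (nat_lit 270)) (XT.lf (nat_lit 0) (nat_lit 5204298149) (nat_lit 912) (nat_lit 5943409517) (nat_lit 76) (nat_lit 1109548768) (nat_lit 400) (nat_lit 5) (nat_lit 412) (nat_lit 5) (nat_lit 401) (nat_lit 5) (nat_lit 389) (nat_lit 362) (nat_lit 269))))) (XT.nd (nat_lit 156) (nat_lit 1596) (nat_lit 0) (XT.nd (nat_lit 78) (nat_lit 760) (nat_lit 0) (XT.lf (nat_lit 0) (nat_lit 4841369378) (nat_lit 760) (nat_lit 3543028213) (nat_lit 836) (nat_lit 4064975424) (nat_lit 390) (nat_lit 5) (nat_lit 400) (nat_lit 5) (nat_lit 401) (nat_lit 5) (nat_lit 390) (nat_lit 362) (nat_lit 268)) (XT.lf (nat_lit 0) (nat_lit 3366515432) (nat_lit 760) (nat_lit 8352376102) (nat_lit 836) (nat_lit 927181730) (nat_lit 380) (nat_lit 5) (nat_lit 390) (nat_lit 5)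 (nat_lit 391) (nat_lit 5) (nat_lit 391) (nat_lit 362) (nat_lit 267))) (XT.nd (nat_lit 78) (nat_lit 760) (nat_lit 0) (XT.lf (nat_lit 0) (nat_lit 1878431096) (nat_lit 760) (nat_lit 453103678) (nat_lit 836) (nat_lit 10515700145) (nat_lit 369) (nat_lit 5) (nat_lit 379) (nat_lit 5) (nat_lit 380) (nat_lit 5) (nat_lit 392) (nat_lit 362) (nat_lit 266)) (XT.nd (nat_lit 78) (nat_lit 0) (nat_lit 0) (XT.lf (nat_lit 0) (nat_lit 359215199) (nat_lit 760) (nat_lit 5401674872) (nat_lit 836) (nat_lit 7291709297) (nat_lit 359) (nat_lit 5) (nat_lit 369) (nat_lit 5) (nat_lit 370) (nat_lit 5) (nat_lit 393) (nat_lit 362) (nat_lit 265)) (XT.lf (nat_lit 0) (nat_lit 9359189818) (nat_lit 836) (nat_lit 1140646602) (nat_lit 76) (nat_lit 2762967054) (nat_lit 359) (nat_lit 5) (nat_lit 370) (nat_lit 5) (nat_lit 360) (nat_lit 5) (nat_lit 394) (nat_lit 362) (nat_lit 264))))))) (XT.nd (nat_lit 780) (nat_lit 5320) (nat_lit 0) (XT.nd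 (nat_lit 390) (nat_lit 2432) (nat_lit 0) (XT.nd (nat_lit 156) (nat_lit 2052) (nat_lit 0) (XT.nd (nat_lit 78) (nat_lit 760) (nat_lit 0) (XT.lf (nat_lit 0) (nat_lit 10831586164) (nat_lit 684) (nat_lit 2311682378) (nat_lit 760) (nat_lit 334488563) (nat_lit 350) (nat_lit 5) (nat_lit 359) (nat_lit 5) (nat_lit 360) (nat_lit 5) (nat_lit 395) (nat_lit 362) (nat_lit 263)) (XT.lf (nat_lit 0) (nat_lit 3379812517) (nat_lit 760) (nat_lit 4187978320) (nat_lit 76) (nat_lit 6129295987) (nat_lit 340) (nat_lit 5) (nat_lit 350) (nat_lit 5) (nat_lit 341) (nat_lit 5) (nat_lit 396) (nat_lit 362) (nat_lit 262))) (XT.nd (nat_lit 78) (nat_lit 1368) (nat_lit 0) (XT.lf (nat_lit 0) (nat_lit 7266266909) (nat_lit 760) (nat_lit 5728362711) (nat_lit 76) (nat_lit 927017223) (nat_lit 331) (nat_lit 5) (nat_lit 341) (nat_lit 5) (nat_lit 332) (nat_lit 5) (nat_lit 397) (nat_lit 362) (nat_lit 261)) (XT.nd (nat_lit 78) (nat_lit 684) (nat_lit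 0) (XT.lf (nat_lit 0) (nat_lit 6857250329) (nat_lit 684) (nat_lit 4508720322) (nat_lit 760) (nat_lit 2785039897) (nat_lit 322) (nat_lit 5) (nat_lit 331) (nat_lit 5) (nat_lit 332) (nat_lit 5) (nat_lit 398) (nat_lit 362) (nat_lit 260)) (XT.lf (nat_lit 0) (nat_lit 1262071433) (nat_lit 684) (nat_lit 8869736267) (nat_lit 76) (nat_lit 4253763101) (nat_lit 313) (nat_lit 5) (nat_lit 322) (nat_lit 5) (nat_lit 314) (nat_lit 5) (nat_lit 399) (nat_lit 362) (nat_lit 259))))) (XT.nd (nat_lit 156) (nat_lit 1216) (nat_lit 0) (XT.nd (nat_lit 78) (nat_lit 608) (nat_lit 0) (XT.lf (nat_lit 0) (nat_lit 4156186207) (nat_lit 608) (nat_lit 1317565138) (nat_lit 684) (nat_lit 9151428474) (nat_lit 305) (nat_lit 5) (nat_lit 313) (nat_lit 5) (nat_lit 314) (nat_lit 5) (nat_lit 400) (nat_lit 362) (nat_lit 258)) (XT.lf (nat_lit 0) (nat_lit 2776614171) (nat_lit 608) (nat_lit 7138486261) (nat_lit 684) (nat_lit 4954810299) (nat_lit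 297) (nat_lit 5) (nat_lit 305) (nat_lit 5) (nat_lit 306) (nat_lit 5) (nat_lit 401) (nat_lit 362) (nat_lit 257))) (XT.nd (nat_lit 78) (nat_lit 608) (nat_lit 0) (XT.lf (nat_lit 0) (nat_lit 1406673715) (nat_lit 608) (nat_lit 13159620435) (nat_lit 684) (nat_lit 554157339) (nat_lit 289) (nat_lit 5) (nat_lit 297) (nat_lit 5) (nat_lit 298) (nat_lit 5) (nat_lit 402) (nat_lit 362) (nat_lit 256)) (XT.nd (nat_lit 78) (nat_lit 532) (nat_lit 0) (XT.lf (nat_lit 0) (nat_lit 4031817851) (nat_lit 684) (nat_lit 6069105) (nat_lit 76) (nat_lit 11337995258) (nat_lit 288) (nat_lit 5) (nat_lit 297) (nat_lit 5) (nat_lit 289) (nat_lit 5) (nat_lit 403) (nat_lit 362) (nat_lit 255)) (XT.lf (nat_lit 0) (nat_lit 8851852158) (nat_lit 608) (nat_lit 1407978663) (nat_lit 76) (nat_lit 5376991607) (nat_lit 281) (nat_lit 5) (nat_lit 289) (nat_lit 5) (nat_lit 282) (nat_lit 5) (nat_lit 404) (nat_lit 362) (nat_lit 254)))))) (XT.nd (nat_lit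 390) (nat_lit 2432) (nat_lit 0) (XT.nd (nat_lit 156) (nat_lit 1672) (nat_lit 0) (XT.nd (nat_lit 78) (nat_lit 608) (nat_lit 0) (XT.lf (nat_lit 0) (nat_lit 13098846620) (nat_lit 608) (nat_lit 806157650) (nat_lit 684) (nat_lit 1998816242) (nat_lit 273) (nat_lit 5) (nat_lit 281) (nat_lit 5) (nat_lit 282) (nat_lit 5) (nat_lit 405) (nat_lit 362) (nat_lit 253)) (XT.lf (nat_lit 0) (nat_lit 3015326193) (nat_lit 608) (nat_lit 4247196259) (nat_lit 76) (nat_lit 8913468630) (nat_lit 265) (nat_lit 5) (nat_lit 273) (nat_lit 5) (nat_lit 266) (nat_lit 5) (nat_lit 406) (nat_lit 362) (nat_lit 252))) (XT.nd (nat_lit 78) (nat_lit 1140) (nat_lit 0) (XT.lf (nat_lit 0) (nat_lit 8241167813) (nat_lit 608) (nat_lit 5692647835) (nat_lit 76) (nat_lit 2520478258) (nat_lit 258) (nat_lit 5) (nat_lit 266) (nat_lit 5) (nat_lit 259) (nat_lit 5) (nat_lit 407) (nat_lit 362) (nat_lit 251)) (XT.nd (nat_lit 78) (nat_lit 608) (nat_lit 0)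 (XT.lf (nat_lit 0) (nat_lit 9584629419) (nat_lit 532) (nat_lit 4156526026) (nat_lit 608) (nat_lit 2997442954) (nat_lit 251) (nat_lit 5) (nat_lit 258) (nat_lit 5) (nat_lit 259) (nat_lit 5) (nat_lit 408) (nat_lit 362) (nat_lit 250)) (XT.lf (nat_lit 0) (nat_lit 2454118118) (nat_lit 608) (nat_lit 8636991016) (nat_lit 76) (nat_lit 5937803485) (nat_lit 243) (nat_lit 5) (nat_lit 251) (nat_lit 5) (nat_lit 244) (nat_lit 5) (nat_lit 409) (nat_lit 362) (nat_lit 249))))) (XT.nd (nat_lit 156) (nat_lit 1444) (nat_lit 0) (XT.nd (nat_lit 78) (nat_lit 532) (nat_lit 0) (XT.lf (nat_lit 0) (nat_lit 7190782289) (nat_lit 456) (nat_lit 939539802) (nat_lit 532) (nat_lit 9195181521) (nat_lit 237) (nat_lit 5) (nat_lit 243) (nat_lit 5) (nat_lit 244) (nat_lit 5) (nat_lit 410) (nat_lit 362) (nat_lit 248)) (XT.lf (nat_lit 0) (nat_lit 5967497302) (nat_lit 532) (nat_lit 8147447470) (nat_lit 608) (nat_lit 3513284912) (nat_lit 230)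 (nat_lit 5) (nat_lit 237) (nat_lit 5) (nat_lit 238) (nat_lit 5) (nat_lit 411) (nat_lit 362) (nat_lit 247))) (XT.nd (nat_lit 78) (nat_lit 912) (nat_lit 0) (XT.lf (nat_lit 0) (nat_lit 2409089291) (nat_lit 532) (nat_lit 13190192048) (nat_lit 76) (nat_lit 2338438502) (nat_lit 223) (nat_lit 5) (nat_lit 230) (nat_lit 5) (nat_lit 224) (nat_lit 5) (nat_lit 412) (nat_lit 362) (nat_lit 246)) (XT.nd (nat_lit 78) (nat_lit 456) (nat_lit 0) (XT.lf (nat_lit 0) (nat_lit 3489969442) (nat_lit 456) (nat_lit 5107724835) (nat_lit 532) (nat_lit 9655610144) (nat_lit 217) (nat_lit 5) (nat_lit 223) (nat_lit 5) (nat_lit 224) (nat_lit 5) (nat_lit 413) (nat_lit 362) (nat_lit 245)) (XT.lf (nat_lit 0) (nat_lit 2236364493) (nat_lit 456) (nat_lit 12856768779) (nat_lit 532) (nat_lit 3482799750) (nat_lit 211) (nat_lit 5) (nat_lit 217) (nat_lit 5) (nat_lit 218) (nat_lit 5) (nat_lit 414) (nat_lit 362) (nat_lit 244))))))))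
noncomputable def xc94 : XT := (XT.nd (nat_lit 49920) (nat_lit 0) (nat_lit 15048) (XT.nd (nat_lit 49140) (nat_lit 0) (nat_lit 30400) (XT.nd (nat_lit 312) (nat_lit 1596) (nat_lit 0) (XT.nd (nat_lit 156) (nat_lit 912) (nat_lit 0) (XT.nd (nat_lit 78) (nat_lit 0) (nat_lit 0) (XT.lf (nat_lit 0) (nat_lit 971478750) (nat_lit 456) (nat_lit 1987129176) (nat_lit 532) (nat_lit 15946836767) (nat_lit 204) (nat_lit 5) (nat_lit 210) (nat_lit 5) (nat_lit 211) (nat_lit 5) (nat_lit 415) (nat_lit 362) (nat_lit 243)) (XT.lf (nat_lit 0) (nat_lit 9697739090) (nat_lit 532) (nat_lit 330446273) (nat_lit 76) (nat_lit 9213159949) (nat_lit 204) (nat_lit 5) (nat_lit 211) (nat_lit 5) (nat_lit 205) (nat_lit 5) (nat_lit 416) (nat_lit 362) (nat_lit 242))) (XT.nd (nat_lit 78) (nat_lit 532) (nat_lit 0) (XT.lf (nat_lit 0) (nat_lit 16758114412) (nat_lit 456) (nat_lit 1597949542) (nat_lit 76) (nat_lit 1228877590) (nat_lit 199) (nat_lit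 5) (nat_lit 205) (nat_lit 5) (nat_lit 200) (nat_lit 5) (nat_lit 417) (nat_lit 362) (nat_lit 241)) (XT.lf (nat_lit 0) (nat_lit 4200037111) (nat_lit 532) (nat_lit 2915584354) (nat_lit 76) (nat_lit 12819448070) (nat_lit 192) (nat_lit 5) (nat_lit 199) (nat_lit 5) (nat_lit 193) (nat_lit 5) (nat_lit 418) (nat_lit 362) (nat_lit 240)))) (XT.nd (nat_lit 156) (nat_lit 836) (nat_lit 0) (XT.nd (nat_lit 78) (nat_lit 380) (nat_lit 0) (XT.lf (nat_lit 0) (nat_lit 11526071792) (nat_lit 456) (nat_lit 4237660928) (nat_lit 76) (nat_lit 4529059540) (nat_lit 187) (nat_lit 5) (nat_lit 193) (nat_lit 5) (nat_lit 188) (nat_lit 5) (nat_lit 419) (nat_lit 362) (nat_lit 239)) (XT.lf (nat_lit 0) (nat_lit 15096159670) (nat_lit 380) (nat_lit 4122930130) (nat_lit 456) (nat_lit 1439212821) (nat_lit 182) (nat_lit 5) (nat_lit 187) (nat_lit 5) (nat_lit 188) (nat_lit 5) (nat_lit 420) (nat_lit 362) (nat_lit 238))) (XT.nd (nat_lit 78) (nat_lit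 380) (nat_lit 0) (XT.lf (nat_lit 0) (nat_lit 6182824499) (nat_lit 456) (nat_lit 6932379925) (nat_lit 76) (nat_lit 7915684439) (nat_lit 176) (nat_lit 5) (nat_lit 182) (nat_lit 5) (nat_lit 177) (nat_lit 5) (nat_lit 421) (nat_lit 362) (nat_lit 237)) (XT.nd (nat_lit 48516) (nat_lit 0) (nat_lit 31768) (XT.lf (nat_lit 0) (nat_lit 13118056557) (nat_lit 380) (nat_lit 1028941029) (nat_lit 456) (nat_lit 7264804283) (nat_lit 171) (nat_lit 5) (nat_lit 176) (nat_lit 5) (nat_lit 177) (nat_lit 5) (nat_lit 422) (nat_lit 362) (nat_lit 236)) (XT.lf (nat_lit 0) (nat_lit 949528044) (nat_lit 1596) (nat_lit 1697686875) (nat_lit 1596) (nat_lit 1697686875) (nat_lit 589) (nat_lit 3) (nat_lit 610) (nat_lit 3) (nat_lit 610) (nat_lit 5) (nat_lit 363) (nat_lit 363) (nat_lit 294)))))) (XT.nd (nat_lit 390) (nat_lit 0) (nat_lit 0) (XT.nd (nat_lit 156) (nat_lit 1368) (nat_lit 0) (XT.nd (nat_lit 78) (nat_lit 0) (nat_lit 76) (XT.lf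 (nat_lit 76) (nat_lit 3158542436) (nat_lit 0) (nat_lit 262498295) (nat_lit 1596) (nat_lit 5369239937) (nat_lit 590) (nat_lit 5) (nat_lit 589) (nat_lit 3) (nat_lit 610) (nat_lit 5) (nat_lit 364) (nat_lit 363) (nat_lit 293)) (XT.lf (nat_lit 76) (nat_lit 1012376243) (nat_lit 0) (nat_lit 3980490619) (nat_lit 1596) (nat_lit 3900821557) (nat_lit 591) (nat_lit 5) (nat_lit 590) (nat_lit 5) (nat_lit 611) (nat_lit 5) (nat_lit 365) (nat_lit 363) (nat_lit 292))) (XT.nd (nat_lit 78) (nat_lit 1520) (nat_lit 0) (XT.lf (nat_lit 0) (nat_lit 6604204477) (nat_lit 1520) (nat_lit 1108408594) (nat_lit 1596) (nat_lit 1287738198) (nat_lit 591) (nat_lit 5) (nat_lit 611) (nat_lit 5) (nat_lit 612) (nat_lit 5) (nat_lit 366) (nat_lit 363) (nat_lit 291)) (XT.nd (nat_lit 78) (nat_lit 1520) (nat_lit 0) (XT.lf (nat_lit 76) (nat_lit 5887378463) (nat_lit 0) (nat_lit 2387118560) (nat_lit 1596) (nat_lit 835504684) (nat_lit 592) (nat_lit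 5) (nat_lit 591) (nat_lit 5) (nat_lit 612) (nat_lit 5) (nat_lit 367) (nat_lit 363) (nat_lit 290)) (XT.lf (nat_lit 0) (nat_lit 762029529) (nat_lit 1596) (nat_lit 5343348770) (nat_lit 1672) (nat_lit 3117459176) (nat_lit 571) (nat_lit 5) (nat_lit 592) (nat_lit 5) (nat_lit 593) (nat_lit 5) (nat_lit 368) (nat_lit 363) (nat_lit 289))))) (XT.nd (nat_lit 156) (nat_lit 0) (nat_lit 152) (XT.nd (nat_lit 78) (nat_lit 0) (nat_lit 76) (XT.lf (nat_lit 76) (nat_lit 1871225678) (nat_lit 0) (nat_lit 523364249) (nat_lit 1672) (nat_lit 6944388907) (nat_lit 572) (nat_lit 5) (nat_lit 571) (nat_lit 5) (nat_lit 593) (nat_lit 5) (nat_lit 369) (nat_lit 363) (nat_lit 288)) (XT.lf (nat_lit 0) (nat_lit 4096225544) (nat_lit 1596) (nat_lit 149064666) (nat_lit 1672) (nat_lit 5212912255) (nat_lit 572) (nat_lit 5) (nat_lit 593) (nat_lit 5) (nat_lit 594) (nat_lit 5) (nat_lit 370) (nat_lit 363) (nat_lit 287))) (XT.nd (nat_lit 78) (nat_lit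 0) (nat_lit 0) (XT.lf (nat_lit 0) (nat_lit 5862365075) (nat_lit 1596) (nat_lit 2139359013) (nat_lit 1672) (nat_lit 1579009620) (nat_lit 573) (nat_lit 5) (nat_lit 594) (nat_lit 5) (nat_lit 595) (nat_lit 5) (nat_lit 371) (nat_lit 363) (nat_lit 286)) (XT.nd (nat_lit 78) (nat_lit 0) (nat_lit 76) (XT.lf (nat_lit 76) (nat_lit 5567268245) (nat_lit 0) (nat_lit 2132286526) (nat_lit 1672) (nat_lit 2007024799) (nat_lit 574) (nat_lit 5) (nat_lit 573) (nat_lit 5) (nat_lit 595) (nat_lit 5) (nat_lit 372) (nat_lit 363) (nat_lit 285)) (XT.lf (nat_lit 76) (nat_lit 3688842896) (nat_lit 0) (nat_lit 5920755648) (nat_lit 1672) (nat_lit 226247496) (nat_lit 575) (nat_lit 5) (nat_lit 574) (nat_lit 5) (nat_lit 596) (nat_lit 5) (nat_lit 373) (nat_lit 363) (nat_lit 284))))))) (XT.nd (nat_lit 780) (nat_lit 7752) (nat_lit 0) (XT.nd (nat_lit 390) (nat_lit 6232) (nat_lit 0) (XT.nd (nat_lit 156) (nat_lit 0) (nat_lit 76) (XT.nd (nat_lit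 78) (nat_lit 0) (nat_lit 0) (XT.lf (nat_lit 0) (nat_lit 1597081644) (nat_lit 1672) (nat_lit 8163672096) (nat_lit 1748) (nat_lit 207823623) (nat_lit 553) (nat_lit 5) (nat_lit 575) (nat_lit 5) (nat_lit 576) (nat_lit 5) (nat_lit 374) (nat_lit 363) (nat_lit 283)) (XT.lf (nat_lit 0) (nat_lit 3509399273) (nat_lit 1672) (nat_lit 99341641) (nat_lit 1748) (nat_lit 6495772553) (nat_lit 553) (nat_lit 5) (nat_lit 575) (nat_lit 5) (nat_lit 576) (nat_lit 5) (nat_lit 375) (nat_lit 363) (nat_lit 282))) (XT.nd (nat_lit 78) (nat_lit 0) (nat_lit 0) (XT.lf (nat_lit 0) (nat_lit 5508113007) (nat_lit 1672) (nat_lit 1978939977) (nat_lit 1748) (nat_lit 2756894139) (nat_lit 554) (nat_lit 5) (nat_lit 576) (nat_lit 5) (nat_lit 577) (nat_lit 5) (nat_lit 376) (nat_lit 363) (nat_lit 281)) (XT.nd (nat_lit 78) (nat_lit 0) (nat_lit 76) (XT.lf (nat_lit 76) (nat_lit 6523074441) (nat_lit 0) (nat_lit 1069095379) (nat_lit 1748) (nat_lit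 2794886335) (nat_lit 555) (nat_lit 5) (nat_lit 554) (nat_lit 5) (nat_lit 577) (nat_lit 5) (nat_lit 377) (nat_lit 363) (nat_lit 280)) (XT.lf (nat_lit 76) (nat_lit 4766714357) (nat_lit 0) (nat_lit 5011745800) (nat_lit 1748) (nat_lit 755204065) (nat_lit 556) (nat_lit 5) (nat_lit 555) (nat_lit 5) (nat_lit 578) (nat_lit 5) (nat_lit 378) (nat_lit 363) (nat_lit 279))))) (XT.nd (nat_lit 156) (nat_lit 2964) (nat_lit 0) (XT.nd (nat_lit 78) (nat_lit 1748) (nat_lit 0) (XT.lf (nat_lit 0) (nat_lit 1351979342) (nat_lit 1748) (nat_lit 7679320788) (nat_lit 76) (nat_lit 1652716475) (nat_lit 533) (nat_lit 5) (nat_lit 556) (nat_lit 5) (nat_lit 534) (nat_lit 5) (nat_lit 379) (nat_lit 363) (nat_lit 278)) (XT.lf (nat_lit 0) (nat_lit 1224491586) (nat_lit 1748) (nat_lit 2329487405) (nat_lit 1824) (nat_lit 7283963510) (nat_lit 510) (nat_lit 5) (nat_lit 533) (nat_lit 5) (nat_lit 534) (nat_lit 5) (nat_lit 380) (nat_lit 363)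 (nat_lit 277))) (XT.nd (nat_lit 78) (nat_lit 2964) (nat_lit 0) (XT.lf (nat_lit 0) (nat_lit 5866073879) (nat_lit 1824) (nat_lit 558284953) (nat_lit 76) (nat_lit 4571246636) (nat_lit 510) (nat_lit 5) (nat_lit 534) (nat_lit 5) (nat_lit 511) (nat_lit 5) (nat_lit 381) (nat_lit 363) (nat_lit 276)) (XT.nd (nat_lit 78) (nat_lit 1140) (nat_lit 0) (XT.lf (nat_lit 0) (nat_lit 8287139956) (nat_lit 1900) (nat_lit 2324382861) (nat_lit 76) (nat_lit 545683341) (nat_lit 486) (nat_lit 5) (nat_lit 511) (nat_lit 5) (nat_lit 487) (nat_lit 5) (nat_lit 382) (nat_lit 363) (nat_lit 275)) (XT.lf (nat_lit 0) (nat_lit 7208694967) (nat_lit 1140) (nat_lit 3629681461) (nat_lit 1216) (nat_lit 484127673) (nat_lit 471) (nat_lit 5) (nat_lit 486) (nat_lit 5) (nat_lit 487) (nat_lit 5) (nat_lit 383) (nat_lit 363) (nat_lit 274)))))) (XT.nd (nat_lit 390) (nat_lit 4028) (nat_lit 0) (XT.nd (nat_lit 156) (nat_lit 1824) (nat_lit 0) (XT.nd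 (nat_lit 78) (nat_lit 912) (nat_lit 0) (XT.lf (nat_lit 0) (nat_lit 1987835669) (nat_lit 988) (nat_lit 5920674457) (nat_lit 76) (nat_lit 3583188045) (nat_lit 458) (nat_lit 5) (nat_lit 471) (nat_lit 5) (nat_lit 459) (nat_lit 5) (nat_lit 384) (nat_lit 363) (nat_lit 273)) (XT.lf (nat_lit 0) (nat_lit 3928416340) (nat_lit 912) (nat_lit 642255340) (nat_lit 988) (nat_lit 7094366556) (nat_lit 446) (nat_lit 5) (nat_lit 458) (nat_lit 5) (nat_lit 459) (nat_lit 5) (nat_lit 385) (nat_lit 363) (nat_lit 272))) (XT.nd (nat_lit 78) (nat_lit 988) (nat_lit 0) (XT.lf (nat_lit 0) (nat_lit 2263376010) (nat_lit 836) (nat_lit 5033343168) (nat_lit 912) (nat_lit 4545544800) (nat_lit 435) (nat_lit 5) (nat_lit 446) (nat_lit 5) (nat_lit 447) (nat_lit 5) (nat_lit 386) (nat_lit 363) (nat_lit 271)) (XT.nd (nat_lit 78) (nat_lit 76) (nat_lit 0) (XT.lf (nat_lit 0) (nat_lit 599862697) (nat_lit 912) (nat_lit 9548528775) (nat_lit 988)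 (nat_lit 1875538150) (nat_lit 423) (nat_lit 5) (nat_lit 435) (nat_lit 5) (nat_lit 436) (nat_lit 5) (nat_lit 387) (nat_lit 363) (nat_lit 270)) (XT.lf (nat_lit 0) (nat_lit 929635536) (nat_lit 988) (nat_lit 1067316472) (nat_lit 76) (nat_lit 10212648923) (nat_lit 422) (nat_lit 5) (nat_lit 435) (nat_lit 5) (nat_lit 423) (nat_lit 5) (nat_lit 388) (nat_lit 363) (nat_lit 269))))) (XT.nd (nat_lit 156) (nat_lit 2356) (nat_lit 0) (XT.nd (nat_lit 78) (nat_lit 836) (nat_lit 0) (XT.lf (nat_lit 0) (nat_lit 3863009370) (nat_lit 912) (nat_lit 2755349040) (nat_lit 76) (nat_lit 5780845502) (nat_lit 411) (nat_lit 5) (nat_lit 423) (nat_lit 5) (nat_lit 412) (nat_lit 5) (nat_lit 389) (nat_lit 363) (nat_lit 268)) (XT.lf (nat_lit 0) (nat_lit 6935172971) (nat_lit 912) (nat_lit 4443447434) (nat_lit 76) (nat_lit 1214858805) (nat_lit 400) (nat_lit 5) (nat_lit 412) (nat_lit 5) (nat_lit 401) (nat_lit 5) (nat_lit 390) (nat_lit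 363) (nat_lit 267))) (XT.nd (nat_lit 78) (nat_lit 1596) (nat_lit 0) (XT.lf (nat_lit 0) (nat_lit 6637646983) (nat_lit 760) (nat_lit 3537881653) (nat_lit 836) (nat_lit 2616533588) (nat_lit 390) (nat_lit 5) (nat_lit 400) (nat_lit 5) (nat_lit 401) (nat_lit 5) (nat_lit 391) (nat_lit 363) (nat_lit 266)) (XT.nd (nat_lit 78) (nat_lit 760) (nat_lit 0) (XT.lf (nat_lit 0) (nat_lit 573699233) (nat_lit 836) (nat_lit 7877763923) (nat_lit 76) (nat_lit 4543792887) (nat_lit 379) (nat_lit 5) (nat_lit 390) (nat_lit 5) (nat_lit 380) (nat_lit 5) (nat_lit 392) (nat_lit 363) (nat_lit 265)) (XT.lf (nat_lit 0) (nat_lit 3581605858) (nat_lit 760) (nat_lit 302578341) (nat_lit 836) (nat_lit 9318813699) (nat_lit 369) (nat_lit 5) (nat_lit 379) (nat_lit 5) (nat_lit 380) (nat_lit 5) (nat_lit 393) (nat_lit 363) (nat_lit 264))))))))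
noncomputable def xc95 : XT := (XT.nd (nat_lit 1560) (nat_lit 3572) (nat_lit 0) (XT.nd (nat_lit 780) (nat_lit 4940) (nat_lit 0) (XT.nd (nat_lit 390) (nat_lit 3268) (nat_lit 0) (XT.nd (nat_lit 156) (nat_lit 1444) (nat_lit 0) (XT.nd (nat_lit 78) (nat_lit 684) (nat_lit 0) (XT.lf (nat_lit 0) (nat_lit 2018220444) (nat_lit 760) (nat_lit 5366750100) (nat_lit 836) (nat_lit 6030181729) (nat_lit 359) (nat_lit 5) (nat_lit 369) (nat_lit 5) (nat_lit 370) (nat_lit 5) (nat_lit 394) (nat_lit 363) (nat_lit 263)) (XT.lf (nat_lit 0) (nat_lit 458304917) (nat_lit 684) (nat_lit 10594862101) (nat_lit 760) (nat_lit 2579256530) (nat_lit 350) (nat_lit 5) (nat_lit 359) (nat_lit 5) (nat_lit 360) (nat_lit 5) (nat_lit 395) (nat_lit 363) (nat_lit 262))) (XT.nd (nat_lit 78) (nat_lit 1368) (nat_lit 0) (XT.lf (nat_lit 0) (nat_lit 1048675872) (nat_lit 760) (nat_lit 1104102935) (nat_lit 76) (nat_lit 11701582136) (nat_lit 349) (nat_lit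 5) (nat_lit 359) (nat_lit 5) (nat_lit 350) (nat_lit 5) (nat_lit 396) (nat_lit 363) (nat_lit 261)) (XT.nd (nat_lit 78) (nat_lit 684) (nat_lit 0) (XT.lf (nat_lit 0) (nat_lit 4841304645) (nat_lit 760) (nat_lit 2695021435) (nat_lit 76) (nat_lit 6544471393) (nat_lit 340) (nat_lit 5) (nat_lit 350) (nat_lit 5) (nat_lit 341) (nat_lit 5) (nat_lit 397) (nat_lit 363) (nat_lit 260)) (XT.lf (nat_lit 0) (nat_lit 8816774602) (nat_lit 760) (nat_lit 4282958650) (nat_lit 76) (nat_lit 1212912602) (nat_lit 331) (nat_lit 5) (nat_lit 341) (nat_lit 5) (nat_lit 332) (nat_lit 5) (nat_lit 398) (nat_lit 363) (nat_lit 259))))) (XT.nd (nat_lit 156) (nat_lit 1900) (nat_lit 0) (XT.nd (nat_lit 78) (nat_lit 684) (nat_lit 0) (XT.lf (nat_lit 0) (nat_lit 8653984741) (nat_lit 684) (nat_lit 4357003400) (nat_lit 760) (nat_lit 1538471956) (nat_lit 322) (nat_lit 5) (nat_lit 331) (nat_lit 5) (nat_lit 332) (nat_lit 5) (nat_lit 399) (nat_lit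 363) (nat_lit 258)) (XT.lf (nat_lit 0) (nat_lit 2586581049) (nat_lit 684) (nat_lit 7529700332) (nat_lit 76) (nat_lit 4675123594) (nat_lit 313) (nat_lit 5) (nat_lit 322) (nat_lit 5) (nat_lit 314) (nat_lit 5) (nat_lit 400) (nat_lit 363) (nat_lit 257))) (XT.nd (nat_lit 78) (nat_lit 1292) (nat_lit 0) (XT.lf (nat_lit 0) (nat_lit 5860942297) (nat_lit 608) (nat_lit 1036452757) (nat_lit 684) (nat_lit 8141351536) (nat_lit 305) (nat_lit 5) (nat_lit 313) (nat_lit 5) (nat_lit 314) (nat_lit 5) (nat_lit 401) (nat_lit 363) (nat_lit 256)) (XT.nd (nat_lit 78) (nat_lit 684) (nat_lit 0) (XT.lf (nat_lit 0) (nat_lit 4437080273) (nat_lit 608) (nat_lit 7010483067) (nat_lit 684) (nat_lit 3843744516) (nat_lit 297) (nat_lit 5) (nat_lit 305) (nat_lit 5) (nat_lit 306) (nat_lit 5) (nat_lit 402) (nat_lit 363) (nat_lit 255)) (XT.lf (nat_lit 0) (nat_lit 656139461) (nat_lit 684) (nat_lit 12531585558) (nat_lit 76) (nat_lit 2362025421)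 (nat_lit 288) (nat_lit 5) (nat_lit 297) (nat_lit 5) (nat_lit 289) (nat_lit 5) (nat_lit 403) (nat_lit 363) (nat_lit 254)))))) (XT.nd (nat_lit 390) (nat_lit 2660) (nat_lit 0) (XT.nd (nat_lit 156) (nat_lit 1140) (nat_lit 0) (XT.nd (nat_lit 78) (nat_lit 608) (nat_lit 0) (XT.lf (nat_lit 0) (nat_lit 1557771167) (nat_lit 532) (nat_lit 3789033372) (nat_lit 608) (nat_lit 10466473498) (nat_lit 281) (nat_lit 5) (nat_lit 288) (nat_lit 5) (nat_lit 289) (nat_lit 5) (nat_lit 404) (nat_lit 363) (nat_lit 253)) (XT.lf (nat_lit 0) (nat_lit 90369512) (nat_lit 608) (nat_lit 10189251914) (nat_lit 684) (nat_lit 5803061401) (nat_lit 273) (nat_lit 5) (nat_lit 281) (nat_lit 5) (nat_lit 282) (nat_lit 5) (nat_lit 405) (nat_lit 363) (nat_lit 252))) (XT.nd (nat_lit 78) (nat_lit 1140) (nat_lit 0) (XT.lf (nat_lit 0) (nat_lit 15006239369) (nat_lit 608) (nat_lit 453540867) (nat_lit 684) (nat_lit 898402375) (nat_lit 273) (nat_lit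 5) (nat_lit 281) (nat_lit 5) (nat_lit 282) (nat_lit 5) (nat_lit 406) (nat_lit 363) (nat_lit 251)) (XT.nd (nat_lit 78) (nat_lit 532) (nat_lit 0) (XT.lf (nat_lit 0) (nat_lit 4229850277) (nat_lit 608) (nat_lit 2849839729) (nat_lit 76) (nat_lit 9559099523) (nat_lit 265) (nat_lit 5) (nat_lit 273) (nat_lit 5) (nat_lit 266) (nat_lit 5) (nat_lit 407) (nat_lit 363) (nat_lit 250)) (XT.lf (nat_lit 0) (nat_lit 9592057014) (nat_lit 608) (nat_lit 4343961582) (nat_lit 76) (nat_lit 2989831044) (nat_lit 258) (nat_lit 5) (nat_lit 266) (nat_lit 5) (nat_lit 259) (nat_lit 5) (nat_lit 408) (nat_lit 363) (nat_lit 249))))) (XT.nd (nat_lit 156) (nat_lit 1520) (nat_lit 0) (XT.nd (nat_lit 78) (nat_lit 608) (nat_lit 0) (XT.lf (nat_lit 0) (nat_lit 11366982464) (nat_lit 532) (nat_lit 3867621869) (nat_lit 608) (nat_lit 1984527733) (nat_lit 251) (nat_lit 5) (nat_lit 258) (nat_lit 5) (nat_lit 259) (nat_lit 5) (nat_lit 409) (nat_lit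 363) (nat_lit 248)) (XT.lf (nat_lit 0) (nat_lit 3596773300) (nat_lit 608) (nat_lit 7392699642) (nat_lit 76) (nat_lit 6528926423) (nat_lit 243) (nat_lit 5) (nat_lit 251) (nat_lit 5) (nat_lit 244) (nat_lit 5) (nat_lit 410) (nat_lit 363) (nat_lit 247))) (XT.nd (nat_lit 78) (nat_lit 1064) (nat_lit 0) (XT.lf (nat_lit 0) (nat_lit 8885515965) (nat_lit 456) (nat_lit 536213299) (nat_lit 532) (nat_lit 8402589507) (nat_lit 237) (nat_lit 5) (nat_lit 243) (nat_lit 5) (nat_lit 244) (nat_lit 5) (nat_lit 411) (nat_lit 363) (nat_lit 246)) (XT.nd (nat_lit 78) (nat_lit 532) (nat_lit 0) (XT.lf (nat_lit 0) (nat_lit 7619391094) (nat_lit 532) (nat_lit 7948272801) (nat_lit 608) (nat_lit 2568827264) (nat_lit 230) (nat_lit 5) (nat_lit 237) (nat_lit 5) (nat_lit 238) (nat_lit 5) (nat_lit 412) (nat_lit 363) (nat_lit 245)) (XT.lf (nat_lit 0) (nat_lit 3499670418) (nat_lit 532) (nat_lit 12105973665) (nat_lit 76) (nat_lit 2849841184)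 (nat_lit 223) (nat_lit 5) (nat_lit 230) (nat_lit 5) (nat_lit 224) (nat_lit 5) (nat_lit 413) (nat_lit 363) (nat_lit 244))))))) (XT.nd (nat_lit 49296) (nat_lit 0) (nat_lit 28500) (XT.nd (nat_lit 390) (nat_lit 1748) (nat_lit 0) (XT.nd (nat_lit 156) (nat_lit 912) (nat_lit 0) (XT.nd (nat_lit 78) (nat_lit 456) (nat_lit 0) (XT.lf (nat_lit 0) (nat_lit 5050582659) (nat_lit 456) (nat_lit 4803144187) (nat_lit 532) (nat_lit 8927214674) (nat_lit 217) (nat_lit 5) (nat_lit 223) (nat_lit 5) (nat_lit 224) (nat_lit 5) (nat_lit 414) (nat_lit 363) (nat_lit 243)) (XT.lf (nat_lit 0) (nat_lit 3752463061) (nat_lit 456) (nat_lit 12774788789) (nat_lit 532) (nat_lit 2586332671) (nat_lit 211) (nat_lit 5) (nat_lit 217) (nat_lit 5) (nat_lit 218) (nat_lit 5) (nat_lit 415) (nat_lit 363) (nat_lit 242))) (XT.nd (nat_lit 78) (nat_lit 380) (nat_lit 0) (XT.lf (nat_lit 0) (nat_lit 2439036990) (nat_lit 456) (nat_lit 1576720173) (nat_lit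 532) (nat_lit 15437483051) (nat_lit 204) (nat_lit 5) (nat_lit 210) (nat_lit 5) (nat_lit 211) (nat_lit 5) (nat_lit 416) (nat_lit 363) (nat_lit 241)) (XT.nd (nat_lit 78) (nat_lit 0) (nat_lit 0) (XT.lf (nat_lit 0) (nat_lit 1086245869) (nat_lit 380) (nat_lit 9852626274) (nat_lit 456) (nat_lit 8860709511) (nat_lit 199) (nat_lit 5) (nat_lit 204) (nat_lit 5) (nat_lit 205) (nat_lit 5) (nat_lit 417) (nat_lit 363) (nat_lit 240)) (XT.lf (nat_lit 0) (nat_lit 18188574401) (nat_lit 456) (nat_lit 240966116) (nat_lit 76) (nat_lit 1724394943) (nat_lit 199) (nat_lit 5) (nat_lit 205) (nat_lit 5) (nat_lit 200) (nat_lit 5) (nat_lit 418) (nat_lit 363) (nat_lit 239))))) (XT.nd (nat_lit 156) (nat_lit 836) (nat_lit 0) (XT.nd (nat_lit 78) (nat_lit 380) (nat_lit 0) (XT.lf (nat_lit 0) (nat_lit 5241731907) (nat_lit 532) (nat_lit 1608754075) (nat_lit 76) (nat_lit 13664321766) (nat_lit 192) (nat_lit 5) (nat_lit 199) (nat_lit 5)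 (nat_lit 193) (nat_lit 5) (nat_lit 419) (nat_lit 363) (nat_lit 238)) (XT.lf (nat_lit 0) (nat_lit 12772858663) (nat_lit 456) (nat_lit 2978231082) (nat_lit 76) (nat_lit 5132466190) (nat_lit 187) (nat_lit 5) (nat_lit 193) (nat_lit 5) (nat_lit 188) (nat_lit 5) (nat_lit 420) (nat_lit 363) (nat_lit 237))) (XT.nd (nat_lit 78) (nat_lit 456) (nat_lit 0) (XT.lf (nat_lit 0) (nat_lit 16913108851) (nat_lit 380) (nat_lit 3766171915) (nat_lit 456) (nat_lit 581098569) (nat_lit 182) (nat_lit 5) (nat_lit 187) (nat_lit 5) (nat_lit 188) (nat_lit 5) (nat_lit 421) (nat_lit 363) (nat_lit 236)) (XT.nd (nat_lit 48594) (nat_lit 0) (nat_lit 31388) (XT.lf (nat_lit 0) (nat_lit 7243784960) (nat_lit 456) (nat_lit 5772465759) (nat_lit 76) (nat_lit 8628055295) (nat_lit 176) (nat_lit 5) (nat_lit 182) (nat_lit 5) (nat_lit 177) (nat_lit 5) (nat_lit 422) (nat_lit 363) (nat_lit 235)) (XT.lf (nat_lit 0) (nat_lit 2436846040) (nat_lit 1596)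 (nat_lit 1004613083) (nat_lit 1596) (nat_lit 1004613083) (nat_lit 589) (nat_lit 3) (nat_lit 610) (nat_lit 3) (nat_lit 610) (nat_lit 5) (nat_lit 364) (nat_lit 364) (nat_lit 292)))))) (XT.nd (nat_lit 390) (nat_lit 1444) (nat_lit 0) (XT.nd (nat_lit 156) (nat_lit 1444) (nat_lit 0) (XT.nd (nat_lit 78) (nat_lit 0) (nat_lit 76) (XT.lf (nat_lit 76) (nat_lit 4717166332) (nat_lit 0) (nat_lit 1648693816) (nat_lit 1596) (nat_lit 2631285177) (nat_lit 590) (nat_lit 5) (nat_lit 589) (nat_lit 3) (nat_lit 610) (nat_lit 5) (nat_lit 365) (nat_lit 364) (nat_lit 291)) (XT.lf (nat_lit 76) (nat_lit 2547590965) (nat_lit 0) (nat_lit 5355550036) (nat_lit 1596) (nat_lit 1202148307) (nat_lit 591) (nat_lit 5) (nat_lit 590) (nat_lit 5) (nat_lit 611) (nat_lit 5) (nat_lit 366) (nat_lit 364) (nat_lit 290))) (XT.nd (nat_lit 78) (nat_lit 0) (nat_lit 0) (XT.lf (nat_lit 0) (nat_lit 256726820) (nat_lit 1596) (nat_lit 8832626796) (nat_lit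 1672) (nat_lit 127480886) (nat_lit 570) (nat_lit 5) (nat_lit 591) (nat_lit 5) (nat_lit 592) (nat_lit 5) (nat_lit 367) (nat_lit 364) (nat_lit 289)) (XT.nd (nat_lit 78) (nat_lit 0) (nat_lit 76) (XT.lf (nat_lit 0) (nat_lit 1772027393) (nat_lit 1596) (nat_lit 1781050167) (nat_lit 1672) (nat_lit 5777909733) (nat_lit 570) (nat_lit 5) (nat_lit 591) (nat_lit 5) (nat_lit 592) (nat_lit 5) (nat_lit 368) (nat_lit 364) (nat_lit 288)) (XT.lf (nat_lit 0) (nat_lit 3332844369) (nat_lit 1596) (nat_lit 3937957966) (nat_lit 1672) (nat_lit 2177761186) (nat_lit 571) (nat_lit 5) (nat_lit 592) (nat_lit 5) (nat_lit 593) (nat_lit 5) (nat_lit 369) (nat_lit 364) (nat_lit 287))))) (XT.nd (nat_lit 156) (nat_lit 1520) (nat_lit 0) (XT.nd (nat_lit 78) (nat_lit 0) (nat_lit 76) (XT.lf (nat_lit 76) (nat_lit 3467652235) (nat_lit 0) (nat_lit 1482517675) (nat_lit 1672) (nat_lit 4619303443) (nat_lit 572) (nat_lit 5) (nat_lit 571) (nat_lit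 5) (nat_lit 593) (nat_lit 5) (nat_lit 370) (nat_lit 364) (nat_lit 286)) (XT.lf (nat_lit 76) (nat_lit 1414618458) (nat_lit 0) (nat_lit 5219131665) (nat_lit 1672) (nat_lit 3059905661) (nat_lit 573) (nat_lit 5) (nat_lit 572) (nat_lit 5) (nat_lit 594) (nat_lit 5) (nat_lit 371) (nat_lit 364) (nat_lit 285))) (XT.nd (nat_lit 78) (nat_lit 1672) (nat_lit 0) (XT.lf (nat_lit 0) (nat_lit 8378195915) (nat_lit 1596) (nat_lit 626843005) (nat_lit 1672) (nat_lit 816317603) (nat_lit 573) (nat_lit 5) (nat_lit 594) (nat_lit 5) (nat_lit 595) (nat_lit 5) (nat_lit 372) (nat_lit 364) (nat_lit 284)) (XT.nd (nat_lit 78) (nat_lit 0) (nat_lit 76) (XT.lf (nat_lit 0) (nat_lit 256864982) (nat_lit 1672) (nat_lit 2668426289) (nat_lit 1748) (nat_lit 7026814357) (nat_lit 551) (nat_lit 5) (nat_lit 573) (nat_lit 5) (nat_lit 574) (nat_lit 5) (nat_lit 373) (nat_lit 364) (nat_lit 283)) (XT.lf (nat_lit 0) (nat_lit 2005767309) (nat_lit 1672)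 (nat_lit 4724671895) (nat_lit 1748) (nat_lit 3355797559) (nat_lit 552) (nat_lit 5) (nat_lit 574) (nat_lit 5) (nat_lit 575) (nat_lit 5) (nat_lit 374) (nat_lit 364) (nat_lit 282))))))))
noncomputable def xc96 : XT := (XT.nd (nat_lit 1482) (nat_lit 11324) (nat_lit 0) (XT.nd (nat_lit 702) (nat_lit 8132) (nat_lit 0) (XT.nd (nat_lit 312) (nat_lit 5016) (nat_lit 0) (XT.nd (nat_lit 156) (nat_lit 0) (nat_lit 152) (XT.nd (nat_lit 78) (nat_lit 0) (nat_lit 76) (XT.lf (nat_lit 76) (nat_lit 3439674274) (nat_lit 0) (nat_lit 384791781) (nat_lit 1748) (nat_lit 6399579189) (nat_lit 553) (nat_lit 5) (nat_lit 552) (nat_lit 5) (nat_lit 575) (nat_lit 5) (nat_lit 375) (nat_lit 364) (nat_lit 281)) (XT.lf (nat_lit 76) (nat_lit 1496636485) (nat_lit 0) (nat_lit 4241328563) (nat_lit 1748) (nat_lit 4627218148) (nat_lit 554) (nat_lit 5) (nat_lit 553) (nat_lit 5) (nat_lit 576) (nat_lit 5) (nat_lit 376) (nat_lit 364) (nat_lit 280)))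 (XT.nd (nat_lit 78) (nat_lit 0) (nat_lit 0) (XT.lf (nat_lit 0) (nat_lit 7732149753) (nat_lit 1672) (nat_lit 440058536) (nat_lit 1748) (nat_lit 2337881380) (nat_lit 554) (nat_lit 5) (nat_lit 576) (nat_lit 5) (nat_lit 577) (nat_lit 5) (nat_lit 377) (nat_lit 364) (nat_lit 279)) (XT.lf (nat_lit 76) (nat_lit 8291086613) (nat_lit 0) (nat_lit 1537885347) (nat_lit 1748) (nat_lit 829515139) (nat_lit 555) (nat_lit 5) (nat_lit 554) (nat_lit 5) (nat_lit 577) (nat_lit 5) (nat_lit 378) (nat_lit 364) (nat_lit 278)))) (XT.nd (nat_lit 156) (nat_lit 3496) (nat_lit 0) (XT.nd (nat_lit 78) (nat_lit 0) (nat_lit 76) (XT.lf (nat_lit 0) (nat_lit 1203395259) (nat_lit 1748) (nat_lit 4319584485) (nat_lit 1824) (nat_lit 5287374340) (nat_lit 532) (nat_lit 5) (nat_lit 555) (nat_lit 5) (nat_lit 556) (nat_lit 5) (nat_lit 379) (nat_lit 364) (nat_lit 277)) (XT.lf (nat_lit 0) (nat_lit 3314326627) (nat_lit 1748) (nat_lit 6279930347)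 (nat_lit 76) (nat_lit 1371844371) (nat_lit 533) (nat_lit 5) (nat_lit 556) (nat_lit 5) (nat_lit 534) (nat_lit 5) (nat_lit 380) (nat_lit 364) (nat_lit 276))) (XT.nd (nat_lit 78) (nat_lit 1824) (nat_lit 0) (XT.lf (nat_lit 0) (nat_lit 2864555315) (nat_lit 1748) (nat_lit 2672266420) (nat_lit 1824) (nat_lit 5588734573) (nat_lit 510) (nat_lit 5) (nat_lit 533) (nat_lit 5) (nat_lit 534) (nat_lit 5) (nat_lit 381) (nat_lit 364) (nat_lit 275)) (XT.nd (nat_lit 78) (nat_lit 0) (nat_lit 0) (XT.lf (nat_lit 0) (nat_lit 1033300222) (nat_lit 1824) (nat_lit 6835320631) (nat_lit 1900) (nat_lit 3420321485) (nat_lit 486) (nat_lit 5) (nat_lit 510) (nat_lit 5) (nat_lit 511) (nat_lit 5) (nat_lit 382) (nat_lit 364) (nat_lit 274)) (XT.lf (nat_lit 0) (nat_lit 10311439616) (nat_lit 1900) (nat_lit 788313938) (nat_lit 76) (nat_lit 356655079) (nat_lit 486) (nat_lit 5) (nat_lit 511) (nat_lit 5) (nat_lit 487) (nat_lit 5) (nat_lit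 383) (nat_lit 364) (nat_lit 273)))))) (XT.nd (nat_lit 390) (nat_lit 3344) (nat_lit 0) (XT.nd (nat_lit 156) (nat_lit 2660) (nat_lit 0) (XT.nd (nat_lit 78) (nat_lit 912) (nat_lit 0) (XT.lf (nat_lit 0) (nat_lit 1253596563) (nat_lit 1216) (nat_lit 2631038085) (nat_lit 76) (nat_lit 7742695165) (nat_lit 470) (nat_lit 5) (nat_lit 486) (nat_lit 5) (nat_lit 471) (nat_lit 5) (nat_lit 384) (nat_lit 364) (nat_lit 272)) (XT.lf (nat_lit 0) (nat_lit 3751739492) (nat_lit 988) (nat_lit 4486418755) (nat_lit 76) (nat_lit 3564205493) (nat_lit 458) (nat_lit 5) (nat_lit 471) (nat_lit 5) (nat_lit 459) (nat_lit 5) (nat_lit 385) (nat_lit 364) (nat_lit 271))) (XT.nd (nat_lit 78) (nat_lit 1748) (nat_lit 0) (XT.lf (nat_lit 0) (nat_lit 5631993993) (nat_lit 912) (nat_lit 740723274) (nat_lit 988) (nat_lit 5608973608) (nat_lit 446) (nat_lit 5) (nat_lit 458) (nat_lit 5) (nat_lit 459) (nat_lit 5) (nat_lit 386) (nat_lit 364) (nat_lit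 270)) (XT.nd (nat_lit 78) (nat_lit 912) (nat_lit 0) (XT.lf (nat_lit 0) (nat_lit 3924540104) (nat_lit 836) (nat_lit 5217358387) (nat_lit 912) (nat_lit 3023107850) (nat_lit 435) (nat_lit 5) (nat_lit 446) (nat_lit 5) (nat_lit 447) (nat_lit 5) (nat_lit 387) (nat_lit 364) (nat_lit 269)) (XT.lf (nat_lit 0) (nat_lit 2217481339) (nat_lit 912) (nat_lit 9824450003) (nat_lit 988) (nat_lit 310934406) (nat_lit 423) (nat_lit 5) (nat_lit 435) (nat_lit 5) (nat_lit 436) (nat_lit 5) (nat_lit 388) (nat_lit 364) (nat_lit 268))))) (XT.nd (nat_lit 156) (nat_lit 2432) (nat_lit 0) (XT.nd (nat_lit 78) (nat_lit 0) (nat_lit 0) (XT.lf (nat_lit 0) (nat_lit 480638333) (nat_lit 836) (nat_lit 2033028143) (nat_lit 912) (nat_lit 10031099646) (nat_lit 411) (nat_lit 5) (nat_lit 422) (nat_lit 5) (nat_lit 423) (nat_lit 5) (nat_lit 389) (nat_lit 364) (nat_lit 267)) (XT.lf (nat_lit 0) (nat_lit 5496935554) (nat_lit 912) (nat_lit 1259709753)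 (nat_lit 76) (nat_lit 5984174004) (nat_lit 411) (nat_lit 5) (nat_lit 423) (nat_lit 5) (nat_lit 412) (nat_lit 5) (nat_lit 390) (nat_lit 364) (nat_lit 266))) (XT.nd (nat_lit 78) (nat_lit 1596) (nat_lit 0) (XT.lf (nat_lit 0) (nat_lit 8627577182) (nat_lit 912) (nat_lit 2994825729) (nat_lit 76) (nat_lit 1319193695) (nat_lit 400) (nat_lit 5) (nat_lit 412) (nat_lit 5) (nat_lit 401) (nat_lit 5) (nat_lit 391) (nat_lit 364) (nat_lit 265)) (XT.nd (nat_lit 78) (nat_lit 836) (nat_lit 0) (XT.lf (nat_lit 0) (nat_lit 8393036664) (nat_lit 760) (nat_lit 3538977660) (nat_lit 836) (nat_lit 1214785370) (nat_lit 390) (nat_lit 5) (nat_lit 400) (nat_lit 5) (nat_lit 401) (nat_lit 5) (nat_lit 392) (nat_lit 364) (nat_lit 264)) (XT.lf (nat_lit 0) (nat_lit 2020047222) (nat_lit 836) (nat_lit 6536209981) (nat_lit 76) (nat_lit 4800273780) (nat_lit 379) (nat_lit 5) (nat_lit 390) (nat_lit 5) (nat_lit 380) (nat_lit 5) (nat_lit 393)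 (nat_lit 364) (nat_lit 263))))))) (XT.nd (nat_lit 780) (nat_lit 5092) (nat_lit 0) (XT.nd (nat_lit 390) (nat_lit 3268) (nat_lit 0) (XT.nd (nat_lit 156) (nat_lit 1444) (nat_lit 0) (XT.nd (nat_lit 78) (nat_lit 760) (nat_lit 0) (XT.lf (nat_lit 0) (nat_lit 5241341554) (nat_lit 760) (nat_lit 156958314) (nat_lit 836) (nat_lit 8172836164) (nat_lit 369) (nat_lit 5) (nat_lit 379) (nat_lit 5) (nat_lit 380) (nat_lit 5) (nat_lit 394) (nat_lit 364) (nat_lit 262)) (XT.lf (nat_lit 0) (nat_lit 3632380772) (nat_lit 760) (nat_lit 5342084757) (nat_lit 836) (nat_lit 4815782395) (nat_lit 359) (nat_lit 5) (nat_lit 369) (nat_lit 5) (nat_lit 370) (nat_lit 5) (nat_lit 395) (nat_lit 364) (nat_lit 261))) (XT.nd (nat_lit 78) (nat_lit 760) (nat_lit 0) (XT.lf (nat_lit 0) (nat_lit 2026191372) (nat_lit 684) (nat_lit 10697934299) (nat_lit 760) (nat_lit 1290483311) (nat_lit 350) (nat_lit 5) (nat_lit 359) (nat_lit 5) (nat_lit 360)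 (nat_lit 5) (nat_lit 396) (nat_lit 364) (nat_lit 260)) (XT.nd (nat_lit 78) (nat_lit 0) (nat_lit 0) (XT.lf (nat_lit 0) (nat_lit 394210744) (nat_lit 684) (nat_lit 1997449541) (nat_lit 760) (nat_lit 11852101003) (nat_lit 340) (nat_lit 5) (nat_lit 349) (nat_lit 5) (nat_lit 350) (nat_lit 5) (nat_lit 397) (nat_lit 364) (nat_lit 259)) (XT.lf (nat_lit 0) (nat_lit 6268566363) (nat_lit 760) (nat_lit 1250189889) (nat_lit 76) (nat_lit 6958824695) (nat_lit 340) (nat_lit 5) (nat_lit 350) (nat_lit 5) (nat_lit 341) (nat_lit 5) (nat_lit 398) (nat_lit 364) (nat_lit 258))))) (XT.nd (nat_lit 156) (nat_lit 1900) (nat_lit 0) (XT.nd (nat_lit 78) (nat_lit 684) (nat_lit 0) (XT.lf (nat_lit 0) (nat_lit 10337305445) (nat_lit 760) (nat_lit 2887029517) (nat_lit 76) (nat_lit 1492569716) (nat_lit 331) (nat_lit 5) (nat_lit 341) (nat_lit 5) (nat_lit 332) (nat_lit 5) (nat_lit 399) (nat_lit 364) (nat_lit 257)) (XT.lf (nat_lit 0) (nat_lit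 10413290307) (nat_lit 684) (nat_lit 4217208712) (nat_lit 760) (nat_lit 330861257) (nat_lit 322) (nat_lit 5) (nat_lit 331) (nat_lit 5) (nat_lit 332) (nat_lit 5) (nat_lit 400) (nat_lit 364) (nat_lit 256))) (XT.nd (nat_lit 78) (nat_lit 1216) (nat_lit 0) (XT.lf (nat_lit 0) (nat_lit 3876967125) (nat_lit 684) (nat_lit 6241661639) (nat_lit 76) (nat_lit 5092262589) (nat_lit 313) (nat_lit 5) (nat_lit 322) (nat_lit 5) (nat_lit 314) (nat_lit 5) (nat_lit 401) (nat_lit 364) (nat_lit 255)) (XT.nd (nat_lit 78) (nat_lit 608) (nat_lit 0) (XT.lf (nat_lit 0) (nat_lit 7526138559) (nat_lit 608) (nat_lit 765313015) (nat_lit 684) (nat_lit 7174714720) (nat_lit 305) (nat_lit 5) (nat_lit 313) (nat_lit 5) (nat_lit 314) (nat_lit 5) (nat_lit 402) (nat_lit 364) (nat_lit 254)) (XT.lf (nat_lit 0) (nat_lit 6056824481) (nat_lit 608) (nat_lit 6898281034) (nat_lit 684) (nat_lit 2771659271) (nat_lit 297) (nat_lit 5) (nat_lit 305) (nat_lit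 5) (nat_lit 306) (nat_lit 5) (nat_lit 403) (nat_lit 364) (nat_lit 253)))))) (XT.nd (nat_lit 390) (nat_lit 2660) (nat_lit 0) (XT.nd (nat_lit 156) (nat_lit 1216) (nat_lit 0) (XT.nd (nat_lit 78) (nat_lit 532) (nat_lit 0) (XT.lf (nat_lit 0) (nat_lit 1825258664) (nat_lit 684) (nat_lit 11408900214) (nat_lit 76) (nat_lit 2759095375) (nat_lit 288) (nat_lit 5) (nat_lit 297) (nat_lit 5) (nat_lit 289) (nat_lit 5) (nat_lit 404) (nat_lit 364) (nat_lit 252)) (XT.lf (nat_lit 0) (nat_lit 3078823674) (nat_lit 532) (nat_lit 3553913590) (nat_lit 608) (nat_lit 9632428542) (nat_lit 281) (nat_lit 5) (nat_lit 288) (nat_lit 5) (nat_lit 289) (nat_lit 5) (nat_lit 405) (nat_lit 364) (nat_lit 251))) (XT.nd (nat_lit 78) (nat_lit 608) (nat_lit 0) (XT.lf (nat_lit 0) (nat_lit 1563398413) (nat_lit 608) (nat_lit 10129102759) (nat_lit 684) (nat_lit 4850572317) (nat_lit 273) (nat_lit 5) (nat_lit 281) (nat_lit 5) (nat_lit 282) (nat_lit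 5) (nat_lit 406) (nat_lit 364) (nat_lit 250)) (XT.nd (nat_lit 78) (nat_lit 0) (nat_lit 0) (XT.lf (nat_lit 0) (nat_lit 56079960) (nat_lit 532) (nat_lit 110488816) (nat_lit 608) (nat_lit 16660883732) (nat_lit 265) (nat_lit 5) (nat_lit 272) (nat_lit 5) (nat_lit 273) (nat_lit 5) (nat_lit 407) (nat_lit 364) (nat_lit 249)) (XT.lf (nat_lit 0) (nat_lit 5416284194) (nat_lit 608) (nat_lit 1498090678) (nat_lit 76) (nat_lit 10202387574) (nat_lit 265) (nat_lit 5) (nat_lit 273) (nat_lit 5) (nat_lit 266) (nat_lit 5) (nat_lit 408) (nat_lit 364) (nat_lit 248))))) (XT.nd (nat_lit 156) (nat_lit 1596) (nat_lit 0) (XT.nd (nat_lit 78) (nat_lit 532) (nat_lit 0) (XT.lf (nat_lit 0) (nat_lit 10920118627) (nat_lit 608) (nat_lit 3042038288) (nat_lit 76) (nat_lit 3450662216) (nat_lit 258) (nat_lit 5) (nat_lit 266) (nat_lit 5) (nat_lit 259) (nat_lit 5) (nat_lit 409) (nat_lit 364) (nat_lit 247)) (XT.lf (nat_lit 0) (nat_lit 13116997652)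 (nat_lit 532) (nat_lit 3593792916) (nat_lit 608) (nat_lit 1004532498) (nat_lit 251) (nat_lit 5) (nat_lit 258) (nat_lit 5) (nat_lit 259) (nat_lit 5) (nat_lit 410) (nat_lit 364) (nat_lit 246))) (XT.nd (nat_lit 78) (nat_lit 988) (nat_lit 0) (XT.lf (nat_lit 0) (nat_lit 4712341348) (nat_lit 608) (nat_lit 6197380901) (nat_lit 76) (nat_lit 7114075800) (nat_lit 243) (nat_lit 5) (nat_lit 251) (nat_lit 5) (nat_lit 244) (nat_lit 5) (nat_lit 411) (nat_lit 364) (nat_lit 245)) (XT.nd (nat_lit 78) (nat_lit 532) (nat_lit 0) (XT.lf (nat_lit 0) (nat_lit 10546190415) (nat_lit 456) (nat_lit 145557595) (nat_lit 532) (nat_lit 7647552987) (nat_lit 237) (nat_lit 5) (nat_lit 243) (nat_lit 5) (nat_lit 244) (nat_lit 5) (nat_lit 412) (nat_lit 364) (nat_lit 244)) (XT.lf (nat_lit 0) (nat_lit 9236293001) (nat_lit 532) (nat_lit 7768587237) (nat_lit 608) (nat_lit 1656301927) (nat_lit 230) (nat_lit 5) (nat_lit 237) (nat_lit 5) (nat_lit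 238) (nat_lit 5) (nat_lit 413) (nat_lit 364) (nat_lit 243))))))))
noncomputable def xc97 : XT := (XT.nd (nat_lit 50076) (nat_lit 0) (nat_lit 15048) (XT.nd (nat_lit 49296) (nat_lit 0) (nat_lit 28120) (XT.nd (nat_lit 312) (nat_lit 1748) (nat_lit 0) (XT.nd (nat_lit 156) (nat_lit 988) (nat_lit 0) (XT.nd (nat_lit 78) (nat_lit 456) (nat_lit 0) (XT.lf (nat_lit 0) (nat_lit 4564513908) (nat_lit 532) (nat_lit 11074182431) (nat_lit 76) (nat_lit 3351256419) (nat_lit 223) (nat_lit 5) (nat_lit 230) (nat_lit 5) (nat_lit 224) (nat_lit 5) (nat_lit 414) (nat_lit 364) (nat_lit 242)) (XT.lf (nat_lit 0) (nat_lit 6574438844) (nat_lit 456) (nat_lit 4515706422) (nat_lit 532) (nat_lit 8235408366) (nat_lit 217) (nat_lit 5) (nat_lit 223) (nat_lit 5) (nat_lit 224) (nat_lit 5) (nat_lit 415) (nat_lit 364) (nat_lit 241))) (XT.nd (nat_lit 78) (nat_lit 532) (nat_lit 0) (XT.lf (nat_lit 0) (nat_lit 5230865620) (nat_lit 456) (nat_lit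 12717196320) (nat_lit 532) (nat_lit 1720430266) (nat_lit 211) (nat_lit 5) (nat_lit 217) (nat_lit 5) (nat_lit 218) (nat_lit 5) (nat_lit 416) (nat_lit 364) (nat_lit 240)) (XT.lf (nat_lit 0) (nat_lit 3868051137) (nat_lit 456) (nat_lit 1180980135) (nat_lit 532) (nat_lit 14969550121) (nat_lit 204) (nat_lit 5) (nat_lit 210) (nat_lit 5) (nat_lit 211) (nat_lit 5) (nat_lit 417) (nat_lit 364) (nat_lit 239)))) (XT.nd (nat_lit 156) (nat_lit 912) (nat_lit 0) (XT.nd (nat_lit 78) (nat_lit 456) (nat_lit 0) (XT.lf (nat_lit 0) (nat_lit 2467809333) (nat_lit 380) (nat_lit 9696995105) (nat_lit 456) (nat_lit 8210809342) (nat_lit 199) (nat_lit 5) (nat_lit 204) (nat_lit 5) (nat_lit 205) (nat_lit 5) (nat_lit 418) (nat_lit 364) (nat_lit 238)) (XT.lf (nat_lit 0) (nat_lit 1090379064) (nat_lit 456) (nat_lit 18525393863) (nat_lit 532) (nat_lit 1125149770) (nat_lit 193) (nat_lit 5) (nat_lit 199) (nat_lit 5) (nat_lit 200) (nat_lit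 5) (nat_lit 419) (nat_lit 364) (nat_lit 237))) (XT.nd (nat_lit 78) (nat_lit 836) (nat_lit 0) (XT.lf (nat_lit 0) (nat_lit 6262112984) (nat_lit 532) (nat_lit 342757285) (nat_lit 76) (nat_lit 14508119130) (nat_lit 192) (nat_lit 5) (nat_lit 199) (nat_lit 5) (nat_lit 193) (nat_lit 5) (nat_lit 420) (nat_lit 364) (nat_lit 236)) (XT.nd (nat_lit 78) (nat_lit 456) (nat_lit 0) (XT.lf (nat_lit 0) (nat_lit 14005327783) (nat_lit 456) (nat_lit 1760612537) (nat_lit 76) (nat_lit 5727136624) (nat_lit 187) (nat_lit 5) (nat_lit 193) (nat_lit 5) (nat_lit 188) (nat_lit 5) (nat_lit 421) (nat_lit 364) (nat_lit 235)) (XT.lf (nat_lit 0) (nat_lit 247729151) (nat_lit 456) (nat_lit 3176898982) (nat_lit 76) (nat_lit 18456872086) (nat_lit 181) (nat_lit 5) (nat_lit 187) (nat_lit 5) (nat_lit 182) (nat_lit 5) (nat_lit 422) (nat_lit 364) (nat_lit 234)))))) (XT.nd (nat_lit 390) (nat_lit 1292) (nat_lit 0) (XT.nd (nat_lit 156) (nat_lit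 0) (nat_lit 76) (XT.nd (nat_lit 78) (nat_lit 1596) (nat_lit 0) (XT.lf (nat_lit 0) (nat_lit 3885040641) (nat_lit 1596) (nat_lit 333455973) (nat_lit 1596) (nat_lit 333455973) (nat_lit 589) (nat_lit 3) (nat_lit 610) (nat_lit 3) (nat_lit 610) (nat_lit 5) (nat_lit 365) (nat_lit 365) (nat_lit 290)) (XT.lf (nat_lit 0) (nat_lit 22098257) (nat_lit 1596) (nat_lit 2975107414) (nat_lit 1672) (nat_lit 6216270406) (nat_lit 568) (nat_lit 5) (nat_lit 589) (nat_lit 3) (nat_lit 590) (nat_lit 5) (nat_lit 366) (nat_lit 365) (nat_lit 289))) (XT.nd (nat_lit 78) (nat_lit 0) (nat_lit 0) (XT.lf (nat_lit 0) (nat_lit 1397283400) (nat_lit 1596) (nat_lit 5293122185) (nat_lit 1672) (nat_lit 2635818053) (nat_lit 569) (nat_lit 5) (nat_lit 590) (nat_lit 5) (nat_lit 591) (nat_lit 5) (nat_lit 367) (nat_lit 365) (nat_lit 288)) (XT.nd (nat_lit 78) (nat_lit 0) (nat_lit 76) (XT.lf (nat_lit 76) (nat_lit 1826305332) (nat_lit 0) (nat_lit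 989509681) (nat_lit 1672) (nat_lit 6626496796) (nat_lit 570) (nat_lit 5) (nat_lit 569) (nat_lit 5) (nat_lit 591) (nat_lit 5) (nat_lit 368) (nat_lit 365) (nat_lit 287)) (XT.lf (nat_lit 0) (nat_lit 4296024949) (nat_lit 1596) (nat_lit 389798492) (nat_lit 1672) (nat_lit 4875676737) (nat_lit 570) (nat_lit 5) (nat_lit 591) (nat_lit 5) (nat_lit 592) (nat_lit 5) (nat_lit 369) (nat_lit 365) (nat_lit 286))))) (XT.nd (nat_lit 156) (nat_lit 1520) (nat_lit 0) (XT.nd (nat_lit 78) (nat_lit 0) (nat_lit 0) (XT.lf (nat_lit 0) (nat_lit 5834520673) (nat_lit 1596) (nat_lit 2580282521) (nat_lit 1672) (nat_lit 1269183413) (nat_lit 571) (nat_lit 5) (nat_lit 592) (nat_lit 5) (nat_lit 593) (nat_lit 5) (nat_lit 370) (nat_lit 365) (nat_lit 285)) (XT.lf (nat_lit 76) (nat_lit 5023552655) (nat_lit 0) (nat_lit 2416287671) (nat_lit 1672) (nat_lit 2369893922) (nat_lit 572) (nat_lit 5) (nat_lit 571) (nat_lit 5) (nat_lit 593) (nat_lit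 5) (nat_lit 371) (nat_lit 365) (nat_lit 284))) (XT.nd (nat_lit 78) (nat_lit 1596) (nat_lit 0) (XT.lf (nat_lit 76) (nat_lit 2937116853) (nat_lit 0) (nat_lit 6172625622) (nat_lit 1672) (nat_lit 829183385) (nat_lit 573) (nat_lit 5) (nat_lit 572) (nat_lit 5) (nat_lit 594) (nat_lit 5) (nat_lit 372) (nat_lit 365) (nat_lit 283)) (XT.nd (nat_lit 78) (nat_lit 0) (nat_lit 0) (XT.lf (nat_lit 0) (nat_lit 758849672) (nat_lit 1672) (nat_lit 9225056355) (nat_lit 1748) (nat_lit 87768013) (nat_lit 551) (nat_lit 5) (nat_lit 573) (nat_lit 5) (nat_lit 574) (nat_lit 5) (nat_lit 373) (nat_lit 365) (nat_lit 282)) (XT.lf (nat_lit 0) (nat_lit 2429702762) (nat_lit 1672) (nat_lit 1257629315) (nat_lit 1748) (nat_lit 6520034083) (nat_lit 551) (nat_lit 5) (nat_lit 573) (nat_lit 5) (nat_lit 574) (nat_lit 5) (nat_lit 374) (nat_lit 365) (nat_lit 281))))))) (XT.nd (nat_lit 780) (nat_lit 6916) (nat_lit 0) (XT.nd (nat_lit 390) (nat_lit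 4636) (nat_lit 0) (XT.nd (nat_lit 156) (nat_lit 1596) (nat_lit 0) (XT.nd (nat_lit 78) (nat_lit 0) (nat_lit 0) (XT.lf (nat_lit 0) (nat_lit 4173345301) (nat_lit 1672) (nat_lit 3353330398) (nat_lit 1748) (nat_lit 2820000067) (nat_lit 552) (nat_lit 5) (nat_lit 574) (nat_lit 5) (nat_lit 575) (nat_lit 5) (nat_lit 375) (nat_lit 365) (nat_lit 280)) (XT.lf (nat_lit 76) (nat_lit 5031398204) (nat_lit 0) (nat_lit 963490627) (nat_lit 1748) (nat_lit 4494763995) (nat_lit 553) (nat_lit 5) (nat_lit 552) (nat_lit 5) (nat_lit 575) (nat_lit 5) (nat_lit 376) (nat_lit 365) (nat_lit 279))) (XT.nd (nat_lit 78) (nat_lit 1672) (nat_lit 0) (XT.lf (nat_lit 76) (nat_lit 3049988949) (nat_lit 0) (nat_lit 4862148198) (nat_lit 1748) (nat_lit 2723960881) (nat_lit 554) (nat_lit 5) (nat_lit 553) (nat_lit 5) (nat_lit 576) (nat_lit 5) (nat_lit 377) (nat_lit 365) (nat_lit 278)) (XT.nd (nat_lit 78) (nat_lit 1748) (nat_lit 0) (XT.lf (nat_lit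 76) (nat_lit 1067240328) (nat_lit 0) (nat_lit 8844413344) (nat_lit 1748) (nat_lit 874787899) (nat_lit 555) (nat_lit 5) (nat_lit 554) (nat_lit 5) (nat_lit 577) (nat_lit 5) (nat_lit 378) (nat_lit 365) (nat_lit 277)) (XT.lf (nat_lit 0) (nat_lit 1063056250) (nat_lit 1748) (nat_lit 925479748) (nat_lit 1824) (nat_lit 8951691637) (nat_lit 531) (nat_lit 5) (nat_lit 554) (nat_lit 5) (nat_lit 555) (nat_lit 5) (nat_lit 379) (nat_lit 365) (nat_lit 276))))) (XT.nd (nat_lit 156) (nat_lit 4712) (nat_lit 0) (XT.nd (nat_lit 78) (nat_lit 0) (nat_lit 76) (XT.lf (nat_lit 0) (nat_lit 3097404244) (nat_lit 1748) (nat_lit 2926574703) (nat_lit 1824) (nat_lit 5073527617) (nat_lit 532) (nat_lit 5) (nat_lit 555) (nat_lit 5) (nat_lit 556) (nat_lit 5) (nat_lit 380) (nat_lit 365) (nat_lit 275)) (XT.lf (nat_lit 0) (nat_lit 5225225843) (nat_lit 1748) (nat_lit 4932113662) (nat_lit 76) (nat_lit 1101515492) (nat_lit 533) (nat_lit 5)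 (nat_lit 556) (nat_lit 5) (nat_lit 534) (nat_lit 5) (nat_lit 381) (nat_lit 365) (nat_lit 274))) (XT.nd (nat_lit 78) (nat_lit 3040) (nat_lit 0) (XT.lf (nat_lit 0) (nat_lit 4461783313) (nat_lit 1748) (nat_lit 3009663552) (nat_lit 1824) (nat_lit 3952505723) (nat_lit 510) (nat_lit 5) (nat_lit 533) (nat_lit 5) (nat_lit 534) (nat_lit 5) (nat_lit 382) (nat_lit 365) (nat_lit 273)) (XT.nd (nat_lit 78) (nat_lit 1216) (nat_lit 0) (XT.lf (nat_lit 0) (nat_lit 2587511234) (nat_lit 1824) (nat_lit 7242446661) (nat_lit 1900) (nat_lit 1763147145) (nat_lit 486) (nat_lit 5) (nat_lit 510) (nat_lit 5) (nat_lit 511) (nat_lit 5) (nat_lit 383) (nat_lit 365) (nat_lit 272)) (XT.lf (nat_lit 0) (nat_lit 525633932) (nat_lit 1216) (nat_lit 11059009413) (nat_lit 76) (nat_lit 181820985) (nat_lit 470) (nat_lit 5) (nat_lit 486) (nat_lit 5) (nat_lit 471) (nat_lit 5) (nat_lit 384) (nat_lit 365) (nat_lit 271)))))) (XT.nd (nat_lit 390)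 (nat_lit 3268) (nat_lit 0) (XT.nd (nat_lit 156) (nat_lit 2736) (nat_lit 0) (XT.nd (nat_lit 78) (nat_lit 912) (nat_lit 0) (XT.lf (nat_lit 0) (nat_lit 2936701833) (nat_lit 1216) (nat_lit 1199037238) (nat_lit 76) (nat_lit 7807500689) (nat_lit 470) (nat_lit 5) (nat_lit 486) (nat_lit 5) (nat_lit 471) (nat_lit 5) (nat_lit 385) (nat_lit 365) (nat_lit 270)) (XT.lf (nat_lit 0) (nat_lit 5470728431) (nat_lit 988) (nat_lit 3101663656) (nat_lit 76) (nat_lit 3551913831) (nat_lit 458) (nat_lit 5) (nat_lit 471) (nat_lit 5) (nat_lit 459) (nat_lit 5) (nat_lit 386) (nat_lit 365) (nat_lit 269))) (XT.nd (nat_lit 78) (nat_lit 1824) (nat_lit 0) (XT.lf (nat_lit 0) (nat_lit 7295651864) (nat_lit 912) (nat_lit 837598827) (nat_lit 988) (nat_lit 4176503872) (nat_lit 446) (nat_lit 5) (nat_lit 458) (nat_lit 5) (nat_lit 459) (nat_lit 5) (nat_lit 387) (nat_lit 365) (nat_lit 268)) (XT.nd (nat_lit 78) (nat_lit 988) (nat_lit 0) (XT.lf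 (nat_lit 0) (nat_lit 5544079318) (nat_lit 836) (nat_lit 5404998871) (nat_lit 912) (nat_lit 1550219888) (nat_lit 435) (nat_lit 5) (nat_lit 446) (nat_lit 5) (nat_lit 447) (nat_lit 5) (nat_lit 388) (nat_lit 365) (nat_lit 267)) (XT.lf (nat_lit 0) (nat_lit 1191725482) (nat_lit 988) (nat_lit 8909531011) (nat_lit 76) (nat_lit 2592081062) (nat_lit 422) (nat_lit 5) (nat_lit 435) (nat_lit 5) (nat_lit 423) (nat_lit 5) (nat_lit 389) (nat_lit 365) (nat_lit 266))))) (XT.nd (nat_lit 156) (nat_lit 1596) (nat_lit 0) (XT.nd (nat_lit 78) (nat_lit 836) (nat_lit 0) (XT.lf (nat_lit 0) (nat_lit 1998105740) (nat_lit 836) (nat_lit 2064600994) (nat_lit 912) (nat_lit 8828929766) (nat_lit 411) (nat_lit 5) (nat_lit 422) (nat_lit 5) (nat_lit 423) (nat_lit 5) (nat_lit 390) (nat_lit 365) (nat_lit 265)) (XT.lf (nat_lit 0) (nat_lit 192725478) (nat_lit 836) (nat_lit 6901263877) (nat_lit 912) (nat_lit 6000411621) (nat_lit 400) (nat_lit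 5) (nat_lit 411) (nat_lit 5) (nat_lit 412) (nat_lit 5) (nat_lit 391) (nat_lit 365) (nat_lit 264))) (XT.nd (nat_lit 78) (nat_lit 1596) (nat_lit 0) (XT.lf (nat_lit 0) (nat_lit 10285545813) (nat_lit 912) (nat_lit 1593554347) (nat_lit 76) (nat_lit 1422761517) (nat_lit 400) (nat_lit 5) (nat_lit 412) (nat_lit 5) (nat_lit 401) (nat_lit 5) (nat_lit 392) (nat_lit 365) (nat_lit 263)) (XT.nd (nat_lit 78) (nat_lit 760) (nat_lit 0) (XT.lf (nat_lit 0) (nat_lit 142154067) (nat_lit 836) (nat_lit 3403028302) (nat_lit 76) (nat_lit 9968644334) (nat_lit 389) (nat_lit 5) (nat_lit 400) (nat_lit 5) (nat_lit 390) (nat_lit 5) (nat_lit 393) (nat_lit 365) (nat_lit 262)) (XT.lf (nat_lit 0) (nat_lit 3427747341) (nat_lit 836) (nat_lit 5244986582) (nat_lit 76) (nat_lit 5057551017) (nat_lit 379) (nat_lit 5) (nat_lit 390) (nat_lit 5) (nat_lit 380) (nat_lit 5) (nat_lit 394) (nat_lit 365) (nat_lit 261))))))))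
noncomputable def xc98 : XT := (XT.nd (nat_lit 1482) (nat_lit 3800) (nat_lit 0) (XT.nd (nat_lit 702) (nat_lit 5168) (nat_lit 0) (XT.nd (nat_lit 312) (nat_lit 2660) (nat_lit 0) (XT.nd (nat_lit 156) (nat_lit 1444) (nat_lit 0) (XT.nd (nat_lit 78) (nat_lit 760) (nat_lit 0) (XT.lf (nat_lit 0) (nat_lit 6861761666) (nat_lit 760) (nat_lit 15849949) (nat_lit 836) (nat_lit 7074311243) (nat_lit 369) (nat_lit 5) (nat_lit 379) (nat_lit 5) (nat_lit 380) (nat_lit 5) (nat_lit 395) (nat_lit 365) (nat_lit 260)) (XT.lf (nat_lit 0) (nat_lit 5205782126) (nat_lit 760) (nat_lit 5327337548) (nat_lit 836) (nat_lit 3645047284) (nat_lit 359) (nat_lit 5) (nat_lit 369) (nat_lit 5) (nat_lit 370) (nat_lit 5) (nat_lit 396) (nat_lit 365) (nat_lit 259))) (XT.nd (nat_lit 78) (nat_lit 760) (nat_lit 0) (XT.lf (nat_lit 0) (nat_lit 3551900582) (nat_lit 684) (nat_lit 10816427550) (nat_lit 760) (nat_lit 41469546) (nat_lit 350) (nat_lit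 5) (nat_lit 359) (nat_lit 5) (nat_lit 360) (nat_lit 5) (nat_lit 397) (nat_lit 365) (nat_lit 258)) (XT.lf (nat_lit 0) (nat_lit 1863808679) (nat_lit 684) (nat_lit 1842890969) (nat_lit 760) (nat_lit 10939508688) (nat_lit 340) (nat_lit 5) (nat_lit 349) (nat_lit 5) (nat_lit 350) (nat_lit 5) (nat_lit 398) (nat_lit 365) (nat_lit 257)))) (XT.nd (nat_lit 156) (nat_lit 1976) (nat_lit 0) (XT.nd (nat_lit 78) (nat_lit 0) (nat_lit 0) (XT.lf (nat_lit 0) (nat_lit 152405023) (nat_lit 684) (nat_lit 7513637082) (nat_lit 760) (nat_lit 7221677896) (nat_lit 331) (nat_lit 5) (nat_lit 340) (nat_lit 5) (nat_lit 341) (nat_lit 5) (nat_lit 399) (nat_lit 365) (nat_lit 256)) (XT.lf (nat_lit 0) (nat_lit 11831351091) (nat_lit 760) (nat_lit 1536730334) (nat_lit 76) (nat_lit 1766651865) (nat_lit 331) (nat_lit 5) (nat_lit 341) (nat_lit 5) (nat_lit 332) (nat_lit 5) (nat_lit 400) (nat_lit 365) (nat_lit 255))) (XT.nd (nat_lit 78) (nat_lit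 1216) (nat_lit 0) (XT.lf (nat_lit 0) (nat_lit 829976578) (nat_lit 760) (nat_lit 3253202106) (nat_lit 76) (nat_lit 11303740768) (nat_lit 321) (nat_lit 5) (nat_lit 331) (nat_lit 5) (nat_lit 322) (nat_lit 5) (nat_lit 401) (nat_lit 365) (nat_lit 254)) (XT.nd (nat_lit 78) (nat_lit 608) (nat_lit 0) (XT.lf (nat_lit 0) (nat_lit 5136445753) (nat_lit 684) (nat_lit 5001887542) (nat_lit 76) (nat_lit 5506021405) (nat_lit 313) (nat_lit 5) (nat_lit 322) (nat_lit 5) (nat_lit 314) (nat_lit 5) (nat_lit 402) (nat_lit 365) (nat_lit 253)) (XT.lf (nat_lit 0) (nat_lit 9155794893) (nat_lit 608) (nat_lit 503388510) (nat_lit 684) (nat_lit 6248588115) (nat_lit 305) (nat_lit 5) (nat_lit 313) (nat_lit 5) (nat_lit 314) (nat_lit 5) (nat_lit 403) (nat_lit 365) (nat_lit 252)))))) (XT.nd (nat_lit 390) (nat_lit 2128) (nat_lit 0) (XT.nd (nat_lit 156) (nat_lit 1748) (nat_lit 0) (XT.nd (nat_lit 78) (nat_lit 684) (nat_lit 0) (XT.lf (nat_lit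 0) (nat_lit 7639822269) (nat_lit 608) (nat_lit 6801226708) (nat_lit 684) (nat_lit 1735572947) (nat_lit 297) (nat_lit 5) (nat_lit 305) (nat_lit 5) (nat_lit 306) (nat_lit 5) (nat_lit 404) (nat_lit 365) (nat_lit 251)) (XT.lf (nat_lit 0) (nat_lit 2963469171) (nat_lit 684) (nat_lit 10338561969) (nat_lit 76) (nat_lit 3149351685) (nat_lit 288) (nat_lit 5) (nat_lit 297) (nat_lit 5) (nat_lit 289) (nat_lit 5) (nat_lit 405) (nat_lit 365) (nat_lit 250))) (XT.nd (nat_lit 78) (nat_lit 1216) (nat_lit 0) (XT.lf (nat_lit 0) (nat_lit 4560875794) (nat_lit 532) (nat_lit 3331762232) (nat_lit 608) (nat_lit 8839264382) (nat_lit 281) (nat_lit 5) (nat_lit 288) (nat_lit 5) (nat_lit 289) (nat_lit 5) (nat_lit 406) (nat_lit 365) (nat_lit 249)) (XT.nd (nat_lit 78) (nat_lit 608) (nat_lit 0) (XT.lf (nat_lit 0) (nat_lit 2996215923) (nat_lit 608) (nat_lit 10088149080) (nat_lit 684) (nat_lit 3934178915) (nat_lit 273) (nat_lit 5) (nat_lit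 281) (nat_lit 5) (nat_lit 282) (nat_lit 5) (nat_lit 407) (nat_lit 365) (nat_lit 248)) (XT.lf (nat_lit 0) (nat_lit 1199505020) (nat_lit 608) (nat_lit 15878392078) (nat_lit 76) (nat_lit 233820203) (nat_lit 265) (nat_lit 5) (nat_lit 273) (nat_lit 5) (nat_lit 266) (nat_lit 5) (nat_lit 408) (nat_lit 365) (nat_lit 247))))) (XT.nd (nat_lit 156) (nat_lit 1596) (nat_lit 0) (XT.nd (nat_lit 78) (nat_lit 532) (nat_lit 0) (XT.lf (nat_lit 0) (nat_lit 6577489290) (nat_lit 608) (nat_lit 188292854) (nat_lit 76) (nat_lit 10844508844) (nat_lit 265) (nat_lit 5) (nat_lit 273) (nat_lit 5) (nat_lit 266) (nat_lit 5) (nat_lit 409) (nat_lit 365) (nat_lit 246)) (XT.lf (nat_lit 0) (nat_lit 12228304618) (nat_lit 608) (nat_lit 1783273853) (nat_lit 76) (nat_lit 3904013585) (nat_lit 258) (nat_lit 5) (nat_lit 266) (nat_lit 5) (nat_lit 259) (nat_lit 5) (nat_lit 410) (nat_lit 365) (nat_lit 245))) (XT.nd (nat_lit 78) (nat_lit 1064)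 (nat_lit 0) (XT.lf (nat_lit 0) (nat_lit 14838630604) (nat_lit 532) (nat_lit 3334128516) (nat_lit 608) (nat_lit 54810742) (nat_lit 251) (nat_lit 5) (nat_lit 258) (nat_lit 5) (nat_lit 259) (nat_lit 5) (nat_lit 411) (nat_lit 365) (nat_lit 244)) (XT.nd (nat_lit 78) (nat_lit 456) (nat_lit 0) (XT.lf (nat_lit 0) (nat_lit 5803532353) (nat_lit 608) (nat_lit 5047549919) (nat_lit 76) (nat_lit 7694433303) (nat_lit 243) (nat_lit 5) (nat_lit 251) (nat_lit 5) (nat_lit 244) (nat_lit 5) (nat_lit 412) (nat_lit 365) (nat_lit 243)) (XT.lf (nat_lit 0) (nat_lit 11944704257) (nat_lit 532) (nat_lit 6695724564) (nat_lit 76) (nat_lit 230407130) (nat_lit 237) (nat_lit 5) (nat_lit 244) (nat_lit 5) (nat_lit 238) (nat_lit 5) (nat_lit 413) (nat_lit 365) (nat_lit 242))))))) (XT.nd (nat_lit 49530) (nat_lit 0) (nat_lit 27588) (XT.nd (nat_lit 390) (nat_lit 1292) (nat_lit 0) (XT.nd (nat_lit 156) (nat_lit 1444) (nat_lit 0) (XT.nd (nat_lit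 78) (nat_lit 532) (nat_lit 0) (XT.lf (nat_lit 0) (nat_lit 10822006708) (nat_lit 532) (nat_lit 7607513694) (nat_lit 608) (nat_lit 773207352) (nat_lit 230) (nat_lit 5) (nat_lit 237) (nat_lit 5) (nat_lit 238) (nat_lit 5) (nat_lit 414) (nat_lit 365) (nat_lit 241)) (XT.lf (nat_lit 0) (nat_lit 5606203192) (nat_lit 532) (nat_lit 10091514470) (nat_lit 76) (nat_lit 3843838601) (nat_lit 223) (nat_lit 5) (nat_lit 230) (nat_lit 5) (nat_lit 224) (nat_lit 5) (nat_lit 415) (nat_lit 365) (nat_lit 240))) (XT.nd (nat_lit 78) (nat_lit 988) (nat_lit 0) (XT.lf (nat_lit 0) (nat_lit 8065232860) (nat_lit 456) (nat_lit 4244417233) (nat_lit 532) (nat_lit 7577934140) (nat_lit 217) (nat_lit 5) (nat_lit 223) (nat_lit 5) (nat_lit 224) (nat_lit 5) (nat_lit 416) (nat_lit 365) (nat_lit 239)) (XT.nd (nat_lit 78) (nat_lit 532) (nat_lit 0) (XT.lf (nat_lit 0) (nat_lit 6675216102) (nat_lit 456) (nat_lit 12683181874) (nat_lit 532) (nat_lit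 882711112) (nat_lit 211) (nat_lit 5) (nat_lit 217) (nat_lit 5) (nat_lit 218) (nat_lit 5) (nat_lit 417) (nat_lit 365) (nat_lit 238)) (XT.lf (nat_lit 0) (nat_lit 5262104772) (nat_lit 456) (nat_lit 798800299) (nat_lit 532) (nat_lit 14541025707) (nat_lit 204) (nat_lit 5) (nat_lit 210) (nat_lit 5) (nat_lit 211) (nat_lit 5) (nat_lit 418) (nat_lit 365) (nat_lit 237))))) (XT.nd (nat_lit 156) (nat_lit 456) (nat_lit 0) (XT.nd (nat_lit 78) (nat_lit 456) (nat_lit 0) (XT.lf (nat_lit 0) (nat_lit 3813382955) (nat_lit 380) (nat_lit 9562596299) (nat_lit 456) (nat_lit 7593978326) (nat_lit 199) (nat_lit 5) (nat_lit 204) (nat_lit 5) (nat_lit 205) (nat_lit 5) (nat_lit 419) (nat_lit 365) (nat_lit 236)) (XT.lf (nat_lit 0) (nat_lit 2387934009) (nat_lit 456) (nat_lit 18648788453) (nat_lit 532) (nat_lit 309778389) (nat_lit 193) (nat_lit 5) (nat_lit 199) (nat_lit 5) (nat_lit 200) (nat_lit 5) (nat_lit 420) (nat_lit 365) (nat_lit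 235))) (XT.nd (nat_lit 48828) (nat_lit 0) (nat_lit 28956) (XT.lf (nat_lit 0) (nat_lit 897547032) (nat_lit 380) (nat_lit 6371838789) (nat_lit 456) (nat_lit 14460605071) (nat_lit 187) (nat_lit 5) (nat_lit 192) (nat_lit 5) (nat_lit 193) (nat_lit 5) (nat_lit 421) (nat_lit 365) (nat_lit 234)) (XT.nd (nat_lit 78) (nat_lit 0) (nat_lit 0) (XT.lf (nat_lit 0) (nat_lit 315489286) (nat_lit 0) (nat_lit 315489286) (nat_lit 1596) (nat_lit 4031444015) (nat_lit 568) (nat_lit 5) (nat_lit 568) (nat_lit 3) (nat_lit 589) (nat_lit 3) (nat_lit 366) (nat_lit 366) (nat_lit 288)) (XT.lf (nat_lit 0) (nat_lit 2564732095) (nat_lit 1596) (nat_lit 1729951759) (nat_lit 1672) (nat_lit 5144357087) (nat_lit 568) (nat_lit 5) (nat_lit 589) (nat_lit 3) (nat_lit 590) (nat_lit 5) (nat_lit 367) (nat_lit 366) (nat_lit 287)))))) (XT.nd (nat_lit 390) (nat_lit 1444) (nat_lit 0) (XT.nd (nat_lit 156) (nat_lit 0) (nat_lit 76) (XT.nd (nat_lit 78)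 (nat_lit 0) (nat_lit 0) (XT.lf (nat_lit 0) (nat_lit 3908102623) (nat_lit 1596) (nat_lit 4082071558) (nat_lit 1672) (nat_lit 1566458153) (nat_lit 569) (nat_lit 5) (nat_lit 590) (nat_lit 5) (nat_lit 591) (nat_lit 5) (nat_lit 368) (nat_lit 366) (nat_lit 286)) (XT.lf (nat_lit 76) (nat_lit 3228714688) (nat_lit 0) (nat_lit 2077315410) (nat_lit 1672) (nat_lit 4371436252) (nat_lit 570) (nat_lit 5) (nat_lit 569) (nat_lit 5) (nat_lit 591) (nat_lit 5) (nat_lit 369) (nat_lit 366) (nat_lit 285))) (XT.nd (nat_lit 78) (nat_lit 0) (nat_lit 76) (XT.lf (nat_lit 76) (nat_lit 973021358) (nat_lit 0) (nat_lit 5787202436) (nat_lit 1672) (nat_lit 3041415026) (nat_lit 571) (nat_lit 5) (nat_lit 570) (nat_lit 5) (nat_lit 592) (nat_lit 5) (nat_lit 370) (nat_lit 366) (nat_lit 284)) (XT.nd (nat_lit 78) (nat_lit 0) (nat_lit 0) (XT.lf (nat_lit 0) (nat_lit 8273380380) (nat_lit 1596) (nat_lit 1266594584) (nat_lit 1672) (nat_lit 389254759)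 (nat_lit 571) (nat_lit 5) (nat_lit 592) (nat_lit 5) (nat_lit 593) (nat_lit 5) (nat_lit 371) (nat_lit 366) (nat_lit 283)) (XT.lf (nat_lit 76) (nat_lit 6542786760) (nat_lit 0) (nat_lit 3327021626) (nat_lit 1672) (nat_lit 190082432) (nat_lit 572) (nat_lit 5) (nat_lit 571) (nat_lit 5) (nat_lit 593) (nat_lit 5) (nat_lit 372) (nat_lit 366) (nat_lit 282))))) (XT.nd (nat_lit 156) (nat_lit 0) (nat_lit 76) (XT.nd (nat_lit 78) (nat_lit 0) (nat_lit 0) (XT.lf (nat_lit 0) (nat_lit 1317627860) (nat_lit 1672) (nat_lit 5782508093) (nat_lit 1748) (nat_lit 3093858873) (nat_lit 550) (nat_lit 5) (nat_lit 572) (nat_lit 5) (nat_lit 573) (nat_lit 5) (nat_lit 373) (nat_lit 366) (nat_lit 281)) (XT.lf (nat_lit 76) (nat_lit 2273333297) (nat_lit 0) (nat_lit 614340309) (nat_lit 1748) (nat_lit 7444029487) (nat_lit 551) (nat_lit 5) (nat_lit 550) (nat_lit 5) (nat_lit 573) (nat_lit 5) (nat_lit 374) (nat_lit 366) (nat_lit 280))) (XT.nd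 (nat_lit 78) (nat_lit 0) (nat_lit 76) (XT.lf (nat_lit 76) (nat_lit 111371347) (nat_lit 0) (nat_lit 4432790001) (nat_lit 1748) (nat_lit 5928594446) (nat_lit 552) (nat_lit 5) (nat_lit 551) (nat_lit 5) (nat_lit 574) (nat_lit 5) (nat_lit 375) (nat_lit 366) (nat_lit 279)) (XT.nd (nat_lit 78) (nat_lit 0) (nat_lit 0) (XT.lf (nat_lit 0) (nat_lit 6284976966) (nat_lit 1672) (nat_lit 2027705733) (nat_lit 1748) (nat_lit 2304664714) (nat_lit 552) (nat_lit 5) (nat_lit 574) (nat_lit 5) (nat_lit 575) (nat_lit 5) (nat_lit 376) (nat_lit 366) (nat_lit 278)) (XT.lf (nat_lit 76) (nat_lit 6585425928) (nat_lit 0) (nat_lit 1526993415) (nat_lit 1748) (nat_lit 2653169391) (nat_lit 553) (nat_lit 5) (nat_lit 552) (nat_lit 5) (nat_lit 575) (nat_lit 5) (nat_lit 377) (nat_lit 366) (nat_lit 277))))))))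
noncomputable def xc99 : XT := (XT.nd (nat_lit 1560) (nat_lit 10792) (nat_lit 0) (XT.nd (nat_lit 780) (nat_lit 7524) (nat_lit 0) (XT.nd (nat_lit 390) (nat_lit 5548) (nat_lit 0) (XT.nd (nat_lit 156) (nat_lit 0) (nat_lit 0) (XT.nd (nat_lit 78) (nat_lit 1672) (nat_lit 0) (XT.lf (nat_lit 76) (nat_lit 4563350593) (nat_lit 0) (nat_lit 5473258924) (nat_lit 1748) (nat_lit 880829287) (nat_lit 554) (nat_lit 5) (nat_lit 553) (nat_lit 5) (nat_lit 576) (nat_lit 5) (nat_lit 378) (nat_lit 366) (nat_lit 276)) (XT.lf (nat_lit 0) (nat_lit 961515000) (nat_lit 1748) (nat_lit 8541436490) (nat_lit 1824) (nat_lit 1570185744) (nat_lit 531) (nat_lit 5) (nat_lit 554) (nat_lit 5) (nat_lit 555) (nat_lit 5) (nat_lit 379) (nat_lit 366) (nat_lit 275))) (XT.nd (nat_lit 78) (nat_lit 0) (nat_lit 76) (XT.lf (nat_lit 76) (nat_lit 473835045) (nat_lit 0) (nat_lit 2421013951) (nat_lit 1824) (nat_lit 8337587447) (nat_lit 532) (nat_lit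 5) (nat_lit 531) (nat_lit 5) (nat_lit 555) (nat_lit 5) (nat_lit 380) (nat_lit 366) (nat_lit 274)) (XT.nd (nat_lit 78) (nat_lit 0) (nat_lit 76) (XT.lf (nat_lit 0) (nat_lit 4941582029) (nat_lit 1748) (nat_lit 1579177942) (nat_lit 1824) (nat_lit 4874646676) (nat_lit 532) (nat_lit 5) (nat_lit 555) (nat_lit 5) (nat_lit 556) (nat_lit 5) (nat_lit 381) (nat_lit 366) (nat_lit 273)) (XT.lf (nat_lit 0) (nat_lit 7089466280) (nat_lit 1748) (nat_lit 3632047479) (nat_lit 76) (nat_lit 840957215) (nat_lit 533) (nat_lit 5) (nat_lit 556) (nat_lit 5) (nat_lit 534) (nat_lit 5) (nat_lit 382) (nat_lit 366) (nat_lit 272))))) (XT.nd (nat_lit 156) (nat_lit 2128) (nat_lit 0) (XT.nd (nat_lit 78) (nat_lit 1824) (nat_lit 0) (XT.lf (nat_lit 0) (nat_lit 6020173846) (nat_lit 1748) (nat_lit 3342416593) (nat_lit 1824) (nat_lit 2370740724) (nat_lit 510) (nat_lit 5) (nat_lit 533) (nat_lit 5) (nat_lit 534) (nat_lit 5) (nat_lit 383) (nat_lit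 366) (nat_lit 271)) (XT.lf (nat_lit 0) (nat_lit 4100909976) (nat_lit 1824) (nat_lit 7650187033) (nat_lit 1900) (nat_lit 157276374) (nat_lit 486) (nat_lit 5) (nat_lit 510) (nat_lit 5) (nat_lit 511) (nat_lit 5) (nat_lit 384) (nat_lit 366) (nat_lit 270))) (XT.nd (nat_lit 78) (nat_lit 912) (nat_lit 0) (XT.lf (nat_lit 0) (nat_lit 2138973215) (nat_lit 1216) (nat_lit 9923855434) (nat_lit 76) (nat_lit 24678206) (nat_lit 470) (nat_lit 5) (nat_lit 486) (nat_lit 5) (nat_lit 471) (nat_lit 5) (nat_lit 385) (nat_lit 366) (nat_lit 269)) (XT.nd (nat_lit 78) (nat_lit 0) (nat_lit 0) (XT.lf (nat_lit 0) (nat_lit 191704191) (nat_lit 912) (nat_lit 4385382459) (nat_lit 988) (nat_lit 7693404627) (nat_lit 458) (nat_lit 5) (nat_lit 470) (nat_lit 5) (nat_lit 471) (nat_lit 5) (nat_lit 386) (nat_lit 366) (nat_lit 268)) (XT.lf (nat_lit 0) (nat_lit 7149070997) (nat_lit 988) (nat_lit 1762582674) (nat_lit 76) (nat_lit 3546097009)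 (nat_lit 458) (nat_lit 5) (nat_lit 471) (nat_lit 5) (nat_lit 459) (nat_lit 5) (nat_lit 387) (nat_lit 366) (nat_lit 267)))))) (XT.nd (nat_lit 390) (nat_lit 3116) (nat_lit 0) (XT.nd (nat_lit 156) (nat_lit 2660) (nat_lit 0) (XT.nd (nat_lit 78) (nat_lit 836) (nat_lit 0) (XT.lf (nat_lit 0) (nat_lit 8923417689) (nat_lit 912) (nat_lit 933095209) (nat_lit 988) (nat_lit 2792949008) (nat_lit 446) (nat_lit 5) (nat_lit 458) (nat_lit 5) (nat_lit 459) (nat_lit 5) (nat_lit 388) (nat_lit 366) (nat_lit 266)) (XT.lf (nat_lit 0) (nat_lit 7125995072) (nat_lit 836) (nat_lit 5596482170) (nat_lit 912) (nat_lit 122901243) (nat_lit 435) (nat_lit 5) (nat_lit 446) (nat_lit 5) (nat_lit 447) (nat_lit 5) (nat_lit 389) (nat_lit 366) (nat_lit 265))) (XT.nd (nat_lit 78) (nat_lit 1672) (nat_lit 0) (XT.lf (nat_lit 0) (nat_lit 2648711692) (nat_lit 988) (nat_lit 7736685379) (nat_lit 76) (nat_lit 2660315923) (nat_lit 422) (nat_lit 5)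 (nat_lit 435) (nat_lit 5) (nat_lit 423) (nat_lit 5) (nat_lit 390) (nat_lit 366) (nat_lit 264)) (XT.nd (nat_lit 78) (nat_lit 836) (nat_lit 0) (XT.lf (nat_lit 0) (nat_lit 3474816052) (nat_lit 836) (nat_lit 2098809744) (nat_lit 912) (nat_lit 7676979043) (nat_lit 411) (nat_lit 5) (nat_lit 422) (nat_lit 5) (nat_lit 423) (nat_lit 5) (nat_lit 391) (nat_lit 366) (nat_lit 263)) (XT.lf (nat_lit 0) (nat_lit 1619441949) (nat_lit 836) (nat_lit 7045347975) (nat_lit 912) (nat_lit 4795283463) (nat_lit 400) (nat_lit 5) (nat_lit 411) (nat_lit 5) (nat_lit 412) (nat_lit 5) (nat_lit 392) (nat_lit 366) (nat_lit 262))))) (XT.nd (nat_lit 156) (nat_lit 2280) (nat_lit 0) (XT.nd (nat_lit 78) (nat_lit 836) (nat_lit 0) (XT.lf (nat_lit 0) (nat_lit 11912937068) (nat_lit 912) (nat_lit 235840990) (nat_lit 76) (nat_lit 1525762972) (nat_lit 400) (nat_lit 5) (nat_lit 412) (nat_lit 5) (nat_lit 401) (nat_lit 5) (nat_lit 393) (nat_lit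 366) (nat_lit 261)) (XT.lf (nat_lit 0) (nat_lit 1444347718) (nat_lit 836) (nat_lit 2105153262) (nat_lit 76) (nat_lit 10343781944) (nat_lit 389) (nat_lit 5) (nat_lit 400) (nat_lit 5) (nat_lit 390) (nat_lit 5) (nat_lit 394) (nat_lit 366) (nat_lit 260))) (XT.nd (nat_lit 78) (nat_lit 1520) (nat_lit 0) (XT.lf (nat_lit 0) (nat_lit 4800349486) (nat_lit 836) (nat_lit 4000404142) (nat_lit 76) (nat_lit 5316044465) (nat_lit 379) (nat_lit 5) (nat_lit 390) (nat_lit 5) (nat_lit 380) (nat_lit 5) (nat_lit 395) (nat_lit 366) (nat_lit 259)) (XT.nd (nat_lit 78) (nat_lit 760) (nat_lit 0) (XT.lf (nat_lit 0) (nat_lit 8326467103) (nat_lit 836) (nat_lit 5899630257) (nat_lit 76) (nat_lit 119532642) (nat_lit 369) (nat_lit 5) (nat_lit 380) (nat_lit 5) (nat_lit 370) (nat_lit 5) (nat_lit 396) (nat_lit 366) (nat_lit 258)) (XT.lf (nat_lit 0) (nat_lit 6742321252) (nat_lit 760) (nat_lit 5322194198) (nat_lit 836) (nat_lit 2514688473)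 (nat_lit 359) (nat_lit 5) (nat_lit 369) (nat_lit 5) (nat_lit 370) (nat_lit 5) (nat_lit 397) (nat_lit 366) (nat_lit 257))))))) (XT.nd (nat_lit 780) (nat_lit 4864) (nat_lit 0) (XT.nd (nat_lit 390) (nat_lit 3040) (nat_lit 0) (XT.nd (nat_lit 156) (nat_lit 1444) (nat_lit 0) (XT.nd (nat_lit 78) (nat_lit 684) (nat_lit 0) (XT.lf (nat_lit 0) (nat_lit 1155734655) (nat_lit 760) (nat_lit 9786606514) (nat_lit 76) (nat_lit 3875798224) (nat_lit 349) (nat_lit 5) (nat_lit 359) (nat_lit 5) (nat_lit 350) (nat_lit 5) (nat_lit 398) (nat_lit 366) (nat_lit 256)) (XT.lf (nat_lit 0) (nat_lit 3293812498) (nat_lit 684) (nat_lit 1696007788) (nat_lit 760) (nat_lit 10072335907) (nat_lit 340) (nat_lit 5) (nat_lit 349) (nat_lit 5) (nat_lit 350) (nat_lit 5) (nat_lit 399) (nat_lit 366) (nat_lit 255))) (XT.nd (nat_lit 78) (nat_lit 760) (nat_lit 0) (XT.lf (nat_lit 0) (nat_lit 1530540569) (nat_lit 684) (nat_lit 7513461339) (nat_lit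 760) (nat_lit 6267390121) (nat_lit 331) (nat_lit 5) (nat_lit 340) (nat_lit 5) (nat_lit 341) (nat_lit 5) (nat_lit 400) (nat_lit 366) (nat_lit 254)) (XT.nd (nat_lit 78) (nat_lit 760) (nat_lit 0) (XT.lf (nat_lit 0) (nat_lit 13302255882) (nat_lit 760) (nat_lit 228406691) (nat_lit 76) (nat_lit 2035793430) (nat_lit 331) (nat_lit 5) (nat_lit 341) (nat_lit 5) (nat_lit 332) (nat_lit 5) (nat_lit 401) (nat_lit 366) (nat_lit 253)) (XT.lf (nat_lit 0) (nat_lit 1954220008) (nat_lit 760) (nat_lit 2003736857) (nat_lit 76) (nat_lit 11868583289) (nat_lit 321) (nat_lit 5) (nat_lit 331) (nat_lit 5) (nat_lit 322) (nat_lit 5) (nat_lit 402) (nat_lit 366) (nat_lit 252))))) (XT.nd (nat_lit 156) (nat_lit 1824) (nat_lit 0) (XT.nd (nat_lit 78) (nat_lit 608) (nat_lit 0) (XT.lf (nat_lit 0) (nat_lit 6368086128) (nat_lit 684) (nat_lit 3806837235) (nat_lit 76) (nat_lit 5917211038) (nat_lit 313) (nat_lit 5) (nat_lit 322) (nat_lit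 5) (nat_lit 314) (nat_lit 5) (nat_lit 403) (nat_lit 366) (nat_lit 251)) (XT.lf (nat_lit 0) (nat_lit 10753752911) (nat_lit 608) (nat_lit 249959771) (nat_lit 684) (nat_lit 5360196906) (nat_lit 305) (nat_lit 5) (nat_lit 313) (nat_lit 5) (nat_lit 314) (nat_lit 5) (nat_lit 404) (nat_lit 366) (nat_lit 250))) (XT.nd (nat_lit 78) (nat_lit 1216) (nat_lit 0) (XT.lf (nat_lit 0) (nat_lit 9189870036) (nat_lit 608) (nat_lit 6718711754) (nat_lit 684) (nat_lit 732652765) (nat_lit 297) (nat_lit 5) (nat_lit 305) (nat_lit 5) (nat_lit 306) (nat_lit 5) (nat_lit 405) (nat_lit 366) (nat_lit 249)) (XT.nd (nat_lit 78) (nat_lit 532) (nat_lit 0) (XT.lf (nat_lit 0) (nat_lit 4073631373) (nat_lit 684) (nat_lit 9317202898) (nat_lit 76) (nat_lit 3533664876) (nat_lit 288) (nat_lit 5) (nat_lit 297) (nat_lit 5) (nat_lit 289) (nat_lit 5) (nat_lit 406) (nat_lit 366) (nat_lit 248)) (XT.lf (nat_lit 0) (nat_lit 6007615734) (nat_lit 532)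 (nat_lit 3121819006) (nat_lit 608) (nat_lit 8084424389) (nat_lit 281) (nat_lit 5) (nat_lit 288) (nat_lit 5) (nat_lit 289) (nat_lit 5) (nat_lit 407) (nat_lit 366) (nat_lit 247)))))) (XT.nd (nat_lit 390) (nat_lit 2508) (nat_lit 0) (XT.nd (nat_lit 156) (nat_lit 1140) (nat_lit 0) (XT.nd (nat_lit 78) (nat_lit 608) (nat_lit 0) (XT.lf (nat_lit 0) (nat_lit 4392460736) (nat_lit 608) (nat_lit 10065761257) (nat_lit 684) (nat_lit 3051251722) (nat_lit 273) (nat_lit 5) (nat_lit 281) (nat_lit 5) (nat_lit 282) (nat_lit 5) (nat_lit 408) (nat_lit 366) (nat_lit 246)) (XT.lf (nat_lit 0) (nat_lit 2205117908) (nat_lit 608) (nat_lit 15039461758) (nat_lit 76) (nat_lit 567096599) (nat_lit 265) (nat_lit 5) (nat_lit 273) (nat_lit 5) (nat_lit 266) (nat_lit 5) (nat_lit 409) (nat_lit 366) (nat_lit 245))) (XT.nd (nat_lit 78) (nat_lit 608) (nat_lit 0) (XT.lf (nat_lit 0) (nat_lit 1097424169) (nat_lit 532) (nat_lit 6625901157) (nat_lit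 608) (nat_lit 10396304164) (nat_lit 258) (nat_lit 5) (nat_lit 265) (nat_lit 5) (nat_lit 266) (nat_lit 5) (nat_lit 410) (nat_lit 366) (nat_lit 244)) (XT.nd (nat_lit 78) (nat_lit 608) (nat_lit 0) (XT.lf (nat_lit 0) (nat_lit 13519446746) (nat_lit 608) (nat_lit 564243476) (nat_lit 76) (nat_lit 4350883735) (nat_lit 258) (nat_lit 5) (nat_lit 266) (nat_lit 5) (nat_lit 259) (nat_lit 5) (nat_lit 411) (nat_lit 366) (nat_lit 243)) (XT.lf (nat_lit 0) (nat_lit 855781933) (nat_lit 608) (nat_lit 2226244254) (nat_lit 76) (nat_lit 15674148170) (nat_lit 250) (nat_lit 5) (nat_lit 258) (nat_lit 5) (nat_lit 251) (nat_lit 5) (nat_lit 412) (nat_lit 366) (nat_lit 242))))) (XT.nd (nat_lit 156) (nat_lit 1520) (nat_lit 0) (XT.nd (nat_lit 78) (nat_lit 456) (nat_lit 0) (XT.lf (nat_lit 0) (nat_lit 6872935490) (nat_lit 608) (nat_lit 3939901661) (nat_lit 76) (nat_lit 8271137948) (nat_lit 243) (nat_lit 5) (nat_lit 251) (nat_lit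 5) (nat_lit 244) (nat_lit 5) (nat_lit 413) (nat_lit 366) (nat_lit 241)) (XT.lf (nat_lit 0) (nat_lit 13182654409) (nat_lit 532) (nat_lit 5642749635) (nat_lit 76) (nat_lit 593964804) (nat_lit 237) (nat_lit 5) (nat_lit 244) (nat_lit 5) (nat_lit 238) (nat_lit 5) (nat_lit 414) (nat_lit 366) (nat_lit 240))) (XT.nd (nat_lit 78) (nat_lit 912) (nat_lit 0) (XT.lf (nat_lit 0) (nat_lit 81748073) (nat_lit 608) (nat_lit 7381936040) (nat_lit 76) (nat_lit 12297874757) (nat_lit 229) (nat_lit 5) (nat_lit 237) (nat_lit 5) (nat_lit 230) (nat_lit 5) (nat_lit 415) (nat_lit 366) (nat_lit 239)) (XT.nd (nat_lit 78) (nat_lit 456) (nat_lit 0) (XT.lf (nat_lit 0) (nat_lit 6627206582) (nat_lit 532) (nat_lit 9154846733) (nat_lit 76) (nat_lit 4328693291) (nat_lit 223) (nat_lit 5) (nat_lit 230) (nat_lit 5) (nat_lit 224) (nat_lit 5) (nat_lit 416) (nat_lit 366) (nat_lit 238)) (XT.lf (nat_lit 0) (nat_lit 9526495011) (nat_lit 456) (nat_lit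 3988339077) (nat_lit 532) (nat_lit 6952659781) (nat_lit 217) (nat_lit 5) (nat_lit 223) (nat_lit 5) (nat_lit 224) (nat_lit 5) (nat_lit 417) (nat_lit 366) (nat_lit 237))))))))
noncomputable def xc100 : XT := (XT.nd (nat_lit 50310) (nat_lit 0) (nat_lit 10564) (XT.nd (nat_lit 49530) (nat_lit 0) (nat_lit 25688) (XT.nd (nat_lit 49140) (nat_lit 0) (nat_lit 28576) (XT.nd (nat_lit 156) (nat_lit 912) (nat_lit 0) (XT.nd (nat_lit 78) (nat_lit 532) (nat_lit 0) (XT.lf (nat_lit 0) (nat_lit 8088993665) (nat_lit 456) (nat_lit 12672000137) (nat_lit 532) (nat_lit 70911682) (nat_lit 211) (nat_lit 5) (nat_lit 217) (nat_lit 5) (nat_lit 218) (nat_lit 5) (nat_lit 418) (nat_lit 366) (nat_lit 236)) (XT.lf (nat_lit 0) (nat_lit 6624616892) (nat_lit 456) (nat_lit 429127546) (nat_lit 532) (nat_lit 14150024018) (nat_lit 204) (nat_lit 5) (nat_lit 210) (nat_lit 5) (nat_lit 211) (nat_lit 5) (nat_lit 419) (nat_lit 366) (nat_lit 235)))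 (XT.nd (nat_lit 78) (nat_lit 532) (nat_lit 0) (XT.lf (nat_lit 0) (nat_lit 5126332226) (nat_lit 380) (nat_lit 9448579985) (nat_lit 456) (nat_lit 7008191024) (nat_lit 199) (nat_lit 5) (nat_lit 204) (nat_lit 5) (nat_lit 205) (nat_lit 5) (nat_lit 420) (nat_lit 366) (nat_lit 234)) (XT.lf (nat_lit 0) (nat_lit 474998356) (nat_lit 532) (nat_lit 18322518683) (nat_lit 76) (nat_lit 3173622561) (nat_lit 192) (nat_lit 5) (nat_lit 199) (nat_lit 5) (nat_lit 193) (nat_lit 5) (nat_lit 421) (nat_lit 366) (nat_lit 233)))) (XT.nd (nat_lit 156) (nat_lit 0) (nat_lit 76) (XT.nd (nat_lit 78) (nat_lit 0) (nat_lit 0) (XT.lf (nat_lit 0) (nat_lit 943946646) (nat_lit 0) (nat_lit 943946646) (nat_lit 1596) (nat_lit 2889642265) (nat_lit 568) (nat_lit 5) (nat_lit 568) (nat_lit 3) (nat_lit 589) (nat_lit 3) (nat_lit 367) (nat_lit 367) (nat_lit 286)) (XT.lf (nat_lit 0) (nat_lit 5037725421) (nat_lit 1596) (nat_lit 524041963) (nat_lit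 1672) (nat_lit 4112523758) (nat_lit 568) (nat_lit 5) (nat_lit 589) (nat_lit 3) (nat_lit 590) (nat_lit 5) (nat_lit 368) (nat_lit 367) (nat_lit 285))) (XT.nd (nat_lit 78) (nat_lit 0) (nat_lit 0) (XT.lf (nat_lit 0) (nat_lit 6352521421) (nat_lit 1596) (nat_lit 2913324078) (nat_lit 1672) (nat_lit 530942290) (nat_lit 569) (nat_lit 5) (nat_lit 590) (nat_lit 5) (nat_lit 591) (nat_lit 5) (nat_lit 369) (nat_lit 367) (nat_lit 284)) (XT.nd (nat_lit 78) (nat_lit 0) (nat_lit 76) (XT.lf (nat_lit 76) (nat_lit 4595837413) (nat_lit 0) (nat_lit 3137014869) (nat_lit 1672) (nat_lit 2189585233) (nat_lit 570) (nat_lit 5) (nat_lit 569) (nat_lit 5) (nat_lit 591) (nat_lit 5) (nat_lit 370) (nat_lit 367) (nat_lit 283)) (XT.lf (nat_lit 76) (nat_lit 2302852426) (nat_lit 0) (nat_lit 6863929138) (nat_lit 1672) (nat_lit 884831400) (nat_lit 571) (nat_lit 5) (nat_lit 570) (nat_lit 5) (nat_lit 592) (nat_lit 5) (nat_lit 371) (nat_lit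 367) (nat_lit 282)))))) (XT.nd (nat_lit 390) (nat_lit 1368) (nat_lit 0) (XT.nd (nat_lit 156) (nat_lit 0) (nat_lit 152) (XT.nd (nat_lit 78) (nat_lit 0) (nat_lit 76) (XT.lf (nat_lit 76) (nat_lit 522692) (nat_lit 0) (nat_lit 467402390) (nat_lit 1748) (nat_lit 9716381368) (nat_lit 549) (nat_lit 5) (nat_lit 548) (nat_lit 5) (nat_lit 571) (nat_lit 5) (nat_lit 372) (nat_lit 367) (nat_lit 281)) (XT.lf (nat_lit 0) (nat_lit 1900653374) (nat_lit 1672) (nat_lit 2303551130) (nat_lit 1748) (nat_lit 6115631051) (nat_lit 549) (nat_lit 5) (nat_lit 571) (nat_lit 5) (nat_lit 572) (nat_lit 5) (nat_lit 373) (nat_lit 367) (nat_lit 280))) (XT.nd (nat_lit 78) (nat_lit 0) (nat_lit 0) (XT.lf (nat_lit 0) (nat_lit 3393621596) (nat_lit 1672) (nat_lit 4613905790) (nat_lit 1748) (nat_lit 2451557987) (nat_lit 550) (nat_lit 5) (nat_lit 572) (nat_lit 5) (nat_lit 573) (nat_lit 5) (nat_lit 374) (nat_lit 367) (nat_lit 279)) (XT.nd (nat_lit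 78) (nat_lit 0) (nat_lit 76) (XT.lf (nat_lit 76) (nat_lit 3661837228) (nat_lit 0) (nat_lit 1298189263) (nat_lit 1748) (nat_lit 5641913241) (nat_lit 551) (nat_lit 5) (nat_lit 550) (nat_lit 5) (nat_lit 573) (nat_lit 5) (nat_lit 375) (nat_lit 367) (nat_lit 278)) (XT.lf (nat_lit 76) (nat_lit 1456916438) (nat_lit 0) (nat_lit 5155975818) (nat_lit 1748) (nat_lit 4135398091) (nat_lit 552) (nat_lit 5) (nat_lit 551) (nat_lit 5) (nat_lit 574) (nat_lit 5) (nat_lit 376) (nat_lit 367) (nat_lit 277))))) (XT.nd (nat_lit 156) (nat_lit 1672) (nat_lit 0) (XT.nd (nat_lit 78) (nat_lit 0) (nat_lit 0) (XT.lf (nat_lit 0) (nat_lit 8345928299) (nat_lit 1672) (nat_lit 744183453) (nat_lit 1748) (nat_lit 1808308043) (nat_lit 552) (nat_lit 5) (nat_lit 574) (nat_lit 5) (nat_lit 575) (nat_lit 5) (nat_lit 377) (nat_lit 367) (nat_lit 276)) (XT.lf (nat_lit 76) (nat_lit 8105531620) (nat_lit 0) (nat_lit 2076713171) (nat_lit 1748) (nat_lit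 869782548) (nat_lit 553) (nat_lit 5) (nat_lit 552) (nat_lit 5) (nat_lit 575) (nat_lit 5) (nat_lit 378) (nat_lit 367) (nat_lit 275))) (XT.nd (nat_lit 78) (nat_lit 0) (nat_lit 76) (XT.lf (nat_lit 0) (nat_lit 895205160) (nat_lit 1748) (nat_lit 5174783473) (nat_lit 1824) (nat_lit 5139279934) (nat_lit 530) (nat_lit 5) (nat_lit 553) (nat_lit 5) (nat_lit 554) (nat_lit 5) (nat_lit 379) (nat_lit 367) (nat_lit 274)) (XT.nd (nat_lit 78) (nat_lit 0) (nat_lit 0) (XT.lf (nat_lit 0) (nat_lit 2734850360) (nat_lit 1748) (nat_lit 7418199240) (nat_lit 1824) (nat_lit 1217391952) (nat_lit 531) (nat_lit 5) (nat_lit 554) (nat_lit 5) (nat_lit 555) (nat_lit 5) (nat_lit 380) (nat_lit 367) (nat_lit 273)) (XT.lf (nat_lit 76) (nat_lit 1845150010) (nat_lit 0) (nat_lit 2839035173) (nat_lit 1824) (nat_lit 6851174538) (nat_lit 532) (nat_lit 5) (nat_lit 531) (nat_lit 5) (nat_lit 555) (nat_lit 5) (nat_lit 381) (nat_lit 367) (nat_lit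 272))))))) (XT.nd (nat_lit 780) (nat_lit 6916) (nat_lit 0) (XT.nd (nat_lit 390) (nat_lit 3648) (nat_lit 0) (XT.nd (nat_lit 156) (nat_lit 4712) (nat_lit 0) (XT.nd (nat_lit 78) (nat_lit 0) (nat_lit 76) (XT.lf (nat_lit 0) (nat_lit 6740555909) (nat_lit 1748) (nat_lit 273745285) (nat_lit 1824) (nat_lit 4689953124) (nat_lit 532) (nat_lit 5) (nat_lit 555) (nat_lit 5) (nat_lit 556) (nat_lit 5) (nat_lit 382) (nat_lit 367) (nat_lit 271)) (XT.lf (nat_lit 0) (nat_lit 8911617383) (nat_lit 1748) (nat_lit 2376102133) (nat_lit 76) (nat_lit 589436245) (nat_lit 533) (nat_lit 5) (nat_lit 556) (nat_lit 5) (nat_lit 534) (nat_lit 5) (nat_lit 383) (nat_lit 367) (nat_lit 270))) (XT.nd (nat_lit 78) (nat_lit 3040) (nat_lit 0) (XT.lf (nat_lit 0) (nat_lit 7543541841) (nat_lit 1748) (nat_lit 3671233849) (nat_lit 1824) (nat_lit 839129257) (nat_lit 510) (nat_lit 5) (nat_lit 533) (nat_lit 5) (nat_lit 534) (nat_lit 5) (nat_lit 384)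 (nat_lit 367) (nat_lit 269)) (XT.nd (nat_lit 78) (nat_lit 1140) (nat_lit 0) (XT.lf (nat_lit 0) (nat_lit 1383169024) (nat_lit 1900) (nat_lit 6666775217) (nat_lit 76) (nat_lit 4184840597) (nat_lit 485) (nat_lit 5) (nat_lit 510) (nat_lit 5) (nat_lit 486) (nat_lit 5) (nat_lit 385) (nat_lit 367) (nat_lit 268)) (XT.lf (nat_lit 0) (nat_lit 3580302600) (nat_lit 1140) (nat_lit 129544093) (nat_lit 1216) (nat_lit 8710151282) (nat_lit 470) (nat_lit 5) (nat_lit 485) (nat_lit 5) (nat_lit 486) (nat_lit 5) (nat_lit 386) (nat_lit 367) (nat_lit 267))))) (XT.nd (nat_lit 156) (nat_lit 2736) (nat_lit 0) (XT.nd (nat_lit 78) (nat_lit 0) (nat_lit 0) (XT.lf (nat_lit 0) (nat_lit 1557739187) (nat_lit 912) (nat_lit 4627495030) (nat_lit 988) (nat_lit 6423955098) (nat_lit 458) (nat_lit 5) (nat_lit 470) (nat_lit 5) (nat_lit 471) (nat_lit 5) (nat_lit 387) (nat_lit 367) (nat_lit 266)) (XT.lf (nat_lit 0) (nat_lit 8790841377) (nat_lit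 988) (nat_lit 465539435) (nat_lit 76) (nat_lit 3546556424) (nat_lit 458) (nat_lit 5) (nat_lit 471) (nat_lit 5) (nat_lit 459) (nat_lit 5) (nat_lit 388) (nat_lit 367) (nat_lit 265))) (XT.nd (nat_lit 78) (nat_lit 1824) (nat_lit 0) (XT.lf (nat_lit 0) (nat_lit 10519140079) (nat_lit 912) (nat_lit 1027417048) (nat_lit 988) (nat_lit 1454501660) (nat_lit 446) (nat_lit 5) (nat_lit 458) (nat_lit 5) (nat_lit 459) (nat_lit 5) (nat_lit 389) (nat_lit 367) (nat_lit 264)) (XT.nd (nat_lit 78) (nat_lit 912) (nat_lit 0) (XT.lf (nat_lit 0) (nat_lit 1246073698) (nat_lit 912) (nat_lit 4537590606) (nat_lit 76) (nat_lit 7419671939) (nat_lit 434) (nat_lit 5) (nat_lit 446) (nat_lit 5) (nat_lit 435) (nat_lit 5) (nat_lit 390) (nat_lit 367) (nat_lit 263)) (XT.lf (nat_lit 0) (nat_lit 4067822816) (nat_lit 988) (nat_lit 6611323821) (nat_lit 76) (nat_lit 2731144751) (nat_lit 422) (nat_lit 5) (nat_lit 435) (nat_lit 5) (nat_lit 423)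 (nat_lit 5) (nat_lit 391) (nat_lit 367) (nat_lit 262)))))) (XT.nd (nat_lit 390) (nat_lit 3648) (nat_lit 0) (XT.nd (nat_lit 156) (nat_lit 1596) (nat_lit 0) (XT.nd (nat_lit 78) (nat_lit 836) (nat_lit 0) (XT.lf (nat_lit 0) (nat_lit 4914499443) (nat_lit 836) (nat_lit 2135636530) (nat_lit 912) (nat_lit 6571800983) (nat_lit 411) (nat_lit 5) (nat_lit 422) (nat_lit 5) (nat_lit 423) (nat_lit 5) (nat_lit 392) (nat_lit 367) (nat_lit 261)) (XT.lf (nat_lit 0) (nat_lit 3007392449) (nat_lit 836) (nat_lit 7197368404) (nat_lit 912) (nat_lit 3633514192) (nat_lit 400) (nat_lit 5) (nat_lit 411) (nat_lit 5) (nat_lit 412) (nat_lit 5) (nat_lit 393) (nat_lit 367) (nat_lit 260))) (XT.nd (nat_lit 78) (nat_lit 836) (nat_lit 0) (XT.lf (nat_lit 0) (nat_lit 1096299332) (nat_lit 760) (nat_lit 12424262688) (nat_lit 836) (nat_lit 539210505) (nat_lit 390) (nat_lit 5) (nat_lit 400) (nat_lit 5) (nat_lit 401) (nat_lit 5) (nat_lit 394)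 (nat_lit 367) (nat_lit 259)) (XT.nd (nat_lit 78) (nat_lit 760) (nat_lit 0) (XT.lf (nat_lit 0) (nat_lit 2711100742) (nat_lit 836) (nat_lit 848705740) (nat_lit 76) (nat_lit 10725806477) (nat_lit 389) (nat_lit 5) (nat_lit 400) (nat_lit 5) (nat_lit 390) (nat_lit 5) (nat_lit 395) (nat_lit 367) (nat_lit 258)) (XT.lf (nat_lit 0) (nat_lit 6141239719) (nat_lit 836) (nat_lit 2798960863) (nat_lit 76) (nat_lit 5576163859) (nat_lit 379) (nat_lit 5) (nat_lit 390) (nat_lit 5) (nat_lit 380) (nat_lit 5) (nat_lit 396) (nat_lit 367) (nat_lit 257))))) (XT.nd (nat_lit 156) (nat_lit 2128) (nat_lit 0) (XT.nd (nat_lit 78) (nat_lit 760) (nat_lit 0) (XT.lf (nat_lit 0) (nat_lit 9747562026) (nat_lit 836) (nat_lit 4754034777) (nat_lit 76) (nat_lit 250976080) (nat_lit 369) (nat_lit 5) (nat_lit 380) (nat_lit 5) (nat_lit 370) (nat_lit 5) (nat_lit 397) (nat_lit 367) (nat_lit 256)) (XT.lf (nat_lit 0) (nat_lit 8245717917) (nat_lit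 760) (nat_lit 5326366126) (nat_lit 836) (nat_lit 1421583336) (nat_lit 359) (nat_lit 5) (nat_lit 369) (nat_lit 5) (nat_lit 370) (nat_lit 5) (nat_lit 398) (nat_lit 367) (nat_lit 255))) (XT.nd (nat_lit 78) (nat_lit 1368) (nat_lit 0) (XT.lf (nat_lit 0) (nat_lit 2319531110) (nat_lit 760) (nat_lit 8763633712) (nat_lit 76) (nat_lit 4156936264) (nat_lit 349) (nat_lit 5) (nat_lit 359) (nat_lit 5) (nat_lit 350) (nat_lit 5) (nat_lit 399) (nat_lit 367) (nat_lit 254)) (XT.nd (nat_lit 78) (nat_lit 684) (nat_lit 0) (XT.lf (nat_lit 0) (nat_lit 4687838070) (nat_lit 684) (nat_lit 1556323491) (nat_lit 760) (nat_lit 9247766385) (nat_lit 340) (nat_lit 5) (nat_lit 349) (nat_lit 5) (nat_lit 350) (nat_lit 5) (nat_lit 400) (nat_lit 367) (nat_lit 253)) (XT.lf (nat_lit 0) (nat_lit 2871172023) (nat_lit 684) (nat_lit 7526229818) (nat_lit 760) (nat_lit 5351690352) (nat_lit 331) (nat_lit 5) (nat_lit 340) (nat_lit 5) (nat_lit 341)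 (nat_lit 5) (nat_lit 401) (nat_lit 367) (nat_lit 252))))))))
noncomputable def xc101 : XT := (XT.nd (nat_lit 1482) (nat_lit 380) (nat_lit 0) (XT.nd (nat_lit 702) (nat_lit 4636) (nat_lit 0) (XT.nd (nat_lit 312) (nat_lit 3040) (nat_lit 0) (XT.nd (nat_lit 156) (nat_lit 1216) (nat_lit 0) (XT.nd (nat_lit 78) (nat_lit 76) (nat_lit 0) (XT.lf (nat_lit 0) (nat_lit 1055256978) (nat_lit 684) (nat_lit 13704821353) (nat_lit 760) (nat_lit 1252196256) (nat_lit 322) (nat_lit 5) (nat_lit 331) (nat_lit 5) (nat_lit 332) (nat_lit 5) (nat_lit 402) (nat_lit 367) (nat_lit 251)) (XT.lf (nat_lit 0) (nat_lit 3049083890) (nat_lit 760) (nat_lit 794114480) (nat_lit 76) (nat_lit 12437413242) (nat_lit 321) (nat_lit 5) (nat_lit 331) (nat_lit 5) (nat_lit 322) (nat_lit 5) (nat_lit 403) (nat_lit 367) (nat_lit 250))) (XT.nd (nat_lit 78) (nat_lit 608) (nat_lit 0) (XT.lf (nat_lit 0) (nat_lit 7574820108) (nat_lit 684) (nat_lit 2653150060)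 (nat_lit 76) (nat_lit 6326614438) (nat_lit 313) (nat_lit 5) (nat_lit 322) (nat_lit 5) (nat_lit 314) (nat_lit 5) (nat_lit 404) (nat_lit 367) (nat_lit 249)) (XT.lf (nat_lit 0) (nat_lit 12323687745) (nat_lit 608) (nat_lit 4342912) (nat_lit 684) (nat_lit 4506912086) (nat_lit 305) (nat_lit 5) (nat_lit 313) (nat_lit 5) (nat_lit 314) (nat_lit 5) (nat_lit 405) (nat_lit 367) (nat_lit 248)))) (XT.nd (nat_lit 156) (nat_lit 1748) (nat_lit 0) (XT.nd (nat_lit 78) (nat_lit 608) (nat_lit 0) (XT.lf (nat_lit 0) (nat_lit 236649484) (nat_lit 684) (nat_lit 6411933067) (nat_lit 76) (nat_lit 10472359338) (nat_lit 296) (nat_lit 5) (nat_lit 305) (nat_lit 5) (nat_lit 297) (nat_lit 5) (nat_lit 406) (nat_lit 367) (nat_lit 247)) (XT.lf (nat_lit 0) (nat_lit 5158474047) (nat_lit 684) (nat_lit 8341637516) (nat_lit 76) (nat_lit 3912869884) (nat_lit 288) (nat_lit 5) (nat_lit 297) (nat_lit 5) (nat_lit 289) (nat_lit 5) (nat_lit 407)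 (nat_lit 367) (nat_lit 246))) (XT.nd (nat_lit 78) (nat_lit 1216) (nat_lit 0) (XT.lf (nat_lit 0) (nat_lit 7422563469) (nat_lit 532) (nat_lit 2923366786) (nat_lit 608) (nat_lit 7365492398) (nat_lit 281) (nat_lit 5) (nat_lit 288) (nat_lit 5) (nat_lit 289) (nat_lit 5) (nat_lit 408) (nat_lit 367) (nat_lit 245)) (XT.nd (nat_lit 78) (nat_lit 608) (nat_lit 0) (XT.lf (nat_lit 0) (nat_lit 5755602581) (nat_lit 608) (nat_lit 10061359983) (nat_lit 684) (nat_lit 2199295484) (nat_lit 273) (nat_lit 5) (nat_lit 281) (nat_lit 5) (nat_lit 282) (nat_lit 5) (nat_lit 409) (nat_lit 367) (nat_lit 244)) (XT.lf (nat_lit 0) (nat_lit 3185238584) (nat_lit 608) (nat_lit 14250866102) (nat_lit 76) (nat_lit 891642524) (nat_lit 265) (nat_lit 5) (nat_lit 273) (nat_lit 5) (nat_lit 266) (nat_lit 5) (nat_lit 410) (nat_lit 367) (nat_lit 243)))))) (XT.nd (nat_lit 390) (nat_lit 2508) (nat_lit 0) (XT.nd (nat_lit 156) (nat_lit 1064) (nat_lit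 0) (XT.nd (nat_lit 78) (nat_lit 532) (nat_lit 0) (XT.lf (nat_lit 0) (nat_lit 2350012454) (nat_lit 532) (nat_lit 6500278247) (nat_lit 608) (nat_lit 9795022362) (nat_lit 258) (nat_lit 5) (nat_lit 265) (nat_lit 5) (nat_lit 266) (nat_lit 5) (nat_lit 411) (nat_lit 367) (nat_lit 242)) (XT.lf (nat_lit 0) (nat_lit 626526471) (nat_lit 532) (nat_lit 14173806293) (nat_lit 608) (nat_lit 4169772360) (nat_lit 251) (nat_lit 5) (nat_lit 258) (nat_lit 5) (nat_lit 259) (nat_lit 5) (nat_lit 412) (nat_lit 367) (nat_lit 241))) (XT.nd (nat_lit 78) (nat_lit 988) (nat_lit 0) (XT.lf (nat_lit 0) (nat_lit 1740628337) (nat_lit 608) (nat_lit 1101593523) (nat_lit 76) (nat_lit 16459454269) (nat_lit 250) (nat_lit 5) (nat_lit 258) (nat_lit 5) (nat_lit 251) (nat_lit 5) (nat_lit 413) (nat_lit 367) (nat_lit 240)) (XT.nd (nat_lit 78) (nat_lit 456) (nat_lit 0) (XT.lf (nat_lit 0) (nat_lit 7923027002) (nat_lit 608) (nat_lit 2871299996)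 (nat_lit 76) (nat_lit 8845289284) (nat_lit 243) (nat_lit 5) (nat_lit 251) (nat_lit 5) (nat_lit 244) (nat_lit 5) (nat_lit 414) (nat_lit 367) (nat_lit 239)) (XT.lf (nat_lit 0) (nat_lit 14407249911) (nat_lit 532) (nat_lit 4630161386) (nat_lit 76) (nat_lit 947956300) (nat_lit 237) (nat_lit 5) (nat_lit 244) (nat_lit 5) (nat_lit 238) (nat_lit 5) (nat_lit 415) (nat_lit 367) (nat_lit 238))))) (XT.nd (nat_lit 156) (nat_lit 1444) (nat_lit 0) (XT.nd (nat_lit 78) (nat_lit 456) (nat_lit 0) (XT.lf (nat_lit 0) (nat_lit 902097273) (nat_lit 608) (nat_lit 6429828415) (nat_lit 76) (nat_lit 13006122013) (nat_lit 229) (nat_lit 5) (nat_lit 237) (nat_lit 5) (nat_lit 230) (nat_lit 5) (nat_lit 416) (nat_lit 367) (nat_lit 237)) (XT.lf (nat_lit 0) (nat_lit 7629884872) (nat_lit 532) (nat_lit 8261226349) (nat_lit 76) (nat_lit 4806880541) (nat_lit 223) (nat_lit 5) (nat_lit 230) (nat_lit 5) (nat_lit 224) (nat_lit 5) (nat_lit 417)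 (nat_lit 367) (nat_lit 236))) (XT.nd (nat_lit 78) (nat_lit 988) (nat_lit 0) (XT.lf (nat_lit 0) (nat_lit 10961601923) (nat_lit 456) (nat_lit 3746587918) (nat_lit 532) (nat_lit 6357570631) (nat_lit 217) (nat_lit 5) (nat_lit 223) (nat_lit 5) (nat_lit 224) (nat_lit 5) (nat_lit 418) (nat_lit 367) (nat_lit 235)) (XT.nd (nat_lit 78) (nat_lit 456) (nat_lit 0) (XT.lf (nat_lit 0) (nat_lit 707715815) (nat_lit 532) (nat_lit 11970501859) (nat_lit 76) (nat_lit 8763058520) (nat_lit 210) (nat_lit 5) (nat_lit 217) (nat_lit 5) (nat_lit 211) (nat_lit 5) (nat_lit 419) (nat_lit 367) (nat_lit 234)) (XT.lf (nat_lit 0) (nat_lit 7958852597) (nat_lit 456) (nat_lit 70960971) (nat_lit 532) (nat_lit 13794778806) (nat_lit 204) (nat_lit 5) (nat_lit 210) (nat_lit 5) (nat_lit 211) (nat_lit 5) (nat_lit 420) (nat_lit 367) (nat_lit 233))))))) (XT.nd (nat_lit 49686) (nat_lit 0) (nat_lit 21736) (XT.nd (nat_lit 49296) (nat_lit 0) (nat_lit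 26524) (XT.nd (nat_lit 49062) (nat_lit 0) (nat_lit 28044) (XT.nd (nat_lit 48984) (nat_lit 0) (nat_lit 28044) (XT.lf (nat_lit 0) (nat_lit 6409868429) (nat_lit 380) (nat_lit 9354156150) (nat_lit 456) (nat_lit 6451534454) (nat_lit 199) (nat_lit 5) (nat_lit 204) (nat_lit 5) (nat_lit 205) (nat_lit 5) (nat_lit 421) (nat_lit 367) (nat_lit 232)) (XT.lf (nat_lit 0) (nat_lit 1555725015) (nat_lit 0) (nat_lit 1555725015) (nat_lit 1596) (nat_lit 1786073196) (nat_lit 568) (nat_lit 5) (nat_lit 568) (nat_lit 3) (nat_lit 589) (nat_lit 3) (nat_lit 368) (nat_lit 368) (nat_lit 284))) (XT.nd (nat_lit 78) (nat_lit 0) (nat_lit 0) (XT.lf (nat_lit 76) (nat_lit 654424679) (nat_lit 0) (nat_lit 6797189676) (nat_lit 1672) (nat_lit 2467650378) (nat_lit 569) (nat_lit 5) (nat_lit 568) (nat_lit 5) (nat_lit 590) (nat_lit 5) (nat_lit 369) (nat_lit 368) (nat_lit 283)) (XT.nd (nat_lit 78) (nat_lit 0) (nat_lit 76) (XT.lf (nat_lit 76)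 (nat_lit 8260007384) (nat_lit 0) (nat_lit 479791114) (nat_lit 1672) (nat_lit 1306958896) (nat_lit 569) (nat_lit 5) (nat_lit 568) (nat_lit 5) (nat_lit 590) (nat_lit 5) (nat_lit 370) (nat_lit 368) (nat_lit 282)) (XT.lf (nat_lit 76) (nat_lit 5931055626) (nat_lit 0) (nat_lit 4171251620) (nat_lit 1672) (nat_lit 75054007) (nat_lit 570) (nat_lit 5) (nat_lit 569) (nat_lit 5) (nat_lit 591) (nat_lit 5) (nat_lit 371) (nat_lit 368) (nat_lit 281))))) (XT.nd (nat_lit 156) (nat_lit 0) (nat_lit 76) (XT.nd (nat_lit 78) (nat_lit 0) (nat_lit 0) (XT.lf (nat_lit 0) (nat_lit 1191579852) (nat_lit 1672) (nat_lit 6721539416) (nat_lit 1748) (nat_lit 2398340363) (nat_lit 548) (nat_lit 5) (nat_lit 570) (nat_lit 5) (nat_lit 571) (nat_lit 5) (nat_lit 372) (nat_lit 368) (nat_lit 280)) (XT.lf (nat_lit 76) (nat_lit 1233964177) (nat_lit 0) (nat_lit 1286107197) (nat_lit 1748) (nat_lit 7929002098) (nat_lit 549) (nat_lit 5) (nat_lit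 548) (nat_lit 5) (nat_lit 571) (nat_lit 5) (nat_lit 373) (nat_lit 368) (nat_lit 279))) (XT.nd (nat_lit 78) (nat_lit 0) (nat_lit 76) (XT.lf (nat_lit 0) (nat_lit 3931346767) (nat_lit 1672) (nat_lit 1130509597) (nat_lit 1748) (nat_lit 5528100782) (nat_lit 549) (nat_lit 5) (nat_lit 571) (nat_lit 5) (nat_lit 572) (nat_lit 5) (nat_lit 374) (nat_lit 368) (nat_lit 278)) (XT.nd (nat_lit 78) (nat_lit 0) (nat_lit 0) (XT.lf (nat_lit 0) (nat_lit 5414993727) (nat_lit 1672) (nat_lit 3487286159) (nat_lit 1748) (nat_lit 1832186778) (nat_lit 550) (nat_lit 5) (nat_lit 572) (nat_lit 5) (nat_lit 573) (nat_lit 5) (nat_lit 375) (nat_lit 368) (nat_lit 277)) (XT.lf (nat_lit 76) (nat_lit 5016205430) (nat_lit 0) (nat_lit 1964355927) (nat_lit 1748) (nat_lit 3902001885) (nat_lit 551) (nat_lit 5) (nat_lit 550) (nat_lit 5) (nat_lit 573) (nat_lit 5) (nat_lit 376) (nat_lit 368) (nat_lit 276)))))) (XT.nd (nat_lit 390) (nat_lit 3344)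 (nat_lit 0) (XT.nd (nat_lit 156) (nat_lit 1672) (nat_lit 0) (XT.nd (nat_lit 78) (nat_lit 0) (nat_lit 76) (XT.lf (nat_lit 76) (nat_lit 2765779884) (nat_lit 0) (nat_lit 5866977193) (nat_lit 1748) (nat_lit 2401552419) (nat_lit 552) (nat_lit 5) (nat_lit 551) (nat_lit 5) (nat_lit 574) (nat_lit 5) (nat_lit 377) (nat_lit 368) (nat_lit 275)) (XT.lf (nat_lit 76) (nat_lit 507326789) (nat_lit 0) (nat_lit 9857191747) (nat_lit 1748) (nat_lit 825489605) (nat_lit 553) (nat_lit 5) (nat_lit 552) (nat_lit 5) (nat_lit 575) (nat_lit 5) (nat_lit 378) (nat_lit 368) (nat_lit 274))) (XT.nd (nat_lit 78) (nat_lit 0) (nat_lit 76) (XT.lf (nat_lit 0) (nat_lit 848881922) (nat_lit 1748) (nat_lit 1759419659) (nat_lit 1824) (nat_lit 8740742742) (nat_lit 529) (nat_lit 5) (nat_lit 552) (nat_lit 5) (nat_lit 553) (nat_lit 5) (nat_lit 379) (nat_lit 368) (nat_lit 273)) (XT.nd (nat_lit 78) (nat_lit 0) (nat_lit 76) (XT.lf (nat_lit 0) (nat_lit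 2609836341) (nat_lit 1748) (nat_lit 4044291387) (nat_lit 1824) (nat_lit 4857663396) (nat_lit 530) (nat_lit 5) (nat_lit 553) (nat_lit 5) (nat_lit 554) (nat_lit 5) (nat_lit 380) (nat_lit 368) (nat_lit 272)) (XT.lf (nat_lit 0) (nat_lit 4461244924) (nat_lit 1748) (nat_lit 6340452689) (nat_lit 1824) (nat_lit 876970205) (nat_lit 531) (nat_lit 5) (nat_lit 554) (nat_lit 5) (nat_lit 555) (nat_lit 5) (nat_lit 381) (nat_lit 368) (nat_lit 271))))) (XT.nd (nat_lit 156) (nat_lit 3496) (nat_lit 0) (XT.nd (nat_lit 78) (nat_lit 0) (nat_lit 76) (XT.lf (nat_lit 76) (nat_lit 3179701338) (nat_lit 0) (nat_lit 3249770186) (nat_lit 1824) (nat_lit 5419853773) (nat_lit 532) (nat_lit 5) (nat_lit 531) (nat_lit 5) (nat_lit 555) (nat_lit 5) (nat_lit 382) (nat_lit 368) (nat_lit 270)) (XT.lf (nat_lit 76) (nat_lit 1006392658) (nat_lit 0) (nat_lit 7498882066) (nat_lit 1824) (nat_lit 3518857181) (nat_lit 533) (nat_lit 5) (nat_lit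 532) (nat_lit 5) (nat_lit 556) (nat_lit 5) (nat_lit 383) (nat_lit 368) (nat_lit 269))) (XT.nd (nat_lit 78) (nat_lit 3648) (nat_lit 0) (XT.lf (nat_lit 0) (nat_lit 10696043023) (nat_lit 1748) (nat_lit 1160829658) (nat_lit 76) (nat_lit 346256210) (nat_lit 533) (nat_lit 5) (nat_lit 556) (nat_lit 5) (nat_lit 534) (nat_lit 5) (nat_lit 384) (nat_lit 368) (nat_lit 268)) (XT.nd (nat_lit 78) (nat_lit 1824) (nat_lit 0) (XT.lf (nat_lit 0) (nat_lit 637949076) (nat_lit 1824) (nat_lit 3354566168) (nat_lit 76) (nat_lit 8393300749) (nat_lit 509) (nat_lit 5) (nat_lit 533) (nat_lit 5) (nat_lit 510) (nat_lit 5) (nat_lit 385) (nat_lit 368) (nat_lit 267)) (XT.lf (nat_lit 0) (nat_lit 2879126438) (nat_lit 1900) (nat_lit 5571783360) (nat_lit 76) (nat_lit 4121829338) (nat_lit 485) (nat_lit 5) (nat_lit 510) (nat_lit 5) (nat_lit 486) (nat_lit 5) (nat_lit 386) (nat_lit 368) (nat_lit 266))))))))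
noncomputable def xc102 : XT := (XT.nd (nat_lit 1482) (nat_lit 7828) (nat_lit 0) (XT.nd (nat_lit 702) (nat_lit 5776) (nat_lit 0) (XT.nd (nat_lit 312) (nat_lit 4332) (nat_lit 0) (XT.nd (nat_lit 156) (nat_lit 912) (nat_lit 0) (XT.nd (nat_lit 78) (nat_lit 912) (nat_lit 0) (XT.lf (nat_lit 0) (nat_lit 4961697034) (nat_lit 1140) (nat_lit 279815980) (nat_lit 1216) (nat_lit 7522677481) (nat_lit 470) (nat_lit 5) (nat_lit 485) (nat_lit 5) (nat_lit 486) (nat_lit 5) (nat_lit 387) (nat_lit 368) (nat_lit 265)) (XT.lf (nat_lit 0) (nat_lit 2886669375) (nat_lit 912) (nat_lit 4870524894) (nat_lit 988) (nat_lit 5202542666) (nat_lit 458) (nat_lit 5) (nat_lit 470) (nat_lit 5) (nat_lit 471) (nat_lit 5) (nat_lit 388) (nat_lit 368) (nat_lit 264))) (XT.nd (nat_lit 78) (nat_lit 0) (nat_lit 0) (XT.lf (nat_lit 0) (nat_lit 803461673) (nat_lit 912) (nat_lit 9601687042) (nat_lit 988) (nat_lit 2754864996) (nat_lit 446) (nat_lit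 5) (nat_lit 458) (nat_lit 5) (nat_lit 459) (nat_lit 5) (nat_lit 389) (nat_lit 368) (nat_lit 263)) (XT.lf (nat_lit 0) (nat_lit 12086500368) (nat_lit 912) (nat_lit 1120760987) (nat_lit 988) (nat_lit 157543045) (nat_lit 446) (nat_lit 5) (nat_lit 458) (nat_lit 5) (nat_lit 459) (nat_lit 5) (nat_lit 390) (nat_lit 368) (nat_lit 262)))) (XT.nd (nat_lit 156) (nat_lit 2508) (nat_lit 0) (XT.nd (nat_lit 78) (nat_lit 912) (nat_lit 0) (XT.lf (nat_lit 0) (nat_lit 2575756551) (nat_lit 912) (nat_lit 3398807950) (nat_lit 76) (nat_lit 7599025816) (nat_lit 434) (nat_lit 5) (nat_lit 446) (nat_lit 5) (nat_lit 435) (nat_lit 5) (nat_lit 391) (nat_lit 368) (nat_lit 261)) (XT.lf (nat_lit 0) (nat_lit 5452605897) (nat_lit 988) (nat_lit 5530125294) (nat_lit 76) (nat_lit 2804613970) (nat_lit 422) (nat_lit 5) (nat_lit 435) (nat_lit 5) (nat_lit 423) (nat_lit 5) (nat_lit 392) (nat_lit 368) (nat_lit 260))) (XT.nd (nat_lit 78) (nat_lit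 1672) (nat_lit 0) (XT.lf (nat_lit 0) (nat_lit 6320713679) (nat_lit 836) (nat_lit 2175068519) (nat_lit 912) (nat_lit 5510130023) (nat_lit 411) (nat_lit 5) (nat_lit 422) (nat_lit 5) (nat_lit 423) (nat_lit 5) (nat_lit 393) (nat_lit 368) (nat_lit 259)) (XT.nd (nat_lit 78) (nat_lit 836) (nat_lit 0) (XT.lf (nat_lit 0) (nat_lit 4360096306) (nat_lit 836) (nat_lit 7357355804) (nat_lit 912) (nat_lit 2511840217) (nat_lit 400) (nat_lit 5) (nat_lit 411) (nat_lit 5) (nat_lit 412) (nat_lit 5) (nat_lit 394) (nat_lit 368) (nat_lit 258)) (XT.lf (nat_lit 0) (nat_lit 639686102) (nat_lit 836) (nat_lit 12067604343) (nat_lit 76) (nat_lit 1750591596) (nat_lit 389) (nat_lit 5) (nat_lit 400) (nat_lit 5) (nat_lit 390) (nat_lit 5) (nat_lit 395) (nat_lit 368) (nat_lit 257)))))) (XT.nd (nat_lit 390) (nat_lit 2736) (nat_lit 0) (XT.nd (nat_lit 156) (nat_lit 2280) (nat_lit 0) (XT.nd (nat_lit 78) (nat_lit 0) (nat_lit 0) (XT.lf (nat_lit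 0) (nat_lit 374597560) (nat_lit 760) (nat_lit 3573461471) (nat_lit 836) (nat_lit 10743009812) (nat_lit 379) (nat_lit 5) (nat_lit 389) (nat_lit 5) (nat_lit 390) (nat_lit 5) (nat_lit 396) (nat_lit 368) (nat_lit 256)) (XT.lf (nat_lit 0) (nat_lit 7453650865) (nat_lit 836) (nat_lit 1637331231) (nat_lit 76) (nat_lit 5838309799) (nat_lit 379) (nat_lit 5) (nat_lit 390) (nat_lit 5) (nat_lit 380) (nat_lit 5) (nat_lit 397) (nat_lit 368) (nat_lit 255))) (XT.nd (nat_lit 78) (nat_lit 1520) (nat_lit 0) (XT.lf (nat_lit 0) (nat_lit 11144052332) (nat_lit 836) (nat_lit 3649993188) (nat_lit 76) (nat_lit 379023281) (nat_lit 369) (nat_lit 5) (nat_lit 380) (nat_lit 5) (nat_lit 370) (nat_lit 5) (nat_lit 398) (nat_lit 368) (nat_lit 254)) (XT.nd (nat_lit 78) (nat_lit 760) (nat_lit 0) (XT.lf (nat_lit 0) (nat_lit 9719526467) (nat_lit 760) (nat_lit 5339589197) (nat_lit 836) (nat_lit 362764354) (nat_lit 359) (nat_lit 5) (nat_lit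 369) (nat_lit 5) (nat_lit 370) (nat_lit 5) (nat_lit 399) (nat_lit 368) (nat_lit 253)) (XT.lf (nat_lit 0) (nat_lit 3453425097) (nat_lit 760) (nat_lit 7785548288) (nat_lit 76) (nat_lit 4437044573) (nat_lit 349) (nat_lit 5) (nat_lit 359) (nat_lit 5) (nat_lit 350) (nat_lit 5) (nat_lit 400) (nat_lit 368) (nat_lit 252))))) (XT.nd (nat_lit 156) (nat_lit 1368) (nat_lit 0) (XT.nd (nat_lit 78) (nat_lit 684) (nat_lit 0) (XT.lf (nat_lit 0) (nat_lit 6049333987) (nat_lit 684) (nat_lit 1423387849) (nat_lit 760) (nat_lit 8463139240) (nat_lit 340) (nat_lit 5) (nat_lit 349) (nat_lit 5) (nat_lit 350) (nat_lit 5) (nat_lit 401) (nat_lit 368) (nat_lit 251)) (XT.lf (nat_lit 0) (nat_lit 4177700470) (nat_lit 684) (nat_lit 7551587490) (nat_lit 760) (nat_lit 4471877717) (nat_lit 331) (nat_lit 5) (nat_lit 340) (nat_lit 5) (nat_lit 341) (nat_lit 5) (nat_lit 402) (nat_lit 368) (nat_lit 250))) (XT.nd (nat_lit 78) (nat_lit 684)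 (nat_lit 0) (XT.lf (nat_lit 0) (nat_lit 2306296663) (nat_lit 684) (nat_lit 13896020845) (nat_lit 760) (nat_lit 270336580) (nat_lit 322) (nat_lit 5) (nat_lit 331) (nat_lit 5) (nat_lit 332) (nat_lit 5) (nat_lit 403) (nat_lit 368) (nat_lit 249)) (XT.nd (nat_lit 78) (nat_lit 0) (nat_lit 0) (XT.lf (nat_lit 0) (nat_lit 383944110) (nat_lit 608) (nat_lit 3735858139) (nat_lit 684) (nat_lit 12629642795) (nat_lit 313) (nat_lit 5) (nat_lit 321) (nat_lit 5) (nat_lit 322) (nat_lit 5) (nat_lit 404) (nat_lit 368) (nat_lit 248)) (XT.lf (nat_lit 0) (nat_lit 8759451267) (nat_lit 684) (nat_lit 1537634473) (nat_lit 76) (nat_lit 6734988673) (nat_lit 313) (nat_lit 5) (nat_lit 322) (nat_lit 5) (nat_lit 314) (nat_lit 5) (nat_lit 405) (nat_lit 368) (nat_lit 247))))))) (XT.nd (nat_lit 780) (nat_lit 2508) (nat_lit 0) (XT.nd (nat_lit 390) (nat_lit 2280) (nat_lit 0) (XT.nd (nat_lit 156) (nat_lit 1748) (nat_lit 0) (XT.nd (nat_lit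 78) (nat_lit 684) (nat_lit 0) (XT.lf (nat_lit 0) (nat_lit 13636526662) (nat_lit 684) (nat_lit 3453649115) (nat_lit 76) (nat_lit 231042148) (nat_lit 305) (nat_lit 5) (nat_lit 314) (nat_lit 5) (nat_lit 306) (nat_lit 5) (nat_lit 406) (nat_lit 368) (nat_lit 246)) (XT.lf (nat_lit 0) (nat_lit 1168798166) (nat_lit 684) (nat_lit 5418436772) (nat_lit 76) (nat_lit 11028834224) (nat_lit 296) (nat_lit 5) (nat_lit 305) (nat_lit 5) (nat_lit 297) (nat_lit 5) (nat_lit 407) (nat_lit 368) (nat_lit 245))) (XT.nd (nat_lit 78) (nat_lit 1140) (nat_lit 0) (XT.lf (nat_lit 0) (nat_lit 6220602887) (nat_lit 684) (nat_lit 7408851983) (nat_lit 76) (nat_lit 4287768529) (nat_lit 288) (nat_lit 5) (nat_lit 297) (nat_lit 5) (nat_lit 289) (nat_lit 5) (nat_lit 408) (nat_lit 368) (nat_lit 244)) (XT.nd (nat_lit 78) (nat_lit 608) (nat_lit 0) (XT.lf (nat_lit 0) (nat_lit 8809081700) (nat_lit 532) (nat_lit 2735729124) (nat_lit 608) (nat_lit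 6680184456) (nat_lit 281) (nat_lit 5) (nat_lit 288) (nat_lit 5) (nat_lit 289) (nat_lit 5) (nat_lit 409) (nat_lit 368) (nat_lit 243)) (XT.lf (nat_lit 0) (nat_lit 7088953119) (nat_lit 608) (nat_lit 10074413798) (nat_lit 684) (nat_lit 1375940963) (nat_lit 273) (nat_lit 5) (nat_lit 281) (nat_lit 5) (nat_lit 282) (nat_lit 5) (nat_lit 410) (nat_lit 368) (nat_lit 242))))) (XT.nd (nat_lit 156) (nat_lit 1140) (nat_lit 0) (XT.nd (nat_lit 78) (nat_lit 532) (nat_lit 0) (XT.lf (nat_lit 0) (nat_lit 4142297428) (nat_lit 608) (nat_lit 13509780991) (nat_lit 76) (nat_lit 1208271174) (nat_lit 265) (nat_lit 5) (nat_lit 273) (nat_lit 5) (nat_lit 266) (nat_lit 5) (nat_lit 411) (nat_lit 368) (nat_lit 241)) (XT.lf (nat_lit 0) (nat_lit 3570164595) (nat_lit 532) (nat_lit 6389508533) (nat_lit 608) (nat_lit 9228121853) (nat_lit 258) (nat_lit 5) (nat_lit 265) (nat_lit 5) (nat_lit 266) (nat_lit 5) (nat_lit 412) (nat_lit 368)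 (nat_lit 240))) (XT.nd (nat_lit 78) (nat_lit 608) (nat_lit 0) (XT.lf (nat_lit 0) (nat_lit 1790972851) (nat_lit 532) (nat_lit 14282030570) (nat_lit 608) (nat_lit 3449631645) (nat_lit 251) (nat_lit 5) (nat_lit 258) (nat_lit 5) (nat_lit 259) (nat_lit 5) (nat_lit 413) (nat_lit 368) (nat_lit 239)) (XT.nd (nat_lit 78) (nat_lit 532) (nat_lit 0) (XT.lf (nat_lit 0) (nat_lit 2602700092) (nat_lit 608) (nat_lit 11596687) (nat_lit 76) (nat_lit 17250232575) (nat_lit 250) (nat_lit 5) (nat_lit 258) (nat_lit 5) (nat_lit 251) (nat_lit 5) (nat_lit 414) (nat_lit 368) (nat_lit 238)) (XT.lf (nat_lit 0) (nat_lit 8956177749) (nat_lit 608) (nat_lit 1838767383) (nat_lit 76) (nat_lit 9417950441) (nat_lit 243) (nat_lit 5) (nat_lit 251) (nat_lit 5) (nat_lit 244) (nat_lit 5) (nat_lit 415) (nat_lit 368) (nat_lit 237)))))) (XT.nd (nat_lit 49452) (nat_lit 0) (nat_lit 25536) (XT.nd (nat_lit 156) (nat_lit 1444) (nat_lit 0) (XT.nd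 (nat_lit 78) (nat_lit 608) (nat_lit 0) (XT.lf (nat_lit 0) (nat_lit 15620988634) (nat_lit 532) (nat_lit 3655039705) (nat_lit 76) (nat_lit 1293269861) (nat_lit 237) (nat_lit 5) (nat_lit 244) (nat_lit 5) (nat_lit 238) (nat_lit 5) (nat_lit 416) (nat_lit 368) (nat_lit 236)) (XT.lf (nat_lit 0) (nat_lit 1700106330) (nat_lit 608) (nat_lit 5516525033) (nat_lit 76) (nat_lit 13716138847) (nat_lit 229) (nat_lit 5) (nat_lit 237) (nat_lit 5) (nat_lit 230) (nat_lit 5) (nat_lit 417) (nat_lit 368) (nat_lit 235))) (XT.nd (nat_lit 78) (nat_lit 988) (nat_lit 0) (XT.lf (nat_lit 0) (nat_lit 8616498538) (nat_lit 532) (nat_lit 7407860590) (nat_lit 76) (nat_lit 5279418046) (nat_lit 223) (nat_lit 5) (nat_lit 230) (nat_lit 5) (nat_lit 224) (nat_lit 5) (nat_lit 418) (nat_lit 368) (nat_lit 234)) (XT.nd (nat_lit 78) (nat_lit 532) (nat_lit 0) (XT.lf (nat_lit 0) (nat_lit 12373786827) (nat_lit 456) (nat_lit 3518330139) (nat_lit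 532) (nat_lit 5790762690) (nat_lit 217) (nat_lit 5) (nat_lit 223) (nat_lit 5) (nat_lit 224) (nat_lit 5) (nat_lit 419) (nat_lit 368) (nat_lit 233)) (XT.lf (nat_lit 0) (nat_lit 1463980684) (nat_lit 532) (nat_lit 11241650945) (nat_lit 76) (nat_lit 9364182183) (nat_lit 210) (nat_lit 5) (nat_lit 217) (nat_lit 5) (nat_lit 211) (nat_lit 5) (nat_lit 420) (nat_lit 368) (nat_lit 232))))) (XT.nd (nat_lit 156) (nat_lit 1672) (nat_lit 0) (XT.nd (nat_lit 78) (nat_lit 0) (nat_lit 0) (XT.lf (nat_lit 0) (nat_lit 2152363745) (nat_lit 0) (nat_lit 2152363745) (nat_lit 1596) (nat_lit 717722752) (nat_lit 568) (nat_lit 5) (nat_lit 568) (nat_lit 3) (nat_lit 589) (nat_lit 3) (nat_lit 369) (nat_lit 369) (nat_lit 282)) (XT.lf (nat_lit 76) (nat_lit 1806455450) (nat_lit 0) (nat_lit 8004920217) (nat_lit 1672) (nat_lit 362742750) (nat_lit 569) (nat_lit 5) (nat_lit 568) (nat_lit 5) (nat_lit 590) (nat_lit 5) (nat_lit 370) (nat_lit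 369) (nat_lit 281))) (XT.nd (nat_lit 78) (nat_lit 0) (nat_lit 76) (XT.lf (nat_lit 0) (nat_lit 759215709) (nat_lit 1672) (nat_lit 704451926) (nat_lit 1748) (nat_lit 8842912723) (nat_lit 546) (nat_lit 5) (nat_lit 568) (nat_lit 5) (nat_lit 569) (nat_lit 5) (nat_lit 371) (nat_lit 369) (nat_lit 280)) (XT.nd (nat_lit 78) (nat_lit 0) (nat_lit 76) (XT.lf (nat_lit 0) (nat_lit 1951821003) (nat_lit 1672) (nat_lit 3217629628) (nat_lit 1748) (nat_lit 5272679243) (nat_lit 547) (nat_lit 5) (nat_lit 569) (nat_lit 5) (nat_lit 570) (nat_lit 5) (nat_lit 372) (nat_lit 369) (nat_lit 279)) (XT.lf (nat_lit 0) (nat_lit 3198298433) (nat_lit 1672) (nat_lit 5741390256) (nat_lit 1748) (nat_lit 1641695308) (nat_lit 548) (nat_lit 5) (nat_lit 570) (nat_lit 5) (nat_lit 571) (nat_lit 5) (nat_lit 373) (nat_lit 369) (nat_lit 278))))))))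
noncomputable def xc103 : XT := (XT.nd (nat_lit 1560) (nat_lit 12464) (nat_lit 0) (XT.nd (nat_lit 780) (nat_lit 8132) (nat_lit 0) (XT.nd (nat_lit 390) (nat_lit 1444) (nat_lit 0) (XT.nd (nat_lit 156) (nat_lit 0) (nat_lit 152) (XT.nd (nat_lit 78) (nat_lit 0) (nat_lit 76) (XT.lf (nat_lit 76) (nat_lit 2433605220) (nat_lit 0) (nat_lit 2083181067) (nat_lit 1748) (nat_lit 6207337134) (nat_lit 549) (nat_lit 5) (nat_lit 548) (nat_lit 5) (nat_lit 571) (nat_lit 5) (nat_lit 374) (nat_lit 369) (nat_lit 277)) (XT.lf (nat_lit 76) (nat_lit 6504103) (nat_lit 0) (nat_lit 5903202137) (nat_lit 1748) (nat_lit 4960741239) (nat_lit 550) (nat_lit 5) (nat_lit 549) (nat_lit 5) (nat_lit 572) (nat_lit 5) (nat_lit 375) (nat_lit 369) (nat_lit 276))) (XT.nd (nat_lit 78) (nat_lit 0) (nat_lit 0) (XT.lf (nat_lit 0) (nat_lit 7386816225) (nat_lit 1672) (nat_lit 2399486227) (nat_lit 1748) (nat_lit 1234010758) (nat_lit 550) (nat_lit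 5) (nat_lit 572) (nat_lit 5) (nat_lit 573) (nat_lit 5) (nat_lit 376) (nat_lit 369) (nat_lit 275)) (XT.nd (nat_lit 78) (nat_lit 0) (nat_lit 76) (XT.lf (nat_lit 76) (nat_lit 6339764536) (nat_lit 0) (nat_lit 2614502541) (nat_lit 1748) (nat_lit 2219487285) (nat_lit 551) (nat_lit 5) (nat_lit 550) (nat_lit 5) (nat_lit 573) (nat_lit 5) (nat_lit 377) (nat_lit 369) (nat_lit 274)) (XT.lf (nat_lit 76) (nat_lit 4041284107) (nat_lit 0) (nat_lit 6567373446) (nat_lit 1748) (nat_lit 722342874) (nat_lit 552) (nat_lit 5) (nat_lit 551) (nat_lit 5) (nat_lit 574) (nat_lit 5) (nat_lit 378) (nat_lit 369) (nat_lit 273))))) (XT.nd (nat_lit 156) (nat_lit 0) (nat_lit 76) (XT.nd (nat_lit 78) (nat_lit 0) (nat_lit 0) (XT.lf (nat_lit 0) (nat_lit 843429344) (nat_lit 1748) (nat_lit 9764967291) (nat_lit 1824) (nat_lit 883771510) (nat_lit 529) (nat_lit 5) (nat_lit 552) (nat_lit 5) (nat_lit 553) (nat_lit 5) (nat_lit 379) (nat_lit 369)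 (nat_lit 272)) (XT.lf (nat_lit 0) (nat_lit 2507874982) (nat_lit 1748) (nat_lit 615431291) (nat_lit 1824) (nat_lit 8533538849) (nat_lit 529) (nat_lit 5) (nat_lit 552) (nat_lit 5) (nat_lit 553) (nat_lit 5) (nat_lit 380) (nat_lit 369) (nat_lit 271))) (XT.nd (nat_lit 78) (nat_lit 0) (nat_lit 76) (XT.lf (nat_lit 0) (nat_lit 4279021267) (nat_lit 1748) (nat_lit 2953691020) (nat_lit 1824) (nat_lit 4592614775) (nat_lit 530) (nat_lit 5) (nat_lit 553) (nat_lit 5) (nat_lit 554) (nat_lit 5) (nat_lit 381) (nat_lit 369) (nat_lit 270)) (XT.nd (nat_lit 78) (nat_lit 0) (nat_lit 0) (XT.lf (nat_lit 0) (nat_lit 6145038963) (nat_lit 1748) (nat_lit 5305015851) (nat_lit 1824) (nat_lit 547973905) (nat_lit 531) (nat_lit 5) (nat_lit 554) (nat_lit 5) (nat_lit 555) (nat_lit 5) (nat_lit 382) (nat_lit 369) (nat_lit 269)) (XT.lf (nat_lit 76) (nat_lit 4480858075) (nat_lit 0) (nat_lit 3654138547) (nat_lit 1824) (nat_lit 4039555616)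 (nat_lit 532) (nat_lit 5) (nat_lit 531) (nat_lit 5) (nat_lit 555) (nat_lit 5) (nat_lit 383) (nat_lit 369) (nat_lit 268)))))) (XT.nd (nat_lit 390) (nat_lit 3648) (nat_lit 0) (XT.nd (nat_lit 156) (nat_lit 3040) (nat_lit 0) (XT.nd (nat_lit 78) (nat_lit 1672) (nat_lit 0) (XT.lf (nat_lit 76) (nat_lit 2254510134) (nat_lit 0) (nat_lit 7980479456) (nat_lit 1824) (nat_lit 2120375140) (nat_lit 533) (nat_lit 5) (nat_lit 532) (nat_lit 5) (nat_lit 556) (nat_lit 5) (nat_lit 384) (nat_lit 369) (nat_lit 267)) (XT.lf (nat_lit 0) (nat_lit 17273990) (nat_lit 1748) (nat_lit 12429753163) (nat_lit 1824) (nat_lit 93593549) (nat_lit 510) (nat_lit 5) (nat_lit 533) (nat_lit 5) (nat_lit 534) (nat_lit 5) (nat_lit 385) (nat_lit 369) (nat_lit 266))) (XT.nd (nat_lit 78) (nat_lit 2964) (nat_lit 0) (XT.lf (nat_lit 0) (nat_lit 2062419550) (nat_lit 1824) (nat_lit 2243499692) (nat_lit 76) (nat_lit 8423364591) (nat_lit 509) (nat_lit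 5) (nat_lit 533) (nat_lit 5) (nat_lit 510) (nat_lit 5) (nat_lit 386) (nat_lit 369) (nat_lit 265)) (XT.nd (nat_lit 78) (nat_lit 1140) (nat_lit 0) (XT.lf (nat_lit 0) (nat_lit 4336470486) (nat_lit 1900) (nat_lit 4518279765) (nat_lit 76) (nat_lit 4067751654) (nat_lit 485) (nat_lit 5) (nat_lit 510) (nat_lit 5) (nat_lit 486) (nat_lit 5) (nat_lit 387) (nat_lit 369) (nat_lit 264)) (XT.lf (nat_lit 0) (nat_lit 6311401330) (nat_lit 1140) (nat_lit 426192894) (nat_lit 1216) (nat_lit 6382745270) (nat_lit 470) (nat_lit 5) (nat_lit 485) (nat_lit 5) (nat_lit 486) (nat_lit 5) (nat_lit 388) (nat_lit 369) (nat_lit 263))))) (XT.nd (nat_lit 156) (nat_lit 1824) (nat_lit 0) (XT.nd (nat_lit 78) (nat_lit 912) (nat_lit 0) (XT.lf (nat_lit 0) (nat_lit 4181864056) (nat_lit 912) (nat_lit 5114863859) (nat_lit 988) (nat_lit 4025664771) (nat_lit 458) (nat_lit 5) (nat_lit 470) (nat_lit 5) (nat_lit 471) (nat_lit 5) (nat_lit 389) (nat_lit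 369) (nat_lit 262)) (XT.lf (nat_lit 0) (nat_lit 2042891821) (nat_lit 912) (nat_lit 9950438068) (nat_lit 988) (nat_lit 1535963699) (nat_lit 446) (nat_lit 5) (nat_lit 458) (nat_lit 5) (nat_lit 459) (nat_lit 5) (nat_lit 390) (nat_lit 369) (nat_lit 261))) (XT.nd (nat_lit 78) (nat_lit 1748) (nat_lit 0) (XT.lf (nat_lit 0) (nat_lit 1086924117) (nat_lit 988) (nat_lit 119098308) (nat_lit 76) (nat_lit 12534805874) (nat_lit 445) (nat_lit 5) (nat_lit 458) (nat_lit 5) (nat_lit 446) (nat_lit 5) (nat_lit 391) (nat_lit 369) (nat_lit 260)) (XT.nd (nat_lit 78) (nat_lit 912) (nat_lit 0) (XT.lf (nat_lit 0) (nat_lit 3871146546) (nat_lit 912) (nat_lit 2299046886) (nat_lit 76) (nat_lit 7786242248) (nat_lit 434) (nat_lit 5) (nat_lit 446) (nat_lit 5) (nat_lit 435) (nat_lit 5) (nat_lit 392) (nat_lit 369) (nat_lit 259)) (XT.lf (nat_lit 0) (nat_lit 6806445546) (nat_lit 988) (nat_lit 4489941542) (nat_lit 76) (nat_lit 2880773199)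 (nat_lit 422) (nat_lit 5) (nat_lit 435) (nat_lit 5) (nat_lit 423) (nat_lit 5) (nat_lit 393) (nat_lit 369) (nat_lit 258))))))) (XT.nd (nat_lit 780) (nat_lit 5548) (nat_lit 0) (XT.nd (nat_lit 390) (nat_lit 3648) (nat_lit 0) (XT.nd (nat_lit 156) (nat_lit 1596) (nat_lit 0) (XT.nd (nat_lit 78) (nat_lit 836) (nat_lit 0) (XT.lf (nat_lit 0) (nat_lit 7696855264) (nat_lit 836) (nat_lit 2217097739) (nat_lit 912) (nat_lit 4488870639) (nat_lit 411) (nat_lit 5) (nat_lit 422) (nat_lit 5) (nat_lit 423) (nat_lit 5) (nat_lit 394) (nat_lit 369) (nat_lit 257)) (XT.lf (nat_lit 0) (nat_lit 5680909642) (nat_lit 836) (nat_lit 7525353647) (nat_lit 912) (nat_lit 1427162056) (nat_lit 400) (nat_lit 5) (nat_lit 411) (nat_lit 5) (nat_lit 412) (nat_lit 5) (nat_lit 395) (nat_lit 369) (nat_lit 256))) (XT.nd (nat_lit 78) (nat_lit 760) (nat_lit 0) (XT.lf (nat_lit 0) (nat_lit 1778481667) (nat_lit 836) (nat_lit 11222009600) (nat_lit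 76) (nat_lit 1868735136) (nat_lit 389) (nat_lit 5) (nat_lit 400) (nat_lit 5) (nat_lit 390) (nat_lit 5) (nat_lit 396) (nat_lit 369) (nat_lit 255)) (XT.nd (nat_lit 78) (nat_lit 0) (nat_lit 0) (XT.lf (nat_lit 0) (nat_lit 1573866114) (nat_lit 760) (nat_lit 3587343298) (nat_lit 836) (nat_lit 9948697324) (nat_lit 379) (nat_lit 5) (nat_lit 389) (nat_lit 5) (nat_lit 390) (nat_lit 5) (nat_lit 397) (nat_lit 369) (nat_lit 254)) (XT.lf (nat_lit 0) (nat_lit 8740672546) (nat_lit 836) (nat_lit 512355157) (nat_lit 76) (nat_lit 6102874706) (nat_lit 379) (nat_lit 5) (nat_lit 390) (nat_lit 5) (nat_lit 380) (nat_lit 5) (nat_lit 398) (nat_lit 369) (nat_lit 253))))) (XT.nd (nat_lit 156) (nat_lit 2052) (nat_lit 0) (XT.nd (nat_lit 78) (nat_lit 836) (nat_lit 0) (XT.lf (nat_lit 0) (nat_lit 12519059589) (nat_lit 836) (nat_lit 2584393886) (nat_lit 76) (nat_lit 503993676) (nat_lit 369) (nat_lit 5) (nat_lit 380) (nat_lit 5) (nat_lit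 370) (nat_lit 5) (nat_lit 399) (nat_lit 369) (nat_lit 252)) (XT.lf (nat_lit 0) (nat_lit 655874291) (nat_lit 836) (nat_lit 4701347006) (nat_lit 76) (nat_lit 10506871219) (nat_lit 358) (nat_lit 5) (nat_lit 369) (nat_lit 5) (nat_lit 359) (nat_lit 5) (nat_lit 400) (nat_lit 369) (nat_lit 251))) (XT.nd (nat_lit 78) (nat_lit 1368) (nat_lit 0) (XT.lf (nat_lit 0) (nat_lit 4560240268) (nat_lit 760) (nat_lit 6849358458) (nat_lit 76) (nat_lit 4716635522) (nat_lit 349) (nat_lit 5) (nat_lit 359) (nat_lit 5) (nat_lit 350) (nat_lit 5) (nat_lit 401) (nat_lit 369) (nat_lit 250)) (XT.nd (nat_lit 78) (nat_lit 684) (nat_lit 0) (XT.lf (nat_lit 0) (nat_lit 7381592380) (nat_lit 684) (nat_lit 1296775367) (nat_lit 760) (nat_lit 7715939876) (nat_lit 340) (nat_lit 5) (nat_lit 349) (nat_lit 5) (nat_lit 350) (nat_lit 5) (nat_lit 402) (nat_lit 369) (nat_lit 249)) (XT.lf (nat_lit 0) (nat_lit 5453369203) (nat_lit 684) (nat_lit 7589211350)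 (nat_lit 760) (nat_lit 3625391815) (nat_lit 331) (nat_lit 5) (nat_lit 340) (nat_lit 5) (nat_lit 341) (nat_lit 5) (nat_lit 403) (nat_lit 369) (nat_lit 248)))))) (XT.nd (nat_lit 390) (nat_lit 2888) (nat_lit 0) (XT.nd (nat_lit 156) (nat_lit 1292) (nat_lit 0) (XT.nd (nat_lit 78) (nat_lit 608) (nat_lit 0) (XT.lf (nat_lit 0) (nat_lit 673509105) (nat_lit 760) (nat_lit 13427553367) (nat_lit 76) (nat_lit 2846841318) (nat_lit 321) (nat_lit 5) (nat_lit 331) (nat_lit 5) (nat_lit 322) (nat_lit 5) (nat_lit 404) (nat_lit 369) (nat_lit 247)) (XT.lf (nat_lit 0) (nat_lit 1538597497) (nat_lit 608) (nat_lit 3632904214) (nat_lit 684) (nat_lit 12061864576) (nat_lit 313) (nat_lit 5) (nat_lit 321) (nat_lit 5) (nat_lit 322) (nat_lit 5) (nat_lit 405) (nat_lit 369) (nat_lit 246))) (XT.nd (nat_lit 78) (nat_lit 1292) (nat_lit 0) (XT.lf (nat_lit 0) (nat_lit 9924663455) (nat_lit 684) (nat_lit 457257627) (nat_lit 76) (nat_lit 7143066990)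 (nat_lit 313) (nat_lit 5) (nat_lit 322) (nat_lit 5) (nat_lit 314) (nat_lit 5) (nat_lit 406) (nat_lit 369) (nat_lit 245)) (XT.nd (nat_lit 78) (nat_lit 684) (nat_lit 0) (XT.lf (nat_lit 0) (nat_lit 14930422279) (nat_lit 684) (nat_lit 2432822269) (nat_lit 76) (nat_lit 459913918) (nat_lit 305) (nat_lit 5) (nat_lit 314) (nat_lit 5) (nat_lit 306) (nat_lit 5) (nat_lit 407) (nat_lit 369) (nat_lit 244)) (XT.lf (nat_lit 0) (nat_lit 2075809701) (nat_lit 684) (nat_lit 4463208474) (nat_lit 76) (nat_lit 11588094110) (nat_lit 296) (nat_lit 5) (nat_lit 305) (nat_lit 5) (nat_lit 297) (nat_lit 5) (nat_lit 408) (nat_lit 369) (nat_lit 243))))) (XT.nd (nat_lit 156) (nat_lit 1748) (nat_lit 0) (XT.nd (nat_lit 78) (nat_lit 532) (nat_lit 0) (XT.lf (nat_lit 0) (nat_lit 7262508577) (nat_lit 684) (nat_lit 6515993913) (nat_lit 76) (nat_lit 4659131858) (nat_lit 288) (nat_lit 5) (nat_lit 297) (nat_lit 5) (nat_lit 289) (nat_lit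 5) (nat_lit 409) (nat_lit 369) (nat_lit 242)) (XT.lf (nat_lit 0) (nat_lit 10170386225) (nat_lit 532) (nat_lit 2558267899) (nat_lit 608) (nat_lit 6026341036) (nat_lit 281) (nat_lit 5) (nat_lit 288) (nat_lit 5) (nat_lit 289) (nat_lit 5) (nat_lit 410) (nat_lit 369) (nat_lit 241))) (XT.nd (nat_lit 78) (nat_lit 1140) (nat_lit 0) (XT.lf (nat_lit 0) (nat_lit 8395676252) (nat_lit 608) (nat_lit 10104436782) (nat_lit 684) (nat_lit 578937181) (nat_lit 273) (nat_lit 5) (nat_lit 281) (nat_lit 5) (nat_lit 282) (nat_lit 5) (nat_lit 411) (nat_lit 369) (nat_lit 240)) (XT.nd (nat_lit 78) (nat_lit 532) (nat_lit 0) (XT.lf (nat_lit 0) (nat_lit 5078614316) (nat_lit 608) (nat_lit 12813546384) (nat_lit 76) (nat_lit 1517758421) (nat_lit 265) (nat_lit 5) (nat_lit 273) (nat_lit 5) (nat_lit 266) (nat_lit 5) (nat_lit 412) (nat_lit 369) (nat_lit 239)) (XT.lf (nat_lit 0) (nat_lit 4760926586) (nat_lit 532) (nat_lit 6292968639)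 (nat_lit 608) (nat_lit 8693624967) (nat_lit 258) (nat_lit 5) (nat_lit 265) (nat_lit 5) (nat_lit 266) (nat_lit 5) (nat_lit 413) (nat_lit 369) (nat_lit 238))))))))
noncomputable def xc104 : XT := (XT.nd (nat_lit 50622) (nat_lit 0) (nat_lit 10716) (XT.nd (nat_lit 49842) (nat_lit 0) (nat_lit 23636) (XT.nd (nat_lit 312) (nat_lit 1520) (nat_lit 0) (XT.nd (nat_lit 156) (nat_lit 456) (nat_lit 0) (XT.nd (nat_lit 78) (nat_lit 608) (nat_lit 0) (XT.lf (nat_lit 0) (nat_lit 2924587592) (nat_lit 532) (nat_lit 14411698092) (nat_lit 608) (nat_lit 2756406590) (nat_lit 251) (nat_lit 5) (nat_lit 258) (nat_lit 5) (nat_lit 259) (nat_lit 5) (nat_lit 414) (nat_lit 369) (nat_lit 237)) (XT.lf (nat_lit 0) (nat_lit 1060541893) (nat_lit 532) (nat_lit 2390488978) (nat_lit 608) (nat_lit 16994029368) (nat_lit 243) (nat_lit 5) (nat_lit 250) (nat_lit 5) (nat_lit 251) (nat_lit 5) (nat_lit 415) (nat_lit 369) (nat_lit 236))) (XT.nd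 (nat_lit 78) (nat_lit 456) (nat_lit 0) (XT.lf (nat_lit 0) (nat_lit 9974660364) (nat_lit 608) (nat_lit 839475118) (nat_lit 76) (nat_lit 9990151012) (nat_lit 243) (nat_lit 5) (nat_lit 251) (nat_lit 5) (nat_lit 244) (nat_lit 5) (nat_lit 416) (nat_lit 369) (nat_lit 235)) (XT.lf (nat_lit 0) (nat_lit 16826277004) (nat_lit 532) (nat_lit 2714614053) (nat_lit 76) (nat_lit 1630752915) (nat_lit 237) (nat_lit 5) (nat_lit 244) (nat_lit 5) (nat_lit 238) (nat_lit 5) (nat_lit 417) (nat_lit 369) (nat_lit 234)))) (XT.nd (nat_lit 156) (nat_lit 456) (nat_lit 0) (XT.nd (nat_lit 78) (nat_lit 456) (nat_lit 0) (XT.lf (nat_lit 0) (nat_lit 2477800196) (nat_lit 608) (nat_lit 4639322854) (nat_lit 76) (nat_lit 14429096453) (nat_lit 229) (nat_lit 5) (nat_lit 237) (nat_lit 5) (nat_lit 230) (nat_lit 5) (nat_lit 418) (nat_lit 369) (nat_lit 233)) (XT.lf (nat_lit 0) (nat_lit 9589214551) (nat_lit 532) (nat_lit 6592107389) (nat_lit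 76) (nat_lit 5747284127) (nat_lit 223) (nat_lit 5) (nat_lit 230) (nat_lit 5) (nat_lit 224) (nat_lit 5) (nat_lit 419) (nat_lit 369) (nat_lit 232))) (XT.nd (nat_lit 49218) (nat_lit 0) (nat_lit 24928) (XT.lf (nat_lit 0) (nat_lit 13766149312) (nat_lit 456) (nat_lit 3302779641) (nat_lit 532) (nat_lit 5250436123) (nat_lit 217) (nat_lit 5) (nat_lit 223) (nat_lit 5) (nat_lit 224) (nat_lit 5) (nat_lit 420) (nat_lit 369) (nat_lit 231)) (XT.nd (nat_lit 78) (nat_lit 0) (nat_lit 76) (XT.lf (nat_lit 0) (nat_lit 314100451) (nat_lit 1748) (nat_lit 2419123053) (nat_lit 1748) (nat_lit 2419123053) (nat_lit 545) (nat_lit 3) (nat_lit 568) (nat_lit 3) (nat_lit 568) (nat_lit 5) (nat_lit 370) (nat_lit 370) (nat_lit 280)) (XT.lf (nat_lit 0) (nat_lit 1658195652) (nat_lit 1672) (nat_lit 7521936577) (nat_lit 1748) (nat_lit 1258719847) (nat_lit 546) (nat_lit 5) (nat_lit 568) (nat_lit 5) (nat_lit 569) (nat_lit 5) (nat_lit 371)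 (nat_lit 370) (nat_lit 279)))))) (XT.nd (nat_lit 390) (nat_lit 1368) (nat_lit 0) (XT.nd (nat_lit 156) (nat_lit 0) (nat_lit 152) (XT.nd (nat_lit 78) (nat_lit 0) (nat_lit 76) (XT.lf (nat_lit 76) (nat_lit 341348113) (nat_lit 0) (nat_lit 2410744331) (nat_lit 1748) (nat_lit 7824283319) (nat_lit 547) (nat_lit 5) (nat_lit 546) (nat_lit 5) (nat_lit 569) (nat_lit 5) (nat_lit 372) (nat_lit 370) (nat_lit 278)) (XT.lf (nat_lit 0) (nat_lit 3922066419) (nat_lit 1672) (nat_lit 2224929325) (nat_lit 1748) (nat_lit 4570164211) (nat_lit 547) (nat_lit 5) (nat_lit 569) (nat_lit 5) (nat_lit 570) (nat_lit 5) (nat_lit 373) (nat_lit 370) (nat_lit 277))) (XT.nd (nat_lit 78) (nat_lit 0) (nat_lit 0) (XT.lf (nat_lit 0) (nat_lit 5152076763) (nat_lit 1672) (nat_lit 4799676508) (nat_lit 1748) (nat_lit 909915659) (nat_lit 548) (nat_lit 5) (nat_lit 570) (nat_lit 5) (nat_lit 571) (nat_lit 5) (nat_lit 374) (nat_lit 370) (nat_lit 276))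 (XT.nd (nat_lit 78) (nat_lit 0) (nat_lit 76) (XT.lf (nat_lit 76) (nat_lit 3602496229) (nat_lit 0) (nat_lit 2860626687) (nat_lit 1748) (nat_lit 4546507548) (nat_lit 549) (nat_lit 5) (nat_lit 548) (nat_lit 5) (nat_lit 571) (nat_lit 5) (nat_lit 375) (nat_lit 370) (nat_lit 275)) (XT.lf (nat_lit 76) (nat_lit 1124998391) (nat_lit 0) (nat_lit 6722843378) (nat_lit 1748) (nat_lit 3313502248) (nat_lit 550) (nat_lit 5) (nat_lit 549) (nat_lit 5) (nat_lit 572) (nat_lit 5) (nat_lit 376) (nat_lit 370) (nat_lit 274))))) (XT.nd (nat_lit 156) (nat_lit 1672) (nat_lit 0) (XT.nd (nat_lit 78) (nat_lit 0) (nat_lit 0) (XT.lf (nat_lit 0) (nat_lit 9313928004) (nat_lit 1672) (nat_lit 1347501998) (nat_lit 1748) (nat_lit 655382458) (nat_lit 550) (nat_lit 5) (nat_lit 572) (nat_lit 5) (nat_lit 573) (nat_lit 5) (nat_lit 377) (nat_lit 370) (nat_lit 273)) (XT.lf (nat_lit 76) (nat_lit 7635691229) (nat_lit 0) (nat_lit 3250215340) (nat_lit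 1748) (nat_lit 589800195) (nat_lit 551) (nat_lit 5) (nat_lit 550) (nat_lit 5) (nat_lit 573) (nat_lit 5) (nat_lit 378) (nat_lit 370) (nat_lit 272))) (XT.nd (nat_lit 78) (nat_lit 0) (nat_lit 76) (XT.lf (nat_lit 0) (nat_lit 894821978) (nat_lit 1748) (nat_lit 6357852925) (nat_lit 1824) (nat_lit 4385770603) (nat_lit 528) (nat_lit 5) (nat_lit 551) (nat_lit 5) (nat_lit 552) (nat_lit 5) (nat_lit 379) (nat_lit 370) (nat_lit 271)) (XT.nd (nat_lit 78) (nat_lit 0) (nat_lit 0) (XT.lf (nat_lit 0) (nat_lit 2454680382) (nat_lit 1748) (nat_lit 8896002758) (nat_lit 1824) (nat_lit 454531087) (nat_lit 529) (nat_lit 5) (nat_lit 552) (nat_lit 5) (nat_lit 553) (nat_lit 5) (nat_lit 380) (nat_lit 370) (nat_lit 270)) (XT.lf (nat_lit 76) (nat_lit 500744534) (nat_lit 0) (nat_lit 3625373355) (nat_lit 1824) (nat_lit 7849572453) (nat_lit 530) (nat_lit 5) (nat_lit 529) (nat_lit 5) (nat_lit 553) (nat_lit 5) (nat_lit 381) (nat_lit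 370) (nat_lit 269))))))) (XT.nd (nat_lit 780) (nat_lit 6688) (nat_lit 0) (XT.nd (nat_lit 390) (nat_lit 4712) (nat_lit 0) (XT.nd (nat_lit 156) (nat_lit 1672) (nat_lit 0) (XT.nd (nat_lit 78) (nat_lit 0) (nat_lit 76) (XT.lf (nat_lit 0) (nat_lit 5906958155) (nat_lit 1748) (nat_lit 1899942331) (nat_lit 1824) (nat_lit 4343195062) (nat_lit 530) (nat_lit 5) (nat_lit 553) (nat_lit 5) (nat_lit 554) (nat_lit 5) (nat_lit 382) (nat_lit 370) (nat_lit 268)) (XT.lf (nat_lit 0) (nat_lit 7790372967) (nat_lit 1748) (nat_lit 4308873256) (nat_lit 1824) (nat_lit 229503700) (nat_lit 531) (nat_lit 5) (nat_lit 554) (nat_lit 5) (nat_lit 555) (nat_lit 5) (nat_lit 383) (nat_lit 370) (nat_lit 267))) (XT.nd (nat_lit 78) (nat_lit 1748) (nat_lit 0) (XT.lf (nat_lit 76) (nat_lit 5751833630) (nat_lit 0) (nat_lit 4053022064) (nat_lit 1824) (nat_lit 2706416927) (nat_lit 532) (nat_lit 5) (nat_lit 531) (nat_lit 5) (nat_lit 555) (nat_lit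 5) (nat_lit 384) (nat_lit 370) (nat_lit 266)) (XT.nd (nat_lit 78) (nat_lit 1824) (nat_lit 0) (XT.lf (nat_lit 76) (nat_lit 3470157217) (nat_lit 0) (nat_lit 8461793102) (nat_lit 1824) (nat_lit 766277132) (nat_lit 533) (nat_lit 5) (nat_lit 532) (nat_lit 5) (nat_lit 556) (nat_lit 5) (nat_lit 385) (nat_lit 370) (nat_lit 265)) (XT.lf (nat_lit 76) (nat_lit 1166871234) (nat_lit 0) (nat_lit 103060871) (nat_lit 1900) (nat_lit 11619618352) (nat_lit 509) (nat_lit 5) (nat_lit 508) (nat_lit 5) (nat_lit 533) (nat_lit 5) (nat_lit 386) (nat_lit 370) (nat_lit 264))))) (XT.nd (nat_lit 156) (nat_lit 2964) (nat_lit 0) (XT.nd (nat_lit 78) (nat_lit 1824) (nat_lit 0) (XT.lf (nat_lit 0) (nat_lit 3448952332) (nat_lit 1824) (nat_lit 1168657957) (nat_lit 76) (nat_lit 8467058855) (nat_lit 509) (nat_lit 5) (nat_lit 533) (nat_lit 5) (nat_lit 510) (nat_lit 5) (nat_lit 387) (nat_lit 370) (nat_lit 263)) (XT.lf (nat_lit 0) (nat_lit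 5758835555) (nat_lit 1900) (nat_lit 3503241773) (nat_lit 76) (nat_lit 4022254216) (nat_lit 485) (nat_lit 5) (nat_lit 510) (nat_lit 5) (nat_lit 486) (nat_lit 5) (nat_lit 388) (nat_lit 370) (nat_lit 262))) (XT.nd (nat_lit 78) (nat_lit 1824) (nat_lit 0) (XT.lf (nat_lit 0) (nat_lit 7632662858) (nat_lit 1140) (nat_lit 569040359) (nat_lit 1216) (nat_lit 5287006838) (nat_lit 470) (nat_lit 5) (nat_lit 485) (nat_lit 5) (nat_lit 486) (nat_lit 5) (nat_lit 389) (nat_lit 370) (nat_lit 261)) (XT.nd (nat_lit 78) (nat_lit 912) (nat_lit 0) (XT.lf (nat_lit 0) (nat_lit 5446536304) (nat_lit 912) (nat_lit 5360894579) (nat_lit 988) (nat_lit 2889997561) (nat_lit 458) (nat_lit 5) (nat_lit 470) (nat_lit 5) (nat_lit 471) (nat_lit 5) (nat_lit 390) (nat_lit 370) (nat_lit 260)) (XT.lf (nat_lit 0) (nat_lit 3249740172) (nat_lit 912) (nat_lit 10306167173) (nat_lit 988) (nat_lit 355209500) (nat_lit 446) (nat_lit 5) (nat_lit 458)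 (nat_lit 5) (nat_lit 459) (nat_lit 5) (nat_lit 391) (nat_lit 370) (nat_lit 259)))))) (XT.nd (nat_lit 390) (nat_lit 3192) (nat_lit 0) (XT.nd (nat_lit 156) (nat_lit 2584) (nat_lit 0) (XT.nd (nat_lit 78) (nat_lit 0) (nat_lit 0) (XT.lf (nat_lit 0) (nat_lit 1018503820) (nat_lit 836) (nat_lit 1283119438) (nat_lit 912) (nat_lit 11827788061) (nat_lit 434) (nat_lit 5) (nat_lit 445) (nat_lit 5) (nat_lit 446) (nat_lit 5) (nat_lit 392) (nat_lit 370) (nat_lit 258)) (XT.lf (nat_lit 0) (nat_lit 5135473325) (nat_lit 912) (nat_lit 1235276939) (nat_lit 76) (nat_lit 7981414640) (nat_lit 434) (nat_lit 5) (nat_lit 446) (nat_lit 5) (nat_lit 435) (nat_lit 5) (nat_lit 393) (nat_lit 370) (nat_lit 257))) (XT.nd (nat_lit 78) (nat_lit 1672) (nat_lit 0) (XT.lf (nat_lit 0) (nat_lit 8132574507) (nat_lit 988) (nat_lit 3487786634) (nat_lit 76) (nat_lit 2959675242) (nat_lit 422) (nat_lit 5) (nat_lit 435) (nat_lit 5) (nat_lit 423)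 (nat_lit 5) (nat_lit 394) (nat_lit 370) (nat_lit 256)) (XT.nd (nat_lit 78) (nat_lit 836) (nat_lit 0) (XT.lf (nat_lit 0) (nat_lit 9046169984) (nat_lit 836) (nat_lit 2261720921) (nat_lit 912) (nat_lit 3505087059) (nat_lit 411) (nat_lit 5) (nat_lit 422) (nat_lit 5) (nat_lit 423) (nat_lit 5) (nat_lit 395) (nat_lit 370) (nat_lit 255)) (XT.lf (nat_lit 0) (nat_lit 6973035910) (nat_lit 836) (nat_lit 7701417931) (nat_lit 912) (nat_lit 376534211) (nat_lit 400) (nat_lit 5) (nat_lit 411) (nat_lit 5) (nat_lit 412) (nat_lit 5) (nat_lit 396) (nat_lit 370) (nat_lit 254))))) (XT.nd (nat_lit 156) (nat_lit 1596) (nat_lit 0) (XT.nd (nat_lit 78) (nat_lit 760) (nat_lit 0) (XT.lf (nat_lit 0) (nat_lit 2887171192) (nat_lit 836) (nat_lit 10420369508) (nat_lit 76) (nat_lit 1986655793) (nat_lit 389) (nat_lit 5) (nat_lit 400) (nat_lit 5) (nat_lit 390) (nat_lit 5) (nat_lit 397) (nat_lit 370) (nat_lit 253)) (XT.lf (nat_lit 0)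 (nat_lit 2740914907) (nat_lit 760) (nat_lit 3606998646) (nat_lit 836) (nat_lit 9194653028) (nat_lit 379) (nat_lit 5) (nat_lit 389) (nat_lit 5) (nat_lit 390) (nat_lit 5) (nat_lit 398) (nat_lit 370) (nat_lit 252))) (XT.nd (nat_lit 78) (nat_lit 836) (nat_lit 0) (XT.lf (nat_lit 0) (nat_lit 586666520) (nat_lit 760) (nat_lit 9422403176) (nat_lit 836) (nat_lit 5787386245) (nat_lit 369) (nat_lit 5) (nat_lit 379) (nat_lit 5) (nat_lit 380) (nat_lit 5) (nat_lit 399) (nat_lit 370) (nat_lit 251)) (XT.nd (nat_lit 78) (nat_lit 836) (nat_lit 0) (XT.lf (nat_lit 0) (nat_lit 13875577448) (nat_lit 836) (nat_lit 1554282101) (nat_lit 76) (nat_lit 626192096) (nat_lit 369) (nat_lit 5) (nat_lit 380) (nat_lit 5) (nat_lit 370) (nat_lit 5) (nat_lit 400) (nat_lit 370) (nat_lit 250)) (XT.lf (nat_lit 0) (nat_lit 1641354200) (nat_lit 836) (nat_lit 3739878993) (nat_lit 76) (nat_lit 10939466024) (nat_lit 358) (nat_lit 5) (nat_lit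 369) (nat_lit 5) (nat_lit 359) (nat_lit 5) (nat_lit 401) (nat_lit 370) (nat_lit 249))))))))
noncomputable def xc105 : XT := (XT.nd (nat_lit 50700) (nat_lit 0) (nat_lit 18772) (XT.nd (nat_lit 702) (nat_lit 4940) (nat_lit 0) (XT.nd (nat_lit 312) (nat_lit 2508) (nat_lit 0) (XT.nd (nat_lit 156) (nat_lit 1444) (nat_lit 0) (XT.nd (nat_lit 78) (nat_lit 684) (nat_lit 0) (XT.lf (nat_lit 0) (nat_lit 5642671398) (nat_lit 760) (nat_lit 5952231729) (nat_lit 76) (nat_lit 4996205671) (nat_lit 349) (nat_lit 5) (nat_lit 359) (nat_lit 5) (nat_lit 350) (nat_lit 5) (nat_lit 402) (nat_lit 370) (nat_lit 248)) (XT.lf (nat_lit 0) (nat_lit 8687759137) (nat_lit 684) (nat_lit 1176083834) (nat_lit 760) (nat_lit 7003791397) (nat_lit 340) (nat_lit 5) (nat_lit 349) (nat_lit 5) (nat_lit 350) (nat_lit 5) (nat_lit 403) (nat_lit 370) (nat_lit 247))) (XT.nd (nat_lit 78) (nat_lit 760) (nat_lit 0) (XT.lf (nat_lit 0) (nat_lit 6701273908)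 (nat_lit 684) (nat_lit 7638808923) (nat_lit 760) (nat_lit 2809804212) (nat_lit 331) (nat_lit 5) (nat_lit 340) (nat_lit 5) (nat_lit 341) (nat_lit 5) (nat_lit 404) (nat_lit 370) (nat_lit 246)) (XT.lf (nat_lit 0) (nat_lit 1587581760) (nat_lit 760) (nat_lit 12735095850) (nat_lit 76) (nat_lit 3115785946) (nat_lit 321) (nat_lit 5) (nat_lit 331) (nat_lit 5) (nat_lit 322) (nat_lit 5) (nat_lit 405) (nat_lit 370) (nat_lit 245)))) (XT.nd (nat_lit 156) (nat_lit 1292) (nat_lit 0) (XT.nd (nat_lit 78) (nat_lit 608) (nat_lit 0) (XT.lf (nat_lit 0) (nat_lit 2662269857) (nat_lit 608) (nat_lit 3539205254) (nat_lit 684) (nat_lit 11531395599) (nat_lit 313) (nat_lit 5) (nat_lit 321) (nat_lit 5) (nat_lit 322) (nat_lit 5) (nat_lit 406) (nat_lit 370) (nat_lit 244)) (XT.lf (nat_lit 0) (nat_lit 598716755) (nat_lit 608) (nat_lit 10478199423) (nat_lit 684) (nat_lit 6956731279) (nat_lit 305) (nat_lit 5) (nat_lit 313) (nat_lit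 5) (nat_lit 314) (nat_lit 5) (nat_lit 407) (nat_lit 370) (nat_lit 243))) (XT.nd (nat_lit 78) (nat_lit 1292) (nat_lit 0) (XT.lf (nat_lit 0) (nat_lit 16212343636) (nat_lit 684) (nat_lit 1445917862) (nat_lit 76) (nat_lit 682911548) (nat_lit 305) (nat_lit 5) (nat_lit 314) (nat_lit 5) (nat_lit 306) (nat_lit 5) (nat_lit 408) (nat_lit 370) (nat_lit 242)) (XT.nd (nat_lit 78) (nat_lit 608) (nat_lit 0) (XT.lf (nat_lit 0) (nat_lit 2959978223) (nat_lit 684) (nat_lit 3543488553) (nat_lit 76) (nat_lit 12151020993) (nat_lit 296) (nat_lit 5) (nat_lit 305) (nat_lit 5) (nat_lit 297) (nat_lit 5) (nat_lit 409) (nat_lit 370) (nat_lit 241)) (XT.lf (nat_lit 0) (nat_lit 8286574430) (nat_lit 684) (nat_lit 5660362759) (nat_lit 76) (nat_lit 5027702378) (nat_lit 288) (nat_lit 5) (nat_lit 297) (nat_lit 5) (nat_lit 289) (nat_lit 5) (nat_lit 410) (nat_lit 370) (nat_lit 240)))))) (XT.nd (nat_lit 390) (nat_lit 2128) (nat_lit 0)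 (XT.nd (nat_lit 156) (nat_lit 1596) (nat_lit 0) (XT.nd (nat_lit 78) (nat_lit 684) (nat_lit 0) (XT.lf (nat_lit 0) (nat_lit 11509555756) (nat_lit 532) (nat_lit 2390381098) (nat_lit 608) (nat_lit 5401919698) (nat_lit 281) (nat_lit 5) (nat_lit 288) (nat_lit 5) (nat_lit 289) (nat_lit 5) (nat_lit 411) (nat_lit 370) (nat_lit 239)) (XT.lf (nat_lit 0) (nat_lit 191313443) (nat_lit 684) (nat_lit 9958389133) (nat_lit 76) (nat_lit 9486200615) (nat_lit 272) (nat_lit 5) (nat_lit 281) (nat_lit 5) (nat_lit 273) (nat_lit 5) (nat_lit 412) (nat_lit 370) (nat_lit 238))) (XT.nd (nat_lit 78) (nat_lit 1064) (nat_lit 0) (XT.lf (nat_lit 0) (nat_lit 5996405836) (nat_lit 608) (nat_lit 12159656955) (nat_lit 76) (nat_lit 1820845243) (nat_lit 265) (nat_lit 5) (nat_lit 273) (nat_lit 5) (nat_lit 266) (nat_lit 5) (nat_lit 413) (nat_lit 370) (nat_lit 237)) (XT.nd (nat_lit 78) (nat_lit 532) (nat_lit 0) (XT.lf (nat_lit 0) (nat_lit 5925205088)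 (nat_lit 532) (nat_lit 6210077852) (nat_lit 608) (nat_lit 8189667441) (nat_lit 258) (nat_lit 5) (nat_lit 265) (nat_lit 5) (nat_lit 266) (nat_lit 5) (nat_lit 414) (nat_lit 370) (nat_lit 236)) (XT.lf (nat_lit 0) (nat_lit 4030220926) (nat_lit 532) (nat_lit 14562407603) (nat_lit 608) (nat_lit 2088119427) (nat_lit 251) (nat_lit 5) (nat_lit 258) (nat_lit 5) (nat_lit 259) (nat_lit 5) (nat_lit 415) (nat_lit 370) (nat_lit 235))))) (XT.nd (nat_lit 156) (nat_lit 1064) (nat_lit 0) (XT.nd (nat_lit 78) (nat_lit 456) (nat_lit 0) (XT.lf (nat_lit 0) (nat_lit 2103429145) (nat_lit 532) (nat_lit 2177241012) (nat_lit 608) (nat_lit 16763219722) (nat_lit 243) (nat_lit 5) (nat_lit 250) (nat_lit 5) (nat_lit 251) (nat_lit 5) (nat_lit 416) (nat_lit 370) (nat_lit 234)) (XT.lf (nat_lit 0) (nat_lit 130983742) (nat_lit 456) (nat_lit 10850522717) (nat_lit 532) (nat_lit 10432756504) (nat_lit 237) (nat_lit 5) (nat_lit 243) (nat_lit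 5) (nat_lit 244) (nat_lit 5) (nat_lit 417) (nat_lit 370) (nat_lit 233))) (XT.nd (nat_lit 78) (nat_lit 1064) (nat_lit 0) (XT.lf (nat_lit 0) (nat_lit 18025436801) (nat_lit 532) (nat_lit 1806254338) (nat_lit 76) (nat_lit 1961214722) (nat_lit 237) (nat_lit 5) (nat_lit 244) (nat_lit 5) (nat_lit 238) (nat_lit 5) (nat_lit 418) (nat_lit 370) (nat_lit 232)) (XT.nd (nat_lit 78) (nat_lit 456) (nat_lit 0) (XT.lf (nat_lit 0) (nat_lit 3237109860) (nat_lit 608) (nat_lit 3795659736) (nat_lit 76) (nat_lit 15146136978) (nat_lit 229) (nat_lit 5) (nat_lit 237) (nat_lit 5) (nat_lit 230) (nat_lit 5) (nat_lit 419) (nat_lit 370) (nat_lit 231)) (XT.lf (nat_lit 0) (nat_lit 10550112835) (nat_lit 532) (nat_lit 5811466407) (nat_lit 76) (nat_lit 6211420570) (nat_lit 223) (nat_lit 5) (nat_lit 230) (nat_lit 5) (nat_lit 224) (nat_lit 5) (nat_lit 420) (nat_lit 370) (nat_lit 230))))))) (XT.nd (nat_lit 780) (nat_lit 4332) (nat_lit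 0) (XT.nd (nat_lit 390) (nat_lit 1368) (nat_lit 0) (XT.nd (nat_lit 156) (nat_lit 0) (nat_lit 76) (XT.nd (nat_lit 78) (nat_lit 0) (nat_lit 76) (XT.lf (nat_lit 0) (nat_lit 1307272576) (nat_lit 1748) (nat_lit 1989984697) (nat_lit 1748) (nat_lit 1989984697) (nat_lit 545) (nat_lit 3) (nat_lit 568) (nat_lit 3) (nat_lit 568) (nat_lit 5) (nat_lit 371) (nat_lit 371) (nat_lit 278)) (XT.lf (nat_lit 0) (nat_lit 3618508518) (nat_lit 1672) (nat_lit 6716083261) (nat_lit 1748) (nat_lit 379214520) (nat_lit 546) (nat_lit 5) (nat_lit 568) (nat_lit 5) (nat_lit 569) (nat_lit 5) (nat_lit 372) (nat_lit 371) (nat_lit 277))) (XT.nd (nat_lit 78) (nat_lit 0) (nat_lit 76) (XT.lf (nat_lit 76) (nat_lit 1366364922) (nat_lit 0) (nat_lit 3329798310) (nat_lit 1748) (nat_lit 6160273643) (nat_lit 547) (nat_lit 5) (nat_lit 546) (nat_lit 5) (nat_lit 569) (nat_lit 5) (nat_lit 373) (nat_lit 371) (nat_lit 276)) (XT.nd (nat_lit 78) (nat_lit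 0) (nat_lit 76) (XT.lf (nat_lit 0) (nat_lit 5841680326) (nat_lit 1672) (nat_lit 1264974224) (nat_lit 1748) (nat_lit 3895981165) (nat_lit 547) (nat_lit 5) (nat_lit 569) (nat_lit 5) (nat_lit 570) (nat_lit 5) (nat_lit 374) (nat_lit 371) (nat_lit 275)) (XT.lf (nat_lit 0) (nat_lit 7057821436) (nat_lit 1672) (nat_lit 3893656948) (nat_lit 1748) (nat_lit 201016966) (nat_lit 548) (nat_lit 5) (nat_lit 570) (nat_lit 5) (nat_lit 571) (nat_lit 5) (nat_lit 375) (nat_lit 371) (nat_lit 274))))) (XT.nd (nat_lit 156) (nat_lit 1596) (nat_lit 0) (XT.nd (nat_lit 78) (nat_lit 0) (nat_lit 76) (XT.lf (nat_lit 76) (nat_lit 4743545808) (nat_lit 0) (nat_lit 3620354610) (nat_lit 1748) (nat_lit 2941881282) (nat_lit 549) (nat_lit 5) (nat_lit 548) (nat_lit 5) (nat_lit 571) (nat_lit 5) (nat_lit 376) (nat_lit 371) (nat_lit 273)) (XT.lf (nat_lit 76) (nat_lit 2212852560) (nat_lit 0) (nat_lit 7530189135) (nat_lit 1748) (nat_lit 1719947350)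 (nat_lit 550) (nat_lit 5) (nat_lit 549) (nat_lit 5) (nat_lit 572) (nat_lit 5) (nat_lit 377) (nat_lit 371) (nat_lit 272))) (XT.nd (nat_lit 78) (nat_lit 1748) (nat_lit 0) (XT.lf (nat_lit 0) (nat_lit 11200950042) (nat_lit 1672) (nat_lit 328478650) (nat_lit 1748) (nat_lit 94736059) (nat_lit 550) (nat_lit 5) (nat_lit 572) (nat_lit 5) (nat_lit 573) (nat_lit 5) (nat_lit 378) (nat_lit 371) (nat_lit 271)) (XT.nd (nat_lit 78) (nat_lit 0) (nat_lit 76) (XT.lf (nat_lit 0) (nat_lit 978402123) (nat_lit 1748) (nat_lit 2888041785) (nat_lit 1824) (nat_lit 7922054365) (nat_lit 527) (nat_lit 5) (nat_lit 550) (nat_lit 5) (nat_lit 551) (nat_lit 5) (nat_lit 379) (nat_lit 371) (nat_lit 270)) (XT.lf (nat_lit 0) (nat_lit 2457228210) (nat_lit 1748) (nat_lit 5468633515) (nat_lit 1824) (nat_lit 4031025914) (nat_lit 528) (nat_lit 5) (nat_lit 551) (nat_lit 5) (nat_lit 552) (nat_lit 5) (nat_lit 380) (nat_lit 371) (nat_lit 269))))))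 (XT.nd (nat_lit 390) (nat_lit 4484) (nat_lit 0) (XT.nd (nat_lit 156) (nat_lit 0) (nat_lit 76) (XT.nd (nat_lit 78) (nat_lit 0) (nat_lit 0) (XT.lf (nat_lit 0) (nat_lit 4023229039) (nat_lit 1748) (nat_lit 8067667880) (nat_lit 1824) (nat_lit 38575570) (nat_lit 529) (nat_lit 5) (nat_lit 552) (nat_lit 5) (nat_lit 553) (nat_lit 5) (nat_lit 381) (nat_lit 371) (nat_lit 268)) (XT.lf (nat_lit 76) (nat_lit 1593213269) (nat_lit 0) (nat_lit 4115050882) (nat_lit 1824) (nat_lit 6597529647) (nat_lit 530) (nat_lit 5) (nat_lit 529) (nat_lit 5) (nat_lit 553) (nat_lit 5) (nat_lit 382) (nat_lit 371) (nat_lit 267))) (XT.nd (nat_lit 78) (nat_lit 0) (nat_lit 0) (XT.lf (nat_lit 0) (nat_lit 7497651913) (nat_lit 1748) (nat_lit 880157285) (nat_lit 1824) (nat_lit 4108519516) (nat_lit 530) (nat_lit 5) (nat_lit 553) (nat_lit 5) (nat_lit 554) (nat_lit 5) (nat_lit 383) (nat_lit 371) (nat_lit 266)) (XT.nd (nat_lit 78) (nat_lit 0)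 (nat_lit 76) (XT.lf (nat_lit 76) (nat_lit 9321373047) (nat_lit 0) (nat_lit 80349234) (nat_lit 1824) (nat_lit 3269337378) (nat_lit 531) (nat_lit 5) (nat_lit 530) (nat_lit 5) (nat_lit 554) (nat_lit 5) (nat_lit 384) (nat_lit 371) (nat_lit 265)) (XT.lf (nat_lit 76) (nat_lit 6995695843) (nat_lit 0) (nat_lit 4447267415) (nat_lit 1824) (nat_lit 1416768304) (nat_lit 532) (nat_lit 5) (nat_lit 531) (nat_lit 5) (nat_lit 555) (nat_lit 5) (nat_lit 385) (nat_lit 371) (nat_lit 264))))) (XT.nd (nat_lit 156) (nat_lit 2888) (nat_lit 0) (XT.nd (nat_lit 78) (nat_lit 0) (nat_lit 0) (XT.lf (nat_lit 0) (nat_lit 539886694) (nat_lit 1824) (nat_lit 8400150532) (nat_lit 1900) (nat_lit 4112863521) (nat_lit 508) (nat_lit 5) (nat_lit 532) (nat_lit 5) (nat_lit 533) (nat_lit 5) (nat_lit 386) (nat_lit 371) (nat_lit 263)) (XT.lf (nat_lit 76) (nat_lit 2283674436) (nat_lit 0) (nat_lit 311768486) (nat_lit 1900) (nat_lit 10655045792)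 (nat_lit 509) (nat_lit 5) (nat_lit 508) (nat_lit 5) (nat_lit 533) (nat_lit 5) (nat_lit 387) (nat_lit 371) (nat_lit 262))) (XT.nd (nat_lit 78) (nat_lit 2964) (nat_lit 0) (XT.lf (nat_lit 0) (nat_lit 4801040183) (nat_lit 1824) (nat_lit 127134865) (nat_lit 76) (nat_lit 8524061785) (nat_lit 509) (nat_lit 5) (nat_lit 533) (nat_lit 5) (nat_lit 510) (nat_lit 5) (nat_lit 388) (nat_lit 371) (nat_lit 261)) (XT.nd (nat_lit 78) (nat_lit 1140) (nat_lit 0) (XT.lf (nat_lit 0) (nat_lit 7149689936) (nat_lit 1900) (nat_lit 2523801006) (nat_lit 76) (nat_lit 3985008761) (nat_lit 485) (nat_lit 5) (nat_lit 510) (nat_lit 5) (nat_lit 486) (nat_lit 5) (nat_lit 389) (nat_lit 371) (nat_lit 260)) (XT.lf (nat_lit 0) (nat_lit 8928585423) (nat_lit 1140) (nat_lit 708707176) (nat_lit 1216) (nat_lit 4232287993) (nat_lit 470) (nat_lit 5) (nat_lit 485) (nat_lit 5) (nat_lit 486) (nat_lit 5) (nat_lit 390) (nat_lit 371) (nat_lit 259))))))))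
noncomputable def xc106 : XT := (XT.nd (nat_lit 1482) (nat_lit 5776) (nat_lit 0) (XT.nd (nat_lit 702) (nat_lit 5624) (nat_lit 0) (XT.nd (nat_lit 312) (nat_lit 4180) (nat_lit 0) (XT.nd (nat_lit 156) (nat_lit 836) (nat_lit 0) (XT.nd (nat_lit 78) (nat_lit 988) (nat_lit 0) (XT.lf (nat_lit 0) (nat_lit 6683753042) (nat_lit 912) (nat_lit 5608991474) (nat_lit 988) (nat_lit 1792384968) (nat_lit 458) (nat_lit 5) (nat_lit 470) (nat_lit 5) (nat_lit 471) (nat_lit 5) (nat_lit 391) (nat_lit 371) (nat_lit 258)) (XT.lf (nat_lit 0) (nat_lit 780173984) (nat_lit 988) (nat_lit 9883874358) (nat_lit 76) (nat_lit 3641624689) (nat_lit 445) (nat_lit 5) (nat_lit 458) (nat_lit 5) (nat_lit 446) (nat_lit 5) (nat_lit 392) (nat_lit 371) (nat_lit 257))) (XT.nd (nat_lit 78) (nat_lit 0) (nat_lit 0) (XT.lf (nat_lit 0) (nat_lit 2126262549) (nat_lit 836) (nat_lit 1359404661) (nat_lit 912) (nat_lit 11045326544) (nat_lit 434) (nat_lit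 5) (nat_lit 445) (nat_lit 5) (nat_lit 446) (nat_lit 5) (nat_lit 393) (nat_lit 371) (nat_lit 256)) (XT.lf (nat_lit 0) (nat_lit 6371818967) (nat_lit 912) (nat_lit 204617880) (nat_lit 76) (nat_lit 8184647374) (nat_lit 434) (nat_lit 5) (nat_lit 446) (nat_lit 5) (nat_lit 435) (nat_lit 5) (nat_lit 394) (nat_lit 371) (nat_lit 255)))) (XT.nd (nat_lit 156) (nat_lit 2432) (nat_lit 0) (XT.nd (nat_lit 78) (nat_lit 836) (nat_lit 0) (XT.lf (nat_lit 0) (nat_lit 9434083644) (nat_lit 988) (nat_lit 2520827101) (nat_lit 76) (nat_lit 3041376092) (nat_lit 422) (nat_lit 5) (nat_lit 435) (nat_lit 5) (nat_lit 423) (nat_lit 5) (nat_lit 395) (nat_lit 371) (nat_lit 254)) (XT.lf (nat_lit 0) (nat_lit 10371762891) (nat_lit 836) (nat_lit 2308939360) (nat_lit 912) (nat_lit 2555993560) (nat_lit 411) (nat_lit 5) (nat_lit 422) (nat_lit 5) (nat_lit 423) (nat_lit 5) (nat_lit 396) (nat_lit 371) (nat_lit 253))) (XT.nd (nat_lit 78) (nat_lit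 1520) (nat_lit 0) (XT.lf (nat_lit 0) (nat_lit 634413364) (nat_lit 912) (nat_lit 7246946304) (nat_lit 76) (nat_lit 7600865243) (nat_lit 399) (nat_lit 5) (nat_lit 411) (nat_lit 5) (nat_lit 400) (nat_lit 5) (nat_lit 397) (nat_lit 371) (nat_lit 252)) (XT.nd (nat_lit 78) (nat_lit 760) (nat_lit 0) (XT.lf (nat_lit 0) (nat_lit 3968540853) (nat_lit 836) (nat_lit 9660023311) (nat_lit 76) (nat_lit 2104563133) (nat_lit 389) (nat_lit 5) (nat_lit 400) (nat_lit 5) (nat_lit 390) (nat_lit 5) (nat_lit 398) (nat_lit 371) (nat_lit 251)) (XT.lf (nat_lit 0) (nat_lit 3878692178) (nat_lit 760) (nat_lit 3632293203) (nat_lit 836) (nat_lit 8478405509) (nat_lit 379) (nat_lit 5) (nat_lit 389) (nat_lit 5) (nat_lit 390) (nat_lit 5) (nat_lit 399) (nat_lit 371) (nat_lit 250)))))) (XT.nd (nat_lit 390) (nat_lit 2660) (nat_lit 0) (XT.nd (nat_lit 156) (nat_lit 2204) (nat_lit 0) (XT.nd (nat_lit 78) (nat_lit 0) (nat_lit 0) (XT.lf (nat_lit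 0) (nat_lit 1661298783) (nat_lit 760) (nat_lit 9599733885) (nat_lit 836) (nat_lit 4990283135) (nat_lit 369) (nat_lit 5) (nat_lit 379) (nat_lit 5) (nat_lit 380) (nat_lit 5) (nat_lit 400) (nat_lit 371) (nat_lit 249)) (XT.lf (nat_lit 0) (nat_lit 15216480526) (nat_lit 836) (nat_lit 556850235) (nat_lit 76) (nat_lit 745909718) (nat_lit 369) (nat_lit 5) (nat_lit 380) (nat_lit 5) (nat_lit 370) (nat_lit 5) (nat_lit 401) (nat_lit 371) (nat_lit 248))) (XT.nd (nat_lit 78) (nat_lit 1368) (nat_lit 0) (XT.lf (nat_lit 0) (nat_lit 2600957424) (nat_lit 836) (nat_lit 2812855433) (nat_lit 76) (nat_lit 11378300084) (nat_lit 358) (nat_lit 5) (nat_lit 369) (nat_lit 5) (nat_lit 359) (nat_lit 5) (nat_lit 402) (nat_lit 371) (nat_lit 247)) (XT.nd (nat_lit 78) (nat_lit 684) (nat_lit 0) (XT.lf (nat_lit 0) (nat_lit 6703292779) (nat_lit 760) (nat_lit 5091485378) (nat_lit 76) (nat_lit 5276237079) (nat_lit 349) (nat_lit 5) (nat_lit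 359) (nat_lit 5) (nat_lit 350) (nat_lit 5) (nat_lit 403) (nat_lit 371) (nat_lit 246)) (XT.lf (nat_lit 0) (nat_lit 9970843590) (nat_lit 684) (nat_lit 1060932949) (nat_lit 760) (nat_lit 6324446494) (nat_lit 340) (nat_lit 5) (nat_lit 349) (nat_lit 5) (nat_lit 350) (nat_lit 5) (nat_lit 404) (nat_lit 371) (nat_lit 245))))) (XT.nd (nat_lit 156) (nat_lit 1216) (nat_lit 0) (XT.nd (nat_lit 78) (nat_lit 760) (nat_lit 0) (XT.lf (nat_lit 0) (nat_lit 7924372289) (nat_lit 684) (nat_lit 7700116873) (nat_lit 760) (nat_lit 2022810415) (nat_lit 331) (nat_lit 5) (nat_lit 340) (nat_lit 5) (nat_lit 341) (nat_lit 5) (nat_lit 405) (nat_lit 371) (nat_lit 244)) (XT.lf (nat_lit 0) (nat_lit 2477764951) (nat_lit 760) (nat_lit 12084738396) (nat_lit 76) (nat_lit 3382263002) (nat_lit 321) (nat_lit 5) (nat_lit 331) (nat_lit 5) (nat_lit 322) (nat_lit 5) (nat_lit 406) (nat_lit 371) (nat_lit 243))) (XT.nd (nat_lit 78) (nat_lit 608)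 (nat_lit 0) (XT.lf (nat_lit 0) (nat_lit 3757798651) (nat_lit 608) (nat_lit 3454330335) (nat_lit 684) (nat_lit 11036235652) (nat_lit 313) (nat_lit 5) (nat_lit 321) (nat_lit 5) (nat_lit 322) (nat_lit 5) (nat_lit 407) (nat_lit 371) (nat_lit 242)) (XT.nd (nat_lit 78) (nat_lit 0) (nat_lit 0) (XT.lf (nat_lit 0) (nat_lit 1630865389) (nat_lit 608) (nat_lit 10586739218) (nat_lit 684) (nat_lit 6340884656) (nat_lit 305) (nat_lit 5) (nat_lit 313) (nat_lit 5) (nat_lit 314) (nat_lit 5) (nat_lit 408) (nat_lit 371) (nat_lit 241)) (XT.lf (nat_lit 0) (nat_lit 17484847123) (nat_lit 684) (nat_lit 490248292) (nat_lit 76) (nat_lit 900590159) (nat_lit 305) (nat_lit 5) (nat_lit 314) (nat_lit 5) (nat_lit 306) (nat_lit 5) (nat_lit 409) (nat_lit 371) (nat_lit 240))))))) (XT.nd (nat_lit 780) (nat_lit 608) (nat_lit 0) (XT.nd (nat_lit 390) (nat_lit 2128) (nat_lit 0) (XT.nd (nat_lit 156) (nat_lit 1748) (nat_lit 0) (XT.nd (nat_lit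 78) (nat_lit 608) (nat_lit 0) (XT.lf (nat_lit 0) (nat_lit 3823491709) (nat_lit 684) (nat_lit 2656658913) (nat_lit 76) (nat_lit 12718477497) (nat_lit 296) (nat_lit 5) (nat_lit 305) (nat_lit 5) (nat_lit 297) (nat_lit 5) (nat_lit 410) (nat_lit 371) (nat_lit 239)) (XT.lf (nat_lit 0) (nat_lit 9295083621) (nat_lit 684) (nat_lit 4839400740) (nat_lit 76) (nat_lit 5394196153) (nat_lit 288) (nat_lit 5) (nat_lit 297) (nat_lit 5) (nat_lit 289) (nat_lit 5) (nat_lit 411) (nat_lit 371) (nat_lit 238))) (XT.nd (nat_lit 78) (nat_lit 1216) (nat_lit 0) (XT.lf (nat_lit 0) (nat_lit 12829541217) (nat_lit 532) (nat_lit 2231500733) (nat_lit 608) (nat_lit 4804988158) (nat_lit 281) (nat_lit 5) (nat_lit 288) (nat_lit 5) (nat_lit 289) (nat_lit 5) (nat_lit 412) (nat_lit 371) (nat_lit 237)) (XT.nd (nat_lit 78) (nat_lit 532) (nat_lit 0) (XT.lf (nat_lit 0) (nat_lit 932087334) (nat_lit 684) (nat_lit 9275319298) (nat_lit 76) (nat_lit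 10002872966) (nat_lit 272) (nat_lit 5) (nat_lit 281) (nat_lit 5) (nat_lit 273) (nat_lit 5) (nat_lit 413) (nat_lit 371) (nat_lit 236)) (XT.lf (nat_lit 0) (nat_lit 6897792110) (nat_lit 608) (nat_lit 11545753270) (nat_lit 76) (nat_lit 2118240012) (nat_lit 265) (nat_lit 5) (nat_lit 273) (nat_lit 5) (nat_lit 266) (nat_lit 5) (nat_lit 414) (nat_lit 371) (nat_lit 235))))) (XT.nd (nat_lit 156) (nat_lit 1064) (nat_lit 0) (XT.nd (nat_lit 78) (nat_lit 532) (nat_lit 0) (XT.lf (nat_lit 0) (nat_lit 7065776497) (nat_lit 532) (nat_lit 6140295875) (nat_lit 608) (nat_lit 7714491902) (nat_lit 258) (nat_lit 5) (nat_lit 265) (nat_lit 5) (nat_lit 266) (nat_lit 5) (nat_lit 415) (nat_lit 371) (nat_lit 234)) (XT.lf (nat_lit 0) (nat_lit 5110591883) (nat_lit 532) (nat_lit 14733805769) (nat_lit 608) (nat_lit 1442892937) (nat_lit 251) (nat_lit 5) (nat_lit 258) (nat_lit 5) (nat_lit 259) (nat_lit 5) (nat_lit 416) (nat_lit 371)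 (nat_lit 233))) (XT.nd (nat_lit 78) (nat_lit 456) (nat_lit 0) (XT.lf (nat_lit 0) (nat_lit 3119563404) (nat_lit 532) (nat_lit 1973953628) (nat_lit 608) (nat_lit 16568001008) (nat_lit 243) (nat_lit 5) (nat_lit 250) (nat_lit 5) (nat_lit 251) (nat_lit 5) (nat_lit 417) (nat_lit 371) (nat_lit 232)) (XT.nd (nat_lit 78) (nat_lit 0) (nat_lit 0) (XT.lf (nat_lit 0) (nat_lit 1084233626) (nat_lit 456) (nat_lit 10899066819) (nat_lit 532) (nat_lit 10059943432) (nat_lit 237) (nat_lit 5) (nat_lit 243) (nat_lit 5) (nat_lit 244) (nat_lit 5) (nat_lit 418) (nat_lit 371) (nat_lit 231)) (XT.lf (nat_lit 0) (nat_lit 19220711628) (nat_lit 532) (nat_lit 927462294) (nat_lit 76) (nat_lit 2285428880) (nat_lit 237) (nat_lit 5) (nat_lit 244) (nat_lit 5) (nat_lit 238) (nat_lit 5) (nat_lit 419) (nat_lit 371) (nat_lit 230)))))) (XT.nd (nat_lit 49686) (nat_lit 0) (nat_lit 22572) (XT.nd (nat_lit 49452) (nat_lit 0) (nat_lit 24016) (XT.nd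 (nat_lit 49374) (nat_lit 0) (nat_lit 24016) (XT.lf (nat_lit 0) (nat_lit 3979878409) (nat_lit 608) (nat_lit 2983105922) (nat_lit 76) (nat_lit 15868376335) (nat_lit 229) (nat_lit 5) (nat_lit 237) (nat_lit 5) (nat_lit 230) (nat_lit 5) (nat_lit 420) (nat_lit 371) (nat_lit 229)) (XT.lf (nat_lit 0) (nat_lit 2273768641) (nat_lit 1748) (nat_lit 1576772516) (nat_lit 1748) (nat_lit 1576772516) (nat_lit 545) (nat_lit 3) (nat_lit 568) (nat_lit 3) (nat_lit 568) (nat_lit 5) (nat_lit 372) (nat_lit 372) (nat_lit 276))) (XT.nd (nat_lit 78) (nat_lit 0) (nat_lit 76) (XT.lf (nat_lit 76) (nat_lit 5050754384) (nat_lit 0) (nat_lit 480320584) (nat_lit 1748) (nat_lit 5468065296) (nat_lit 546) (nat_lit 5) (nat_lit 545) (nat_lit 3) (nat_lit 568) (nat_lit 5) (nat_lit 373) (nat_lit 372) (nat_lit 275)) (XT.nd (nat_lit 78) (nat_lit 0) (nat_lit 76) (XT.lf (nat_lit 76) (nat_lit 2363879921) (nat_lit 0) (nat_lit 4227818048) (nat_lit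 1748) (nat_lit 4555339016) (nat_lit 547) (nat_lit 5) (nat_lit 546) (nat_lit 5) (nat_lit 569) (nat_lit 5) (nat_lit 374) (nat_lit 372) (nat_lit 274)) (XT.lf (nat_lit 0) (nat_lit 7715443238) (nat_lit 1672) (nat_lit 335157421) (nat_lit 1748) (nat_lit 3248143877) (nat_lit 547) (nat_lit 5) (nat_lit 569) (nat_lit 5) (nat_lit 570) (nat_lit 5) (nat_lit 375) (nat_lit 372) (nat_lit 273))))) (XT.nd (nat_lit 156) (nat_lit 1596) (nat_lit 0) (XT.nd (nat_lit 78) (nat_lit 0) (nat_lit 76) (XT.lf (nat_lit 76) (nat_lit 8430058128) (nat_lit 0) (nat_lit 493358500) (nat_lit 1748) (nat_lit 2530576372) (nat_lit 548) (nat_lit 5) (nat_lit 547) (nat_lit 5) (nat_lit 570) (nat_lit 5) (nat_lit 376) (nat_lit 372) (nat_lit 272)) (XT.lf (nat_lit 76) (nat_lit 5859529903) (nat_lit 0) (nat_lit 4364189230) (nat_lit 1748) (nat_lit 1389057985) (nat_lit 549) (nat_lit 5) (nat_lit 548) (nat_lit 5) (nat_lit 571) (nat_lit 5) (nat_lit 377) (nat_lit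 372) (nat_lit 271))) (XT.nd (nat_lit 78) (nat_lit 1748) (nat_lit 0) (XT.lf (nat_lit 76) (nat_lit 3272832459) (nat_lit 0) (nat_lit 8326987876) (nat_lit 1748) (nat_lit 175768633) (nat_lit 550) (nat_lit 5) (nat_lit 549) (nat_lit 5) (nat_lit 572) (nat_lit 5) (nat_lit 378) (nat_lit 372) (nat_lit 270)) (XT.nd (nat_lit 78) (nat_lit 0) (nat_lit 76) (XT.lf (nat_lit 76) (nat_lit 658757152) (nat_lit 0) (nat_lit 443658492) (nat_lit 1824) (nat_lit 10839878459) (nat_lit 527) (nat_lit 5) (nat_lit 526) (nat_lit 5) (nat_lit 550) (nat_lit 5) (nat_lit 379) (nat_lit 372) (nat_lit 269)) (XT.lf (nat_lit 0) (nat_lit 2495103541) (nat_lit 1748) (nat_lit 1972486826) (nat_lit 1824) (nat_lit 7644815867) (nat_lit 527) (nat_lit 5) (nat_lit 550) (nat_lit 5) (nat_lit 551) (nat_lit 5) (nat_lit 380) (nat_lit 372) (nat_lit 268))))))))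
noncomputable def xc107 : XT := (XT.nd (nat_lit 1560) (nat_lit 10792) (nat_lit 0) (XT.nd (nat_lit 780) (nat_lit 8056) (nat_lit 0) (XT.nd (nat_lit 390) (nat_lit 3268) (nat_lit 0) (XT.nd (nat_lit 156) (nat_lit 0) (nat_lit 76) (XT.nd (nat_lit 78) (nat_lit 0) (nat_lit 0) (XT.lf (nat_lit 0) (nat_lit 3978359113) (nat_lit 1748) (nat_lit 4614731357) (nat_lit 1824) (nat_lit 3693555517) (nat_lit 528) (nat_lit 5) (nat_lit 551) (nat_lit 5) (nat_lit 552) (nat_lit 5) (nat_lit 381) (nat_lit 372) (nat_lit 267)) (XT.lf (nat_lit 76) (nat_lit 5185371329) (nat_lit 0) (nat_lit 370051598) (nat_lit 1824) (nat_lit 6909703797) (nat_lit 529) (nat_lit 5) (nat_lit 528) (nat_lit 5) (nat_lit 552) (nat_lit 5) (nat_lit 382) (nat_lit 372) (nat_lit 266))) (XT.nd (nat_lit 78) (nat_lit 0) (nat_lit 76) (XT.lf (nat_lit 76) (nat_lit 2656606235) (nat_lit 0) (nat_lit 4597552579) (nat_lit 1824) (nat_lit 5393315863) (nat_lit 530) (nat_lit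 5) (nat_lit 529) (nat_lit 5) (nat_lit 553) (nat_lit 5) (nat_lit 383) (nat_lit 372) (nat_lit 265)) (XT.nd (nat_lit 78) (nat_lit 0) (nat_lit 0) (XT.lf (nat_lit 76) (nat_lit 109850250) (nat_lit 0) (nat_lit 8945789633) (nat_lit 1824) (nat_lit 3778617526) (nat_lit 531) (nat_lit 5) (nat_lit 530) (nat_lit 5) (nat_lit 554) (nat_lit 5) (nat_lit 384) (nat_lit 372) (nat_lit 264)) (XT.lf (nat_lit 76) (nat_lit 10599519080) (nat_lit 0) (nat_lit 384276846) (nat_lit 1824) (nat_lit 2041395084) (nat_lit 531) (nat_lit 5) (nat_lit 530) (nat_lit 5) (nat_lit 554) (nat_lit 5) (nat_lit 385) (nat_lit 372) (nat_lit 263))))) (XT.nd (nat_lit 156) (nat_lit 1748) (nat_lit 0) (XT.nd (nat_lit 78) (nat_lit 1748) (nat_lit 0) (XT.lf (nat_lit 76) (nat_lit 8215376506) (nat_lit 0) (nat_lit 4837688633) (nat_lit 1824) (nat_lit 167122110) (nat_lit 532) (nat_lit 5) (nat_lit 531) (nat_lit 5) (nat_lit 555) (nat_lit 5) (nat_lit 386) (nat_lit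 372) (nat_lit 262)) (XT.lf (nat_lit 0) (nat_lit 1799179518) (nat_lit 1824) (nat_lit 7615641357) (nat_lit 1900) (nat_lit 4004804970) (nat_lit 508) (nat_lit 5) (nat_lit 532) (nat_lit 5) (nat_lit 533) (nat_lit 5) (nat_lit 387) (nat_lit 372) (nat_lit 261))) (XT.nd (nat_lit 78) (nat_lit 1748) (nat_lit 0) (XT.lf (nat_lit 76) (nat_lit 3371882157) (nat_lit 0) (nat_lit 514934143) (nat_lit 1900) (nat_lit 9736916875) (nat_lit 509) (nat_lit 5) (nat_lit 508) (nat_lit 5) (nat_lit 533) (nat_lit 5) (nat_lit 388) (nat_lit 372) (nat_lit 260)) (XT.nd (nat_lit 78) (nat_lit 0) (nat_lit 0) (XT.lf (nat_lit 0) (nat_lit 895579345) (nat_lit 1824) (nat_lit 5232250165) (nat_lit 1900) (nat_lit 7704319266) (nat_lit 485) (nat_lit 5) (nat_lit 509) (nat_lit 5) (nat_lit 510) (nat_lit 5) (nat_lit 389) (nat_lit 372) (nat_lit 259)) (XT.lf (nat_lit 0) (nat_lit 8512346639) (nat_lit 1900) (nat_lit 1577233935) (nat_lit 76) (nat_lit 3955710800)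 (nat_lit 485) (nat_lit 5) (nat_lit 510) (nat_lit 5) (nat_lit 486) (nat_lit 5) (nat_lit 390) (nat_lit 372) (nat_lit 258)))))) (XT.nd (nat_lit 390) (nat_lit 3268) (nat_lit 0) (XT.nd (nat_lit 156) (nat_lit 2736) (nat_lit 0) (XT.nd (nat_lit 78) (nat_lit 912) (nat_lit 0) (XT.lf (nat_lit 0) (nat_lit 10202138790) (nat_lit 1140) (nat_lit 845526507) (nat_lit 1216) (nat_lit 3215577634) (nat_lit 470) (nat_lit 5) (nat_lit 485) (nat_lit 5) (nat_lit 486) (nat_lit 5) (nat_lit 391) (nat_lit 372) (nat_lit 257)) (XT.lf (nat_lit 0) (nat_lit 7896444584) (nat_lit 912) (nat_lit 5859521617) (nat_lit 988) (nat_lit 729828380) (nat_lit 458) (nat_lit 5) (nat_lit 470) (nat_lit 5) (nat_lit 471) (nat_lit 5) (nat_lit 392) (nat_lit 372) (nat_lit 256))) (XT.nd (nat_lit 78) (nat_lit 1748) (nat_lit 0) (XT.lf (nat_lit 0) (nat_lit 1879308654) (nat_lit 988) (nat_lit 9148278070) (nat_lit 76) (nat_lit 3685741910) (nat_lit 445) (nat_lit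 5) (nat_lit 458) (nat_lit 5) (nat_lit 446) (nat_lit 5) (nat_lit 393) (nat_lit 372) (nat_lit 255)) (XT.nd (nat_lit 78) (nat_lit 912) (nat_lit 0) (XT.lf (nat_lit 0) (nat_lit 3205418145) (nat_lit 836) (nat_lit 1435809047) (nat_lit 912) (nat_lit 10304676575) (nat_lit 434) (nat_lit 5) (nat_lit 445) (nat_lit 5) (nat_lit 446) (nat_lit 5) (nat_lit 394) (nat_lit 372) (nat_lit 254)) (XT.lf (nat_lit 0) (nat_lit 806243634) (nat_lit 912) (nat_lit 6782118631) (nat_lit 988) (nat_lit 7595046709) (nat_lit 422) (nat_lit 5) (nat_lit 434) (nat_lit 5) (nat_lit 435) (nat_lit 5) (nat_lit 395) (nat_lit 372) (nat_lit 253))))) (XT.nd (nat_lit 156) (nat_lit 2432) (nat_lit 0) (XT.nd (nat_lit 78) (nat_lit 836) (nat_lit 0) (XT.lf (nat_lit 0) (nat_lit 10713931398) (nat_lit 988) (nat_lit 1586372611) (nat_lit 76) (nat_lit 3125934928) (nat_lit 422) (nat_lit 5) (nat_lit 435) (nat_lit 5) (nat_lit 423) (nat_lit 5) (nat_lit 396) (nat_lit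 372) (nat_lit 252)) (XT.lf (nat_lit 0) (nat_lit 11676607744) (nat_lit 836) (nat_lit 2358758782) (nat_lit 912) (nat_lit 1638945296) (nat_lit 411) (nat_lit 5) (nat_lit 422) (nat_lit 5) (nat_lit 423) (nat_lit 5) (nat_lit 397) (nat_lit 372) (nat_lit 251))) (XT.nd (nat_lit 78) (nat_lit 1520) (nat_lit 0) (XT.lf (nat_lit 0) (nat_lit 1612213924) (nat_lit 912) (nat_lit 6454998155) (nat_lit 76) (nat_lit 7860304218) (nat_lit 399) (nat_lit 5) (nat_lit 411) (nat_lit 5) (nat_lit 400) (nat_lit 5) (nat_lit 398) (nat_lit 372) (nat_lit 250)) (XT.nd (nat_lit 78) (nat_lit 760) (nat_lit 0) (XT.lf (nat_lit 0) (nat_lit 5025248624) (nat_lit 836) (nat_lit 8938458866) (nat_lit 76) (nat_lit 2222660595) (nat_lit 389) (nat_lit 5) (nat_lit 400) (nat_lit 5) (nat_lit 390) (nat_lit 5) (nat_lit 399) (nat_lit 372) (nat_lit 249)) (XT.lf (nat_lit 0) (nat_lit 4990009890) (nat_lit 760) (nat_lit 3663106280) (nat_lit 836) (nat_lit 7797620422)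 (nat_lit 379) (nat_lit 5) (nat_lit 389) (nat_lit 5) (nat_lit 390) (nat_lit 5) (nat_lit 400) (nat_lit 372) (nat_lit 248))))))) (XT.nd (nat_lit 780) (nat_lit 4560) (nat_lit 0) (XT.nd (nat_lit 390) (nat_lit 3268) (nat_lit 0) (XT.nd (nat_lit 156) (nat_lit 1444) (nat_lit 0) (XT.nd (nat_lit 78) (nat_lit 760) (nat_lit 0) (XT.lf (nat_lit 0) (nat_lit 2707492036) (nat_lit 760) (nat_lit 9788431542) (nat_lit 836) (nat_lit 4224990499) (nat_lit 369) (nat_lit 5) (nat_lit 379) (nat_lit 5) (nat_lit 380) (nat_lit 5) (nat_lit 401) (nat_lit 372) (nat_lit 247)) (XT.lf (nat_lit 0) (nat_lit 416027527) (nat_lit 760) (nat_lit 16131206420) (nat_lit 836) (nat_lit 450098566) (nat_lit 359) (nat_lit 5) (nat_lit 369) (nat_lit 5) (nat_lit 370) (nat_lit 5) (nat_lit 402) (nat_lit 372) (nat_lit 246))) (XT.nd (nat_lit 78) (nat_lit 1368) (nat_lit 0) (XT.lf (nat_lit 0) (nat_lit 3537090208) (nat_lit 836) (nat_lit 1917676642) (nat_lit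 76) (nat_lit 11823947399) (nat_lit 358) (nat_lit 5) (nat_lit 369) (nat_lit 5) (nat_lit 359) (nat_lit 5) (nat_lit 403) (nat_lit 372) (nat_lit 245)) (XT.nd (nat_lit 78) (nat_lit 684) (nat_lit 0) (XT.lf (nat_lit 0) (nat_lit 7744566169) (nat_lit 760) (nat_lit 4264577472) (nat_lit 76) (nat_lit 5557198561) (nat_lit 349) (nat_lit 5) (nat_lit 359) (nat_lit 5) (nat_lit 350) (nat_lit 5) (nat_lit 404) (nat_lit 372) (nat_lit 244)) (XT.lf (nat_lit 0) (nat_lit 11233727668) (nat_lit 684) (nat_lit 950963030) (nat_lit 760) (nat_lit 5675779810) (nat_lit 340) (nat_lit 5) (nat_lit 349) (nat_lit 5) (nat_lit 350) (nat_lit 5) (nat_lit 405) (nat_lit 372) (nat_lit 243))))) (XT.nd (nat_lit 156) (nat_lit 1824) (nat_lit 0) (XT.nd (nat_lit 78) (nat_lit 760) (nat_lit 0) (XT.lf (nat_lit 0) (nat_lit 9125493188) (nat_lit 684) (nat_lit 7772899700) (nat_lit 760) (nat_lit 1262222296) (nat_lit 331) (nat_lit 5) (nat_lit 340) (nat_lit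 5) (nat_lit 341) (nat_lit 5) (nat_lit 406) (nat_lit 372) (nat_lit 242)) (XT.lf (nat_lit 0) (nat_lit 3346287491) (nat_lit 760) (nat_lit 11474134795) (nat_lit 76) (nat_lit 3646803261) (nat_lit 321) (nat_lit 5) (nat_lit 331) (nat_lit 5) (nat_lit 322) (nat_lit 5) (nat_lit 407) (nat_lit 372) (nat_lit 241))) (XT.nd (nat_lit 78) (nat_lit 1216) (nat_lit 0) (XT.lf (nat_lit 0) (nat_lit 4827890230) (nat_lit 608) (nat_lit 3377876282) (nat_lit 684) (nat_lit 10574503592) (nat_lit 313) (nat_lit 5) (nat_lit 321) (nat_lit 5) (nat_lit 322) (nat_lit 5) (nat_lit 408) (nat_lit 372) (nat_lit 240)) (XT.nd (nat_lit 78) (nat_lit 608) (nat_lit 0) (XT.lf (nat_lit 0) (nat_lit 2635759991) (nat_lit 608) (nat_lit 10710349324) (nat_lit 684) (nat_lit 5753895094) (nat_lit 305) (nat_lit 5) (nat_lit 313) (nat_lit 5) (nat_lit 314) (nat_lit 5) (nat_lit 409) (nat_lit 372) (nat_lit 239)) (XT.lf (nat_lit 0) (nat_lit 442546044) (nat_lit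 608) (nat_lit 18310725712) (nat_lit 684) (nat_lit 673806801) (nat_lit 297) (nat_lit 5) (nat_lit 305) (nat_lit 5) (nat_lit 306) (nat_lit 5) (nat_lit 410) (nat_lit 372) (nat_lit 238)))))) (XT.nd (nat_lit 390) (nat_lit 2128) (nat_lit 0) (XT.nd (nat_lit 156) (nat_lit 1748) (nat_lit 0) (XT.nd (nat_lit 78) (nat_lit 608) (nat_lit 0) (XT.lf (nat_lit 0) (nat_lit 4668438839) (nat_lit 684) (nat_lit 1800234355) (nat_lit 76) (nat_lit 13291308921) (nat_lit 296) (nat_lit 5) (nat_lit 305) (nat_lit 5) (nat_lit 297) (nat_lit 5) (nat_lit 411) (nat_lit 372) (nat_lit 237)) (XT.lf (nat_lit 0) (nat_lit 10290226033) (nat_lit 684) (nat_lit 4050684278) (nat_lit 76) (nat_lit 5759304821) (nat_lit 288) (nat_lit 5) (nat_lit 297) (nat_lit 5) (nat_lit 289) (nat_lit 5) (nat_lit 412) (nat_lit 372) (nat_lit 236))) (XT.nd (nat_lit 78) (nat_lit 1216) (nat_lit 0) (XT.lf (nat_lit 0) (nat_lit 14133174544) (nat_lit 532) (nat_lit 2081090870)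 (nat_lit 608) (nat_lit 4233717753) (nat_lit 281) (nat_lit 5) (nat_lit 288) (nat_lit 5) (nat_lit 289) (nat_lit 5) (nat_lit 413) (nat_lit 372) (nat_lit 235)) (XT.nd (nat_lit 78) (nat_lit 532) (nat_lit 0) (XT.lf (nat_lit 0) (nat_lit 1652890456) (nat_lit 684) (nat_lit 8628117938) (nat_lit 76) (nat_lit 10521722781) (nat_lit 272) (nat_lit 5) (nat_lit 281) (nat_lit 5) (nat_lit 273) (nat_lit 5) (nat_lit 414) (nat_lit 372) (nat_lit 234)) (XT.lf (nat_lit 0) (nat_lit 7784803260) (nat_lit 608) (nat_lit 10969613479) (nat_lit 76) (nat_lit 2410620667) (nat_lit 265) (nat_lit 5) (nat_lit 273) (nat_lit 5) (nat_lit 266) (nat_lit 5) (nat_lit 415) (nat_lit 372) (nat_lit 233))))) (XT.nd (nat_lit 156) (nat_lit 1064) (nat_lit 0) (XT.nd (nat_lit 78) (nat_lit 532) (nat_lit 0) (XT.lf (nat_lit 0) (nat_lit 8185295513) (nat_lit 532) (nat_lit 6083120726) (nat_lit 608) (nat_lit 7266441729) (nat_lit 258) (nat_lit 5) (nat_lit 265)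 (nat_lit 5) (nat_lit 266) (nat_lit 5) (nat_lit 416) (nat_lit 372) (nat_lit 232)) (XT.lf (nat_lit 0) (nat_lit 6168296791) (nat_lit 532) (nat_lit 14925585178) (nat_lit 608) (nat_lit 818944290) (nat_lit 251) (nat_lit 5) (nat_lit 258) (nat_lit 5) (nat_lit 259) (nat_lit 5) (nat_lit 417) (nat_lit 372) (nat_lit 231))) (XT.nd (nat_lit 78) (nat_lit 456) (nat_lit 0) (XT.lf (nat_lit 0) (nat_lit 4111473790) (nat_lit 532) (nat_lit 1779986626) (nat_lit 608) (nat_lit 16407000408) (nat_lit 243) (nat_lit 5) (nat_lit 250) (nat_lit 5) (nat_lit 251) (nat_lit 5) (nat_lit 418) (nat_lit 372) (nat_lit 230)) (XT.nd (nat_lit 49530) (nat_lit 0) (nat_lit 23408) (XT.lf (nat_lit 0) (nat_lit 2011586134) (nat_lit 456) (nat_lit 10964966545) (nat_lit 532) (nat_lit 9715313450) (nat_lit 237) (nat_lit 5) (nat_lit 243) (nat_lit 5) (nat_lit 244) (nat_lit 5) (nat_lit 419) (nat_lit 372) (nat_lit 229)) (XT.lf (nat_lit 0) (nat_lit 3216030044)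 (nat_lit 1748) (nat_lit 1178311036) (nat_lit 1748) (nat_lit 1178311036) (nat_lit 545) (nat_lit 3) (nat_lit 568) (nat_lit 3) (nat_lit 568) (nat_lit 5) (nat_lit 373) (nat_lit 373) (nat_lit 274))))))))
noncomputable def xc108 : XT := (XT.nd (nat_lit 1482) (nat_lit 13224) (nat_lit 0) (XT.nd (nat_lit 702) (nat_lit 4180) (nat_lit 0) (XT.nd (nat_lit 312) (nat_lit 1520) (nat_lit 0) (XT.nd (nat_lit 156) (nat_lit 0) (nat_lit 152) (XT.nd (nat_lit 78) (nat_lit 0) (nat_lit 76) (XT.lf (nat_lit 76) (nat_lit 6079342322) (nat_lit 0) (nat_lit 1320540634) (nat_lit 1748) (nat_lit 3895174001) (nat_lit 546) (nat_lit 5) (nat_lit 545) (nat_lit 3) (nat_lit 568) (nat_lit 5) (nat_lit 374) (nat_lit 373) (nat_lit 273)) (XT.lf (nat_lit 76) (nat_lit 3336411977) (nat_lit 0) (nat_lit 5106962693) (nat_lit 1748) (nat_lit 3004994910) (nat_lit 547) (nat_lit 5) (nat_lit 546) (nat_lit 5) (nat_lit 569) (nat_lit 5) (nat_lit 375) (nat_lit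 373) (nat_lit 272))) (XT.nd (nat_lit 78) (nat_lit 0) (nat_lit 0) (XT.lf (nat_lit 76) (nat_lit 574535289) (nat_lit 0) (nat_lit 8977112447) (nat_lit 1748) (nat_lit 2053964313) (nat_lit 548) (nat_lit 5) (nat_lit 547) (nat_lit 5) (nat_lit 570) (nat_lit 5) (nat_lit 376) (nat_lit 373) (nat_lit 271)) (XT.lf (nat_lit 76) (nat_lit 9580372611) (nat_lit 0) (nat_lit 1170952665) (nat_lit 1748) (nat_lit 1015083391) (nat_lit 548) (nat_lit 5) (nat_lit 547) (nat_lit 5) (nat_lit 570) (nat_lit 5) (nat_lit 377) (nat_lit 373) (nat_lit 270)))) (XT.nd (nat_lit 156) (nat_lit 0) (nat_lit 76) (XT.nd (nat_lit 78) (nat_lit 0) (nat_lit 76) (XT.lf (nat_lit 0) (nat_lit 114622053) (nat_lit 1748) (nat_lit 4978483206) (nat_lit 1824) (nat_lit 6837709207) (nat_lit 525) (nat_lit 5) (nat_lit 548) (nat_lit 5) (nat_lit 549) (nat_lit 5) (nat_lit 378) (nat_lit 373) (nat_lit 269)) (XT.lf (nat_lit 0) (nat_lit 1305778205) (nat_lit 1748) (nat_lit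 7800378318) (nat_lit 1824) (nat_lit 2993034713) (nat_lit 526) (nat_lit 5) (nat_lit 549) (nat_lit 5) (nat_lit 550) (nat_lit 5) (nat_lit 379) (nat_lit 373) (nat_lit 268))) (XT.nd (nat_lit 78) (nat_lit 0) (nat_lit 76) (XT.lf (nat_lit 76) (nat_lit 1619290715) (nat_lit 0) (nat_lit 963514733) (nat_lit 1824) (nat_lit 9688811132) (nat_lit 527) (nat_lit 5) (nat_lit 526) (nat_lit 5) (nat_lit 550) (nat_lit 5) (nat_lit 380) (nat_lit 373) (nat_lit 267)) (XT.nd (nat_lit 78) (nat_lit 0) (nat_lit 76) (XT.lf (nat_lit 0) (nat_lit 3971926063) (nat_lit 1748) (nat_lit 1086995382) (nat_lit 1824) (nat_lit 7388817588) (nat_lit 527) (nat_lit 5) (nat_lit 550) (nat_lit 5) (nat_lit 551) (nat_lit 5) (nat_lit 381) (nat_lit 373) (nat_lit 266)) (XT.lf (nat_lit 0) (nat_lit 5462036456) (nat_lit 1748) (nat_lit 3793647270) (nat_lit 1824) (nat_lit 3372275111) (nat_lit 528) (nat_lit 5) (nat_lit 551) (nat_lit 5) (nat_lit 552) (nat_lit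 5) (nat_lit 382) (nat_lit 373) (nat_lit 265)))))) (XT.nd (nat_lit 390) (nat_lit 2812) (nat_lit 0) (XT.nd (nat_lit 156) (nat_lit 1596) (nat_lit 0) (XT.nd (nat_lit 78) (nat_lit 0) (nat_lit 76) (XT.lf (nat_lit 76) (nat_lit 6284891327) (nat_lit 0) (nat_lit 767911996) (nat_lit 1824) (nat_lit 5759662848) (nat_lit 529) (nat_lit 5) (nat_lit 528) (nat_lit 5) (nat_lit 552) (nat_lit 5) (nat_lit 383) (nat_lit 373) (nat_lit 264)) (XT.lf (nat_lit 76) (nat_lit 3693601593) (nat_lit 0) (nat_lit 5073918378) (nat_lit 1824) (nat_lit 4233464218) (nat_lit 530) (nat_lit 5) (nat_lit 529) (nat_lit 5) (nat_lit 553) (nat_lit 5) (nat_lit 384) (nat_lit 373) (nat_lit 263))) (XT.nd (nat_lit 78) (nat_lit 1748) (nat_lit 0) (XT.lf (nat_lit 76) (nat_lit 1082567933) (nat_lit 0) (nat_lit 9506898404) (nat_lit 1824) (nat_lit 2604575648) (nat_lit 531) (nat_lit 5) (nat_lit 530) (nat_lit 5) (nat_lit 554) (nat_lit 5) (nat_lit 385) (nat_lit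 373) (nat_lit 262)) (XT.nd (nat_lit 78) (nat_lit 1748) (nat_lit 0) (XT.lf (nat_lit 76) (nat_lit 11858691230) (nat_lit 0) (nat_lit 680013970) (nat_lit 1824) (nat_lit 852733632) (nat_lit 531) (nat_lit 5) (nat_lit 530) (nat_lit 5) (nat_lit 554) (nat_lit 5) (nat_lit 386) (nat_lit 373) (nat_lit 261)) (XT.lf (nat_lit 0) (nat_lit 1032122452) (nat_lit 1824) (nat_lit 4186020915) (nat_lit 1900) (nat_lit 8374631840) (nat_lit 507) (nat_lit 5) (nat_lit 531) (nat_lit 5) (nat_lit 532) (nat_lit 5) (nat_lit 387) (nat_lit 373) (nat_lit 260))))) (XT.nd (nat_lit 156) (nat_lit 2888) (nat_lit 0) (XT.nd (nat_lit 78) (nat_lit 0) (nat_lit 0) (XT.lf (nat_lit 0) (nat_lit 3024892318) (nat_lit 1824) (nat_lit 6867097033) (nat_lit 1900) (nat_lit 3906790522) (nat_lit 508) (nat_lit 5) (nat_lit 532) (nat_lit 5) (nat_lit 533) (nat_lit 5) (nat_lit 388) (nat_lit 373) (nat_lit 259)) (XT.lf (nat_lit 76) (nat_lit 4434201302) (nat_lit 0)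 (nat_lit 713069132) (nat_lit 1900) (nat_lit 8862297742) (nat_lit 509) (nat_lit 5) (nat_lit 508) (nat_lit 5) (nat_lit 533) (nat_lit 5) (nat_lit 389) (nat_lit 373) (nat_lit 258))) (XT.nd (nat_lit 78) (nat_lit 1140) (nat_lit 0) (XT.lf (nat_lit 0) (nat_lit 1891688405) (nat_lit 1824) (nat_lit 5535651008) (nat_lit 1900) (nat_lit 6797460324) (nat_lit 485) (nat_lit 5) (nat_lit 509) (nat_lit 5) (nat_lit 510) (nat_lit 5) (nat_lit 390) (nat_lit 373) (nat_lit 257)) (XT.nd (nat_lit 78) (nat_lit 1140) (nat_lit 0) (XT.lf (nat_lit 0) (nat_lit 9849973617) (nat_lit 1900) (nat_lit 660952970) (nat_lit 76) (nat_lit 3934078397) (nat_lit 485) (nat_lit 5) (nat_lit 510) (nat_lit 5) (nat_lit 486) (nat_lit 5) (nat_lit 391) (nat_lit 373) (nat_lit 256)) (XT.lf (nat_lit 0) (nat_lit 11456167705) (nat_lit 1140) (nat_lit 979816910) (nat_lit 1216) (nat_lit 2234017817) (nat_lit 470) (nat_lit 5) (nat_lit 485) (nat_lit 5) (nat_lit 486)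 (nat_lit 5) (nat_lit 392) (nat_lit 373) (nat_lit 255))))))) (XT.nd (nat_lit 780) (nat_lit 5548) (nat_lit 0) (XT.nd (nat_lit 390) (nat_lit 4028) (nat_lit 0) (XT.nd (nat_lit 156) (nat_lit 1748) (nat_lit 0) (XT.nd (nat_lit 78) (nat_lit 912) (nat_lit 0) (XT.lf (nat_lit 0) (nat_lit 296581688) (nat_lit 988) (nat_lit 5814273674) (nat_lit 76) (nat_lit 8788841752) (nat_lit 457) (nat_lit 5) (nat_lit 470) (nat_lit 5) (nat_lit 458) (nat_lit 5) (nat_lit 393) (nat_lit 373) (nat_lit 254)) (XT.lf (nat_lit 0) (nat_lit 2949666093) (nat_lit 988) (nat_lit 8449861373) (nat_lit 76) (nat_lit 3734921463) (nat_lit 445) (nat_lit 5) (nat_lit 458) (nat_lit 5) (nat_lit 446) (nat_lit 5) (nat_lit 394) (nat_lit 373) (nat_lit 253))) (XT.nd (nat_lit 78) (nat_lit 912) (nat_lit 0) (XT.lf (nat_lit 0) (nat_lit 4258662148) (nat_lit 836) (nat_lit 1512460701) (nat_lit 912) (nat_lit 9603344853) (nat_lit 434) (nat_lit 5) (nat_lit 445) (nat_lit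 5) (nat_lit 446) (nat_lit 5) (nat_lit 395) (nat_lit 373) (nat_lit 252)) (XT.nd (nat_lit 78) (nat_lit 0) (nat_lit 0) (XT.lf (nat_lit 0) (nat_lit 1791691094) (nat_lit 912) (nat_lit 6992156221) (nat_lit 988) (nat_lit 6835707244) (nat_lit 422) (nat_lit 5) (nat_lit 434) (nat_lit 5) (nat_lit 435) (nat_lit 5) (nat_lit 396) (nat_lit 373) (nat_lit 251)) (XT.lf (nat_lit 0) (nat_lit 11974952738) (nat_lit 988) (nat_lit 681867170) (nat_lit 76) (nat_lit 3213414129) (nat_lit 422) (nat_lit 5) (nat_lit 435) (nat_lit 5) (nat_lit 423) (nat_lit 5) (nat_lit 397) (nat_lit 373) (nat_lit 250))))) (XT.nd (nat_lit 156) (nat_lit 2280) (nat_lit 0) (XT.nd (nat_lit 78) (nat_lit 912) (nat_lit 0) (XT.lf (nat_lit 0) (nat_lit 12963555958) (nat_lit 836) (nat_lit 2411189224) (nat_lit 912) (nat_lit 751429640) (nat_lit 411) (nat_lit 5) (nat_lit 422) (nat_lit 5) (nat_lit 423) (nat_lit 5) (nat_lit 398) (nat_lit 373) (nat_lit 249)) (XT.lf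 (nat_lit 0) (nat_lit 2564311286) (nat_lit 912) (nat_lit 5697232755) (nat_lit 76) (nat_lit 8125723125) (nat_lit 399) (nat_lit 5) (nat_lit 411) (nat_lit 5) (nat_lit 400) (nat_lit 5) (nat_lit 399) (nat_lit 373) (nat_lit 248))) (XT.nd (nat_lit 78) (nat_lit 1520) (nat_lit 0) (XT.lf (nat_lit 0) (nat_lit 6059832594) (nat_lit 836) (nat_lit 8253303984) (nat_lit 76) (nat_lit 2341146019) (nat_lit 389) (nat_lit 5) (nat_lit 400) (nat_lit 5) (nat_lit 390) (nat_lit 5) (nat_lit 400) (nat_lit 373) (nat_lit 247)) (XT.nd (nat_lit 78) (nat_lit 760) (nat_lit 0) (XT.lf (nat_lit 0) (nat_lit 6077552535) (nat_lit 760) (nat_lit 3699330207) (nat_lit 836) (nat_lit 7150092487) (nat_lit 379) (nat_lit 5) (nat_lit 389) (nat_lit 5) (nat_lit 390) (nat_lit 5) (nat_lit 401) (nat_lit 373) (nat_lit 246)) (XT.lf (nat_lit 0) (nat_lit 3727876276) (nat_lit 760) (nat_lit 9988490031) (nat_lit 836) (nat_lit 3489263893) (nat_lit 369) (nat_lit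 5) (nat_lit 379) (nat_lit 5) (nat_lit 380) (nat_lit 5) (nat_lit 402) (nat_lit 373) (nat_lit 245)))))) (XT.nd (nat_lit 390) (nat_lit 2660) (nat_lit 0) (XT.nd (nat_lit 156) (nat_lit 2052) (nat_lit 0) (XT.nd (nat_lit 78) (nat_lit 0) (nat_lit 0) (XT.lf (nat_lit 0) (nat_lit 375589432) (nat_lit 836) (nat_lit 16124700677) (nat_lit 76) (nat_lit 990360365) (nat_lit 358) (nat_lit 5) (nat_lit 369) (nat_lit 5) (nat_lit 359) (nat_lit 5) (nat_lit 403) (nat_lit 373) (nat_lit 244)) (XT.lf (nat_lit 0) (nat_lit 4452048292) (nat_lit 836) (nat_lit 1051873494) (nat_lit 76) (nat_lit 12276976983) (nat_lit 358) (nat_lit 5) (nat_lit 369) (nat_lit 5) (nat_lit 359) (nat_lit 5) (nat_lit 404) (nat_lit 373) (nat_lit 243))) (XT.nd (nat_lit 78) (nat_lit 1368) (nat_lit 0) (XT.lf (nat_lit 0) (nat_lit 8768848301) (nat_lit 760) (nat_lit 3469098388) (nat_lit 76) (nat_lit 5839546876) (nat_lit 349) (nat_lit 5) (nat_lit 359) (nat_lit 5)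 (nat_lit 350) (nat_lit 5) (nat_lit 405) (nat_lit 373) (nat_lit 242)) (XT.nd (nat_lit 78) (nat_lit 684) (nat_lit 0) (XT.lf (nat_lit 0) (nat_lit 12479174572) (nat_lit 684) (nat_lit 845833793) (nat_lit 760) (nat_lit 5055780719) (nat_lit 340) (nat_lit 5) (nat_lit 349) (nat_lit 5) (nat_lit 350) (nat_lit 5) (nat_lit 406) (nat_lit 373) (nat_lit 241)) (XT.lf (nat_lit 0) (nat_lit 10307345201) (nat_lit 684) (nat_lit 7856948527) (nat_lit 760) (nat_lit 525960930) (nat_lit 331) (nat_lit 5) (nat_lit 340) (nat_lit 5) (nat_lit 341) (nat_lit 5) (nat_lit 407) (nat_lit 373) (nat_lit 240))))) (XT.nd (nat_lit 156) (nat_lit 1292) (nat_lit 0) (XT.nd (nat_lit 78) (nat_lit 608) (nat_lit 0) (XT.lf (nat_lit 0) (nat_lit 4195275976) (nat_lit 760) (nat_lit 10901075633) (nat_lit 76) (nat_lit 3909918708) (nat_lit 321) (nat_lit 5) (nat_lit 331) (nat_lit 5) (nat_lit 322) (nat_lit 5) (nat_lit 408) (nat_lit 373) (nat_lit 239)) (XT.lf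 (nat_lit 0) (nat_lit 5875128312) (nat_lit 608) (nat_lit 3309466164) (nat_lit 684) (nat_lit 10144430631) (nat_lit 313) (nat_lit 5) (nat_lit 321) (nat_lit 5) (nat_lit 322) (nat_lit 5) (nat_lit 409) (nat_lit 373) (nat_lit 238))) (XT.nd (nat_lit 78) (nat_lit 684) (nat_lit 0) (XT.lf (nat_lit 0) (nat_lit 3615924920) (nat_lit 608) (nat_lit 10848803672) (nat_lit 684) (nat_lit 5193911229) (nat_lit 305) (nat_lit 5) (nat_lit 313) (nat_lit 5) (nat_lit 314) (nat_lit 5) (nat_lit 410) (nat_lit 373) (nat_lit 237)) (XT.nd (nat_lit 78) (nat_lit 0) (nat_lit 0) (XT.lf (nat_lit 0) (nat_lit 24054388) (nat_lit 684) (nat_lit 18640703875) (nat_lit 76) (nat_lit 1331043307) (nat_lit 296) (nat_lit 5) (nat_lit 305) (nat_lit 5) (nat_lit 297) (nat_lit 5) (nat_lit 411) (nat_lit 373) (nat_lit 236)) (XT.lf (nat_lit 0) (nat_lit 5496815484) (nat_lit 684) (nat_lit 971854426) (nat_lit 76) (nat_lit 13870345200) (nat_lit 296) (nat_lit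 5) (nat_lit 305) (nat_lit 5) (nat_lit 297) (nat_lit 5) (nat_lit 412) (nat_lit 373) (nat_lit 235))))))))
noncomputable def xc109 : XT := (XT.nd (nat_lit 51012) (nat_lit 0) (nat_lit 8740) (XT.nd (nat_lit 50232) (nat_lit 0) (nat_lit 21356) (XT.nd (nat_lit 312) (nat_lit 1672) (nat_lit 0) (XT.nd (nat_lit 156) (nat_lit 1216) (nat_lit 0) (XT.nd (nat_lit 78) (nat_lit 532) (nat_lit 0) (XT.lf (nat_lit 0) (nat_lit 11274104746) (nat_lit 684) (nat_lit 3291915916) (nat_lit 76) (nat_lit 6123697485) (nat_lit 288) (nat_lit 5) (nat_lit 297) (nat_lit 5) (nat_lit 289) (nat_lit 5) (nat_lit 413) (nat_lit 373) (nat_lit 234)) (XT.lf (nat_lit 0) (nat_lit 15423177029) (nat_lit 532) (nat_lit 1938645771) (nat_lit 608) (nat_lit 3686377274) (nat_lit 281) (nat_lit 5) (nat_lit 288) (nat_lit 5) (nat_lit 289) (nat_lit 5) (nat_lit 414) (nat_lit 373) (nat_lit 233))) (XT.nd (nat_lit 78) (nat_lit 532) (nat_lit 0) (XT.lf (nat_lit 0) (nat_lit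 2355545792) (nat_lit 684) (nat_lit 8014625782) (nat_lit 76) (nat_lit 11043580164) (nat_lit 272) (nat_lit 5) (nat_lit 281) (nat_lit 5) (nat_lit 273) (nat_lit 5) (nat_lit 415) (nat_lit 373) (nat_lit 232)) (XT.lf (nat_lit 0) (nat_lit 8659385520) (nat_lit 608) (nat_lit 10429145480) (nat_lit 76) (nat_lit 2698636765) (nat_lit 265) (nat_lit 5) (nat_lit 273) (nat_lit 5) (nat_lit 266) (nat_lit 5) (nat_lit 416) (nat_lit 373) (nat_lit 231)))) (XT.nd (nat_lit 156) (nat_lit 608) (nat_lit 0) (XT.nd (nat_lit 78) (nat_lit 532) (nat_lit 0) (XT.lf (nat_lit 0) (nat_lit 9286303263) (nat_lit 532) (nat_lit 6038086753) (nat_lit 608) (nat_lit 6843955266) (nat_lit 258) (nat_lit 5) (nat_lit 265) (nat_lit 5) (nat_lit 266) (nat_lit 5) (nat_lit 417) (nat_lit 373) (nat_lit 230)) (XT.lf (nat_lit 0) (nat_lit 7205817324) (nat_lit 532) (nat_lit 15137482469) (nat_lit 608) (nat_lit 214579227) (nat_lit 251) (nat_lit 5) (nat_lit 258)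 (nat_lit 5) (nat_lit 259) (nat_lit 5) (nat_lit 418) (nat_lit 373) (nat_lit 229))) (XT.nd (nat_lit 49608) (nat_lit 0) (nat_lit 22952) (XT.lf (nat_lit 0) (nat_lit 5081574045) (nat_lit 532) (nat_lit 1594734504) (nat_lit 608) (nat_lit 16278944013) (nat_lit 243) (nat_lit 5) (nat_lit 250) (nat_lit 5) (nat_lit 251) (nat_lit 5) (nat_lit 419) (nat_lit 373) (nat_lit 228)) (XT.nd (nat_lit 78) (nat_lit 0) (nat_lit 0) (XT.lf (nat_lit 0) (nat_lit 4136385338) (nat_lit 1748) (nat_lit 793484427) (nat_lit 1748) (nat_lit 793484427) (nat_lit 545) (nat_lit 3) (nat_lit 568) (nat_lit 3) (nat_lit 568) (nat_lit 5) (nat_lit 374) (nat_lit 374) (nat_lit 272)) (XT.lf (nat_lit 76) (nat_lit 7088440761) (nat_lit 0) (nat_lit 2138562389) (nat_lit 1748) (nat_lit 2374803041) (nat_lit 546) (nat_lit 5) (nat_lit 545) (nat_lit 3) (nat_lit 568) (nat_lit 5) (nat_lit 375) (nat_lit 374) (nat_lit 271)))))) (XT.nd (nat_lit 390) (nat_lit 0) (nat_lit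 152) (XT.nd (nat_lit 156) (nat_lit 1672) (nat_lit 0) (XT.nd (nat_lit 78) (nat_lit 0) (nat_lit 76) (XT.lf (nat_lit 76) (nat_lit 4286363567) (nat_lit 0) (nat_lit 5969295999) (nat_lit 1748) (nat_lit 1504981428) (nat_lit 547) (nat_lit 5) (nat_lit 546) (nat_lit 5) (nat_lit 569) (nat_lit 5) (nat_lit 376) (nat_lit 374) (nat_lit 270)) (XT.lf (nat_lit 76) (nat_lit 1463045852) (nat_lit 0) (nat_lit 9889914568) (nat_lit 1748) (nat_lit 570524726) (nat_lit 548) (nat_lit 5) (nat_lit 547) (nat_lit 5) (nat_lit 570) (nat_lit 5) (nat_lit 377) (nat_lit 374) (nat_lit 269))) (XT.nd (nat_lit 78) (nat_lit 0) (nat_lit 76) (XT.lf (nat_lit 0) (nat_lit 448559795) (nat_lit 1748) (nat_lit 1379257734) (nat_lit 1824) (nat_lit 10262111498) (nat_lit 524) (nat_lit 5) (nat_lit 547) (nat_lit 5) (nat_lit 548) (nat_lit 5) (nat_lit 378) (nat_lit 374) (nat_lit 268)) (XT.nd (nat_lit 78) (nat_lit 0) (nat_lit 76) (XT.lf (nat_lit 0) (nat_lit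 1557015848) (nat_lit 1748) (nat_lit 4243614703) (nat_lit 1824) (nat_lit 6459329247) (nat_lit 525) (nat_lit 5) (nat_lit 548) (nat_lit 5) (nat_lit 549) (nat_lit 5) (nat_lit 379) (nat_lit 374) (nat_lit 267)) (XT.lf (nat_lit 0) (nat_lit 2744183809) (nat_lit 1748) (nat_lit 7132998920) (nat_lit 1824) (nat_lit 2556999598) (nat_lit 526) (nat_lit 5) (nat_lit 549) (nat_lit 5) (nat_lit 550) (nat_lit 5) (nat_lit 380) (nat_lit 374) (nat_lit 266))))) (XT.nd (nat_lit 156) (nat_lit 0) (nat_lit 152) (XT.nd (nat_lit 78) (nat_lit 0) (nat_lit 76) (XT.lf (nat_lit 76) (nat_lit 2554636189) (nat_lit 0) (nat_lit 1469888820) (nat_lit 1824) (nat_lit 8587955359) (nat_lit 527) (nat_lit 5) (nat_lit 526) (nat_lit 5) (nat_lit 550) (nat_lit 5) (nat_lit 381) (nat_lit 374) (nat_lit 265)) (XT.lf (nat_lit 0) (nat_lit 5412574481) (nat_lit 1748) (nat_lit 229166890) (nat_lit 1824) (nat_lit 7153000020) (nat_lit 527) (nat_lit 5) (nat_lit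 550) (nat_lit 5) (nat_lit 551) (nat_lit 5) (nat_lit 382) (nat_lit 374) (nat_lit 264))) (XT.nd (nat_lit 78) (nat_lit 0) (nat_lit 0) (XT.lf (nat_lit 0) (nat_lit 6911906192) (nat_lit 1748) (nat_lit 3003011379) (nat_lit 1824) (nat_lit 3066159857) (nat_lit 528) (nat_lit 5) (nat_lit 551) (nat_lit 5) (nat_lit 552) (nat_lit 5) (nat_lit 383) (nat_lit 374) (nat_lit 263)) (XT.nd (nat_lit 78) (nat_lit 0) (nat_lit 76) (XT.lf (nat_lit 76) (nat_lit 7363209825) (nat_lit 0) (nat_lit 1155506667) (nat_lit 1824) (nat_lit 4653037083) (nat_lit 529) (nat_lit 5) (nat_lit 528) (nat_lit 5) (nat_lit 552) (nat_lit 5) (nat_lit 384) (nat_lit 374) (nat_lit 262)) (XT.lf (nat_lit 76) (nat_lit 4706754038) (nat_lit 0) (nat_lit 5545147356) (nat_lit 1824) (nat_lit 3114685206) (nat_lit 530) (nat_lit 5) (nat_lit 529) (nat_lit 5) (nat_lit 553) (nat_lit 5) (nat_lit 385) (nat_lit 374) (nat_lit 261))))))) (XT.nd (nat_lit 780) (nat_lit 6612)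 (nat_lit 0) (XT.nd (nat_lit 390) (nat_lit 4636) (nat_lit 0) (XT.nd (nat_lit 156) (nat_lit 0) (nat_lit 76) (XT.nd (nat_lit 78) (nat_lit 1824) (nat_lit 0) (XT.lf (nat_lit 76) (nat_lit 2028818348) (nat_lit 0) (nat_lit 10068036248) (nat_lit 1824) (nat_lit 1469214563) (nat_lit 531) (nat_lit 5) (nat_lit 530) (nat_lit 5) (nat_lit 554) (nat_lit 5) (nat_lit 386) (nat_lit 374) (nat_lit 260)) (XT.lf (nat_lit 0) (nat_lit 295905669) (nat_lit 1824) (nat_lit 670417106) (nat_lit 1900) (nat_lit 12803719233) (nat_lit 506) (nat_lit 5) (nat_lit 530) (nat_lit 5) (nat_lit 531) (nat_lit 5) (nat_lit 387) (nat_lit 374) (nat_lit 259))) (XT.nd (nat_lit 78) (nat_lit 0) (nat_lit 76) (XT.lf (nat_lit 0) (nat_lit 2196087006) (nat_lit 1824) (nat_lit 3399341640) (nat_lit 1900) (nat_lit 8382469800) (nat_lit 507) (nat_lit 5) (nat_lit 531) (nat_lit 5) (nat_lit 532) (nat_lit 5) (nat_lit 388) (nat_lit 374) (nat_lit 258)) (XT.nd (nat_lit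 78) (nat_lit 0) (nat_lit 0) (XT.lf (nat_lit 0) (nat_lit 4220113981) (nat_lit 1824) (nat_lit 6152180955) (nat_lit 1900) (nat_lit 3818358836) (nat_lit 508) (nat_lit 5) (nat_lit 532) (nat_lit 5) (nat_lit 533) (nat_lit 5) (nat_lit 389) (nat_lit 374) (nat_lit 257)) (XT.lf (nat_lit 76) (nat_lit 5473215352) (nat_lit 0) (nat_lit 906661192) (nat_lit 1900) (nat_lit 8028414917) (nat_lit 509) (nat_lit 5) (nat_lit 508) (nat_lit 5) (nat_lit 533) (nat_lit 5) (nat_lit 390) (nat_lit 374) (nat_lit 256))))) (XT.nd (nat_lit 156) (nat_lit 1900) (nat_lit 0) (XT.nd (nat_lit 78) (nat_lit 1140) (nat_lit 0) (XT.lf (nat_lit 0) (nat_lit 2862042300) (nat_lit 1824) (nat_lit 5839748005) (nat_lit 1900) (nat_lit 5928720811) (nat_lit 485) (nat_lit 5) (nat_lit 509) (nat_lit 5) (nat_lit 510) (nat_lit 5) (nat_lit 391) (nat_lit 374) (nat_lit 255)) (XT.lf (nat_lit 0) (nat_lit 230525339) (nat_lit 1140) (nat_lit 10936574835) (nat_lit 1216)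 (nat_lit 3690822414) (nat_lit 470) (nat_lit 5) (nat_lit 485) (nat_lit 5) (nat_lit 486) (nat_lit 5) (nat_lit 392) (nat_lit 374) (nat_lit 254))) (XT.nd (nat_lit 78) (nat_lit 1900) (nat_lit 0) (XT.lf (nat_lit 0) (nat_lit 12693400433) (nat_lit 1140) (nat_lit 1111883308) (nat_lit 1216) (nat_lit 1284894373) (nat_lit 470) (nat_lit 5) (nat_lit 485) (nat_lit 5) (nat_lit 486) (nat_lit 5) (nat_lit 393) (nat_lit 374) (nat_lit 253)) (XT.nd (nat_lit 78) (nat_lit 912) (nat_lit 0) (XT.lf (nat_lit 0) (nat_lit 1284314028) (nat_lit 988) (nat_lit 5076385796) (nat_lit 76) (nat_lit 8966411505) (nat_lit 457) (nat_lit 5) (nat_lit 470) (nat_lit 5) (nat_lit 458) (nat_lit 5) (nat_lit 394) (nat_lit 374) (nat_lit 252)) (XT.lf (nat_lit 0) (nat_lit 3993927760) (nat_lit 988) (nat_lit 7786338609) (nat_lit 76) (nat_lit 3789100594) (nat_lit 445) (nat_lit 5) (nat_lit 458) (nat_lit 5) (nat_lit 446) (nat_lit 5) (nat_lit 395) (nat_lit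 374) (nat_lit 251)))))) (XT.nd (nat_lit 390) (nat_lit 3116) (nat_lit 0) (XT.nd (nat_lit 156) (nat_lit 1748) (nat_lit 0) (XT.nd (nat_lit 78) (nat_lit 912) (nat_lit 0) (XT.lf (nat_lit 0) (nat_lit 5288563081) (nat_lit 836) (nat_lit 1589484426) (nat_lit 912) (nat_lit 8938978408) (nat_lit 434) (nat_lit 5) (nat_lit 445) (nat_lit 5) (nat_lit 446) (nat_lit 5) (nat_lit 396) (nat_lit 374) (nat_lit 250)) (XT.lf (nat_lit 0) (nat_lit 2751521713) (nat_lit 912) (nat_lit 7208117563) (nat_lit 988) (nat_lit 6110256389) (nat_lit 422) (nat_lit 5) (nat_lit 434) (nat_lit 5) (nat_lit 435) (nat_lit 5) (nat_lit 397) (nat_lit 374) (nat_lit 249))) (XT.nd (nat_lit 78) (nat_lit 912) (nat_lit 0) (XT.lf (nat_lit 0) (nat_lit 197712223) (nat_lit 836) (nat_lit 13023439094) (nat_lit 912) (nat_lit 3107450741) (nat_lit 411) (nat_lit 5) (nat_lit 422) (nat_lit 5) (nat_lit 423) (nat_lit 5) (nat_lit 398) (nat_lit 374) (nat_lit 248)) (XT.nd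 (nat_lit 78) (nat_lit 836) (nat_lit 0) (XT.lf (nat_lit 0) (nat_lit 107513196) (nat_lit 912) (nat_lit 2358010264) (nat_lit 76) (nat_lit 14127110412) (nat_lit 410) (nat_lit 5) (nat_lit 422) (nat_lit 5) (nat_lit 411) (nat_lit 5) (nat_lit 399) (nat_lit 374) (nat_lit 247)) (XT.lf (nat_lit 0) (nat_lit 3493093715) (nat_lit 912) (nat_lit 4971349526) (nat_lit 76) (nat_lit 8397404878) (nat_lit 399) (nat_lit 5) (nat_lit 411) (nat_lit 5) (nat_lit 400) (nat_lit 5) (nat_lit 400) (nat_lit 374) (nat_lit 246))))) (XT.nd (nat_lit 156) (nat_lit 1596) (nat_lit 0) (XT.nd (nat_lit 78) (nat_lit 760) (nat_lit 0) (XT.lf (nat_lit 0) (nat_lit 7074718826) (nat_lit 836) (nat_lit 7602318272) (nat_lit 76) (nat_lit 2460212152) (nat_lit 389) (nat_lit 5) (nat_lit 400) (nat_lit 5) (nat_lit 390) (nat_lit 5) (nat_lit 401) (nat_lit 374) (nat_lit 245)) (XT.lf (nat_lit 0) (nat_lit 7143885471) (nat_lit 760) (nat_lit 3740869768) (nat_lit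 836) (nat_lit 6533737926) (nat_lit 379) (nat_lit 5) (nat_lit 389) (nat_lit 5) (nat_lit 390) (nat_lit 5) (nat_lit 402) (nat_lit 374) (nat_lit 244))) (XT.nd (nat_lit 78) (nat_lit 836) (nat_lit 0) (XT.lf (nat_lit 0) (nat_lit 4724960446) (nat_lit 760) (nat_lit 10199922980) (nat_lit 836) (nat_lit 2780975158) (nat_lit 369) (nat_lit 5) (nat_lit 379) (nat_lit 5) (nat_lit 380) (nat_lit 5) (nat_lit 403) (nat_lit 374) (nat_lit 243)) (XT.nd (nat_lit 78) (nat_lit 0) (nat_lit 0) (XT.lf (nat_lit 0) (nat_lit 1172143889) (nat_lit 836) (nat_lit 15712001457) (nat_lit 76) (nat_lit 1115518906) (nat_lit 358) (nat_lit 5) (nat_lit 369) (nat_lit 5) (nat_lit 359) (nat_lit 5) (nat_lit 404) (nat_lit 374) (nat_lit 242)) (XT.lf (nat_lit 0) (nat_lit 5348024085) (nat_lit 836) (nat_lit 213099368) (nat_lit 76) (nat_lit 12737953992) (nat_lit 358) (nat_lit 5) (nat_lit 369) (nat_lit 5) (nat_lit 359) (nat_lit 5) (nat_lit 405) (nat_lit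 374) (nat_lit 241))))))))
noncomputable def xc110 : XT := (XT.nd (nat_lit 51090) (nat_lit 0) (nat_lit 12236) (XT.nd (nat_lit 702) (nat_lit 2888) (nat_lit 0) (XT.nd (nat_lit 312) (nat_lit 2508) (nat_lit 0) (XT.nd (nat_lit 156) (nat_lit 1444) (nat_lit 0) (XT.nd (nat_lit 78) (nat_lit 684) (nat_lit 0) (XT.lf (nat_lit 0) (nat_lit 9778398005) (nat_lit 760) (nat_lit 2702762811) (nat_lit 76) (nat_lit 6123727870) (nat_lit 349) (nat_lit 5) (nat_lit 359) (nat_lit 5) (nat_lit 350) (nat_lit 5) (nat_lit 406) (nat_lit 374) (nat_lit 240)) (XT.lf (nat_lit 0) (nat_lit 13709836994) (nat_lit 684) (nat_lit 745223202) (nat_lit 760) (nat_lit 4462546529) (nat_lit 340) (nat_lit 5) (nat_lit 349) (nat_lit 5) (nat_lit 350) (nat_lit 5) (nat_lit 407) (nat_lit 374) (nat_lit 239))) (XT.nd (nat_lit 78) (nat_lit 684) (nat_lit 0) (XT.lf (nat_lit 0) (nat_lit 185485160) (nat_lit 760) (nat_lit 7765350095) (nat_lit 76) (nat_lit 11285794991)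 (nat_lit 330) (nat_lit 5) (nat_lit 340) (nat_lit 5) (nat_lit 331) (nat_lit 5) (nat_lit 408) (nat_lit 374) (nat_lit 238)) (XT.lf (nat_lit 0) (nat_lit 5026761421) (nat_lit 760) (nat_lit 10363480505) (nat_lit 76) (nat_lit 4172103957) (nat_lit 321) (nat_lit 5) (nat_lit 331) (nat_lit 5) (nat_lit 322) (nat_lit 5) (nat_lit 409) (nat_lit 374) (nat_lit 237)))) (XT.nd (nat_lit 156) (nat_lit 1292) (nat_lit 0) (XT.nd (nat_lit 78) (nat_lit 608) (nat_lit 0) (XT.lf (nat_lit 0) (nat_lit 6901982006) (nat_lit 608) (nat_lit 3248747881) (nat_lit 684) (nat_lit 9744354022) (nat_lit 313) (nat_lit 5) (nat_lit 321) (nat_lit 5) (nat_lit 322) (nat_lit 5) (nat_lit 410) (nat_lit 374) (nat_lit 236)) (XT.lf (nat_lit 0) (nat_lit 4573768423) (nat_lit 608) (nat_lit 11001908340) (nat_lit 684) (nat_lit 4659182127) (nat_lit 305) (nat_lit 5) (nat_lit 313) (nat_lit 5) (nat_lit 314) (nat_lit 5) (nat_lit 411) (nat_lit 374) (nat_lit 235)))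 (XT.nd (nat_lit 78) (nat_lit 608) (nat_lit 0) (XT.lf (nat_lit 0) (nat_lit 693051242) (nat_lit 684) (nat_lit 18343238623) (nat_lit 76) (nat_lit 1546020248) (nat_lit 296) (nat_lit 5) (nat_lit 305) (nat_lit 5) (nat_lit 297) (nat_lit 5) (nat_lit 412) (nat_lit 374) (nat_lit 234)) (XT.nd (nat_lit 78) (nat_lit 608) (nat_lit 0) (XT.lf (nat_lit 0) (nat_lit 6310530844) (nat_lit 684) (nat_lit 169275721) (nat_lit 76) (nat_lit 14456402780) (nat_lit 296) (nat_lit 5) (nat_lit 305) (nat_lit 5) (nat_lit 297) (nat_lit 5) (nat_lit 413) (nat_lit 374) (nat_lit 233)) (XT.lf (nat_lit 0) (nat_lit 12248742189) (nat_lit 684) (nat_lit 2560916687) (nat_lit 76) (nat_lit 6488022530) (nat_lit 288) (nat_lit 5) (nat_lit 297) (nat_lit 5) (nat_lit 289) (nat_lit 5) (nat_lit 414) (nat_lit 374) (nat_lit 232)))))) (XT.nd (nat_lit 49998) (nat_lit 0) (nat_lit 20824) (XT.nd (nat_lit 156) (nat_lit 1672) (nat_lit 0) (XT.nd (nat_lit 78) (nat_lit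 684) (nat_lit 0) (XT.lf (nat_lit 0) (nat_lit 16702167231) (nat_lit 532) (nat_lit 1803688144) (nat_lit 608) (nat_lit 3161327144) (nat_lit 281) (nat_lit 5) (nat_lit 288) (nat_lit 5) (nat_lit 289) (nat_lit 5) (nat_lit 415) (nat_lit 374) (nat_lit 231)) (XT.lf (nat_lit 0) (nat_lit 3041791978) (nat_lit 684) (nat_lit 7432804499) (nat_lit 76) (nat_lit 11569256218) (nat_lit 272) (nat_lit 5) (nat_lit 281) (nat_lit 5) (nat_lit 273) (nat_lit 5) (nat_lit 416) (nat_lit 374) (nat_lit 230))) (XT.nd (nat_lit 78) (nat_lit 1140) (nat_lit 0) (XT.lf (nat_lit 0) (nat_lit 9523407035) (nat_lit 608) (nat_lit 9922379535) (nat_lit 76) (nat_lit 2982911429) (nat_lit 265) (nat_lit 5) (nat_lit 273) (nat_lit 5) (nat_lit 266) (nat_lit 5) (nat_lit 417) (nat_lit 374) (nat_lit 229)) (XT.nd (nat_lit 78) (nat_lit 608) (nat_lit 0) (XT.lf (nat_lit 0) (nat_lit 10371234980) (nat_lit 532) (nat_lit 6004762775) (nat_lit 608) (nat_lit 6445560364)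 (nat_lit 258) (nat_lit 5) (nat_lit 265) (nat_lit 5) (nat_lit 266) (nat_lit 5) (nat_lit 418) (nat_lit 374) (nat_lit 228)) (XT.lf (nat_lit 0) (nat_lit 366937037) (nat_lit 608) (nat_lit 14999877218) (nat_lit 76) (nat_lit 7856128737) (nat_lit 250) (nat_lit 5) (nat_lit 258) (nat_lit 5) (nat_lit 251) (nat_lit 5) (nat_lit 419) (nat_lit 374) (nat_lit 227))))) (XT.nd (nat_lit 156) (nat_lit 1596) (nat_lit 0) (XT.nd (nat_lit 78) (nat_lit 0) (nat_lit 0) (XT.lf (nat_lit 0) (nat_lit 5037057531) (nat_lit 1748) (nat_lit 421232837) (nat_lit 1748) (nat_lit 421232837) (nat_lit 545) (nat_lit 3) (nat_lit 568) (nat_lit 3) (nat_lit 568) (nat_lit 5) (nat_lit 375) (nat_lit 375) (nat_lit 270)) (XT.lf (nat_lit 76) (nat_lit 8080355149) (nat_lit 0) (nat_lit 2936441134) (nat_lit 1748) (nat_lit 902804433) (nat_lit 546) (nat_lit 5) (nat_lit 545) (nat_lit 3) (nat_lit 568) (nat_lit 5) (nat_lit 376) (nat_lit 375) (nat_lit 269))) (XT.nd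 (nat_lit 78) (nat_lit 1672) (nat_lit 0) (XT.lf (nat_lit 76) (nat_lit 5216028308) (nat_lit 0) (nat_lit 6816792662) (nat_lit 1748) (nat_lit 51249421) (nat_lit 547) (nat_lit 5) (nat_lit 546) (nat_lit 5) (nat_lit 569) (nat_lit 5) (nat_lit 377) (nat_lit 375) (nat_lit 268)) (XT.nd (nat_lit 78) (nat_lit 0) (nat_lit 0) (XT.lf (nat_lit 0) (nat_lit 857331879) (nat_lit 1748) (nat_lit 9930076838) (nat_lit 1824) (nat_lit 1465111983) (nat_lit 524) (nat_lit 5) (nat_lit 547) (nat_lit 5) (nat_lit 548) (nat_lit 5) (nat_lit 378) (nat_lit 375) (nat_lit 267)) (XT.lf (nat_lit 0) (nat_lit 1857419828) (nat_lit 1748) (nat_lit 604751696) (nat_lit 1824) (nat_lit 9962547309) (nat_lit 524) (nat_lit 5) (nat_lit 547) (nat_lit 5) (nat_lit 548) (nat_lit 5) (nat_lit 379) (nat_lit 375) (nat_lit 266))))))) (XT.nd (nat_lit 780) (nat_lit 7220) (nat_lit 0) (XT.nd (nat_lit 390) (nat_lit 1444) (nat_lit 0) (XT.nd (nat_lit 156) (nat_lit 0)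 (nat_lit 76) (XT.nd (nat_lit 78) (nat_lit 0) (nat_lit 76) (XT.lf (nat_lit 0) (nat_lit 2960079546) (nat_lit 1748) (nat_lit 3537458162) (nat_lit 1824) (nat_lit 6103093820) (nat_lit 525) (nat_lit 5) (nat_lit 548) (nat_lit 5) (nat_lit 549) (nat_lit 5) (nat_lit 380) (nat_lit 375) (nat_lit 265)) (XT.lf (nat_lit 0) (nat_lit 4145419926) (nat_lit 1748) (nat_lit 6497341657) (nat_lit 1824) (nat_lit 2138068002) (nat_lit 526) (nat_lit 5) (nat_lit 549) (nat_lit 5) (nat_lit 550) (nat_lit 5) (nat_lit 381) (nat_lit 375) (nat_lit 264))) (XT.nd (nat_lit 78) (nat_lit 0) (nat_lit 76) (XT.lf (nat_lit 76) (nat_lit 3467137989) (nat_lit 0) (nat_lit 1964045477) (nat_lit 1824) (nat_lit 7533952860) (nat_lit 527) (nat_lit 5) (nat_lit 526) (nat_lit 5) (nat_lit 550) (nat_lit 5) (nat_lit 382) (nat_lit 375) (nat_lit 263)) (XT.nd (nat_lit 78) (nat_lit 0) (nat_lit 76) (XT.lf (nat_lit 76) (nat_lit 611298948) (nat_lit 0) (nat_lit 6213253393)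 (nat_lit 1824) (nat_lit 6329039279) (nat_lit 528) (nat_lit 5) (nat_lit 527) (nat_lit 5) (nat_lit 551) (nat_lit 5) (nat_lit 383) (nat_lit 375) (nat_lit 262)) (XT.lf (nat_lit 0) (nat_lit 8331449863) (nat_lit 1748) (nat_lit 2240575273) (nat_lit 1824) (nat_lit 2774240886) (nat_lit 528) (nat_lit 5) (nat_lit 551) (nat_lit 5) (nat_lit 552) (nat_lit 5) (nat_lit 384) (nat_lit 375) (nat_lit 261))))) (XT.nd (nat_lit 156) (nat_lit 1672) (nat_lit 0) (XT.nd (nat_lit 78) (nat_lit 0) (nat_lit 76) (XT.lf (nat_lit 76) (nat_lit 8422801339) (nat_lit 0) (nat_lit 1533802096) (nat_lit 1824) (nat_lit 3586656238) (nat_lit 529) (nat_lit 5) (nat_lit 528) (nat_lit 5) (nat_lit 552) (nat_lit 5) (nat_lit 385) (nat_lit 375) (nat_lit 260)) (XT.lf (nat_lit 76) (nat_lit 5698502796) (nat_lit 0) (nat_lit 6012200641) (nat_lit 1824) (nat_lit 2033855860) (nat_lit 530) (nat_lit 5) (nat_lit 529) (nat_lit 5) (nat_lit 553) (nat_lit 5) (nat_lit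 386) (nat_lit 375) (nat_lit 259))) (XT.nd (nat_lit 78) (nat_lit 1824) (nat_lit 0) (XT.lf (nat_lit 76) (nat_lit 2951001945) (nat_lit 0) (nat_lit 10630168665) (nat_lit 1824) (nat_lit 369452416) (nat_lit 531) (nat_lit 5) (nat_lit 530) (nat_lit 5) (nat_lit 554) (nat_lit 5) (nat_lit 387) (nat_lit 375) (nat_lit 258)) (XT.nd (nat_lit 78) (nat_lit 0) (nat_lit 76) (XT.lf (nat_lit 76) (nat_lit 162397039) (nat_lit 0) (nat_lit 1239398380) (nat_lit 1900) (nat_lit 12759407599) (nat_lit 507) (nat_lit 5) (nat_lit 506) (nat_lit 5) (nat_lit 531) (nat_lit 5) (nat_lit 388) (nat_lit 375) (nat_lit 257)) (XT.lf (nat_lit 0) (nat_lit 3329931611) (nat_lit 1824) (nat_lit 2641429436) (nat_lit 1900) (nat_lit 8404515111) (nat_lit 507) (nat_lit 5) (nat_lit 531) (nat_lit 5) (nat_lit 532) (nat_lit 5) (nat_lit 389) (nat_lit 375) (nat_lit 256)))))) (XT.nd (nat_lit 390) (nat_lit 4484) (nat_lit 0) (XT.nd (nat_lit 156) (nat_lit 2888)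 (nat_lit 0) (XT.nd (nat_lit 78) (nat_lit 0) (nat_lit 0) (XT.lf (nat_lit 0) (nat_lit 5387790917) (nat_lit 1824) (nat_lit 5468682485) (nat_lit 1900) (nat_lit 3739078512) (nat_lit 508) (nat_lit 5) (nat_lit 532) (nat_lit 5) (nat_lit 533) (nat_lit 5) (nat_lit 390) (nat_lit 375) (nat_lit 255)) (XT.lf (nat_lit 76) (nat_lit 6491392405) (nat_lit 0) (nat_lit 1096176030) (nat_lit 1900) (nat_lit 7232645858) (nat_lit 509) (nat_lit 5) (nat_lit 508) (nat_lit 5) (nat_lit 533) (nat_lit 5) (nat_lit 391) (nat_lit 375) (nat_lit 254))) (XT.nd (nat_lit 78) (nat_lit 1140) (nat_lit 0) (XT.lf (nat_lit 0) (nat_lit 3809062249) (nat_lit 1824) (nat_lit 6145044570) (nat_lit 1900) (nat_lit 5095494375) (nat_lit 485) (nat_lit 5) (nat_lit 509) (nat_lit 5) (nat_lit 510) (nat_lit 5) (nat_lit 392) (nat_lit 375) (nat_lit 253)) (XT.nd (nat_lit 78) (nat_lit 0) (nat_lit 0) (XT.lf (nat_lit 0) (nat_lit 1104963134) (nat_lit 1140) (nat_lit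 11364353526) (nat_lit 1216) (nat_lit 2814999535) (nat_lit 470) (nat_lit 5) (nat_lit 485) (nat_lit 5) (nat_lit 486) (nat_lit 5) (nat_lit 393) (nat_lit 375) (nat_lit 252)) (XT.lf (nat_lit 0) (nat_lit 13916456849) (nat_lit 1140) (nat_lit 1242017910) (nat_lit 1216) (nat_lit 365628048) (nat_lit 470) (nat_lit 5) (nat_lit 485) (nat_lit 5) (nat_lit 486) (nat_lit 5) (nat_lit 394) (nat_lit 375) (nat_lit 251))))) (XT.nd (nat_lit 156) (nat_lit 2584) (nat_lit 0) (XT.nd (nat_lit 78) (nat_lit 912) (nat_lit 0) (XT.lf (nat_lit 0) (nat_lit 2245489213) (nat_lit 988) (nat_lit 4368731957) (nat_lit 76) (nat_lit 9154250584) (nat_lit 457) (nat_lit 5) (nat_lit 470) (nat_lit 5) (nat_lit 458) (nat_lit 5) (nat_lit 395) (nat_lit 375) (nat_lit 250)) (XT.lf (nat_lit 0) (nat_lit 5014652072) (nat_lit 988) (nat_lit 7155550781) (nat_lit 76) (nat_lit 3848226989) (nat_lit 445) (nat_lit 5) (nat_lit 458) (nat_lit 5) (nat_lit 446) (nat_lit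 5) (nat_lit 396) (nat_lit 375) (nat_lit 249))) (XT.nd (nat_lit 78) (nat_lit 1748) (nat_lit 0) (XT.lf (nat_lit 0) (nat_lit 6297574453) (nat_lit 836) (nat_lit 1667002029) (nat_lit 912) (nat_lit 8309356459) (nat_lit 434) (nat_lit 5) (nat_lit 445) (nat_lit 5) (nat_lit 446) (nat_lit 5) (nat_lit 397) (nat_lit 375) (nat_lit 248)) (XT.nd (nat_lit 78) (nat_lit 836) (nat_lit 0) (XT.lf (nat_lit 0) (nat_lit 3688134558) (nat_lit 912) (nat_lit 7430202033) (nat_lit 988) (nat_lit 5416457783) (nat_lit 422) (nat_lit 5) (nat_lit 434) (nat_lit 5) (nat_lit 435) (nat_lit 5) (nat_lit 398) (nat_lit 375) (nat_lit 247)) (XT.lf (nat_lit 0) (nat_lit 1060811009) (nat_lit 836) (nat_lit 13397365597) (nat_lit 912) (nat_lit 2343475700) (nat_lit 411) (nat_lit 5) (nat_lit 422) (nat_lit 5) (nat_lit 423) (nat_lit 5) (nat_lit 399) (nat_lit 375) (nat_lit 246))))))))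
noncomputable def xc111 : XT := (XT.nd (nat_lit 51324) (nat_lit 0) (nat_lit 14592) (XT.nd (nat_lit 780) (nat_lit 4940) (nat_lit 0) (XT.nd (nat_lit 390) (nat_lit 2964) (nat_lit 0) (XT.nd (nat_lit 156) (nat_lit 2280) (nat_lit 0) (XT.nd (nat_lit 78) (nat_lit 836) (nat_lit 0) (XT.lf (nat_lit 0) (nat_lit 932055339) (nat_lit 912) (nat_lit 1585634327) (nat_lit 76) (nat_lit 14556296887) (nat_lit 410) (nat_lit 5) (nat_lit 422) (nat_lit 5) (nat_lit 411) (nat_lit 5) (nat_lit 400) (nat_lit 375) (nat_lit 245)) (XT.lf (nat_lit 0) (nat_lit 4400839765) (nat_lit 912) (nat_lit 4275169802) (nat_lit 76) (nat_lit 8675634931) (nat_lit 399) (nat_lit 5) (nat_lit 411) (nat_lit 5) (nat_lit 400) (nat_lit 5) (nat_lit 401) (nat_lit 375) (nat_lit 244))) (XT.nd (nat_lit 78) (nat_lit 1520) (nat_lit 0) (XT.lf (nat_lit 0) (nat_lit 8072228799) (nat_lit 836) (nat_lit 6983385434) (nat_lit 76) (nat_lit 2580047127) (nat_lit 389) (nat_lit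 5) (nat_lit 400) (nat_lit 5) (nat_lit 390) (nat_lit 5) (nat_lit 402) (nat_lit 375) (nat_lit 243)) (XT.nd (nat_lit 78) (nat_lit 760) (nat_lit 0) (XT.lf (nat_lit 0) (nat_lit 8191462814) (nat_lit 760) (nat_lit 3787641677) (nat_lit 836) (nat_lit 5946587337) (nat_lit 379) (nat_lit 5) (nat_lit 389) (nat_lit 5) (nat_lit 390) (nat_lit 5) (nat_lit 403) (nat_lit 375) (nat_lit 242)) (XT.lf (nat_lit 0) (nat_lit 5701140292) (nat_lit 760) (nat_lit 10422763206) (nat_lit 836) (nat_lit 2098105372) (nat_lit 369) (nat_lit 5) (nat_lit 379) (nat_lit 5) (nat_lit 380) (nat_lit 5) (nat_lit 404) (nat_lit 375) (nat_lit 241))))) (XT.nd (nat_lit 156) (nat_lit 1444) (nat_lit 0) (XT.nd (nat_lit 78) (nat_lit 684) (nat_lit 0) (XT.lf (nat_lit 0) (nat_lit 1947516307) (nat_lit 836) (nat_lit 15338380598) (nat_lit 76) (nat_lit 1238953114) (nat_lit 358) (nat_lit 5) (nat_lit 369) (nat_lit 5) (nat_lit 359) (nat_lit 5) (nat_lit 405) (nat_lit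 375) (nat_lit 240)) (XT.lf (nat_lit 0) (nat_lit 608862804) (nat_lit 684) (nat_lit 5622203786) (nat_lit 760) (nat_lit 12602531143) (nat_lit 349) (nat_lit 5) (nat_lit 358) (nat_lit 5) (nat_lit 359) (nat_lit 5) (nat_lit 406) (nat_lit 375) (nat_lit 239))) (XT.nd (nat_lit 78) (nat_lit 1444) (nat_lit 0) (XT.lf (nat_lit 0) (nat_lit 10775382951) (nat_lit 760) (nat_lit 1963402177) (nat_lit 76) (nat_lit 6410177559) (nat_lit 349) (nat_lit 5) (nat_lit 359) (nat_lit 5) (nat_lit 350) (nat_lit 5) (nat_lit 407) (nat_lit 375) (nat_lit 238)) (XT.nd (nat_lit 78) (nat_lit 760) (nat_lit 0) (XT.lf (nat_lit 0) (nat_lit 14928264901) (nat_lit 684) (nat_lit 648826383) (nat_lit 760) (nat_lit 3894276057) (nat_lit 340) (nat_lit 5) (nat_lit 349) (nat_lit 5) (nat_lit 350) (nat_lit 5) (nat_lit 408) (nat_lit 375) (nat_lit 237)) (XT.lf (nat_lit 0) (nat_lit 869831790) (nat_lit 760) (nat_lit 7182466210) (nat_lit 76) (nat_lit 11747855512)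 (nat_lit 330) (nat_lit 5) (nat_lit 340) (nat_lit 5) (nat_lit 331) (nat_lit 5) (nat_lit 409) (nat_lit 375) (nat_lit 236)))))) (XT.nd (nat_lit 390) (nat_lit 1748) (nat_lit 0) (XT.nd (nat_lit 156) (nat_lit 1900) (nat_lit 0) (XT.nd (nat_lit 78) (nat_lit 608) (nat_lit 0) (XT.lf (nat_lit 0) (nat_lit 5842685543) (nat_lit 760) (nat_lit 9859390672) (nat_lit 76) (nat_lit 4433837618) (nat_lit 321) (nat_lit 5) (nat_lit 331) (nat_lit 5) (nat_lit 322) (nat_lit 5) (nat_lit 410) (nat_lit 375) (nat_lit 235)) (XT.lf (nat_lit 0) (nat_lit 7910813401) (nat_lit 608) (nat_lit 3195392833) (nat_lit 684) (nat_lit 9372711104) (nat_lit 313) (nat_lit 5) (nat_lit 321) (nat_lit 5) (nat_lit 322) (nat_lit 5) (nat_lit 411) (nat_lit 375) (nat_lit 234))) (XT.nd (nat_lit 78) (nat_lit 1292) (nat_lit 0) (XT.lf (nat_lit 0) (nat_lit 5511590162) (nat_lit 608) (nat_lit 11169500286) (nat_lit 684) (nat_lit 4148051342) (nat_lit 305) (nat_lit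 5) (nat_lit 313) (nat_lit 5) (nat_lit 314) (nat_lit 5) (nat_lit 412) (nat_lit 375) (nat_lit 233)) (XT.nd (nat_lit 78) (nat_lit 608) (nat_lit 0) (XT.lf (nat_lit 0) (nat_lit 1343756270) (nat_lit 684) (nat_lit 18086026715) (nat_lit 76) (nat_lit 1757398162) (nat_lit 296) (nat_lit 5) (nat_lit 305) (nat_lit 5) (nat_lit 297) (nat_lit 5) (nat_lit 413) (nat_lit 375) (nat_lit 232)) (XT.lf (nat_lit 0) (nat_lit 617737125) (nat_lit 608) (nat_lit 6497686899) (nat_lit 684) (nat_lit 14436560057) (nat_lit 288) (nat_lit 5) (nat_lit 296) (nat_lit 5) (nat_lit 297) (nat_lit 5) (nat_lit 414) (nat_lit 375) (nat_lit 231))))) (XT.nd (nat_lit 156) (nat_lit 1216) (nat_lit 0) (XT.nd (nat_lit 78) (nat_lit 532) (nat_lit 0) (XT.lf (nat_lit 0) (nat_lit 13216085972) (nat_lit 684) (nat_lit 1855618910) (nat_lit 76) (nat_lit 6852909336) (nat_lit 288) (nat_lit 5) (nat_lit 297) (nat_lit 5) (nat_lit 289) (nat_lit 5) (nat_lit 415) (nat_lit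 375) (nat_lit 230)) (XT.lf (nat_lit 0) (nat_lit 17972668472) (nat_lit 532) (nat_lit 1675767494) (nat_lit 608) (nat_lit 2657013930) (nat_lit 281) (nat_lit 5) (nat_lit 288) (nat_lit 5) (nat_lit 289) (nat_lit 5) (nat_lit 416) (nat_lit 375) (nat_lit 229))) (XT.nd (nat_lit 78) (nat_lit 532) (nat_lit 0) (XT.lf (nat_lit 0) (nat_lit 3713288749) (nat_lit 684) (nat_lit 6880729667) (nat_lit 76) (nat_lit 12099544998) (nat_lit 272) (nat_lit 5) (nat_lit 281) (nat_lit 5) (nat_lit 273) (nat_lit 5) (nat_lit 417) (nat_lit 375) (nat_lit 228)) (XT.nd (nat_lit 49842) (nat_lit 0) (nat_lit 21280) (XT.lf (nat_lit 0) (nat_lit 10378663351) (nat_lit 608) (nat_lit 9447461319) (nat_lit 76) (nat_lit 3264043187) (nat_lit 265) (nat_lit 5) (nat_lit 273) (nat_lit 5) (nat_lit 266) (nat_lit 5) (nat_lit 418) (nat_lit 375) (nat_lit 227)) (XT.lf (nat_lit 0) (nat_lit 5920170984) (nat_lit 1748) (nat_lit 60548941) (nat_lit 1748) (nat_lit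 60548941) (nat_lit 545) (nat_lit 3) (nat_lit 568) (nat_lit 3) (nat_lit 568) (nat_lit 5) (nat_lit 376) (nat_lit 376) (nat_lit 268))))))) (XT.nd (nat_lit 780) (nat_lit 4940) (nat_lit 0) (XT.nd (nat_lit 390) (nat_lit 0) (nat_lit 304) (XT.nd (nat_lit 156) (nat_lit 0) (nat_lit 152) (XT.nd (nat_lit 78) (nat_lit 0) (nat_lit 76) (XT.lf (nat_lit 0) (nat_lit 517883292) (nat_lit 1748) (nat_lit 3194779043) (nat_lit 1824) (nat_lit 8535935628) (nat_lit 522) (nat_lit 5) (nat_lit 545) (nat_lit 3) (nat_lit 546) (nat_lit 5) (nat_lit 377) (nat_lit 376) (nat_lit 267)) (XT.lf (nat_lit 0) (nat_lit 1342215283) (nat_lit 1748) (nat_lit 6300122056) (nat_lit 1824) (nat_lit 4776375822) (nat_lit 523) (nat_lit 5) (nat_lit 546) (nat_lit 5) (nat_lit 547) (nat_lit 5) (nat_lit 378) (nat_lit 376) (nat_lit 266))) (XT.nd (nat_lit 78) (nat_lit 0) (nat_lit 0) (XT.lf (nat_lit 0) (nat_lit 2237812262) (nat_lit 1748) (nat_lit 9435858978)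 (nat_lit 1824) (nat_lit 919329872) (nat_lit 524) (nat_lit 5) (nat_lit 547) (nat_lit 5) (nat_lit 548) (nat_lit 5) (nat_lit 379) (nat_lit 376) (nat_lit 265)) (XT.nd (nat_lit 78) (nat_lit 0) (nat_lit 76) (XT.lf (nat_lit 76) (nat_lit 148096772) (nat_lit 0) (nat_lit 3081308578) (nat_lit 1824) (nat_lit 9541729789) (nat_lit 525) (nat_lit 5) (nat_lit 524) (nat_lit 5) (nat_lit 548) (nat_lit 5) (nat_lit 380) (nat_lit 376) (nat_lit 264)) (XT.lf (nat_lit 0) (nat_lit 4327374931) (nat_lit 1748) (nat_lit 2857961225) (nat_lit 1824) (nat_lit 5767744458) (nat_lit 525) (nat_lit 5) (nat_lit 548) (nat_lit 5) (nat_lit 549) (nat_lit 5) (nat_lit 381) (nat_lit 376) (nat_lit 263))))) (XT.nd (nat_lit 156) (nat_lit 0) (nat_lit 76) (XT.nd (nat_lit 78) (nat_lit 0) (nat_lit 0) (XT.lf (nat_lit 0) (nat_lit 5512982262) (nat_lit 1748) (nat_lit 5891387903) (nat_lit 1824) (nat_lit 1735020313) (nat_lit 526) (nat_lit 5) (nat_lit 549)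 (nat_lit 5) (nat_lit 550) (nat_lit 5) (nat_lit 382) (nat_lit 376) (nat_lit 262)) (XT.lf (nat_lit 76) (nat_lit 4359032903) (nat_lit 0) (nat_lit 2447191548) (nat_lit 1824) (nat_lit 6523623855) (nat_lit 527) (nat_lit 5) (nat_lit 526) (nat_lit 5) (nat_lit 550) (nat_lit 5) (nat_lit 383) (nat_lit 376) (nat_lit 261))) (XT.nd (nat_lit 78) (nat_lit 0) (nat_lit 76) (XT.lf (nat_lit 76) (nat_lit 1431294734) (nat_lit 0) (nat_lit 6777326380) (nat_lit 1824) (nat_lit 5315991612) (nat_lit 528) (nat_lit 5) (nat_lit 527) (nat_lit 5) (nat_lit 551) (nat_lit 5) (nat_lit 384) (nat_lit 376) (nat_lit 260)) (XT.nd (nat_lit 78) (nat_lit 0) (nat_lit 0) (XT.lf (nat_lit 0) (nat_lit 9723995381) (nat_lit 1748) (nat_lit 1504204589) (nat_lit 1824) (nat_lit 2495601992) (nat_lit 528) (nat_lit 5) (nat_lit 551) (nat_lit 5) (nat_lit 552) (nat_lit 5) (nat_lit 385) (nat_lit 376) (nat_lit 259)) (XT.lf (nat_lit 76) (nat_lit 9466036061) (nat_lit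 0) (nat_lit 1903720607) (nat_lit 1824) (nat_lit 2557511692) (nat_lit 529) (nat_lit 5) (nat_lit 528) (nat_lit 5) (nat_lit 552) (nat_lit 5) (nat_lit 386) (nat_lit 376) (nat_lit 258)))))) (XT.nd (nat_lit 390) (nat_lit 3724) (nat_lit 0) (XT.nd (nat_lit 156) (nat_lit 0) (nat_lit 0) (XT.nd (nat_lit 78) (nat_lit 1748) (nat_lit 0) (XT.lf (nat_lit 76) (nat_lit 6671179189) (nat_lit 0) (nat_lit 6476004181) (nat_lit 1824) (nat_lit 988009529) (nat_lit 530) (nat_lit 5) (nat_lit 529) (nat_lit 5) (nat_lit 553) (nat_lit 5) (nat_lit 387) (nat_lit 376) (nat_lit 257)) (XT.lf (nat_lit 0) (nat_lit 688491886) (nat_lit 1824) (nat_lit 10501122719) (nat_lit 1900) (nat_lit 3158295784) (nat_lit 506) (nat_lit 5) (nat_lit 530) (nat_lit 5) (nat_lit 531) (nat_lit 5) (nat_lit 388) (nat_lit 376) (nat_lit 256))) (XT.nd (nat_lit 78) (nat_lit 0) (nat_lit 76) (XT.lf (nat_lit 76) (nat_lit 979884119) (nat_lit 0) (nat_lit 1502286904) (nat_lit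 1900) (nat_lit 12083101649) (nat_lit 507) (nat_lit 5) (nat_lit 506) (nat_lit 5) (nat_lit 531) (nat_lit 5) (nat_lit 389) (nat_lit 376) (nat_lit 255)) (XT.nd (nat_lit 78) (nat_lit 0) (nat_lit 76) (XT.lf (nat_lit 0) (nat_lit 4436486168) (nat_lit 1824) (nat_lit 1910141211) (nat_lit 1900) (nat_lit 8440391932) (nat_lit 507) (nat_lit 5) (nat_lit 531) (nat_lit 5) (nat_lit 532) (nat_lit 5) (nat_lit 390) (nat_lit 376) (nat_lit 254)) (XT.lf (nat_lit 0) (nat_lit 6530736282) (nat_lit 1824) (nat_lit 4814509480) (nat_lit 1900) (nat_lit 3668546476) (nat_lit 508) (nat_lit 5) (nat_lit 532) (nat_lit 5) (nat_lit 533) (nat_lit 5) (nat_lit 391) (nat_lit 376) (nat_lit 253))))) (XT.nd (nat_lit 156) (nat_lit 2128) (nat_lit 0) (XT.nd (nat_lit 78) (nat_lit 1748) (nat_lit 0) (XT.lf (nat_lit 76) (nat_lit 7491092790) (nat_lit 0) (nat_lit 1282058769) (nat_lit 1900) (nat_lit 6472510042) (nat_lit 509) (nat_lit 5) (nat_lit 508) (nat_lit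 5) (nat_lit 533) (nat_lit 5) (nat_lit 392) (nat_lit 376) (nat_lit 252)) (XT.lf (nat_lit 0) (nat_lit 4735058765) (nat_lit 1824) (nat_lit 6452031522) (nat_lit 1900) (nat_lit 4295311737) (nat_lit 485) (nat_lit 5) (nat_lit 509) (nat_lit 5) (nat_lit 510) (nat_lit 5) (nat_lit 393) (nat_lit 376) (nat_lit 251))) (XT.nd (nat_lit 78) (nat_lit 988) (nat_lit 0) (XT.lf (nat_lit 0) (nat_lit 1955834750) (nat_lit 1140) (nat_lit 11799243455) (nat_lit 1216) (nat_lit 1969533835) (nat_lit 470) (nat_lit 5) (nat_lit 485) (nat_lit 5) (nat_lit 486) (nat_lit 5) (nat_lit 394) (nat_lit 376) (nat_lit 250)) (XT.nd (nat_lit 78) (nat_lit 912) (nat_lit 0) (XT.lf (nat_lit 0) (nat_lit 519332221) (nat_lit 1216) (nat_lit 847683878) (nat_lit 76) (nat_lit 14605038895) (nat_lit 469) (nat_lit 5) (nat_lit 485) (nat_lit 5) (nat_lit 470) (nat_lit 5) (nat_lit 395) (nat_lit 376) (nat_lit 249)) (XT.lf (nat_lit 0) (nat_lit 3182536011) (nat_lit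 988) (nat_lit 3689212888) (nat_lit 76) (nat_lit 9352383365) (nat_lit 457) (nat_lit 5) (nat_lit 470) (nat_lit 5) (nat_lit 458) (nat_lit 5) (nat_lit 396) (nat_lit 376) (nat_lit 248))))))))
noncomputable def xc112 : XT := (XT.nd (nat_lit 1482) (nat_lit 1216) (nat_lit 0) (XT.nd (nat_lit 702) (nat_lit 6156) (nat_lit 0) (XT.nd (nat_lit 312) (nat_lit 3192) (nat_lit 0) (XT.nd (nat_lit 156) (nat_lit 1748) (nat_lit 0) (XT.nd (nat_lit 78) (nat_lit 836) (nat_lit 0) (XT.lf (nat_lit 0) (nat_lit 6014282396) (nat_lit 988) (nat_lit 6555458151) (nat_lit 76) (nat_lit 3912258376) (nat_lit 445) (nat_lit 5) (nat_lit 458) (nat_lit 5) (nat_lit 446) (nat_lit 5) (nat_lit 397) (nat_lit 376) (nat_lit 247)) (XT.lf (nat_lit 0) (nat_lit 7288042341) (nat_lit 836) (nat_lit 1745132619) (nat_lit 912) (nat_lit 7712382745) (nat_lit 434) (nat_lit 5) (nat_lit 445) (nat_lit 5) (nat_lit 446) (nat_lit 5) (nat_lit 398) (nat_lit 376) (nat_lit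 246))) (XT.nd (nat_lit 78) (nat_lit 836) (nat_lit 0) (XT.lf (nat_lit 0) (nat_lit 4603818837) (nat_lit 912) (nat_lit 7658613742) (nat_lit 988) (nat_lit 4752194707) (nat_lit 422) (nat_lit 5) (nat_lit 434) (nat_lit 5) (nat_lit 435) (nat_lit 5) (nat_lit 399) (nat_lit 376) (nat_lit 245)) (XT.lf (nat_lit 0) (nat_lit 1900597842) (nat_lit 836) (nat_lit 13783472943) (nat_lit 912) (nat_lit 1605788112) (nat_lit 411) (nat_lit 5) (nat_lit 422) (nat_lit 5) (nat_lit 423) (nat_lit 5) (nat_lit 400) (nat_lit 376) (nat_lit 244)))) (XT.nd (nat_lit 156) (nat_lit 2280) (nat_lit 0) (XT.nd (nat_lit 78) (nat_lit 836) (nat_lit 0) (XT.lf (nat_lit 0) (nat_lit 1734186806) (nat_lit 912) (nat_lit 838485433) (nat_lit 76) (nat_lit 14998050514) (nat_lit 410) (nat_lit 5) (nat_lit 422) (nat_lit 5) (nat_lit 411) (nat_lit 5) (nat_lit 401) (nat_lit 376) (nat_lit 243)) (XT.lf (nat_lit 0) (nat_lit 5289725396) (nat_lit 912) (nat_lit 3606629524)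 (nat_lit 76) (nat_lit 8960701705) (nat_lit 399) (nat_lit 5) (nat_lit 411) (nat_lit 5) (nat_lit 400) (nat_lit 5) (nat_lit 402) (nat_lit 376) (nat_lit 242))) (XT.nd (nat_lit 78) (nat_lit 1520) (nat_lit 0) (XT.lf (nat_lit 0) (nat_lit 9054586452) (nat_lit 836) (nat_lit 6394506013) (nat_lit 76) (nat_lit 2700834921) (nat_lit 389) (nat_lit 5) (nat_lit 400) (nat_lit 5) (nat_lit 390) (nat_lit 5) (nat_lit 403) (nat_lit 376) (nat_lit 241)) (XT.nd (nat_lit 78) (nat_lit 760) (nat_lit 0) (XT.lf (nat_lit 0) (nat_lit 9222634900) (nat_lit 760) (nat_lit 3839574080) (nat_lit 836) (nat_lit 5386778976) (nat_lit 379) (nat_lit 5) (nat_lit 389) (nat_lit 5) (nat_lit 390) (nat_lit 5) (nat_lit 404) (nat_lit 376) (nat_lit 240)) (XT.lf (nat_lit 0) (nat_lit 6658705778) (nat_lit 760) (nat_lit 10657062218) (nat_lit 836) (nat_lit 1438738192) (nat_lit 369) (nat_lit 5) (nat_lit 379) (nat_lit 5) (nat_lit 380) (nat_lit 5) (nat_lit 405)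 (nat_lit 376) (nat_lit 239)))))) (XT.nd (nat_lit 390) (nat_lit 3192) (nat_lit 0) (XT.nd (nat_lit 156) (nat_lit 1444) (nat_lit 0) (XT.nd (nat_lit 78) (nat_lit 684) (nat_lit 0) (XT.lf (nat_lit 0) (nat_lit 2703658924) (nat_lit 836) (nat_lit 15002056473) (nat_lit 76) (nat_lit 1360925779) (nat_lit 358) (nat_lit 5) (nat_lit 369) (nat_lit 5) (nat_lit 359) (nat_lit 5) (nat_lit 406) (nat_lit 376) (nat_lit 238)) (XT.lf (nat_lit 0) (nat_lit 1410682361) (nat_lit 684) (nat_lit 5689798847) (nat_lit 760) (nat_lit 12284474805) (nat_lit 349) (nat_lit 5) (nat_lit 358) (nat_lit 5) (nat_lit 359) (nat_lit 5) (nat_lit 407) (nat_lit 376) (nat_lit 237))) (XT.nd (nat_lit 78) (nat_lit 1444) (nat_lit 0) (XT.lf (nat_lit 0) (nat_lit 11761886032) (nat_lit 760) (nat_lit 1248957538) (nat_lit 76) (nat_lit 6699323166) (nat_lit 349) (nat_lit 5) (nat_lit 359) (nat_lit 5) (nat_lit 350) (nat_lit 5) (nat_lit 408) (nat_lit 376) (nat_lit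 236)) (XT.nd (nat_lit 78) (nat_lit 760) (nat_lit 0) (XT.lf (nat_lit 0) (nat_lit 16136912920) (nat_lit 684) (nat_lit 556354597) (nat_lit 760) (nat_lit 3349263574) (nat_lit 340) (nat_lit 5) (nat_lit 349) (nat_lit 5) (nat_lit 350) (nat_lit 5) (nat_lit 409) (nat_lit 376) (nat_lit 235)) (XT.lf (nat_lit 0) (nat_lit 1535743952) (nat_lit 760) (nat_lit 6628928614) (nat_lit 76) (nat_lit 12216689208) (nat_lit 330) (nat_lit 5) (nat_lit 340) (nat_lit 5) (nat_lit 331) (nat_lit 5) (nat_lit 410) (nat_lit 376) (nat_lit 234))))) (XT.nd (nat_lit 156) (nat_lit 1900) (nat_lit 0) (XT.nd (nat_lit 78) (nat_lit 608) (nat_lit 0) (XT.lf (nat_lit 0) (nat_lit 6644906707) (nat_lit 760) (nat_lit 9386962148) (nat_lit 76) (nat_lit 4695583582) (nat_lit 321) (nat_lit 5) (nat_lit 331) (nat_lit 5) (nat_lit 322) (nat_lit 5) (nat_lit 411) (nat_lit 376) (nat_lit 233)) (XT.lf (nat_lit 0) (nat_lit 8903884748) (nat_lit 608) (nat_lit 3149094675)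 (nat_lit 684) (nat_lit 9028033695) (nat_lit 313) (nat_lit 5) (nat_lit 321) (nat_lit 5) (nat_lit 322) (nat_lit 5) (nat_lit 412) (nat_lit 376) (nat_lit 232))) (XT.nd (nat_lit 78) (nat_lit 1292) (nat_lit 0) (XT.lf (nat_lit 0) (nat_lit 6431588339) (nat_lit 608) (nat_lit 11351446162) (nat_lit 684) (nat_lit 3658951315) (nat_lit 305) (nat_lit 5) (nat_lit 313) (nat_lit 5) (nat_lit 314) (nat_lit 5) (nat_lit 413) (nat_lit 376) (nat_lit 231)) (XT.nd (nat_lit 78) (nat_lit 608) (nat_lit 0) (XT.lf (nat_lit 0) (nat_lit 1977822838) (nat_lit 684) (nat_lit 17867452774) (nat_lit 76) (nat_lit 1965645892) (nat_lit 296) (nat_lit 5) (nat_lit 305) (nat_lit 5) (nat_lit 297) (nat_lit 5) (nat_lit 414) (nat_lit 376) (nat_lit 230)) (XT.lf (nat_lit 0) (nat_lit 1385075150) (nat_lit 608) (nat_lit 6525133416) (nat_lit 684) (nat_lit 14276708600) (nat_lit 288) (nat_lit 5) (nat_lit 296) (nat_lit 5) (nat_lit 297) (nat_lit 5) (nat_lit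 415) (nat_lit 376) (nat_lit 229))))))) (XT.nd (nat_lit 50622) (nat_lit 0) (nat_lit 17708) (XT.nd (nat_lit 50232) (nat_lit 0) (nat_lit 19076) (XT.nd (nat_lit 156) (nat_lit 684) (nat_lit 0) (XT.nd (nat_lit 78) (nat_lit 532) (nat_lit 0) (XT.lf (nat_lit 0) (nat_lit 14178014415) (nat_lit 684) (nat_lit 1174059390) (nat_lit 76) (nat_lit 7218969923) (nat_lit 288) (nat_lit 5) (nat_lit 297) (nat_lit 5) (nat_lit 289) (nat_lit 5) (nat_lit 416) (nat_lit 376) (nat_lit 228)) (XT.lf (nat_lit 0) (nat_lit 19237115963) (nat_lit 532) (nat_lit 1554458566) (nat_lit 608) (nat_lit 2171965154) (nat_lit 281) (nat_lit 5) (nat_lit 288) (nat_lit 5) (nat_lit 289) (nat_lit 5) (nat_lit 417) (nat_lit 376) (nat_lit 227))) (XT.nd (nat_lit 49920) (nat_lit 0) (nat_lit 19000) (XT.lf (nat_lit 0) (nat_lit 4371622102) (nat_lit 684) (nat_lit 6356584147) (nat_lit 76) (nat_lit 12635225375) (nat_lit 272) (nat_lit 5) (nat_lit 281) (nat_lit 5)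 (nat_lit 273) (nat_lit 5) (nat_lit 418) (nat_lit 376) (nat_lit 226)) (XT.nd (nat_lit 78) (nat_lit 0) (nat_lit 0) (XT.lf (nat_lit 0) (nat_lit 287620553) (nat_lit 0) (nat_lit 287620553) (nat_lit 1748) (nat_lit 5633315301) (nat_lit 522) (nat_lit 5) (nat_lit 522) (nat_lit 3) (nat_lit 545) (nat_lit 3) (nat_lit 377) (nat_lit 377) (nat_lit 266)) (XT.lf (nat_lit 0) (nat_lit 1886588047) (nat_lit 1748) (nat_lit 2580276068) (nat_lit 1824) (nat_lit 8122128422) (nat_lit 522) (nat_lit 5) (nat_lit 545) (nat_lit 3) (nat_lit 546) (nat_lit 5) (nat_lit 378) (nat_lit 377) (nat_lit 265))))) (XT.nd (nat_lit 156) (nat_lit 0) (nat_lit 76) (XT.nd (nat_lit 78) (nat_lit 0) (nat_lit 76) (XT.lf (nat_lit 0) (nat_lit 2696752528) (nat_lit 1748) (nat_lit 5759916024) (nat_lit 1824) (nat_lit 4308320587) (nat_lit 523) (nat_lit 5) (nat_lit 546) (nat_lit 5) (nat_lit 547) (nat_lit 5) (nat_lit 379) (nat_lit 377) (nat_lit 264)) (XT.lf (nat_lit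 0) (nat_lit 3581938267) (nat_lit 1748) (nat_lit 8972285520) (nat_lit 1824) (nat_lit 391027527) (nat_lit 524) (nat_lit 5) (nat_lit 547) (nat_lit 5) (nat_lit 548) (nat_lit 5) (nat_lit 380) (nat_lit 377) (nat_lit 263))) (XT.nd (nat_lit 78) (nat_lit 0) (nat_lit 76) (XT.lf (nat_lit 76) (nat_lit 887075406) (nat_lit 0) (nat_lit 3683778904) (nat_lit 1824) (nat_lit 8558523548) (nat_lit 525) (nat_lit 5) (nat_lit 524) (nat_lit 5) (nat_lit 548) (nat_lit 5) (nat_lit 381) (nat_lit 377) (nat_lit 262)) (XT.nd (nat_lit 78) (nat_lit 0) (nat_lit 76) (XT.lf (nat_lit 0) (nat_lit 5662298449) (nat_lit 1748) (nat_lit 2203177220) (nat_lit 1824) (nat_lit 5452095317) (nat_lit 525) (nat_lit 5) (nat_lit 548) (nat_lit 5) (nat_lit 549) (nat_lit 5) (nat_lit 382) (nat_lit 377) (nat_lit 261)) (XT.lf (nat_lit 0) (nat_lit 6850206717) (nat_lit 1748) (nat_lit 5313228980) (nat_lit 1824) (nat_lit 1346699795) (nat_lit 526) (nat_lit 5) (nat_lit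 549) (nat_lit 5) (nat_lit 550) (nat_lit 5) (nat_lit 383) (nat_lit 377) (nat_lit 260)))))) (XT.nd (nat_lit 390) (nat_lit 0) (nat_lit 76) (XT.nd (nat_lit 156) (nat_lit 1596) (nat_lit 0) (XT.nd (nat_lit 78) (nat_lit 0) (nat_lit 76) (XT.lf (nat_lit 76) (nat_lit 5232457085) (nat_lit 0) (nat_lit 2920479768) (nat_lit 1824) (nat_lit 5553956388) (nat_lit 527) (nat_lit 5) (nat_lit 526) (nat_lit 5) (nat_lit 550) (nat_lit 5) (nat_lit 384) (nat_lit 377) (nat_lit 259)) (XT.lf (nat_lit 76) (nat_lit 2229872012) (nat_lit 0) (nat_lit 7336641444) (nat_lit 1824) (nat_lit 4341604977) (nat_lit 528) (nat_lit 5) (nat_lit 527) (nat_lit 5) (nat_lit 551) (nat_lit 5) (nat_lit 385) (nat_lit 377) (nat_lit 258))) (XT.nd (nat_lit 78) (nat_lit 1748) (nat_lit 0) (XT.lf (nat_lit 0) (nat_lit 11092727235) (nat_lit 1748) (nat_lit 791872019) (nat_lit 1824) (nat_lit 2229376527) (nat_lit 528) (nat_lit 5) (nat_lit 551) (nat_lit 5) (nat_lit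 552) (nat_lit 5) (nat_lit 386) (nat_lit 377) (nat_lit 257)) (XT.nd (nat_lit 78) (nat_lit 1748) (nat_lit 0) (XT.lf (nat_lit 76) (nat_lit 10495186983) (nat_lit 0) (nat_lit 2266143233) (nat_lit 1824) (nat_lit 1562746578) (nat_lit 529) (nat_lit 5) (nat_lit 528) (nat_lit 5) (nat_lit 552) (nat_lit 5) (nat_lit 387) (nat_lit 377) (nat_lit 256)) (XT.lf (nat_lit 0) (nat_lit 25337066) (nat_lit 1824) (nat_lit 6911944261) (nat_lit 1900) (nat_lit 7601506699) (nat_lit 505) (nat_lit 5) (nat_lit 529) (nat_lit 5) (nat_lit 530) (nat_lit 5) (nat_lit 388) (nat_lit 377) (nat_lit 255))))) (XT.nd (nat_lit 156) (nat_lit 0) (nat_lit 76) (XT.nd (nat_lit 78) (nat_lit 0) (nat_lit 0) (XT.lf (nat_lit 0) (nat_lit 1712103639) (nat_lit 1824) (nat_lit 10037556813) (nat_lit 1900) (nat_lit 3008628110) (nat_lit 506) (nat_lit 5) (nat_lit 530) (nat_lit 5) (nat_lit 531) (nat_lit 5) (nat_lit 389) (nat_lit 377) (nat_lit 254)) (XT.lf (nat_lit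 76) (nat_lit 1775248378) (nat_lit 0) (nat_lit 1760105604) (nat_lit 1900) (nat_lit 11447302515) (nat_lit 507) (nat_lit 5) (nat_lit 506) (nat_lit 5) (nat_lit 531) (nat_lit 5) (nat_lit 390) (nat_lit 377) (nat_lit 253))) (XT.nd (nat_lit 78) (nat_lit 0) (nat_lit 76) (XT.lf (nat_lit 0) (nat_lit 5518451153) (nat_lit 1824) (nat_lit 1203442141) (nat_lit 1900) (nat_lit 8489759189) (nat_lit 507) (nat_lit 5) (nat_lit 531) (nat_lit 5) (nat_lit 532) (nat_lit 5) (nat_lit 391) (nat_lit 377) (nat_lit 252)) (XT.nd (nat_lit 78) (nat_lit 0) (nat_lit 0) (XT.lf (nat_lit 0) (nat_lit 7651638706) (nat_lit 1824) (nat_lit 4187681235) (nat_lit 1900) (nat_lit 3606386459) (nat_lit 508) (nat_lit 5) (nat_lit 532) (nat_lit 5) (nat_lit 533) (nat_lit 5) (nat_lit 392) (nat_lit 377) (nat_lit 251)) (XT.lf (nat_lit 76) (nat_lit 8474576270) (nat_lit 0) (nat_lit 1464735309) (nat_lit 1900) (nat_lit 5745660561) (nat_lit 509) (nat_lit 5) (nat_lit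 508) (nat_lit 5) (nat_lit 533) (nat_lit 5) (nat_lit 393) (nat_lit 377) (nat_lit 250))))))))
noncomputable def xc113 : XT := (XT.nd (nat_lit 1482) (nat_lit 3040) (nat_lit 0) (XT.nd (nat_lit 702) (nat_lit 6764) (nat_lit 0) (XT.nd (nat_lit 312) (nat_lit 3572) (nat_lit 0) (XT.nd (nat_lit 156) (nat_lit 988) (nat_lit 0) (XT.nd (nat_lit 78) (nat_lit 1140) (nat_lit 0) (XT.lf (nat_lit 0) (nat_lit 5642238860) (nat_lit 1824) (nat_lit 6761188298) (nat_lit 1900) (nat_lit 3525832444) (nat_lit 485) (nat_lit 5) (nat_lit 509) (nat_lit 5) (nat_lit 510) (nat_lit 5) (nat_lit 394) (nat_lit 377) (nat_lit 249)) (XT.lf (nat_lit 0) (nat_lit 2785291884) (nat_lit 1140) (nat_lit 12241786433) (nat_lit 1216) (nat_lit 1152085128) (nat_lit 470) (nat_lit 5) (nat_lit 485) (nat_lit 5) (nat_lit 486) (nat_lit 5) (nat_lit 395) (nat_lit 377) (nat_lit 248))) (XT.nd (nat_lit 78) (nat_lit 912) (nat_lit 0) (XT.lf (nat_lit 0) (nat_lit 1374755693)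 (nat_lit 1216) (nat_lit 113621187) (nat_lit 76) (nat_lit 14946042893) (nat_lit 469) (nat_lit 5) (nat_lit 485) (nat_lit 5) (nat_lit 470) (nat_lit 5) (nat_lit 396) (nat_lit 377) (nat_lit 247)) (XT.lf (nat_lit 0) (nat_lit 4097770902) (nat_lit 988) (nat_lit 3035838913) (nat_lit 76) (nat_lit 9560851241) (nat_lit 457) (nat_lit 5) (nat_lit 470) (nat_lit 5) (nat_lit 458) (nat_lit 5) (nat_lit 397) (nat_lit 377) (nat_lit 246)))) (XT.nd (nat_lit 156) (nat_lit 1824) (nat_lit 0) (XT.nd (nat_lit 78) (nat_lit 836) (nat_lit 0) (XT.lf (nat_lit 0) (nat_lit 6995154606) (nat_lit 988) (nat_lit 5984133251) (nat_lit 76) (nat_lit 3981162159) (nat_lit 445) (nat_lit 5) (nat_lit 458) (nat_lit 5) (nat_lit 446) (nat_lit 5) (nat_lit 398) (nat_lit 377) (nat_lit 245)) (XT.lf (nat_lit 0) (nat_lit 8262212553) (nat_lit 836) (nat_lit 1823992894) (nat_lit 912) (nat_lit 7146078285) (nat_lit 434) (nat_lit 5) (nat_lit 445) (nat_lit 5)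 (nat_lit 446) (nat_lit 5) (nat_lit 399) (nat_lit 377) (nat_lit 244))) (XT.nd (nat_lit 78) (nat_lit 912) (nat_lit 0) (XT.lf (nat_lit 0) (nat_lit 5500761042) (nat_lit 912) (nat_lit 7893561755) (nat_lit 988) (nat_lit 4115462963) (nat_lit 422) (nat_lit 5) (nat_lit 434) (nat_lit 5) (nat_lit 435) (nat_lit 5) (nat_lit 400) (nat_lit 377) (nat_lit 243)) (XT.nd (nat_lit 78) (nat_lit 76) (nat_lit 0) (XT.lf (nat_lit 0) (nat_lit 2719197927) (nat_lit 836) (nat_lit 14182071277) (nat_lit 912) (nat_lit 892351935) (nat_lit 411) (nat_lit 5) (nat_lit 422) (nat_lit 5) (nat_lit 423) (nat_lit 5) (nat_lit 401) (nat_lit 377) (nat_lit 242)) (XT.lf (nat_lit 0) (nat_lit 2515941703) (nat_lit 912) (nat_lit 114542132) (nat_lit 76) (nat_lit 15452766015) (nat_lit 410) (nat_lit 5) (nat_lit 422) (nat_lit 5) (nat_lit 411) (nat_lit 5) (nat_lit 402) (nat_lit 377) (nat_lit 241)))))) (XT.nd (nat_lit 390) (nat_lit 2812) (nat_lit 0) (XT.nd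 (nat_lit 156) (nat_lit 2356) (nat_lit 0) (XT.nd (nat_lit 78) (nat_lit 760) (nat_lit 0) (XT.lf (nat_lit 0) (nat_lit 6161830710) (nat_lit 912) (nat_lit 2963772351) (nat_lit 76) (nat_lit 9252896991) (nat_lit 399) (nat_lit 5) (nat_lit 411) (nat_lit 5) (nat_lit 400) (nat_lit 5) (nat_lit 403) (nat_lit 377) (nat_lit 240)) (XT.lf (nat_lit 0) (nat_lit 10023924855) (nat_lit 836) (nat_lit 5833790543) (nat_lit 76) (nat_lit 2822755792) (nat_lit 389) (nat_lit 5) (nat_lit 400) (nat_lit 5) (nat_lit 390) (nat_lit 5) (nat_lit 404) (nat_lit 377) (nat_lit 239))) (XT.nd (nat_lit 78) (nat_lit 1596) (nat_lit 0) (XT.lf (nat_lit 0) (nat_lit 10239655356) (nat_lit 760) (nat_lit 3896606107) (nat_lit 836) (nat_lit 4852552406) (nat_lit 379) (nat_lit 5) (nat_lit 389) (nat_lit 5) (nat_lit 390) (nat_lit 5) (nat_lit 405) (nat_lit 377) (nat_lit 238)) (XT.nd (nat_lit 78) (nat_lit 836) (nat_lit 0) (XT.lf (nat_lit 0) (nat_lit 7599848116)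 (nat_lit 760) (nat_lit 10902889756) (nat_lit 836) (nat_lit 801053565) (nat_lit 369) (nat_lit 5) (nat_lit 379) (nat_lit 5) (nat_lit 380) (nat_lit 5) (nat_lit 406) (nat_lit 377) (nat_lit 237)) (XT.lf (nat_lit 0) (nat_lit 3442434002) (nat_lit 836) (nat_lit 14701363579) (nat_lit 76) (nat_lit 1481689524) (nat_lit 358) (nat_lit 5) (nat_lit 369) (nat_lit 5) (nat_lit 359) (nat_lit 5) (nat_lit 407) (nat_lit 377) (nat_lit 236))))) (XT.nd (nat_lit 156) (nat_lit 2128) (nat_lit 0) (XT.nd (nat_lit 78) (nat_lit 0) (nat_lit 0) (XT.lf (nat_lit 0) (nat_lit 2191577319) (nat_lit 684) (nat_lit 5765223651) (nat_lit 760) (nat_lit 11996837617) (nat_lit 349) (nat_lit 5) (nat_lit 358) (nat_lit 5) (nat_lit 359) (nat_lit 5) (nat_lit 408) (nat_lit 377) (nat_lit 235)) (XT.lf (nat_lit 0) (nat_lit 12739911425) (nat_lit 760) (nat_lit 557472825) (nat_lit 76) (nat_lit 6991584112) (nat_lit 349) (nat_lit 5) (nat_lit 359) (nat_lit 5)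 (nat_lit 350) (nat_lit 5) (nat_lit 409) (nat_lit 377) (nat_lit 234))) (XT.nd (nat_lit 78) (nat_lit 1444) (nat_lit 0) (XT.lf (nat_lit 0) (nat_lit 17338147344) (nat_lit 684) (nat_lit 467534275) (nat_lit 760) (nat_lit 2825893084) (nat_lit 340) (nat_lit 5) (nat_lit 349) (nat_lit 5) (nat_lit 350) (nat_lit 5) (nat_lit 410) (nat_lit 377) (nat_lit 233)) (XT.nd (nat_lit 78) (nat_lit 684) (nat_lit 0) (XT.lf (nat_lit 0) (nat_lit 2184905353) (nat_lit 760) (nat_lit 6102929300) (nat_lit 76) (nat_lit 12692906192) (nat_lit 330) (nat_lit 5) (nat_lit 340) (nat_lit 5) (nat_lit 331) (nat_lit 5) (nat_lit 411) (nat_lit 377) (nat_lit 232)) (XT.lf (nat_lit 0) (nat_lit 7435205550) (nat_lit 760) (nat_lit 8944459180) (nat_lit 76) (nat_lit 4957792247) (nat_lit 321) (nat_lit 5) (nat_lit 331) (nat_lit 5) (nat_lit 322) (nat_lit 5) (nat_lit 412) (nat_lit 377) (nat_lit 231))))))) (XT.nd (nat_lit 50700) (nat_lit 0) (nat_lit 17024)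 (XT.nd (nat_lit 390) (nat_lit 532) (nat_lit 0) (XT.nd (nat_lit 156) (nat_lit 1292) (nat_lit 0) (XT.nd (nat_lit 78) (nat_lit 608) (nat_lit 0) (XT.lf (nat_lit 0) (nat_lit 9883365269) (nat_lit 608) (nat_lit 3109568135) (nat_lit 684) (nat_lit 8708942815) (nat_lit 313) (nat_lit 5) (nat_lit 321) (nat_lit 5) (nat_lit 322) (nat_lit 5) (nat_lit 413) (nat_lit 377) (nat_lit 230)) (XT.lf (nat_lit 0) (nat_lit 7335866437) (nat_lit 608) (nat_lit 11547641228) (nat_lit 684) (nat_lit 3190398083) (nat_lit 305) (nat_lit 5) (nat_lit 313) (nat_lit 5) (nat_lit 314) (nat_lit 5) (nat_lit 414) (nat_lit 377) (nat_lit 229))) (XT.nd (nat_lit 78) (nat_lit 608) (nat_lit 0) (XT.lf (nat_lit 0) (nat_lit 2596827501) (nat_lit 684) (nat_lit 17686015011) (nat_lit 76) (nat_lit 2171213238) (nat_lit 296) (nat_lit 5) (nat_lit 305) (nat_lit 5) (nat_lit 297) (nat_lit 5) (nat_lit 415) (nat_lit 377) (nat_lit 228)) (XT.nd (nat_lit 78) (nat_lit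 0) (nat_lit 0) (XT.lf (nat_lit 0) (nat_lit 2132448793) (nat_lit 608) (nat_lit 6563017601) (nat_lit 684) (nat_lit 14146099255) (nat_lit 288) (nat_lit 5) (nat_lit 296) (nat_lit 5) (nat_lit 297) (nat_lit 5) (nat_lit 416) (nat_lit 377) (nat_lit 227)) (XT.lf (nat_lit 0) (nat_lit 15136341805) (nat_lit 684) (nat_lit 514372992) (nat_lit 76) (nat_lit 7586800502) (nat_lit 288) (nat_lit 5) (nat_lit 297) (nat_lit 5) (nat_lit 289) (nat_lit 5) (nat_lit 417) (nat_lit 377) (nat_lit 226))))) (XT.nd (nat_lit 50076) (nat_lit 0) (nat_lit 18316) (XT.nd (nat_lit 49998) (nat_lit 0) (nat_lit 18316) (XT.lf (nat_lit 0) (nat_lit 20497863562) (nat_lit 532) (nat_lit 1439359875) (nat_lit 608) (nat_lit 1704784403) (nat_lit 281) (nat_lit 5) (nat_lit 288) (nat_lit 5) (nat_lit 289) (nat_lit 5) (nat_lit 418) (nat_lit 377) (nat_lit 225)) (XT.lf (nat_lit 0) (nat_lit 625757761) (nat_lit 0) (nat_lit 625757761) (nat_lit 1748) (nat_lit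 5130117234) (nat_lit 522) (nat_lit 5) (nat_lit 522) (nat_lit 3) (nat_lit 545) (nat_lit 3) (nat_lit 378) (nat_lit 378) (nat_lit 264))) (XT.nd (nat_lit 78) (nat_lit 0) (nat_lit 76) (XT.lf (nat_lit 0) (nat_lit 3218676551) (nat_lit 1748) (nat_lit 1988114790) (nat_lit 1824) (nat_lit 7734361154) (nat_lit 522) (nat_lit 5) (nat_lit 545) (nat_lit 3) (nat_lit 546) (nat_lit 5) (nat_lit 379) (nat_lit 378) (nat_lit 263)) (XT.nd (nat_lit 78) (nat_lit 0) (nat_lit 0) (XT.lf (nat_lit 0) (nat_lit 4016481371) (nat_lit 1748) (nat_lit 5245363431) (nat_lit 1824) (nat_lit 3861317486) (nat_lit 523) (nat_lit 5) (nat_lit 546) (nat_lit 5) (nat_lit 547) (nat_lit 5) (nat_lit 380) (nat_lit 378) (nat_lit 262)) (XT.lf (nat_lit 76) (nat_lit 4771056123) (nat_lit 0) (nat_lit 122824844) (nat_lit 1824) (nat_lit 8415638194) (nat_lit 524) (nat_lit 5) (nat_lit 523) (nat_lit 5) (nat_lit 547) (nat_lit 5) (nat_lit 381) (nat_lit 378) (nat_lit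 261)))))) (XT.nd (nat_lit 390) (nat_lit 1444) (nat_lit 0) (XT.nd (nat_lit 156) (nat_lit 0) (nat_lit 152) (XT.nd (nat_lit 78) (nat_lit 0) (nat_lit 76) (XT.lf (nat_lit 76) (nat_lit 1606058043) (nat_lit 0) (nat_lit 4275045469) (nat_lit 1824) (nat_lit 7618693210) (nat_lit 525) (nat_lit 5) (nat_lit 524) (nat_lit 5) (nat_lit 548) (nat_lit 5) (nat_lit 382) (nat_lit 378) (nat_lit 260)) (XT.lf (nat_lit 0) (nat_lit 6968091873) (nat_lit 1748) (nat_lit 1571258736) (nat_lit 1824) (nat_lit 5155029018) (nat_lit 525) (nat_lit 5) (nat_lit 548) (nat_lit 5) (nat_lit 549) (nat_lit 5) (nat_lit 383) (nat_lit 378) (nat_lit 259))) (XT.nd (nat_lit 78) (nat_lit 0) (nat_lit 0) (XT.lf (nat_lit 0) (nat_lit 8160279785) (nat_lit 1748) (nat_lit 4761059670) (nat_lit 1824) (nat_lit 972008766) (nat_lit 526) (nat_lit 5) (nat_lit 549) (nat_lit 5) (nat_lit 550) (nat_lit 5) (nat_lit 384) (nat_lit 378) (nat_lit 258)) (XT.nd (nat_lit 78)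 (nat_lit 0) (nat_lit 76) (XT.lf (nat_lit 76) (nat_lit 6089452662) (nat_lit 0) (nat_lit 3385012319) (nat_lit 1824) (nat_lit 4622096258) (nat_lit 527) (nat_lit 5) (nat_lit 526) (nat_lit 5) (nat_lit 550) (nat_lit 5) (nat_lit 385) (nat_lit 378) (nat_lit 257)) (XT.lf (nat_lit 76) (nat_lit 3009029872) (nat_lit 0) (nat_lit 7892300374) (nat_lit 1824) (nat_lit 3403075311) (nat_lit 528) (nat_lit 5) (nat_lit 527) (nat_lit 5) (nat_lit 551) (nat_lit 5) (nat_lit 386) (nat_lit 378) (nat_lit 256))))) (XT.nd (nat_lit 156) (nat_lit 1748) (nat_lit 0) (XT.nd (nat_lit 78) (nat_lit 0) (nat_lit 0) (XT.lf (nat_lit 0) (nat_lit 12440696149) (nat_lit 1748) (nat_lit 101650701) (nat_lit 1824) (nat_lit 1974744462) (nat_lit 528) (nat_lit 5) (nat_lit 551) (nat_lit 5) (nat_lit 552) (nat_lit 5) (nat_lit 387) (nat_lit 378) (nat_lit 255)) (XT.lf (nat_lit 76) (nat_lit 11512436635) (nat_lit 0) (nat_lit 2621912438) (nat_lit 1824) (nat_lit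 599646447) (nat_lit 529) (nat_lit 5) (nat_lit 528) (nat_lit 5) (nat_lit 552) (nat_lit 5) (nat_lit 388) (nat_lit 378) (nat_lit 254))) (XT.nd (nat_lit 78) (nat_lit 0) (nat_lit 76) (XT.lf (nat_lit 0) (nat_lit 996631840) (nat_lit 1824) (nat_lit 6394085695) (nat_lit 1900) (nat_lit 7564823440) (nat_lit 505) (nat_lit 5) (nat_lit 529) (nat_lit 5) (nat_lit 530) (nat_lit 5) (nat_lit 389) (nat_lit 378) (nat_lit 253)) (XT.nd (nat_lit 78) (nat_lit 0) (nat_lit 0) (XT.lf (nat_lit 0) (nat_lit 2708849909) (nat_lit 1824) (nat_lit 9604778731) (nat_lit 1900) (nat_lit 2868500915) (nat_lit 506) (nat_lit 5) (nat_lit 530) (nat_lit 5) (nat_lit 531) (nat_lit 5) (nat_lit 390) (nat_lit 378) (nat_lit 252)) (XT.lf (nat_lit 76) (nat_lit 2550503882) (nat_lit 0) (nat_lit 2013446139) (nat_lit 1900) (nat_lit 10849735462) (nat_lit 507) (nat_lit 5) (nat_lit 506) (nat_lit 5) (nat_lit 531) (nat_lit 5) (nat_lit 391) (nat_lit 378) (nat_lit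 251))))))))
noncomputable def xc114 : XT := (XT.nd (nat_lit 1482) (nat_lit 3952) (nat_lit 0) (XT.nd (nat_lit 702) (nat_lit 7144) (nat_lit 0) (XT.nd (nat_lit 312) (nat_lit 3876) (nat_lit 0) (XT.nd (nat_lit 156) (nat_lit 1672) (nat_lit 0) (XT.nd (nat_lit 78) (nat_lit 0) (nat_lit 76) (XT.lf (nat_lit 0) (nat_lit 6578406045) (nat_lit 1824) (nat_lit 519399014) (nat_lit 1900) (nat_lit 8552308971) (nat_lit 507) (nat_lit 5) (nat_lit 531) (nat_lit 5) (nat_lit 532) (nat_lit 5) (nat_lit 392) (nat_lit 378) (nat_lit 250)) (XT.lf (nat_lit 0) (nat_lit 8753070547) (nat_lit 1824) (nat_lit 3586321823) (nat_lit 1900) (nat_lit 3552247568) (nat_lit 508) (nat_lit 5) (nat_lit 532) (nat_lit 5) (nat_lit 533) (nat_lit 5) (nat_lit 393) (nat_lit 378) (nat_lit 249))) (XT.nd (nat_lit 78) (nat_lit 1748) (nat_lit 0) (XT.lf (nat_lit 76) (nat_lit 9444008860) (nat_lit 0) (nat_lit 1644613628) (nat_lit 1900) (nat_lit 5049876185) (nat_lit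 509) (nat_lit 5) (nat_lit 508) (nat_lit 5) (nat_lit 533) (nat_lit 5) (nat_lit 394) (nat_lit 378) (nat_lit 248)) (XT.lf (nat_lit 0) (nat_lit 6532712862) (nat_lit 1824) (nat_lit 7072984103) (nat_lit 1900) (nat_lit 2784837085) (nat_lit 485) (nat_lit 5) (nat_lit 509) (nat_lit 5) (nat_lit 510) (nat_lit 5) (nat_lit 395) (nat_lit 378) (nat_lit 247)))) (XT.nd (nat_lit 156) (nat_lit 1748) (nat_lit 0) (XT.nd (nat_lit 78) (nat_lit 988) (nat_lit 0) (XT.lf (nat_lit 0) (nat_lit 3595386688) (nat_lit 1140) (nat_lit 12692521668) (nat_lit 1216) (nat_lit 360429640) (nat_lit 470) (nat_lit 5) (nat_lit 485) (nat_lit 5) (nat_lit 486) (nat_lit 5) (nat_lit 396) (nat_lit 378) (nat_lit 246)) (XT.lf (nat_lit 0) (nat_lit 606823971) (nat_lit 912) (nat_lit 1604747349) (nat_lit 988) (nat_lit 14699969587) (nat_lit 457) (nat_lit 5) (nat_lit 469) (nat_lit 5) (nat_lit 470) (nat_lit 5) (nat_lit 397) (nat_lit 378) (nat_lit 245))) (XT.nd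 (nat_lit 78) (nat_lit 1748) (nat_lit 0) (XT.lf (nat_lit 0) (nat_lit 4993405330) (nat_lit 988) (nat_lit 2406723336) (nat_lit 76) (nat_lit 9779712195) (nat_lit 457) (nat_lit 5) (nat_lit 470) (nat_lit 5) (nat_lit 458) (nat_lit 5) (nat_lit 398) (nat_lit 378) (nat_lit 244)) (XT.nd (nat_lit 78) (nat_lit 836) (nat_lit 0) (XT.lf (nat_lit 0) (nat_lit 7959504237) (nat_lit 988) (nat_lit 5439754293) (nat_lit 76) (nat_lit 4054915086) (nat_lit 445) (nat_lit 5) (nat_lit 458) (nat_lit 5) (nat_lit 446) (nat_lit 5) (nat_lit 399) (nat_lit 378) (nat_lit 243)) (XT.lf (nat_lit 0) (nat_lit 9222237420) (nat_lit 836) (nat_lit 1903697407) (nat_lit 912) (nat_lit 6608574553) (nat_lit 434) (nat_lit 5) (nat_lit 445) (nat_lit 5) (nat_lit 446) (nat_lit 5) (nat_lit 400) (nat_lit 378) (nat_lit 242)))))) (XT.nd (nat_lit 390) (nat_lit 3724) (nat_lit 0) (XT.nd (nat_lit 156) (nat_lit 1672) (nat_lit 0) (XT.nd (nat_lit 78) (nat_lit 836)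 (nat_lit 0) (XT.lf (nat_lit 0) (nat_lit 6381051702) (nat_lit 912) (nat_lit 8135260305) (nat_lit 988) (nat_lit 3504364135) (nat_lit 422) (nat_lit 5) (nat_lit 434) (nat_lit 5) (nat_lit 435) (nat_lit 5) (nat_lit 401) (nat_lit 378) (nat_lit 241)) (XT.lf (nat_lit 0) (nat_lit 3518638083) (nat_lit 836) (nat_lit 14593483218) (nat_lit 912) (nat_lit 201232191) (nat_lit 411) (nat_lit 5) (nat_lit 422) (nat_lit 5) (nat_lit 423) (nat_lit 5) (nat_lit 402) (nat_lit 378) (nat_lit 240))) (XT.nd (nat_lit 78) (nat_lit 760) (nat_lit 0) (XT.lf (nat_lit 0) (nat_lit 595933966) (nat_lit 836) (nat_lit 2687195032) (nat_lit 912) (nat_lit 15328784167) (nat_lit 399) (nat_lit 5) (nat_lit 410) (nat_lit 5) (nat_lit 411) (nat_lit 5) (nat_lit 403) (nat_lit 378) (nat_lit 239)) (XT.nd (nat_lit 78) (nat_lit 760) (nat_lit 0) (XT.lf (nat_lit 0) (nat_lit 7019146328) (nat_lit 912) (nat_lit 2344743153) (nat_lit 76) (nat_lit 9552516358) (nat_lit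 399) (nat_lit 5) (nat_lit 411) (nat_lit 5) (nat_lit 400) (nat_lit 5) (nat_lit 404) (nat_lit 378) (nat_lit 238)) (XT.lf (nat_lit 0) (nat_lit 10982292529) (nat_lit 836) (nat_lit 5299453096) (nat_lit 76) (nat_lit 2945986703) (nat_lit 389) (nat_lit 5) (nat_lit 400) (nat_lit 5) (nat_lit 390) (nat_lit 5) (nat_lit 405) (nat_lit 378) (nat_lit 237))))) (XT.nd (nat_lit 156) (nat_lit 2204) (nat_lit 0) (XT.nd (nat_lit 78) (nat_lit 760) (nat_lit 0) (XT.lf (nat_lit 0) (nat_lit 11244687801) (nat_lit 760) (nat_lit 3958687442) (nat_lit 836) (nat_lit 4342242525) (nat_lit 379) (nat_lit 5) (nat_lit 389) (nat_lit 5) (nat_lit 390) (nat_lit 5) (nat_lit 406) (nat_lit 378) (nat_lit 236)) (XT.lf (nat_lit 0) (nat_lit 8526666412) (nat_lit 760) (nat_lit 11160333382) (nat_lit 836) (nat_lit 183321790) (nat_lit 369) (nat_lit 5) (nat_lit 379) (nat_lit 5) (nat_lit 380) (nat_lit 5) (nat_lit 407) (nat_lit 378) (nat_lit 235))) (XT.nd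 (nat_lit 78) (nat_lit 1368) (nat_lit 0) (XT.lf (nat_lit 0) (nat_lit 4165619654) (nat_lit 836) (nat_lit 14434746283) (nat_lit 76) (nat_lit 1601487529) (nat_lit 358) (nat_lit 5) (nat_lit 369) (nat_lit 5) (nat_lit 359) (nat_lit 5) (nat_lit 408) (nat_lit 378) (nat_lit 234)) (XT.nd (nat_lit 78) (nat_lit 684) (nat_lit 0) (XT.lf (nat_lit 0) (nat_lit 2953501928) (nat_lit 684) (nat_lit 5848380039) (nat_lit 760) (nat_lit 11738238237) (nat_lit 349) (nat_lit 5) (nat_lit 358) (nat_lit 5) (nat_lit 359) (nat_lit 5) (nat_lit 409) (nat_lit 378) (nat_lit 233)) (XT.lf (nat_lit 0) (nat_lit 114412054) (nat_lit 684) (nat_lit 13597721116) (nat_lit 760) (nat_lit 7173703754) (nat_lit 340) (nat_lit 5) (nat_lit 349) (nat_lit 5) (nat_lit 350) (nat_lit 5) (nat_lit 410) (nat_lit 378) (nat_lit 232))))))) (XT.nd (nat_lit 50856) (nat_lit 0) (nat_lit 16416) (XT.nd (nat_lit 390) (nat_lit 1292) (nat_lit 0) (XT.nd (nat_lit 156) (nat_lit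 1900) (nat_lit 0) (XT.nd (nat_lit 78) (nat_lit 760) (nat_lit 0) (XT.lf (nat_lit 0) (nat_lit 18534252775) (nat_lit 684) (nat_lit 382106103) (nat_lit 760) (nat_lit 2322632929) (nat_lit 340) (nat_lit 5) (nat_lit 349) (nat_lit 5) (nat_lit 350) (nat_lit 5) (nat_lit 411) (nat_lit 378) (nat_lit 231)) (XT.lf (nat_lit 0) (nat_lit 2818921815) (nat_lit 760) (nat_lit 5602760348) (nat_lit 76) (nat_lit 13177111521) (nat_lit 330) (nat_lit 5) (nat_lit 340) (nat_lit 5) (nat_lit 331) (nat_lit 5) (nat_lit 412) (nat_lit 378) (nat_lit 230))) (XT.nd (nat_lit 78) (nat_lit 1216) (nat_lit 0) (XT.lf (nat_lit 0) (nat_lit 8215290317) (nat_lit 760) (nat_lit 8530248103) (nat_lit 76) (nat_lit 5220901693) (nat_lit 321) (nat_lit 5) (nat_lit 331) (nat_lit 5) (nat_lit 322) (nat_lit 5) (nat_lit 413) (nat_lit 378) (nat_lit 229)) (XT.nd (nat_lit 78) (nat_lit 608) (nat_lit 0) (XT.lf (nat_lit 0) (nat_lit 10851337600) (nat_lit 608) (nat_lit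 3076547910) (nat_lit 684) (nat_lit 8414143714) (nat_lit 313) (nat_lit 5) (nat_lit 321) (nat_lit 5) (nat_lit 322) (nat_lit 5) (nat_lit 414) (nat_lit 378) (nat_lit 228)) (XT.lf (nat_lit 0) (nat_lit 8226439601) (nat_lit 608) (nat_lit 11758008330) (nat_lit 684) (nat_lit 2740986289) (nat_lit 305) (nat_lit 5) (nat_lit 313) (nat_lit 5) (nat_lit 314) (nat_lit 5) (nat_lit 415) (nat_lit 378) (nat_lit 227))))) (XT.nd (nat_lit 50232) (nat_lit 0) (nat_lit 17784) (XT.nd (nat_lit 78) (nat_lit 608) (nat_lit 0) (XT.lf (nat_lit 0) (nat_lit 3202274957) (nat_lit 684) (nat_lit 17540319331) (nat_lit 76) (nat_lit 2374532281) (nat_lit 296) (nat_lit 5) (nat_lit 305) (nat_lit 5) (nat_lit 297) (nat_lit 5) (nat_lit 416) (nat_lit 378) (nat_lit 226)) (XT.lf (nat_lit 0) (nat_lit 2861726610) (nat_lit 608) (nat_lit 6611100685) (nat_lit 684) (nat_lit 14043655386) (nat_lit 288) (nat_lit 5) (nat_lit 296) (nat_lit 5) (nat_lit 297) (nat_lit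 5) (nat_lit 417) (nat_lit 378) (nat_lit 225))) (XT.nd (nat_lit 78) (nat_lit 0) (nat_lit 0) (XT.lf (nat_lit 0) (nat_lit 955123944) (nat_lit 0) (nat_lit 955123944) (nat_lit 1748) (nat_lit 4650410113) (nat_lit 522) (nat_lit 5) (nat_lit 522) (nat_lit 3) (nat_lit 545) (nat_lit 3) (nat_lit 379) (nat_lit 379) (nat_lit 262)) (XT.nd (nat_lit 78) (nat_lit 0) (nat_lit 76) (XT.lf (nat_lit 0) (nat_lit 4517509317) (nat_lit 1748) (nat_lit 1416624706) (nat_lit 1824) (nat_lit 7371207598) (nat_lit 522) (nat_lit 5) (nat_lit 545) (nat_lit 3) (nat_lit 546) (nat_lit 5) (nat_lit 380) (nat_lit 379) (nat_lit 261)) (XT.lf (nat_lit 0) (nat_lit 5304688384) (nat_lit 1748) (nat_lit 4754830967) (nat_lit 1824) (nat_lit 3433983555) (nat_lit 523) (nat_lit 5) (nat_lit 546) (nat_lit 5) (nat_lit 547) (nat_lit 5) (nat_lit 381) (nat_lit 379) (nat_lit 260)))))) (XT.nd (nat_lit 390) (nat_lit 1444) (nat_lit 0) (XT.nd (nat_lit 156) (nat_lit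 0) (nat_lit 152) (XT.nd (nat_lit 78) (nat_lit 0) (nat_lit 76) (XT.lf (nat_lit 76) (nat_lit 5551569874) (nat_lit 0) (nat_lit 626967355) (nat_lit 1824) (nat_lit 7507510711) (nat_lit 524) (nat_lit 5) (nat_lit 523) (nat_lit 5) (nat_lit 547) (nat_lit 5) (nat_lit 382) (nat_lit 379) (nat_lit 259)) (XT.lf (nat_lit 76) (nat_lit 2306865267) (nat_lit 0) (nat_lit 4856452831) (nat_lit 1824) (nat_lit 6719356896) (nat_lit 525) (nat_lit 5) (nat_lit 524) (nat_lit 5) (nat_lit 548) (nat_lit 5) (nat_lit 383) (nat_lit 379) (nat_lit 258))) (XT.nd (nat_lit 78) (nat_lit 0) (nat_lit 76) (XT.lf (nat_lit 0) (nat_lit 8247852387) (nat_lit 1748) (nat_lit 960451545) (nat_lit 1824) (nat_lit 4875492728) (nat_lit 525) (nat_lit 5) (nat_lit 548) (nat_lit 5) (nat_lit 549) (nat_lit 5) (nat_lit 384) (nat_lit 379) (nat_lit 257)) (XT.nd (nat_lit 78) (nat_lit 0) (nat_lit 0) (XT.lf (nat_lit 0) (nat_lit 9446248387) (nat_lit 1748) (nat_lit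 4233172090) (nat_lit 1824) (nat_lit 609904985) (nat_lit 526) (nat_lit 5) (nat_lit 549) (nat_lit 5) (nat_lit 550) (nat_lit 5) (nat_lit 385) (nat_lit 379) (nat_lit 256)) (XT.lf (nat_lit 76) (nat_lit 6931973986) (nat_lit 0) (nat_lit 3841844202) (nat_lit 1824) (nat_lit 3725337502) (nat_lit 527) (nat_lit 5) (nat_lit 526) (nat_lit 5) (nat_lit 550) (nat_lit 5) (nat_lit 386) (nat_lit 379) (nat_lit 255))))) (XT.nd (nat_lit 156) (nat_lit 1748) (nat_lit 0) (XT.nd (nat_lit 78) (nat_lit 0) (nat_lit 76) (XT.lf (nat_lit 76) (nat_lit 3770675732) (nat_lit 0) (nat_lit 8445366574) (nat_lit 1824) (nat_lit 2497741975) (nat_lit 528) (nat_lit 5) (nat_lit 527) (nat_lit 5) (nat_lit 551) (nat_lit 5) (nat_lit 387) (nat_lit 379) (nat_lit 254)) (XT.lf (nat_lit 76) (nat_lit 575844329) (nat_lit 0) (nat_lit 13198722673) (nat_lit 1824) (nat_lit 1158824051) (nat_lit 529) (nat_lit 5) (nat_lit 528) (nat_lit 5) (nat_lit 552) (nat_lit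 5) (nat_lit 388) (nat_lit 379) (nat_lit 253))) (XT.nd (nat_lit 78) (nat_lit 0) (nat_lit 76) (XT.lf (nat_lit 0) (nat_lit 329984242) (nat_lit 1824) (nat_lit 2639636077) (nat_lit 1900) (nat_lit 12187684875) (nat_lit 504) (nat_lit 5) (nat_lit 528) (nat_lit 5) (nat_lit 529) (nat_lit 5) (nat_lit 389) (nat_lit 379) (nat_lit 252)) (XT.nd (nat_lit 78) (nat_lit 0) (nat_lit 76) (XT.lf (nat_lit 0) (nat_lit 1941352796) (nat_lit 1824) (nat_lit 5902321788) (nat_lit 1900) (nat_lit 7542236179) (nat_lit 505) (nat_lit 5) (nat_lit 529) (nat_lit 5) (nat_lit 530) (nat_lit 5) (nat_lit 390) (nat_lit 379) (nat_lit 251)) (XT.lf (nat_lit 0) (nat_lit 3681229708) (nat_lit 1824) (nat_lit 9201146443) (nat_lit 1900) (nat_lit 2737395005) (nat_lit 506) (nat_lit 5) (nat_lit 530) (nat_lit 5) (nat_lit 531) (nat_lit 5) (nat_lit 391) (nat_lit 379) (nat_lit 250))))))))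
noncomputable def xc115 : XT := (XT.nd (nat_lit 1560) (nat_lit 3344) (nat_lit 0) (XT.nd (nat_lit 780) (nat_lit 7144) (nat_lit 0) (XT.nd (nat_lit 390) (nat_lit 3876) (nat_lit 0) (XT.nd (nat_lit 156) (nat_lit 1596) (nat_lit 0) (XT.nd (nat_lit 78) (nat_lit 0) (nat_lit 76) (XT.lf (nat_lit 76) (nat_lit 3307571410) (nat_lit 0) (nat_lit 2262875224) (nat_lit 1900) (nat_lit 10288257850) (nat_lit 507) (nat_lit 5) (nat_lit 506) (nat_lit 5) (nat_lit 531) (nat_lit 5) (nat_lit 392) (nat_lit 379) (nat_lit 249)) (XT.lf (nat_lit 76) (nat_lit 145737430) (nat_lit 0) (nat_lit 7474026081) (nat_lit 1900) (nat_lit 8482973834) (nat_lit 508) (nat_lit 5) (nat_lit 507) (nat_lit 5) (nat_lit 532) (nat_lit 5) (nat_lit 393) (nat_lit 379) (nat_lit 248))) (XT.nd (nat_lit 78) (nat_lit 1748) (nat_lit 0) (XT.lf (nat_lit 0) (nat_lit 9837495710) (nat_lit 1824) (nat_lit 3008653821) (nat_lit 1900) (nat_lit 3505802944) (nat_lit 508) (nat_lit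 5) (nat_lit 532) (nat_lit 5) (nat_lit 533) (nat_lit 5) (nat_lit 394) (nat_lit 379) (nat_lit 247)) (XT.nd (nat_lit 78) (nat_lit 1748) (nat_lit 0) (XT.lf (nat_lit 76) (nat_lit 10401469291) (nat_lit 0) (nat_lit 1822084998) (nat_lit 1900) (nat_lit 4383053881) (nat_lit 509) (nat_lit 5) (nat_lit 508) (nat_lit 5) (nat_lit 533) (nat_lit 5) (nat_lit 395) (nat_lit 379) (nat_lit 246)) (XT.lf (nat_lit 0) (nat_lit 7408500862) (nat_lit 1824) (nat_lit 7387879024) (nat_lit 1900) (nat_lit 2070219946) (nat_lit 485) (nat_lit 5) (nat_lit 509) (nat_lit 5) (nat_lit 510) (nat_lit 5) (nat_lit 396) (nat_lit 379) (nat_lit 245))))) (XT.nd (nat_lit 156) (nat_lit 1748) (nat_lit 0) (XT.nd (nat_lit 78) (nat_lit 912) (nat_lit 0) (XT.lf (nat_lit 0) (nat_lit 402202162) (nat_lit 1216) (nat_lit 12747085621) (nat_lit 76) (nat_lit 3983177043) (nat_lit 469) (nat_lit 5) (nat_lit 485) (nat_lit 5) (nat_lit 470) (nat_lit 5) (nat_lit 397)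 (nat_lit 379) (nat_lit 244)) (XT.lf (nat_lit 0) (nat_lit 1308796302) (nat_lit 912) (nat_lit 1719751708) (nat_lit 988) (nat_lit 14375326534) (nat_lit 457) (nat_lit 5) (nat_lit 469) (nat_lit 5) (nat_lit 470) (nat_lit 5) (nat_lit 398) (nat_lit 379) (nat_lit 243))) (XT.nd (nat_lit 78) (nat_lit 1748) (nat_lit 0) (XT.lf (nat_lit 0) (nat_lit 5871552575) (nat_lit 988) (nat_lit 1800076187) (nat_lit 76) (nat_lit 10009040424) (nat_lit 457) (nat_lit 5) (nat_lit 470) (nat_lit 5) (nat_lit 458) (nat_lit 5) (nat_lit 399) (nat_lit 379) (nat_lit 242)) (XT.nd (nat_lit 78) (nat_lit 836) (nat_lit 0) (XT.lf (nat_lit 0) (nat_lit 8909473258) (nat_lit 988) (nat_lit 4920598958) (nat_lit 76) (nat_lit 4133502931) (nat_lit 445) (nat_lit 5) (nat_lit 458) (nat_lit 5) (nat_lit 446) (nat_lit 5) (nat_lit 400) (nat_lit 379) (nat_lit 241)) (XT.lf (nat_lit 0) (nat_lit 10170182221) (nat_lit 836) (nat_lit 1984358830) (nat_lit 912) (nat_lit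 6098107046) (nat_lit 434) (nat_lit 5) (nat_lit 445) (nat_lit 5) (nat_lit 446) (nat_lit 5) (nat_lit 401) (nat_lit 379) (nat_lit 240)))))) (XT.nd (nat_lit 390) (nat_lit 3724) (nat_lit 0) (XT.nd (nat_lit 156) (nat_lit 1596) (nat_lit 0) (XT.nd (nat_lit 78) (nat_lit 912) (nat_lit 0) (XT.lf (nat_lit 0) (nat_lit 7246691783) (nat_lit 912) (nat_lit 8383929008) (nat_lit 988) (nat_lit 2917099248) (nat_lit 422) (nat_lit 5) (nat_lit 434) (nat_lit 5) (nat_lit 435) (nat_lit 5) (nat_lit 402) (nat_lit 379) (nat_lit 239)) (XT.lf (nat_lit 0) (nat_lit 463254890) (nat_lit 912) (nat_lit 14551680481) (nat_lit 76) (nat_lit 3834489527) (nat_lit 410) (nat_lit 5) (nat_lit 422) (nat_lit 5) (nat_lit 411) (nat_lit 5) (nat_lit 403) (nat_lit 379) (nat_lit 238))) (XT.nd (nat_lit 78) (nat_lit 760) (nat_lit 0) (XT.lf (nat_lit 0) (nat_lit 1288220726) (nat_lit 836) (nat_lit 2746135876) (nat_lit 912) (nat_lit 15122859284) (nat_lit 399)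 (nat_lit 5) (nat_lit 410) (nat_lit 5) (nat_lit 411) (nat_lit 5) (nat_lit 404) (nat_lit 379) (nat_lit 237)) (XT.nd (nat_lit 78) (nat_lit 760) (nat_lit 0) (XT.lf (nat_lit 0) (nat_lit 7863579419) (nat_lit 912) (nat_lit 1747781868) (nat_lit 76) (nat_lit 9859859554) (nat_lit 399) (nat_lit 5) (nat_lit 411) (nat_lit 5) (nat_lit 400) (nat_lit 5) (nat_lit 405) (nat_lit 379) (nat_lit 236)) (XT.lf (nat_lit 0) (nat_lit 11931659438) (nat_lit 836) (nat_lit 4789805183) (nat_lit 76) (nat_lit 3070701714) (nat_lit 389) (nat_lit 5) (nat_lit 400) (nat_lit 5) (nat_lit 390) (nat_lit 5) (nat_lit 406) (nat_lit 379) (nat_lit 235))))) (XT.nd (nat_lit 156) (nat_lit 2128) (nat_lit 0) (XT.nd (nat_lit 78) (nat_lit 836) (nat_lit 0) (XT.lf (nat_lit 0) (nat_lit 12239812189) (nat_lit 760) (nat_lit 4025777927) (nat_lit 836) (nat_lit 3854273913) (nat_lit 379) (nat_lit 5) (nat_lit 389) (nat_lit 5) (nat_lit 390) (nat_lit 5) (nat_lit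 407) (nat_lit 379) (nat_lit 234)) (XT.lf (nat_lit 0) (nat_lit 410644840) (nat_lit 836) (nat_lit 11016097631) (nat_lit 76) (nat_lit 9027773483) (nat_lit 368) (nat_lit 5) (nat_lit 379) (nat_lit 5) (nat_lit 369) (nat_lit 5) (nat_lit 408) (nat_lit 379) (nat_lit 233))) (XT.nd (nat_lit 78) (nat_lit 1368) (nat_lit 0) (XT.lf (nat_lit 0) (nat_lit 4874915354) (nat_lit 836) (nat_lit 14200752944) (nat_lit 76) (nat_lit 1720554231) (nat_lit 358) (nat_lit 5) (nat_lit 369) (nat_lit 5) (nat_lit 359) (nat_lit 5) (nat_lit 409) (nat_lit 379) (nat_lit 232)) (XT.nd (nat_lit 78) (nat_lit 684) (nat_lit 0) (XT.lf (nat_lit 0) (nat_lit 3698320852) (nat_lit 684) (nat_lit 5939186024) (nat_lit 760) (nat_lit 11507385566) (nat_lit 349) (nat_lit 5) (nat_lit 358) (nat_lit 5) (nat_lit 359) (nat_lit 5) (nat_lit 410) (nat_lit 379) (nat_lit 231)) (XT.lf (nat_lit 0) (nat_lit 774117242) (nat_lit 684) (nat_lit 13909095275) (nat_lit 760)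 (nat_lit 6818005209) (nat_lit 340) (nat_lit 5) (nat_lit 349) (nat_lit 5) (nat_lit 350) (nat_lit 5) (nat_lit 411) (nat_lit 379) (nat_lit 230))))))) (XT.nd (nat_lit 50934) (nat_lit 0) (nat_lit 15808) (XT.nd (nat_lit 390) (nat_lit 684) (nat_lit 0) (XT.nd (nat_lit 156) (nat_lit 1900) (nat_lit 0) (XT.nd (nat_lit 78) (nat_lit 760) (nat_lit 0) (XT.lf (nat_lit 0) (nat_lit 19727438441) (nat_lit 684) (nat_lit 299824165) (nat_lit 760) (nat_lit 1838030696) (nat_lit 340) (nat_lit 5) (nat_lit 349) (nat_lit 5) (nat_lit 350) (nat_lit 5) (nat_lit 412) (nat_lit 379) (nat_lit 229)) (XT.lf (nat_lit 0) (nat_lit 3439326308) (nat_lit 760) (nat_lit 5126808065) (nat_lit 76) (nat_lit 13669906385) (nat_lit 330) (nat_lit 5) (nat_lit 340) (nat_lit 5) (nat_lit 331) (nat_lit 5) (nat_lit 413) (nat_lit 379) (nat_lit 228))) (XT.nd (nat_lit 78) (nat_lit 1216) (nat_lit 0) (XT.lf (nat_lit 0) (nat_lit 8986801907) (nat_lit 760) (nat_lit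 8142791562) (nat_lit 76) (nat_lit 5485338792) (nat_lit 321) (nat_lit 5) (nat_lit 331) (nat_lit 5) (nat_lit 322) (nat_lit 5) (nat_lit 414) (nat_lit 379) (nat_lit 227)) (XT.nd (nat_lit 78) (nat_lit 608) (nat_lit 0) (XT.lf (nat_lit 0) (nat_lit 11809803897) (nat_lit 608) (nat_lit 3049787633) (nat_lit 684) (nat_lit 8142421182) (nat_lit 313) (nat_lit 5) (nat_lit 321) (nat_lit 5) (nat_lit 322) (nat_lit 5) (nat_lit 415) (nat_lit 379) (nat_lit 226)) (XT.lf (nat_lit 0) (nat_lit 9105240679) (nat_lit 608) (nat_lit 11982496968) (nat_lit 684) (nat_lit 2309384474) (nat_lit 305) (nat_lit 5) (nat_lit 313) (nat_lit 5) (nat_lit 314) (nat_lit 5) (nat_lit 416) (nat_lit 379) (nat_lit 225))))) (XT.nd (nat_lit 50310) (nat_lit 0) (nat_lit 17176) (XT.nd (nat_lit 50232) (nat_lit 0) (nat_lit 17176) (XT.lf (nat_lit 0) (nat_lit 3795602732) (nat_lit 684) (nat_lit 17429073798) (nat_lit 76) (nat_lit 2576018646) (nat_lit 296) (nat_lit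 5) (nat_lit 305) (nat_lit 5) (nat_lit 297) (nat_lit 5) (nat_lit 417) (nat_lit 379) (nat_lit 224)) (XT.lf (nat_lit 0) (nat_lit 1276541778) (nat_lit 0) (nat_lit 1276541778) (nat_lit 1748) (nat_lit 4192683620) (nat_lit 522) (nat_lit 5) (nat_lit 522) (nat_lit 3) (nat_lit 545) (nat_lit 3) (nat_lit 380) (nat_lit 380) (nat_lit 260))) (XT.nd (nat_lit 78) (nat_lit 0) (nat_lit 76) (XT.lf (nat_lit 0) (nat_lit 5786291708) (nat_lit 1748) (nat_lit 864219565) (nat_lit 1824) (nat_lit 7031325454) (nat_lit 522) (nat_lit 5) (nat_lit 545) (nat_lit 3) (nat_lit 546) (nat_lit 5) (nat_lit 381) (nat_lit 380) (nat_lit 259)) (XT.nd (nat_lit 78) (nat_lit 0) (nat_lit 0) (XT.lf (nat_lit 0) (nat_lit 6564510129) (nat_lit 1748) (nat_lit 4286774258) (nat_lit 1824) (nat_lit 3025009984) (nat_lit 523) (nat_lit 5) (nat_lit 546) (nat_lit 5) (nat_lit 547) (nat_lit 5) (nat_lit 382) (nat_lit 380) (nat_lit 258)) (XT.lf (nat_lit 76) (nat_lit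 6318910700) (nat_lit 0) (nat_lit 1117505818) (nat_lit 1824) (nat_lit 6638762397) (nat_lit 524) (nat_lit 5) (nat_lit 523) (nat_lit 5) (nat_lit 547) (nat_lit 5) (nat_lit 383) (nat_lit 380) (nat_lit 257)))))) (XT.nd (nat_lit 390) (nat_lit 1520) (nat_lit 0) (XT.nd (nat_lit 156) (nat_lit 0) (nat_lit 152) (XT.nd (nat_lit 78) (nat_lit 0) (nat_lit 76) (XT.lf (nat_lit 76) (nat_lit 2991233336) (nat_lit 0) (nat_lit 5429289405) (nat_lit 1824) (nat_lit 5857786401) (nat_lit 525) (nat_lit 5) (nat_lit 524) (nat_lit 5) (nat_lit 548) (nat_lit 5) (nat_lit 384) (nat_lit 380) (nat_lit 256)) (XT.lf (nat_lit 0) (nat_lit 9504542138) (nat_lit 1748) (nat_lit 369088870) (nat_lit 1824) (nat_lit 4612494469) (nat_lit 525) (nat_lit 5) (nat_lit 548) (nat_lit 5) (nat_lit 549) (nat_lit 5) (nat_lit 385) (nat_lit 380) (nat_lit 255))) (XT.nd (nat_lit 78) (nat_lit 0) (nat_lit 0) (XT.lf (nat_lit 0) (nat_lit 10711029192) (nat_lit 1748)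 (nat_lit 3727949919) (nat_lit 1824) (nat_lit 259398248) (nat_lit 526) (nat_lit 5) (nat_lit 549) (nat_lit 5) (nat_lit 550) (nat_lit 5) (nat_lit 386) (nat_lit 380) (nat_lit 254)) (XT.nd (nat_lit 78) (nat_lit 0) (nat_lit 76) (XT.lf (nat_lit 76) (nat_lit 7761893565) (nat_lit 0) (nat_lit 4291986430) (nat_lit 1824) (nat_lit 2861113422) (nat_lit 527) (nat_lit 5) (nat_lit 526) (nat_lit 5) (nat_lit 550) (nat_lit 5) (nat_lit 387) (nat_lit 380) (nat_lit 253)) (XT.lf (nat_lit 76) (nat_lit 4516631298) (nat_lit 0) (nat_lit 8996868008) (nat_lit 1824) (nat_lit 1623078989) (nat_lit 528) (nat_lit 5) (nat_lit 527) (nat_lit 5) (nat_lit 551) (nat_lit 5) (nat_lit 388) (nat_lit 380) (nat_lit 252))))) (XT.nd (nat_lit 156) (nat_lit 0) (nat_lit 76) (XT.nd (nat_lit 78) (nat_lit 1824) (nat_lit 0) (XT.lf (nat_lit 76) (nat_lit 1235909709) (nat_lit 0) (nat_lit 13858048310) (nat_lit 1824) (nat_lit 269311685) (nat_lit 529) (nat_lit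 5) (nat_lit 528) (nat_lit 5) (nat_lit 552) (nat_lit 5) (nat_lit 389) (nat_lit 380) (nat_lit 251)) (XT.lf (nat_lit 0) (nat_lit 1225471173) (nat_lit 1824) (nat_lit 2082988160) (nat_lit 1900) (nat_lit 12285853268) (nat_lit 504) (nat_lit 5) (nat_lit 528) (nat_lit 5) (nat_lit 529) (nat_lit 5) (nat_lit 390) (nat_lit 380) (nat_lit 250))) (XT.nd (nat_lit 78) (nat_lit 0) (nat_lit 76) (XT.lf (nat_lit 0) (nat_lit 2861900856) (nat_lit 1824) (nat_lit 5435045624) (nat_lit 1900) (nat_lit 7533295456) (nat_lit 505) (nat_lit 5) (nat_lit 529) (nat_lit 5) (nat_lit 530) (nat_lit 5) (nat_lit 391) (nat_lit 380) (nat_lit 249)) (XT.nd (nat_lit 78) (nat_lit 0) (nat_lit 0) (XT.lf (nat_lit 0) (nat_lit 4631627293) (nat_lit 1824) (nat_lit 8825115939) (nat_lit 1900) (nat_lit 2614821844) (nat_lit 506) (nat_lit 5) (nat_lit 530) (nat_lit 5) (nat_lit 531) (nat_lit 5) (nat_lit 392) (nat_lit 380) (nat_lit 248)) (XT.lf (nat_lit 76) (nat_lit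 4048284471) (nat_lit 0) (nat_lit 2508936334) (nat_lit 1900) (nat_lit 9760851598) (nat_lit 507) (nat_lit 5) (nat_lit 506) (nat_lit 5) (nat_lit 531) (nat_lit 5) (nat_lit 393) (nat_lit 380) (nat_lit 247))))))))
noncomputable def xc116 : XT := (XT.nd (nat_lit 1482) (nat_lit 2660) (nat_lit 0) (XT.nd (nat_lit 702) (nat_lit 7144) (nat_lit 0) (XT.nd (nat_lit 312) (nat_lit 3876) (nat_lit 0) (XT.nd (nat_lit 156) (nat_lit 1672) (nat_lit 0) (XT.nd (nat_lit 78) (nat_lit 0) (nat_lit 76) (XT.lf (nat_lit 76) (nat_lit 798453441) (nat_lit 0) (nat_lit 7848776476) (nat_lit 1900) (nat_lit 7922612078) (nat_lit 508) (nat_lit 5) (nat_lit 507) (nat_lit 5) (nat_lit 532) (nat_lit 5) (nat_lit 394) (nat_lit 380) (nat_lit 246)) (XT.lf (nat_lit 0) (nat_lit 10907277050) (nat_lit 1824) (nat_lit 2452992371) (nat_lit 1900) (nat_lit 3466748498) (nat_lit 508) (nat_lit 5) (nat_lit 532) (nat_lit 5) (nat_lit 533) (nat_lit 5) (nat_lit 395)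 (nat_lit 380) (nat_lit 245))) (XT.nd (nat_lit 78) (nat_lit 1748) (nat_lit 0) (XT.lf (nat_lit 76) (nat_lit 11348955133) (nat_lit 0) (nat_lit 1997525154) (nat_lit 1900) (nat_lit 3743201742) (nat_lit 509) (nat_lit 5) (nat_lit 508) (nat_lit 5) (nat_lit 533) (nat_lit 5) (nat_lit 396) (nat_lit 380) (nat_lit 244)) (XT.lf (nat_lit 0) (nat_lit 8271538821) (nat_lit 1824) (nat_lit 7706325082) (nat_lit 1900) (nat_lit 1379982071) (nat_lit 485) (nat_lit 5) (nat_lit 509) (nat_lit 5) (nat_lit 510) (nat_lit 5) (nat_lit 397) (nat_lit 380) (nat_lit 243)))) (XT.nd (nat_lit 156) (nat_lit 1748) (nat_lit 0) (XT.nd (nat_lit 78) (nat_lit 912) (nat_lit 0) (XT.lf (nat_lit 0) (nat_lit 1138724613) (nat_lit 1216) (nat_lit 12474352678) (nat_lit 76) (nat_lit 4018872353) (nat_lit 469) (nat_lit 5) (nat_lit 485) (nat_lit 5) (nat_lit 470) (nat_lit 5) (nat_lit 398) (nat_lit 380) (nat_lit 242)) (XT.lf (nat_lit 0) (nat_lit 1992576745)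 (nat_lit 912) (nat_lit 1834368048) (nat_lit 988) (nat_lit 14084895180) (nat_lit 457) (nat_lit 5) (nat_lit 469) (nat_lit 5) (nat_lit 470) (nat_lit 5) (nat_lit 399) (nat_lit 380) (nat_lit 241))) (XT.nd (nat_lit 78) (nat_lit 1748) (nat_lit 0) (XT.lf (nat_lit 0) (nat_lit 6734234250) (nat_lit 988) (nat_lit 1214198324) (nat_lit 76) (nat_lit 10248925985) (nat_lit 457) (nat_lit 5) (nat_lit 470) (nat_lit 5) (nat_lit 458) (nat_lit 5) (nat_lit 400) (nat_lit 380) (nat_lit 240)) (XT.nd (nat_lit 78) (nat_lit 836) (nat_lit 0) (XT.lf (nat_lit 0) (nat_lit 9847116485) (nat_lit 988) (nat_lit 4425038527) (nat_lit 76) (nat_lit 4216920209) (nat_lit 445) (nat_lit 5) (nat_lit 458) (nat_lit 5) (nat_lit 446) (nat_lit 5) (nat_lit 401) (nat_lit 380) (nat_lit 239)) (XT.lf (nat_lit 0) (nat_lit 11108031282) (nat_lit 836) (nat_lit 2066088201) (nat_lit 912) (nat_lit 5613009213) (nat_lit 434) (nat_lit 5) (nat_lit 445) (nat_lit 5)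 (nat_lit 446) (nat_lit 5) (nat_lit 402) (nat_lit 380) (nat_lit 238)))))) (XT.nd (nat_lit 390) (nat_lit 3724) (nat_lit 0) (XT.nd (nat_lit 156) (nat_lit 1596) (nat_lit 0) (XT.nd (nat_lit 78) (nat_lit 912) (nat_lit 0) (XT.lf (nat_lit 0) (nat_lit 8099598738) (nat_lit 912) (nat_lit 8639793088) (nat_lit 988) (nat_lit 2351962766) (nat_lit 422) (nat_lit 5) (nat_lit 434) (nat_lit 5) (nat_lit 435) (nat_lit 5) (nat_lit 403) (nat_lit 380) (nat_lit 237)) (XT.lf (nat_lit 0) (nat_lit 1106623435) (nat_lit 912) (nat_lit 14342052498) (nat_lit 76) (nat_lit 3953642294) (nat_lit 410) (nat_lit 5) (nat_lit 422) (nat_lit 5) (nat_lit 411) (nat_lit 5) (nat_lit 404) (nat_lit 380) (nat_lit 236))) (XT.nd (nat_lit 78) (nat_lit 760) (nat_lit 0) (XT.lf (nat_lit 0) (nat_lit 1962562268) (nat_lit 836) (nat_lit 2808089178) (nat_lit 912) (nat_lit 14948975632) (nat_lit 399) (nat_lit 5) (nat_lit 410) (nat_lit 5) (nat_lit 411) (nat_lit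 5) (nat_lit 405) (nat_lit 380) (nat_lit 235)) (XT.nd (nat_lit 78) (nat_lit 760) (nat_lit 0) (XT.lf (nat_lit 0) (nat_lit 8696959420) (nat_lit 912) (nat_lit 1171217699) (nat_lit 76) (nat_lit 10175230894) (nat_lit 399) (nat_lit 5) (nat_lit 411) (nat_lit 5) (nat_lit 400) (nat_lit 5) (nat_lit 406) (nat_lit 380) (nat_lit 234)) (XT.lf (nat_lit 0) (nat_lit 12873922665) (nat_lit 836) (nat_lit 4303250017) (nat_lit 76) (nat_lit 3197072374) (nat_lit 389) (nat_lit 5) (nat_lit 400) (nat_lit 5) (nat_lit 390) (nat_lit 5) (nat_lit 407) (nat_lit 380) (nat_lit 233))))) (XT.nd (nat_lit 156) (nat_lit 2128) (nat_lit 0) (XT.nd (nat_lit 78) (nat_lit 836) (nat_lit 0) (XT.lf (nat_lit 0) (nat_lit 13227030829) (nat_lit 760) (nat_lit 4097847204) (nat_lit 836) (nat_lit 3387155512) (nat_lit 379) (nat_lit 5) (nat_lit 389) (nat_lit 5) (nat_lit 390) (nat_lit 5) (nat_lit 408) (nat_lit 380) (nat_lit 232)) (XT.lf (nat_lit 0) (nat_lit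 985684384) (nat_lit 836) (nat_lit 10718207251) (nat_lit 76) (nat_lit 9353005394) (nat_lit 368) (nat_lit 5) (nat_lit 379) (nat_lit 5) (nat_lit 369) (nat_lit 5) (nat_lit 409) (nat_lit 380) (nat_lit 231))) (XT.nd (nat_lit 78) (nat_lit 1368) (nat_lit 0) (XT.lf (nat_lit 0) (nat_lit 5571947158) (nat_lit 836) (nat_lit 13998030384) (nat_lit 76) (nat_lit 1839115975) (nat_lit 358) (nat_lit 5) (nat_lit 369) (nat_lit 5) (nat_lit 359) (nat_lit 5) (nat_lit 410) (nat_lit 380) (nat_lit 230)) (XT.nd (nat_lit 78) (nat_lit 684) (nat_lit 0) (XT.lf (nat_lit 0) (nat_lit 4427814982) (nat_lit 684) (nat_lit 6037575182) (nat_lit 760) (nat_lit 11303073889) (nat_lit 349) (nat_lit 5) (nat_lit 358) (nat_lit 5) (nat_lit 359) (nat_lit 5) (nat_lit 411) (nat_lit 380) (nat_lit 229)) (XT.lf (nat_lit 0) (nat_lit 1415940840) (nat_lit 684) (nat_lit 14235353452) (nat_lit 760) (nat_lit 6484408258) (nat_lit 340) (nat_lit 5) (nat_lit 349)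 (nat_lit 5) (nat_lit 350) (nat_lit 5) (nat_lit 412) (nat_lit 380) (nat_lit 228))))))) (XT.nd (nat_lit 51012) (nat_lit 0) (nat_lit 15124) (XT.nd (nat_lit 50622) (nat_lit 0) (nat_lit 16492) (XT.nd (nat_lit 156) (nat_lit 1900) (nat_lit 0) (XT.nd (nat_lit 78) (nat_lit 760) (nat_lit 0) (XT.lf (nat_lit 0) (nat_lit 20919844198) (nat_lit 684) (nat_lit 220455122) (nat_lit 760) (nat_lit 1370708405) (nat_lit 340) (nat_lit 5) (nat_lit 349) (nat_lit 5) (nat_lit 350) (nat_lit 5) (nat_lit 413) (nat_lit 380) (nat_lit 227)) (XT.lf (nat_lit 0) (nat_lit 4047583710) (nat_lit 760) (nat_lit 4673547462) (nat_lit 76) (nat_lit 14171889257) (nat_lit 330) (nat_lit 5) (nat_lit 340) (nat_lit 5) (nat_lit 331) (nat_lit 5) (nat_lit 414) (nat_lit 380) (nat_lit 226))) (XT.nd (nat_lit 78) (nat_lit 1216) (nat_lit 0) (XT.lf (nat_lit 0) (nat_lit 9751318661) (nat_lit 760) (nat_lit 7780643048) (nat_lit 76) (nat_lit 5751520265) (nat_lit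 321) (nat_lit 5) (nat_lit 331) (nat_lit 5) (nat_lit 322) (nat_lit 5) (nat_lit 415) (nat_lit 380) (nat_lit 225)) (XT.nd (nat_lit 78) (nat_lit 608) (nat_lit 0) (XT.lf (nat_lit 0) (nat_lit 12760691631) (nat_lit 608) (nat_lit 3029058890) (nat_lit 684) (nat_lit 7892635147) (nat_lit 313) (nat_lit 5) (nat_lit 321) (nat_lit 5) (nat_lit 322) (nat_lit 5) (nat_lit 416) (nat_lit 380) (nat_lit 224)) (XT.lf (nat_lit 0) (nat_lit 9974125951) (nat_lit 608) (nat_lit 12221082432) (nat_lit 684) (nat_lit 1894330630) (nat_lit 305) (nat_lit 5) (nat_lit 313) (nat_lit 5) (nat_lit 314) (nat_lit 5) (nat_lit 417) (nat_lit 380) (nat_lit 223))))) (XT.nd (nat_lit 156) (nat_lit 0) (nat_lit 76) (XT.nd (nat_lit 78) (nat_lit 0) (nat_lit 0) (XT.lf (nat_lit 0) (nat_lit 1590796289) (nat_lit 0) (nat_lit 1590796289) (nat_lit 1748) (nat_lit 3755509283) (nat_lit 522) (nat_lit 5) (nat_lit 522) (nat_lit 3) (nat_lit 545) (nat_lit 3) (nat_lit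 381) (nat_lit 381) (nat_lit 258)) (XT.lf (nat_lit 0) (nat_lit 7028083977) (nat_lit 1748) (nat_lit 329392187) (nat_lit 1824) (nat_lit 6713451595) (nat_lit 522) (nat_lit 5) (nat_lit 545) (nat_lit 3) (nat_lit 546) (nat_lit 5) (nat_lit 382) (nat_lit 381) (nat_lit 257))) (XT.nd (nat_lit 78) (nat_lit 0) (nat_lit 0) (XT.lf (nat_lit 0) (nat_lit 7798942928) (nat_lit 1748) (nat_lit 3839732620) (nat_lit 1824) (nat_lit 2633157704) (nat_lit 523) (nat_lit 5) (nat_lit 546) (nat_lit 5) (nat_lit 547) (nat_lit 5) (nat_lit 383) (nat_lit 381) (nat_lit 256)) (XT.nd (nat_lit 78) (nat_lit 0) (nat_lit 76) (XT.lf (nat_lit 76) (nat_lit 7074783732) (nat_lit 0) (nat_lit 1595681235) (nat_lit 1824) (nat_lit 5806750195) (nat_lit 524) (nat_lit 5) (nat_lit 523) (nat_lit 5) (nat_lit 547) (nat_lit 5) (nat_lit 384) (nat_lit 381) (nat_lit 255)) (XT.lf (nat_lit 76) (nat_lit 3660819625) (nat_lit 0) (nat_lit 5994791322) (nat_lit 1824)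 (nat_lit 5031398019) (nat_lit 525) (nat_lit 5) (nat_lit 524) (nat_lit 5) (nat_lit 548) (nat_lit 5) (nat_lit 385) (nat_lit 381) (nat_lit 254)))))) (XT.nd (nat_lit 390) (nat_lit 0) (nat_lit 0) (XT.nd (nat_lit 156) (nat_lit 1596) (nat_lit 0) (XT.nd (nat_lit 78) (nat_lit 0) (nat_lit 0) (XT.lf (nat_lit 76) (nat_lit 207130587) (nat_lit 0) (nat_lit 10535211504) (nat_lit 1824) (nat_lit 4159313876) (nat_lit 526) (nat_lit 5) (nat_lit 525) (nat_lit 5) (nat_lit 549) (nat_lit 5) (nat_lit 386) (nat_lit 381) (nat_lit 253)) (XT.lf (nat_lit 76) (nat_lit 11876424709) (nat_lit 0) (nat_lit 81522014) (nat_lit 1824) (nat_lit 3162870225) (nat_lit 526) (nat_lit 5) (nat_lit 525) (nat_lit 5) (nat_lit 549) (nat_lit 5) (nat_lit 387) (nat_lit 381) (nat_lit 252))) (XT.nd (nat_lit 78) (nat_lit 1672) (nat_lit 0) (XT.lf (nat_lit 76) (nat_lit 8581007662) (nat_lit 0) (nat_lit 4736409046) (nat_lit 1824) (nat_lit 2026988105) (nat_lit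 527) (nat_lit 5) (nat_lit 526) (nat_lit 5) (nat_lit 550) (nat_lit 5) (nat_lit 388) (nat_lit 381) (nat_lit 251)) (XT.nd (nat_lit 78) (nat_lit 1748) (nat_lit 0) (XT.lf (nat_lit 76) (nat_lit 5248638197) (nat_lit 0) (nat_lit 9547800004) (nat_lit 1824) (nat_lit 776686765) (nat_lit 528) (nat_lit 5) (nat_lit 527) (nat_lit 5) (nat_lit 551) (nat_lit 5) (nat_lit 389) (nat_lit 381) (nat_lit 250)) (XT.lf (nat_lit 0) (nat_lit 586040594) (nat_lit 1824) (nat_lit 13932062314) (nat_lit 1900) (nat_lit 1288905036) (nat_lit 504) (nat_lit 5) (nat_lit 528) (nat_lit 5) (nat_lit 529) (nat_lit 5) (nat_lit 390) (nat_lit 381) (nat_lit 249))))) (XT.nd (nat_lit 156) (nat_lit 0) (nat_lit 152) (XT.nd (nat_lit 78) (nat_lit 0) (nat_lit 76) (XT.lf (nat_lit 0) (nat_lit 2096986374) (nat_lit 1824) (nat_lit 1546140450) (nat_lit 1900) (nat_lit 12402320134) (nat_lit 504) (nat_lit 5) (nat_lit 528) (nat_lit 5) (nat_lit 529) (nat_lit 5) (nat_lit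 391) (nat_lit 381) (nat_lit 248)) (XT.lf (nat_lit 0) (nat_lit 3760565382) (nat_lit 1824) (nat_lit 4990739262) (nat_lit 1900) (nat_lit 7537588402) (nat_lit 505) (nat_lit 5) (nat_lit 529) (nat_lit 5) (nat_lit 530) (nat_lit 5) (nat_lit 392) (nat_lit 381) (nat_lit 247))) (XT.nd (nat_lit 78) (nat_lit 0) (nat_lit 0) (XT.lf (nat_lit 0) (nat_lit 5562319627) (nat_lit 1824) (nat_lit 8475235713) (nat_lit 1900) (nat_lit 2500321819) (nat_lit 506) (nat_lit 5) (nat_lit 530) (nat_lit 5) (nat_lit 531) (nat_lit 5) (nat_lit 393) (nat_lit 381) (nat_lit 246)) (XT.nd (nat_lit 78) (nat_lit 0) (nat_lit 76) (XT.lf (nat_lit 76) (nat_lit 4774395008) (nat_lit 0) (nat_lit 2752151312) (nat_lit 1900) (nat_lit 9265616078) (nat_lit 507) (nat_lit 5) (nat_lit 506) (nat_lit 5) (nat_lit 531) (nat_lit 5) (nat_lit 394) (nat_lit 381) (nat_lit 245)) (XT.lf (nat_lit 76) (nat_lit 1433533341) (nat_lit 0) (nat_lit 8226128367) (nat_lit 1900)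 (nat_lit 7392215249) (nat_lit 508) (nat_lit 5) (nat_lit 507) (nat_lit 5) (nat_lit 532) (nat_lit 5) (nat_lit 395) (nat_lit 381) (nat_lit 244))))))))
noncomputable def xc117 : XT := (XT.nd (nat_lit 1482) (nat_lit 1444) (nat_lit 0) (XT.nd (nat_lit 702) (nat_lit 6232) (nat_lit 0) (XT.nd (nat_lit 312) (nat_lit 3572) (nat_lit 0) (XT.nd (nat_lit 156) (nat_lit 2964) (nat_lit 0) (XT.nd (nat_lit 78) (nat_lit 0) (nat_lit 0) (XT.lf (nat_lit 0) (nat_lit 11964683380) (nat_lit 1824) (nat_lit 1917739590) (nat_lit 1900) (nat_lit 3434801728) (nat_lit 508) (nat_lit 5) (nat_lit 532) (nat_lit 5) (nat_lit 533) (nat_lit 5) (nat_lit 396) (nat_lit 381) (nat_lit 243)) (XT.lf (nat_lit 76) (nat_lit 12288388592) (nat_lit 0) (nat_lit 2171295386) (nat_lit 1900) (nat_lit 3128432325) (nat_lit 509) (nat_lit 5) (nat_lit 508) (nat_lit 5) (nat_lit 533) (nat_lit 5) (nat_lit 397) (nat_lit 381) (nat_lit 242))) (XT.nd (nat_lit 78) (nat_lit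 1216) (nat_lit 0) (XT.lf (nat_lit 0) (nat_lit 9123684357) (nat_lit 1824) (nat_lit 8028767250) (nat_lit 1900) (nat_lit 712224711) (nat_lit 485) (nat_lit 5) (nat_lit 509) (nat_lit 5) (nat_lit 510) (nat_lit 5) (nat_lit 398) (nat_lit 381) (nat_lit 241)) (XT.lf (nat_lit 0) (nat_lit 1855755977) (nat_lit 1216) (nat_lit 12231045779) (nat_lit 76) (nat_lit 4060448985) (nat_lit 469) (nat_lit 5) (nat_lit 485) (nat_lit 5) (nat_lit 470) (nat_lit 5) (nat_lit 399) (nat_lit 381) (nat_lit 240)))) (XT.nd (nat_lit 156) (nat_lit 2660) (nat_lit 0) (XT.nd (nat_lit 78) (nat_lit 0) (nat_lit 0) (XT.lf (nat_lit 0) (nat_lit 2659872715) (nat_lit 912) (nat_lit 1948805056) (nat_lit 988) (nat_lit 13827178910) (nat_lit 457) (nat_lit 5) (nat_lit 469) (nat_lit 5) (nat_lit 470) (nat_lit 5) (nat_lit 400) (nat_lit 381) (nat_lit 239)) (XT.lf (nat_lit 0) (nat_lit 7583386453) (nat_lit 988) (nat_lit 647475863) (nat_lit 76) (nat_lit 10499474497)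 (nat_lit 457) (nat_lit 5) (nat_lit 470) (nat_lit 5) (nat_lit 458) (nat_lit 5) (nat_lit 401) (nat_lit 381) (nat_lit 238))) (XT.nd (nat_lit 78) (nat_lit 1748) (nat_lit 0) (XT.lf (nat_lit 0) (nat_lit 10774407658) (nat_lit 988) (nat_lit 3951532354) (nat_lit 76) (nat_lit 4305169911) (nat_lit 445) (nat_lit 5) (nat_lit 458) (nat_lit 5) (nat_lit 446) (nat_lit 5) (nat_lit 402) (nat_lit 381) (nat_lit 237)) (XT.nd (nat_lit 78) (nat_lit 912) (nat_lit 0) (XT.lf (nat_lit 0) (nat_lit 12037693744) (nat_lit 836) (nat_lit 2148995162) (nat_lit 912) (nat_lit 5151706735) (nat_lit 434) (nat_lit 5) (nat_lit 445) (nat_lit 5) (nat_lit 446) (nat_lit 5) (nat_lit 403) (nat_lit 381) (nat_lit 236)) (XT.lf (nat_lit 0) (nat_lit 8941612246) (nat_lit 912) (nat_lit 8903083599) (nat_lit 988) (nat_lit 1807336938) (nat_lit 422) (nat_lit 5) (nat_lit 434) (nat_lit 5) (nat_lit 435) (nat_lit 5) (nat_lit 404) (nat_lit 381) (nat_lit 235))))))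 (XT.nd (nat_lit 390) (nat_lit 2964) (nat_lit 0) (XT.nd (nat_lit 156) (nat_lit 1520) (nat_lit 0) (XT.nd (nat_lit 78) (nat_lit 836) (nat_lit 0) (XT.lf (nat_lit 0) (nat_lit 1733158831) (nat_lit 912) (nat_lit 14163228959) (nat_lit 76) (nat_lit 4076133250) (nat_lit 410) (nat_lit 5) (nat_lit 422) (nat_lit 5) (nat_lit 411) (nat_lit 5) (nat_lit 405) (nat_lit 381) (nat_lit 234)) (XT.lf (nat_lit 0) (nat_lit 2620642568) (nat_lit 836) (nat_lit 2873073890) (nat_lit 912) (nat_lit 14805900523) (nat_lit 399) (nat_lit 5) (nat_lit 410) (nat_lit 5) (nat_lit 411) (nat_lit 5) (nat_lit 406) (nat_lit 381) (nat_lit 233))) (XT.nd (nat_lit 78) (nat_lit 1520) (nat_lit 0) (XT.lf (nat_lit 0) (nat_lit 9521043449) (nat_lit 912) (nat_lit 613463642) (nat_lit 76) (nat_lit 10498939658) (nat_lit 399) (nat_lit 5) (nat_lit 411) (nat_lit 5) (nat_lit 400) (nat_lit 5) (nat_lit 407) (nat_lit 381) (nat_lit 232)) (XT.nd (nat_lit 78) (nat_lit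 760) (nat_lit 0) (XT.lf (nat_lit 0) (nat_lit 13810911807) (nat_lit 836) (nat_lit 3838277086) (nat_lit 76) (nat_lit 3325268086) (nat_lit 389) (nat_lit 5) (nat_lit 400) (nat_lit 5) (nat_lit 390) (nat_lit 5) (nat_lit 408) (nat_lit 381) (nat_lit 231)) (XT.lf (nat_lit 0) (nat_lit 14208274100) (nat_lit 760) (nat_lit 4174874372) (nat_lit 836) (nat_lit 2939475598) (nat_lit 379) (nat_lit 5) (nat_lit 389) (nat_lit 5) (nat_lit 390) (nat_lit 5) (nat_lit 409) (nat_lit 381) (nat_lit 230))))) (XT.nd (nat_lit 156) (nat_lit 1368) (nat_lit 0) (XT.nd (nat_lit 78) (nat_lit 760) (nat_lit 0) (XT.lf (nat_lit 0) (nat_lit 1545672672) (nat_lit 836) (nat_lit 10447451358) (nat_lit 76) (nat_lit 9684871554) (nat_lit 368) (nat_lit 5) (nat_lit 379) (nat_lit 5) (nat_lit 369) (nat_lit 5) (nat_lit 410) (nat_lit 381) (nat_lit 229)) (XT.lf (nat_lit 0) (nat_lit 6258272642) (nat_lit 836) (nat_lit 13825318691) (nat_lit 76) (nat_lit 1957391648)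 (nat_lit 358) (nat_lit 5) (nat_lit 369) (nat_lit 5) (nat_lit 359) (nat_lit 5) (nat_lit 411) (nat_lit 381) (nat_lit 228))) (XT.nd (nat_lit 78) (nat_lit 684) (nat_lit 0) (XT.lf (nat_lit 0) (nat_lit 5143686952) (nat_lit 684) (nat_lit 6143496082) (nat_lit 760) (nat_lit 11124178318) (nat_lit 349) (nat_lit 5) (nat_lit 358) (nat_lit 5) (nat_lit 359) (nat_lit 5) (nat_lit 412) (nat_lit 381) (nat_lit 227)) (XT.nd (nat_lit 78) (nat_lit 0) (nat_lit 0) (XT.lf (nat_lit 0) (nat_lit 2041508971) (nat_lit 684) (nat_lit 14576623989) (nat_lit 760) (nat_lit 6171694669) (nat_lit 340) (nat_lit 5) (nat_lit 349) (nat_lit 5) (nat_lit 350) (nat_lit 5) (nat_lit 413) (nat_lit 381) (nat_lit 226)) (XT.lf (nat_lit 0) (nat_lit 22113546228) (nat_lit 684) (nat_lit 143777449) (nat_lit 760) (nat_lit 919357972) (nat_lit 340) (nat_lit 5) (nat_lit 349) (nat_lit 5) (nat_lit 350) (nat_lit 5) (nat_lit 414) (nat_lit 381) (nat_lit 225)))))))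 (XT.nd (nat_lit 51168) (nat_lit 0) (nat_lit 12464) (XT.nd (nat_lit 50778) (nat_lit 0) (nat_lit 15352) (XT.nd (nat_lit 50544) (nat_lit 0) (nat_lit 15276) (XT.nd (nat_lit 78) (nat_lit 684) (nat_lit 0) (XT.lf (nat_lit 0) (nat_lit 4645095312) (nat_lit 760) (nat_lit 4241537047) (nat_lit 76) (nat_lit 14683657001) (nat_lit 330) (nat_lit 5) (nat_lit 340) (nat_lit 5) (nat_lit 331) (nat_lit 5) (nat_lit 415) (nat_lit 381) (nat_lit 224)) (XT.lf (nat_lit 0) (nat_lit 10510360904) (nat_lit 760) (nat_lit 7442441772) (nat_lit 76) (nat_lit 6019853703) (nat_lit 321) (nat_lit 5) (nat_lit 331) (nat_lit 5) (nat_lit 322) (nat_lit 5) (nat_lit 416) (nat_lit 381) (nat_lit 223))) (XT.nd (nat_lit 78) (nat_lit 0) (nat_lit 0) (XT.lf (nat_lit 0) (nat_lit 1898637303) (nat_lit 0) (nat_lit 1898637303) (nat_lit 1748) (nat_lit 3337535627) (nat_lit 522) (nat_lit 5) (nat_lit 522) (nat_lit 3) (nat_lit 545) (nat_lit 3) (nat_lit 382) (nat_lit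 382) (nat_lit 256)) (XT.nd (nat_lit 78) (nat_lit 0) (nat_lit 76) (XT.lf (nat_lit 76) (nat_lit 191806010) (nat_lit 0) (nat_lit 8055250083) (nat_lit 1824) (nat_lit 6225836907) (nat_lit 523) (nat_lit 5) (nat_lit 522) (nat_lit 5) (nat_lit 546) (nat_lit 5) (nat_lit 383) (nat_lit 382) (nat_lit 255)) (XT.lf (nat_lit 0) (nat_lit 9010852111) (nat_lit 1748) (nat_lit 3412324104) (nat_lit 1824) (nat_lit 2257253217) (nat_lit 523) (nat_lit 5) (nat_lit 546) (nat_lit 5) (nat_lit 547) (nat_lit 5) (nat_lit 384) (nat_lit 382) (nat_lit 254))))) (XT.nd (nat_lit 156) (nat_lit 0) (nat_lit 152) (XT.nd (nat_lit 78) (nat_lit 0) (nat_lit 76) (XT.lf (nat_lit 76) (nat_lit 7820824691) (nat_lit 0) (nat_lit 2062677172) (nat_lit 1824) (nat_lit 5008971295) (nat_lit 524) (nat_lit 5) (nat_lit 523) (nat_lit 5) (nat_lit 547) (nat_lit 5) (nat_lit 385) (nat_lit 382) (nat_lit 253)) (XT.lf (nat_lit 76) (nat_lit 4317207781) (nat_lit 0) (nat_lit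 6554146076) (nat_lit 1824) (nat_lit 4237743887) (nat_lit 525) (nat_lit 5) (nat_lit 524) (nat_lit 5) (nat_lit 548) (nat_lit 5) (nat_lit 386) (nat_lit 382) (nat_lit 252))) (XT.nd (nat_lit 78) (nat_lit 0) (nat_lit 0) (XT.lf (nat_lit 76) (nat_lit 771685791) (nat_lit 0) (nat_lit 11193260951) (nat_lit 1824) (nat_lit 3365752216) (nat_lit 526) (nat_lit 5) (nat_lit 525) (nat_lit 5) (nat_lit 549) (nat_lit 5) (nat_lit 387) (nat_lit 382) (nat_lit 251)) (XT.nd (nat_lit 78) (nat_lit 0) (nat_lit 76) (XT.lf (nat_lit 76) (nat_lit 12774796369) (nat_lit 0) (nat_lit 415999812) (nat_lit 1824) (nat_lit 2366163054) (nat_lit 526) (nat_lit 5) (nat_lit 525) (nat_lit 5) (nat_lit 549) (nat_lit 5) (nat_lit 388) (nat_lit 382) (nat_lit 250)) (XT.lf (nat_lit 76) (nat_lit 9391041615) (nat_lit 0) (nat_lit 5176043991) (nat_lit 1824) (nat_lit 1220648422) (nat_lit 527) (nat_lit 5) (nat_lit 526) (nat_lit 5) (nat_lit 550) (nat_lit 5)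 (nat_lit 389) (nat_lit 382) (nat_lit 249)))))) (XT.nd (nat_lit 390) (nat_lit 1368) (nat_lit 0) (XT.nd (nat_lit 156) (nat_lit 0) (nat_lit 76) (XT.nd (nat_lit 78) (nat_lit 0) (nat_lit 76) (XT.lf (nat_lit 0) (nat_lit 43142368) (nat_lit 1824) (nat_lit 10055696044) (nat_lit 1900) (nat_lit 5924931430) (nat_lit 503) (nat_lit 5) (nat_lit 527) (nat_lit 5) (nat_lit 528) (nat_lit 5) (nat_lit 390) (nat_lit 382) (nat_lit 248)) (XT.lf (nat_lit 0) (nat_lit 1414059738) (nat_lit 1824) (nat_lit 13768143256) (nat_lit 1900) (nat_lit 1082806429) (nat_lit 504) (nat_lit 5) (nat_lit 528) (nat_lit 5) (nat_lit 529) (nat_lit 5) (nat_lit 391) (nat_lit 382) (nat_lit 247))) (XT.nd (nat_lit 78) (nat_lit 0) (nat_lit 76) (XT.lf (nat_lit 0) (nat_lit 2946728904) (nat_lit 1824) (nat_lit 1027591725) (nat_lit 1900) (nat_lit 12536753080) (nat_lit 504) (nat_lit 5) (nat_lit 528) (nat_lit 5) (nat_lit 529) (nat_lit 5) (nat_lit 392) (nat_lit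 382) (nat_lit 246)) (XT.nd (nat_lit 78) (nat_lit 0) (nat_lit 76) (XT.lf (nat_lit 0) (nat_lit 4639531367) (nat_lit 1824) (nat_lit 4567968526) (nat_lit 1900) (nat_lit 7554736963) (nat_lit 505) (nat_lit 5) (nat_lit 529) (nat_lit 5) (nat_lit 530) (nat_lit 5) (nat_lit 393) (nat_lit 382) (nat_lit 245)) (XT.lf (nat_lit 0) (nat_lit 6475483413) (nat_lit 1824) (nat_lit 8150141569) (nat_lit 1900) (nat_lit 2393462607) (nat_lit 506) (nat_lit 5) (nat_lit 530) (nat_lit 5) (nat_lit 531) (nat_lit 5) (nat_lit 394) (nat_lit 382) (nat_lit 244))))) (XT.nd (nat_lit 156) (nat_lit 1596) (nat_lit 0) (XT.nd (nat_lit 78) (nat_lit 0) (nat_lit 76) (XT.lf (nat_lit 76) (nat_lit 5487578789) (nat_lit 0) (nat_lit 2993021901) (nat_lit 1900) (nat_lit 8800761421) (nat_lit 507) (nat_lit 5) (nat_lit 506) (nat_lit 5) (nat_lit 531) (nat_lit 5) (nat_lit 395) (nat_lit 382) (nat_lit 243)) (XT.lf (nat_lit 76) (nat_lit 2052584489) (nat_lit 0)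 (nat_lit 8606655829) (nat_lit 1900) (nat_lit 6889997173) (nat_lit 508) (nat_lit 5) (nat_lit 507) (nat_lit 5) (nat_lit 532) (nat_lit 5) (nat_lit 396) (nat_lit 382) (nat_lit 242))) (XT.nd (nat_lit 78) (nat_lit 1748) (nat_lit 0) (XT.lf (nat_lit 0) (nat_lit 13011896120) (nat_lit 1824) (nat_lit 1401379278) (nat_lit 1900) (nat_lit 3409700596) (nat_lit 508) (nat_lit 5) (nat_lit 532) (nat_lit 5) (nat_lit 533) (nat_lit 5) (nat_lit 397) (nat_lit 382) (nat_lit 241)) (XT.nd (nat_lit 78) (nat_lit 1748) (nat_lit 0) (XT.lf (nat_lit 76) (nat_lit 13221622026) (nat_lit 0) (nat_lit 2343743586) (nat_lit 1900) (nat_lit 2536956359) (nat_lit 509) (nat_lit 5) (nat_lit 508) (nat_lit 5) (nat_lit 533) (nat_lit 5) (nat_lit 398) (nat_lit 382) (nat_lit 240)) (XT.lf (nat_lit 0) (nat_lit 9966722224) (nat_lit 1824) (nat_lit 8355644421) (nat_lit 1900) (nat_lit 65143132) (nat_lit 485) (nat_lit 5) (nat_lit 509) (nat_lit 5) (nat_lit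 510) (nat_lit 5) (nat_lit 399) (nat_lit 382) (nat_lit 239))))))))
noncomputable def xc118 : XT := (XT.nd (nat_lit 51948) (nat_lit 0) (nat_lit 8740) (XT.nd (nat_lit 702) (nat_lit 5244) (nat_lit 0) (XT.nd (nat_lit 312) (nat_lit 3496) (nat_lit 0) (XT.nd (nat_lit 156) (nat_lit 912) (nat_lit 0) (XT.nd (nat_lit 78) (nat_lit 912) (nat_lit 0) (XT.lf (nat_lit 0) (nat_lit 2555098771) (nat_lit 1216) (nat_lit 12015888851) (nat_lit 76) (nat_lit 4107807238) (nat_lit 469) (nat_lit 5) (nat_lit 485) (nat_lit 5) (nat_lit 470) (nat_lit 5) (nat_lit 400) (nat_lit 382) (nat_lit 238)) (XT.lf (nat_lit 0) (nat_lit 3312313507) (nat_lit 912) (nat_lit 2063265028) (nat_lit 988) (nat_lit 13600781037) (nat_lit 457) (nat_lit 5) (nat_lit 469) (nat_lit 5) (nat_lit 470) (nat_lit 5) (nat_lit 401) (nat_lit 382) (nat_lit 237))) (XT.nd (nat_lit 78) (nat_lit 912) (nat_lit 0) (XT.lf (nat_lit 0) (nat_lit 8420865589) (nat_lit 988) (nat_lit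 98374914) (nat_lit 76) (nat_lit 10760806863) (nat_lit 457) (nat_lit 5) (nat_lit 470) (nat_lit 5) (nat_lit 458) (nat_lit 5) (nat_lit 402) (nat_lit 382) (nat_lit 236)) (XT.lf (nat_lit 0) (nat_lit 11693245203) (nat_lit 988) (nat_lit 3498622647) (nat_lit 76) (nat_lit 4398263265) (nat_lit 445) (nat_lit 5) (nat_lit 458) (nat_lit 5) (nat_lit 446) (nat_lit 5) (nat_lit 403) (nat_lit 382) (nat_lit 235)))) (XT.nd (nat_lit 156) (nat_lit 1748) (nat_lit 0) (XT.nd (nat_lit 78) (nat_lit 912) (nat_lit 0) (XT.lf (nat_lit 0) (nat_lit 12961009045) (nat_lit 836) (nat_lit 2233188190) (nat_lit 912) (nat_lit 4712712122) (nat_lit 434) (nat_lit 5) (nat_lit 445) (nat_lit 5) (nat_lit 446) (nat_lit 5) (nat_lit 404) (nat_lit 382) (nat_lit 234)) (XT.lf (nat_lit 0) (nat_lit 9774499642) (nat_lit 912) (nat_lit 9174037658) (nat_lit 988) (nat_lit 1281686455) (nat_lit 422) (nat_lit 5) (nat_lit 434) (nat_lit 5) (nat_lit 435) (nat_lit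 5) (nat_lit 405) (nat_lit 382) (nat_lit 233))) (XT.nd (nat_lit 78) (nat_lit 836) (nat_lit 0) (XT.lf (nat_lit 0) (nat_lit 2344430336) (nat_lit 912) (nat_lit 14014004691) (nat_lit 76) (nat_lit 4202076110) (nat_lit 410) (nat_lit 5) (nat_lit 422) (nat_lit 5) (nat_lit 411) (nat_lit 5) (nat_lit 406) (nat_lit 382) (nat_lit 232)) (XT.nd (nat_lit 78) (nat_lit 0) (nat_lit 0) (XT.lf (nat_lit 0) (nat_lit 3264068549) (nat_lit 836) (nat_lit 2941113629) (nat_lit 912) (nat_lit 14692490229) (nat_lit 399) (nat_lit 5) (nat_lit 410) (nat_lit 5) (nat_lit 411) (nat_lit 5) (nat_lit 407) (nat_lit 382) (nat_lit 231)) (XT.lf (nat_lit 0) (nat_lit 10337521436) (nat_lit 912) (nat_lit 73011309) (nat_lit 76) (nat_lit 10831300474) (nat_lit 399) (nat_lit 5) (nat_lit 411) (nat_lit 5) (nat_lit 400) (nat_lit 5) (nat_lit 408) (nat_lit 382) (nat_lit 230)))))) (XT.nd (nat_lit 390) (nat_lit 1444) (nat_lit 0) (XT.nd (nat_lit 156) (nat_lit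 2280) (nat_lit 0) (XT.nd (nat_lit 78) (nat_lit 760) (nat_lit 0) (XT.lf (nat_lit 0) (nat_lit 14744394088) (nat_lit 836) (nat_lit 3393457039) (nat_lit 76) (nat_lit 3455456463) (nat_lit 389) (nat_lit 5) (nat_lit 400) (nat_lit 5) (nat_lit 390) (nat_lit 5) (nat_lit 409) (nat_lit 382) (nat_lit 229)) (XT.lf (nat_lit 0) (nat_lit 15185405860) (nat_lit 760) (nat_lit 4256847677) (nat_lit 836) (nat_lit 2509897043) (nat_lit 379) (nat_lit 5) (nat_lit 389) (nat_lit 5) (nat_lit 390) (nat_lit 5) (nat_lit 410) (nat_lit 382) (nat_lit 228))) (XT.nd (nat_lit 78) (nat_lit 1444) (nat_lit 0) (XT.lf (nat_lit 0) (nat_lit 2092012459) (nat_lit 836) (nat_lit 10202573353) (nat_lit 76) (nat_lit 10023750248) (nat_lit 368) (nat_lit 5) (nat_lit 379) (nat_lit 5) (nat_lit 369) (nat_lit 5) (nat_lit 411) (nat_lit 382) (nat_lit 227)) (XT.nd (nat_lit 78) (nat_lit 684) (nat_lit 0) (XT.lf (nat_lit 0) (nat_lit 6935385577) (nat_lit 836) (nat_lit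 13681446331) (nat_lit 76) (nat_lit 2075593268) (nat_lit 358) (nat_lit 5) (nat_lit 369) (nat_lit 5) (nat_lit 359) (nat_lit 5) (nat_lit 412) (nat_lit 382) (nat_lit 226)) (XT.lf (nat_lit 0) (nat_lit 5847566342) (nat_lit 684) (nat_lit 6256911761) (nat_lit 760) (nat_lit 10969650497) (nat_lit 349) (nat_lit 5) (nat_lit 358) (nat_lit 5) (nat_lit 359) (nat_lit 5) (nat_lit 413) (nat_lit 382) (nat_lit 225))))) (XT.nd (nat_lit 156) (nat_lit 760) (nat_lit 0) (XT.nd (nat_lit 78) (nat_lit 0) (nat_lit 0) (XT.lf (nat_lit 0) (nat_lit 2652372400) (nat_lit 684) (nat_lit 14933057344) (nat_lit 760) (nat_lit 5878717659) (nat_lit 340) (nat_lit 5) (nat_lit 349) (nat_lit 5) (nat_lit 350) (nat_lit 5) (nat_lit 414) (nat_lit 382) (nat_lit 224)) (XT.lf (nat_lit 0) (nat_lit 23310562479) (nat_lit 684) (nat_lit 69580709) (nat_lit 760) (nat_lit 482736914) (nat_lit 340) (nat_lit 5) (nat_lit 349) (nat_lit 5) (nat_lit 350) (nat_lit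 5) (nat_lit 415) (nat_lit 382) (nat_lit 223))) (XT.nd (nat_lit 50544) (nat_lit 0) (nat_lit 14592) (XT.lf (nat_lit 0) (nat_lit 5233203088) (nat_lit 760) (nat_lit 3829413906) (nat_lit 76) (nat_lit 15205805948) (nat_lit 330) (nat_lit 5) (nat_lit 340) (nat_lit 5) (nat_lit 331) (nat_lit 5) (nat_lit 416) (nat_lit 382) (nat_lit 222)) (XT.nd (nat_lit 78) (nat_lit 0) (nat_lit 0) (XT.lf (nat_lit 0) (nat_lit 2200781759) (nat_lit 0) (nat_lit 2200781759) (nat_lit 1748) (nat_lit 2937483607) (nat_lit 522) (nat_lit 5) (nat_lit 522) (nat_lit 3) (nat_lit 545) (nat_lit 3) (nat_lit 383) (nat_lit 383) (nat_lit 254)) (XT.lf (nat_lit 76) (nat_lit 702403942) (nat_lit 0) (nat_lit 8744426603) (nat_lit 1824) (nat_lit 5441201989) (nat_lit 523) (nat_lit 5) (nat_lit 522) (nat_lit 5) (nat_lit 546) (nat_lit 5) (nat_lit 384) (nat_lit 383) (nat_lit 253))))))) (XT.nd (nat_lit 780) (nat_lit 4408) (nat_lit 0) (XT.nd (nat_lit 390) (nat_lit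 1520) (nat_lit 0) (XT.nd (nat_lit 156) (nat_lit 0) (nat_lit 76) (XT.nd (nat_lit 78) (nat_lit 0) (nat_lit 0) (XT.lf (nat_lit 0) (nat_lit 10202980761) (nat_lit 1748) (nat_lit 3003240819) (nat_lit 1824) (nat_lit 1896184672) (nat_lit 523) (nat_lit 5) (nat_lit 546) (nat_lit 5) (nat_lit 547) (nat_lit 5) (nat_lit 385) (nat_lit 383) (nat_lit 252)) (XT.lf (nat_lit 76) (nat_lit 8558604722) (nat_lit 0) (nat_lit 2519623469) (nat_lit 1824) (nat_lit 4243054737) (nat_lit 524) (nat_lit 5) (nat_lit 523) (nat_lit 5) (nat_lit 547) (nat_lit 5) (nat_lit 386) (nat_lit 383) (nat_lit 251))) (XT.nd (nat_lit 78) (nat_lit 0) (nat_lit 76) (XT.lf (nat_lit 76) (nat_lit 4961912597) (nat_lit 0) (nat_lit 7108495987) (nat_lit 1824) (nat_lit 3474503809) (nat_lit 525) (nat_lit 5) (nat_lit 524) (nat_lit 5) (nat_lit 548) (nat_lit 5) (nat_lit 387) (nat_lit 383) (nat_lit 250)) (XT.nd (nat_lit 78) (nat_lit 0) (nat_lit 0) (XT.lf (nat_lit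 76) (nat_lit 1321126578) (nat_lit 0) (nat_lit 11851420078) (nat_lit 1824) (nat_lit 2601100241) (nat_lit 526) (nat_lit 5) (nat_lit 525) (nat_lit 5) (nat_lit 549) (nat_lit 5) (nat_lit 388) (nat_lit 383) (nat_lit 249)) (XT.lf (nat_lit 76) (nat_lit 13669001632) (nat_lit 0) (nat_lit 741451941) (nat_lit 1824) (nat_lit 1596735769) (nat_lit 526) (nat_lit 5) (nat_lit 525) (nat_lit 5) (nat_lit 549) (nat_lit 5) (nat_lit 389) (nat_lit 383) (nat_lit 248))))) (XT.nd (nat_lit 156) (nat_lit 0) (nat_lit 76) (XT.nd (nat_lit 78) (nat_lit 1748) (nat_lit 0) (XT.lf (nat_lit 76) (nat_lit 10193654873) (nat_lit 0) (nat_lit 5611787819) (nat_lit 1824) (nat_lit 439896468) (nat_lit 527) (nat_lit 5) (nat_lit 526) (nat_lit 5) (nat_lit 550) (nat_lit 5) (nat_lit 390) (nat_lit 383) (nat_lit 247)) (XT.lf (nat_lit 0) (nat_lit 829277584) (nat_lit 1824) (nat_lit 9816947206) (nat_lit 1900) (nat_lit 5842561328) (nat_lit 503) (nat_lit 5)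 (nat_lit 527) (nat_lit 5) (nat_lit 528) (nat_lit 5) (nat_lit 391) (nat_lit 383) (nat_lit 246))) (XT.nd (nat_lit 78) (nat_lit 0) (nat_lit 0) (XT.lf (nat_lit 0) (nat_lit 2220397005) (nat_lit 1824) (nat_lit 13632708973) (nat_lit 1900) (nat_lit 884575419) (nat_lit 504) (nat_lit 5) (nat_lit 528) (nat_lit 5) (nat_lit 529) (nat_lit 5) (nat_lit 392) (nat_lit 383) (nat_lit 245)) (XT.nd (nat_lit 78) (nat_lit 0) (nat_lit 76) (XT.lf (nat_lit 0) (nat_lit 3776796280) (nat_lit 1824) (nat_lit 525915999) (nat_lit 1900) (nat_lit 12688860329) (nat_lit 504) (nat_lit 5) (nat_lit 528) (nat_lit 5) (nat_lit 529) (nat_lit 5) (nat_lit 393) (nat_lit 383) (nat_lit 244)) (XT.lf (nat_lit 0) (nat_lit 5500886244) (nat_lit 1824) (nat_lit 4165378104) (nat_lit 1900) (nat_lit 7584396236) (nat_lit 505) (nat_lit 5) (nat_lit 529) (nat_lit 5) (nat_lit 530) (nat_lit 5) (nat_lit 394) (nat_lit 383) (nat_lit 243)))))) (XT.nd (nat_lit 390)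 (nat_lit 4636) (nat_lit 0) (XT.nd (nat_lit 156) (nat_lit 0) (nat_lit 76) (XT.nd (nat_lit 78) (nat_lit 0) (nat_lit 0) (XT.lf (nat_lit 0) (nat_lit 7373201774) (nat_lit 1824) (nat_lit 7848551730) (nat_lit 1900) (nat_lit 2293837636) (nat_lit 506) (nat_lit 5) (nat_lit 530) (nat_lit 5) (nat_lit 531) (nat_lit 5) (nat_lit 395) (nat_lit 383) (nat_lit 242)) (XT.lf (nat_lit 76) (nat_lit 6189440511) (nat_lit 0) (nat_lit 3232031192) (nat_lit 1900) (nat_lit 8364602212) (nat_lit 507) (nat_lit 5) (nat_lit 506) (nat_lit 5) (nat_lit 531) (nat_lit 5) (nat_lit 396) (nat_lit 383) (nat_lit 241))) (XT.nd (nat_lit 78) (nat_lit 0) (nat_lit 76) (XT.lf (nat_lit 76) (nat_lit 2657139823) (nat_lit 0) (nat_lit 8990921685) (nat_lit 1900) (nat_lit 6414272229) (nat_lit 508) (nat_lit 5) (nat_lit 507) (nat_lit 5) (nat_lit 532) (nat_lit 5) (nat_lit 397) (nat_lit 383) (nat_lit 240)) (XT.nd (nat_lit 78) (nat_lit 0) (nat_lit 0) (XT.lf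 (nat_lit 0) (nat_lit 14051015600) (nat_lit 1824) (nat_lit 902471934) (nat_lit 1900) (nat_lit 3391202487) (nat_lit 508) (nat_lit 5) (nat_lit 532) (nat_lit 5) (nat_lit 533) (nat_lit 5) (nat_lit 398) (nat_lit 383) (nat_lit 239)) (XT.lf (nat_lit 76) (nat_lit 14150443159) (nat_lit 0) (nat_lit 2515205236) (nat_lit 1900) (nat_lit 1967076798) (nat_lit 509) (nat_lit 5) (nat_lit 508) (nat_lit 5) (nat_lit 533) (nat_lit 5) (nat_lit 399) (nat_lit 383) (nat_lit 238))))) (XT.nd (nat_lit 156) (nat_lit 1824) (nat_lit 0) (XT.nd (nat_lit 78) (nat_lit 1140) (nat_lit 0) (XT.lf (nat_lit 0) (nat_lit 555595651) (nat_lit 1900) (nat_lit 8128066352) (nat_lit 76) (nat_lit 10243045519) (nat_lit 484) (nat_lit 5) (nat_lit 509) (nat_lit 5) (nat_lit 485) (nat_lit 5) (nat_lit 400) (nat_lit 383) (nat_lit 237)) (XT.lf (nat_lit 0) (nat_lit 3238472552) (nat_lit 1216) (nat_lit 11827691465) (nat_lit 76) (nat_lit 4160860273) (nat_lit 469)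 (nat_lit 5) (nat_lit 485) (nat_lit 5) (nat_lit 470) (nat_lit 5) (nat_lit 401) (nat_lit 383) (nat_lit 236))) (XT.nd (nat_lit 78) (nat_lit 912) (nat_lit 0) (XT.lf (nat_lit 0) (nat_lit 3951455379) (nat_lit 912) (nat_lit 2177944410) (nat_lit 988) (nat_lit 13404399492) (nat_lit 457) (nat_lit 5) (nat_lit 469) (nat_lit 5) (nat_lit 470) (nat_lit 5) (nat_lit 402) (nat_lit 383) (nat_lit 235)) (XT.nd (nat_lit 78) (nat_lit 0) (nat_lit 0) (XT.lf (nat_lit 0) (nat_lit 440338507) (nat_lit 912) (nat_lit 8810974355) (nat_lit 988) (nat_lit 10595579499) (nat_lit 445) (nat_lit 5) (nat_lit 457) (nat_lit 5) (nat_lit 458) (nat_lit 5) (nat_lit 403) (nat_lit 383) (nat_lit 234)) (XT.lf (nat_lit 0) (nat_lit 12605457692) (nat_lit 988) (nat_lit 3064929543) (nat_lit 76) (nat_lit 4496219511) (nat_lit 445) (nat_lit 5) (nat_lit 458) (nat_lit 5) (nat_lit 446) (nat_lit 5) (nat_lit 404) (nat_lit 383) (nat_lit 233))))))))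
noncomputable def xc119 : XT := (XT.nd (nat_lit 52182) (nat_lit 0) (nat_lit 2964) (XT.nd (nat_lit 780) (nat_lit 684) (nat_lit 0) (XT.nd (nat_lit 390) (nat_lit 3040) (nat_lit 0) (XT.nd (nat_lit 156) (nat_lit 2508) (nat_lit 0) (XT.nd (nat_lit 78) (nat_lit 912) (nat_lit 0) (XT.lf (nat_lit 0) (nat_lit 13879752115) (nat_lit 836) (nat_lit 2318774819) (nat_lit 912) (nat_lit 4294619628) (nat_lit 434) (nat_lit 5) (nat_lit 445) (nat_lit 5) (nat_lit 446) (nat_lit 5) (nat_lit 405) (nat_lit 383) (nat_lit 232)) (XT.lf (nat_lit 0) (nat_lit 10599961071) (nat_lit 912) (nat_lit 9452898670) (nat_lit 988) (nat_lit 773553401) (nat_lit 422) (nat_lit 5) (nat_lit 434) (nat_lit 5) (nat_lit 435) (nat_lit 5) (nat_lit 406) (nat_lit 383) (nat_lit 231))) (XT.nd (nat_lit 78) (nat_lit 1596) (nat_lit 0) (XT.lf (nat_lit 0) (nat_lit 2941935213) (nat_lit 912) (nat_lit 13893260596) (nat_lit 76) (nat_lit 4331587221) (nat_lit 410) (nat_lit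 5) (nat_lit 422) (nat_lit 5) (nat_lit 411) (nat_lit 5) (nat_lit 407) (nat_lit 383) (nat_lit 230)) (XT.nd (nat_lit 78) (nat_lit 760) (nat_lit 0) (XT.lf (nat_lit 0) (nat_lit 3894375093) (nat_lit 836) (nat_lit 3012236587) (nat_lit 912) (nat_lit 14607685418) (nat_lit 399) (nat_lit 5) (nat_lit 410) (nat_lit 5) (nat_lit 411) (nat_lit 5) (nat_lit 408) (nat_lit 383) (nat_lit 229)) (XT.lf (nat_lit 0) (nat_lit 457575140) (nat_lit 760) (nat_lit 10693416732) (nat_lit 836) (nat_lit 10718029447) (nat_lit 389) (nat_lit 5) (nat_lit 399) (nat_lit 5) (nat_lit 400) (nat_lit 5) (nat_lit 409) (nat_lit 383) (nat_lit 228))))) (XT.nd (nat_lit 156) (nat_lit 2280) (nat_lit 0) (XT.nd (nat_lit 78) (nat_lit 760) (nat_lit 0) (XT.lf (nat_lit 0) (nat_lit 15676079221) (nat_lit 836) (nat_lit 2967436866) (nat_lit 76) (nat_lit 3587803665) (nat_lit 389) (nat_lit 5) (nat_lit 400) (nat_lit 5) (nat_lit 390) (nat_lit 5) (nat_lit 410) (nat_lit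 383) (nat_lit 227)) (XT.lf (nat_lit 0) (nat_lit 16160228605) (nat_lit 760) (nat_lit 4343764223) (nat_lit 836) (nat_lit 2097152835) (nat_lit 379) (nat_lit 5) (nat_lit 389) (nat_lit 5) (nat_lit 390) (nat_lit 5) (nat_lit 411) (nat_lit 383) (nat_lit 226))) (XT.nd (nat_lit 78) (nat_lit 1444) (nat_lit 0) (XT.lf (nat_lit 0) (nat_lit 2626042139) (nat_lit 836) (nat_lit 9982397800) (nat_lit 76) (nat_lit 10370020816) (nat_lit 368) (nat_lit 5) (nat_lit 379) (nat_lit 5) (nat_lit 369) (nat_lit 5) (nat_lit 412) (nat_lit 383) (nat_lit 225)) (XT.nd (nat_lit 78) (nat_lit 684) (nat_lit 0) (XT.lf (nat_lit 0) (nat_lit 7604720361) (nat_lit 836) (nat_lit 13565325558) (nat_lit 76) (nat_lit 2193926548) (nat_lit 358) (nat_lit 5) (nat_lit 369) (nat_lit 5) (nat_lit 359) (nat_lit 5) (nat_lit 413) (nat_lit 383) (nat_lit 224)) (XT.lf (nat_lit 0) (nat_lit 6541014618) (nat_lit 684) (nat_lit 6377799241) (nat_lit 760) (nat_lit 10838514572)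 (nat_lit 349) (nat_lit 5) (nat_lit 358) (nat_lit 5) (nat_lit 359) (nat_lit 5) (nat_lit 414) (nat_lit 383) (nat_lit 223)))))) (XT.nd (nat_lit 51012) (nat_lit 0) (nat_lit 12312) (XT.nd (nat_lit 50778) (nat_lit 0) (nat_lit 13832) (XT.nd (nat_lit 50700) (nat_lit 0) (nat_lit 13832) (XT.lf (nat_lit 0) (nat_lit 3250011401) (nat_lit 684) (nat_lit 15304825701) (nat_lit 760) (nat_lit 5604397833) (nat_lit 340) (nat_lit 5) (nat_lit 349) (nat_lit 5) (nat_lit 350) (nat_lit 5) (nat_lit 415) (nat_lit 383) (nat_lit 222)) (XT.lf (nat_lit 0) (nat_lit 2497915908) (nat_lit 0) (nat_lit 2497915908) (nat_lit 1748) (nat_lit 2554142295) (nat_lit 522) (nat_lit 5) (nat_lit 522) (nat_lit 3) (nat_lit 545) (nat_lit 3) (nat_lit 384) (nat_lit 384) (nat_lit 252))) (XT.nd (nat_lit 78) (nat_lit 0) (nat_lit 76) (XT.lf (nat_lit 76) (nat_lit 1199339715) (nat_lit 0) (nat_lit 9428588997) (nat_lit 1824) (nat_lit 4688790933) (nat_lit 523)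 (nat_lit 5) (nat_lit 522) (nat_lit 5) (nat_lit 546) (nat_lit 5) (nat_lit 385) (nat_lit 384) (nat_lit 251)) (XT.nd (nat_lit 78) (nat_lit 0) (nat_lit 0) (XT.lf (nat_lit 0) (nat_lit 11377958003) (nat_lit 1748) (nat_lit 2611244532) (nat_lit 1824) (nat_lit 1548898149) (nat_lit 523) (nat_lit 5) (nat_lit 546) (nat_lit 5) (nat_lit 547) (nat_lit 5) (nat_lit 386) (nat_lit 384) (nat_lit 250)) (XT.lf (nat_lit 76) (nat_lit 9289634981) (nat_lit 0) (nat_lit 2967599751) (nat_lit 1824) (nat_lit 3506753490) (nat_lit 524) (nat_lit 5) (nat_lit 523) (nat_lit 5) (nat_lit 547) (nat_lit 5) (nat_lit 387) (nat_lit 384) (nat_lit 249))))) (XT.nd (nat_lit 156) (nat_lit 1672) (nat_lit 0) (XT.nd (nat_lit 78) (nat_lit 0) (nat_lit 76) (XT.lf (nat_lit 76) (nat_lit 5596384625) (nat_lit 0) (nat_lit 7658941487) (nat_lit 1824) (nat_lit 2739477547) (nat_lit 525) (nat_lit 5) (nat_lit 524) (nat_lit 5) (nat_lit 548) (nat_lit 5) (nat_lit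 388) (nat_lit 384) (nat_lit 248)) (XT.lf (nat_lit 76) (nat_lit 1856839376) (nat_lit 0) (nat_lit 12510819122) (nat_lit 1824) (nat_lit 1863199097) (nat_lit 526) (nat_lit 5) (nat_lit 525) (nat_lit 5) (nat_lit 549) (nat_lit 5) (nat_lit 389) (nat_lit 384) (nat_lit 247))) (XT.nd (nat_lit 78) (nat_lit 1748) (nat_lit 0) (XT.lf (nat_lit 76) (nat_lit 14560701779) (nat_lit 0) (nat_lit 1058701753) (nat_lit 1824) (nat_lit 852468763) (nat_lit 526) (nat_lit 5) (nat_lit 525) (nat_lit 5) (nat_lit 549) (nat_lit 5) (nat_lit 390) (nat_lit 384) (nat_lit 246)) (XT.nd (nat_lit 78) (nat_lit 0) (nat_lit 76) (XT.lf (nat_lit 0) (nat_lit 313195380) (nat_lit 1824) (nat_lit 5729207180) (nat_lit 1900) (nat_lit 10675148684) (nat_lit 502) (nat_lit 5) (nat_lit 526) (nat_lit 5) (nat_lit 527) (nat_lit 5) (nat_lit 391) (nat_lit 384) (nat_lit 245)) (XT.lf (nat_lit 0) (nat_lit 1593943775) (nat_lit 1824) (nat_lit 9602058205) (nat_lit 1900)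 (nat_lit 5772651963) (nat_lit 503) (nat_lit 5) (nat_lit 527) (nat_lit 5) (nat_lit 528) (nat_lit 5) (nat_lit 392) (nat_lit 384) (nat_lit 244))))))) (XT.nd (nat_lit 780) (nat_lit 6840) (nat_lit 0) (XT.nd (nat_lit 390) (nat_lit 2660) (nat_lit 0) (XT.nd (nat_lit 156) (nat_lit 0) (nat_lit 76) (XT.nd (nat_lit 78) (nat_lit 0) (nat_lit 0) (XT.lf (nat_lit 0) (nat_lit 3007072517) (nat_lit 1824) (nat_lit 13524696575) (nat_lit 1900) (nat_lit 693641475) (nat_lit 504) (nat_lit 5) (nat_lit 528) (nat_lit 5) (nat_lit 529) (nat_lit 5) (nat_lit 393) (nat_lit 384) (nat_lit 243)) (XT.lf (nat_lit 0) (nat_lit 4589191044) (nat_lit 1824) (nat_lit 39757880) (nat_lit 1900) (nat_lit 12858389046) (nat_lit 504) (nat_lit 5) (nat_lit 528) (nat_lit 5) (nat_lit 529) (nat_lit 5) (nat_lit 394) (nat_lit 384) (nat_lit 242))) (XT.nd (nat_lit 78) (nat_lit 0) (nat_lit 76) (XT.lf (nat_lit 0) (nat_lit 6346626315) (nat_lit 1824) (nat_lit 3781686909)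 (nat_lit 1900) (nat_lit 7626252907) (nat_lit 505) (nat_lit 5) (nat_lit 529) (nat_lit 5) (nat_lit 530) (nat_lit 5) (nat_lit 395) (nat_lit 384) (nat_lit 241)) (XT.nd (nat_lit 78) (nat_lit 0) (nat_lit 0) (XT.lf (nat_lit 0) (nat_lit 8257470555) (nat_lit 1824) (nat_lit 7569262231) (nat_lit 1900) (nat_lit 2201064633) (nat_lit 506) (nat_lit 5) (nat_lit 530) (nat_lit 5) (nat_lit 531) (nat_lit 5) (nat_lit 396) (nat_lit 384) (nat_lit 240)) (XT.lf (nat_lit 76) (nat_lit 6881518634) (nat_lit 0) (nat_lit 3469645002) (nat_lit 1900) (nat_lit 7955551540) (nat_lit 507) (nat_lit 5) (nat_lit 506) (nat_lit 5) (nat_lit 531) (nat_lit 5) (nat_lit 397) (nat_lit 384) (nat_lit 239))))) (XT.nd (nat_lit 156) (nat_lit 2888) (nat_lit 0) (XT.nd (nat_lit 78) (nat_lit 0) (nat_lit 76) (XT.lf (nat_lit 76) (nat_lit 3248662670) (nat_lit 0) (nat_lit 9379478801) (nat_lit 1900) (nat_lit 5963449515) (nat_lit 508) (nat_lit 5) (nat_lit 507)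 (nat_lit 5) (nat_lit 532) (nat_lit 5) (nat_lit 398) (nat_lit 384) (nat_lit 238)) (XT.lf (nat_lit 0) (nat_lit 15084067038) (nat_lit 1824) (nat_lit 419650039) (nat_lit 1900) (nat_lit 3379083226) (nat_lit 508) (nat_lit 5) (nat_lit 532) (nat_lit 5) (nat_lit 533) (nat_lit 5) (nat_lit 399) (nat_lit 384) (nat_lit 237))) (XT.nd (nat_lit 78) (nat_lit 2964) (nat_lit 0) (XT.lf (nat_lit 76) (nat_lit 15076580048) (nat_lit 0) (nat_lit 2686004351) (nat_lit 1900) (nat_lit 1417183219) (nat_lit 509) (nat_lit 5) (nat_lit 508) (nat_lit 5) (nat_lit 533) (nat_lit 5) (nat_lit 400) (nat_lit 384) (nat_lit 236)) (XT.nd (nat_lit 78) (nat_lit 1140) (nat_lit 0) (XT.lf (nat_lit 0) (nat_lit 1158381989) (nat_lit 1900) (nat_lit 7858279172) (nat_lit 76) (nat_lit 10466125217) (nat_lit 484) (nat_lit 5) (nat_lit 509) (nat_lit 5) (nat_lit 485) (nat_lit 5) (nat_lit 401) (nat_lit 384) (nat_lit 235)) (XT.lf (nat_lit 0) (nat_lit 3907519289)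 (nat_lit 1216) (nat_lit 11665344292) (nat_lit 76) (nat_lit 4219533586) (nat_lit 469) (nat_lit 5) (nat_lit 485) (nat_lit 5) (nat_lit 470) (nat_lit 5) (nat_lit 402) (nat_lit 384) (nat_lit 234)))))) (XT.nd (nat_lit 390) (nat_lit 3268) (nat_lit 0) (XT.nd (nat_lit 156) (nat_lit 1748) (nat_lit 0) (XT.nd (nat_lit 78) (nat_lit 912) (nat_lit 0) (XT.lf (nat_lit 0) (nat_lit 4578786360) (nat_lit 912) (nat_lit 2293034303) (nat_lit 988) (nat_lit 13236821819) (nat_lit 457) (nat_lit 5) (nat_lit 469) (nat_lit 5) (nat_lit 470) (nat_lit 5) (nat_lit 403) (nat_lit 384) (nat_lit 233)) (XT.lf (nat_lit 0) (nat_lit 965388836) (nat_lit 912) (nat_lit 9108743764) (nat_lit 988) (nat_lit 10357260925) (nat_lit 445) (nat_lit 5) (nat_lit 457) (nat_lit 5) (nat_lit 458) (nat_lit 5) (nat_lit 404) (nat_lit 384) (nat_lit 232))) (XT.nd (nat_lit 78) (nat_lit 1748) (nat_lit 0) (XT.lf (nat_lit 0) (nat_lit 13512809031) (nat_lit 988) (nat_lit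 2649146461) (nat_lit 76) (nat_lit 4599065704) (nat_lit 445) (nat_lit 5) (nat_lit 458) (nat_lit 5) (nat_lit 446) (nat_lit 5) (nat_lit 405) (nat_lit 384) (nat_lit 231)) (XT.nd (nat_lit 78) (nat_lit 912) (nat_lit 0) (XT.lf (nat_lit 0) (nat_lit 14795638314) (nat_lit 836) (nat_lit 2405861848) (nat_lit 912) (nat_lit 3896100448) (nat_lit 434) (nat_lit 5) (nat_lit 445) (nat_lit 5) (nat_lit 446) (nat_lit 5) (nat_lit 406) (nat_lit 384) (nat_lit 230)) (XT.lf (nat_lit 0) (nat_lit 11419634367) (nat_lit 912) (nat_lit 9739916568) (nat_lit 988) (nat_lit 281552493) (nat_lit 422) (nat_lit 5) (nat_lit 434) (nat_lit 5) (nat_lit 435) (nat_lit 5) (nat_lit 407) (nat_lit 384) (nat_lit 229))))) (XT.nd (nat_lit 156) (nat_lit 1520) (nat_lit 0) (XT.nd (nat_lit 78) (nat_lit 836) (nat_lit 0) (XT.lf (nat_lit 0) (nat_lit 3527103409) (nat_lit 912) (nat_lit 13799959220) (nat_lit 76) (nat_lit 4464785690) (nat_lit 410) (nat_lit 5)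 (nat_lit 422) (nat_lit 5) (nat_lit 411) (nat_lit 5) (nat_lit 408) (nat_lit 384) (nat_lit 228)) (XT.lf (nat_lit 0) (nat_lit 4513029787) (nat_lit 836) (nat_lit 3086475444) (nat_lit 912) (nat_lit 14550506877) (nat_lit 399) (nat_lit 5) (nat_lit 410) (nat_lit 5) (nat_lit 411) (nat_lit 5) (nat_lit 409) (nat_lit 384) (nat_lit 227))) (XT.nd (nat_lit 78) (nat_lit 760) (nat_lit 0) (XT.lf (nat_lit 0) (nat_lit 974437636) (nat_lit 760) (nat_lit 10986001082) (nat_lit 836) (nat_lit 10555154898) (nat_lit 389) (nat_lit 5) (nat_lit 399) (nat_lit 5) (nat_lit 400) (nat_lit 5) (nat_lit 410) (nat_lit 384) (nat_lit 226)) (XT.nd (nat_lit 78) (nat_lit 760) (nat_lit 0) (XT.lf (nat_lit 0) (nat_lit 16607624026) (nat_lit 836) (nat_lit 2558935337) (nat_lit 76) (nat_lit 3722474732) (nat_lit 389) (nat_lit 5) (nat_lit 400) (nat_lit 5) (nat_lit 390) (nat_lit 5) (nat_lit 411) (nat_lit 384) (nat_lit 225)) (XT.lf (nat_lit 0) (nat_lit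 17134488352) (nat_lit 760) (nat_lit 4435629715) (nat_lit 836) (nat_lit 1700041858) (nat_lit 379) (nat_lit 5) (nat_lit 389) (nat_lit 5) (nat_lit 390) (nat_lit 5) (nat_lit 412) (nat_lit 384) (nat_lit 224))))))))
noncomputable def xc120 : XT := (XT.nd (nat_lit 52182) (nat_lit 0) (nat_lit 1444) (XT.nd (nat_lit 51402) (nat_lit 0) (nat_lit 11628) (XT.nd (nat_lit 51012) (nat_lit 0) (nat_lit 13148) (XT.nd (nat_lit 156) (nat_lit 684) (nat_lit 0) (XT.nd (nat_lit 78) (nat_lit 760) (nat_lit 0) (XT.lf (nat_lit 0) (nat_lit 3149039924) (nat_lit 836) (nat_lit 9785826041) (nat_lit 76) (nat_lit 10724064282) (nat_lit 368) (nat_lit 5) (nat_lit 379) (nat_lit 5) (nat_lit 369) (nat_lit 5) (nat_lit 413) (nat_lit 384) (nat_lit 223)) (XT.lf (nat_lit 0) (nat_lit 8267656219) (nat_lit 836) (nat_lit 13475948098) (nat_lit 76) (nat_lit 2312591439) (nat_lit 358) (nat_lit 5) (nat_lit 369) (nat_lit 5) (nat_lit 359) (nat_lit 5) (nat_lit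 414) (nat_lit 384) (nat_lit 222))) (XT.nd (nat_lit 50778) (nat_lit 0) (nat_lit 13148) (XT.lf (nat_lit 0) (nat_lit 7225529800) (nat_lit 684) (nat_lit 6506149080) (nat_lit 760) (nat_lit 10729863391) (nat_lit 349) (nat_lit 5) (nat_lit 358) (nat_lit 5) (nat_lit 359) (nat_lit 5) (nat_lit 415) (nat_lit 384) (nat_lit 221)) (XT.lf (nat_lit 0) (nat_lit 2790697383) (nat_lit 0) (nat_lit 2790697383) (nat_lit 1748) (nat_lit 2186364810) (nat_lit 522) (nat_lit 5) (nat_lit 522) (nat_lit 3) (nat_lit 545) (nat_lit 3) (nat_lit 385) (nat_lit 385) (nat_lit 250)))) (XT.nd (nat_lit 156) (nat_lit 0) (nat_lit 76) (XT.nd (nat_lit 78) (nat_lit 0) (nat_lit 76) (XT.lf (nat_lit 76) (nat_lit 1683867041) (nat_lit 0) (nat_lit 10109061519) (nat_lit 1824) (nat_lit 3966369435) (nat_lit 523) (nat_lit 5) (nat_lit 522) (nat_lit 5) (nat_lit 546) (nat_lit 5) (nat_lit 386) (nat_lit 385) (nat_lit 249)) (XT.lf (nat_lit 0) (nat_lit 12538306847)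 (nat_lit 1748) (nat_lit 2235162495) (nat_lit 1824) (nat_lit 1214394160) (nat_lit 523) (nat_lit 5) (nat_lit 546) (nat_lit 5) (nat_lit 547) (nat_lit 5) (nat_lit 387) (nat_lit 385) (nat_lit 248))) (XT.nd (nat_lit 78) (nat_lit 0) (nat_lit 76) (XT.lf (nat_lit 76) (nat_lit 10015370989) (nat_lit 0) (nat_lit 3407638752) (nat_lit 1824) (nat_lit 2797936969) (nat_lit 524) (nat_lit 5) (nat_lit 523) (nat_lit 5) (nat_lit 547) (nat_lit 5) (nat_lit 388) (nat_lit 385) (nat_lit 247)) (XT.nd (nat_lit 78) (nat_lit 0) (nat_lit 76) (XT.lf (nat_lit 76) (nat_lit 6222014547) (nat_lit 0) (nat_lit 8206544231) (nat_lit 1824) (nat_lit 2030577533) (nat_lit 525) (nat_lit 5) (nat_lit 524) (nat_lit 5) (nat_lit 548) (nat_lit 5) (nat_lit 389) (nat_lit 385) (nat_lit 246)) (XT.lf (nat_lit 76) (nat_lit 2380146595) (nat_lit 0) (nat_lit 13172557534) (nat_lit 1824) (nat_lit 1149998876) (nat_lit 526) (nat_lit 5) (nat_lit 525) (nat_lit 5)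 (nat_lit 549) (nat_lit 5) (nat_lit 390) (nat_lit 385) (nat_lit 245)))))) (XT.nd (nat_lit 390) (nat_lit 0) (nat_lit 228) (XT.nd (nat_lit 156) (nat_lit 0) (nat_lit 76) (XT.nd (nat_lit 78) (nat_lit 1748) (nat_lit 0) (XT.lf (nat_lit 76) (nat_lit 15451505393) (nat_lit 0) (nat_lit 1368534493) (nat_lit 1824) (nat_lit 131347493) (nat_lit 526) (nat_lit 5) (nat_lit 525) (nat_lit 5) (nat_lit 549) (nat_lit 5) (nat_lit 391) (nat_lit 385) (nat_lit 244)) (XT.lf (nat_lit 0) (nat_lit 1039290592) (nat_lit 1824) (nat_lit 5428761920) (nat_lit 1900) (nat_lit 10736691282) (nat_lit 502) (nat_lit 5) (nat_lit 526) (nat_lit 5) (nat_lit 527) (nat_lit 5) (nat_lit 392) (nat_lit 385) (nat_lit 243))) (XT.nd (nat_lit 78) (nat_lit 0) (nat_lit 76) (XT.lf (nat_lit 0) (nat_lit 2339083103) (nat_lit 1824) (nat_lit 9409964030) (nat_lit 1900) (nat_lit 5714720008) (nat_lit 503) (nat_lit 5) (nat_lit 527) (nat_lit 5) (nat_lit 528) (nat_lit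 5) (nat_lit 393) (nat_lit 385) (nat_lit 242)) (XT.nd (nat_lit 78) (nat_lit 0) (nat_lit 0) (XT.lf (nat_lit 0) (nat_lit 3776013697) (nat_lit 1824) (nat_lit 13443121357) (nat_lit 1900) (nat_lit 509463250) (nat_lit 504) (nat_lit 5) (nat_lit 528) (nat_lit 5) (nat_lit 529) (nat_lit 5) (nat_lit 394) (nat_lit 385) (nat_lit 241)) (XT.lf (nat_lit 76) (nat_lit 437915161) (nat_lit 0) (nat_lit 4950755048) (nat_lit 1900) (nat_lit 12610051831) (nat_lit 505) (nat_lit 5) (nat_lit 504) (nat_lit 5) (nat_lit 529) (nat_lit 5) (nat_lit 395) (nat_lit 385) (nat_lit 240))))) (XT.nd (nat_lit 156) (nat_lit 0) (nat_lit 76) (XT.nd (nat_lit 78) (nat_lit 0) (nat_lit 76) (XT.lf (nat_lit 0) (nat_lit 7178662851) (nat_lit 1824) (nat_lit 3415683714) (nat_lit 1900) (nat_lit 7680023795) (nat_lit 505) (nat_lit 5) (nat_lit 529) (nat_lit 5) (nat_lit 530) (nat_lit 5) (nat_lit 396) (nat_lit 385) (nat_lit 239)) (XT.lf (nat_lit 0) (nat_lit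 9130204314) (nat_lit 1824) (nat_lit 7311142576) (nat_lit 1900) (nat_lit 2114784260) (nat_lit 506) (nat_lit 5) (nat_lit 530) (nat_lit 5) (nat_lit 531) (nat_lit 5) (nat_lit 397) (nat_lit 385) (nat_lit 238))) (XT.nd (nat_lit 78) (nat_lit 0) (nat_lit 76) (XT.lf (nat_lit 76) (nat_lit 7565289962) (nat_lit 0) (nat_lit 3706313176) (nat_lit 1900) (nat_lit 7572115401) (nat_lit 507) (nat_lit 5) (nat_lit 506) (nat_lit 5) (nat_lit 531) (nat_lit 5) (nat_lit 398) (nat_lit 385) (nat_lit 237)) (XT.nd (nat_lit 78) (nat_lit 0) (nat_lit 76) (XT.lf (nat_lit 76) (nat_lit 3828551292) (nat_lit 0) (nat_lit 9772871334) (nat_lit 1900) (nat_lit 5536027352) (nat_lit 508) (nat_lit 5) (nat_lit 507) (nat_lit 5) (nat_lit 532) (nat_lit 5) (nat_lit 399) (nat_lit 385) (nat_lit 236)) (XT.lf (nat_lit 76) (nat_lit 49029422) (nat_lit 0) (nat_lit 16064295122) (nat_lit 1900) (nat_lit 3324425057) (nat_lit 509) (nat_lit 5) (nat_lit 508) (nat_lit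 5) (nat_lit 533) (nat_lit 5) (nat_lit 400) (nat_lit 385) (nat_lit 235))))))) (XT.nd (nat_lit 780) (nat_lit 2356) (nat_lit 0) (XT.nd (nat_lit 390) (nat_lit 3496) (nat_lit 0) (XT.nd (nat_lit 156) (nat_lit 2964) (nat_lit 0) (XT.nd (nat_lit 78) (nat_lit 1824) (nat_lit 0) (XT.lf (nat_lit 76) (nat_lit 16001705799) (nat_lit 0) (nat_lit 2856454363) (nat_lit 1900) (nat_lit 885746521) (nat_lit 509) (nat_lit 5) (nat_lit 508) (nat_lit 5) (nat_lit 533) (nat_lit 5) (nat_lit 401) (nat_lit 385) (nat_lit 234)) (XT.lf (nat_lit 0) (nat_lit 1745606319) (nat_lit 1900) (nat_lit 7609882793) (nat_lit 76) (nat_lit 10700731400) (nat_lit 484) (nat_lit 5) (nat_lit 509) (nat_lit 5) (nat_lit 485) (nat_lit 5) (nat_lit 402) (nat_lit 385) (nat_lit 233))) (XT.nd (nat_lit 78) (nat_lit 1824) (nat_lit 0) (XT.lf (nat_lit 0) (nat_lit 4563808456) (nat_lit 1216) (nat_lit 11527814833) (nat_lit 76) (nat_lit 4283764522) (nat_lit 469) (nat_lit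 5) (nat_lit 485) (nat_lit 5) (nat_lit 470) (nat_lit 5) (nat_lit 403) (nat_lit 385) (nat_lit 232)) (XT.nd (nat_lit 78) (nat_lit 912) (nat_lit 0) (XT.lf (nat_lit 0) (nat_lit 5195730797) (nat_lit 912) (nat_lit 2408720950) (nat_lit 988) (nat_lit 13096920480) (nat_lit 457) (nat_lit 5) (nat_lit 469) (nat_lit 5) (nat_lit 470) (nat_lit 5) (nat_lit 404) (nat_lit 385) (nat_lit 231)) (XT.lf (nat_lit 0) (nat_lit 1476808955) (nat_lit 912) (nat_lit 9413526652) (nat_lit 988) (nat_lit 10143720143) (nat_lit 445) (nat_lit 5) (nat_lit 457) (nat_lit 5) (nat_lit 458) (nat_lit 5) (nat_lit 405) (nat_lit 385) (nat_lit 230))))) (XT.nd (nat_lit 156) (nat_lit 2660) (nat_lit 0) (XT.nd (nat_lit 78) (nat_lit 836) (nat_lit 0) (XT.lf (nat_lit 0) (nat_lit 14417003376) (nat_lit 988) (nat_lit 2250035722) (nat_lit 76) (nat_lit 4706836533) (nat_lit 445) (nat_lit 5) (nat_lit 458) (nat_lit 5) (nat_lit 446) (nat_lit 5) (nat_lit 406) (nat_lit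 385) (nat_lit 229)) (XT.lf (nat_lit 0) (nat_lit 15710328122) (nat_lit 836) (nat_lit 2494555551) (nat_lit 912) (nat_lit 3515898186) (nat_lit 434) (nat_lit 5) (nat_lit 445) (nat_lit 5) (nat_lit 446) (nat_lit 5) (nat_lit 407) (nat_lit 385) (nat_lit 228))) (XT.nd (nat_lit 78) (nat_lit 1672) (nat_lit 0) (XT.lf (nat_lit 0) (nat_lit 193067654) (nat_lit 988) (nat_lit 9840984813) (nat_lit 76) (nat_lit 12040736455) (nat_lit 421) (nat_lit 5) (nat_lit 434) (nat_lit 5) (nat_lit 422) (nat_lit 5) (nat_lit 408) (nat_lit 385) (nat_lit 227)) (XT.nd (nat_lit 78) (nat_lit 836) (nat_lit 0) (XT.lf (nat_lit 0) (nat_lit 4101301976) (nat_lit 912) (nat_lit 13733140583) (nat_lit 76) (nat_lit 4601793500) (nat_lit 410) (nat_lit 5) (nat_lit 422) (nat_lit 5) (nat_lit 411) (nat_lit 5) (nat_lit 409) (nat_lit 385) (nat_lit 226)) (XT.lf (nat_lit 0) (nat_lit 5121437403) (nat_lit 836) (nat_lit 3163867293) (nat_lit 912) (nat_lit 14520051489)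 (nat_lit 399) (nat_lit 5) (nat_lit 410) (nat_lit 5) (nat_lit 411) (nat_lit 5) (nat_lit 410) (nat_lit 385) (nat_lit 225)))))) (XT.nd (nat_lit 51246) (nat_lit 0) (nat_lit 11704) (XT.nd (nat_lit 156) (nat_lit 1596) (nat_lit 0) (XT.nd (nat_lit 78) (nat_lit 0) (nat_lit 0) (XT.lf (nat_lit 0) (nat_lit 1477923987) (nat_lit 760) (nat_lit 11288982800) (nat_lit 836) (nat_lit 10415201541) (nat_lit 389) (nat_lit 5) (nat_lit 399) (nat_lit 5) (nat_lit 400) (nat_lit 5) (nat_lit 411) (nat_lit 385) (nat_lit 224)) (XT.lf (nat_lit 0) (nat_lit 17540636825) (nat_lit 836) (nat_lit 2166738712) (nat_lit 76) (nat_lit 3859633899) (nat_lit 389) (nat_lit 5) (nat_lit 400) (nat_lit 5) (nat_lit 390) (nat_lit 5) (nat_lit 412) (nat_lit 385) (nat_lit 223))) (XT.nd (nat_lit 78) (nat_lit 836) (nat_lit 0) (XT.lf (nat_lit 0) (nat_lit 18109879292) (nat_lit 760) (nat_lit 4532458211) (nat_lit 836) (nat_lit 1317424901) (nat_lit 379) (nat_lit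 5) (nat_lit 389) (nat_lit 5) (nat_lit 390) (nat_lit 5) (nat_lit 413) (nat_lit 385) (nat_lit 222)) (XT.nd (nat_lit 50934) (nat_lit 0) (nat_lit 11704) (XT.lf (nat_lit 0) (nat_lit 3662227797) (nat_lit 836) (nat_lit 9611832067) (nat_lit 76) (nat_lit 11086263957) (nat_lit 368) (nat_lit 5) (nat_lit 379) (nat_lit 5) (nat_lit 369) (nat_lit 5) (nat_lit 414) (nat_lit 385) (nat_lit 221)) (XT.lf (nat_lit 0) (nat_lit 3079757164) (nat_lit 0) (nat_lit 3079757164) (nat_lit 1748) (nat_lit 1833064479) (nat_lit 522) (nat_lit 5) (nat_lit 522) (nat_lit 3) (nat_lit 545) (nat_lit 3) (nat_lit 386) (nat_lit 386) (nat_lit 248))))) (XT.nd (nat_lit 156) (nat_lit 0) (nat_lit 76) (XT.nd (nat_lit 78) (nat_lit 0) (nat_lit 76) (XT.lf (nat_lit 76) (nat_lit 2157181747) (nat_lit 0) (nat_lit 10787123497) (nat_lit 1824) (nat_lit 3271819915) (nat_lit 523) (nat_lit 5) (nat_lit 522) (nat_lit 5) (nat_lit 546) (nat_lit 5) (nat_lit 387) (nat_lit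 386) (nat_lit 247)) (XT.lf (nat_lit 0) (nat_lit 13686451625) (nat_lit 1748) (nat_lit 1873883529) (nat_lit 1824) (nat_lit 891724342) (nat_lit 523) (nat_lit 5) (nat_lit 546) (nat_lit 5) (nat_lit 547) (nat_lit 5) (nat_lit 388) (nat_lit 386) (nat_lit 246))) (XT.nd (nat_lit 78) (nat_lit 0) (nat_lit 76) (XT.lf (nat_lit 76) (nat_lit 10737216752) (nat_lit 0) (nat_lit 3840729454) (nat_lit 1824) (nat_lit 2114583981) (nat_lit 524) (nat_lit 5) (nat_lit 523) (nat_lit 5) (nat_lit 547) (nat_lit 5) (nat_lit 389) (nat_lit 386) (nat_lit 245)) (XT.nd (nat_lit 78) (nat_lit 0) (nat_lit 76) (XT.lf (nat_lit 76) (nat_lit 6840137311) (nat_lit 0) (nat_lit 8752330057) (nat_lit 1824) (nat_lit 1345821997) (nat_lit 525) (nat_lit 5) (nat_lit 524) (nat_lit 5) (nat_lit 548) (nat_lit 5) (nat_lit 390) (nat_lit 386) (nat_lit 244)) (XT.lf (nat_lit 76) (nat_lit 2892310760) (nat_lit 0) (nat_lit 13837706773) (nat_lit 1824) (nat_lit 459551917)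 (nat_lit 526) (nat_lit 5) (nat_lit 525) (nat_lit 5) (nat_lit 549) (nat_lit 5) (nat_lit 391) (nat_lit 386) (nat_lit 243))))))))
noncomputable def xc121 : XT := (XT.nd (nat_lit 1482) (nat_lit 2356) (nat_lit 0) (XT.nd (nat_lit 702) (nat_lit 6916) (nat_lit 0) (XT.nd (nat_lit 312) (nat_lit 0) (nat_lit 228) (XT.nd (nat_lit 156) (nat_lit 0) (nat_lit 152) (XT.nd (nat_lit 78) (nat_lit 0) (nat_lit 76) (XT.lf (nat_lit 0) (nat_lit 561087491) (nat_lit 1824) (nat_lit 1106847080) (nat_lit 1900) (nat_lit 15778119976) (nat_lit 501) (nat_lit 5) (nat_lit 525) (nat_lit 5) (nat_lit 526) (nat_lit 5) (nat_lit 392) (nat_lit 386) (nat_lit 242)) (XT.lf (nat_lit 0) (nat_lit 1746027186) (nat_lit 1824) (nat_lit 5146416487) (nat_lit 1900) (nat_lit 10814931277) (nat_lit 502) (nat_lit 5) (nat_lit 526) (nat_lit 5) (nat_lit 527) (nat_lit 5) (nat_lit 393) (nat_lit 386) (nat_lit 241))) (XT.nd (nat_lit 78) (nat_lit 0) (nat_lit 76) (XT.lf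 (nat_lit 0) (nat_lit 3066547532) (nat_lit 1824) (nat_lit 9239669944) (nat_lit 1900) (nat_lit 5668316841) (nat_lit 503) (nat_lit 5) (nat_lit 527) (nat_lit 5) (nat_lit 528) (nat_lit 5) (nat_lit 394) (nat_lit 386) (nat_lit 240)) (XT.lf (nat_lit 0) (nat_lit 4529061291) (nat_lit 1824) (nat_lit 13387072820) (nat_lit 1900) (nat_lit 331526797) (nat_lit 504) (nat_lit 5) (nat_lit 528) (nat_lit 5) (nat_lit 529) (nat_lit 5) (nat_lit 395) (nat_lit 386) (nat_lit 239)))) (XT.nd (nat_lit 156) (nat_lit 0) (nat_lit 152) (XT.nd (nat_lit 78) (nat_lit 0) (nat_lit 76) (XT.lf (nat_lit 76) (nat_lit 902942511) (nat_lit 0) (nat_lit 5271454961) (nat_lit 1900) (nat_lit 12351804886) (nat_lit 505) (nat_lit 5) (nat_lit 504) (nat_lit 5) (nat_lit 529) (nat_lit 5) (nat_lit 396) (nat_lit 386) (nat_lit 238)) (XT.lf (nat_lit 0) (nat_lit 7998827851) (nat_lit 1824) (nat_lit 3066223034) (nat_lit 1900) (nat_lit 7745454485) (nat_lit 505)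 (nat_lit 5) (nat_lit 529) (nat_lit 5) (nat_lit 530) (nat_lit 5) (nat_lit 397) (nat_lit 386) (nat_lit 237))) (XT.nd (nat_lit 78) (nat_lit 0) (nat_lit 0) (XT.lf (nat_lit 0) (nat_lit 9993241974) (nat_lit 1824) (nat_lit 7073131654) (nat_lit 1900) (nat_lit 2034658825) (nat_lit 506) (nat_lit 5) (nat_lit 530) (nat_lit 5) (nat_lit 531) (nat_lit 5) (nat_lit 398) (nat_lit 386) (nat_lit 236)) (XT.nd (nat_lit 78) (nat_lit 0) (nat_lit 76) (XT.lf (nat_lit 76) (nat_lit 8242173978) (nat_lit 0) (nat_lit 3942470829) (nat_lit 1900) (nat_lit 7212887418) (nat_lit 507) (nat_lit 5) (nat_lit 506) (nat_lit 5) (nat_lit 531) (nat_lit 5) (nat_lit 399) (nat_lit 386) (nat_lit 235)) (XT.lf (nat_lit 76) (nat_lit 4398143189) (nat_lit 0) (nat_lit 10171635915) (nat_lit 1900) (nat_lit 5130588096) (nat_lit 508) (nat_lit 5) (nat_lit 507) (nat_lit 5) (nat_lit 532) (nat_lit 5) (nat_lit 400) (nat_lit 386) (nat_lit 234)))))) (XT.nd (nat_lit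 390) (nat_lit 3572) (nat_lit 0) (XT.nd (nat_lit 156) (nat_lit 3876) (nat_lit 0) (XT.nd (nat_lit 78) (nat_lit 0) (nat_lit 0) (XT.lf (nat_lit 76) (nat_lit 509556954) (nat_lit 0) (nat_lit 16633476288) (nat_lit 1900) (nat_lit 2866922669) (nat_lit 509) (nat_lit 5) (nat_lit 508) (nat_lit 5) (nat_lit 533) (nat_lit 5) (nat_lit 401) (nat_lit 386) (nat_lit 233)) (XT.lf (nat_lit 76) (nat_lit 16927443040) (nat_lit 0) (nat_lit 3026858976) (nat_lit 1900) (nat_lit 371313925) (nat_lit 509) (nat_lit 5) (nat_lit 508) (nat_lit 5) (nat_lit 533) (nat_lit 5) (nat_lit 402) (nat_lit 386) (nat_lit 232))) (XT.nd (nat_lit 78) (nat_lit 2052) (nat_lit 0) (XT.lf (nat_lit 0) (nat_lit 2318733176) (nat_lit 1900) (nat_lit 7381826411) (nat_lit 76) (nat_lit 10946932367) (nat_lit 484) (nat_lit 5) (nat_lit 509) (nat_lit 5) (nat_lit 485) (nat_lit 5) (nat_lit 403) (nat_lit 386) (nat_lit 231)) (XT.nd (nat_lit 78) (nat_lit 912) (nat_lit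 0) (XT.lf (nat_lit 0) (nat_lit 5208841843) (nat_lit 1216) (nat_lit 11414143397) (nat_lit 76) (nat_lit 4353501823) (nat_lit 469) (nat_lit 5) (nat_lit 485) (nat_lit 5) (nat_lit 470) (nat_lit 5) (nat_lit 404) (nat_lit 386) (nat_lit 230)) (XT.lf (nat_lit 0) (nat_lit 5803653664) (nat_lit 912) (nat_lit 2525186196) (nat_lit 988) (nat_lit 12983648442) (nat_lit 457) (nat_lit 5) (nat_lit 469) (nat_lit 5) (nat_lit 470) (nat_lit 5) (nat_lit 405) (nat_lit 386) (nat_lit 229))))) (XT.nd (nat_lit 156) (nat_lit 2660) (nat_lit 0) (XT.nd (nat_lit 78) (nat_lit 0) (nat_lit 0) (XT.lf (nat_lit 0) (nat_lit 1975876589) (nat_lit 912) (nat_lit 9725643616) (nat_lit 988) (nat_lit 9953867727) (nat_lit 445) (nat_lit 5) (nat_lit 457) (nat_lit 5) (nat_lit 458) (nat_lit 5) (nat_lit 406) (nat_lit 386) (nat_lit 228)) (XT.lf (nat_lit 0) (nat_lit 15319689813) (nat_lit 988) (nat_lit 1866424405) (nat_lit 76) (nat_lit 4819574156) (nat_lit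 445) (nat_lit 5) (nat_lit 458) (nat_lit 5) (nat_lit 446) (nat_lit 5) (nat_lit 407) (nat_lit 386) (nat_lit 227))) (XT.nd (nat_lit 78) (nat_lit 1824) (nat_lit 0) (XT.lf (nat_lit 0) (nat_lit 16625431592) (nat_lit 836) (nat_lit 2584961873) (nat_lit 912) (nat_lit 3152824584) (nat_lit 434) (nat_lit 5) (nat_lit 445) (nat_lit 5) (nat_lit 446) (nat_lit 5) (nat_lit 408) (nat_lit 386) (nat_lit 226)) (XT.nd (nat_lit 78) (nat_lit 836) (nat_lit 0) (XT.lf (nat_lit 0) (nat_lit 650611342) (nat_lit 988) (nat_lit 9684479552) (nat_lit 76) (nat_lit 12392906663) (nat_lit 421) (nat_lit 5) (nat_lit 434) (nat_lit 5) (nat_lit 422) (nat_lit 5) (nat_lit 409) (nat_lit 386) (nat_lit 225)) (XT.lf (nat_lit 0) (nat_lit 4665839259) (nat_lit 912) (nat_lit 13691918274) (nat_lit 76) (nat_lit 4742735644) (nat_lit 410) (nat_lit 5) (nat_lit 422) (nat_lit 5) (nat_lit 411) (nat_lit 5) (nat_lit 410) (nat_lit 386) (nat_lit 224))))))) (XT.nd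 (nat_lit 51714) (nat_lit 0) (nat_lit 9272) (XT.nd (nat_lit 51324) (nat_lit 0) (nat_lit 9272) (XT.nd (nat_lit 156) (nat_lit 760) (nat_lit 0) (XT.nd (nat_lit 78) (nat_lit 760) (nat_lit 0) (XT.lf (nat_lit 0) (nat_lit 5720944152) (nat_lit 836) (nat_lit 3244453578) (nat_lit 912) (nat_lit 14515488462) (nat_lit 399) (nat_lit 5) (nat_lit 410) (nat_lit 5) (nat_lit 411) (nat_lit 5) (nat_lit 411) (nat_lit 386) (nat_lit 223)) (XT.lf (nat_lit 0) (nat_lit 1969290853) (nat_lit 760) (nat_lit 11602580821) (nat_lit 836) (nat_lit 10297260750) (nat_lit 389) (nat_lit 5) (nat_lit 399) (nat_lit 5) (nat_lit 400) (nat_lit 5) (nat_lit 412) (nat_lit 386) (nat_lit 222))) (XT.nd (nat_lit 78) (nat_lit 760) (nat_lit 0) (XT.lf (nat_lit 0) (nat_lit 18476681623) (nat_lit 836) (nat_lit 1789696680) (nat_lit 76) (nat_lit 3999444903) (nat_lit 389) (nat_lit 5) (nat_lit 400) (nat_lit 5) (nat_lit 390) (nat_lit 5) (nat_lit 413) (nat_lit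 386) (nat_lit 221)) (XT.nd (nat_lit 51012) (nat_lit 0) (nat_lit 10868) (XT.lf (nat_lit 0) (nat_lit 19088048223) (nat_lit 760) (nat_lit 4634271909) (nat_lit 836) (nat_lit 948220894) (nat_lit 379) (nat_lit 5) (nat_lit 389) (nat_lit 5) (nat_lit 390) (nat_lit 5) (nat_lit 414) (nat_lit 386) (nat_lit 220)) (XT.lf (nat_lit 0) (nat_lit 3365701449) (nat_lit 0) (nat_lit 3365701449) (nat_lit 1748) (nat_lit 1493211211) (nat_lit 522) (nat_lit 5) (nat_lit 522) (nat_lit 3) (nat_lit 545) (nat_lit 3) (nat_lit 387) (nat_lit 387) (nat_lit 246))))) (XT.nd (nat_lit 156) (nat_lit 1596) (nat_lit 0) (XT.nd (nat_lit 78) (nat_lit 0) (nat_lit 76) (XT.lf (nat_lit 76) (nat_lit 2620425519) (nat_lit 0) (nat_lit 11464012847) (nat_lit 1824) (nat_lit 2603134468) (nat_lit 523) (nat_lit 5) (nat_lit 522) (nat_lit 5) (nat_lit 546) (nat_lit 5) (nat_lit 388) (nat_lit 387) (nat_lit 245)) (XT.lf (nat_lit 0) (nat_lit 14824725043) (nat_lit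 1748) (nat_lit 1526354308) (nat_lit 1824) (nat_lit 579988333) (nat_lit 523) (nat_lit 5) (nat_lit 546) (nat_lit 5) (nat_lit 547) (nat_lit 5) (nat_lit 389) (nat_lit 387) (nat_lit 244))) (XT.nd (nat_lit 78) (nat_lit 1672) (nat_lit 0) (XT.lf (nat_lit 76) (nat_lit 11456528687) (nat_lit 0) (nat_lit 4267820072) (nat_lit 1824) (nat_lit 1454776051) (nat_lit 524) (nat_lit 5) (nat_lit 523) (nat_lit 5) (nat_lit 547) (nat_lit 5) (nat_lit 390) (nat_lit 387) (nat_lit 243)) (XT.nd (nat_lit 78) (nat_lit 1748) (nat_lit 0) (XT.lf (nat_lit 76) (nat_lit 7452036055) (nat_lit 0) (nat_lit 9297291795) (nat_lit 1824) (nat_lit 683328466) (nat_lit 525) (nat_lit 5) (nat_lit 524) (nat_lit 5) (nat_lit 548) (nat_lit 5) (nat_lit 391) (nat_lit 387) (nat_lit 242)) (XT.lf (nat_lit 0) (nat_lit 207239428) (nat_lit 1824) (nat_lit 14298682848) (nat_lit 1900) (nat_lit 3185908323) (nat_lit 501) (nat_lit 5) (nat_lit 525) (nat_lit 5) (nat_lit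 526) (nat_lit 5) (nat_lit 392) (nat_lit 387) (nat_lit 241)))))) (XT.nd (nat_lit 390) (nat_lit 0) (nat_lit 304) (XT.nd (nat_lit 156) (nat_lit 0) (nat_lit 152) (XT.nd (nat_lit 78) (nat_lit 0) (nat_lit 76) (XT.lf (nat_lit 0) (nat_lit 1232648255) (nat_lit 1824) (nat_lit 727993875) (nat_lit 1900) (nat_lit 15995699489) (nat_lit 501) (nat_lit 5) (nat_lit 525) (nat_lit 5) (nat_lit 526) (nat_lit 5) (nat_lit 393) (nat_lit 387) (nat_lit 240)) (XT.lf (nat_lit 0) (nat_lit 2435186093) (nat_lit 1824) (nat_lit 4881157468) (nat_lit 1900) (nat_lit 10909517076) (nat_lit 502) (nat_lit 5) (nat_lit 526) (nat_lit 5) (nat_lit 527) (nat_lit 5) (nat_lit 394) (nat_lit 387) (nat_lit 239))) (XT.nd (nat_lit 78) (nat_lit 0) (nat_lit 76) (XT.lf (nat_lit 0) (nat_lit 3778104647) (nat_lit 1824) (nat_lit 9090247726) (nat_lit 1900) (nat_lit 5633026760) (nat_lit 503) (nat_lit 5) (nat_lit 527) (nat_lit 5) (nat_lit 528) (nat_lit 5) (nat_lit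 395) (nat_lit 387) (nat_lit 238)) (XT.nd (nat_lit 78) (nat_lit 0) (nat_lit 0) (XT.lf (nat_lit 0) (nat_lit 5267975060) (nat_lit 1824) (nat_lit 13355710948) (nat_lit 1900) (nat_lit 159343890) (nat_lit 504) (nat_lit 5) (nat_lit 528) (nat_lit 5) (nat_lit 529) (nat_lit 5) (nat_lit 396) (nat_lit 387) (nat_lit 237)) (XT.lf (nat_lit 76) (nat_lit 1355980354) (nat_lit 0) (nat_lit 5591892191) (nat_lit 1900) (nat_lit 12122351021) (nat_lit 505) (nat_lit 5) (nat_lit 504) (nat_lit 5) (nat_lit 529) (nat_lit 5) (nat_lit 397) (nat_lit 387) (nat_lit 236))))) (XT.nd (nat_lit 156) (nat_lit 0) (nat_lit 76) (XT.nd (nat_lit 78) (nat_lit 0) (nat_lit 76) (XT.lf (nat_lit 0) (nat_lit 8808879513) (nat_lit 1824) (nat_lit 2732221232) (nat_lit 1900) (nat_lit 7822318049) (nat_lit 505) (nat_lit 5) (nat_lit 529) (nat_lit 5) (nat_lit 530) (nat_lit 5) (nat_lit 398) (nat_lit 387) (nat_lit 235)) (XT.lf (nat_lit 0) (nat_lit 10848352205)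 (nat_lit 1824) (nat_lit 6854233889) (nat_lit 1900) (nat_lit 1960371073) (nat_lit 506) (nat_lit 5) (nat_lit 530) (nat_lit 5) (nat_lit 531) (nat_lit 5) (nat_lit 399) (nat_lit 387) (nat_lit 234))) (XT.nd (nat_lit 78) (nat_lit 0) (nat_lit 76) (XT.lf (nat_lit 76) (nat_lit 8913536960) (nat_lit 0) (nat_lit 4178539521) (nat_lit 1900) (nat_lit 6876543863) (nat_lit 507) (nat_lit 5) (nat_lit 506) (nat_lit 5) (nat_lit 531) (nat_lit 5) (nat_lit 400) (nat_lit 387) (nat_lit 233)) (XT.nd (nat_lit 78) (nat_lit 0) (nat_lit 76) (XT.lf (nat_lit 76) (nat_lit 4958719173) (nat_lit 0) (nat_lit 10576302800) (nat_lit 1900) (nat_lit 4745793254) (nat_lit 508) (nat_lit 5) (nat_lit 507) (nat_lit 5) (nat_lit 532) (nat_lit 5) (nat_lit 401) (nat_lit 387) (nat_lit 232)) (XT.lf (nat_lit 76) (nat_lit 957548582) (nat_lit 0) (nat_lit 17214724249) (nat_lit 1900) (nat_lit 2427682785) (nat_lit 509) (nat_lit 5) (nat_lit 508) (nat_lit 5)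 (nat_lit 533) (nat_lit 5) (nat_lit 402) (nat_lit 387) (nat_lit 231))))))))
noncomputable def xc122 : XT := (XT.nd (nat_lit 52494) (nat_lit 0) (nat_lit 760) (XT.nd (nat_lit 702) (nat_lit 1596) (nat_lit 0) (XT.nd (nat_lit 312) (nat_lit 3572) (nat_lit 0) (XT.nd (nat_lit 156) (nat_lit 1976) (nat_lit 0) (XT.nd (nat_lit 78) (nat_lit 0) (nat_lit 76) (XT.lf (nat_lit 0) (nat_lit 125823617) (nat_lit 1900) (nat_lit 3070845011) (nat_lit 1976) (nat_lit 17728700234) (nat_lit 483) (nat_lit 5) (nat_lit 508) (nat_lit 5) (nat_lit 509) (nat_lit 5) (nat_lit 403) (nat_lit 387) (nat_lit 230)) (XT.lf (nat_lit 0) (nat_lit 2879160161) (nat_lit 1900) (nat_lit 7173124859) (nat_lit 76) (nat_lit 11204814392) (nat_lit 484) (nat_lit 5) (nat_lit 509) (nat_lit 5) (nat_lit 485) (nat_lit 5) (nat_lit 404) (nat_lit 387) (nat_lit 229))) (XT.nd (nat_lit 78) (nat_lit 912) (nat_lit 0) (XT.lf (nat_lit 0) (nat_lit 5844058114) (nat_lit 1216)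 (nat_lit 11323439336) (nat_lit 76) (nat_lit 4428705204) (nat_lit 469) (nat_lit 5) (nat_lit 485) (nat_lit 5) (nat_lit 470) (nat_lit 5) (nat_lit 405) (nat_lit 387) (nat_lit 228)) (XT.lf (nat_lit 0) (nat_lit 6403864644) (nat_lit 912) (nat_lit 2642607931) (nat_lit 988) (nat_lit 12896035026) (nat_lit 457) (nat_lit 5) (nat_lit 469) (nat_lit 5) (nat_lit 470) (nat_lit 5) (nat_lit 406) (nat_lit 387) (nat_lit 227)))) (XT.nd (nat_lit 156) (nat_lit 2660) (nat_lit 0) (XT.nd (nat_lit 78) (nat_lit 0) (nat_lit 0) (XT.lf (nat_lit 0) (nat_lit 2463810975) (nat_lit 912) (nat_lit 10045418547) (nat_lit 988) (nat_lit 9786686774) (nat_lit 445) (nat_lit 5) (nat_lit 457) (nat_lit 5) (nat_lit 458) (nat_lit 5) (nat_lit 407) (nat_lit 387) (nat_lit 226)) (XT.lf (nat_lit 0) (nat_lit 16222466798) (nat_lit 988) (nat_lit 1497200445) (nat_lit 76) (nat_lit 4937328056) (nat_lit 445) (nat_lit 5) (nat_lit 458) (nat_lit 5) (nat_lit 446)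 (nat_lit 5) (nat_lit 408) (nat_lit 387) (nat_lit 225))) (XT.nd (nat_lit 78) (nat_lit 1824) (nat_lit 0) (XT.lf (nat_lit 0) (nat_lit 17542512596) (nat_lit 836) (nat_lit 2677186623) (nat_lit 912) (nat_lit 2805755492) (nat_lit 434) (nat_lit 5) (nat_lit 445) (nat_lit 5) (nat_lit 446) (nat_lit 5) (nat_lit 409) (nat_lit 387) (nat_lit 224)) (XT.nd (nat_lit 78) (nat_lit 836) (nat_lit 0) (XT.lf (nat_lit 0) (nat_lit 1095948947) (nat_lit 988) (nat_lit 9549210559) (nat_lit 76) (nat_lit 12756161592) (nat_lit 421) (nat_lit 5) (nat_lit 434) (nat_lit 5) (nat_lit 422) (nat_lit 5) (nat_lit 410) (nat_lit 387) (nat_lit 223)) (XT.lf (nat_lit 0) (nat_lit 5221968855) (nat_lit 912) (nat_lit 13675475778) (nat_lit 76) (nat_lit 4887740251) (nat_lit 410) (nat_lit 5) (nat_lit 422) (nat_lit 5) (nat_lit 411) (nat_lit 5) (nat_lit 411) (nat_lit 387) (nat_lit 222)))))) (XT.nd (nat_lit 51402) (nat_lit 0) (nat_lit 8512) (XT.nd (nat_lit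 156) (nat_lit 0) (nat_lit 0) (XT.nd (nat_lit 78) (nat_lit 760) (nat_lit 0) (XT.lf (nat_lit 0) (nat_lit 6312841708) (nat_lit 836) (nat_lit 3328280037) (nat_lit 912) (nat_lit 14536055792) (nat_lit 399) (nat_lit 5) (nat_lit 410) (nat_lit 5) (nat_lit 411) (nat_lit 5) (nat_lit 412) (nat_lit 387) (nat_lit 221)) (XT.lf (nat_lit 0) (nat_lit 2449737423) (nat_lit 760) (nat_lit 11927025987) (nat_lit 836) (nat_lit 10200488274) (nat_lit 389) (nat_lit 5) (nat_lit 399) (nat_lit 5) (nat_lit 400) (nat_lit 5) (nat_lit 413) (nat_lit 387) (nat_lit 220))) (XT.nd (nat_lit 51090) (nat_lit 0) (nat_lit 10108) (XT.lf (nat_lit 0) (nat_lit 19417282093) (nat_lit 836) (nat_lit 1426718532) (nat_lit 76) (nat_lit 4142071276) (nat_lit 389) (nat_lit 5) (nat_lit 400) (nat_lit 5) (nat_lit 390) (nat_lit 5) (nat_lit 414) (nat_lit 387) (nat_lit 219)) (XT.nd (nat_lit 78) (nat_lit 0) (nat_lit 0) (XT.lf (nat_lit 0) (nat_lit 3649113410) (nat_lit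 0) (nat_lit 3649113410) (nat_lit 1748) (nat_lit 1165828075) (nat_lit 522) (nat_lit 5) (nat_lit 522) (nat_lit 3) (nat_lit 545) (nat_lit 3) (nat_lit 388) (nat_lit 388) (nat_lit 244)) (XT.lf (nat_lit 76) (nat_lit 3074689448) (nat_lit 0) (nat_lit 12140929411) (nat_lit 1824) (nat_lit 1958408213) (nat_lit 523) (nat_lit 5) (nat_lit 522) (nat_lit 5) (nat_lit 546) (nat_lit 5) (nat_lit 389) (nat_lit 388) (nat_lit 243))))) (XT.nd (nat_lit 156) (nat_lit 1672) (nat_lit 0) (XT.nd (nat_lit 78) (nat_lit 0) (nat_lit 0) (XT.lf (nat_lit 0) (nat_lit 15955374863) (nat_lit 1748) (nat_lit 1191575867) (nat_lit 1824) (nat_lit 278330824) (nat_lit 523) (nat_lit 5) (nat_lit 546) (nat_lit 5) (nat_lit 547) (nat_lit 5) (nat_lit 390) (nat_lit 388) (nat_lit 242)) (XT.lf (nat_lit 76) (nat_lit 12174619337) (nat_lit 0) (nat_lit 4689820867) (nat_lit 1824) (nat_lit 816691131) (nat_lit 524) (nat_lit 5) (nat_lit 523) (nat_lit 5) (nat_lit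 547) (nat_lit 5) (nat_lit 391) (nat_lit 388) (nat_lit 241))) (XT.nd (nat_lit 78) (nat_lit 1748) (nat_lit 0) (XT.lf (nat_lit 76) (nat_lit 8058945826) (nat_lit 0) (nat_lit 9842391939) (nat_lit 1824) (nat_lit 41307640) (nat_lit 525) (nat_lit 5) (nat_lit 524) (nat_lit 5) (nat_lit 548) (nat_lit 5) (nat_lit 392) (nat_lit 388) (nat_lit 240)) (XT.nd (nat_lit 78) (nat_lit 0) (nat_lit 0) (XT.lf (nat_lit 0) (nat_lit 849114999) (nat_lit 1824) (nat_lit 14327586423) (nat_lit 1900) (nat_lit 3033170926) (nat_lit 501) (nat_lit 5) (nat_lit 525) (nat_lit 5) (nat_lit 526) (nat_lit 5) (nat_lit 393) (nat_lit 388) (nat_lit 239)) (XT.lf (nat_lit 0) (nat_lit 1886771769) (nat_lit 1824) (nat_lit 361428924) (nat_lit 1900) (nat_lit 16234488293) (nat_lit 501) (nat_lit 5) (nat_lit 525) (nat_lit 5) (nat_lit 526) (nat_lit 5) (nat_lit 394) (nat_lit 388) (nat_lit 238))))))) (XT.nd (nat_lit 780) (nat_lit 6384) (nat_lit 0) (XT.nd (nat_lit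 390) (nat_lit 1444) (nat_lit 0) (XT.nd (nat_lit 156) (nat_lit 0) (nat_lit 76) (XT.nd (nat_lit 78) (nat_lit 0) (nat_lit 76) (XT.lf (nat_lit 0) (nat_lit 3108466099) (nat_lit 1824) (nat_lit 4632030392) (nat_lit 1900) (nat_lit 11020135477) (nat_lit 502) (nat_lit 5) (nat_lit 526) (nat_lit 5) (nat_lit 527) (nat_lit 5) (nat_lit 395) (nat_lit 388) (nat_lit 237)) (XT.lf (nat_lit 0) (nat_lit 4475443158) (nat_lit 1824) (nat_lit 8960832133) (nat_lit 1900) (nat_lit 5608465309) (nat_lit 503) (nat_lit 5) (nat_lit 527) (nat_lit 5) (nat_lit 528) (nat_lit 5) (nat_lit 396) (nat_lit 388) (nat_lit 236))) (XT.nd (nat_lit 78) (nat_lit 0) (nat_lit 76) (XT.lf (nat_lit 76) (nat_lit 5986838935) (nat_lit 0) (nat_lit 7649901) (nat_lit 1900) (nat_lit 13340662468) (nat_lit 504) (nat_lit 5) (nat_lit 503) (nat_lit 5) (nat_lit 528) (nat_lit 5) (nat_lit 397) (nat_lit 388) (nat_lit 235)) (XT.nd (nat_lit 78) (nat_lit 0) (nat_lit 76)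 (XT.lf (nat_lit 76) (nat_lit 1798158084) (nat_lit 0) (nat_lit 5912626223) (nat_lit 1900) (nat_lit 11920456454) (nat_lit 505) (nat_lit 5) (nat_lit 504) (nat_lit 5) (nat_lit 529) (nat_lit 5) (nat_lit 398) (nat_lit 388) (nat_lit 234)) (XT.lf (nat_lit 0) (nat_lit 9610507409) (nat_lit 1824) (nat_lit 2412652858) (nat_lit 1900) (nat_lit 7910413861) (nat_lit 505) (nat_lit 5) (nat_lit 529) (nat_lit 5) (nat_lit 530) (nat_lit 5) (nat_lit 399) (nat_lit 388) (nat_lit 233))))) (XT.nd (nat_lit 156) (nat_lit 1748) (nat_lit 0) (XT.nd (nat_lit 78) (nat_lit 0) (nat_lit 0) (XT.lf (nat_lit 0) (nat_lit 11697238506) (nat_lit 1824) (nat_lit 6653515620) (nat_lit 1900) (nat_lit 1891623042) (nat_lit 506) (nat_lit 5) (nat_lit 530) (nat_lit 5) (nat_lit 531) (nat_lit 5) (nat_lit 400) (nat_lit 388) (nat_lit 232)) (XT.lf (nat_lit 76) (nat_lit 9580695886) (nat_lit 0) (nat_lit 4414928385) (nat_lit 1900) (nat_lit 6561838974) (nat_lit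 507) (nat_lit 5) (nat_lit 506) (nat_lit 5) (nat_lit 531) (nat_lit 5) (nat_lit 401) (nat_lit 388) (nat_lit 231))) (XT.nd (nat_lit 78) (nat_lit 1824) (nat_lit 0) (XT.lf (nat_lit 76) (nat_lit 5511507225) (nat_lit 0) (nat_lit 10987396962) (nat_lit 1900) (nat_lit 4380378866) (nat_lit 508) (nat_lit 5) (nat_lit 507) (nat_lit 5) (nat_lit 532) (nat_lit 5) (nat_lit 402) (nat_lit 388) (nat_lit 230)) (XT.nd (nat_lit 78) (nat_lit 1900) (nat_lit 0) (XT.lf (nat_lit 76) (nat_lit 1394140927) (nat_lit 0) (nat_lit 17808688526) (nat_lit 1900) (nat_lit 2005417063) (nat_lit 509) (nat_lit 5) (nat_lit 508) (nat_lit 5) (nat_lit 533) (nat_lit 5) (nat_lit 403) (nat_lit 388) (nat_lit 229)) (XT.lf (nat_lit 0) (nat_lit 603970102) (nat_lit 1900) (nat_lit 2760679912) (nat_lit 1976) (nat_lit 18178992479) (nat_lit 483) (nat_lit 5) (nat_lit 508) (nat_lit 5) (nat_lit 509) (nat_lit 5) (nat_lit 404) (nat_lit 388) (nat_lit 228)))))) (XT.nd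 (nat_lit 390) (nat_lit 3496) (nat_lit 0) (XT.nd (nat_lit 156) (nat_lit 1824) (nat_lit 0) (XT.nd (nat_lit 78) (nat_lit 1140) (nat_lit 0) (XT.lf (nat_lit 0) (nat_lit 3428222298) (nat_lit 1900) (nat_lit 6982854995) (nat_lit 76) (nat_lit 11474481356) (nat_lit 484) (nat_lit 5) (nat_lit 509) (nat_lit 5) (nat_lit 485) (nat_lit 5) (nat_lit 405) (nat_lit 388) (nat_lit 227)) (XT.lf (nat_lit 0) (nat_lit 6470837126) (nat_lit 1216) (nat_lit 11254877493) (nat_lit 76) (nat_lit 4509344970) (nat_lit 469) (nat_lit 5) (nat_lit 485) (nat_lit 5) (nat_lit 470) (nat_lit 5) (nat_lit 406) (nat_lit 388) (nat_lit 226))) (XT.nd (nat_lit 78) (nat_lit 912) (nat_lit 0) (XT.lf (nat_lit 0) (nat_lit 6997621992) (nat_lit 912) (nat_lit 2761160511) (nat_lit 988) (nat_lit 12833182012) (nat_lit 457) (nat_lit 5) (nat_lit 469) (nat_lit 5) (nat_lit 470) (nat_lit 5) (nat_lit 407) (nat_lit 388) (nat_lit 225)) (XT.nd (nat_lit 78) (nat_lit 0)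 (nat_lit 0) (XT.lf (nat_lit 0) (nat_lit 2941776664) (nat_lit 912) (nat_lit 10373179089) (nat_lit 988) (nat_lit 9641229045) (nat_lit 445) (nat_lit 5) (nat_lit 457) (nat_lit 5) (nat_lit 458) (nat_lit 5) (nat_lit 408) (nat_lit 388) (nat_lit 224)) (XT.lf (nat_lit 0) (nat_lit 17126886386) (nat_lit 988) (nat_lit 1141308943) (nat_lit 76) (nat_lit 5060154917) (nat_lit 445) (nat_lit 5) (nat_lit 458) (nat_lit 5) (nat_lit 446) (nat_lit 5) (nat_lit 409) (nat_lit 388) (nat_lit 223))))) (XT.nd (nat_lit 156) (nat_lit 1672) (nat_lit 0) (XT.nd (nat_lit 78) (nat_lit 988) (nat_lit 0) (XT.lf (nat_lit 0) (nat_lit 18463092863) (nat_lit 836) (nat_lit 2771335658) (nat_lit 912) (nat_lit 2473627065) (nat_lit 434) (nat_lit 5) (nat_lit 445) (nat_lit 5) (nat_lit 446) (nat_lit 5) (nat_lit 410) (nat_lit 388) (nat_lit 222)) (XT.lf (nat_lit 0) (nat_lit 1530202912) (nat_lit 988) (nat_lit 9434326352) (nat_lit 76) (nat_lit 13130803957)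 (nat_lit 421) (nat_lit 5) (nat_lit 434) (nat_lit 5) (nat_lit 422) (nat_lit 5) (nat_lit 411) (nat_lit 388) (nat_lit 221))) (XT.nd (nat_lit 78) (nat_lit 836) (nat_lit 0) (XT.lf (nat_lit 0) (nat_lit 5770893374) (nat_lit 912) (nat_lit 13683063037) (nat_lit 76) (nat_lit 5036938711) (nat_lit 410) (nat_lit 5) (nat_lit 422) (nat_lit 5) (nat_lit 411) (nat_lit 5) (nat_lit 412) (nat_lit 388) (nat_lit 220)) (XT.nd (nat_lit 51246) (nat_lit 0) (nat_lit 9348) (XT.lf (nat_lit 0) (nat_lit 6898371017) (nat_lit 836) (nat_lit 3415396656) (nat_lit 912) (nat_lit 14581056944) (nat_lit 399) (nat_lit 5) (nat_lit 410) (nat_lit 5) (nat_lit 411) (nat_lit 5) (nat_lit 413) (nat_lit 388) (nat_lit 219)) (XT.lf (nat_lit 0) (nat_lit 3930554875) (nat_lit 0) (nat_lit 3930554875) (nat_lit 1748) (nat_lit 849988070) (nat_lit 522) (nat_lit 5) (nat_lit 522) (nat_lit 3) (nat_lit 545) (nat_lit 3) (nat_lit 389) (nat_lit 389) (nat_lit 242))))))))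
noncomputable def xc123 : XT := (XT.nd (nat_lit 1560) (nat_lit 2660) (nat_lit 0) (XT.nd (nat_lit 780) (nat_lit 4180) (nat_lit 0) (XT.nd (nat_lit 390) (nat_lit 0) (nat_lit 76) (XT.nd (nat_lit 156) (nat_lit 1672) (nat_lit 0) (XT.nd (nat_lit 78) (nat_lit 0) (nat_lit 0) (XT.lf (nat_lit 76) (nat_lit 3521017381) (nat_lit 0) (nat_lit 12819038129) (nat_lit 1824) (nat_lit 1335833013) (nat_lit 523) (nat_lit 5) (nat_lit 522) (nat_lit 5) (nat_lit 546) (nat_lit 5) (nat_lit 390) (nat_lit 389) (nat_lit 241)) (XT.lf (nat_lit 76) (nat_lit 17066414665) (nat_lit 0) (nat_lit 14248089) (nat_lit 1824) (nat_lit 854444712) (nat_lit 523) (nat_lit 5) (nat_lit 522) (nat_lit 5) (nat_lit 546) (nat_lit 5) (nat_lit 391) (nat_lit 389) (nat_lit 240))) (XT.nd (nat_lit 78) (nat_lit 1748) (nat_lit 0) (XT.lf (nat_lit 76) (nat_lit 12892760914) (nat_lit 0) (nat_lit 5107606824) (nat_lit 1824) (nat_lit 198597651) (nat_lit 524) (nat_lit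 5) (nat_lit 523) (nat_lit 5) (nat_lit 547) (nat_lit 5) (nat_lit 392) (nat_lit 389) (nat_lit 239)) (XT.nd (nat_lit 78) (nat_lit 0) (nat_lit 76) (XT.lf (nat_lit 0) (nat_lit 574310134) (nat_lit 1824) (nat_lit 9810401128) (nat_lit 1900) (nat_lit 8083893050) (nat_lit 500) (nat_lit 5) (nat_lit 524) (nat_lit 5) (nat_lit 525) (nat_lit 5) (nat_lit 393) (nat_lit 389) (nat_lit 238)) (XT.lf (nat_lit 0) (nat_lit 1473757446) (nat_lit 1824) (nat_lit 14380322009) (nat_lit 1900) (nat_lit 2890105685) (nat_lit 501) (nat_lit 5) (nat_lit 525) (nat_lit 5) (nat_lit 526) (nat_lit 5) (nat_lit 394) (nat_lit 389) (nat_lit 237))))) (XT.nd (nat_lit 156) (nat_lit 0) (nat_lit 152) (XT.nd (nat_lit 78) (nat_lit 0) (nat_lit 76) (XT.lf (nat_lit 0) (nat_lit 2525092395) (nat_lit 1824) (nat_lit 6163047) (nat_lit 1900) (nat_lit 16494279865) (nat_lit 501) (nat_lit 5) (nat_lit 525) (nat_lit 5) (nat_lit 526) (nat_lit 5) (nat_lit 395) (nat_lit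 389) (nat_lit 236)) (XT.lf (nat_lit 0) (nat_lit 3767489168) (nat_lit 1824) (nat_lit 4398136369) (nat_lit 1900) (nat_lit 11146510008) (nat_lit 502) (nat_lit 5) (nat_lit 526) (nat_lit 5) (nat_lit 527) (nat_lit 5) (nat_lit 396) (nat_lit 389) (nat_lit 235))) (XT.nd (nat_lit 78) (nat_lit 0) (nat_lit 0) (XT.lf (nat_lit 0) (nat_lit 5160178100) (nat_lit 1824) (nat_lit 8850617579) (nat_lit 1900) (nat_lit 5594277705) (nat_lit 503) (nat_lit 5) (nat_lit 527) (nat_lit 5) (nat_lit 528) (nat_lit 5) (nat_lit 397) (nat_lit 389) (nat_lit 234)) (XT.nd (nat_lit 78) (nat_lit 0) (nat_lit 76) (XT.lf (nat_lit 76) (nat_lit 6539334155) (nat_lit 0) (nat_lit 171848889) (nat_lit 1900) (nat_lit 13193285609) (nat_lit 504) (nat_lit 5) (nat_lit 503) (nat_lit 5) (nat_lit 528) (nat_lit 5) (nat_lit 398) (nat_lit 389) (nat_lit 233)) (XT.lf (nat_lit 76) (nat_lit 2230553500) (nat_lit 0) (nat_lit 6234200755) (nat_lit 1900) (nat_lit 11744970800)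 (nat_lit 505) (nat_lit 5) (nat_lit 504) (nat_lit 5) (nat_lit 529) (nat_lit 5) (nat_lit 399) (nat_lit 389) (nat_lit 232)))))) (XT.nd (nat_lit 390) (nat_lit 4560) (nat_lit 0) (XT.nd (nat_lit 156) (nat_lit 0) (nat_lit 76) (XT.nd (nat_lit 78) (nat_lit 0) (nat_lit 76) (XT.lf (nat_lit 0) (nat_lit 10405337393) (nat_lit 1824) (nat_lit 2106547185) (nat_lit 1900) (nat_lit 8009566478) (nat_lit 505) (nat_lit 5) (nat_lit 529) (nat_lit 5) (nat_lit 530) (nat_lit 5) (nat_lit 400) (nat_lit 389) (nat_lit 231)) (XT.lf (nat_lit 0) (nat_lit 12541544044) (nat_lit 1824) (nat_lit 6470101684) (nat_lit 1900) (nat_lit 1828134987) (nat_lit 506) (nat_lit 5) (nat_lit 530) (nat_lit 5) (nat_lit 531) (nat_lit 5) (nat_lit 401) (nat_lit 389) (nat_lit 230))) (XT.nd (nat_lit 78) (nat_lit 0) (nat_lit 76) (XT.lf (nat_lit 76) (nat_lit 10244922132) (nat_lit 0) (nat_lit 4652035184) (nat_lit 1900) (nat_lit 6267600540) (nat_lit 507) (nat_lit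 5) (nat_lit 506) (nat_lit 5) (nat_lit 531) (nat_lit 5) (nat_lit 402) (nat_lit 389) (nat_lit 229)) (XT.nd (nat_lit 78) (nat_lit 0) (nat_lit 76) (XT.lf (nat_lit 76) (nat_lit 6057686146) (nat_lit 0) (nat_lit 11405439153) (nat_lit 1900) (nat_lit 4033151166) (nat_lit 508) (nat_lit 5) (nat_lit 507) (nat_lit 5) (nat_lit 532) (nat_lit 5) (nat_lit 403) (nat_lit 389) (nat_lit 228)) (XT.lf (nat_lit 76) (nat_lit 1820417871) (nat_lit 0) (nat_lit 18416021619) (nat_lit 1900) (nat_lit 1598903918) (nat_lit 509) (nat_lit 5) (nat_lit 508) (nat_lit 5) (nat_lit 533) (nat_lit 5) (nat_lit 404) (nat_lit 389) (nat_lit 227))))) (XT.nd (nat_lit 156) (nat_lit 2888) (nat_lit 0) (XT.nd (nat_lit 78) (nat_lit 0) (nat_lit 76) (XT.lf (nat_lit 0) (nat_lit 1069230100) (nat_lit 1900) (nat_lit 2464302977) (nat_lit 1976) (nat_lit 18647475872) (nat_lit 483) (nat_lit 5) (nat_lit 508) (nat_lit 5) (nat_lit 509) (nat_lit 5) (nat_lit 405) (nat_lit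 389) (nat_lit 226)) (XT.lf (nat_lit 0) (nat_lit 3967196152) (nat_lit 1900) (nat_lit 6810152305) (nat_lit 76) (nat_lit 11756054408) (nat_lit 484) (nat_lit 5) (nat_lit 509) (nat_lit 5) (nat_lit 485) (nat_lit 5) (nat_lit 406) (nat_lit 389) (nat_lit 225))) (XT.nd (nat_lit 78) (nat_lit 1824) (nat_lit 0) (XT.lf (nat_lit 0) (nat_lit 7090504014) (nat_lit 1216) (nat_lit 11207694877) (nat_lit 76) (nat_lit 4595401650) (nat_lit 469) (nat_lit 5) (nat_lit 485) (nat_lit 5) (nat_lit 470) (nat_lit 5) (nat_lit 407) (nat_lit 389) (nat_lit 224)) (XT.nd (nat_lit 78) (nat_lit 912) (nat_lit 0) (XT.lf (nat_lit 0) (nat_lit 7586136200) (nat_lit 912) (nat_lit 2881015160) (nat_lit 988) (nat_lit 12794259982) (nat_lit 457) (nat_lit 5) (nat_lit 469) (nat_lit 5) (nat_lit 470) (nat_lit 5) (nat_lit 408) (nat_lit 389) (nat_lit 223)) (XT.lf (nat_lit 0) (nat_lit 3410887123) (nat_lit 912) (nat_lit 10709257094) (nat_lit 988) (nat_lit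 9516611329) (nat_lit 445) (nat_lit 5) (nat_lit 457) (nat_lit 5) (nat_lit 458) (nat_lit 5) (nat_lit 409) (nat_lit 389) (nat_lit 222))))))) (XT.nd (nat_lit 52026) (nat_lit 0) (nat_lit 6916) (XT.nd (nat_lit 51636) (nat_lit 0) (nat_lit 6764) (XT.nd (nat_lit 156) (nat_lit 1824) (nat_lit 0) (XT.nd (nat_lit 78) (nat_lit 836) (nat_lit 0) (XT.lf (nat_lit 0) (nat_lit 18034458257) (nat_lit 988) (nat_lit 797748688) (nat_lit 76) (nat_lit 5188118503) (nat_lit 445) (nat_lit 5) (nat_lit 458) (nat_lit 5) (nat_lit 446) (nat_lit 5) (nat_lit 410) (nat_lit 389) (nat_lit 221)) (XT.lf (nat_lit 0) (nat_lit 19388655824) (nat_lit 836) (nat_lit 2867515070) (nat_lit 912) (nat_lit 2155432170) (nat_lit 434) (nat_lit 5) (nat_lit 445) (nat_lit 5) (nat_lit 446) (nat_lit 5) (nat_lit 411) (nat_lit 389) (nat_lit 220))) (XT.nd (nat_lit 78) (nat_lit 836) (nat_lit 0) (XT.lf (nat_lit 0) (nat_lit 1954443901) (nat_lit 988) (nat_lit 9339035355)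 (nat_lit 76) (nat_lit 13517147264) (nat_lit 421) (nat_lit 5) (nat_lit 434) (nat_lit 5) (nat_lit 422) (nat_lit 5) (nat_lit 412) (nat_lit 389) (nat_lit 219)) (XT.nd (nat_lit 51324) (nat_lit 0) (nat_lit 8512) (XT.lf (nat_lit 0) (nat_lit 6313767986) (nat_lit 912) (nat_lit 13713993222) (nat_lit 76) (nat_lit 5190465811) (nat_lit 410) (nat_lit 5) (nat_lit 422) (nat_lit 5) (nat_lit 411) (nat_lit 5) (nat_lit 413) (nat_lit 389) (nat_lit 218)) (XT.lf (nat_lit 0) (nat_lit 4210567914) (nat_lit 0) (nat_lit 4210567914) (nat_lit 1748) (nat_lit 544811071) (nat_lit 522) (nat_lit 5) (nat_lit 522) (nat_lit 3) (nat_lit 545) (nat_lit 3) (nat_lit 390) (nat_lit 390) (nat_lit 240))))) (XT.nd (nat_lit 156) (nat_lit 1748) (nat_lit 0) (XT.nd (nat_lit 78) (nat_lit 0) (nat_lit 0) (XT.lf (nat_lit 76) (nat_lit 3960409096) (nat_lit 0) (nat_lit 13499472064) (nat_lit 1824) (nat_lit 733691539) (nat_lit 523) (nat_lit 5) (nat_lit 522)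 (nat_lit 5) (nat_lit 546) (nat_lit 5) (nat_lit 391) (nat_lit 390) (nat_lit 239)) (XT.lf (nat_lit 76) (nat_lit 17902447099) (nat_lit 0) (nat_lit 301920961) (nat_lit 1824) (nat_lit 256566923) (nat_lit 523) (nat_lit 5) (nat_lit 522) (nat_lit 5) (nat_lit 546) (nat_lit 5) (nat_lit 392) (nat_lit 390) (nat_lit 238))) (XT.nd (nat_lit 78) (nat_lit 0) (nat_lit 76) (XT.lf (nat_lit 0) (nat_lit 395889928) (nat_lit 1824) (nat_lit 5123473626) (nat_lit 1900) (nat_lit 13213642104) (nat_lit 499) (nat_lit 5) (nat_lit 523) (nat_lit 5) (nat_lit 524) (nat_lit 5) (nat_lit 393) (nat_lit 390) (nat_lit 237)) (XT.nd (nat_lit 78) (nat_lit 0) (nat_lit 76) (XT.lf (nat_lit 0) (nat_lit 1172460348) (nat_lit 1824) (nat_lit 9756392684) (nat_lit 1900) (nat_lit 8082190991) (nat_lit 500) (nat_lit 5) (nat_lit 524) (nat_lit 5) (nat_lit 525) (nat_lit 5) (nat_lit 394) (nat_lit 390) (nat_lit 236)) (XT.lf (nat_lit 0) (nat_lit 2082744414) (nat_lit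 1824) (nat_lit 14456286286) (nat_lit 1900) (nat_lit 2756184508) (nat_lit 501) (nat_lit 5) (nat_lit 525) (nat_lit 5) (nat_lit 526) (nat_lit 5) (nat_lit 395) (nat_lit 390) (nat_lit 235)))))) (XT.nd (nat_lit 390) (nat_lit 0) (nat_lit 304) (XT.nd (nat_lit 156) (nat_lit 0) (nat_lit 152) (XT.nd (nat_lit 78) (nat_lit 0) (nat_lit 76) (XT.lf (nat_lit 76) (nat_lit 343246403) (nat_lit 0) (nat_lit 2808151856) (nat_lit 1900) (nat_lit 16433892045) (nat_lit 502) (nat_lit 5) (nat_lit 501) (nat_lit 5) (nat_lit 526) (nat_lit 5) (nat_lit 396) (nat_lit 390) (nat_lit 234)) (XT.lf (nat_lit 0) (nat_lit 4413805469) (nat_lit 1824) (nat_lit 4178628924) (nat_lit 1900) (nat_lit 11288399385) (nat_lit 502) (nat_lit 5) (nat_lit 526) (nat_lit 5) (nat_lit 527) (nat_lit 5) (nat_lit 397) (nat_lit 390) (nat_lit 233))) (XT.nd (nat_lit 78) (nat_lit 0) (nat_lit 0) (XT.lf (nat_lit 0) (nat_lit 5833855767) (nat_lit 1824) (nat_lit 8758855007)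 (nat_lit 1900) (nat_lit 5590137365) (nat_lit 503) (nat_lit 5) (nat_lit 527) (nat_lit 5) (nat_lit 528) (nat_lit 5) (nat_lit 398) (nat_lit 390) (nat_lit 232)) (XT.nd (nat_lit 78) (nat_lit 0) (nat_lit 76) (XT.lf (nat_lit 76) (nat_lit 7086998817) (nat_lit 0) (nat_lit 331561327) (nat_lit 1900) (nat_lit 13072921736) (nat_lit 504) (nat_lit 5) (nat_lit 503) (nat_lit 5) (nat_lit 528) (nat_lit 5) (nat_lit 399) (nat_lit 390) (nat_lit 231)) (XT.lf (nat_lit 76) (nat_lit 2654196162) (nat_lit 0) (nat_lit 6557145098) (nat_lit 1900) (nat_lit 11594822661) (nat_lit 505) (nat_lit 5) (nat_lit 504) (nat_lit 5) (nat_lit 529) (nat_lit 5) (nat_lit 400) (nat_lit 390) (nat_lit 230))))) (XT.nd (nat_lit 156) (nat_lit 0) (nat_lit 76) (XT.nd (nat_lit 78) (nat_lit 0) (nat_lit 76) (XT.lf (nat_lit 0) (nat_lit 11194936257) (nat_lit 1824) (nat_lit 1812984944) (nat_lit 1900) (nat_lit 8119624612) (nat_lit 505) (nat_lit 5) (nat_lit 529)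 (nat_lit 5) (nat_lit 530) (nat_lit 5) (nat_lit 401) (nat_lit 390) (nat_lit 229)) (XT.lf (nat_lit 0) (nat_lit 13382856236) (nat_lit 1824) (nat_lit 6303172211) (nat_lit 1900) (nat_lit 1769644372) (nat_lit 506) (nat_lit 5) (nat_lit 530) (nat_lit 5) (nat_lit 531) (nat_lit 5) (nat_lit 402) (nat_lit 390) (nat_lit 228))) (XT.nd (nat_lit 78) (nat_lit 0) (nat_lit 76) (XT.lf (nat_lit 76) (nat_lit 10907444996) (nat_lit 0) (nat_lit 4890247336) (nat_lit 1900) (nat_lit 5992725734) (nat_lit 507) (nat_lit 5) (nat_lit 506) (nat_lit 5) (nat_lit 531) (nat_lit 5) (nat_lit 403) (nat_lit 390) (nat_lit 227)) (XT.nd (nat_lit 78) (nat_lit 0) (nat_lit 76) (XT.lf (nat_lit 76) (nat_lit 6598389021) (nat_lit 0) (nat_lit 11830946925) (nat_lit 1900) (nat_lit 3702982475) (nat_lit 508) (nat_lit 5) (nat_lit 507) (nat_lit 5) (nat_lit 532) (nat_lit 5) (nat_lit 404) (nat_lit 390) (nat_lit 226)) (XT.lf (nat_lit 76) (nat_lit 2237413965)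 (nat_lit 0) (nat_lit 19037380049) (nat_lit 1900) (nat_lit 1206984470) (nat_lit 509) (nat_lit 5) (nat_lit 508) (nat_lit 5) (nat_lit 533) (nat_lit 5) (nat_lit 405) (nat_lit 390) (nat_lit 225))))))))
noncomputable def xc124 : XT := (XT.nd (nat_lit 52884) (nat_lit 0) (nat_lit 836) (XT.nd (nat_lit 52104) (nat_lit 0) (nat_lit 4864) (XT.nd (nat_lit 312) (nat_lit 1748) (nat_lit 0) (XT.nd (nat_lit 156) (nat_lit 1976) (nat_lit 0) (XT.nd (nat_lit 78) (nat_lit 0) (nat_lit 76) (XT.lf (nat_lit 0) (nat_lit 1522780182) (nat_lit 1900) (nat_lit 2180802213) (nat_lit 1976) (nat_lit 19134427360) (nat_lit 483) (nat_lit 5) (nat_lit 508) (nat_lit 5) (nat_lit 509) (nat_lit 5) (nat_lit 406) (nat_lit 390) (nat_lit 224)) (XT.lf (nat_lit 0) (nat_lit 4497303738) (nat_lit 1900) (nat_lit 6654207708) (nat_lit 76) (nat_lit 12049671671) (nat_lit 484) (nat_lit 5) (nat_lit 509) (nat_lit 5) (nat_lit 485) (nat_lit 5) (nat_lit 407) (nat_lit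 390) (nat_lit 223))) (XT.nd (nat_lit 78) (nat_lit 912) (nat_lit 0) (XT.lf (nat_lit 0) (nat_lit 7704333070) (nat_lit 1216) (nat_lit 11181187538) (nat_lit 76) (nat_lit 4686865670) (nat_lit 469) (nat_lit 5) (nat_lit 485) (nat_lit 5) (nat_lit 470) (nat_lit 5) (nat_lit 408) (nat_lit 390) (nat_lit 222)) (XT.lf (nat_lit 0) (nat_lit 8170573475) (nat_lit 912) (nat_lit 3002340359) (nat_lit 988) (nat_lit 12778504890) (nat_lit 457) (nat_lit 5) (nat_lit 469) (nat_lit 5) (nat_lit 470) (nat_lit 5) (nat_lit 409) (nat_lit 390) (nat_lit 221)))) (XT.nd (nat_lit 156) (nat_lit 836) (nat_lit 0) (XT.nd (nat_lit 78) (nat_lit 0) (nat_lit 0) (XT.lf (nat_lit 0) (nat_lit 3872208137) (nat_lit 912) (nat_lit 11053989075) (nat_lit 988) (nat_lit 9412012028) (nat_lit 445) (nat_lit 5) (nat_lit 457) (nat_lit 5) (nat_lit 458) (nat_lit 5) (nat_lit 410) (nat_lit 390) (nat_lit 220)) (XT.lf (nat_lit 0) (nat_lit 18946653546) (nat_lit 988)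 (nat_lit 465568863) (nat_lit 76) (nat_lit 5321289572) (nat_lit 445) (nat_lit 5) (nat_lit 458) (nat_lit 5) (nat_lit 446) (nat_lit 5) (nat_lit 411) (nat_lit 390) (nat_lit 219))) (XT.nd (nat_lit 51480) (nat_lit 0) (nat_lit 6688) (XT.lf (nat_lit 0) (nat_lit 20320650286) (nat_lit 836) (nat_lit 2965831351) (nat_lit 912) (nat_lit 1850217006) (nat_lit 434) (nat_lit 5) (nat_lit 445) (nat_lit 5) (nat_lit 446) (nat_lit 5) (nat_lit 412) (nat_lit 390) (nat_lit 218)) (XT.nd (nat_lit 78) (nat_lit 0) (nat_lit 0) (XT.lf (nat_lit 0) (nat_lit 4489676348) (nat_lit 0) (nat_lit 4489676348) (nat_lit 1748) (nat_lit 249460954) (nat_lit 522) (nat_lit 5) (nat_lit 522) (nat_lit 3) (nat_lit 545) (nat_lit 3) (nat_lit 391) (nat_lit 391) (nat_lit 238)) (XT.lf (nat_lit 76) (nat_lit 4393823305) (nat_lit 0) (nat_lit 14183335283) (nat_lit 1824) (nat_lit 150351672) (nat_lit 523) (nat_lit 5) (nat_lit 522) (nat_lit 5) (nat_lit 546) (nat_lit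 5) (nat_lit 392) (nat_lit 391) (nat_lit 237)))))) (XT.nd (nat_lit 390) (nat_lit 0) (nat_lit 304) (XT.nd (nat_lit 156) (nat_lit 0) (nat_lit 152) (XT.nd (nat_lit 78) (nat_lit 0) (nat_lit 76) (XT.lf (nat_lit 0) (nat_lit 319212938) (nat_lit 1824) (nat_lit 260379930) (nat_lit 1900) (nat_lit 18423604259) (nat_lit 498) (nat_lit 5) (nat_lit 522) (nat_lit 5) (nat_lit 523) (nat_lit 5) (nat_lit 393) (nat_lit 391) (nat_lit 236)) (XT.lf (nat_lit 0) (nat_lit 971215325) (nat_lit 1824) (nat_lit 4956140156) (nat_lit 1900) (nat_lit 13356371372) (nat_lit 499) (nat_lit 5) (nat_lit 523) (nat_lit 5) (nat_lit 524) (nat_lit 5) (nat_lit 394) (nat_lit 391) (nat_lit 235))) (XT.nd (nat_lit 78) (nat_lit 0) (nat_lit 76) (XT.lf (nat_lit 0) (nat_lit 1755207832) (nat_lit 1824) (nat_lit 9720759006) (nat_lit 1900) (nat_lit 8094457032) (nat_lit 500) (nat_lit 5) (nat_lit 524) (nat_lit 5) (nat_lit 525) (nat_lit 5) (nat_lit 395) (nat_lit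 391) (nat_lit 234)) (XT.nd (nat_lit 78) (nat_lit 0) (nat_lit 0) (XT.lf (nat_lit 0) (nat_lit 2677580639) (nat_lit 1824) (nat_lit 14554933511) (nat_lit 1900) (nat_lit 2630910437) (nat_lit 501) (nat_lit 5) (nat_lit 525) (nat_lit 5) (nat_lit 526) (nat_lit 5) (nat_lit 396) (nat_lit 391) (nat_lit 233)) (XT.lf (nat_lit 76) (nat_lit 683149511) (nat_lit 0) (nat_lit 3081779154) (nat_lit 1900) (nat_lit 16397540579) (nat_lit 502) (nat_lit 5) (nat_lit 501) (nat_lit 5) (nat_lit 526) (nat_lit 5) (nat_lit 397) (nat_lit 391) (nat_lit 232))))) (XT.nd (nat_lit 156) (nat_lit 0) (nat_lit 76) (XT.nd (nat_lit 78) (nat_lit 0) (nat_lit 76) (XT.lf (nat_lit 0) (nat_lit 5048898139) (nat_lit 1824) (nat_lit 3972711012) (nat_lit 1900) (nat_lit 11445596072) (nat_lit 502) (nat_lit 5) (nat_lit 526) (nat_lit 5) (nat_lit 527) (nat_lit 5) (nat_lit 398) (nat_lit 391) (nat_lit 231)) (XT.lf (nat_lit 0) (nat_lit 6497958370) (nat_lit 1824)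 (nat_lit 8684848955) (nat_lit 1900) (nat_lit 5595744520) (nat_lit 503) (nat_lit 5) (nat_lit 527) (nat_lit 5) (nat_lit 528) (nat_lit 5) (nat_lit 399) (nat_lit 391) (nat_lit 230))) (XT.nd (nat_lit 78) (nat_lit 0) (nat_lit 76) (XT.lf (nat_lit 76) (nat_lit 7630916763) (nat_lit 0) (nat_lit 487192935) (nat_lit 1900) (nat_lit 12978576783) (nat_lit 504) (nat_lit 5) (nat_lit 503) (nat_lit 5) (nat_lit 528) (nat_lit 5) (nat_lit 400) (nat_lit 391) (nat_lit 229)) (XT.nd (nat_lit 78) (nat_lit 0) (nat_lit 76) (XT.lf (nat_lit 76) (nat_lit 3070070568) (nat_lit 0) (nat_lit 6881975503) (nat_lit 1900) (nat_lit 11469015475) (nat_lit 505) (nat_lit 5) (nat_lit 504) (nat_lit 5) (nat_lit 529) (nat_lit 5) (nat_lit 401) (nat_lit 391) (nat_lit 228)) (XT.lf (nat_lit 0) (nat_lit 11980816149) (nat_lit 1824) (nat_lit 1531095242) (nat_lit 1900) (nat_lit 8240460159) (nat_lit 505) (nat_lit 5) (nat_lit 529) (nat_lit 5) (nat_lit 530)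 (nat_lit 5) (nat_lit 402) (nat_lit 391) (nat_lit 227))))))) (XT.nd (nat_lit 52260) (nat_lit 0) (nat_lit 3952) (XT.nd (nat_lit 390) (nat_lit 2888) (nat_lit 0) (XT.nd (nat_lit 156) (nat_lit 1748) (nat_lit 0) (XT.nd (nat_lit 78) (nat_lit 0) (nat_lit 0) (XT.lf (nat_lit 0) (nat_lit 14222711111) (nat_lit 1824) (nat_lit 6151959597) (nat_lit 1900) (nat_lit 1715904912) (nat_lit 506) (nat_lit 5) (nat_lit 530) (nat_lit 5) (nat_lit 531) (nat_lit 5) (nat_lit 403) (nat_lit 391) (nat_lit 226)) (XT.lf (nat_lit 76) (nat_lit 11569455036) (nat_lit 0) (nat_lit 5129942876) (nat_lit 1900) (nat_lit 5736177200) (nat_lit 507) (nat_lit 5) (nat_lit 506) (nat_lit 5) (nat_lit 531) (nat_lit 5) (nat_lit 404) (nat_lit 391) (nat_lit 225))) (XT.nd (nat_lit 78) (nat_lit 1824) (nat_lit 0) (XT.lf (nat_lit 76) (nat_lit 7134706505) (nat_lit 0) (nat_lit 12264435608) (nat_lit 1900) (nat_lit 3388807339) (nat_lit 508) (nat_lit 5) (nat_lit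 507) (nat_lit 5) (nat_lit 532) (nat_lit 5) (nat_lit 405) (nat_lit 391) (nat_lit 224)) (XT.nd (nat_lit 78) (nat_lit 1900) (nat_lit 0) (XT.lf (nat_lit 76) (nat_lit 2646117644) (nat_lit 0) (nat_lit 19673425364) (nat_lit 1900) (nat_lit 828558727) (nat_lit 509) (nat_lit 5) (nat_lit 508) (nat_lit 5) (nat_lit 533) (nat_lit 5) (nat_lit 406) (nat_lit 391) (nat_lit 223)) (XT.lf (nat_lit 0) (nat_lit 1965742482) (nat_lit 1900) (nat_lit 1909314361) (nat_lit 1976) (nat_lit 19640147627) (nat_lit 483) (nat_lit 5) (nat_lit 508) (nat_lit 5) (nat_lit 509) (nat_lit 5) (nat_lit 407) (nat_lit 391) (nat_lit 222))))) (XT.nd (nat_lit 156) (nat_lit 1824) (nat_lit 0) (XT.nd (nat_lit 78) (nat_lit 1140) (nat_lit 0) (XT.lf (nat_lit 0) (nat_lit 5019716206) (nat_lit 1900) (nat_lit 6514264549) (nat_lit 76) (nat_lit 12355487988) (nat_lit 484) (nat_lit 5) (nat_lit 509) (nat_lit 5) (nat_lit 485) (nat_lit 5) (nat_lit 408) (nat_lit 391)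 (nat_lit 221)) (XT.lf (nat_lit 0) (nat_lit 8313551417) (nat_lit 1216) (nat_lit 11174707635) (nat_lit 76) (nat_lit 4783737048) (nat_lit 469) (nat_lit 5) (nat_lit 485) (nat_lit 5) (nat_lit 470) (nat_lit 5) (nat_lit 409) (nat_lit 391) (nat_lit 220))) (XT.nd (nat_lit 78) (nat_lit 912) (nat_lit 0) (XT.lf (nat_lit 0) (nat_lit 8752059035) (nat_lit 912) (nat_lit 3125302213) (nat_lit 988) (nat_lit 12785214837) (nat_lit 457) (nat_lit 5) (nat_lit 469) (nat_lit 5) (nat_lit 470) (nat_lit 5) (nat_lit 410) (nat_lit 391) (nat_lit 219)) (XT.nd (nat_lit 78) (nat_lit 0) (nat_lit 0) (XT.lf (nat_lit 0) (nat_lit 4326761034) (nat_lit 912) (nat_lit 11407716644) (nat_lit 988) (nat_lit 9326667948) (nat_lit 445) (nat_lit 5) (nat_lit 457) (nat_lit 5) (nat_lit 458) (nat_lit 5) (nat_lit 411) (nat_lit 391) (nat_lit 218)) (XT.lf (nat_lit 0) (nat_lit 19864908502) (nat_lit 988) (nat_lit 143865945) (nat_lit 76) (nat_lit 5459745786)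 (nat_lit 445) (nat_lit 5) (nat_lit 458) (nat_lit 5) (nat_lit 446) (nat_lit 5) (nat_lit 412) (nat_lit 391) (nat_lit 217)))))) (XT.nd (nat_lit 390) (nat_lit 0) (nat_lit 304) (XT.nd (nat_lit 156) (nat_lit 0) (nat_lit 76) (XT.nd (nat_lit 78) (nat_lit 0) (nat_lit 76) (XT.lf (nat_lit 0) (nat_lit 36373740) (nat_lit 1900) (nat_lit 4731769356) (nat_lit 1900) (nat_lit 4731769356) (nat_lit 497) (nat_lit 3) (nat_lit 522) (nat_lit 3) (nat_lit 522) (nat_lit 5) (nat_lit 392) (nat_lit 392) (nat_lit 236)) (XT.lf (nat_lit 0) (nat_lit 410286298) (nat_lit 1824) (nat_lit 14458666064) (nat_lit 1900) (nat_lit 4409140966) (nat_lit 498) (nat_lit 5) (nat_lit 522) (nat_lit 5) (nat_lit 523) (nat_lit 5) (nat_lit 393) (nat_lit 392) (nat_lit 235))) (XT.nd (nat_lit 78) (nat_lit 0) (nat_lit 76) (XT.lf (nat_lit 76) (nat_lit 27338120) (nat_lit 0) (nat_lit 848344698) (nat_lit 1900) (nat_lit 18686672353) (nat_lit 499) (nat_lit 5) (nat_lit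 498) (nat_lit 5) (nat_lit 523) (nat_lit 5) (nat_lit 394) (nat_lit 392) (nat_lit 234)) (XT.nd (nat_lit 78) (nat_lit 0) (nat_lit 76) (XT.lf (nat_lit 0) (nat_lit 1531456224) (nat_lit 1824) (nat_lit 4802215558) (nat_lit 1900) (nat_lit 13517944788) (nat_lit 499) (nat_lit 5) (nat_lit 523) (nat_lit 5) (nat_lit 524) (nat_lit 5) (nat_lit 395) (nat_lit 392) (nat_lit 233)) (XT.lf (nat_lit 0) (nat_lit 2324004772) (nat_lit 1824) (nat_lit 9702903542) (nat_lit 1900) (nat_lit 8120305458) (nat_lit 500) (nat_lit 5) (nat_lit 524) (nat_lit 5) (nat_lit 525) (nat_lit 5) (nat_lit 396) (nat_lit 392) (nat_lit 232))))) (XT.nd (nat_lit 156) (nat_lit 0) (nat_lit 76) (XT.nd (nat_lit 78) (nat_lit 0) (nat_lit 0) (XT.lf (nat_lit 0) (nat_lit 3259702660) (nat_lit 1824) (nat_lit 14675772897) (nat_lit 1900) (nat_lit 2513815875) (nat_lit 501) (nat_lit 5) (nat_lit 525) (nat_lit 5) (nat_lit 526) (nat_lit 5) (nat_lit 397) (nat_lit 392)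 (nat_lit 231)) (XT.lf (nat_lit 76) (nat_lit 1014328996) (nat_lit 0) (nat_lit 3352743928) (nat_lit 1900) (nat_lit 16390486470) (nat_lit 502) (nat_lit 5) (nat_lit 501) (nat_lit 5) (nat_lit 526) (nat_lit 5) (nat_lit 398) (nat_lit 392) (nat_lit 230))) (XT.nd (nat_lit 78) (nat_lit 0) (nat_lit 76) (XT.lf (nat_lit 0) (nat_lit 5674187785) (nat_lit 1824) (nat_lit 3779632205) (nat_lit 1900) (nat_lit 11617924935) (nat_lit 502) (nat_lit 5) (nat_lit 526) (nat_lit 5) (nat_lit 527) (nat_lit 5) (nat_lit 399) (nat_lit 392) (nat_lit 229)) (XT.nd (nat_lit 78) (nat_lit 0) (nat_lit 0) (XT.lf (nat_lit 0) (nat_lit 7153908460) (nat_lit 1824) (nat_lit 8627954795) (nat_lit 1900) (nat_lit 5610824919) (nat_lit 503) (nat_lit 5) (nat_lit 527) (nat_lit 5) (nat_lit 528) (nat_lit 5) (nat_lit 400) (nat_lit 392) (nat_lit 228)) (XT.lf (nat_lit 76) (nat_lit 8172133814) (nat_lit 0) (nat_lit 639130590) (nat_lit 1900) (nat_lit 12909330443)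 (nat_lit 504) (nat_lit 5) (nat_lit 503) (nat_lit 5) (nat_lit 528) (nat_lit 5) (nat_lit 401) (nat_lit 392) (nat_lit 227))))))))
noncomputable def xc125 : XT := (XT.nd (nat_lit 53118) (nat_lit 0) (nat_lit 1976) (XT.nd (nat_lit 702) (nat_lit 912) (nat_lit 0) (XT.nd (nat_lit 312) (nat_lit 2660) (nat_lit 0) (XT.nd (nat_lit 156) (nat_lit 0) (nat_lit 152) (XT.nd (nat_lit 78) (nat_lit 0) (nat_lit 76) (XT.lf (nat_lit 76) (nat_lit 3479119167) (nat_lit 0) (nat_lit 7209196434) (nat_lit 1900) (nat_lit 11366623629) (nat_lit 505) (nat_lit 5) (nat_lit 504) (nat_lit 5) (nat_lit 529) (nat_lit 5) (nat_lit 402) (nat_lit 392) (nat_lit 226)) (XT.lf (nat_lit 0) (nat_lit 12764438773) (nat_lit 1824) (nat_lit 1260052654) (nat_lit 1900) (nat_lit 8371967308) (nat_lit 505) (nat_lit 5) (nat_lit 529) (nat_lit 5) (nat_lit 530) (nat_lit 5) (nat_lit 403) (nat_lit 392) (nat_lit 225))) (XT.nd (nat_lit 78) (nat_lit 0) (nat_lit 0) (XT.lf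 (nat_lit 0) (nat_lit 15062597447) (nat_lit 1824) (nat_lit 6015745664) (nat_lit 1900) (nat_lit 1666685678) (nat_lit 506) (nat_lit 5) (nat_lit 530) (nat_lit 5) (nat_lit 531) (nat_lit 5) (nat_lit 404) (nat_lit 392) (nat_lit 224)) (XT.lf (nat_lit 76) (nat_lit 12232107252) (nat_lit 0) (nat_lit 5371491383) (nat_lit 1900) (nat_lit 5496979354) (nat_lit 507) (nat_lit 5) (nat_lit 506) (nat_lit 5) (nat_lit 531) (nat_lit 5) (nat_lit 405) (nat_lit 392) (nat_lit 223)))) (XT.nd (nat_lit 156) (nat_lit 2888) (nat_lit 0) (XT.nd (nat_lit 78) (nat_lit 0) (nat_lit 76) (XT.lf (nat_lit 76) (nat_lit 7667689931) (nat_lit 0) (nat_lit 12706419271) (nat_lit 1900) (nat_lit 3089618876) (nat_lit 508) (nat_lit 5) (nat_lit 507) (nat_lit 5) (nat_lit 532) (nat_lit 5) (nat_lit 406) (nat_lit 392) (nat_lit 222)) (XT.lf (nat_lit 76) (nat_lit 3047474271) (nat_lit 0) (nat_lit 20324825142) (nat_lit 1900) (nat_lit 462581972) (nat_lit 509)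 (nat_lit 5) (nat_lit 508) (nat_lit 5) (nat_lit 533) (nat_lit 5) (nat_lit 407) (nat_lit 392) (nat_lit 221))) (XT.nd (nat_lit 78) (nat_lit 1064) (nat_lit 0) (XT.lf (nat_lit 0) (nat_lit 2399188216) (nat_lit 1900) (nat_lit 1649021996) (nat_lit 1976) (nat_lit 20164960921) (nat_lit 483) (nat_lit 5) (nat_lit 508) (nat_lit 5) (nat_lit 509) (nat_lit 5) (nat_lit 408) (nat_lit 392) (nat_lit 220)) (XT.nd (nat_lit 78) (nat_lit 1140) (nat_lit 0) (XT.lf (nat_lit 0) (nat_lit 5535557344) (nat_lit 1900) (nat_lit 6389615767) (nat_lit 76) (nat_lit 12673674701) (nat_lit 484) (nat_lit 5) (nat_lit 509) (nat_lit 5) (nat_lit 485) (nat_lit 5) (nat_lit 409) (nat_lit 392) (nat_lit 219)) (XT.lf (nat_lit 0) (nat_lit 8919342497) (nat_lit 1216) (nat_lit 11187660684) (nat_lit 76) (nat_lit 4886025111) (nat_lit 469) (nat_lit 5) (nat_lit 485) (nat_lit 5) (nat_lit 470) (nat_lit 5) (nat_lit 410) (nat_lit 392) (nat_lit 218)))))) (XT.nd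 (nat_lit 52026) (nat_lit 0) (nat_lit 3268) (XT.nd (nat_lit 51792) (nat_lit 0) (nat_lit 3116) (XT.nd (nat_lit 51714) (nat_lit 0) (nat_lit 3040) (XT.lf (nat_lit 0) (nat_lit 9331680243) (nat_lit 912) (nat_lit 3250064807) (nat_lit 988) (nat_lit 12813747059) (nat_lit 457) (nat_lit 5) (nat_lit 469) (nat_lit 5) (nat_lit 470) (nat_lit 5) (nat_lit 411) (nat_lit 392) (nat_lit 217)) (XT.lf (nat_lit 0) (nat_lit 310769361) (nat_lit 1900) (nat_lit 4734337188) (nat_lit 1900) (nat_lit 4734337188) (nat_lit 497) (nat_lit 3) (nat_lit 522) (nat_lit 3) (nat_lit 522) (nat_lit 5) (nat_lit 393) (nat_lit 393) (nat_lit 234))) (XT.nd (nat_lit 78) (nat_lit 0) (nat_lit 0) (XT.lf (nat_lit 0) (nat_lit 953387116) (nat_lit 1824) (nat_lit 14605852352) (nat_lit 1900) (nat_lit 4286580815) (nat_lit 498) (nat_lit 5) (nat_lit 522) (nat_lit 5) (nat_lit 523) (nat_lit 5) (nat_lit 394) (nat_lit 393) (nat_lit 233)) (XT.nd (nat_lit 78) (nat_lit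 0) (nat_lit 76) (XT.lf (nat_lit 76) (nat_lit 310082640) (nat_lit 0) (nat_lit 1109033364) (nat_lit 1900) (nat_lit 18719766568) (nat_lit 499) (nat_lit 5) (nat_lit 498) (nat_lit 5) (nat_lit 523) (nat_lit 5) (nat_lit 395) (nat_lit 393) (nat_lit 232)) (XT.lf (nat_lit 0) (nat_lit 2078016783) (nat_lit 1824) (nat_lit 4661044205) (nat_lit 1900) (nat_lit 13698091741) (nat_lit 499) (nat_lit 5) (nat_lit 523) (nat_lit 5) (nat_lit 524) (nat_lit 5) (nat_lit 396) (nat_lit 393) (nat_lit 231))))) (XT.nd (nat_lit 156) (nat_lit 0) (nat_lit 76) (XT.nd (nat_lit 78) (nat_lit 0) (nat_lit 76) (XT.lf (nat_lit 0) (nat_lit 2880237032) (nat_lit 1824) (nat_lit 9702277732) (nat_lit 1900) (nat_lit 8159385179) (nat_lit 500) (nat_lit 5) (nat_lit 524) (nat_lit 5) (nat_lit 525) (nat_lit 5) (nat_lit 397) (nat_lit 393) (nat_lit 230)) (XT.lf (nat_lit 0) (nat_lit 3830483279) (nat_lit 1824) (nat_lit 14818366172) (nat_lit 1900) (nat_lit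 2404460934) (nat_lit 501) (nat_lit 5) (nat_lit 525) (nat_lit 5) (nat_lit 526) (nat_lit 5) (nat_lit 398) (nat_lit 393) (nat_lit 229))) (XT.nd (nat_lit 78) (nat_lit 0) (nat_lit 76) (XT.lf (nat_lit 76) (nat_lit 1337609275) (nat_lit 0) (nat_lit 3621590360) (nat_lit 1900) (nat_lit 16411864251) (nat_lit 502) (nat_lit 5) (nat_lit 501) (nat_lit 5) (nat_lit 526) (nat_lit 5) (nat_lit 399) (nat_lit 393) (nat_lit 228)) (XT.nd (nat_lit 78) (nat_lit 0) (nat_lit 76) (XT.lf (nat_lit 0) (nat_lit 6291036760) (nat_lit 1824) (nat_lit 3598686043) (nat_lit 1900) (nat_lit 11805242003) (nat_lit 502) (nat_lit 5) (nat_lit 526) (nat_lit 5) (nat_lit 527) (nat_lit 5) (nat_lit 400) (nat_lit 393) (nat_lit 227)) (XT.lf (nat_lit 0) (nat_lit 7803073116) (nat_lit 1824) (nat_lit 8587576143) (nat_lit 1900) (nat_lit 5635128612) (nat_lit 503) (nat_lit 5) (nat_lit 527) (nat_lit 5) (nat_lit 528) (nat_lit 5) (nat_lit 401) (nat_lit 393) (nat_lit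 226))))))) (XT.nd (nat_lit 52572) (nat_lit 0) (nat_lit 1140) (XT.nd (nat_lit 390) (nat_lit 1520) (nat_lit 0) (XT.nd (nat_lit 156) (nat_lit 0) (nat_lit 152) (XT.nd (nat_lit 78) (nat_lit 0) (nat_lit 76) (XT.lf (nat_lit 76) (nat_lit 8711660679) (nat_lit 0) (nat_lit 787743538) (nat_lit 1900) (nat_lit 12864332438) (nat_lit 504) (nat_lit 5) (nat_lit 503) (nat_lit 5) (nat_lit 528) (nat_lit 5) (nat_lit 402) (nat_lit 393) (nat_lit 225)) (XT.lf (nat_lit 76) (nat_lit 3882245198) (nat_lit 0) (nat_lit 7539301780) (nat_lit 1900) (nat_lit 11286788790) (nat_lit 505) (nat_lit 5) (nat_lit 504) (nat_lit 5) (nat_lit 529) (nat_lit 5) (nat_lit 403) (nat_lit 393) (nat_lit 224))) (XT.nd (nat_lit 78) (nat_lit 0) (nat_lit 76) (XT.lf (nat_lit 0) (nat_lit 13547219366) (nat_lit 1824) (nat_lit 999074476) (nat_lit 1900) (nat_lit 8514061707) (nat_lit 505) (nat_lit 5) (nat_lit 529) (nat_lit 5) (nat_lit 530) (nat_lit 5) (nat_lit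 404) (nat_lit 393) (nat_lit 223)) (XT.nd (nat_lit 78) (nat_lit 0) (nat_lit 0) (XT.lf (nat_lit 0) (nat_lit 15903960716) (nat_lit 1824) (nat_lit 5893858979) (nat_lit 1900) (nat_lit 1621770251) (nat_lit 506) (nat_lit 5) (nat_lit 530) (nat_lit 5) (nat_lit 531) (nat_lit 5) (nat_lit 405) (nat_lit 393) (nat_lit 222)) (XT.lf (nat_lit 76) (nat_lit 12896524108) (nat_lit 0) (nat_lit 5615254865) (nat_lit 1900) (nat_lit 5274214908) (nat_lit 507) (nat_lit 5) (nat_lit 506) (nat_lit 5) (nat_lit 531) (nat_lit 5) (nat_lit 406) (nat_lit 393) (nat_lit 221))))) (XT.nd (nat_lit 156) (nat_lit 1824) (nat_lit 0) (XT.nd (nat_lit 78) (nat_lit 0) (nat_lit 76) (XT.lf (nat_lit 76) (nat_lit 8198354272) (nat_lit 0) (nat_lit 13157411637) (nat_lit 1900) (nat_lit 2804465344) (nat_lit 508) (nat_lit 5) (nat_lit 507) (nat_lit 5) (nat_lit 532) (nat_lit 5) (nat_lit 407) (nat_lit 393) (nat_lit 220)) (XT.lf (nat_lit 76) (nat_lit 3442389024)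 (nat_lit 0) (nat_lit 20992253953) (nat_lit 1900) (nat_lit 108061358) (nat_lit 509) (nat_lit 5) (nat_lit 508) (nat_lit 5) (nat_lit 533) (nat_lit 5) (nat_lit 408) (nat_lit 393) (nat_lit 219))) (XT.nd (nat_lit 78) (nat_lit 0) (nat_lit 76) (XT.lf (nat_lit 0) (nat_lit 2824141015) (nat_lit 1900) (nat_lit 1399150781) (nat_lit 1976) (nat_lit 20709214929) (nat_lit 483) (nat_lit 5) (nat_lit 508) (nat_lit 5) (nat_lit 509) (nat_lit 5) (nat_lit 409) (nat_lit 393) (nat_lit 218)) (XT.nd (nat_lit 51870) (nat_lit 0) (nat_lit 988) (XT.lf (nat_lit 0) (nat_lit 6045906892) (nat_lit 1900) (nat_lit 6279601235) (nat_lit 76) (nat_lit 13004419463) (nat_lit 484) (nat_lit 5) (nat_lit 509) (nat_lit 5) (nat_lit 485) (nat_lit 5) (nat_lit 410) (nat_lit 393) (nat_lit 217)) (XT.lf (nat_lit 0) (nat_lit 577708060) (nat_lit 1900) (nat_lit 4744983339) (nat_lit 1900) (nat_lit 4744983339) (nat_lit 497) (nat_lit 3) (nat_lit 522) (nat_lit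 3) (nat_lit 522) (nat_lit 5) (nat_lit 394) (nat_lit 394) (nat_lit 232)))))) (XT.nd (nat_lit 390) (nat_lit 0) (nat_lit 228) (XT.nd (nat_lit 156) (nat_lit 0) (nat_lit 76) (XT.nd (nat_lit 78) (nat_lit 0) (nat_lit 0) (XT.lf (nat_lit 0) (nat_lit 1482311313) (nat_lit 1824) (nat_lit 14773904730) (nat_lit 1900) (nat_lit 4174972396) (nat_lit 498) (nat_lit 5) (nat_lit 522) (nat_lit 5) (nat_lit 523) (nat_lit 5) (nat_lit 395) (nat_lit 394) (nat_lit 231)) (XT.lf (nat_lit 76) (nat_lit 585125884) (nat_lit 0) (nat_lit 1364039048) (nat_lit 1900) (nat_lit 18784134609) (nat_lit 499) (nat_lit 5) (nat_lit 498) (nat_lit 5) (nat_lit 523) (nat_lit 5) (nat_lit 396) (nat_lit 394) (nat_lit 230))) (XT.nd (nat_lit 78) (nat_lit 0) (nat_lit 76) (XT.lf (nat_lit 0) (nat_lit 2612236702) (nat_lit 1824) (nat_lit 4532011530) (nat_lit 1900) (nat_lit 13896581492) (nat_lit 499) (nat_lit 5) (nat_lit 523) (nat_lit 5) (nat_lit 524) (nat_lit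 5) (nat_lit 397) (nat_lit 394) (nat_lit 229)) (XT.nd (nat_lit 78) (nat_lit 0) (nat_lit 76) (XT.lf (nat_lit 0) (nat_lit 3425228474) (nat_lit 1824) (nat_lit 9718378661) (nat_lit 1900) (nat_lit 8211378119) (nat_lit 500) (nat_lit 5) (nat_lit 524) (nat_lit 5) (nat_lit 525) (nat_lit 5) (nat_lit 398) (nat_lit 394) (nat_lit 228)) (XT.lf (nat_lit 0) (nat_lit 4391235781) (nat_lit 1824) (nat_lit 14982325289) (nat_lit 1900) (nat_lit 2302431866) (nat_lit 501) (nat_lit 5) (nat_lit 525) (nat_lit 5) (nat_lit 526) (nat_lit 5) (nat_lit 399) (nat_lit 394) (nat_lit 227))))) (XT.nd (nat_lit 156) (nat_lit 0) (nat_lit 152) (XT.nd (nat_lit 78) (nat_lit 0) (nat_lit 76) (XT.lf (nat_lit 76) (nat_lit 1653777152) (nat_lit 0) (nat_lit 3888843136) (nat_lit 1900) (nat_lit 16460882621) (nat_lit 502) (nat_lit 5) (nat_lit 501) (nat_lit 5) (nat_lit 526) (nat_lit 5) (nat_lit 400) (nat_lit 394) (nat_lit 226)) (XT.lf (nat_lit 0) (nat_lit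 6900753197) (nat_lit 1824) (nat_lit 3429207536) (nat_lit 1900) (nat_lit 12007433310) (nat_lit 502) (nat_lit 5) (nat_lit 526) (nat_lit 5) (nat_lit 527) (nat_lit 5) (nat_lit 401) (nat_lit 394) (nat_lit 225))) (XT.nd (nat_lit 78) (nat_lit 0) (nat_lit 0) (XT.lf (nat_lit 0) (nat_lit 8446767913) (nat_lit 1824) (nat_lit 8563162429) (nat_lit 1900) (nat_lit 5668428814) (nat_lit 503) (nat_lit 5) (nat_lit 527) (nat_lit 5) (nat_lit 528) (nat_lit 5) (nat_lit 402) (nat_lit 394) (nat_lit 224)) (XT.nd (nat_lit 78) (nat_lit 0) (nat_lit 76) (XT.lf (nat_lit 76) (nat_lit 9250475718) (nat_lit 0) (nat_lit 933384544) (nat_lit 1900) (nat_lit 12842799014) (nat_lit 504) (nat_lit 5) (nat_lit 503) (nat_lit 5) (nat_lit 528) (nat_lit 5) (nat_lit 403) (nat_lit 394) (nat_lit 223)) (XT.lf (nat_lit 76) (nat_lit 4280315397) (nat_lit 0) (nat_lit 7872776010) (nat_lit 1900) (nat_lit 11228716474) (nat_lit 505) (nat_lit 5) (nat_lit 504)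 (nat_lit 5) (nat_lit 529) (nat_lit 5) (nat_lit 404) (nat_lit 394) (nat_lit 222))))))))
noncomputable def xc126 : XT := (XT.nd (nat_lit 53352) (nat_lit 0) (nat_lit 1064) (XT.nd (nat_lit 52572) (nat_lit 0) (nat_lit 1216) (XT.nd (nat_lit 312) (nat_lit 1672) (nat_lit 0) (XT.nd (nat_lit 156) (nat_lit 0) (nat_lit 76) (XT.nd (nat_lit 78) (nat_lit 0) (nat_lit 76) (XT.lf (nat_lit 0) (nat_lit 14330530499) (nat_lit 1824) (nat_lit 747418132) (nat_lit 1900) (nat_lit 8666679693) (nat_lit 505) (nat_lit 5) (nat_lit 529) (nat_lit 5) (nat_lit 530) (nat_lit 5) (nat_lit 405) (nat_lit 394) (nat_lit 221)) (XT.lf (nat_lit 0) (nat_lit 16748206830) (nat_lit 1824) (nat_lit 5785672340) (nat_lit 1900) (nat_lit 1580955927) (nat_lit 506) (nat_lit 5) (nat_lit 530) (nat_lit 5) (nat_lit 531) (nat_lit 5) (nat_lit 406) (nat_lit 394) (nat_lit 220))) (XT.nd (nat_lit 78) (nat_lit 0) (nat_lit 76) (XT.lf (nat_lit 76) (nat_lit 13563798414)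 (nat_lit 0) (nat_lit 5861588597) (nat_lit 1900) (nat_lit 5067021593) (nat_lit 507) (nat_lit 5) (nat_lit 506) (nat_lit 5) (nat_lit 531) (nat_lit 5) (nat_lit 407) (nat_lit 394) (nat_lit 219)) (XT.lf (nat_lit 76) (nat_lit 8727680942) (nat_lit 0) (nat_lit 13617926980) (nat_lit 1900) (nat_lit 2532446888) (nat_lit 508) (nat_lit 5) (nat_lit 507) (nat_lit 5) (nat_lit 532) (nat_lit 5) (nat_lit 408) (nat_lit 394) (nat_lit 218)))) (XT.nd (nat_lit 52026) (nat_lit 0) (nat_lit 1064) (XT.nd (nat_lit 78) (nat_lit 0) (nat_lit 0) (XT.lf (nat_lit 0) (nat_lit 232852825) (nat_lit 1900) (nat_lit 21441978937) (nat_lit 1976) (nat_lit 3597314230) (nat_lit 483) (nat_lit 5) (nat_lit 508) (nat_lit 5) (nat_lit 509) (nat_lit 5) (nat_lit 409) (nat_lit 394) (nat_lit 217)) (XT.lf (nat_lit 0) (nat_lit 3241580065) (nat_lit 1900) (nat_lit 1158966877) (nat_lit 1976) (nat_lit 21273280689) (nat_lit 483) (nat_lit 5) (nat_lit 508) (nat_lit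 5) (nat_lit 509) (nat_lit 5) (nat_lit 410) (nat_lit 394) (nat_lit 216))) (XT.nd (nat_lit 78) (nat_lit 0) (nat_lit 76) (XT.lf (nat_lit 0) (nat_lit 837866729) (nat_lit 1900) (nat_lit 4763490851) (nat_lit 1900) (nat_lit 4763490851) (nat_lit 497) (nat_lit 3) (nat_lit 522) (nat_lit 3) (nat_lit 522) (nat_lit 5) (nat_lit 395) (nat_lit 395) (nat_lit 230)) (XT.nd (nat_lit 78) (nat_lit 0) (nat_lit 0) (XT.lf (nat_lit 0) (nat_lit 1998382673) (nat_lit 1824) (nat_lit 14962504857) (nat_lit 1900) (nat_lit 4073804523) (nat_lit 498) (nat_lit 5) (nat_lit 522) (nat_lit 5) (nat_lit 523) (nat_lit 5) (nat_lit 396) (nat_lit 395) (nat_lit 229)) (XT.lf (nat_lit 76) (nat_lit 853165817) (nat_lit 0) (nat_lit 1613966424) (nat_lit 1900) (nat_lit 18878976439) (nat_lit 499) (nat_lit 5) (nat_lit 498) (nat_lit 5) (nat_lit 523) (nat_lit 5) (nat_lit 397) (nat_lit 395) (nat_lit 228)))))) (XT.nd (nat_lit 390) (nat_lit 0) (nat_lit 304)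 (XT.nd (nat_lit 156) (nat_lit 0) (nat_lit 152) (XT.nd (nat_lit 78) (nat_lit 0) (nat_lit 76) (XT.lf (nat_lit 0) (nat_lit 3135395410) (nat_lit 1824) (nat_lit 4414541768) (nat_lit 1900) (nat_lit 14113221605) (nat_lit 499) (nat_lit 5) (nat_lit 523) (nat_lit 5) (nat_lit 524) (nat_lit 5) (nat_lit 398) (nat_lit 395) (nat_lit 227)) (XT.lf (nat_lit 0) (nat_lit 3960245043) (nat_lit 1824) (nat_lit 9750746873) (nat_lit 1900) (nat_lit 8275997702) (nat_lit 500) (nat_lit 5) (nat_lit 524) (nat_lit 5) (nat_lit 525) (nat_lit 5) (nat_lit 399) (nat_lit 395) (nat_lit 226))) (XT.nd (nat_lit 78) (nat_lit 0) (nat_lit 0) (XT.lf (nat_lit 0) (nat_lit 4943217934) (nat_lit 1824) (nat_lit 15167310302) (nat_lit 1900) (nat_lit 2207339588) (nat_lit 501) (nat_lit 5) (nat_lit 525) (nat_lit 5) (nat_lit 526) (nat_lit 5) (nat_lit 400) (nat_lit 395) (nat_lit 225)) (XT.nd (nat_lit 78) (nat_lit 0) (nat_lit 76) (XT.lf (nat_lit 76) (nat_lit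 1963584262) (nat_lit 0) (nat_lit 4155008916) (nat_lit 1900) (nat_lit 16536820933) (nat_lit 502) (nat_lit 5) (nat_lit 501) (nat_lit 5) (nat_lit 526) (nat_lit 5) (nat_lit 401) (nat_lit 395) (nat_lit 224)) (XT.lf (nat_lit 0) (nat_lit 7504594847) (nat_lit 1824) (nat_lit 3270570813) (nat_lit 1900) (nat_lit 12224413824) (nat_lit 502) (nat_lit 5) (nat_lit 526) (nat_lit 5) (nat_lit 527) (nat_lit 5) (nat_lit 402) (nat_lit 395) (nat_lit 223))))) (XT.nd (nat_lit 156) (nat_lit 0) (nat_lit 76) (XT.nd (nat_lit 78) (nat_lit 0) (nat_lit 0) (XT.lf (nat_lit 0) (nat_lit 9086260689) (nat_lit 1824) (nat_lit 8554206610) (nat_lit 1900) (nat_lit 5710520837) (nat_lit 503) (nat_lit 5) (nat_lit 527) (nat_lit 5) (nat_lit 528) (nat_lit 5) (nat_lit 403) (nat_lit 395) (nat_lit 222)) (XT.lf (nat_lit 76) (nat_lit 9789527570) (nat_lit 0) (nat_lit 1076390982) (nat_lit 1900) (nat_lit 12844009653) (nat_lit 504) (nat_lit 5) (nat_lit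 503) (nat_lit 5) (nat_lit 528) (nat_lit 5) (nat_lit 404) (nat_lit 395) (nat_lit 221))) (XT.nd (nat_lit 78) (nat_lit 0) (nat_lit 76) (XT.lf (nat_lit 76) (nat_lit 4674162547) (nat_lit 0) (nat_lit 8210095285) (nat_lit 1900) (nat_lit 11191672811) (nat_lit 505) (nat_lit 5) (nat_lit 504) (nat_lit 5) (nat_lit 529) (nat_lit 5) (nat_lit 405) (nat_lit 395) (nat_lit 220)) (XT.nd (nat_lit 78) (nat_lit 0) (nat_lit 76) (XT.lf (nat_lit 0) (nat_lit 15115705677) (nat_lit 1824) (nat_lit 504378731) (nat_lit 1900) (nat_lit 8829777581) (nat_lit 505) (nat_lit 5) (nat_lit 529) (nat_lit 5) (nat_lit 530) (nat_lit 5) (nat_lit 406) (nat_lit 395) (nat_lit 219)) (XT.lf (nat_lit 0) (nat_lit 17596705720) (nat_lit 1824) (nat_lit 5690600406) (nat_lit 1900) (nat_lit 1544052971) (nat_lit 506) (nat_lit 5) (nat_lit 530) (nat_lit 5) (nat_lit 531) (nat_lit 5) (nat_lit 407) (nat_lit 395) (nat_lit 218))))))) (XT.nd (nat_lit 52806) (nat_lit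 0) (nat_lit 0) (XT.nd (nat_lit 52416) (nat_lit 0) (nat_lit 152) (XT.nd (nat_lit 52182) (nat_lit 684) (nat_lit 0) (XT.nd (nat_lit 78) (nat_lit 0) (nat_lit 76) (XT.lf (nat_lit 76) (nat_lit 14234996072) (nat_lit 0) (nat_lit 6110841935) (nat_lit 1900) (nat_lit 4874589068) (nat_lit 507) (nat_lit 5) (nat_lit 506) (nat_lit 5) (nat_lit 531) (nat_lit 5) (nat_lit 408) (nat_lit 395) (nat_lit 217)) (XT.lf (nat_lit 76) (nat_lit 9256620467) (nat_lit 0) (nat_lit 14088480997) (nat_lit 1900) (nat_lit 2272712483) (nat_lit 508) (nat_lit 5) (nat_lit 507) (nat_lit 5) (nat_lit 532) (nat_lit 5) (nat_lit 409) (nat_lit 395) (nat_lit 216))) (XT.nd (nat_lit 78) (nat_lit 0) (nat_lit 76) (XT.lf (nat_lit 0) (nat_lit 1091890871) (nat_lit 1900) (nat_lit 4789662625) (nat_lit 1900) (nat_lit 4789662625) (nat_lit 497) (nat_lit 3) (nat_lit 522) (nat_lit 3) (nat_lit 522) (nat_lit 5) (nat_lit 396) (nat_lit 396) (nat_lit 228)) (XT.nd (nat_lit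 78) (nat_lit 0) (nat_lit 0) (XT.lf (nat_lit 0) (nat_lit 2502864289) (nat_lit 1824) (nat_lit 15171379045) (nat_lit 1900) (nat_lit 3982598878) (nat_lit 498) (nat_lit 5) (nat_lit 522) (nat_lit 5) (nat_lit 523) (nat_lit 5) (nat_lit 397) (nat_lit 396) (nat_lit 227)) (XT.lf (nat_lit 76) (nat_lit 1114868019) (nat_lit 0) (nat_lit 1859393810) (nat_lit 1900) (nat_lit 19003567799) (nat_lit 499) (nat_lit 5) (nat_lit 498) (nat_lit 5) (nat_lit 523) (nat_lit 5) (nat_lit 398) (nat_lit 396) (nat_lit 226))))) (XT.nd (nat_lit 156) (nat_lit 0) (nat_lit 152) (XT.nd (nat_lit 78) (nat_lit 0) (nat_lit 76) (XT.lf (nat_lit 0) (nat_lit 3648716021) (nat_lit 1824) (nat_lit 4308095838) (nat_lit 1900) (nat_lit 14347856513) (nat_lit 499) (nat_lit 5) (nat_lit 523) (nat_lit 5) (nat_lit 524) (nat_lit 5) (nat_lit 399) (nat_lit 396) (nat_lit 225)) (XT.lf (nat_lit 0) (nat_lit 4486498633) (nat_lit 1824) (nat_lit 9798964303) (nat_lit 1900)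 (nat_lit 8352987446) (nat_lit 500) (nat_lit 5) (nat_lit 524) (nat_lit 5) (nat_lit 525) (nat_lit 5) (nat_lit 400) (nat_lit 396) (nat_lit 224))) (XT.nd (nat_lit 78) (nat_lit 0) (nat_lit 0) (XT.lf (nat_lit 0) (nat_lit 5487635764) (nat_lit 1824) (nat_lit 15373027370) (nat_lit 1900) (nat_lit 2118818297) (nat_lit 501) (nat_lit 5) (nat_lit 525) (nat_lit 5) (nat_lit 526) (nat_lit 5) (nat_lit 401) (nat_lit 396) (nat_lit 223)) (XT.nd (nat_lit 78) (nat_lit 0) (nat_lit 76) (XT.lf (nat_lit 76) (nat_lit 2267749397) (nat_lit 0) (nat_lit 4420577730) (nat_lit 1900) (nat_lit 16639025884) (nat_lit 502) (nat_lit 5) (nat_lit 501) (nat_lit 5) (nat_lit 526) (nat_lit 5) (nat_lit 402) (nat_lit 396) (nat_lit 222)) (XT.lf (nat_lit 0) (nat_lit 8103772709) (nat_lit 1824) (nat_lit 3122186901) (nat_lit 1900) (nat_lit 12456126458) (nat_lit 502) (nat_lit 5) (nat_lit 526) (nat_lit 5) (nat_lit 527) (nat_lit 5) (nat_lit 403) (nat_lit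 396) (nat_lit 221)))))) (XT.nd (nat_lit 390) (nat_lit 456) (nat_lit 0) (XT.nd (nat_lit 156) (nat_lit 0) (nat_lit 76) (XT.nd (nat_lit 78) (nat_lit 0) (nat_lit 0) (XT.lf (nat_lit 0) (nat_lit 9722775117) (nat_lit 1824) (nat_lit 8560243034) (nat_lit 1900) (nat_lit 5761221096) (nat_lit 503) (nat_lit 5) (nat_lit 527) (nat_lit 5) (nat_lit 528) (nat_lit 5) (nat_lit 404) (nat_lit 396) (nat_lit 220)) (XT.lf (nat_lit 76) (nat_lit 10329737650) (nat_lit 0) (nat_lit 1217085862) (nat_lit 1900) (nat_lit 12867303992) (nat_lit 504) (nat_lit 5) (nat_lit 503) (nat_lit 5) (nat_lit 528) (nat_lit 5) (nat_lit 405) (nat_lit 396) (nat_lit 219))) (XT.nd (nat_lit 78) (nat_lit 0) (nat_lit 76) (XT.lf (nat_lit 76) (nat_lit 5064587903) (nat_lit 0) (nat_lit 8551728519) (nat_lit 1900) (nat_lit 11174981525) (nat_lit 505) (nat_lit 5) (nat_lit 504) (nat_lit 5) (nat_lit 529) (nat_lit 5) (nat_lit 406) (nat_lit 396) (nat_lit 218)) (XT.nd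 (nat_lit 78) (nat_lit 0) (nat_lit 76) (XT.lf (nat_lit 0) (nat_lit 15904042775) (nat_lit 1824) (nat_lit 269286749) (nat_lit 1900) (nat_lit 9003331006) (nat_lit 505) (nat_lit 5) (nat_lit 529) (nat_lit 5) (nat_lit 530) (nat_lit 5) (nat_lit 407) (nat_lit 396) (nat_lit 217)) (XT.lf (nat_lit 0) (nat_lit 18450794737) (nat_lit 1824) (nat_lit 5608097470) (nat_lit 1900) (nat_lit 1510883906) (nat_lit 506) (nat_lit 5) (nat_lit 530) (nat_lit 5) (nat_lit 531) (nat_lit 5) (nat_lit 408) (nat_lit 396) (nat_lit 216))))) (XT.nd (nat_lit 52260) (nat_lit 0) (nat_lit 76) (XT.nd (nat_lit 52182) (nat_lit 684) (nat_lit 0) (XT.lf (nat_lit 76) (nat_lit 14911158693) (nat_lit 0) (nat_lit 6363359087) (nat_lit 1900) (nat_lit 4696156014) (nat_lit 507) (nat_lit 5) (nat_lit 506) (nat_lit 5) (nat_lit 531) (nat_lit 5) (nat_lit 409) (nat_lit 396) (nat_lit 215)) (XT.lf (nat_lit 0) (nat_lit 1340396621) (nat_lit 1900) (nat_lit 4823320502)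 (nat_lit 1900) (nat_lit 4823320502) (nat_lit 497) (nat_lit 3) (nat_lit 522) (nat_lit 3) (nat_lit 522) (nat_lit 5) (nat_lit 397) (nat_lit 397) (nat_lit 226))) (XT.nd (nat_lit 78) (nat_lit 0) (nat_lit 0) (XT.lf (nat_lit 0) (nat_lit 2996962505) (nat_lit 1824) (nat_lit 15400296496) (nat_lit 1900) (nat_lit 3900908232) (nat_lit 498) (nat_lit 5) (nat_lit 522) (nat_lit 5) (nat_lit 523) (nat_lit 5) (nat_lit 398) (nat_lit 397) (nat_lit 225)) (XT.nd (nat_lit 78) (nat_lit 0) (nat_lit 76) (XT.lf (nat_lit 76) (nat_lit 1370867766) (nat_lit 0) (nat_lit 2100874930) (nat_lit 1900) (nat_lit 19157256761) (nat_lit 499) (nat_lit 5) (nat_lit 498) (nat_lit 5) (nat_lit 523) (nat_lit 5) (nat_lit 399) (nat_lit 397) (nat_lit 224)) (XT.lf (nat_lit 0) (nat_lit 4153369083) (nat_lit 1824) (nat_lit 4212169345) (nat_lit 1900) (nat_lit 14600366164) (nat_lit 499) (nat_lit 5) (nat_lit 523) (nat_lit 5) (nat_lit 524) (nat_lit 5) (nat_lit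 400) (nat_lit 397) (nat_lit 223))))))))
noncomputable def xc127 : XT := (XT.nd (nat_lit 106236) (nat_lit 0) (nat_lit 0) (XT.nd (nat_lit 53040) (nat_lit 0) (nat_lit 0) (XT.nd (nat_lit 390) (nat_lit 228) (nat_lit 0) (XT.nd (nat_lit 156) (nat_lit 0) (nat_lit 76) (XT.nd (nat_lit 78) (nat_lit 0) (nat_lit 76) (XT.lf (nat_lit 0) (nat_lit 5005150750) (nat_lit 1824) (nat_lit 9862652362) (nat_lit 1900) (nat_lit 8442119639) (nat_lit 500) (nat_lit 5) (nat_lit 524) (nat_lit 5) (nat_lit 525) (nat_lit 5) (nat_lit 401) (nat_lit 397) (nat_lit 222)) (XT.lf (nat_lit 0) (nat_lit 6025647147) (nat_lit 1824) (nat_lit 15599226920) (nat_lit 1900) (nat_lit 2036524162) (nat_lit 501) (nat_lit 5) (nat_lit 525) (nat_lit 5) (nat_lit 526) (nat_lit 5) (nat_lit 402) (nat_lit 397) (nat_lit 221))) (XT.nd (nat_lit 78) (nat_lit 0) (nat_lit 76) (XT.lf (nat_lit 76) (nat_lit 2566960697) (nat_lit 0) (nat_lit 4686024307) (nat_lit 1900) (nat_lit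 16766908436) (nat_lit 502) (nat_lit 5) (nat_lit 501) (nat_lit 5) (nat_lit 526) (nat_lit 5) (nat_lit 403) (nat_lit 397) (nat_lit 220)) (XT.nd (nat_lit 78) (nat_lit 0) (nat_lit 76) (XT.lf (nat_lit 0) (nat_lit 8699454480) (nat_lit 1824) (nat_lit 2983501640) (nat_lit 1900) (nat_lit 12702541158) (nat_lit 502) (nat_lit 5) (nat_lit 526) (nat_lit 5) (nat_lit 527) (nat_lit 5) (nat_lit 404) (nat_lit 397) (nat_lit 219)) (XT.lf (nat_lit 0) (nat_lit 10357494103) (nat_lit 1824) (nat_lit 8580845429) (nat_lit 1900) (nat_lit 5820366178) (nat_lit 503) (nat_lit 5) (nat_lit 527) (nat_lit 5) (nat_lit 528) (nat_lit 5) (nat_lit 405) (nat_lit 397) (nat_lit 218))))) (XT.nd (nat_lit 156) (nat_lit 456) (nat_lit 0) (XT.nd (nat_lit 78) (nat_lit 0) (nat_lit 76) (XT.lf (nat_lit 76) (nat_lit 10872002532) (nat_lit 0) (nat_lit 1355778803) (nat_lit 1900) (nat_lit 12912078931) (nat_lit 504) (nat_lit 5) (nat_lit 503) (nat_lit 5) (nat_lit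 528) (nat_lit 5) (nat_lit 406) (nat_lit 397) (nat_lit 217)) (XT.lf (nat_lit 76) (nat_lit 5452363488) (nat_lit 0) (nat_lit 8898138395) (nat_lit 1900) (nat_lit 11178021082) (nat_lit 505) (nat_lit 5) (nat_lit 504) (nat_lit 5) (nat_lit 529) (nat_lit 5) (nat_lit 407) (nat_lit 397) (nat_lit 216))) (XT.nd (nat_lit 52338) (nat_lit 608) (nat_lit 0) (XT.lf (nat_lit 0) (nat_lit 16696807312) (nat_lit 1824) (nat_lit 41505851) (nat_lit 1900) (nat_lit 9187334317) (nat_lit 505) (nat_lit 5) (nat_lit 529) (nat_lit 5) (nat_lit 530) (nat_lit 5) (nat_lit 408) (nat_lit 397) (nat_lit 215)) (XT.nd (nat_lit 78) (nat_lit 0) (nat_lit 76) (XT.lf (nat_lit 0) (nat_lit 1583972667) (nat_lit 1900) (nat_lit 4864304402) (nat_lit 1900) (nat_lit 4864304402) (nat_lit 497) (nat_lit 3) (nat_lit 522) (nat_lit 3) (nat_lit 522) (nat_lit 5) (nat_lit 398) (nat_lit 398) (nat_lit 224)) (XT.lf (nat_lit 0) (nat_lit 3481830648) (nat_lit 1824) (nat_lit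 15649067649) (nat_lit 1900) (nat_lit 3828314768) (nat_lit 498) (nat_lit 5) (nat_lit 522) (nat_lit 5) (nat_lit 523) (nat_lit 5) (nat_lit 399) (nat_lit 398) (nat_lit 223)))))) (XT.nd (nat_lit 390) (nat_lit 76) (nat_lit 0) (XT.nd (nat_lit 156) (nat_lit 0) (nat_lit 152) (XT.nd (nat_lit 78) (nat_lit 0) (nat_lit 76) (XT.lf (nat_lit 76) (nat_lit 1621772012) (nat_lit 0) (nat_lit 2338940584) (nat_lit 1900) (nat_lit 19339460492) (nat_lit 499) (nat_lit 5) (nat_lit 498) (nat_lit 5) (nat_lit 523) (nat_lit 5) (nat_lit 400) (nat_lit 398) (nat_lit 222)) (XT.lf (nat_lit 0) (nat_lit 4650476124) (nat_lit 1824) (nat_lit 4126290699) (nat_lit 1900) (nat_lit 14870664787) (nat_lit 499) (nat_lit 5) (nat_lit 523) (nat_lit 5) (nat_lit 524) (nat_lit 5) (nat_lit 401) (nat_lit 398) (nat_lit 221))) (XT.nd (nat_lit 78) (nat_lit 0) (nat_lit 76) (XT.lf (nat_lit 0) (nat_lit 5517315978) (nat_lit 1824) (nat_lit 9941470126) (nat_lit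 1900) (nat_lit 8543194115) (nat_lit 500) (nat_lit 5) (nat_lit 524) (nat_lit 5) (nat_lit 525) (nat_lit 5) (nat_lit 402) (nat_lit 398) (nat_lit 220)) (XT.nd (nat_lit 78) (nat_lit 0) (nat_lit 0) (XT.lf (nat_lit 0) (nat_lit 6558365199) (nat_lit 1824) (nat_lit 15845701916) (nat_lit 1900) (nat_lit 1960134088) (nat_lit 501) (nat_lit 5) (nat_lit 525) (nat_lit 5) (nat_lit 526) (nat_lit 5) (nat_lit 403) (nat_lit 398) (nat_lit 219)) (XT.lf (nat_lit 76) (nat_lit 2861877725) (nat_lit 0) (nat_lit 4951809340) (nat_lit 1900) (nat_lit 16919940928) (nat_lit 502) (nat_lit 5) (nat_lit 501) (nat_lit 5) (nat_lit 526) (nat_lit 5) (nat_lit 404) (nat_lit 398) (nat_lit 218))))) (XT.nd (nat_lit 156) (nat_lit 380) (nat_lit 0) (XT.nd (nat_lit 78) (nat_lit 0) (nat_lit 76) (XT.lf (nat_lit 0) (nat_lit 9292767825) (nat_lit 1824) (nat_lit 2853993711) (nat_lit 1900) (nat_lit 12963654066) (nat_lit 502) (nat_lit 5) (nat_lit 526) (nat_lit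 5) (nat_lit 527) (nat_lit 5) (nat_lit 405) (nat_lit 398) (nat_lit 217)) (XT.lf (nat_lit 0) (nat_lit 10991563004) (nat_lit 1824) (nat_lit 8615625023) (nat_lit 1900) (nat_lit 5887811973) (nat_lit 503) (nat_lit 5) (nat_lit 527) (nat_lit 5) (nat_lit 528) (nat_lit 5) (nat_lit 406) (nat_lit 398) (nat_lit 216))) (XT.nd (nat_lit 52494) (nat_lit 456) (nat_lit 0) (XT.lf (nat_lit 76) (nat_lit 11417196214) (nat_lit 0) (nat_lit 1492766962) (nat_lit 1900) (nat_lit 12977785930) (nat_lit 504) (nat_lit 5) (nat_lit 503) (nat_lit 5) (nat_lit 528) (nat_lit 5) (nat_lit 407) (nat_lit 398) (nat_lit 215)) (XT.nd (nat_lit 78) (nat_lit 0) (nat_lit 76) (XT.lf (nat_lit 0) (nat_lit 1823182061) (nat_lit 1900) (nat_lit 4912471525) (nat_lit 1900) (nat_lit 4912471525) (nat_lit 497) (nat_lit 3) (nat_lit 522) (nat_lit 3) (nat_lit 522) (nat_lit 5) (nat_lit 399) (nat_lit 399) (nat_lit 222)) (XT.lf (nat_lit 0) (nat_lit 3958572557) (nat_lit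 1824) (nat_lit 15917542655) (nat_lit 1900) (nat_lit 3764428504) (nat_lit 498) (nat_lit 5) (nat_lit 522) (nat_lit 5) (nat_lit 523) (nat_lit 5) (nat_lit 400) (nat_lit 399) (nat_lit 221))))))) (XT.nd (nat_lit 53352) (nat_lit 0) (nat_lit 0) (XT.nd (nat_lit 390) (nat_lit 76) (nat_lit 0) (XT.nd (nat_lit 156) (nat_lit 0) (nat_lit 152) (XT.nd (nat_lit 78) (nat_lit 0) (nat_lit 76) (XT.lf (nat_lit 76) (nat_lit 1868161258) (nat_lit 0) (nat_lit 2574100229) (nat_lit 1900) (nat_lit 19549662243) (nat_lit 499) (nat_lit 5) (nat_lit 498) (nat_lit 5) (nat_lit 523) (nat_lit 5) (nat_lit 401) (nat_lit 399) (nat_lit 220)) (XT.lf (nat_lit 0) (nat_lit 5141113009) (nat_lit 1824) (nat_lit 4050019353) (nat_lit 1900) (nat_lit 15158699744) (nat_lit 499) (nat_lit 5) (nat_lit 523) (nat_lit 5) (nat_lit 524) (nat_lit 5) (nat_lit 402) (nat_lit 399) (nat_lit 219))) (XT.nd (nat_lit 78) (nat_lit 0) (nat_lit 76) (XT.lf (nat_lit 0) (nat_lit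 6024065268) (nat_lit 1824) (nat_lit 10035112659) (nat_lit 1900) (nat_lit 8656037102) (nat_lit 500) (nat_lit 5) (nat_lit 524) (nat_lit 5) (nat_lit 525) (nat_lit 5) (nat_lit 403) (nat_lit 399) (nat_lit 218)) (XT.nd (nat_lit 78) (nat_lit 0) (nat_lit 0) (XT.lf (nat_lit 0) (nat_lit 7086861501) (nat_lit 1824) (nat_lit 16112286272) (nat_lit 1900) (nat_lit 1889344559) (nat_lit 501) (nat_lit 5) (nat_lit 525) (nat_lit 5) (nat_lit 526) (nat_lit 5) (nat_lit 404) (nat_lit 399) (nat_lit 217)) (XT.lf (nat_lit 76) (nat_lit 3153133442) (nat_lit 0) (nat_lit 5218380684) (nat_lit 1900) (nat_lit 17097654377) (nat_lit 502) (nat_lit 5) (nat_lit 501) (nat_lit 5) (nat_lit 526) (nat_lit 5) (nat_lit 405) (nat_lit 399) (nat_lit 216))))) (XT.nd (nat_lit 52728) (nat_lit 0) (nat_lit 76) (XT.nd (nat_lit 52650) (nat_lit 380) (nat_lit 0) (XT.lf (nat_lit 0) (nat_lit 9884803485) (nat_lit 1824) (nat_lit 2733172785) (nat_lit 1900) (nat_lit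 13239486748) (nat_lit 502) (nat_lit 5) (nat_lit 526) (nat_lit 5) (nat_lit 527) (nat_lit 5) (nat_lit 406) (nat_lit 399) (nat_lit 215)) (XT.lf (nat_lit 0) (nat_lit 2058563934) (nat_lit 1900) (nat_lit 4967695601) (nat_lit 1900) (nat_lit 4967695601) (nat_lit 497) (nat_lit 3) (nat_lit 522) (nat_lit 3) (nat_lit 522) (nat_lit 5) (nat_lit 400) (nat_lit 400) (nat_lit 220))) (XT.nd (nat_lit 78) (nat_lit 0) (nat_lit 0) (XT.lf (nat_lit 0) (nat_lit 4428245928) (nat_lit 1824) (nat_lit 16205609962) (nat_lit 1900) (nat_lit 3708885814) (nat_lit 498) (nat_lit 5) (nat_lit 522) (nat_lit 5) (nat_lit 523) (nat_lit 5) (nat_lit 401) (nat_lit 400) (nat_lit 219)) (XT.nd (nat_lit 78) (nat_lit 0) (nat_lit 76) (XT.lf (nat_lit 76) (nat_lit 2110591321) (nat_lit 0) (nat_lit 2806843481) (nat_lit 1900) (nat_lit 19787408531) (nat_lit 499) (nat_lit 5) (nat_lit 498) (nat_lit 5) (nat_lit 523) (nat_lit 5) (nat_lit 402) (nat_lit 400) (nat_lit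 218)) (XT.lf (nat_lit 0) (nat_lit 5626313127) (nat_lit 1824) (nat_lit 3982944132) (nat_lit 1900) (nat_lit 15464450475) (nat_lit 499) (nat_lit 5) (nat_lit 523) (nat_lit 5) (nat_lit 524) (nat_lit 5) (nat_lit 403) (nat_lit 400) (nat_lit 217)))))) (XT.nd (nat_lit 53040) (nat_lit 0) (nat_lit 76) (XT.nd (nat_lit 156) (nat_lit 228) (nat_lit 0) (XT.nd (nat_lit 78) (nat_lit 0) (nat_lit 76) (XT.lf (nat_lit 0) (nat_lit 6526429049) (nat_lit 1824) (nat_lit 10143309435) (nat_lit 1900) (nat_lit 8780500159) (nat_lit 500) (nat_lit 5) (nat_lit 524) (nat_lit 5) (nat_lit 525) (nat_lit 5) (nat_lit 404) (nat_lit 400) (nat_lit 216)) (XT.lf (nat_lit 0) (nat_lit 7612169152) (nat_lit 1824) (nat_lit 16398853370) (nat_lit 1900) (nat_lit 1823870544) (nat_lit 501) (nat_lit 5) (nat_lit 525) (nat_lit 5) (nat_lit 526) (nat_lit 5) (nat_lit 405) (nat_lit 400) (nat_lit 215))) (XT.nd (nat_lit 52728) (nat_lit 304) (nat_lit 0) (XT.lf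 (nat_lit 76) (nat_lit 3441336066) (nat_lit 0) (nat_lit 5486174507) (nat_lit 1900) (nat_lit 17299635966) (nat_lit 502) (nat_lit 5) (nat_lit 501) (nat_lit 5) (nat_lit 526) (nat_lit 5) (nat_lit 406) (nat_lit 400) (nat_lit 214)) (XT.nd (nat_lit 78) (nat_lit 0) (nat_lit 76) (XT.lf (nat_lit 0) (nat_lit 2290635124) (nat_lit 1900) (nat_lit 5029866190) (nat_lit 1900) (nat_lit 5029866190) (nat_lit 497) (nat_lit 3) (nat_lit 522) (nat_lit 3) (nat_lit 522) (nat_lit 5) (nat_lit 401) (nat_lit 401) (nat_lit 218)) (XT.lf (nat_lit 0) (nat_lit 4891865474) (nat_lit 1824) (nat_lit 16513195009) (nat_lit 1900) (nat_lit 3661348028) (nat_lit 498) (nat_lit 5) (nat_lit 522) (nat_lit 5) (nat_lit 523) (nat_lit 5) (nat_lit 402) (nat_lit 401) (nat_lit 217))))) (XT.nd (nat_lit 156) (nat_lit 0) (nat_lit 0) (XT.nd (nat_lit 78) (nat_lit 0) (nat_lit 76) (XT.lf (nat_lit 76) (nat_lit 2349595011) (nat_lit 0) (nat_lit 3037641533) (nat_lit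 1900) (nat_lit 20052306515) (nat_lit 499) (nat_lit 5) (nat_lit 498) (nat_lit 5) (nat_lit 523) (nat_lit 5) (nat_lit 403) (nat_lit 401) (nat_lit 216)) (XT.lf (nat_lit 0) (nat_lit 6107070405) (nat_lit 1824) (nat_lit 3924681677) (nat_lit 1900) (nat_lit 15787927527) (nat_lit 499) (nat_lit 5) (nat_lit 523) (nat_lit 5) (nat_lit 524) (nat_lit 5) (nat_lit 404) (nat_lit 401) (nat_lit 215))) (XT.nd (nat_lit 52962) (nat_lit 152) (nat_lit 0) (XT.lf (nat_lit 0) (nat_lit 7025400187) (nat_lit 1824) (nat_lit 10265822873) (nat_lit 1900) (nat_lit 8916459178) (nat_lit 500) (nat_lit 5) (nat_lit 524) (nat_lit 5) (nat_lit 525) (nat_lit 5) (nat_lit 405) (nat_lit 401) (nat_lit 214)) (XT.nd (nat_lit 78) (nat_lit 0) (nat_lit 0) (XT.lf (nat_lit 0) (nat_lit 5350405932) (nat_lit 1824) (nat_lit 16840259017) (nat_lit 1900) (nat_lit 3621500129) (nat_lit 498) (nat_lit 5) (nat_lit 522) (nat_lit 5) (nat_lit 523) (nat_lit 5) (nat_lit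 403) (nat_lit 402) (nat_lit 215)) (XT.lf (nat_lit 76) (nat_lit 2585683720) (nat_lit 0) (nat_lit 3266948502) (nat_lit 1900) (nat_lit 20344021557) (nat_lit 499) (nat_lit 5) (nat_lit 498) (nat_lit 5) (nat_lit 523) (nat_lit 5) (nat_lit 404) (nat_lit 402) (nat_lit 214))))))))
noncomputable def ec0 : XT := (XT.nd (nat_lit 159042) (nat_lit 0) (nat_lit 0) (XT.nd (nat_lit 106002) (nat_lit 0) (nat_lit 0) (XT.nd (nat_lit 53040) (nat_lit 0) (nat_lit 0) (XT.nd (nat_lit 156) (nat_lit 0) (nat_lit 0) (XT.nd (nat_lit 78) (nat_lit 0) (nat_lit 76) (XT.lf (nat_lit 1900) (nat_lit 341766261) (nat_lit 0) (nat_lit 344624221) (nat_lit 1900) (nat_lit 341766261) (nat_lit 522) (nat_lit 1) (nat_lit 497) (nat_lit 0) (nat_lit 522) (nat_lit 0) (nat_lit 386) (nat_lit 317) (nat_lit 317)) (XT.lf (nat_lit 1900) (nat_lit 157976085) (nat_lit 0) (nat_lit 685734975) (nat_lit 1824) (nat_lit 1182525630) (nat_lit 523) (nat_lit 1) (nat_lit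 498) (nat_lit 1) (nat_lit 522) (nat_lit 1) (nat_lit 387) (nat_lit 317) (nat_lit 316))) (XT.nd (nat_lit 52806) (nat_lit 76) (nat_lit 0) (XT.lf (nat_lit 1900) (nat_lit 1299190657) (nat_lit 76) (nat_lit 334041126) (nat_lit 0) (nat_lit 363499794) (nat_lit 523) (nat_lit 1) (nat_lit 499) (nat_lit 1) (nat_lit 498) (nat_lit 1) (nat_lit 388) (nat_lit 317) (nat_lit 315)) (XT.lf (nat_lit 1900) (nat_lit 352019248) (nat_lit 0) (nat_lit 354962948) (nat_lit 1900) (nat_lit 352019248) (nat_lit 522) (nat_lit 1) (nat_lit 497) (nat_lit 0) (nat_lit 522) (nat_lit 0) (nat_lit 384) (nat_lit 318) (nat_lit 318)))) (XT.nd (nat_lit 156) (nat_lit 76) (nat_lit 0) (XT.nd (nat_lit 78) (nat_lit 0) (nat_lit 0) (XT.lf (nat_lit 1900) (nat_lit 162715368) (nat_lit 0) (nat_lit 706307025) (nat_lit 1824) (nat_lit 1218001399) (nat_lit 523) (nat_lit 1) (nat_lit 498) (nat_lit 1) (nat_lit 522) (nat_lit 1) (nat_lit 385) (nat_lit 318) (nat_lit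 317)) (XT.lf (nat_lit 1900) (nat_lit 1338166376) (nat_lit 76) (nat_lit 344062359) (nat_lit 0) (nat_lit 374404788) (nat_lit 523) (nat_lit 1) (nat_lit 499) (nat_lit 1) (nat_lit 498) (nat_lit 1) (nat_lit 386) (nat_lit 318) (nat_lit 316))) (XT.nd (nat_lit 78) (nat_lit 152) (nat_lit 0) (XT.lf (nat_lit 1900) (nat_lit 1123362495) (nat_lit 0) (nat_lit 745443410) (nat_lit 1824) (nat_lit 158019098) (nat_lit 524) (nat_lit 1) (nat_lit 499) (nat_lit 1) (nat_lit 523) (nat_lit 1) (nat_lit 387) (nat_lit 318) (nat_lit 315)) (XT.nd (nat_lit 52650) (nat_lit 228) (nat_lit 0) (XT.lf (nat_lit 1900) (nat_lit 576293784) (nat_lit 0) (nat_lit 786659751) (nat_lit 1824) (nat_lit 634630642) (nat_lit 525) (nat_lit 1) (nat_lit 500) (nat_lit 1) (nat_lit 524) (nat_lit 1) (nat_lit 388) (nat_lit 318) (nat_lit 314)) (XT.lf (nat_lit 1900) (nat_lit 362579826) (nat_lit 0) (nat_lit 365611836) (nat_lit 1900) (nat_lit 362579826) (nat_lit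 522) (nat_lit 1) (nat_lit 497) (nat_lit 0) (nat_lit 522) (nat_lit 0) (nat_lit 382) (nat_lit 319) (nat_lit 319)))))) (XT.nd (nat_lit 312) (nat_lit 76) (nat_lit 0) (XT.nd (nat_lit 156) (nat_lit 0) (nat_lit 76) (XT.nd (nat_lit 78) (nat_lit 0) (nat_lit 0) (XT.lf (nat_lit 1900) (nat_lit 167596829) (nat_lit 0) (nat_lit 727496236) (nat_lit 1824) (nat_lit 1254541441) (nat_lit 523) (nat_lit 1) (nat_lit 498) (nat_lit 1) (nat_lit 522) (nat_lit 1) (nat_lit 383) (nat_lit 319) (nat_lit 318)) (XT.lf (nat_lit 1900) (nat_lit 1378311368) (nat_lit 76) (nat_lit 354384230) (nat_lit 0) (nat_lit 385636932) (nat_lit 523) (nat_lit 1) (nat_lit 499) (nat_lit 1) (nat_lit 498) (nat_lit 1) (nat_lit 384) (nat_lit 319) (nat_lit 317))) (XT.nd (nat_lit 78) (nat_lit 0) (nat_lit 76) (XT.lf (nat_lit 1900) (nat_lit 1157063370) (nat_lit 0) (nat_lit 767806712) (nat_lit 1824) (nat_lit 162759671) (nat_lit 524) (nat_lit 1) (nat_lit 499) (nat_lit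 1) (nat_lit 523) (nat_lit 1) (nat_lit 385) (nat_lit 319) (nat_lit 316)) (XT.lf (nat_lit 1900) (nat_lit 593582598) (nat_lit 0) (nat_lit 810259543) (nat_lit 1824) (nat_lit 653669561) (nat_lit 525) (nat_lit 1) (nat_lit 500) (nat_lit 1) (nat_lit 524) (nat_lit 1) (nat_lit 386) (nat_lit 319) (nat_lit 315)))) (XT.nd (nat_lit 156) (nat_lit 304) (nat_lit 0) (XT.nd (nat_lit 78) (nat_lit 0) (nat_lit 0) (XT.lf (nat_lit 1900) (nat_lit 39864992) (nat_lit 0) (nat_lit 864524147) (nat_lit 1824) (nat_lit 1123620771) (nat_lit 526) (nat_lit 1) (nat_lit 501) (nat_lit 1) (nat_lit 525) (nat_lit 1) (nat_lit 387) (nat_lit 319) (nat_lit 314)) (XT.lf (nat_lit 1900) (nat_lit 1065661705) (nat_lit 76) (nat_lit 422503100) (nat_lit 0) (nat_lit 510879109) (nat_lit 526) (nat_lit 1) (nat_lit 502) (nat_lit 1) (nat_lit 501) (nat_lit 1) (nat_lit 388) (nat_lit 319) (nat_lit 313))) (XT.nd (nat_lit 52416) (nat_lit 380) (nat_lit 0) (XT.lf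 (nat_lit 1900) (nat_lit 918473977) (nat_lit 0) (nat_lit 1013454224) (nat_lit 1824) (nat_lit 38728996) (nat_lit 527) (nat_lit 1) (nat_lit 502) (nat_lit 1) (nat_lit 526) (nat_lit 1) (nat_lit 389) (nat_lit 319) (nat_lit 312)) (XT.nd (nat_lit 78) (nat_lit 0) (nat_lit 76) (XT.lf (nat_lit 1900) (nat_lit 373457221) (nat_lit 0) (nat_lit 376580192) (nat_lit 1900) (nat_lit 373457221) (nat_lit 522) (nat_lit 1) (nat_lit 497) (nat_lit 0) (nat_lit 522) (nat_lit 0) (nat_lit 380) (nat_lit 320) (nat_lit 320)) (XT.lf (nat_lit 1900) (nat_lit 172624734) (nat_lit 0) (nat_lit 749321123) (nat_lit 1824) (nat_lit 1292177684) (nat_lit 523) (nat_lit 1) (nat_lit 498) (nat_lit 1) (nat_lit 522) (nat_lit 1) (nat_lit 381) (nat_lit 320) (nat_lit 319))))))) (XT.nd (nat_lit 52884) (nat_lit 0) (nat_lit 76) (XT.nd (nat_lit 312) (nat_lit 76) (nat_lit 0) (XT.nd (nat_lit 156) (nat_lit 0) (nat_lit 152) (XT.nd (nat_lit 78) (nat_lit 0) (nat_lit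 76) (XT.lf (nat_lit 1900) (nat_lit 1419660709) (nat_lit 76) (nat_lit 365015757) (nat_lit 0) (nat_lit 397206040) (nat_lit 523) (nat_lit 1) (nat_lit 499) (nat_lit 1) (nat_lit 498) (nat_lit 1) (nat_lit 382) (nat_lit 320) (nat_lit 318)) (XT.lf (nat_lit 1900) (nat_lit 1191775271) (nat_lit 0) (nat_lit 790840914) (nat_lit 1824) (nat_lit 167642462) (nat_lit 524) (nat_lit 1) (nat_lit 499) (nat_lit 1) (nat_lit 523) (nat_lit 1) (nat_lit 383) (nat_lit 320) (nat_lit 317))) (XT.nd (nat_lit 78) (nat_lit 0) (nat_lit 76) (XT.lf (nat_lit 1900) (nat_lit 611390076) (nat_lit 0) (nat_lit 834567329) (nat_lit 1824) (nat_lit 673279648) (nat_lit 525) (nat_lit 1) (nat_lit 500) (nat_lit 1) (nat_lit 524) (nat_lit 1) (nat_lit 384) (nat_lit 320) (nat_lit 316)) (XT.lf (nat_lit 1900) (nat_lit 41060942) (nat_lit 0) (nat_lit 890459871) (nat_lit 1824) (nat_lit 1157329395) (nat_lit 526) (nat_lit 1) (nat_lit 501) (nat_lit 1) (nat_lit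 525) (nat_lit 1) (nat_lit 385) (nat_lit 320) (nat_lit 315)))) (XT.nd (nat_lit 156) (nat_lit 304) (nat_lit 0) (XT.nd (nat_lit 78) (nat_lit 0) (nat_lit 76) (XT.lf (nat_lit 1900) (nat_lit 1097631556) (nat_lit 76) (nat_lit 435178193) (nat_lit 0) (nat_lit 526205482) (nat_lit 526) (nat_lit 1) (nat_lit 502) (nat_lit 1) (nat_lit 501) (nat_lit 1) (nat_lit 386) (nat_lit 320) (nat_lit 314)) (XT.lf (nat_lit 1900) (nat_lit 946028196) (nat_lit 0) (nat_lit 1043857851) (nat_lit 1824) (nat_lit 39890866) (nat_lit 527) (nat_lit 1) (nat_lit 502) (nat_lit 1) (nat_lit 526) (nat_lit 1) (nat_lit 387) (nat_lit 320) (nat_lit 313))) (XT.nd (nat_lit 78) (nat_lit 456) (nat_lit 0) (XT.lf (nat_lit 1900) (nat_lit 372437238) (nat_lit 0) (nat_lit 1139529997) (nat_lit 1824) (nat_lit 489110958) (nat_lit 528) (nat_lit 1) (nat_lit 503) (nat_lit 1) (nat_lit 527) (nat_lit 1) (nat_lit 388) (nat_lit 320) (nat_lit 312)) (XT.nd (nat_lit 52260)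 (nat_lit 456) (nat_lit 0) (XT.lf (nat_lit 1900) (nat_lit 726597182) (nat_lit 76) (nat_lit 1052905903) (nat_lit 0) (nat_lit 193433791) (nat_lit 528) (nat_lit 1) (nat_lit 504) (nat_lit 1) (nat_lit 503) (nat_lit 1) (nat_lit 389) (nat_lit 320) (nat_lit 311)) (XT.lf (nat_lit 1900) (nat_lit 384660937) (nat_lit 0) (nat_lit 387877597) (nat_lit 1900) (nat_lit 384660937) (nat_lit 522) (nat_lit 1) (nat_lit 497) (nat_lit 0) (nat_lit 522) (nat_lit 0) (nat_lit 378) (nat_lit 321) (nat_lit 321)))))) (XT.nd (nat_lit 312) (nat_lit 0) (nat_lit 228) (XT.nd (nat_lit 156) (nat_lit 0) (nat_lit 76) (XT.nd (nat_lit 78) (nat_lit 0) (nat_lit 0) (XT.lf (nat_lit 1900) (nat_lit 177803476) (nat_lit 0) (nat_lit 771800756) (nat_lit 1824) (nat_lit 1330943015) (nat_lit 523) (nat_lit 1) (nat_lit 498) (nat_lit 1) (nat_lit 522) (nat_lit 1) (nat_lit 379) (nat_lit 321) (nat_lit 320)) (XT.lf (nat_lit 1900) (nat_lit 1462250530) (nat_lit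 76) (nat_lit 375966230) (nat_lit 0) (nat_lit 409122221) (nat_lit 523) (nat_lit 1) (nat_lit 499) (nat_lit 1) (nat_lit 498) (nat_lit 1) (nat_lit 380) (nat_lit 321) (nat_lit 319))) (XT.nd (nat_lit 78) (nat_lit 0) (nat_lit 76) (XT.lf (nat_lit 1900) (nat_lit 1227528529) (nat_lit 0) (nat_lit 814566141) (nat_lit 1824) (nat_lit 172671735) (nat_lit 524) (nat_lit 1) (nat_lit 499) (nat_lit 1) (nat_lit 523) (nat_lit 1) (nat_lit 381) (nat_lit 321) (nat_lit 318)) (XT.lf (nat_lit 1900) (nat_lit 629731778) (nat_lit 0) (nat_lit 859604349) (nat_lit 1824) (nat_lit 693478038) (nat_lit 525) (nat_lit 1) (nat_lit 500) (nat_lit 1) (nat_lit 524) (nat_lit 1) (nat_lit 382) (nat_lit 321) (nat_lit 317)))) (XT.nd (nat_lit 156) (nat_lit 0) (nat_lit 76) (XT.nd (nat_lit 78) (nat_lit 0) (nat_lit 0) (XT.lf (nat_lit 1900) (nat_lit 42292770) (nat_lit 0) (nat_lit 917173667) (nat_lit 1824) (nat_lit 1192049276) (nat_lit 526) (nat_lit 1)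 (nat_lit 501) (nat_lit 1) (nat_lit 525) (nat_lit 1) (nat_lit 383) (nat_lit 321) (nat_lit 316)) (XT.lf (nat_lit 1900) (nat_lit 1130560502) (nat_lit 76) (nat_lit 448233539) (nat_lit 0) (nat_lit 541991647) (nat_lit 526) (nat_lit 1) (nat_lit 502) (nat_lit 1) (nat_lit 501) (nat_lit 1) (nat_lit 384) (nat_lit 321) (nat_lit 315))) (XT.nd (nat_lit 78) (nat_lit 0) (nat_lit 76) (XT.lf (nat_lit 1900) (nat_lit 974409042) (nat_lit 0) (nat_lit 1075173586) (nat_lit 1824) (nat_lit 41087592) (nat_lit 527) (nat_lit 1) (nat_lit 502) (nat_lit 1) (nat_lit 526) (nat_lit 1) (nat_lit 385) (nat_lit 321) (nat_lit 314)) (XT.nd (nat_lit 78) (nat_lit 0) (nat_lit 0) (XT.lf (nat_lit 1900) (nat_lit 383610355) (nat_lit 0) (nat_lit 1173715897) (nat_lit 1824) (nat_lit 503784287) (nat_lit 528) (nat_lit 1) (nat_lit 503) (nat_lit 1) (nat_lit 527) (nat_lit 1) (nat_lit 386) (nat_lit 321) (nat_lit 313)) (XT.lf (nat_lit 1900) (nat_lit 748395098)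 (nat_lit 76) (nat_lit 1084493080) (nat_lit 0) (nat_lit 199236805) (nat_lit 528) (nat_lit 1) (nat_lit 504) (nat_lit 1) (nat_lit 503) (nat_lit 1) (nat_lit 387) (nat_lit 321) (nat_lit 312))))))))
noncomputable def ec1 : XT := (XT.nd (nat_lit 105300) (nat_lit 1140) (nat_lit 0) (XT.nd (nat_lit 52728) (nat_lit 0) (nat_lit 0) (XT.nd (nat_lit 52338) (nat_lit 0) (nat_lit 76) (XT.nd (nat_lit 52182) (nat_lit 532) (nat_lit 0) (XT.nd (nat_lit 78) (nat_lit 0) (nat_lit 76) (XT.lf (nat_lit 1900) (nat_lit 597787385) (nat_lit 76) (nat_lit 629297965) (nat_lit 0) (nat_lit 776591322) (nat_lit 529) (nat_lit 1) (nat_lit 505) (nat_lit 1) (nat_lit 504) (nat_lit 1) (nat_lit 388) (nat_lit 321) (nat_lit 311)) (XT.lf (nat_lit 1900) (nat_lit 438602001) (nat_lit 76) (nat_lit 193730031) (nat_lit 0) (nat_lit 1343470718) (nat_lit 530) (nat_lit 1) (nat_lit 506) (nat_lit 1) (nat_lit 505) (nat_lit 1) (nat_lit 389) (nat_lit 321) (nat_lit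 310))) (XT.nd (nat_lit 78) (nat_lit 0) (nat_lit 76) (XT.lf (nat_lit 1900) (nat_lit 396200765) (nat_lit 0) (nat_lit 399513925) (nat_lit 1900) (nat_lit 396200765) (nat_lit 522) (nat_lit 1) (nat_lit 497) (nat_lit 0) (nat_lit 522) (nat_lit 0) (nat_lit 376) (nat_lit 322) (nat_lit 322)) (XT.lf (nat_lit 1900) (nat_lit 183137580) (nat_lit 0) (nat_lit 794954779) (nat_lit 1824) (nat_lit 1370871305) (nat_lit 523) (nat_lit 1) (nat_lit 498) (nat_lit 1) (nat_lit 522) (nat_lit 1) (nat_lit 377) (nat_lit 322) (nat_lit 321)))) (XT.nd (nat_lit 156) (nat_lit 0) (nat_lit 152) (XT.nd (nat_lit 78) (nat_lit 0) (nat_lit 76) (XT.lf (nat_lit 1900) (nat_lit 1506118046) (nat_lit 76) (nat_lit 387245217) (nat_lit 0) (nat_lit 421395888) (nat_lit 523) (nat_lit 1) (nat_lit 499) (nat_lit 1) (nat_lit 498) (nat_lit 1) (nat_lit 378) (nat_lit 322) (nat_lit 320)) (XT.lf (nat_lit 1900) (nat_lit 1264354385) (nat_lit 0) (nat_lit 839003125)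 (nat_lit 1824) (nat_lit 177851888) (nat_lit 524) (nat_lit 1) (nat_lit 499) (nat_lit 1) (nat_lit 523) (nat_lit 1) (nat_lit 379) (nat_lit 322) (nat_lit 319))) (XT.nd (nat_lit 78) (nat_lit 0) (nat_lit 76) (XT.lf (nat_lit 1900) (nat_lit 648623731) (nat_lit 0) (nat_lit 885392480) (nat_lit 1824) (nat_lit 714282379) (nat_lit 525) (nat_lit 1) (nat_lit 500) (nat_lit 1) (nat_lit 524) (nat_lit 1) (nat_lit 380) (nat_lit 322) (nat_lit 318)) (XT.nd (nat_lit 78) (nat_lit 0) (nat_lit 0) (XT.lf (nat_lit 1900) (nat_lit 43561553) (nat_lit 0) (nat_lit 944688877) (nat_lit 1824) (nat_lit 1227810755) (nat_lit 526) (nat_lit 1) (nat_lit 501) (nat_lit 1) (nat_lit 525) (nat_lit 1) (nat_lit 381) (nat_lit 322) (nat_lit 317)) (XT.lf (nat_lit 1900) (nat_lit 1164477318) (nat_lit 76) (nat_lit 461680545) (nat_lit 0) (nat_lit 558251396) (nat_lit 526) (nat_lit 1) (nat_lit 502) (nat_lit 1) (nat_lit 501) (nat_lit 1) (nat_lit 382) (nat_lit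 322) (nat_lit 316)))))) (XT.nd (nat_lit 312) (nat_lit 380) (nat_lit 0) (XT.nd (nat_lit 156) (nat_lit 0) (nat_lit 76) (XT.nd (nat_lit 78) (nat_lit 0) (nat_lit 76) (XT.lf (nat_lit 1900) (nat_lit 1003641313) (nat_lit 0) (nat_lit 1107428794) (nat_lit 1824) (nat_lit 42320220) (nat_lit 527) (nat_lit 1) (nat_lit 502) (nat_lit 1) (nat_lit 526) (nat_lit 1) (nat_lit 383) (nat_lit 322) (nat_lit 315)) (XT.lf (nat_lit 1900) (nat_lit 395118666) (nat_lit 0) (nat_lit 1208927374) (nat_lit 1824) (nat_lit 518897815) (nat_lit 528) (nat_lit 1) (nat_lit 503) (nat_lit 1) (nat_lit 527) (nat_lit 1) (nat_lit 384) (nat_lit 322) (nat_lit 314))) (XT.nd (nat_lit 78) (nat_lit 0) (nat_lit 76) (XT.lf (nat_lit 1900) (nat_lit 770846950) (nat_lit 76) (nat_lit 1117027873) (nat_lit 0) (nat_lit 205213909) (nat_lit 528) (nat_lit 1) (nat_lit 504) (nat_lit 1) (nat_lit 503) (nat_lit 1) (nat_lit 385) (nat_lit 322) (nat_lit 313)) (XT.lf (nat_lit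 1900) (nat_lit 615721006) (nat_lit 76) (nat_lit 648176904) (nat_lit 0) (nat_lit 799889061) (nat_lit 529) (nat_lit 1) (nat_lit 505) (nat_lit 1) (nat_lit 504) (nat_lit 1) (nat_lit 386) (nat_lit 322) (nat_lit 312)))) (XT.nd (nat_lit 156) (nat_lit 608) (nat_lit 0) (XT.nd (nat_lit 78) (nat_lit 0) (nat_lit 76) (XT.lf (nat_lit 1900) (nat_lit 451760061) (nat_lit 76) (nat_lit 199541932) (nat_lit 0) (nat_lit 1383774840) (nat_lit 530) (nat_lit 1) (nat_lit 506) (nat_lit 1) (nat_lit 505) (nat_lit 1) (nat_lit 387) (nat_lit 322) (nat_lit 311)) (XT.lf (nat_lit 1900) (nat_lit 51443457) (nat_lit 0) (nat_lit 1729017618) (nat_lit 1824) (nat_lit 226454049) (nat_lit 531) (nat_lit 1) (nat_lit 506) (nat_lit 1) (nat_lit 530) (nat_lit 1) (nat_lit 388) (nat_lit 322) (nat_lit 310))) (XT.nd (nat_lit 51948) (nat_lit 684) (nat_lit 0) (XT.lf (nat_lit 1900) (nat_lit 91296632) (nat_lit 76) (nat_lit 1344673298) (nat_lit 0) (nat_lit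 543254664) (nat_lit 531) (nat_lit 1) (nat_lit 507) (nat_lit 1) (nat_lit 506) (nat_lit 1) (nat_lit 389) (nat_lit 322) (nat_lit 309)) (XT.nd (nat_lit 78) (nat_lit 0) (nat_lit 76) (XT.lf (nat_lit 1900) (nat_lit 408086788) (nat_lit 0) (nat_lit 411499343) (nat_lit 1900) (nat_lit 408086788) (nat_lit 522) (nat_lit 1) (nat_lit 497) (nat_lit 0) (nat_lit 522) (nat_lit 0) (nat_lit 374) (nat_lit 323) (nat_lit 323)) (XT.lf (nat_lit 1900) (nat_lit 188631707) (nat_lit 0) (nat_lit 818803422) (nat_lit 1824) (nat_lit 1411997444) (nat_lit 523) (nat_lit 1) (nat_lit 498) (nat_lit 1) (nat_lit 522) (nat_lit 1) (nat_lit 375) (nat_lit 323) (nat_lit 322))))))) (XT.nd (nat_lit 702) (nat_lit 1216) (nat_lit 0) (XT.nd (nat_lit 312) (nat_lit 0) (nat_lit 228) (XT.nd (nat_lit 156) (nat_lit 0) (nat_lit 152) (XT.nd (nat_lit 78) (nat_lit 0) (nat_lit 76) (XT.lf (nat_lit 1900) (nat_lit 1551301587) (nat_lit 76) (nat_lit 398862573) (nat_lit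 0) (nat_lit 434037764) (nat_lit 523) (nat_lit 1) (nat_lit 499) (nat_lit 1) (nat_lit 498) (nat_lit 1) (nat_lit 376) (nat_lit 323) (nat_lit 321)) (XT.lf (nat_lit 1900) (nat_lit 1302285017) (nat_lit 0) (nat_lit 864173219) (nat_lit 1824) (nat_lit 183187444) (nat_lit 524) (nat_lit 1) (nat_lit 499) (nat_lit 1) (nat_lit 523) (nat_lit 1) (nat_lit 377) (nat_lit 323) (nat_lit 320))) (XT.nd (nat_lit 78) (nat_lit 0) (nat_lit 76) (XT.lf (nat_lit 1900) (nat_lit 668082443) (nat_lit 0) (nat_lit 911954254) (nat_lit 1824) (nat_lit 735710850) (nat_lit 525) (nat_lit 1) (nat_lit 500) (nat_lit 1) (nat_lit 524) (nat_lit 1) (nat_lit 378) (nat_lit 323) (nat_lit 319)) (XT.lf (nat_lit 1900) (nat_lit 44868400) (nat_lit 0) (nat_lit 973029543) (nat_lit 1824) (nat_lit 1264645077) (nat_lit 526) (nat_lit 1) (nat_lit 501) (nat_lit 1) (nat_lit 525) (nat_lit 1) (nat_lit 379) (nat_lit 323) (nat_lit 318)))) (XT.nd (nat_lit 156) (nat_lit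 0) (nat_lit 152) (XT.nd (nat_lit 78) (nat_lit 0) (nat_lit 76) (XT.lf (nat_lit 1900) (nat_lit 1199411637) (nat_lit 76) (nat_lit 475530962) (nat_lit 0) (nat_lit 574998938) (nat_lit 526) (nat_lit 1) (nat_lit 502) (nat_lit 1) (nat_lit 501) (nat_lit 1) (nat_lit 380) (nat_lit 323) (nat_lit 317)) (XT.lf (nat_lit 1900) (nat_lit 1033750553) (nat_lit 0) (nat_lit 1140651658) (nat_lit 1824) (nat_lit 43589826) (nat_lit 527) (nat_lit 1) (nat_lit 502) (nat_lit 1) (nat_lit 526) (nat_lit 1) (nat_lit 381) (nat_lit 323) (nat_lit 316))) (XT.nd (nat_lit 78) (nat_lit 0) (nat_lit 0) (XT.lf (nat_lit 1900) (nat_lit 406972226) (nat_lit 0) (nat_lit 1245195195) (nat_lit 1824) (nat_lit 534464750) (nat_lit 528) (nat_lit 1) (nat_lit 503) (nat_lit 1) (nat_lit 527) (nat_lit 1) (nat_lit 382) (nat_lit 323) (nat_lit 315)) (XT.nd (nat_lit 78) (nat_lit 0) (nat_lit 76) (XT.lf (nat_lit 1900) (nat_lit 793972359) (nat_lit 76) (nat_lit 1150538709)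 (nat_lit 0) (nat_lit 211370326) (nat_lit 528) (nat_lit 1) (nat_lit 504) (nat_lit 1) (nat_lit 503) (nat_lit 1) (nat_lit 383) (nat_lit 323) (nat_lit 314)) (XT.lf (nat_lit 1900) (nat_lit 634192636) (nat_lit 76) (nat_lit 667622212) (nat_lit 0) (nat_lit 823885733) (nat_lit 529) (nat_lit 1) (nat_lit 505) (nat_lit 1) (nat_lit 504) (nat_lit 1) (nat_lit 384) (nat_lit 323) (nat_lit 313)))))) (XT.nd (nat_lit 52104) (nat_lit 0) (nat_lit 1140) (XT.nd (nat_lit 156) (nat_lit 1748) (nat_lit 0) (XT.nd (nat_lit 78) (nat_lit 0) (nat_lit 76) (XT.lf (nat_lit 1900) (nat_lit 465312863) (nat_lit 76) (nat_lit 205528190) (nat_lit 0) (nat_lit 1425288085) (nat_lit 530) (nat_lit 1) (nat_lit 506) (nat_lit 1) (nat_lit 505) (nat_lit 1) (nat_lit 385) (nat_lit 323) (nat_lit 312)) (XT.lf (nat_lit 1900) (nat_lit 52986760) (nat_lit 0) (nat_lit 1780888146) (nat_lit 1824) (nat_lit 233247671) (nat_lit 531) (nat_lit 1) (nat_lit 506) (nat_lit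 1) (nat_lit 530) (nat_lit 1) (nat_lit 386) (nat_lit 323) (nat_lit 311))) (XT.nd (nat_lit 78) (nat_lit 1824) (nat_lit 0) (XT.lf (nat_lit 1900) (nat_lit 94035531) (nat_lit 76) (nat_lit 1385013497) (nat_lit 0) (nat_lit 559552304) (nat_lit 531) (nat_lit 1) (nat_lit 507) (nat_lit 1) (nat_lit 506) (nat_lit 1) (nat_lit 387) (nat_lit 323) (nat_lit 310)) (XT.nd (nat_lit 78) (nat_lit 0) (nat_lit 76) (XT.lf (nat_lit 1976) (nat_lit 849872334) (nat_lit 0) (nat_lit 104676888) (nat_lit 1900) (nat_lit 1056083050) (nat_lit 508) (nat_lit 1) (nat_lit 482) (nat_lit 1) (nat_lit 507) (nat_lit 1) (nat_lit 388) (nat_lit 323) (nat_lit 309)) (XT.lf (nat_lit 1976) (nat_lit 233108479) (nat_lit 0) (nat_lit 309198473) (nat_lit 1900) (nat_lit 1440903151) (nat_lit 509) (nat_lit 1) (nat_lit 483) (nat_lit 1) (nat_lit 508) (nat_lit 1) (nat_lit 389) (nat_lit 323) (nat_lit 308))))) (XT.nd (nat_lit 156) (nat_lit 0) (nat_lit 76) (XT.nd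 (nat_lit 78) (nat_lit 0) (nat_lit 76) (XT.lf (nat_lit 1900) (nat_lit 420329392) (nat_lit 0) (nat_lit 423844323) (nat_lit 1900) (nat_lit 420329392) (nat_lit 522) (nat_lit 1) (nat_lit 497) (nat_lit 0) (nat_lit 522) (nat_lit 0) (nat_lit 372) (nat_lit 324) (nat_lit 324)) (XT.lf (nat_lit 1900) (nat_lit 194290659) (nat_lit 0) (nat_lit 843367525) (nat_lit 1824) (nat_lit 1454357368) (nat_lit 523) (nat_lit 1) (nat_lit 498) (nat_lit 1) (nat_lit 522) (nat_lit 1) (nat_lit 373) (nat_lit 324) (nat_lit 323))) (XT.nd (nat_lit 78) (nat_lit 0) (nat_lit 76) (XT.lf (nat_lit 1900) (nat_lit 1597840635) (nat_lit 76) (nat_lit 410828451) (nat_lit 0) (nat_lit 447058897) (nat_lit 523) (nat_lit 1) (nat_lit 499) (nat_lit 1) (nat_lit 498) (nat_lit 1) (nat_lit 374) (nat_lit 324) (nat_lit 322)) (XT.nd (nat_lit 78) (nat_lit 0) (nat_lit 76) (XT.lf (nat_lit 1900) (nat_lit 1341353567) (nat_lit 0) (nat_lit 890098416) (nat_lit 1824)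 (nat_lit 188683068) (nat_lit 524) (nat_lit 1) (nat_lit 499) (nat_lit 1) (nat_lit 523) (nat_lit 1) (nat_lit 375) (nat_lit 324) (nat_lit 321)) (XT.lf (nat_lit 1900) (nat_lit 688124917) (nat_lit 0) (nat_lit 939312882) (nat_lit 1824) (nat_lit 757782176) (nat_lit 525) (nat_lit 1) (nat_lit 500) (nat_lit 1) (nat_lit 524) (nat_lit 1) (nat_lit 376) (nat_lit 324) (nat_lit 320))))))))
noncomputable def ec2 : XT := (XT.nd (nat_lit 52962) (nat_lit 1900) (nat_lit 0) (XT.nd (nat_lit 702) (nat_lit 1444) (nat_lit 0) (XT.nd (nat_lit 312) (nat_lit 0) (nat_lit 152) (XT.nd (nat_lit 156) (nat_lit 0) (nat_lit 76) (XT.nd (nat_lit 78) (nat_lit 0) (nat_lit 0) (XT.lf (nat_lit 1900) (nat_lit 46214452) (nat_lit 0) (nat_lit 1002220430) (nat_lit 1824) (nat_lit 1302584430) (nat_lit 526) (nat_lit 1) (nat_lit 501) (nat_lit 1) (nat_lit 525) (nat_lit 1) (nat_lit 377) (nat_lit 324) (nat_lit 319)) (XT.lf (nat_lit 1900) (nat_lit 1235393986)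 (nat_lit 76) (nat_lit 489796891) (nat_lit 0) (nat_lit 592248906) (nat_lit 526) (nat_lit 1) (nat_lit 502) (nat_lit 1) (nat_lit 501) (nat_lit 1) (nat_lit 378) (nat_lit 324) (nat_lit 318))) (XT.nd (nat_lit 78) (nat_lit 0) (nat_lit 76) (XT.lf (nat_lit 1900) (nat_lit 1064763069) (nat_lit 0) (nat_lit 1174871208) (nat_lit 1824) (nat_lit 44897521) (nat_lit 527) (nat_lit 1) (nat_lit 502) (nat_lit 1) (nat_lit 526) (nat_lit 1) (nat_lit 379) (nat_lit 324) (nat_lit 317)) (XT.lf (nat_lit 1900) (nat_lit 419181392) (nat_lit 0) (nat_lit 1282551051) (nat_lit 1824) (nat_lit 550498692) (nat_lit 528) (nat_lit 1) (nat_lit 503) (nat_lit 1) (nat_lit 527) (nat_lit 1) (nat_lit 380) (nat_lit 324) (nat_lit 316)))) (XT.nd (nat_lit 156) (nat_lit 0) (nat_lit 152) (XT.nd (nat_lit 78) (nat_lit 0) (nat_lit 76) (XT.lf (nat_lit 1900) (nat_lit 817791530) (nat_lit 76) (nat_lit 1185054870) (nat_lit 0) (nat_lit 217711436) (nat_lit 528)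 (nat_lit 1) (nat_lit 504) (nat_lit 1) (nat_lit 503) (nat_lit 1) (nat_lit 381) (nat_lit 324) (nat_lit 315)) (XT.lf (nat_lit 1900) (nat_lit 653218415) (nat_lit 76) (nat_lit 687650878) (nat_lit 0) (nat_lit 848602305) (nat_lit 529) (nat_lit 1) (nat_lit 505) (nat_lit 1) (nat_lit 504) (nat_lit 1) (nat_lit 382) (nat_lit 324) (nat_lit 314))) (XT.nd (nat_lit 78) (nat_lit 0) (nat_lit 76) (XT.lf (nat_lit 1900) (nat_lit 479272248) (nat_lit 76) (nat_lit 211694036) (nat_lit 0) (nat_lit 1468046727) (nat_lit 530) (nat_lit 1) (nat_lit 506) (nat_lit 1) (nat_lit 505) (nat_lit 1) (nat_lit 383) (nat_lit 324) (nat_lit 313)) (XT.nd (nat_lit 78) (nat_lit 0) (nat_lit 0) (XT.lf (nat_lit 1900) (nat_lit 54576363) (nat_lit 0) (nat_lit 1834314791) (nat_lit 1824) (nat_lit 240245101) (nat_lit 531) (nat_lit 1) (nat_lit 506) (nat_lit 1) (nat_lit 530) (nat_lit 1) (nat_lit 384) (nat_lit 324) (nat_lit 312)) (XT.lf (nat_lit 1900) (nat_lit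 96856596) (nat_lit 76) (nat_lit 1426563902) (nat_lit 0) (nat_lit 576338873) (nat_lit 531) (nat_lit 1) (nat_lit 507) (nat_lit 1) (nat_lit 506) (nat_lit 1) (nat_lit 385) (nat_lit 324) (nat_lit 311)))))) (XT.nd (nat_lit 51870) (nat_lit 0) (nat_lit 1140) (XT.nd (nat_lit 156) (nat_lit 0) (nat_lit 76) (XT.nd (nat_lit 78) (nat_lit 0) (nat_lit 76) (XT.lf (nat_lit 1976) (nat_lit 875368504) (nat_lit 0) (nat_lit 107817195) (nat_lit 1900) (nat_lit 1087765541) (nat_lit 508) (nat_lit 1) (nat_lit 482) (nat_lit 1) (nat_lit 507) (nat_lit 1) (nat_lit 386) (nat_lit 324) (nat_lit 310)) (XT.lf (nat_lit 1976) (nat_lit 240101733) (nat_lit 0) (nat_lit 318474427) (nat_lit 1900) (nat_lit 1484130246) (nat_lit 509) (nat_lit 1) (nat_lit 483) (nat_lit 1) (nat_lit 508) (nat_lit 1) (nat_lit 387) (nat_lit 324) (nat_lit 309))) (XT.nd (nat_lit 78) (nat_lit 0) (nat_lit 76) (XT.lf (nat_lit 1976) (nat_lit 1476472277) (nat_lit 76) (nat_lit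 150243707) (nat_lit 0) (nat_lit 388258137) (nat_lit 509) (nat_lit 1) (nat_lit 484) (nat_lit 1) (nat_lit 483) (nat_lit 1) (nat_lit 388) (nat_lit 324) (nat_lit 308)) (XT.lf (nat_lit 76) (nat_lit 981519185) (nat_lit 0) (nat_lit 768057686) (nat_lit 1900) (nat_lit 238153962) (nat_lit 485) (nat_lit 1) (nat_lit 484) (nat_lit 1) (nat_lit 509) (nat_lit 1) (nat_lit 389) (nat_lit 324) (nat_lit 307)))) (XT.nd (nat_lit 156) (nat_lit 0) (nat_lit 76) (XT.nd (nat_lit 78) (nat_lit 0) (nat_lit 76) (XT.lf (nat_lit 1900) (nat_lit 432939274) (nat_lit 0) (nat_lit 436559653) (nat_lit 1900) (nat_lit 432939274) (nat_lit 522) (nat_lit 1) (nat_lit 497) (nat_lit 0) (nat_lit 522) (nat_lit 0) (nat_lit 370) (nat_lit 325) (nat_lit 325)) (XT.lf (nat_lit 1900) (nat_lit 200119378) (nat_lit 0) (nat_lit 868668551) (nat_lit 1824) (nat_lit 1497988089) (nat_lit 523) (nat_lit 1) (nat_lit 498) (nat_lit 1) (nat_lit 522) (nat_lit 1) (nat_lit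 371) (nat_lit 325) (nat_lit 324))) (XT.nd (nat_lit 78) (nat_lit 0) (nat_lit 76) (XT.lf (nat_lit 1900) (nat_lit 1645775854) (nat_lit 76) (nat_lit 423153304) (nat_lit 0) (nat_lit 460470664) (nat_lit 523) (nat_lit 1) (nat_lit 499) (nat_lit 1) (nat_lit 498) (nat_lit 1) (nat_lit 372) (nat_lit 325) (nat_lit 323)) (XT.nd (nat_lit 78) (nat_lit 0) (nat_lit 76) (XT.lf (nat_lit 1900) (nat_lit 1381594174) (nat_lit 0) (nat_lit 916801368) (nat_lit 1824) (nat_lit 194343560) (nat_lit 524) (nat_lit 1) (nat_lit 499) (nat_lit 1) (nat_lit 523) (nat_lit 1) (nat_lit 373) (nat_lit 325) (nat_lit 322)) (XT.lf (nat_lit 1900) (nat_lit 708768664) (nat_lit 0) (nat_lit 967492268) (nat_lit 1824) (nat_lit 780515641) (nat_lit 525) (nat_lit 1) (nat_lit 500) (nat_lit 1) (nat_lit 524) (nat_lit 1) (nat_lit 374) (nat_lit 325) (nat_lit 321))))))) (XT.nd (nat_lit 702) (nat_lit 3344) (nat_lit 0) (XT.nd (nat_lit 312) (nat_lit 0) (nat_lit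 152) (XT.nd (nat_lit 156) (nat_lit 0) (nat_lit 76) (XT.nd (nat_lit 78) (nat_lit 0) (nat_lit 0) (XT.lf (nat_lit 1900) (nat_lit 47600886) (nat_lit 0) (nat_lit 1032287043) (nat_lit 1824) (nat_lit 1341661963) (nat_lit 526) (nat_lit 1) (nat_lit 501) (nat_lit 1) (nat_lit 525) (nat_lit 1) (nat_lit 375) (nat_lit 325) (nat_lit 320)) (XT.lf (nat_lit 1900) (nat_lit 1272455806) (nat_lit 76) (nat_lit 504490797) (nat_lit 0) (nat_lit 610016373) (nat_lit 526) (nat_lit 1) (nat_lit 502) (nat_lit 1) (nat_lit 501) (nat_lit 1) (nat_lit 376) (nat_lit 325) (nat_lit 319))) (XT.nd (nat_lit 78) (nat_lit 0) (nat_lit 76) (XT.lf (nat_lit 1900) (nat_lit 1096705961) (nat_lit 0) (nat_lit 1210117344) (nat_lit 1824) (nat_lit 46244447) (nat_lit 527) (nat_lit 1) (nat_lit 502) (nat_lit 1) (nat_lit 526) (nat_lit 1) (nat_lit 377) (nat_lit 325) (nat_lit 318)) (XT.lf (nat_lit 1900) (nat_lit 431756834) (nat_lit 0) (nat_lit 1321027583) (nat_lit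 1824) (nat_lit 567013653) (nat_lit 528) (nat_lit 1) (nat_lit 503) (nat_lit 1) (nat_lit 527) (nat_lit 1) (nat_lit 378) (nat_lit 325) (nat_lit 317)))) (XT.nd (nat_lit 156) (nat_lit 0) (nat_lit 152) (XT.nd (nat_lit 78) (nat_lit 0) (nat_lit 76) (XT.lf (nat_lit 1900) (nat_lit 842325276) (nat_lit 76) (nat_lit 1220606516) (nat_lit 0) (nat_lit 224242779) (nat_lit 528) (nat_lit 1) (nat_lit 504) (nat_lit 1) (nat_lit 503) (nat_lit 1) (nat_lit 379) (nat_lit 325) (nat_lit 316)) (XT.lf (nat_lit 1900) (nat_lit 672814968) (nat_lit 76) (nat_lit 708280404) (nat_lit 0) (nat_lit 874060374) (nat_lit 529) (nat_lit 1) (nat_lit 505) (nat_lit 1) (nat_lit 504) (nat_lit 1) (nat_lit 380) (nat_lit 325) (nat_lit 315))) (XT.nd (nat_lit 78) (nat_lit 0) (nat_lit 76) (XT.lf (nat_lit 1900) (nat_lit 493650416) (nat_lit 76) (nat_lit 218044857) (nat_lit 0) (nat_lit 1512088129) (nat_lit 530) (nat_lit 1) (nat_lit 506) (nat_lit 1) (nat_lit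 505) (nat_lit 1) (nat_lit 381) (nat_lit 325) (nat_lit 314)) (XT.nd (nat_lit 78) (nat_lit 0) (nat_lit 0) (XT.lf (nat_lit 1900) (nat_lit 56213654) (nat_lit 0) (nat_lit 1889344234) (nat_lit 1824) (nat_lit 247452454) (nat_lit 531) (nat_lit 1) (nat_lit 506) (nat_lit 1) (nat_lit 530) (nat_lit 1) (nat_lit 382) (nat_lit 325) (nat_lit 313)) (XT.lf (nat_lit 1900) (nat_lit 99762294) (nat_lit 76) (nat_lit 1469360819) (nat_lit 0) (nat_lit 593629040) (nat_lit 531) (nat_lit 1) (nat_lit 507) (nat_lit 1) (nat_lit 506) (nat_lit 1) (nat_lit 383) (nat_lit 325) (nat_lit 312)))))) (XT.nd (nat_lit 390) (nat_lit 912) (nat_lit 0) (XT.nd (nat_lit 156) (nat_lit 988) (nat_lit 0) (XT.nd (nat_lit 78) (nat_lit 0) (nat_lit 76) (XT.lf (nat_lit 1976) (nat_lit 901629559) (nat_lit 0) (nat_lit 111051711) (nat_lit 1900) (nat_lit 1120398507) (nat_lit 508) (nat_lit 1) (nat_lit 482) (nat_lit 1) (nat_lit 507) (nat_lit 1) (nat_lit 384) (nat_lit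 325) (nat_lit 311)) (XT.lf (nat_lit 1976) (nat_lit 247304785) (nat_lit 0) (nat_lit 328028660) (nat_lit 1900) (nat_lit 1528654153) (nat_lit 509) (nat_lit 1) (nat_lit 483) (nat_lit 1) (nat_lit 508) (nat_lit 1) (nat_lit 385) (nat_lit 325) (nat_lit 310))) (XT.nd (nat_lit 78) (nat_lit 1064) (nat_lit 0) (XT.lf (nat_lit 1976) (nat_lit 1520766445) (nat_lit 76) (nat_lit 154751019) (nat_lit 0) (nat_lit 399905881) (nat_lit 509) (nat_lit 1) (nat_lit 484) (nat_lit 1) (nat_lit 483) (nat_lit 1) (nat_lit 386) (nat_lit 325) (nat_lit 309)) (XT.nd (nat_lit 78) (nat_lit 1140) (nat_lit 0) (XT.lf (nat_lit 76) (nat_lit 1010964761) (nat_lit 0) (nat_lit 791099416) (nat_lit 1900) (nat_lit 245298581) (nat_lit 485) (nat_lit 1) (nat_lit 484) (nat_lit 1) (nat_lit 509) (nat_lit 1) (nat_lit 387) (nat_lit 325) (nat_lit 308)) (XT.lf (nat_lit 76) (nat_lit 360048287) (nat_lit 0) (nat_lit 1034615595) (nat_lit 1216) (nat_lit 625176380)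 (nat_lit 470) (nat_lit 1) (nat_lit 469) (nat_lit 1) (nat_lit 485) (nat_lit 1) (nat_lit 388) (nat_lit 325) (nat_lit 307))))) (XT.nd (nat_lit 51558) (nat_lit 0) (nat_lit 3116) (XT.nd (nat_lit 51480) (nat_lit 0) (nat_lit 3040) (XT.lf (nat_lit 988) (nat_lit 707161884) (nat_lit 0) (nat_lit 1003555777) (nat_lit 912) (nat_lit 282109214) (nat_lit 470) (nat_lit 1) (nat_lit 457) (nat_lit 1) (nat_lit 469) (nat_lit 1) (nat_lit 389) (nat_lit 325) (nat_lit 306)) (XT.lf (nat_lit 1900) (nat_lit 445927452) (nat_lit 0) (nat_lit 449656443) (nat_lit 1900) (nat_lit 445927452) (nat_lit 522) (nat_lit 1) (nat_lit 497) (nat_lit 0) (nat_lit 522) (nat_lit 0) (nat_lit 368) (nat_lit 326) (nat_lit 326))) (XT.nd (nat_lit 78) (nat_lit 0) (nat_lit 0) (XT.lf (nat_lit 1900) (nat_lit 206122960) (nat_lit 0) (nat_lit 894728607) (nat_lit 1824) (nat_lit 1542927731) (nat_lit 523) (nat_lit 1) (nat_lit 498) (nat_lit 1) (nat_lit 522) (nat_lit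 1) (nat_lit 369) (nat_lit 326) (nat_lit 325)) (XT.nd (nat_lit 78) (nat_lit 0) (nat_lit 76) (XT.lf (nat_lit 1900) (nat_lit 1695149130) (nat_lit 76) (nat_lit 435847903) (nat_lit 0) (nat_lit 474284784) (nat_lit 523) (nat_lit 1) (nat_lit 499) (nat_lit 1) (nat_lit 498) (nat_lit 1) (nat_lit 370) (nat_lit 326) (nat_lit 324)) (XT.lf (nat_lit 1900) (nat_lit 1423042000) (nat_lit 0) (nat_lit 944305409) (nat_lit 1824) (nat_lit 200173866) (nat_lit 524) (nat_lit 1) (nat_lit 499) (nat_lit 1) (nat_lit 523) (nat_lit 1) (nat_lit 371) (nat_lit 326) (nat_lit 323))))))))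
noncomputable def ec3 : XT := (XT.nd (nat_lit 52650) (nat_lit 0) (nat_lit 2660) (XT.nd (nat_lit 702) (nat_lit 5016) (nat_lit 0) (XT.nd (nat_lit 312) (nat_lit 0) (nat_lit 228) (XT.nd (nat_lit 156) (nat_lit 0) (nat_lit 76) (XT.nd (nat_lit 78) (nat_lit 0) (nat_lit 76) (XT.lf (nat_lit 1900) (nat_lit 730031724) (nat_lit 0) (nat_lit 996517036) (nat_lit 1824) (nat_lit 803931110) (nat_lit 525) (nat_lit 1) (nat_lit 500) (nat_lit 1) (nat_lit 524) (nat_lit 1) (nat_lit 372) (nat_lit 326) (nat_lit 322)) (XT.lf (nat_lit 1900) (nat_lit 49028912) (nat_lit 0) (nat_lit 1063255654) (nat_lit 1824) (nat_lit 1381911821) (nat_lit 526) (nat_lit 1) (nat_lit 501) (nat_lit 1) (nat_lit 525) (nat_lit 1) (nat_lit 373) (nat_lit 326) (nat_lit 321))) (XT.nd (nat_lit 78) (nat_lit 0) (nat_lit 76) (XT.lf (nat_lit 1900) (nat_lit 1310629480) (nat_lit 76) (nat_lit 519625521) (nat_lit 0) (nat_lit 628316865) (nat_lit 526) (nat_lit 1) (nat_lit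 502) (nat_lit 1) (nat_lit 501) (nat_lit 1) (nat_lit 374) (nat_lit 326) (nat_lit 320)) (XT.lf (nat_lit 1900) (nat_lit 1129607140) (nat_lit 0) (nat_lit 1246420864) (nat_lit 1824) (nat_lit 47631780) (nat_lit 527) (nat_lit 1) (nat_lit 502) (nat_lit 1) (nat_lit 526) (nat_lit 1) (nat_lit 375) (nat_lit 326) (nat_lit 319)))) (XT.nd (nat_lit 156) (nat_lit 0) (nat_lit 76) (XT.nd (nat_lit 78) (nat_lit 0) (nat_lit 0) (XT.lf (nat_lit 1900) (nat_lit 444709539) (nat_lit 0) (nat_lit 1360658410) (nat_lit 1824) (nat_lit 584024063) (nat_lit 528) (nat_lit 1) (nat_lit 503) (nat_lit 1) (nat_lit 527) (nat_lit 1) (nat_lit 376) (nat_lit 326) (nat_lit 318)) (XT.lf (nat_lit 1900) (nat_lit 867595034) (nat_lit 76) (nat_lit 1257224712) (nat_lit 0) (nat_lit 230970063) (nat_lit 528) (nat_lit 1) (nat_lit 504) (nat_lit 1) (nat_lit 503) (nat_lit 1) (nat_lit 377) (nat_lit 326) (nat_lit 317))) (XT.nd (nat_lit 78) (nat_lit 0) (nat_lit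 76) (XT.lf (nat_lit 1900) (nat_lit 692999417) (nat_lit 76) (nat_lit 729528816) (nat_lit 0) (nat_lit 900282186) (nat_lit 529) (nat_lit 1) (nat_lit 505) (nat_lit 1) (nat_lit 504) (nat_lit 1) (nat_lit 378) (nat_lit 326) (nat_lit 316)) (XT.nd (nat_lit 78) (nat_lit 0) (nat_lit 76) (XT.lf (nat_lit 1900) (nat_lit 508459928) (nat_lit 76) (nat_lit 224586203) (nat_lit 0) (nat_lit 1557450773) (nat_lit 530) (nat_lit 1) (nat_lit 506) (nat_lit 1) (nat_lit 505) (nat_lit 1) (nat_lit 379) (nat_lit 326) (nat_lit 315)) (XT.lf (nat_lit 1900) (nat_lit 57900064) (nat_lit 0) (nat_lit 1946024561) (nat_lit 1824) (nat_lit 254876027) (nat_lit 531) (nat_lit 1) (nat_lit 506) (nat_lit 1) (nat_lit 530) (nat_lit 1) (nat_lit 380) (nat_lit 326) (nat_lit 314)))))) (XT.nd (nat_lit 312) (nat_lit 3648) (nat_lit 0) (XT.nd (nat_lit 156) (nat_lit 0) (nat_lit 76) (XT.nd (nat_lit 78) (nat_lit 1824) (nat_lit 0) (XT.lf (nat_lit 1900) (nat_lit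 102755163) (nat_lit 76) (nat_lit 1513441644) (nat_lit 0) (nat_lit 611437911) (nat_lit 531) (nat_lit 1) (nat_lit 507) (nat_lit 1) (nat_lit 506) (nat_lit 1) (nat_lit 381) (nat_lit 326) (nat_lit 313)) (XT.lf (nat_lit 1976) (nat_lit 928678446) (nat_lit 0) (nat_lit 114383262) (nat_lit 1900) (nat_lit 1154010463) (nat_lit 508) (nat_lit 1) (nat_lit 482) (nat_lit 1) (nat_lit 507) (nat_lit 1) (nat_lit 382) (nat_lit 326) (nat_lit 312))) (XT.nd (nat_lit 78) (nat_lit 0) (nat_lit 0) (XT.lf (nat_lit 1976) (nat_lit 254723929) (nat_lit 0) (nat_lit 337869520) (nat_lit 1900) (nat_lit 1574513778) (nat_lit 509) (nat_lit 1) (nat_lit 483) (nat_lit 1) (nat_lit 508) (nat_lit 1) (nat_lit 383) (nat_lit 326) (nat_lit 311)) (XT.lf (nat_lit 1976) (nat_lit 1566389439) (nat_lit 76) (nat_lit 159393549) (nat_lit 0) (nat_lit 411903057) (nat_lit 509) (nat_lit 1) (nat_lit 484) (nat_lit 1) (nat_lit 483) (nat_lit 1) (nat_lit 384) (nat_lit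 326) (nat_lit 310)))) (XT.nd (nat_lit 156) (nat_lit 2660) (nat_lit 0) (XT.nd (nat_lit 78) (nat_lit 1140) (nat_lit 0) (XT.lf (nat_lit 76) (nat_lit 1041293703) (nat_lit 0) (nat_lit 814832399) (nat_lit 1900) (nat_lit 252657538) (nat_lit 485) (nat_lit 1) (nat_lit 484) (nat_lit 1) (nat_lit 509) (nat_lit 1) (nat_lit 385) (nat_lit 326) (nat_lit 309)) (XT.lf (nat_lit 76) (nat_lit 370849736) (nat_lit 0) (nat_lit 1065654063) (nat_lit 1216) (nat_lit 643931672) (nat_lit 470) (nat_lit 1) (nat_lit 469) (nat_lit 1) (nat_lit 485) (nat_lit 1) (nat_lit 386) (nat_lit 326) (nat_lit 308))) (XT.nd (nat_lit 78) (nat_lit 1748) (nat_lit 0) (XT.lf (nat_lit 988) (nat_lit 728376740) (nat_lit 0) (nat_lit 1033662450) (nat_lit 912) (nat_lit 290572491) (nat_lit 470) (nat_lit 1) (nat_lit 457) (nat_lit 1) (nat_lit 469) (nat_lit 1) (nat_lit 387) (nat_lit 326) (nat_lit 307)) (XT.nd (nat_lit 78) (nat_lit 836) (nat_lit 0) (XT.lf (nat_lit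 988) (nat_lit 434609509) (nat_lit 0) (nat_lit 646581390) (nat_lit 912) (nat_lit 944099465) (nat_lit 458) (nat_lit 1) (nat_lit 445) (nat_lit 1) (nat_lit 457) (nat_lit 1) (nat_lit 388) (nat_lit 326) (nat_lit 306)) (XT.lf (nat_lit 912) (nat_lit 136305289) (nat_lit 0) (nat_lit 277221147) (nat_lit 836) (nat_lit 1584981645) (nat_lit 446) (nat_lit 1) (nat_lit 434) (nat_lit 1) (nat_lit 445) (nat_lit 1) (nat_lit 389) (nat_lit 326) (nat_lit 305))))))) (XT.nd (nat_lit 702) (nat_lit 2128) (nat_lit 0) (XT.nd (nat_lit 312) (nat_lit 0) (nat_lit 228) (XT.nd (nat_lit 156) (nat_lit 0) (nat_lit 76) (XT.nd (nat_lit 78) (nat_lit 0) (nat_lit 76) (XT.lf (nat_lit 1900) (nat_lit 459305276) (nat_lit 0) (nat_lit 463146136) (nat_lit 1900) (nat_lit 459305276) (nat_lit 522) (nat_lit 1) (nat_lit 497) (nat_lit 0) (nat_lit 522) (nat_lit 0) (nat_lit 366) (nat_lit 327) (nat_lit 327)) (XT.lf (nat_lit 1900) (nat_lit 212306649) (nat_lit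 0) (nat_lit 921570466) (nat_lit 1824) (nat_lit 1589215563) (nat_lit 523) (nat_lit 1) (nat_lit 498) (nat_lit 1) (nat_lit 522) (nat_lit 1) (nat_lit 367) (nat_lit 327) (nat_lit 326))) (XT.nd (nat_lit 78) (nat_lit 0) (nat_lit 76) (XT.lf (nat_lit 1900) (nat_lit 1746003603) (nat_lit 76) (nat_lit 448923340) (nat_lit 0) (nat_lit 488513328) (nat_lit 523) (nat_lit 1) (nat_lit 499) (nat_lit 1) (nat_lit 498) (nat_lit 1) (nat_lit 368) (nat_lit 327) (nat_lit 325)) (XT.lf (nat_lit 1900) (nat_lit 1465733260) (nat_lit 0) (nat_lit 972634572) (nat_lit 1824) (nat_lit 206179082) (nat_lit 524) (nat_lit 1) (nat_lit 499) (nat_lit 1) (nat_lit 523) (nat_lit 1) (nat_lit 369) (nat_lit 327) (nat_lit 324)))) (XT.nd (nat_lit 156) (nat_lit 0) (nat_lit 76) (XT.nd (nat_lit 78) (nat_lit 0) (nat_lit 76) (XT.lf (nat_lit 1900) (nat_lit 751932676) (nat_lit 0) (nat_lit 1026412548) (nat_lit 1824) (nat_lit 828049043) (nat_lit 525) (nat_lit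 1) (nat_lit 500) (nat_lit 1) (nat_lit 524) (nat_lit 1) (nat_lit 370) (nat_lit 327) (nat_lit 323)) (XT.lf (nat_lit 1900) (nat_lit 50499780) (nat_lit 0) (nat_lit 1095153324) (nat_lit 1824) (nat_lit 1423369176) (nat_lit 526) (nat_lit 1) (nat_lit 501) (nat_lit 1) (nat_lit 525) (nat_lit 1) (nat_lit 371) (nat_lit 327) (nat_lit 322))) (XT.nd (nat_lit 78) (nat_lit 0) (nat_lit 76) (XT.lf (nat_lit 1900) (nat_lit 1349948364) (nat_lit 76) (nat_lit 535214287) (nat_lit 0) (nat_lit 647166371) (nat_lit 526) (nat_lit 1) (nat_lit 502) (nat_lit 1) (nat_lit 501) (nat_lit 1) (nat_lit 372) (nat_lit 327) (nat_lit 321)) (XT.nd (nat_lit 78) (nat_lit 0) (nat_lit 76) (XT.lf (nat_lit 1900) (nat_lit 1163495354) (nat_lit 0) (nat_lit 1283813490) (nat_lit 1824) (nat_lit 49060733) (nat_lit 527) (nat_lit 1) (nat_lit 502) (nat_lit 1) (nat_lit 526) (nat_lit 1) (nat_lit 373) (nat_lit 327) (nat_lit 320)) (XT.lf (nat_lit 1900) (nat_lit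 458050825) (nat_lit 0) (nat_lit 1401478163) (nat_lit 1824) (nat_lit 601544785) (nat_lit 528) (nat_lit 1) (nat_lit 503) (nat_lit 1) (nat_lit 527) (nat_lit 1) (nat_lit 374) (nat_lit 327) (nat_lit 319)))))) (XT.nd (nat_lit 390) (nat_lit 2584) (nat_lit 0) (XT.nd (nat_lit 156) (nat_lit 0) (nat_lit 152) (XT.nd (nat_lit 78) (nat_lit 0) (nat_lit 76) (XT.lf (nat_lit 1900) (nat_lit 893622885) (nat_lit 76) (nat_lit 1294941453) (nat_lit 0) (nat_lit 237899165) (nat_lit 528) (nat_lit 1) (nat_lit 504) (nat_lit 1) (nat_lit 503) (nat_lit 1) (nat_lit 375) (nat_lit 327) (nat_lit 318)) (XT.lf (nat_lit 1900) (nat_lit 713789399) (nat_lit 76) (nat_lit 751414681) (nat_lit 0) (nat_lit 927290651) (nat_lit 529) (nat_lit 1) (nat_lit 505) (nat_lit 1) (nat_lit 504) (nat_lit 1) (nat_lit 376) (nat_lit 327) (nat_lit 317))) (XT.nd (nat_lit 78) (nat_lit 0) (nat_lit 76) (XT.lf (nat_lit 1900) (nat_lit 523713726) (nat_lit 76) (nat_lit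 231323789) (nat_lit 0) (nat_lit 1604174296) (nat_lit 530) (nat_lit 1) (nat_lit 506) (nat_lit 1) (nat_lit 505) (nat_lit 1) (nat_lit 377) (nat_lit 327) (nat_lit 316)) (XT.nd (nat_lit 78) (nat_lit 0) (nat_lit 0) (XT.lf (nat_lit 1900) (nat_lit 59637066) (nat_lit 0) (nat_lit 2004405298) (nat_lit 1824) (nat_lit 262522308) (nat_lit 531) (nat_lit 1) (nat_lit 506) (nat_lit 1) (nat_lit 530) (nat_lit 1) (nat_lit 378) (nat_lit 327) (nat_lit 315)) (XT.lf (nat_lit 1900) (nat_lit 105837818) (nat_lit 76) (nat_lit 1558844893) (nat_lit 0) (nat_lit 629781048) (nat_lit 531) (nat_lit 1) (nat_lit 507) (nat_lit 1) (nat_lit 506) (nat_lit 1) (nat_lit 379) (nat_lit 327) (nat_lit 314))))) (XT.nd (nat_lit 156) (nat_lit 988) (nat_lit 0) (XT.nd (nat_lit 78) (nat_lit 0) (nat_lit 76) (XT.lf (nat_lit 1976) (nat_lit 956538799) (nat_lit 0) (nat_lit 117814760) (nat_lit 1900) (nat_lit 1188630777) (nat_lit 508) (nat_lit 1) (nat_lit 482)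 (nat_lit 1) (nat_lit 507) (nat_lit 1) (nat_lit 380) (nat_lit 327) (nat_lit 313)) (XT.lf (nat_lit 1976) (nat_lit 262365647) (nat_lit 0) (nat_lit 348005605) (nat_lit 1900) (nat_lit 1621749191) (nat_lit 509) (nat_lit 1) (nat_lit 483) (nat_lit 1) (nat_lit 508) (nat_lit 1) (nat_lit 381) (nat_lit 327) (nat_lit 312))) (XT.nd (nat_lit 78) (nat_lit 1064) (nat_lit 0) (XT.lf (nat_lit 1976) (nat_lit 1613381122) (nat_lit 76) (nat_lit 164175356) (nat_lit 0) (nat_lit 424260149) (nat_lit 509) (nat_lit 1) (nat_lit 484) (nat_lit 1) (nat_lit 483) (nat_lit 1) (nat_lit 382) (nat_lit 327) (nat_lit 311)) (XT.nd (nat_lit 78) (nat_lit 1140) (nat_lit 0) (XT.lf (nat_lit 76) (nat_lit 1072532515) (nat_lit 0) (nat_lit 839277371) (nat_lit 1900) (nat_lit 260237264) (nat_lit 485) (nat_lit 1) (nat_lit 484) (nat_lit 1) (nat_lit 509) (nat_lit 1) (nat_lit 383) (nat_lit 327) (nat_lit 310)) (XT.lf (nat_lit 76) (nat_lit 381975228) (nat_lit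 0) (nat_lit 1097623685) (nat_lit 1216) (nat_lit 663249622) (nat_lit 470) (nat_lit 1) (nat_lit 469) (nat_lit 1) (nat_lit 485) (nat_lit 1) (nat_lit 384) (nat_lit 327) (nat_lit 309))))))))
noncomputable def ec4 : XT := (XT.nd (nat_lit 52494) (nat_lit 1672) (nat_lit 0) (XT.nd (nat_lit 51792) (nat_lit 0) (nat_lit 6004) (XT.nd (nat_lit 312) (nat_lit 912) (nat_lit 0) (XT.nd (nat_lit 156) (nat_lit 912) (nat_lit 0) (XT.nd (nat_lit 78) (nat_lit 912) (nat_lit 0) (XT.lf (nat_lit 988) (nat_lit 750228042) (nat_lit 0) (nat_lit 1064672324) (nat_lit 912) (nat_lit 299289665) (nat_lit 470) (nat_lit 1) (nat_lit 457) (nat_lit 1) (nat_lit 469) (nat_lit 1) (nat_lit 385) (nat_lit 327) (nat_lit 308)) (XT.lf (nat_lit 988) (nat_lit 447647794) (nat_lit 0) (nat_lit 665978832) (nat_lit 912) (nat_lit 972422448) (nat_lit 458) (nat_lit 1) (nat_lit 445) (nat_lit 1) (nat_lit 457) (nat_lit 1) (nat_lit 386) (nat_lit 327) (nat_lit 307)))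 (XT.nd (nat_lit 78) (nat_lit 76) (nat_lit 0) (XT.lf (nat_lit 912) (nat_lit 140394448) (nat_lit 0) (nat_lit 285537781) (nat_lit 836) (nat_lit 1632531094) (nat_lit 446) (nat_lit 1) (nat_lit 434) (nat_lit 1) (nat_lit 445) (nat_lit 1) (nat_lit 387) (nat_lit 327) (nat_lit 306)) (XT.lf (nat_lit 76) (nat_lit 1781331875) (nat_lit 0) (nat_lit 171098998) (nat_lit 912) (nat_lit 78924457) (nat_lit 434) (nat_lit 1) (nat_lit 433) (nat_lit 1) (nat_lit 445) (nat_lit 1) (nat_lit 388) (nat_lit 327) (nat_lit 305)))) (XT.nd (nat_lit 51246) (nat_lit 0) (nat_lit 5852) (XT.nd (nat_lit 51168) (nat_lit 0) (nat_lit 5776) (XT.lf (nat_lit 76) (nat_lit 1089146449) (nat_lit 0) (nat_lit 489192667) (nat_lit 988) (nat_lit 426330864) (nat_lit 422) (nat_lit 1) (nat_lit 421) (nat_lit 1) (nat_lit 434) (nat_lit 1) (nat_lit 389) (nat_lit 327) (nat_lit 304)) (XT.lf (nat_lit 1900) (nat_lit 473084434) (nat_lit 0) (nat_lit 477040520) (nat_lit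 1900) (nat_lit 473084434) (nat_lit 522) (nat_lit 1) (nat_lit 497) (nat_lit 0) (nat_lit 522) (nat_lit 0) (nat_lit 364) (nat_lit 328) (nat_lit 328))) (XT.nd (nat_lit 78) (nat_lit 0) (nat_lit 0) (XT.lf (nat_lit 1900) (nat_lit 218675848) (nat_lit 0) (nat_lit 949217580) (nat_lit 1824) (nat_lit 1636892030) (nat_lit 523) (nat_lit 1) (nat_lit 498) (nat_lit 1) (nat_lit 522) (nat_lit 1) (nat_lit 365) (nat_lit 328) (nat_lit 327)) (XT.nd (nat_lit 78) (nat_lit 0) (nat_lit 76) (XT.lf (nat_lit 1900) (nat_lit 1798383712) (nat_lit 76) (nat_lit 462391041) (nat_lit 0) (nat_lit 503168728) (nat_lit 523) (nat_lit 1) (nat_lit 499) (nat_lit 1) (nat_lit 498) (nat_lit 1) (nat_lit 366) (nat_lit 328) (nat_lit 326)) (XT.lf (nat_lit 1900) (nat_lit 1509705258) (nat_lit 0) (nat_lit 1001813609) (nat_lit 1824) (nat_lit 212364455) (nat_lit 524) (nat_lit 1) (nat_lit 499) (nat_lit 1) (nat_lit 523) (nat_lit 1) (nat_lit 367) (nat_lit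 328) (nat_lit 325)))))) (XT.nd (nat_lit 312) (nat_lit 0) (nat_lit 228) (XT.nd (nat_lit 156) (nat_lit 0) (nat_lit 76) (XT.nd (nat_lit 78) (nat_lit 0) (nat_lit 76) (XT.lf (nat_lit 1900) (nat_lit 774490656) (nat_lit 0) (nat_lit 1057204924) (nat_lit 1824) (nat_lit 852890515) (nat_lit 525) (nat_lit 1) (nat_lit 500) (nat_lit 1) (nat_lit 524) (nat_lit 1) (nat_lit 368) (nat_lit 328) (nat_lit 324)) (XT.lf (nat_lit 1900) (nat_lit 52014773) (nat_lit 0) (nat_lit 1128007923) (nat_lit 1824) (nat_lit 1466070251) (nat_lit 526) (nat_lit 1) (nat_lit 501) (nat_lit 1) (nat_lit 525) (nat_lit 1) (nat_lit 369) (nat_lit 328) (nat_lit 323))) (XT.nd (nat_lit 78) (nat_lit 0) (nat_lit 76) (XT.lf (nat_lit 1900) (nat_lit 1390446815) (nat_lit 76) (nat_lit 551270715) (nat_lit 0) (nat_lit 666581362) (nat_lit 526) (nat_lit 1) (nat_lit 502) (nat_lit 1) (nat_lit 501) (nat_lit 1) (nat_lit 370) (nat_lit 328) (nat_lit 322)) (XT.lf (nat_lit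 1900) (nat_lit 1198400215) (nat_lit 0) (nat_lit 1322327895) (nat_lit 1824) (nat_lit 50532556) (nat_lit 527) (nat_lit 1) (nat_lit 502) (nat_lit 1) (nat_lit 526) (nat_lit 1) (nat_lit 371) (nat_lit 328) (nat_lit 321)))) (XT.nd (nat_lit 156) (nat_lit 0) (nat_lit 76) (XT.nd (nat_lit 78) (nat_lit 0) (nat_lit 0) (XT.lf (nat_lit 1900) (nat_lit 471792350) (nat_lit 0) (nat_lit 1443522508) (nat_lit 1824) (nat_lit 619591128) (nat_lit 528) (nat_lit 1) (nat_lit 503) (nat_lit 1) (nat_lit 527) (nat_lit 1) (nat_lit 372) (nat_lit 328) (nat_lit 320)) (XT.lf (nat_lit 1900) (nat_lit 920431572) (nat_lit 76) (nat_lit 1333789697) (nat_lit 0) (nat_lit 245036140) (nat_lit 528) (nat_lit 1) (nat_lit 504) (nat_lit 1) (nat_lit 503) (nat_lit 1) (nat_lit 373) (nat_lit 328) (nat_lit 319))) (XT.nd (nat_lit 78) (nat_lit 0) (nat_lit 76) (XT.lf (nat_lit 1900) (nat_lit 735203081) (nat_lit 76) (nat_lit 773957121) (nat_lit 0) (nat_lit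 955109371) (nat_lit 529) (nat_lit 1) (nat_lit 505) (nat_lit 1) (nat_lit 504) (nat_lit 1) (nat_lit 374) (nat_lit 328) (nat_lit 318)) (XT.nd (nat_lit 78) (nat_lit 0) (nat_lit 76) (XT.lf (nat_lit 1900) (nat_lit 539425138) (nat_lit 76) (nat_lit 238263503) (nat_lit 0) (nat_lit 1652299525) (nat_lit 530) (nat_lit 1) (nat_lit 506) (nat_lit 1) (nat_lit 505) (nat_lit 1) (nat_lit 375) (nat_lit 328) (nat_lit 317)) (XT.lf (nat_lit 1900) (nat_lit 61426178) (nat_lit 0) (nat_lit 2064537457) (nat_lit 1824) (nat_lit 270397978) (nat_lit 531) (nat_lit 1) (nat_lit 506) (nat_lit 1) (nat_lit 530) (nat_lit 1) (nat_lit 376) (nat_lit 328) (nat_lit 316))))))) (XT.nd (nat_lit 702) (nat_lit 2660) (nat_lit 0) (XT.nd (nat_lit 312) (nat_lit 3648) (nat_lit 0) (XT.nd (nat_lit 156) (nat_lit 0) (nat_lit 76) (XT.nd (nat_lit 78) (nat_lit 1824) (nat_lit 0) (XT.lf (nat_lit 1900) (nat_lit 109012953) (nat_lit 76) (nat_lit 1605610240) (nat_lit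 0) (nat_lit 648674480) (nat_lit 531) (nat_lit 1) (nat_lit 507) (nat_lit 1) (nat_lit 506) (nat_lit 1) (nat_lit 377) (nat_lit 328) (nat_lit 315)) (XT.lf (nat_lit 1976) (nat_lit 985234963) (nat_lit 0) (nat_lit 121349203) (nat_lit 1900) (nat_lit 1224289700) (nat_lit 508) (nat_lit 1) (nat_lit 482) (nat_lit 1) (nat_lit 507) (nat_lit 1) (nat_lit 378) (nat_lit 328) (nat_lit 314))) (XT.nd (nat_lit 78) (nat_lit 0) (nat_lit 0) (XT.lf (nat_lit 1976) (nat_lit 270236616) (nat_lit 0) (nat_lit 358445773) (nat_lit 1900) (nat_lit 1670401667) (nat_lit 509) (nat_lit 1) (nat_lit 483) (nat_lit 1) (nat_lit 508) (nat_lit 1) (nat_lit 379) (nat_lit 328) (nat_lit 313)) (XT.lf (nat_lit 1976) (nat_lit 1661782556) (nat_lit 76) (nat_lit 169100616) (nat_lit 0) (nat_lit 436987953) (nat_lit 509) (nat_lit 1) (nat_lit 484) (nat_lit 1) (nat_lit 483) (nat_lit 1) (nat_lit 380) (nat_lit 328) (nat_lit 312)))) (XT.nd (nat_lit 156) (nat_lit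 2660) (nat_lit 0) (XT.nd (nat_lit 78) (nat_lit 1140) (nat_lit 0) (XT.lf (nat_lit 76) (nat_lit 1104708490) (nat_lit 0) (nat_lit 864455692) (nat_lit 1900) (nat_lit 268044382) (nat_lit 485) (nat_lit 1) (nat_lit 484) (nat_lit 1) (nat_lit 509) (nat_lit 1) (nat_lit 381) (nat_lit 328) (nat_lit 311)) (XT.lf (nat_lit 76) (nat_lit 393434485) (nat_lit 0) (nat_lit 1130552396) (nat_lit 1216) (nat_lit 683147111) (nat_lit 470) (nat_lit 1) (nat_lit 469) (nat_lit 1) (nat_lit 485) (nat_lit 1) (nat_lit 382) (nat_lit 328) (nat_lit 310))) (XT.nd (nat_lit 78) (nat_lit 1748) (nat_lit 0) (XT.lf (nat_lit 988) (nat_lit 772734884) (nat_lit 0) (nat_lit 1096612494) (nat_lit 912) (nat_lit 308268355) (nat_lit 470) (nat_lit 1) (nat_lit 457) (nat_lit 1) (nat_lit 469) (nat_lit 1) (nat_lit 383) (nat_lit 328) (nat_lit 309)) (XT.nd (nat_lit 78) (nat_lit 836) (nat_lit 0) (XT.lf (nat_lit 988) (nat_lit 461077228) (nat_lit 0) (nat_lit 685958197)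 (nat_lit 912) (nat_lit 1001595122) (nat_lit 458) (nat_lit 1) (nat_lit 445) (nat_lit 1) (nat_lit 457) (nat_lit 1) (nat_lit 384) (nat_lit 328) (nat_lit 308)) (XT.lf (nat_lit 912) (nat_lit 144606281) (nat_lit 0) (nat_lit 294103914) (nat_lit 836) (nat_lit 1681507027) (nat_lit 446) (nat_lit 1) (nat_lit 434) (nat_lit 1) (nat_lit 445) (nat_lit 1) (nat_lit 385) (nat_lit 328) (nat_lit 307)))))) (XT.nd (nat_lit 51324) (nat_lit 0) (nat_lit 7524) (XT.nd (nat_lit 156) (nat_lit 1672) (nat_lit 0) (XT.nd (nat_lit 78) (nat_lit 912) (nat_lit 0) (XT.lf (nat_lit 76) (nat_lit 1834771831) (nat_lit 0) (nat_lit 176231968) (nat_lit 912) (nat_lit 81292191) (nat_lit 434) (nat_lit 1) (nat_lit 433) (nat_lit 1) (nat_lit 445) (nat_lit 1) (nat_lit 386) (nat_lit 328) (nat_lit 306)) (XT.lf (nat_lit 76) (nat_lit 1121820843) (nat_lit 0) (nat_lit 503868447) (nat_lit 988) (nat_lit 439120790) (nat_lit 422) (nat_lit 1) (nat_lit 421) (nat_lit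 1) (nat_lit 434) (nat_lit 1) (nat_lit 387) (nat_lit 328) (nat_lit 305))) (XT.nd (nat_lit 78) (nat_lit 836) (nat_lit 0) (XT.lf (nat_lit 76) (nat_lit 422882274) (nat_lit 0) (nat_lit 835076158) (nat_lit 912) (nat_lit 779904018) (nat_lit 411) (nat_lit 1) (nat_lit 410) (nat_lit 1) (nat_lit 422) (nat_lit 1) (nat_lit 388) (nat_lit 328) (nat_lit 304)) (XT.nd (nat_lit 51012) (nat_lit 0) (nat_lit 7448) (XT.lf (nat_lit 912) (nat_lit 840122759) (nat_lit 0) (nat_lit 905543880) (nat_lit 836) (nat_lit 265740123) (nat_lit 411) (nat_lit 1) (nat_lit 399) (nat_lit 1) (nat_lit 410) (nat_lit 1) (nat_lit 389) (nat_lit 328) (nat_lit 303)) (XT.lf (nat_lit 1900) (nat_lit 487276967) (nat_lit 0) (nat_lit 491351736) (nat_lit 1900) (nat_lit 487276967) (nat_lit 522) (nat_lit 1) (nat_lit 497) (nat_lit 0) (nat_lit 522) (nat_lit 0) (nat_lit 362) (nat_lit 329) (nat_lit 329))))) (XT.nd (nat_lit 156) (nat_lit 0) (nat_lit 76) (XT.nd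 (nat_lit 78) (nat_lit 0) (nat_lit 0) (XT.lf (nat_lit 1900) (nat_lit 225236123) (nat_lit 0) (nat_lit 977694107) (nat_lit 1824) (nat_lit 1685998791) (nat_lit 523) (nat_lit 1) (nat_lit 498) (nat_lit 1) (nat_lit 522) (nat_lit 1) (nat_lit 363) (nat_lit 329) (nat_lit 328)) (XT.lf (nat_lit 1900) (nat_lit 1852335223) (nat_lit 76) (nat_lit 476262772) (nat_lit 0) (nat_lit 518263790) (nat_lit 523) (nat_lit 1) (nat_lit 499) (nat_lit 1) (nat_lit 498) (nat_lit 1) (nat_lit 364) (nat_lit 329) (nat_lit 327))) (XT.nd (nat_lit 78) (nat_lit 0) (nat_lit 76) (XT.lf (nat_lit 1900) (nat_lit 1554996415) (nat_lit 0) (nat_lit 1031868017) (nat_lit 1824) (nat_lit 218735389) (nat_lit 524) (nat_lit 1) (nat_lit 499) (nat_lit 1) (nat_lit 523) (nat_lit 1) (nat_lit 365) (nat_lit 329) (nat_lit 326)) (XT.nd (nat_lit 78) (nat_lit 0) (nat_lit 76) (XT.lf (nat_lit 1900) (nat_lit 797725376) (nat_lit 0) (nat_lit 1088921072) (nat_lit 1824)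 (nat_lit 878477230) (nat_lit 525) (nat_lit 1) (nat_lit 500) (nat_lit 1) (nat_lit 524) (nat_lit 1) (nat_lit 366) (nat_lit 329) (nat_lit 325)) (XT.lf (nat_lit 1900) (nat_lit 53575216) (nat_lit 0) (nat_lit 1161848161) (nat_lit 1824) (nat_lit 1510052359) (nat_lit 526) (nat_lit 1) (nat_lit 501) (nat_lit 1) (nat_lit 525) (nat_lit 1) (nat_lit 367) (nat_lit 329) (nat_lit 324))))))))
noncomputable def ec5 : XT := (XT.nd (nat_lit 1404) (nat_lit 3192) (nat_lit 0) (XT.nd (nat_lit 702) (nat_lit 4636) (nat_lit 0) (XT.nd (nat_lit 312) (nat_lit 1444) (nat_lit 0) (XT.nd (nat_lit 156) (nat_lit 0) (nat_lit 152) (XT.nd (nat_lit 78) (nat_lit 0) (nat_lit 76) (XT.lf (nat_lit 1900) (nat_lit 1432160220) (nat_lit 76) (nat_lit 567808837) (nat_lit 0) (nat_lit 686578803) (nat_lit 526) (nat_lit 1) (nat_lit 502) (nat_lit 1) (nat_lit 501) (nat_lit 1) (nat_lit 368) (nat_lit 329) (nat_lit 323)) (XT.lf (nat_lit 1900) (nat_lit 1234352221)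 (nat_lit 0) (nat_lit 1361997732) (nat_lit 1824) (nat_lit 52048532) (nat_lit 527) (nat_lit 1) (nat_lit 502) (nat_lit 1) (nat_lit 526) (nat_lit 1) (nat_lit 369) (nat_lit 329) (nat_lit 322))) (XT.nd (nat_lit 78) (nat_lit 0) (nat_lit 0) (XT.lf (nat_lit 1900) (nat_lit 485946121) (nat_lit 0) (nat_lit 1486828183) (nat_lit 1824) (nat_lit 638178862) (nat_lit 528) (nat_lit 1) (nat_lit 503) (nat_lit 1) (nat_lit 527) (nat_lit 1) (nat_lit 370) (nat_lit 329) (nat_lit 321)) (XT.lf (nat_lit 1900) (nat_lit 948044519) (nat_lit 76) (nat_lit 1373803388) (nat_lit 0) (nat_lit 252387224) (nat_lit 528) (nat_lit 1) (nat_lit 504) (nat_lit 1) (nat_lit 503) (nat_lit 1) (nat_lit 371) (nat_lit 329) (nat_lit 320)))) (XT.nd (nat_lit 156) (nat_lit 1672) (nat_lit 0) (XT.nd (nat_lit 78) (nat_lit 0) (nat_lit 76) (XT.lf (nat_lit 1900) (nat_lit 757259174) (nat_lit 76) (nat_lit 797175835) (nat_lit 0) (nat_lit 983762652) (nat_lit 529)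 (nat_lit 1) (nat_lit 505) (nat_lit 1) (nat_lit 504) (nat_lit 1) (nat_lit 372) (nat_lit 329) (nat_lit 319)) (XT.lf (nat_lit 1900) (nat_lit 555607892) (nat_lit 76) (nat_lit 245411408) (nat_lit 0) (nat_lit 1701868511) (nat_lit 530) (nat_lit 1) (nat_lit 506) (nat_lit 1) (nat_lit 505) (nat_lit 1) (nat_lit 373) (nat_lit 329) (nat_lit 318))) (XT.nd (nat_lit 78) (nat_lit 1824) (nat_lit 0) (XT.lf (nat_lit 1900) (nat_lit 63268963) (nat_lit 0) (nat_lit 2126473581) (nat_lit 1824) (nat_lit 278509917) (nat_lit 531) (nat_lit 1) (nat_lit 506) (nat_lit 1) (nat_lit 530) (nat_lit 1) (nat_lit 374) (nat_lit 329) (nat_lit 317)) (XT.nd (nat_lit 78) (nat_lit 1824) (nat_lit 0) (XT.lf (nat_lit 1900) (nat_lit 112283341) (nat_lit 76) (nat_lit 1653778547) (nat_lit 0) (nat_lit 668134714) (nat_lit 531) (nat_lit 1) (nat_lit 507) (nat_lit 1) (nat_lit 506) (nat_lit 1) (nat_lit 375) (nat_lit 329) (nat_lit 316)) (XT.lf (nat_lit 1976)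 (nat_lit 1014792012) (nat_lit 0) (nat_lit 124989679) (nat_lit 1900) (nat_lit 1261018391) (nat_lit 508) (nat_lit 1) (nat_lit 482) (nat_lit 1) (nat_lit 507) (nat_lit 1) (nat_lit 376) (nat_lit 329) (nat_lit 315)))))) (XT.nd (nat_lit 312) (nat_lit 3648) (nat_lit 0) (XT.nd (nat_lit 156) (nat_lit 1064) (nat_lit 0) (XT.nd (nat_lit 78) (nat_lit 0) (nat_lit 0) (XT.lf (nat_lit 1976) (nat_lit 278343714) (nat_lit 0) (nat_lit 369199147) (nat_lit 1900) (nat_lit 1720513717) (nat_lit 509) (nat_lit 1) (nat_lit 483) (nat_lit 1) (nat_lit 508) (nat_lit 1) (nat_lit 377) (nat_lit 329) (nat_lit 314)) (XT.lf (nat_lit 1976) (nat_lit 1711636032) (nat_lit 76) (nat_lit 174173635) (nat_lit 0) (nat_lit 450097592) (nat_lit 509) (nat_lit 1) (nat_lit 484) (nat_lit 1) (nat_lit 483) (nat_lit 1) (nat_lit 378) (nat_lit 329) (nat_lit 313))) (XT.nd (nat_lit 78) (nat_lit 1140) (nat_lit 0) (XT.lf (nat_lit 76) (nat_lit 1137849745) (nat_lit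 0) (nat_lit 890389363) (nat_lit 1900) (nat_lit 276085714) (nat_lit 485) (nat_lit 1) (nat_lit 484) (nat_lit 1) (nat_lit 509) (nat_lit 1) (nat_lit 379) (nat_lit 329) (nat_lit 312)) (XT.lf (nat_lit 76) (nat_lit 405237519) (nat_lit 0) (nat_lit 1164468968) (nat_lit 1216) (nat_lit 703641524) (nat_lit 470) (nat_lit 1) (nat_lit 469) (nat_lit 1) (nat_lit 485) (nat_lit 1) (nat_lit 380) (nat_lit 329) (nat_lit 311)))) (XT.nd (nat_lit 156) (nat_lit 1824) (nat_lit 0) (XT.nd (nat_lit 78) (nat_lit 912) (nat_lit 0) (XT.lf (nat_lit 988) (nat_lit 795916930) (nat_lit 0) (nat_lit 1129510869) (nat_lit 912) (nat_lit 317516406) (nat_lit 470) (nat_lit 1) (nat_lit 457) (nat_lit 1) (nat_lit 469) (nat_lit 1) (nat_lit 381) (nat_lit 329) (nat_lit 310)) (XT.lf (nat_lit 988) (nat_lit 474909545) (nat_lit 0) (nat_lit 706536943) (nat_lit 912) (nat_lit 1031642976) (nat_lit 458) (nat_lit 1) (nat_lit 445) (nat_lit 1) (nat_lit 457) (nat_lit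 1) (nat_lit 382) (nat_lit 329) (nat_lit 309))) (XT.nd (nat_lit 78) (nat_lit 988) (nat_lit 0) (XT.lf (nat_lit 912) (nat_lit 148944470) (nat_lit 0) (nat_lit 302927032) (nat_lit 836) (nat_lit 1731952238) (nat_lit 446) (nat_lit 1) (nat_lit 434) (nat_lit 1) (nat_lit 445) (nat_lit 1) (nat_lit 383) (nat_lit 329) (nat_lit 308)) (XT.nd (nat_lit 78) (nat_lit 912) (nat_lit 0) (XT.lf (nat_lit 76) (nat_lit 1889814986) (nat_lit 0) (nat_lit 181518927) (nat_lit 912) (nat_lit 83730956) (nat_lit 434) (nat_lit 1) (nat_lit 433) (nat_lit 1) (nat_lit 445) (nat_lit 1) (nat_lit 384) (nat_lit 329) (nat_lit 307)) (XT.lf (nat_lit 76) (nat_lit 1155475468) (nat_lit 0) (nat_lit 518984501) (nat_lit 988) (nat_lit 452294414) (nat_lit 422) (nat_lit 1) (nat_lit 421) (nat_lit 1) (nat_lit 434) (nat_lit 1) (nat_lit 385) (nat_lit 329) (nat_lit 306))))))) (XT.nd (nat_lit 51480) (nat_lit 0) (nat_lit 7828) (XT.nd (nat_lit 51090) (nat_lit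 0) (nat_lit 8968) (XT.nd (nat_lit 156) (nat_lit 1520) (nat_lit 0) (XT.nd (nat_lit 78) (nat_lit 836) (nat_lit 0) (XT.lf (nat_lit 76) (nat_lit 435568742) (nat_lit 0) (nat_lit 860128443) (nat_lit 912) (nat_lit 803301138) (nat_lit 411) (nat_lit 1) (nat_lit 410) (nat_lit 1) (nat_lit 422) (nat_lit 1) (nat_lit 386) (nat_lit 329) (nat_lit 305)) (XT.lf (nat_lit 912) (nat_lit 865326442) (nat_lit 0) (nat_lit 932710196) (nat_lit 836) (nat_lit 273712327) (nat_lit 411) (nat_lit 1) (nat_lit 399) (nat_lit 1) (nat_lit 410) (nat_lit 1) (nat_lit 387) (nat_lit 329) (nat_lit 304))) (XT.nd (nat_lit 78) (nat_lit 760) (nat_lit 0) (XT.lf (nat_lit 836) (nat_lit 486404607) (nat_lit 0) (nat_lit 583973851) (nat_lit 760) (nat_lit 974596029) (nat_lit 400) (nat_lit 1) (nat_lit 389) (nat_lit 1) (nat_lit 399) (nat_lit 1) (nat_lit 388) (nat_lit 329) (nat_lit 303)) (XT.lf (nat_lit 836) (nat_lit 105295721) (nat_lit 0) (nat_lit 251914218)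 (nat_lit 760) (nat_lit 1661510624) (nat_lit 390) (nat_lit 1) (nat_lit 379) (nat_lit 1) (nat_lit 389) (nat_lit 1) (nat_lit 389) (nat_lit 329) (nat_lit 302)))) (XT.nd (nat_lit 156) (nat_lit 0) (nat_lit 76) (XT.nd (nat_lit 78) (nat_lit 0) (nat_lit 76) (XT.lf (nat_lit 1900) (nat_lit 501895276) (nat_lit 0) (nat_lit 506092288) (nat_lit 1900) (nat_lit 501895276) (nat_lit 522) (nat_lit 1) (nat_lit 497) (nat_lit 0) (nat_lit 522) (nat_lit 0) (nat_lit 360) (nat_lit 330) (nat_lit 330)) (XT.lf (nat_lit 1900) (nat_lit 231993207) (nat_lit 0) (nat_lit 1007024930) (nat_lit 1824) (nat_lit 1736578755) (nat_lit 523) (nat_lit 1) (nat_lit 498) (nat_lit 1) (nat_lit 522) (nat_lit 1) (nat_lit 361) (nat_lit 330) (nat_lit 329))) (XT.nd (nat_lit 78) (nat_lit 0) (nat_lit 76) (XT.lf (nat_lit 1900) (nat_lit 1907905280) (nat_lit 76) (nat_lit 490550655) (nat_lit 0) (nat_lit 533811703) (nat_lit 523) (nat_lit 1) (nat_lit 499) (nat_lit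 1) (nat_lit 498) (nat_lit 1) (nat_lit 362) (nat_lit 330) (nat_lit 328)) (XT.nd (nat_lit 78) (nat_lit 0) (nat_lit 76) (XT.lf (nat_lit 1900) (nat_lit 1601646308) (nat_lit 0) (nat_lit 1062824058) (nat_lit 1824) (nat_lit 225297450) (nat_lit 524) (nat_lit 1) (nat_lit 499) (nat_lit 1) (nat_lit 523) (nat_lit 1) (nat_lit 363) (nat_lit 330) (nat_lit 327)) (XT.lf (nat_lit 1900) (nat_lit 821657137) (nat_lit 0) (nat_lit 1121588704) (nat_lit 1824) (nat_lit 904831547) (nat_lit 525) (nat_lit 1) (nat_lit 500) (nat_lit 1) (nat_lit 524) (nat_lit 1) (nat_lit 364) (nat_lit 330) (nat_lit 326)))))) (XT.nd (nat_lit 390) (nat_lit 1444) (nat_lit 0) (XT.nd (nat_lit 156) (nat_lit 0) (nat_lit 76) (XT.nd (nat_lit 78) (nat_lit 0) (nat_lit 0) (XT.lf (nat_lit 1900) (nat_lit 55182473) (nat_lit 0) (nat_lit 1196703606) (nat_lit 1824) (nat_lit 1555353930) (nat_lit 526) (nat_lit 1) (nat_lit 501) (nat_lit 1) (nat_lit 525) (nat_lit 1)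 (nat_lit 365) (nat_lit 330) (nat_lit 325)) (XT.lf (nat_lit 1900) (nat_lit 1475125026) (nat_lit 76) (nat_lit 584843102) (nat_lit 0) (nat_lit 707176167) (nat_lit 526) (nat_lit 1) (nat_lit 502) (nat_lit 1) (nat_lit 501) (nat_lit 1) (nat_lit 366) (nat_lit 330) (nat_lit 324))) (XT.nd (nat_lit 78) (nat_lit 0) (nat_lit 76) (XT.lf (nat_lit 1900) (nat_lit 1271382788) (nat_lit 0) (nat_lit 1402857664) (nat_lit 1824) (nat_lit 53609988) (nat_lit 527) (nat_lit 1) (nat_lit 502) (nat_lit 1) (nat_lit 526) (nat_lit 1) (nat_lit 367) (nat_lit 330) (nat_lit 323)) (XT.nd (nat_lit 78) (nat_lit 0) (nat_lit 0) (XT.lf (nat_lit 1900) (nat_lit 500524504) (nat_lit 0) (nat_lit 1531433028) (nat_lit 1824) (nat_lit 657324228) (nat_lit 528) (nat_lit 1) (nat_lit 503) (nat_lit 1) (nat_lit 527) (nat_lit 1) (nat_lit 368) (nat_lit 330) (nat_lit 322)) (XT.lf (nat_lit 1900) (nat_lit 976485854) (nat_lit 76) (nat_lit 1415017489) (nat_lit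 0) (nat_lit 259958840) (nat_lit 528) (nat_lit 1) (nat_lit 504) (nat_lit 1) (nat_lit 503) (nat_lit 1) (nat_lit 369) (nat_lit 330) (nat_lit 321))))) (XT.nd (nat_lit 156) (nat_lit 1672) (nat_lit 0) (XT.nd (nat_lit 78) (nat_lit 0) (nat_lit 76) (XT.lf (nat_lit 1900) (nat_lit 779976949) (nat_lit 76) (nat_lit 821091110) (nat_lit 0) (nat_lit 1013275531) (nat_lit 529) (nat_lit 1) (nat_lit 505) (nat_lit 1) (nat_lit 504) (nat_lit 1) (nat_lit 370) (nat_lit 330) (nat_lit 320)) (XT.lf (nat_lit 1900) (nat_lit 572276129) (nat_lit 76) (nat_lit 252773750) (nat_lit 0) (nat_lit 1752924566) (nat_lit 530) (nat_lit 1) (nat_lit 506) (nat_lit 1) (nat_lit 505) (nat_lit 1) (nat_lit 371) (nat_lit 330) (nat_lit 319))) (XT.nd (nat_lit 78) (nat_lit 1824) (nat_lit 0) (XT.lf (nat_lit 1900) (nat_lit 65167032) (nat_lit 0) (nat_lit 2190267788) (nat_lit 1824) (nat_lit 286865214) (nat_lit 531) (nat_lit 1) (nat_lit 506) (nat_lit 1) (nat_lit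 530) (nat_lit 1) (nat_lit 372) (nat_lit 330) (nat_lit 318)) (XT.nd (nat_lit 78) (nat_lit 1824) (nat_lit 0) (XT.lf (nat_lit 1900) (nat_lit 115651842) (nat_lit 76) (nat_lit 1703391903) (nat_lit 0) (nat_lit 688178755) (nat_lit 531) (nat_lit 1) (nat_lit 507) (nat_lit 1) (nat_lit 506) (nat_lit 1) (nat_lit 373) (nat_lit 330) (nat_lit 317)) (XT.lf (nat_lit 1976) (nat_lit 1045235772) (nat_lit 0) (nat_lit 128739369) (nat_lit 1900) (nat_lit 1298848943) (nat_lit 508) (nat_lit 1) (nat_lit 482) (nat_lit 1) (nat_lit 507) (nat_lit 1) (nat_lit 374) (nat_lit 330) (nat_lit 316))))))))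
noncomputable def ec6 : XT := (XT.nd (nat_lit 52026) (nat_lit 0) (nat_lit 5016) (XT.nd (nat_lit 702) (nat_lit 4028) (nat_lit 0) (XT.nd (nat_lit 312) (nat_lit 3648) (nat_lit 0) (XT.nd (nat_lit 156) (nat_lit 1064) (nat_lit 0) (XT.nd (nat_lit 78) (nat_lit 0) (nat_lit 0) (XT.lf (nat_lit 1976) (nat_lit 286694026) (nat_lit 0) (nat_lit 380275121) (nat_lit 1900) (nat_lit 1772129129) (nat_lit 509) (nat_lit 1) (nat_lit 483) (nat_lit 1) (nat_lit 508) (nat_lit 1) (nat_lit 375) (nat_lit 330) (nat_lit 315)) (XT.lf (nat_lit 1976) (nat_lit 1762985113) (nat_lit 76) (nat_lit 179398844) (nat_lit 0) (nat_lit 463600520) (nat_lit 509) (nat_lit 1) (nat_lit 484) (nat_lit 1) (nat_lit 483) (nat_lit 1) (nat_lit 376) (nat_lit 330) (nat_lit 314))) (XT.nd (nat_lit 78) (nat_lit 1140) (nat_lit 0) (XT.lf (nat_lit 76) (nat_lit 1171985237) (nat_lit 0) (nat_lit 917101043) (nat_lit 1900) (nat_lit 284368285) (nat_lit 485) (nat_lit 1)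 (nat_lit 484) (nat_lit 1) (nat_lit 509) (nat_lit 1) (nat_lit 377) (nat_lit 330) (nat_lit 313)) (XT.lf (nat_lit 76) (nat_lit 417394645) (nat_lit 0) (nat_lit 1199403037) (nat_lit 1216) (nat_lit 724750770) (nat_lit 470) (nat_lit 1) (nat_lit 469) (nat_lit 1) (nat_lit 485) (nat_lit 1) (nat_lit 378) (nat_lit 330) (nat_lit 312)))) (XT.nd (nat_lit 156) (nat_lit 1824) (nat_lit 0) (XT.nd (nat_lit 78) (nat_lit 912) (nat_lit 0) (XT.lf (nat_lit 988) (nat_lit 819794438) (nat_lit 0) (nat_lit 1163396195) (nat_lit 912) (nat_lit 327041898) (nat_lit 470) (nat_lit 1) (nat_lit 457) (nat_lit 1) (nat_lit 469) (nat_lit 1) (nat_lit 379) (nat_lit 330) (nat_lit 311)) (XT.lf (nat_lit 988) (nat_lit 489156831) (nat_lit 0) (nat_lit 727733051) (nat_lit 912) (nat_lit 1062592265) (nat_lit 458) (nat_lit 1) (nat_lit 445) (nat_lit 1) (nat_lit 457) (nat_lit 1) (nat_lit 380) (nat_lit 330) (nat_lit 310))) (XT.nd (nat_lit 78) (nat_lit 988)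 (nat_lit 0) (XT.lf (nat_lit 912) (nat_lit 153412804) (nat_lit 0) (nat_lit 312014843) (nat_lit 836) (nat_lit 1783910805) (nat_lit 446) (nat_lit 1) (nat_lit 434) (nat_lit 1) (nat_lit 445) (nat_lit 1) (nat_lit 381) (nat_lit 330) (nat_lit 309)) (XT.nd (nat_lit 78) (nat_lit 912) (nat_lit 0) (XT.lf (nat_lit 76) (nat_lit 1946509436) (nat_lit 0) (nat_lit 186964495) (nat_lit 912) (nat_lit 86242885) (nat_lit 434) (nat_lit 1) (nat_lit 433) (nat_lit 1) (nat_lit 445) (nat_lit 1) (nat_lit 382) (nat_lit 330) (nat_lit 308)) (XT.lf (nat_lit 76) (nat_lit 1190139732) (nat_lit 0) (nat_lit 534554036) (nat_lit 988) (nat_lit 465863246) (nat_lit 422) (nat_lit 1) (nat_lit 421) (nat_lit 1) (nat_lit 434) (nat_lit 1) (nat_lit 383) (nat_lit 330) (nat_lit 307)))))) (XT.nd (nat_lit 312) (nat_lit 836) (nat_lit 0) (XT.nd (nat_lit 156) (nat_lit 1520) (nat_lit 0) (XT.nd (nat_lit 78) (nat_lit 836) (nat_lit 0) (XT.lf (nat_lit 76) (nat_lit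 448635804) (nat_lit 0) (nat_lit 885932296) (nat_lit 912) (nat_lit 827400172) (nat_lit 411) (nat_lit 1) (nat_lit 410) (nat_lit 1) (nat_lit 422) (nat_lit 1) (nat_lit 384) (nat_lit 330) (nat_lit 306)) (XT.lf (nat_lit 912) (nat_lit 891286235) (nat_lit 0) (nat_lit 960691502) (nat_lit 836) (nat_lit 281923697) (nat_lit 411) (nat_lit 1) (nat_lit 399) (nat_lit 1) (nat_lit 410) (nat_lit 1) (nat_lit 385) (nat_lit 330) (nat_lit 305))) (XT.nd (nat_lit 78) (nat_lit 760) (nat_lit 0) (XT.lf (nat_lit 836) (nat_lit 500996745) (nat_lit 0) (nat_lit 601493067) (nat_lit 760) (nat_lit 1003833910) (nat_lit 400) (nat_lit 1) (nat_lit 389) (nat_lit 1) (nat_lit 399) (nat_lit 1) (nat_lit 386) (nat_lit 330) (nat_lit 304)) (XT.lf (nat_lit 836) (nat_lit 108454593) (nat_lit 0) (nat_lit 259471644) (nat_lit 760) (nat_lit 1711355943) (nat_lit 390) (nat_lit 1) (nat_lit 379) (nat_lit 1) (nat_lit 389) (nat_lit 1) (nat_lit 387) (nat_lit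 330) (nat_lit 303)))) (XT.nd (nat_lit 50778) (nat_lit 0) (nat_lit 9804) (XT.nd (nat_lit 78) (nat_lit 760) (nat_lit 0) (XT.lf (nat_lit 76) (nat_lit 1698395958) (nat_lit 0) (nat_lit 285081607) (nat_lit 836) (nat_lit 69195220) (nat_lit 379) (nat_lit 1) (nat_lit 378) (nat_lit 1) (nat_lit 389) (nat_lit 1) (nat_lit 388) (nat_lit 330) (nat_lit 302)) (XT.lf (nat_lit 76) (nat_lit 962123384) (nat_lit 0) (nat_lit 682826399) (nat_lit 836) (nat_lit 381533930) (nat_lit 369) (nat_lit 1) (nat_lit 368) (nat_lit 1) (nat_lit 379) (nat_lit 1) (nat_lit 389) (nat_lit 330) (nat_lit 301))) (XT.nd (nat_lit 78) (nat_lit 0) (nat_lit 76) (XT.lf (nat_lit 1900) (nat_lit 516952134) (nat_lit 0) (nat_lit 521275056) (nat_lit 1900) (nat_lit 516952134) (nat_lit 522) (nat_lit 1) (nat_lit 497) (nat_lit 0) (nat_lit 522) (nat_lit 0) (nat_lit 358) (nat_lit 331) (nat_lit 331)) (XT.nd (nat_lit 78) (nat_lit 0) (nat_lit 0) (XT.lf (nat_lit 1900)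 (nat_lit 238953003) (nat_lit 0) (nat_lit 1037235678) (nat_lit 1824) (nat_lit 1788676118) (nat_lit 523) (nat_lit 1) (nat_lit 498) (nat_lit 1) (nat_lit 522) (nat_lit 1) (nat_lit 359) (nat_lit 331) (nat_lit 330)) (XT.lf (nat_lit 1900) (nat_lit 1965142438) (nat_lit 76) (nat_lit 505267175) (nat_lit 0) (nat_lit 549826054) (nat_lit 523) (nat_lit 1) (nat_lit 499) (nat_lit 1) (nat_lit 498) (nat_lit 1) (nat_lit 360) (nat_lit 331) (nat_lit 329))))))) (XT.nd (nat_lit 702) (nat_lit 4940) (nat_lit 0) (XT.nd (nat_lit 312) (nat_lit 0) (nat_lit 228) (XT.nd (nat_lit 156) (nat_lit 0) (nat_lit 152) (XT.nd (nat_lit 78) (nat_lit 0) (nat_lit 76) (XT.lf (nat_lit 1900) (nat_lit 1649695697) (nat_lit 0) (nat_lit 1094708779) (nat_lit 1824) (nat_lit 232056374) (nat_lit 524) (nat_lit 1) (nat_lit 499) (nat_lit 1) (nat_lit 523) (nat_lit 1) (nat_lit 361) (nat_lit 331) (nat_lit 328)) (XT.lf (nat_lit 1900) (nat_lit 846306851) (nat_lit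 0) (nat_lit 1155236365) (nat_lit 1824) (nat_lit 931976493) (nat_lit 525) (nat_lit 1) (nat_lit 500) (nat_lit 1) (nat_lit 524) (nat_lit 1) (nat_lit 362) (nat_lit 331) (nat_lit 327))) (XT.nd (nat_lit 78) (nat_lit 0) (nat_lit 0) (XT.lf (nat_lit 1900) (nat_lit 56837947) (nat_lit 0) (nat_lit 1232604714) (nat_lit 1824) (nat_lit 1602014548) (nat_lit 526) (nat_lit 1) (nat_lit 501) (nat_lit 1) (nat_lit 525) (nat_lit 1) (nat_lit 363) (nat_lit 331) (nat_lit 326)) (XT.lf (nat_lit 1900) (nat_lit 1519378777) (nat_lit 76) (nat_lit 602388395) (nat_lit 0) (nat_lit 728391452) (nat_lit 526) (nat_lit 1) (nat_lit 502) (nat_lit 1) (nat_lit 501) (nat_lit 1) (nat_lit 364) (nat_lit 331) (nat_lit 325)))) (XT.nd (nat_lit 156) (nat_lit 0) (nat_lit 76) (XT.nd (nat_lit 78) (nat_lit 0) (nat_lit 76) (XT.lf (nat_lit 1900) (nat_lit 1309524272) (nat_lit 0) (nat_lit 1444943394) (nat_lit 1824) (nat_lit 55218288) (nat_lit 527) (nat_lit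 1) (nat_lit 502) (nat_lit 1) (nat_lit 526) (nat_lit 1) (nat_lit 365) (nat_lit 331) (nat_lit 324)) (XT.lf (nat_lit 1900) (nat_lit 515540240) (nat_lit 0) (nat_lit 1577376019) (nat_lit 1824) (nat_lit 677043955) (nat_lit 528) (nat_lit 1) (nat_lit 503) (nat_lit 1) (nat_lit 527) (nat_lit 1) (nat_lit 366) (nat_lit 331) (nat_lit 323))) (XT.nd (nat_lit 78) (nat_lit 0) (nat_lit 76) (XT.lf (nat_lit 1900) (nat_lit 1005780430) (nat_lit 76) (nat_lit 1457468014) (nat_lit 0) (nat_lit 267757606) (nat_lit 528) (nat_lit 1) (nat_lit 504) (nat_lit 1) (nat_lit 503) (nat_lit 1) (nat_lit 367) (nat_lit 331) (nat_lit 322)) (XT.nd (nat_lit 78) (nat_lit 0) (nat_lit 76) (XT.lf (nat_lit 1900) (nat_lit 803376258) (nat_lit 76) (nat_lit 845723843) (nat_lit 0) (nat_lit 1043673797) (nat_lit 529) (nat_lit 1) (nat_lit 505) (nat_lit 1) (nat_lit 504) (nat_lit 1) (nat_lit 368) (nat_lit 331) (nat_lit 321)) (XT.lf (nat_lit 1900) (nat_lit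 589444413) (nat_lit 76) (nat_lit 260356962) (nat_lit 0) (nat_lit 1805512303) (nat_lit 530) (nat_lit 1) (nat_lit 506) (nat_lit 1) (nat_lit 505) (nat_lit 1) (nat_lit 369) (nat_lit 331) (nat_lit 320)))))) (XT.nd (nat_lit 390) (nat_lit 3648) (nat_lit 0) (XT.nd (nat_lit 156) (nat_lit 1824) (nat_lit 0) (XT.nd (nat_lit 78) (nat_lit 0) (nat_lit 0) (XT.lf (nat_lit 1900) (nat_lit 67122043) (nat_lit 0) (nat_lit 2255975822) (nat_lit 1824) (nat_lit 295471171) (nat_lit 531) (nat_lit 1) (nat_lit 506) (nat_lit 1) (nat_lit 530) (nat_lit 1) (nat_lit 370) (nat_lit 331) (nat_lit 319)) (XT.lf (nat_lit 1900) (nat_lit 119121397) (nat_lit 76) (nat_lit 1754493660) (nat_lit 0) (nat_lit 708824118) (nat_lit 531) (nat_lit 1) (nat_lit 507) (nat_lit 1) (nat_lit 506) (nat_lit 1) (nat_lit 371) (nat_lit 331) (nat_lit 318))) (XT.nd (nat_lit 78) (nat_lit 0) (nat_lit 76) (XT.lf (nat_lit 1976) (nat_lit 1076592845) (nat_lit 0) (nat_lit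 132601550) (nat_lit 1900) (nat_lit 1337814411) (nat_lit 508) (nat_lit 1) (nat_lit 482) (nat_lit 1) (nat_lit 507) (nat_lit 1) (nat_lit 372) (nat_lit 331) (nat_lit 317)) (XT.nd (nat_lit 78) (nat_lit 0) (nat_lit 0) (XT.lf (nat_lit 1976) (nat_lit 295294847) (nat_lit 0) (nat_lit 391683375) (nat_lit 1900) (nat_lit 1825293003) (nat_lit 509) (nat_lit 1) (nat_lit 483) (nat_lit 1) (nat_lit 508) (nat_lit 1) (nat_lit 373) (nat_lit 331) (nat_lit 316)) (XT.lf (nat_lit 1976) (nat_lit 1815874667) (nat_lit 76) (nat_lit 184780809) (nat_lit 0) (nat_lit 477508535) (nat_lit 509) (nat_lit 1) (nat_lit 484) (nat_lit 1) (nat_lit 483) (nat_lit 1) (nat_lit 374) (nat_lit 331) (nat_lit 315))))) (XT.nd (nat_lit 156) (nat_lit 2660) (nat_lit 0) (XT.nd (nat_lit 78) (nat_lit 1140) (nat_lit 0) (XT.lf (nat_lit 76) (nat_lit 1207144794) (nat_lit 0) (nat_lit 944614075) (nat_lit 1900) (nat_lit 292899334) (nat_lit 485) (nat_lit 1) (nat_lit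 484) (nat_lit 1) (nat_lit 509) (nat_lit 1) (nat_lit 375) (nat_lit 331) (nat_lit 314)) (XT.lf (nat_lit 76) (nat_lit 429916484) (nat_lit 0) (nat_lit 1235385128) (nat_lit 1216) (nat_lit 746493293) (nat_lit 470) (nat_lit 1) (nat_lit 469) (nat_lit 1) (nat_lit 485) (nat_lit 1) (nat_lit 376) (nat_lit 331) (nat_lit 313))) (XT.nd (nat_lit 78) (nat_lit 1748) (nat_lit 0) (XT.lf (nat_lit 988) (nat_lit 844388271) (nat_lit 0) (nat_lit 1198298080) (nat_lit 912) (nat_lit 336853155) (nat_lit 470) (nat_lit 1) (nat_lit 457) (nat_lit 1) (nat_lit 469) (nat_lit 1) (nat_lit 377) (nat_lit 331) (nat_lit 312)) (XT.nd (nat_lit 78) (nat_lit 836) (nat_lit 0) (XT.lf (nat_lit 988) (nat_lit 503831536) (nat_lit 0) (nat_lit 749565043) (nat_lit 912) (nat_lit 1094470033) (nat_lit 458) (nat_lit 1) (nat_lit 445) (nat_lit 1) (nat_lit 457) (nat_lit 1) (nat_lit 378) (nat_lit 331) (nat_lit 311)) (XT.lf (nat_lit 912) (nat_lit 158015188) (nat_lit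 0) (nat_lit 321375288) (nat_lit 836) (nat_lit 1837428129) (nat_lit 446) (nat_lit 1) (nat_lit 434) (nat_lit 1) (nat_lit 445) (nat_lit 1) (nat_lit 379) (nat_lit 331) (nat_lit 310))))))))
noncomputable def ec7 : XT := (XT.nd (nat_lit 51870) (nat_lit 0) (nat_lit 3040) (XT.nd (nat_lit 702) (nat_lit 684) (nat_lit 0) (XT.nd (nat_lit 312) (nat_lit 3116) (nat_lit 0) (XT.nd (nat_lit 156) (nat_lit 1672) (nat_lit 0) (XT.nd (nat_lit 78) (nat_lit 912) (nat_lit 0) (XT.lf (nat_lit 76) (nat_lit 2004904719) (nat_lit 0) (nat_lit 192573430) (nat_lit 912) (nat_lit 88830172) (nat_lit 434) (nat_lit 1) (nat_lit 433) (nat_lit 1) (nat_lit 445) (nat_lit 1) (nat_lit 380) (nat_lit 331) (nat_lit 309)) (XT.lf (nat_lit 76) (nat_lit 1225843924) (nat_lit 0) (nat_lit 550590657) (nat_lit 988) (nat_lit 479839144) (nat_lit 422) (nat_lit 1) (nat_lit 421) (nat_lit 1) (nat_lit 434) (nat_lit 1) (nat_lit 381) (nat_lit 331) (nat_lit 308)))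 (XT.nd (nat_lit 78) (nat_lit 836) (nat_lit 0) (XT.lf (nat_lit 76) (nat_lit 462094878) (nat_lit 0) (nat_lit 912510265) (nat_lit 912) (nat_lit 852222178) (nat_lit 411) (nat_lit 1) (nat_lit 410) (nat_lit 1) (nat_lit 422) (nat_lit 1) (nat_lit 382) (nat_lit 331) (nat_lit 307)) (XT.lf (nat_lit 912) (nat_lit 918024822) (nat_lit 0) (nat_lit 989512247) (nat_lit 836) (nat_lit 290381408) (nat_lit 411) (nat_lit 1) (nat_lit 399) (nat_lit 1) (nat_lit 410) (nat_lit 1) (nat_lit 383) (nat_lit 331) (nat_lit 306)))) (XT.nd (nat_lit 156) (nat_lit 1596) (nat_lit 0) (XT.nd (nat_lit 78) (nat_lit 760) (nat_lit 0) (XT.lf (nat_lit 836) (nat_lit 516026648) (nat_lit 0) (nat_lit 619537859) (nat_lit 760) (nat_lit 1033948927) (nat_lit 400) (nat_lit 1) (nat_lit 389) (nat_lit 1) (nat_lit 399) (nat_lit 1) (nat_lit 384) (nat_lit 331) (nat_lit 305)) (XT.lf (nat_lit 836) (nat_lit 111708230) (nat_lit 0) (nat_lit 267255793) (nat_lit 760)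 (nat_lit 1762696621) (nat_lit 390) (nat_lit 1) (nat_lit 379) (nat_lit 1) (nat_lit 389) (nat_lit 1) (nat_lit 385) (nat_lit 331) (nat_lit 304))) (XT.nd (nat_lit 78) (nat_lit 1520) (nat_lit 0) (XT.lf (nat_lit 76) (nat_lit 1749347837) (nat_lit 0) (nat_lit 293634055) (nat_lit 836) (nat_lit 71271077) (nat_lit 379) (nat_lit 1) (nat_lit 378) (nat_lit 1) (nat_lit 389) (nat_lit 1) (nat_lit 386) (nat_lit 331) (nat_lit 303)) (XT.nd (nat_lit 78) (nat_lit 760) (nat_lit 0) (XT.lf (nat_lit 76) (nat_lit 990987086) (nat_lit 0) (nat_lit 703311191) (nat_lit 836) (nat_lit 392979948) (nat_lit 369) (nat_lit 1) (nat_lit 368) (nat_lit 1) (nat_lit 379) (nat_lit 1) (nat_lit 387) (nat_lit 331) (nat_lit 302)) (XT.lf (nat_lit 76) (nat_lit 247902888) (nat_lit 0) (nat_lit 1114300499) (nat_lit 836) (nat_lit 698620875) (nat_lit 359) (nat_lit 1) (nat_lit 358) (nat_lit 1) (nat_lit 369) (nat_lit 1) (nat_lit 388) (nat_lit 331) (nat_lit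 301)))))) (XT.nd (nat_lit 50778) (nat_lit 0) (nat_lit 11400) (XT.nd (nat_lit 50622) (nat_lit 0) (nat_lit 11324) (XT.nd (nat_lit 50544) (nat_lit 0) (nat_lit 11248) (XT.lf (nat_lit 760) (nat_lit 505288304) (nat_lit 0) (nat_lit 1042996593) (nat_lit 684) (nat_lit 486531725) (nat_lit 359) (nat_lit 1) (nat_lit 349) (nat_lit 1) (nat_lit 358) (nat_lit 1) (nat_lit 389) (nat_lit 331) (nat_lit 300)) (XT.lf (nat_lit 1900) (nat_lit 532460698) (nat_lit 0) (nat_lit 536913308) (nat_lit 1900) (nat_lit 532460698) (nat_lit 522) (nat_lit 1) (nat_lit 497) (nat_lit 0) (nat_lit 522) (nat_lit 0) (nat_lit 356) (nat_lit 332) (nat_lit 332))) (XT.nd (nat_lit 78) (nat_lit 0) (nat_lit 0) (XT.lf (nat_lit 1900) (nat_lit 246121594) (nat_lit 0) (nat_lit 1068352749) (nat_lit 1824) (nat_lit 1842336401) (nat_lit 523) (nat_lit 1) (nat_lit 498) (nat_lit 1) (nat_lit 522) (nat_lit 1) (nat_lit 357) (nat_lit 332) (nat_lit 331)) (XT.lf (nat_lit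 1900) (nat_lit 2024096711) (nat_lit 76) (nat_lit 520425190) (nat_lit 0) (nat_lit 566320836) (nat_lit 523) (nat_lit 1) (nat_lit 499) (nat_lit 1) (nat_lit 498) (nat_lit 1) (nat_lit 358) (nat_lit 332) (nat_lit 330)))) (XT.nd (nat_lit 156) (nat_lit 0) (nat_lit 152) (XT.nd (nat_lit 78) (nat_lit 0) (nat_lit 76) (XT.lf (nat_lit 1900) (nat_lit 1699186568) (nat_lit 0) (nat_lit 1127550043) (nat_lit 1824) (nat_lit 239018065) (nat_lit 524) (nat_lit 1) (nat_lit 499) (nat_lit 1) (nat_lit 523) (nat_lit 1) (nat_lit 359) (nat_lit 332) (nat_lit 329)) (XT.lf (nat_lit 1900) (nat_lit 871696057) (nat_lit 0) (nat_lit 1189893456) (nat_lit 1824) (nat_lit 959935788) (nat_lit 525) (nat_lit 1) (nat_lit 500) (nat_lit 1) (nat_lit 524) (nat_lit 1) (nat_lit 360) (nat_lit 332) (nat_lit 328))) (XT.nd (nat_lit 78) (nat_lit 0) (nat_lit 0) (XT.lf (nat_lit 1900) (nat_lit 58543085) (nat_lit 0) (nat_lit 1269582856) (nat_lit 1824) (nat_lit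 1650074984) (nat_lit 526) (nat_lit 1) (nat_lit 501) (nat_lit 1) (nat_lit 525) (nat_lit 1) (nat_lit 361) (nat_lit 332) (nat_lit 327)) (XT.nd (nat_lit 78) (nat_lit 0) (nat_lit 76) (XT.lf (nat_lit 1900) (nat_lit 1564960141) (nat_lit 76) (nat_lit 620460047) (nat_lit 0) (nat_lit 750243195) (nat_lit 526) (nat_lit 1) (nat_lit 502) (nat_lit 1) (nat_lit 501) (nat_lit 1) (nat_lit 362) (nat_lit 332) (nat_lit 326)) (XT.lf (nat_lit 1900) (nat_lit 1348810000) (nat_lit 0) (nat_lit 1488291696) (nat_lit 1824) (nat_lit 56874836) (nat_lit 527) (nat_lit 1) (nat_lit 502) (nat_lit 1) (nat_lit 526) (nat_lit 1) (nat_lit 363) (nat_lit 332) (nat_lit 325))))))) (XT.nd (nat_lit 702) (nat_lit 7068) (nat_lit 0) (XT.nd (nat_lit 312) (nat_lit 1596) (nat_lit 0) (XT.nd (nat_lit 156) (nat_lit 0) (nat_lit 76) (XT.nd (nat_lit 78) (nat_lit 0) (nat_lit 0) (XT.lf (nat_lit 1900) (nat_lit 531006447) (nat_lit 0) (nat_lit 1624697300) (nat_lit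 1824) (nat_lit 697355273) (nat_lit 528) (nat_lit 1) (nat_lit 503) (nat_lit 1) (nat_lit 527) (nat_lit 1) (nat_lit 364) (nat_lit 332) (nat_lit 324)) (XT.lf (nat_lit 1900) (nat_lit 1035953843) (nat_lit 76) (nat_lit 1501192054) (nat_lit 0) (nat_lit 275790334) (nat_lit 528) (nat_lit 1) (nat_lit 504) (nat_lit 1) (nat_lit 503) (nat_lit 1) (nat_lit 365) (nat_lit 332) (nat_lit 323))) (XT.nd (nat_lit 78) (nat_lit 0) (nat_lit 76) (XT.lf (nat_lit 1900) (nat_lit 827477545) (nat_lit 76) (nat_lit 871095559) (nat_lit 0) (nat_lit 1074984011) (nat_lit 529) (nat_lit 1) (nat_lit 505) (nat_lit 1) (nat_lit 504) (nat_lit 1) (nat_lit 366) (nat_lit 332) (nat_lit 322)) (XT.lf (nat_lit 1900) (nat_lit 607127745) (nat_lit 76) (nat_lit 268167671) (nat_lit 0) (nat_lit 1859677672) (nat_lit 530) (nat_lit 1) (nat_lit 506) (nat_lit 1) (nat_lit 505) (nat_lit 1) (nat_lit 367) (nat_lit 332) (nat_lit 321)))) (XT.nd (nat_lit 156) (nat_lit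 1824) (nat_lit 0) (XT.nd (nat_lit 78) (nat_lit 0) (nat_lit 0) (XT.lf (nat_lit 1900) (nat_lit 69135704) (nat_lit 0) (nat_lit 2323655097) (nat_lit 1824) (nat_lit 304335306) (nat_lit 531) (nat_lit 1) (nat_lit 506) (nat_lit 1) (nat_lit 530) (nat_lit 1) (nat_lit 368) (nat_lit 332) (nat_lit 320)) (XT.lf (nat_lit 1900) (nat_lit 122695039) (nat_lit 76) (nat_lit 1807128470) (nat_lit 0) (nat_lit 730088842) (nat_lit 531) (nat_lit 1) (nat_lit 507) (nat_lit 1) (nat_lit 506) (nat_lit 1) (nat_lit 369) (nat_lit 332) (nat_lit 319))) (XT.nd (nat_lit 78) (nat_lit 0) (nat_lit 76) (XT.lf (nat_lit 1976) (nat_lit 1108890631) (nat_lit 0) (nat_lit 136579597) (nat_lit 1900) (nat_lit 1377948843) (nat_lit 508) (nat_lit 1) (nat_lit 482) (nat_lit 1) (nat_lit 507) (nat_lit 1) (nat_lit 370) (nat_lit 332) (nat_lit 318)) (XT.nd (nat_lit 78) (nat_lit 0) (nat_lit 0) (XT.lf (nat_lit 1976) (nat_lit 304153692) (nat_lit 0) (nat_lit 403433876)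 (nat_lit 1900) (nat_lit 1880051793) (nat_lit 509) (nat_lit 1) (nat_lit 483) (nat_lit 1) (nat_lit 508) (nat_lit 1) (nat_lit 371) (nat_lit 332) (nat_lit 317)) (XT.lf (nat_lit 1976) (nat_lit 1870350907) (nat_lit 76) (nat_lit 190324234) (nat_lit 0) (nat_lit 491833791) (nat_lit 509) (nat_lit 1) (nat_lit 484) (nat_lit 1) (nat_lit 483) (nat_lit 1) (nat_lit 372) (nat_lit 332) (nat_lit 316)))))) (XT.nd (nat_lit 390) (nat_lit 3420) (nat_lit 0) (XT.nd (nat_lit 156) (nat_lit 2660) (nat_lit 0) (XT.nd (nat_lit 78) (nat_lit 1140) (nat_lit 0) (XT.lf (nat_lit 76) (nat_lit 1243359138) (nat_lit 0) (nat_lit 972952497) (nat_lit 1900) (nat_lit 301686314) (nat_lit 485) (nat_lit 1) (nat_lit 484) (nat_lit 1) (nat_lit 509) (nat_lit 1) (nat_lit 373) (nat_lit 332) (nat_lit 315)) (XT.lf (nat_lit 76) (nat_lit 442813979) (nat_lit 0) (nat_lit 1272446682) (nat_lit 1216) (nat_lit 768888092) (nat_lit 470) (nat_lit 1) (nat_lit 469)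 (nat_lit 1) (nat_lit 485) (nat_lit 1) (nat_lit 374) (nat_lit 332) (nat_lit 314))) (XT.nd (nat_lit 78) (nat_lit 1748) (nat_lit 0) (XT.lf (nat_lit 988) (nat_lit 869719919) (nat_lit 0) (nat_lit 1234247023) (nat_lit 912) (nat_lit 346958750) (nat_lit 470) (nat_lit 1) (nat_lit 457) (nat_lit 1) (nat_lit 469) (nat_lit 1) (nat_lit 375) (nat_lit 332) (nat_lit 313)) (XT.nd (nat_lit 78) (nat_lit 836) (nat_lit 0) (XT.lf (nat_lit 988) (nat_lit 518946482) (nat_lit 0) (nat_lit 772051994) (nat_lit 912) (nat_lit 1127304134) (nat_lit 458) (nat_lit 1) (nat_lit 445) (nat_lit 1) (nat_lit 457) (nat_lit 1) (nat_lit 376) (nat_lit 332) (nat_lit 312)) (XT.lf (nat_lit 912) (nat_lit 162755644) (nat_lit 0) (nat_lit 331016547) (nat_lit 836) (nat_lit 1892550973) (nat_lit 446) (nat_lit 1) (nat_lit 434) (nat_lit 1) (nat_lit 445) (nat_lit 1) (nat_lit 377) (nat_lit 332) (nat_lit 311))))) (XT.nd (nat_lit 156) (nat_lit 2432) (nat_lit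 0) (XT.nd (nat_lit 78) (nat_lit 912) (nat_lit 0) (XT.lf (nat_lit 76) (nat_lit 2065051861) (nat_lit 0) (nat_lit 198350633) (nat_lit 912) (nat_lit 91495077) (nat_lit 434) (nat_lit 1) (nat_lit 433) (nat_lit 1) (nat_lit 445) (nat_lit 1) (nat_lit 378) (nat_lit 332) (nat_lit 310)) (XT.lf (nat_lit 76) (nat_lit 1262619242) (nat_lit 0) (nat_lit 567108376) (nat_lit 988) (nat_lit 494234318) (nat_lit 422) (nat_lit 1) (nat_lit 421) (nat_lit 1) (nat_lit 434) (nat_lit 1) (nat_lit 379) (nat_lit 332) (nat_lit 309))) (XT.nd (nat_lit 78) (nat_lit 1596) (nat_lit 0) (XT.lf (nat_lit 76) (nat_lit 475957725) (nat_lit 0) (nat_lit 939885573) (nat_lit 912) (nat_lit 877788843) (nat_lit 411) (nat_lit 1) (nat_lit 410) (nat_lit 1) (nat_lit 422) (nat_lit 1) (nat_lit 380) (nat_lit 332) (nat_lit 308)) (XT.nd (nat_lit 78) (nat_lit 760) (nat_lit 0) (XT.lf (nat_lit 912) (nat_lit 945565567) (nat_lit 0) (nat_lit 1019197614) (nat_lit 836)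 (nat_lit 299092850) (nat_lit 411) (nat_lit 1) (nat_lit 399) (nat_lit 1) (nat_lit 410) (nat_lit 1) (nat_lit 381) (nat_lit 332) (nat_lit 307)) (XT.lf (nat_lit 836) (nat_lit 531507447) (nat_lit 0) (nat_lit 638123994) (nat_lit 760) (nat_lit 1064967395) (nat_lit 400) (nat_lit 1) (nat_lit 389) (nat_lit 1) (nat_lit 399) (nat_lit 1) (nat_lit 382) (nat_lit 332) (nat_lit 306))))))))
noncomputable def ec8 : XT := (XT.nd (nat_lit 51792) (nat_lit 0) (nat_lit 1368) (XT.nd (nat_lit 51090) (nat_lit 0) (nat_lit 12084) (XT.nd (nat_lit 312) (nat_lit 1368) (nat_lit 0) (XT.nd (nat_lit 156) (nat_lit 1520) (nat_lit 0) (XT.nd (nat_lit 78) (nat_lit 76) (nat_lit 0) (XT.lf (nat_lit 836) (nat_lit 115059477) (nat_lit 0) (nat_lit 275273467) (nat_lit 760) (nat_lit 1815577520) (nat_lit 390) (nat_lit 1) (nat_lit 379) (nat_lit 1) (nat_lit 389) (nat_lit 1) (nat_lit 383) (nat_lit 332) (nat_lit 305)) (XT.lf (nat_lit 76) (nat_lit 1801828272)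 (nat_lit 0) (nat_lit 302443077) (nat_lit 836) (nat_lit 73409209) (nat_lit 379) (nat_lit 1) (nat_lit 378) (nat_lit 1) (nat_lit 389) (nat_lit 1) (nat_lit 384) (nat_lit 332) (nat_lit 304))) (XT.nd (nat_lit 78) (nat_lit 760) (nat_lit 0) (XT.lf (nat_lit 76) (nat_lit 1020716698) (nat_lit 0) (nat_lit 724410527) (nat_lit 836) (nat_lit 404769346) (nat_lit 369) (nat_lit 1) (nat_lit 368) (nat_lit 1) (nat_lit 379) (nat_lit 1) (nat_lit 385) (nat_lit 332) (nat_lit 303)) (XT.lf (nat_lit 76) (nat_lit 255339975) (nat_lit 0) (nat_lit 1147729514) (nat_lit 836) (nat_lit 719579501) (nat_lit 359) (nat_lit 1) (nat_lit 358) (nat_lit 1) (nat_lit 369) (nat_lit 1) (nat_lit 386) (nat_lit 332) (nat_lit 302)))) (XT.nd (nat_lit 50544) (nat_lit 0) (nat_lit 11932) (XT.nd (nat_lit 78) (nat_lit 684) (nat_lit 0) (XT.lf (nat_lit 760) (nat_lit 520446954) (nat_lit 0) (nat_lit 1074286491) (nat_lit 684) (nat_lit 501127676) (nat_lit 359)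 (nat_lit 1) (nat_lit 349) (nat_lit 1) (nat_lit 358) (nat_lit 1) (nat_lit 387) (nat_lit 332) (nat_lit 301)) (XT.lf (nat_lit 760) (nat_lit 63993872) (nat_lit 0) (nat_lit 760005730) (nat_lit 684) (nat_lit 1245555493) (nat_lit 350) (nat_lit 1) (nat_lit 340) (nat_lit 1) (nat_lit 349) (nat_lit 1) (nat_lit 388) (nat_lit 332) (nat_lit 300))) (XT.nd (nat_lit 78) (nat_lit 0) (nat_lit 76) (XT.lf (nat_lit 1900) (nat_lit 548434519) (nat_lit 0) (nat_lit 553020707) (nat_lit 1900) (nat_lit 548434519) (nat_lit 522) (nat_lit 1) (nat_lit 497) (nat_lit 0) (nat_lit 522) (nat_lit 0) (nat_lit 354) (nat_lit 333) (nat_lit 333)) (XT.nd (nat_lit 78) (nat_lit 0) (nat_lit 0) (XT.lf (nat_lit 1900) (nat_lit 253505241) (nat_lit 0) (nat_lit 1100403331) (nat_lit 1824) (nat_lit 1897606493) (nat_lit 523) (nat_lit 1) (nat_lit 498) (nat_lit 1) (nat_lit 522) (nat_lit 1) (nat_lit 355) (nat_lit 333) (nat_lit 332)) (XT.lf (nat_lit 1900)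 (nat_lit 2084819613) (nat_lit 76) (nat_lit 536037946) (nat_lit 0) (nat_lit 583310461) (nat_lit 523) (nat_lit 1) (nat_lit 499) (nat_lit 1) (nat_lit 498) (nat_lit 1) (nat_lit 356) (nat_lit 333) (nat_lit 331)))))) (XT.nd (nat_lit 312) (nat_lit 0) (nat_lit 228) (XT.nd (nat_lit 156) (nat_lit 0) (nat_lit 152) (XT.nd (nat_lit 78) (nat_lit 0) (nat_lit 76) (XT.lf (nat_lit 1900) (nat_lit 1750162165) (nat_lit 0) (nat_lit 1161376544) (nat_lit 1824) (nat_lit 246188607) (nat_lit 524) (nat_lit 1) (nat_lit 499) (nat_lit 1) (nat_lit 523) (nat_lit 1) (nat_lit 357) (nat_lit 333) (nat_lit 330)) (XT.lf (nat_lit 1900) (nat_lit 897846939) (nat_lit 0) (nat_lit 1225590260) (nat_lit 1824) (nat_lit 988733862) (nat_lit 525) (nat_lit 1) (nat_lit 500) (nat_lit 1) (nat_lit 524) (nat_lit 1) (nat_lit 358) (nat_lit 333) (nat_lit 329))) (XT.nd (nat_lit 78) (nat_lit 0) (nat_lit 0) (XT.lf (nat_lit 1900) (nat_lit 60299378) (nat_lit 0)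 (nat_lit 1307670341) (nat_lit 1824) (nat_lit 1699577234) (nat_lit 526) (nat_lit 1) (nat_lit 501) (nat_lit 1) (nat_lit 525) (nat_lit 1) (nat_lit 359) (nat_lit 333) (nat_lit 328)) (XT.lf (nat_lit 1900) (nat_lit 1611908945) (nat_lit 76) (nat_lit 639073848) (nat_lit 0) (nat_lit 772750491) (nat_lit 526) (nat_lit 1) (nat_lit 502) (nat_lit 1) (nat_lit 501) (nat_lit 1) (nat_lit 360) (nat_lit 333) (nat_lit 327)))) (XT.nd (nat_lit 156) (nat_lit 0) (nat_lit 76) (XT.nd (nat_lit 78) (nat_lit 0) (nat_lit 76) (XT.lf (nat_lit 1900) (nat_lit 1389274300) (nat_lit 0) (nat_lit 1532940446) (nat_lit 1824) (nat_lit 58581082) (nat_lit 527) (nat_lit 1) (nat_lit 502) (nat_lit 1) (nat_lit 526) (nat_lit 1) (nat_lit 361) (nat_lit 333) (nat_lit 326)) (XT.lf (nat_lit 1900) (nat_lit 546936640) (nat_lit 0) (nat_lit 1673438219) (nat_lit 1824) (nat_lit 718275932) (nat_lit 528) (nat_lit 1) (nat_lit 503) (nat_lit 1) (nat_lit 527) (nat_lit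 1) (nat_lit 362) (nat_lit 333) (nat_lit 325))) (XT.nd (nat_lit 78) (nat_lit 0) (nat_lit 76) (XT.lf (nat_lit 1900) (nat_lit 1067032458) (nat_lit 76) (nat_lit 1546227816) (nat_lit 0) (nat_lit 284064044) (nat_lit 528) (nat_lit 1) (nat_lit 504) (nat_lit 1) (nat_lit 503) (nat_lit 1) (nat_lit 363) (nat_lit 333) (nat_lit 324)) (XT.nd (nat_lit 78) (nat_lit 0) (nat_lit 76) (XT.lf (nat_lit 1900) (nat_lit 852301872) (nat_lit 76) (nat_lit 897228425) (nat_lit 0) (nat_lit 1107233532) (nat_lit 529) (nat_lit 1) (nat_lit 505) (nat_lit 1) (nat_lit 504) (nat_lit 1) (nat_lit 364) (nat_lit 333) (nat_lit 323)) (XT.lf (nat_lit 1900) (nat_lit 625341578) (nat_lit 76) (nat_lit 276212701) (nat_lit 0) (nat_lit 1915468003) (nat_lit 530) (nat_lit 1) (nat_lit 506) (nat_lit 1) (nat_lit 505) (nat_lit 1) (nat_lit 365) (nat_lit 333) (nat_lit 322))))))) (XT.nd (nat_lit 702) (nat_lit 6612) (nat_lit 0) (XT.nd (nat_lit 312) (nat_lit 2812)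 (nat_lit 0) (XT.nd (nat_lit 156) (nat_lit 1824) (nat_lit 0) (XT.nd (nat_lit 78) (nat_lit 0) (nat_lit 0) (XT.lf (nat_lit 1900) (nat_lit 71209775) (nat_lit 0) (nat_lit 2393364750) (nat_lit 1824) (nat_lit 313465365) (nat_lit 531) (nat_lit 1) (nat_lit 506) (nat_lit 1) (nat_lit 530) (nat_lit 1) (nat_lit 366) (nat_lit 333) (nat_lit 321)) (XT.lf (nat_lit 1900) (nat_lit 126375890) (nat_lit 76) (nat_lit 1861342324) (nat_lit 0) (nat_lit 751991507) (nat_lit 531) (nat_lit 1) (nat_lit 507) (nat_lit 1) (nat_lit 506) (nat_lit 1) (nat_lit 367) (nat_lit 333) (nat_lit 320))) (XT.nd (nat_lit 78) (nat_lit 0) (nat_lit 76) (XT.lf (nat_lit 1976) (nat_lit 1142157350) (nat_lit 0) (nat_lit 140676985) (nat_lit 1900) (nat_lit 1419287309) (nat_lit 508) (nat_lit 1) (nat_lit 482) (nat_lit 1) (nat_lit 507) (nat_lit 1) (nat_lit 368) (nat_lit 333) (nat_lit 319)) (XT.lf (nat_lit 1976) (nat_lit 313278303) (nat_lit 0) (nat_lit 415536892)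 (nat_lit 1900) (nat_lit 1936453346) (nat_lit 509) (nat_lit 1) (nat_lit 483) (nat_lit 1) (nat_lit 508) (nat_lit 1) (nat_lit 369) (nat_lit 333) (nat_lit 318)))) (XT.nd (nat_lit 156) (nat_lit 2888) (nat_lit 0) (XT.nd (nat_lit 78) (nat_lit 0) (nat_lit 76) (XT.lf (nat_lit 1976) (nat_lit 1926461434) (nat_lit 76) (nat_lit 196033961) (nat_lit 0) (nat_lit 506588805) (nat_lit 509) (nat_lit 1) (nat_lit 484) (nat_lit 1) (nat_lit 483) (nat_lit 1) (nat_lit 370) (nat_lit 333) (nat_lit 317)) (XT.lf (nat_lit 76) (nat_lit 1280659912) (nat_lit 0) (nat_lit 1002141072) (nat_lit 1900) (nat_lit 310736903) (nat_lit 485) (nat_lit 1) (nat_lit 484) (nat_lit 1) (nat_lit 509) (nat_lit 1) (nat_lit 371) (nat_lit 333) (nat_lit 316))) (XT.nd (nat_lit 78) (nat_lit 1824) (nat_lit 0) (XT.lf (nat_lit 76) (nat_lit 456098398) (nat_lit 0) (nat_lit 1310620082) (nat_lit 1216) (nat_lit 791954734) (nat_lit 470) (nat_lit 1) (nat_lit 469) (nat_lit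 1) (nat_lit 485) (nat_lit 1) (nat_lit 372) (nat_lit 333) (nat_lit 315)) (XT.nd (nat_lit 78) (nat_lit 912) (nat_lit 0) (XT.lf (nat_lit 988) (nat_lit 895811517) (nat_lit 0) (nat_lit 1271274434) (nat_lit 912) (nat_lit 357367513) (nat_lit 470) (nat_lit 1) (nat_lit 457) (nat_lit 1) (nat_lit 469) (nat_lit 1) (nat_lit 373) (nat_lit 333) (nat_lit 314)) (XT.lf (nat_lit 988) (nat_lit 534514876) (nat_lit 0) (nat_lit 795213554) (nat_lit 912) (nat_lit 1161123258) (nat_lit 458) (nat_lit 1) (nat_lit 445) (nat_lit 1) (nat_lit 457) (nat_lit 1) (nat_lit 374) (nat_lit 333) (nat_lit 313)))))) (XT.nd (nat_lit 390) (nat_lit 3116) (nat_lit 0) (XT.nd (nat_lit 156) (nat_lit 2584) (nat_lit 0) (XT.nd (nat_lit 78) (nat_lit 76) (nat_lit 0) (XT.lf (nat_lit 912) (nat_lit 167638313) (nat_lit 0) (nat_lit 340947043) (nat_lit 836) (nat_lit 1949327502) (nat_lit 446) (nat_lit 1) (nat_lit 434) (nat_lit 1) (nat_lit 445) (nat_lit 1) (nat_lit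 375) (nat_lit 333) (nat_lit 312)) (XT.lf (nat_lit 76) (nat_lit 2127003416) (nat_lit 0) (nat_lit 204301152) (nat_lit 912) (nat_lit 94239929) (nat_lit 434) (nat_lit 1) (nat_lit 433) (nat_lit 1) (nat_lit 445) (nat_lit 1) (nat_lit 376) (nat_lit 333) (nat_lit 311))) (XT.nd (nat_lit 78) (nat_lit 1672) (nat_lit 0) (XT.lf (nat_lit 76) (nat_lit 1300497819) (nat_lit 0) (nat_lit 584121628) (nat_lit 988) (nat_lit 509061348) (nat_lit 422) (nat_lit 1) (nat_lit 421) (nat_lit 1) (nat_lit 434) (nat_lit 1) (nat_lit 377) (nat_lit 333) (nat_lit 310)) (XT.nd (nat_lit 78) (nat_lit 836) (nat_lit 0) (XT.lf (nat_lit 76) (nat_lit 490236456) (nat_lit 0) (nat_lit 968082140) (nat_lit 912) (nat_lit 904122508) (nat_lit 411) (nat_lit 1) (nat_lit 410) (nat_lit 1) (nat_lit 422) (nat_lit 1) (nat_lit 378) (nat_lit 333) (nat_lit 309)) (XT.lf (nat_lit 912) (nat_lit 973932534) (nat_lit 0) (nat_lit 1049773543) (nat_lit 836) (nat_lit 308065635)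 (nat_lit 411) (nat_lit 1) (nat_lit 399) (nat_lit 1) (nat_lit 410) (nat_lit 1) (nat_lit 379) (nat_lit 333) (nat_lit 308))))) (XT.nd (nat_lit 156) (nat_lit 1596) (nat_lit 0) (XT.nd (nat_lit 78) (nat_lit 760) (nat_lit 0) (XT.lf (nat_lit 836) (nat_lit 547452671) (nat_lit 0) (nat_lit 657267714) (nat_lit 760) (nat_lit 1096916417) (nat_lit 400) (nat_lit 1) (nat_lit 389) (nat_lit 1) (nat_lit 399) (nat_lit 1) (nat_lit 380) (nat_lit 333) (nat_lit 307)) (XT.lf (nat_lit 836) (nat_lit 118511262) (nat_lit 0) (nat_lit 283531671) (nat_lit 760) (nat_lit 1870044845) (nat_lit 390) (nat_lit 1) (nat_lit 379) (nat_lit 1) (nat_lit 389) (nat_lit 1) (nat_lit 381) (nat_lit 333) (nat_lit 306))) (XT.nd (nat_lit 78) (nat_lit 1520) (nat_lit 0) (XT.lf (nat_lit 76) (nat_lit 1855883120) (nat_lit 0) (nat_lit 311516369) (nat_lit 836) (nat_lit 75611485) (nat_lit 379) (nat_lit 1) (nat_lit 378) (nat_lit 1) (nat_lit 389) (nat_lit 1) (nat_lit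 382) (nat_lit 333) (nat_lit 305)) (XT.nd (nat_lit 78) (nat_lit 760) (nat_lit 0) (XT.lf (nat_lit 76) (nat_lit 1051338199) (nat_lit 0) (nat_lit 746142843) (nat_lit 836) (nat_lit 416912426) (nat_lit 369) (nat_lit 1) (nat_lit 368) (nat_lit 1) (nat_lit 379) (nat_lit 1) (nat_lit 383) (nat_lit 333) (nat_lit 304)) (XT.lf (nat_lit 76) (nat_lit 263000174) (nat_lit 0) (nat_lit 1182161399) (nat_lit 836) (nat_lit 741166886) (nat_lit 359) (nat_lit 1) (nat_lit 358) (nat_lit 1) (nat_lit 369) (nat_lit 1) (nat_lit 384) (nat_lit 333) (nat_lit 303))))))))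
noncomputable def ec9 : XT := (XT.nd (nat_lit 51636) (nat_lit 0) (nat_lit 1444) (XT.nd (nat_lit 50934) (nat_lit 0) (nat_lit 13680) (XT.nd (nat_lit 50544) (nat_lit 0) (nat_lit 13376) (XT.nd (nat_lit 156) (nat_lit 1444) (nat_lit 0) (XT.nd (nat_lit 78) (nat_lit 684) (nat_lit 0) (XT.lf (nat_lit 760) (nat_lit 536060362) (nat_lit 0) (nat_lit 1106515085) (nat_lit 684) (nat_lit 516161507) (nat_lit 359) (nat_lit 1) (nat_lit 349) (nat_lit 1) (nat_lit 358) (nat_lit 1) (nat_lit 385) (nat_lit 333) (nat_lit 302)) (XT.lf (nat_lit 760) (nat_lit 65913688) (nat_lit 0) (nat_lit 782805902) (nat_lit 684) (nat_lit 1282922158) (nat_lit 350) (nat_lit 1) (nat_lit 340) (nat_lit 1) (nat_lit 349) (nat_lit 1) (nat_lit 386) (nat_lit 333) (nat_lit 301))) (XT.nd (nat_lit 78) (nat_lit 684) (nat_lit 0) (XT.lf (nat_lit 76) (nat_lit 73645514) (nat_lit 0) (nat_lit 398992847) (nat_lit 760) (nat_lit 1632375141) (nat_lit 331) (nat_lit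 1) (nat_lit 330) (nat_lit 1) (nat_lit 340) (nat_lit 1) (nat_lit 387) (nat_lit 333) (nat_lit 300)) (XT.lf (nat_lit 760) (nat_lit 1211391796) (nat_lit 0) (nat_lit 173186470) (nat_lit 684) (nat_lit 694216580) (nat_lit 331) (nat_lit 1) (nat_lit 321) (nat_lit 1) (nat_lit 330) (nat_lit 1) (nat_lit 388) (nat_lit 333) (nat_lit 299)))) (XT.nd (nat_lit 156) (nat_lit 0) (nat_lit 76) (XT.nd (nat_lit 78) (nat_lit 0) (nat_lit 76) (XT.lf (nat_lit 1900) (nat_lit 564887555) (nat_lit 0) (nat_lit 569611329) (nat_lit 1900) (nat_lit 564887555) (nat_lit 522) (nat_lit 1) (nat_lit 497) (nat_lit 0) (nat_lit 522) (nat_lit 0) (nat_lit 352) (nat_lit 334) (nat_lit 334)) (XT.lf (nat_lit 1900) (nat_lit 261110399) (nat_lit 0) (nat_lit 1133415431) (nat_lit 1824) (nat_lit 1954534688) (nat_lit 523) (nat_lit 1) (nat_lit 498) (nat_lit 1) (nat_lit 522) (nat_lit 1) (nat_lit 353) (nat_lit 334) (nat_lit 333))) (XT.nd (nat_lit 78) (nat_lit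 0) (nat_lit 76) (XT.lf (nat_lit 1900) (nat_lit 2147364201) (nat_lit 76) (nat_lit 552119084) (nat_lit 0) (nat_lit 600809775) (nat_lit 523) (nat_lit 1) (nat_lit 499) (nat_lit 1) (nat_lit 498) (nat_lit 1) (nat_lit 354) (nat_lit 334) (nat_lit 332)) (XT.nd (nat_lit 78) (nat_lit 0) (nat_lit 76) (XT.lf (nat_lit 1900) (nat_lit 1802667030) (nat_lit 0) (nat_lit 1196217840) (nat_lit 1824) (nat_lit 253574265) (nat_lit 524) (nat_lit 1) (nat_lit 499) (nat_lit 1) (nat_lit 523) (nat_lit 1) (nat_lit 355) (nat_lit 334) (nat_lit 331)) (XT.lf (nat_lit 1900) (nat_lit 924782347) (nat_lit 0) (nat_lit 1262357968) (nat_lit 1824) (nat_lit 1018395878) (nat_lit 525) (nat_lit 1) (nat_lit 500) (nat_lit 1) (nat_lit 524) (nat_lit 1) (nat_lit 356) (nat_lit 334) (nat_lit 330)))))) (XT.nd (nat_lit 312) (nat_lit 0) (nat_lit 152) (XT.nd (nat_lit 156) (nat_lit 0) (nat_lit 76) (XT.nd (nat_lit 78) (nat_lit 0) (nat_lit 0) (XT.lf (nat_lit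 1900) (nat_lit 62108359) (nat_lit 0) (nat_lit 1346900451) (nat_lit 1824) (nat_lit 1750564551) (nat_lit 526) (nat_lit 1) (nat_lit 501) (nat_lit 1) (nat_lit 525) (nat_lit 1) (nat_lit 357) (nat_lit 334) (nat_lit 329)) (XT.lf (nat_lit 1900) (nat_lit 1660266213) (nat_lit 76) (nat_lit 658246064) (nat_lit 0) (nat_lit 795933006) (nat_lit 526) (nat_lit 1) (nat_lit 502) (nat_lit 1) (nat_lit 501) (nat_lit 1) (nat_lit 358) (nat_lit 334) (nat_lit 328))) (XT.nd (nat_lit 78) (nat_lit 0) (nat_lit 76) (XT.lf (nat_lit 1900) (nat_lit 1430952529) (nat_lit 0) (nat_lit 1578928660) (nat_lit 1824) (nat_lit 60338514) (nat_lit 527) (nat_lit 1) (nat_lit 502) (nat_lit 1) (nat_lit 526) (nat_lit 1) (nat_lit 359) (nat_lit 334) (nat_lit 327)) (XT.lf (nat_lit 1900) (nat_lit 563344739) (nat_lit 0) (nat_lit 1723641365) (nat_lit 1824) (nat_lit 739824210) (nat_lit 528) (nat_lit 1) (nat_lit 503) (nat_lit 1) (nat_lit 527) (nat_lit 1)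 (nat_lit 360) (nat_lit 334) (nat_lit 326)))) (XT.nd (nat_lit 156) (nat_lit 0) (nat_lit 152) (XT.nd (nat_lit 78) (nat_lit 0) (nat_lit 76) (XT.lf (nat_lit 1900) (nat_lit 1099043432) (nat_lit 76) (nat_lit 1592614650) (nat_lit 0) (nat_lit 292585965) (nat_lit 528) (nat_lit 1) (nat_lit 504) (nat_lit 1) (nat_lit 503) (nat_lit 1) (nat_lit 361) (nat_lit 334) (nat_lit 325)) (XT.lf (nat_lit 1900) (nat_lit 877870928) (nat_lit 76) (nat_lit 924145278) (nat_lit 0) (nat_lit 1140450538) (nat_lit 529) (nat_lit 1) (nat_lit 505) (nat_lit 1) (nat_lit 504) (nat_lit 1) (nat_lit 362) (nat_lit 334) (nat_lit 324))) (XT.nd (nat_lit 78) (nat_lit 0) (nat_lit 76) (XT.lf (nat_lit 1900) (nat_lit 644101825) (nat_lit 76) (nat_lit 284499083) (nat_lit 0) (nat_lit 1972932043) (nat_lit 530) (nat_lit 1) (nat_lit 506) (nat_lit 1) (nat_lit 505) (nat_lit 1) (nat_lit 363) (nat_lit 334) (nat_lit 323)) (XT.nd (nat_lit 78) (nat_lit 0) (nat_lit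 0) (XT.lf (nat_lit 1900) (nat_lit 73346069) (nat_lit 0) (nat_lit 2465165692) (nat_lit 1824) (nat_lit 322869326) (nat_lit 531) (nat_lit 1) (nat_lit 506) (nat_lit 1) (nat_lit 530) (nat_lit 1) (nat_lit 364) (nat_lit 334) (nat_lit 322)) (XT.lf (nat_lit 1900) (nat_lit 130167167) (nat_lit 76) (nat_lit 1917182594) (nat_lit 0) (nat_lit 774551252) (nat_lit 531) (nat_lit 1) (nat_lit 507) (nat_lit 1) (nat_lit 506) (nat_lit 1) (nat_lit 365) (nat_lit 334) (nat_lit 321))))))) (XT.nd (nat_lit 702) (nat_lit 7068) (nat_lit 0) (XT.nd (nat_lit 312) (nat_lit 3724) (nat_lit 0) (XT.nd (nat_lit 156) (nat_lit 0) (nat_lit 76) (XT.nd (nat_lit 78) (nat_lit 0) (nat_lit 76) (XT.lf (nat_lit 1976) (nat_lit 1176422070) (nat_lit 0) (nat_lit 144897294) (nat_lit 1900) (nat_lit 1461865928) (nat_lit 508) (nat_lit 1) (nat_lit 482) (nat_lit 1) (nat_lit 507) (nat_lit 1) (nat_lit 366) (nat_lit 334) (nat_lit 320)) (XT.lf (nat_lit 1976) (nat_lit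 322676652) (nat_lit 0) (nat_lit 428002999) (nat_lit 1900) (nat_lit 1994546947) (nat_lit 509) (nat_lit 1) (nat_lit 483) (nat_lit 1) (nat_lit 508) (nat_lit 1) (nat_lit 367) (nat_lit 334) (nat_lit 319))) (XT.nd (nat_lit 78) (nat_lit 0) (nat_lit 76) (XT.lf (nat_lit 1976) (nat_lit 1984255277) (nat_lit 76) (nat_lit 201914979) (nat_lit 0) (nat_lit 521786469) (nat_lit 509) (nat_lit 1) (nat_lit 484) (nat_lit 1) (nat_lit 483) (nat_lit 1) (nat_lit 368) (nat_lit 334) (nat_lit 318)) (XT.lf (nat_lit 76) (nat_lit 1319079710) (nat_lit 0) (nat_lit 1032205304) (nat_lit 1900) (nat_lit 320059011) (nat_lit 485) (nat_lit 1) (nat_lit 484) (nat_lit 1) (nat_lit 509) (nat_lit 1) (nat_lit 369) (nat_lit 334) (nat_lit 317)))) (XT.nd (nat_lit 156) (nat_lit 1824) (nat_lit 0) (XT.nd (nat_lit 78) (nat_lit 912) (nat_lit 0) (XT.lf (nat_lit 76) (nat_lit 469781350) (nat_lit 0) (nat_lit 1349938684) (nat_lit 1216) (nat_lit 815713376)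 (nat_lit 470) (nat_lit 1) (nat_lit 469) (nat_lit 1) (nat_lit 485) (nat_lit 1) (nat_lit 370) (nat_lit 334) (nat_lit 316)) (XT.lf (nat_lit 988) (nat_lit 922685863) (nat_lit 0) (nat_lit 1309412667) (nat_lit 912) (nat_lit 368088538) (nat_lit 470) (nat_lit 1) (nat_lit 457) (nat_lit 1) (nat_lit 469) (nat_lit 1) (nat_lit 371) (nat_lit 334) (nat_lit 315))) (XT.nd (nat_lit 78) (nat_lit 912) (nat_lit 0) (XT.lf (nat_lit 988) (nat_lit 550550323) (nat_lit 0) (nat_lit 819069961) (nat_lit 912) (nat_lit 1195956956) (nat_lit 458) (nat_lit 1) (nat_lit 445) (nat_lit 1) (nat_lit 457) (nat_lit 1) (nat_lit 372) (nat_lit 334) (nat_lit 314)) (XT.nd (nat_lit 78) (nat_lit 76) (nat_lit 0) (XT.lf (nat_lit 912) (nat_lit 172667463) (nat_lit 0) (nat_lit 351175454) (nat_lit 836) (nat_lit 2007807327) (nat_lit 446) (nat_lit 1) (nat_lit 434) (nat_lit 1) (nat_lit 445) (nat_lit 1) (nat_lit 373) (nat_lit 334) (nat_lit 313)) (XT.lf (nat_lit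 76) (nat_lit 2190813519) (nat_lit 0) (nat_lit 210430186) (nat_lit 912) (nat_lit 97067127) (nat_lit 434) (nat_lit 1) (nat_lit 433) (nat_lit 1) (nat_lit 445) (nat_lit 1) (nat_lit 374) (nat_lit 334) (nat_lit 312)))))) (XT.nd (nat_lit 390) (nat_lit 2964) (nat_lit 0) (XT.nd (nat_lit 156) (nat_lit 2356) (nat_lit 0) (XT.nd (nat_lit 78) (nat_lit 836) (nat_lit 0) (XT.lf (nat_lit 76) (nat_lit 1339512754) (nat_lit 0) (nat_lit 601645277) (nat_lit 988) (nat_lit 524333188) (nat_lit 422) (nat_lit 1) (nat_lit 421) (nat_lit 1) (nat_lit 434) (nat_lit 1) (nat_lit 375) (nat_lit 334) (nat_lit 311)) (XT.lf (nat_lit 76) (nat_lit 504943550) (nat_lit 0) (nat_lit 997124604) (nat_lit 912) (nat_lit 931246183) (nat_lit 411) (nat_lit 1) (nat_lit 410) (nat_lit 1) (nat_lit 422) (nat_lit 1) (nat_lit 376) (nat_lit 334) (nat_lit 310))) (XT.nd (nat_lit 78) (nat_lit 1520) (nat_lit 0) (XT.lf (nat_lit 912) (nat_lit 1003150510) (nat_lit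 0) (nat_lit 1081266749) (nat_lit 836) (nat_lit 317307604) (nat_lit 411) (nat_lit 1) (nat_lit 399) (nat_lit 1) (nat_lit 410) (nat_lit 1) (nat_lit 377) (nat_lit 334) (nat_lit 309)) (XT.nd (nat_lit 78) (nat_lit 760) (nat_lit 0) (XT.lf (nat_lit 836) (nat_lit 563876251) (nat_lit 0) (nat_lit 676985746) (nat_lit 760) (nat_lit 1129823910) (nat_lit 400) (nat_lit 1) (nat_lit 389) (nat_lit 1) (nat_lit 399) (nat_lit 1) (nat_lit 378) (nat_lit 334) (nat_lit 308)) (XT.lf (nat_lit 836) (nat_lit 122066600) (nat_lit 0) (nat_lit 292037622) (nat_lit 760) (nat_lit 1926146191) (nat_lit 390) (nat_lit 1) (nat_lit 379) (nat_lit 1) (nat_lit 389) (nat_lit 1) (nat_lit 379) (nat_lit 334) (nat_lit 307))))) (XT.nd (nat_lit 156) (nat_lit 2128) (nat_lit 0) (XT.nd (nat_lit 78) (nat_lit 760) (nat_lit 0) (XT.lf (nat_lit 76) (nat_lit 1911559614) (nat_lit 0) (nat_lit 320861860) (nat_lit 836) (nat_lit 77879830) (nat_lit 379) (nat_lit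 1) (nat_lit 378) (nat_lit 1) (nat_lit 389) (nat_lit 1) (nat_lit 380) (nat_lit 334) (nat_lit 306)) (XT.lf (nat_lit 76) (nat_lit 1082878345) (nat_lit 0) (nat_lit 768527128) (nat_lit 836) (nat_lit 429419799) (nat_lit 369) (nat_lit 1) (nat_lit 368) (nat_lit 1) (nat_lit 379) (nat_lit 1) (nat_lit 381) (nat_lit 334) (nat_lit 305))) (XT.nd (nat_lit 78) (nat_lit 1368) (nat_lit 0) (XT.lf (nat_lit 76) (nat_lit 270890179) (nat_lit 0) (nat_lit 1217626241) (nat_lit 836) (nat_lit 763401893) (nat_lit 359) (nat_lit 1) (nat_lit 358) (nat_lit 1) (nat_lit 369) (nat_lit 1) (nat_lit 382) (nat_lit 334) (nat_lit 304)) (XT.nd (nat_lit 78) (nat_lit 684) (nat_lit 0) (XT.lf (nat_lit 760) (nat_lit 552142173) (nat_lit 0) (nat_lit 1139710538) (nat_lit 684) (nat_lit 531646352) (nat_lit 359) (nat_lit 1) (nat_lit 349) (nat_lit 1) (nat_lit 358) (nat_lit 1) (nat_lit 383) (nat_lit 334) (nat_lit 303)) (XT.lf (nat_lit 760) (nat_lit 67891099)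 (nat_lit 0) (nat_lit 806290079) (nat_lit 684) (nat_lit 1321409823) (nat_lit 350) (nat_lit 1) (nat_lit 340) (nat_lit 1) (nat_lit 349) (nat_lit 1) (nat_lit 384) (nat_lit 334) (nat_lit 302))))))))
noncomputable def ec10 : XT := (XT.nd (nat_lit 51480) (nat_lit 0) (nat_lit 2052) (XT.nd (nat_lit 50778) (nat_lit 0) (nat_lit 14288) (XT.nd (nat_lit 50388) (nat_lit 0) (nat_lit 13984) (XT.nd (nat_lit 156) (nat_lit 608) (nat_lit 0) (XT.nd (nat_lit 78) (nat_lit 684) (nat_lit 0) (XT.lf (nat_lit 76) (nat_lit 75854879) (nat_lit 0) (nat_lit 410962632) (nat_lit 760) (nat_lit 1681346395) (nat_lit 331) (nat_lit 1) (nat_lit 330) (nat_lit 1) (nat_lit 340) (nat_lit 1) (nat_lit 385) (nat_lit 334) (nat_lit 301)) (XT.lf (nat_lit 760) (nat_lit 1247733550) (nat_lit 0) (nat_lit 178382064) (nat_lit 684) (nat_lit 715043077) (nat_lit 331) (nat_lit 1) (nat_lit 321) (nat_lit 1) (nat_lit 330) (nat_lit 1) (nat_lit 386) (nat_lit 334)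 (nat_lit 300))) (XT.nd (nat_lit 78) (nat_lit 608) (nat_lit 0) (XT.lf (nat_lit 76) (nat_lit 624759699) (nat_lit 0) (nat_lit 1376684918) (nat_lit 760) (nat_lit 113198429) (nat_lit 322) (nat_lit 1) (nat_lit 321) (nat_lit 1) (nat_lit 331) (nat_lit 1) (nat_lit 387) (nat_lit 334) (nat_lit 299)) (XT.lf (nat_lit 684) (nat_lit 227172802) (nat_lit 0) (nat_lit 1700300998) (nat_lit 608) (nat_lit 161114963) (nat_lit 322) (nat_lit 1) (nat_lit 313) (nat_lit 1) (nat_lit 321) (nat_lit 1) (nat_lit 388) (nat_lit 334) (nat_lit 298)))) (XT.nd (nat_lit 156) (nat_lit 0) (nat_lit 76) (XT.nd (nat_lit 78) (nat_lit 0) (nat_lit 76) (XT.lf (nat_lit 1900) (nat_lit 581834181) (nat_lit 0) (nat_lit 586699668) (nat_lit 1900) (nat_lit 581834181) (nat_lit 522) (nat_lit 1) (nat_lit 497) (nat_lit 0) (nat_lit 522) (nat_lit 0) (nat_lit 350) (nat_lit 335) (nat_lit 335)) (XT.lf (nat_lit 1900) (nat_lit 268943711) (nat_lit 0) (nat_lit 1167417894)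 (nat_lit 1824) (nat_lit 2013170729) (nat_lit 523) (nat_lit 1) (nat_lit 498) (nat_lit 1) (nat_lit 522) (nat_lit 1) (nat_lit 351) (nat_lit 335) (nat_lit 334))) (XT.nd (nat_lit 78) (nat_lit 0) (nat_lit 76) (XT.lf (nat_lit 1900) (nat_lit 2211785127) (nat_lit 76) (nat_lit 568682657) (nat_lit 0) (nat_lit 618834068) (nat_lit 523) (nat_lit 1) (nat_lit 499) (nat_lit 1) (nat_lit 498) (nat_lit 1) (nat_lit 352) (nat_lit 335) (nat_lit 333)) (XT.nd (nat_lit 78) (nat_lit 0) (nat_lit 76) (XT.lf (nat_lit 1900) (nat_lit 1856747041) (nat_lit 0) (nat_lit 1232104376) (nat_lit 1824) (nat_lit 261181493) (nat_lit 524) (nat_lit 1) (nat_lit 499) (nat_lit 1) (nat_lit 523) (nat_lit 1) (nat_lit 353) (nat_lit 335) (nat_lit 332)) (XT.lf (nat_lit 1900) (nat_lit 952525817) (nat_lit 0) (nat_lit 1300228707) (nat_lit 1824) (nat_lit 1048947754) (nat_lit 525) (nat_lit 1) (nat_lit 500) (nat_lit 1) (nat_lit 524) (nat_lit 1) (nat_lit 354)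 (nat_lit 335) (nat_lit 331)))))) (XT.nd (nat_lit 312) (nat_lit 0) (nat_lit 152) (XT.nd (nat_lit 156) (nat_lit 0) (nat_lit 76) (XT.nd (nat_lit 78) (nat_lit 0) (nat_lit 0) (XT.lf (nat_lit 1900) (nat_lit 63971610) (nat_lit 0) (nat_lit 1387307465) (nat_lit 1824) (nat_lit 1803081487) (nat_lit 526) (nat_lit 1) (nat_lit 501) (nat_lit 1) (nat_lit 525) (nat_lit 1) (nat_lit 355) (nat_lit 335) (nat_lit 330)) (XT.lf (nat_lit 1900) (nat_lit 1710074200) (nat_lit 76) (nat_lit 677993446) (nat_lit 0) (nat_lit 819810996) (nat_lit 526) (nat_lit 1) (nat_lit 502) (nat_lit 1) (nat_lit 501) (nat_lit 1) (nat_lit 356) (nat_lit 335) (nat_lit 329))) (XT.nd (nat_lit 78) (nat_lit 0) (nat_lit 76) (XT.lf (nat_lit 1900) (nat_lit 1473881105) (nat_lit 0) (nat_lit 1626296520) (nat_lit 1824) (nat_lit 62148669) (nat_lit 527) (nat_lit 1) (nat_lit 502) (nat_lit 1) (nat_lit 526) (nat_lit 1) (nat_lit 357) (nat_lit 335) (nat_lit 328)) (XT.lf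 (nat_lit 1900) (nat_lit 580245082) (nat_lit 0) (nat_lit 1775350606) (nat_lit 1824) (nat_lit 762018936) (nat_lit 528) (nat_lit 1) (nat_lit 503) (nat_lit 1) (nat_lit 527) (nat_lit 1) (nat_lit 358) (nat_lit 335) (nat_lit 327)))) (XT.nd (nat_lit 156) (nat_lit 0) (nat_lit 152) (XT.nd (nat_lit 78) (nat_lit 0) (nat_lit 76) (XT.lf (nat_lit 1900) (nat_lit 1132014735) (nat_lit 76) (nat_lit 1640393090) (nat_lit 0) (nat_lit 301363544) (nat_lit 528) (nat_lit 1) (nat_lit 504) (nat_lit 1) (nat_lit 503) (nat_lit 1) (nat_lit 359) (nat_lit 335) (nat_lit 326)) (XT.lf (nat_lit 1900) (nat_lit 904207056) (nat_lit 76) (nat_lit 951869637) (nat_lit 0) (nat_lit 1174664054) (nat_lit 529) (nat_lit 1) (nat_lit 505) (nat_lit 1) (nat_lit 504) (nat_lit 1) (nat_lit 360) (nat_lit 335) (nat_lit 325))) (XT.nd (nat_lit 78) (nat_lit 0) (nat_lit 76) (XT.lf (nat_lit 1900) (nat_lit 663424880) (nat_lit 76) (nat_lit 293034055) (nat_lit 0)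 (nat_lit 2032120004) (nat_lit 530) (nat_lit 1) (nat_lit 506) (nat_lit 1) (nat_lit 505) (nat_lit 1) (nat_lit 361) (nat_lit 335) (nat_lit 324)) (XT.nd (nat_lit 78) (nat_lit 0) (nat_lit 0) (XT.lf (nat_lit 1900) (nat_lit 75546451) (nat_lit 0) (nat_lit 2539120663) (nat_lit 1824) (nat_lit 332555406) (nat_lit 531) (nat_lit 1) (nat_lit 506) (nat_lit 1) (nat_lit 530) (nat_lit 1) (nat_lit 362) (nat_lit 335) (nat_lit 323)) (XT.lf (nat_lit 1900) (nat_lit 134072182) (nat_lit 76) (nat_lit 1974698072) (nat_lit 0) (nat_lit 797787790) (nat_lit 531) (nat_lit 1) (nat_lit 507) (nat_lit 1) (nat_lit 506) (nat_lit 1) (nat_lit 363) (nat_lit 335) (nat_lit 322))))))) (XT.nd (nat_lit 702) (nat_lit 7068) (nat_lit 0) (XT.nd (nat_lit 312) (nat_lit 3724) (nat_lit 0) (XT.nd (nat_lit 156) (nat_lit 0) (nat_lit 76) (XT.nd (nat_lit 78) (nat_lit 0) (nat_lit 76) (XT.lf (nat_lit 1976) (nat_lit 1211714732) (nat_lit 0) (nat_lit 149244213)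 (nat_lit 1900) (nat_lit 1505721906) (nat_lit 508) (nat_lit 1) (nat_lit 482) (nat_lit 1) (nat_lit 507) (nat_lit 1) (nat_lit 364) (nat_lit 335) (nat_lit 321)) (XT.lf (nat_lit 1976) (nat_lit 332356952) (nat_lit 0) (nat_lit 440843089) (nat_lit 1900) (nat_lit 2054383355) (nat_lit 509) (nat_lit 1) (nat_lit 483) (nat_lit 1) (nat_lit 508) (nat_lit 1) (nat_lit 365) (nat_lit 335) (nat_lit 320))) (XT.nd (nat_lit 78) (nat_lit 0) (nat_lit 76) (XT.lf (nat_lit 1976) (nat_lit 2043782935) (nat_lit 76) (nat_lit 207972429) (nat_lit 0) (nat_lit 537440063) (nat_lit 509) (nat_lit 1) (nat_lit 484) (nat_lit 1) (nat_lit 483) (nat_lit 1) (nat_lit 366) (nat_lit 335) (nat_lit 319)) (XT.lf (nat_lit 76) (nat_lit 1358652101) (nat_lit 0) (nat_lit 1063171463) (nat_lit 1900) (nat_lit 329660781) (nat_lit 485) (nat_lit 1) (nat_lit 484) (nat_lit 1) (nat_lit 509) (nat_lit 1) (nat_lit 367) (nat_lit 335) (nat_lit 318)))) (XT.nd (nat_lit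 156) (nat_lit 1824) (nat_lit 0) (XT.nd (nat_lit 78) (nat_lit 912) (nat_lit 0) (XT.lf (nat_lit 76) (nat_lit 483874790) (nat_lit 0) (nat_lit 1390436845) (nat_lit 1216) (nat_lit 840184778) (nat_lit 470) (nat_lit 1) (nat_lit 469) (nat_lit 1) (nat_lit 485) (nat_lit 1) (nat_lit 368) (nat_lit 335) (nat_lit 317)) (XT.lf (nat_lit 988) (nat_lit 950366438) (nat_lit 0) (nat_lit 1348695047) (nat_lit 912) (nat_lit 379131194) (nat_lit 470) (nat_lit 1) (nat_lit 457) (nat_lit 1) (nat_lit 469) (nat_lit 1) (nat_lit 369) (nat_lit 335) (nat_lit 316))) (XT.nd (nat_lit 78) (nat_lit 912) (nat_lit 0) (XT.lf (nat_lit 988) (nat_lit 567066832) (nat_lit 0) (nat_lit 843642060) (nat_lit 912) (nat_lit 1231835664) (nat_lit 458) (nat_lit 1) (nat_lit 445) (nat_lit 1) (nat_lit 457) (nat_lit 1) (nat_lit 370) (nat_lit 335) (nat_lit 315)) (XT.nd (nat_lit 78) (nat_lit 76) (nat_lit 0) (XT.lf (nat_lit 912) (nat_lit 177847486) (nat_lit 0)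 (nat_lit 361710718) (nat_lit 836) (nat_lit 2068041547) (nat_lit 446) (nat_lit 1) (nat_lit 434) (nat_lit 1) (nat_lit 445) (nat_lit 1) (nat_lit 371) (nat_lit 335) (nat_lit 314)) (XT.lf (nat_lit 76) (nat_lit 2256537924) (nat_lit 0) (nat_lit 216743092) (nat_lit 912) (nat_lit 99979141) (nat_lit 434) (nat_lit 1) (nat_lit 433) (nat_lit 1) (nat_lit 445) (nat_lit 1) (nat_lit 372) (nat_lit 335) (nat_lit 313)))))) (XT.nd (nat_lit 390) (nat_lit 2964) (nat_lit 0) (XT.nd (nat_lit 156) (nat_lit 2356) (nat_lit 0) (XT.nd (nat_lit 78) (nat_lit 836) (nat_lit 0) (XT.lf (nat_lit 76) (nat_lit 1379698136) (nat_lit 0) (nat_lit 619694635) (nat_lit 988) (nat_lit 540063184) (nat_lit 422) (nat_lit 1) (nat_lit 421) (nat_lit 1) (nat_lit 434) (nat_lit 1) (nat_lit 373) (nat_lit 335) (nat_lit 312)) (XT.lf (nat_lit 76) (nat_lit 520091857) (nat_lit 0) (nat_lit 1027038343) (nat_lit 912) (nat_lit 959183569) (nat_lit 411) (nat_lit 1)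 (nat_lit 410) (nat_lit 1) (nat_lit 422) (nat_lit 1) (nat_lit 374) (nat_lit 335) (nat_lit 311))) (XT.nd (nat_lit 78) (nat_lit 1520) (nat_lit 0) (XT.lf (nat_lit 912) (nat_lit 1033245026) (nat_lit 0) (nat_lit 1113704752) (nat_lit 836) (nat_lit 326826833) (nat_lit 411) (nat_lit 1) (nat_lit 399) (nat_lit 1) (nat_lit 410) (nat_lit 1) (nat_lit 375) (nat_lit 335) (nat_lit 310)) (XT.nd (nat_lit 78) (nat_lit 760) (nat_lit 0) (XT.lf (nat_lit 836) (nat_lit 580792538) (nat_lit 0) (nat_lit 697295318) (nat_lit 760) (nat_lit 1163718627) (nat_lit 400) (nat_lit 1) (nat_lit 389) (nat_lit 1) (nat_lit 399) (nat_lit 1) (nat_lit 376) (nat_lit 335) (nat_lit 309)) (XT.lf (nat_lit 836) (nat_lit 125728598) (nat_lit 0) (nat_lit 300798750) (nat_lit 760) (nat_lit 1983930576) (nat_lit 390) (nat_lit 1) (nat_lit 379) (nat_lit 1) (nat_lit 389) (nat_lit 1) (nat_lit 377) (nat_lit 335) (nat_lit 308))))) (XT.nd (nat_lit 156) (nat_lit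 2128) (nat_lit 0) (XT.nd (nat_lit 78) (nat_lit 760) (nat_lit 0) (XT.lf (nat_lit 76) (nat_lit 1968906402) (nat_lit 0) (nat_lit 330487716) (nat_lit 836) (nat_lit 80216225) (nat_lit 379) (nat_lit 1) (nat_lit 378) (nat_lit 1) (nat_lit 389) (nat_lit 1) (nat_lit 378) (nat_lit 335) (nat_lit 307)) (XT.lf (nat_lit 76) (nat_lit 1115364696) (nat_lit 0) (nat_lit 791582942) (nat_lit 836) (nat_lit 442302393) (nat_lit 369) (nat_lit 1) (nat_lit 368) (nat_lit 1) (nat_lit 379) (nat_lit 1) (nat_lit 379) (nat_lit 335) (nat_lit 306))) (XT.nd (nat_lit 78) (nat_lit 1368) (nat_lit 0) (XT.lf (nat_lit 76) (nat_lit 279016885) (nat_lit 0) (nat_lit 1254155028) (nat_lit 836) (nat_lit 786303950) (nat_lit 359) (nat_lit 1) (nat_lit 358) (nat_lit 1) (nat_lit 369) (nat_lit 1) (nat_lit 380) (nat_lit 335) (nat_lit 305)) (XT.nd (nat_lit 78) (nat_lit 684) (nat_lit 0) (XT.lf (nat_lit 760) (nat_lit 568706438) (nat_lit 0) (nat_lit 1173901854)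 (nat_lit 684) (nat_lit 547595742) (nat_lit 359) (nat_lit 1) (nat_lit 349) (nat_lit 1) (nat_lit 358) (nat_lit 1) (nat_lit 381) (nat_lit 335) (nat_lit 304)) (XT.lf (nat_lit 760) (nat_lit 69927832) (nat_lit 0) (nat_lit 830478782) (nat_lit 684) (nat_lit 1361052117) (nat_lit 350) (nat_lit 1) (nat_lit 340) (nat_lit 1) (nat_lit 349) (nat_lit 1) (nat_lit 382) (nat_lit 335) (nat_lit 303))))))))
noncomputable def ec11 : XT := (XT.nd (nat_lit 51324) (nat_lit 0) (nat_lit 4712) (XT.nd (nat_lit 50622) (nat_lit 0) (nat_lit 15428) (XT.nd (nat_lit 312) (nat_lit 1292) (nat_lit 0) (XT.nd (nat_lit 156) (nat_lit 608) (nat_lit 0) (XT.nd (nat_lit 78) (nat_lit 684) (nat_lit 0) (XT.lf (nat_lit 76) (nat_lit 78130526) (nat_lit 0) (nat_lit 423291511) (nat_lit 760) (nat_lit 1731786787) (nat_lit 331) (nat_lit 1) (nat_lit 330) (nat_lit 1) (nat_lit 340) (nat_lit 1) (nat_lit 383) (nat_lit 335) (nat_lit 302)) (XT.lf (nat_lit 760)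 (nat_lit 1285165557) (nat_lit 0) (nat_lit 183733526) (nat_lit 684) (nat_lit 736494370) (nat_lit 331) (nat_lit 1) (nat_lit 321) (nat_lit 1) (nat_lit 330) (nat_lit 1) (nat_lit 384) (nat_lit 335) (nat_lit 301))) (XT.nd (nat_lit 78) (nat_lit 608) (nat_lit 0) (XT.lf (nat_lit 76) (nat_lit 643502490) (nat_lit 0) (nat_lit 1417985465) (nat_lit 760) (nat_lit 116594382) (nat_lit 322) (nat_lit 1) (nat_lit 321) (nat_lit 1) (nat_lit 331) (nat_lit 1) (nat_lit 385) (nat_lit 335) (nat_lit 300)) (XT.lf (nat_lit 684) (nat_lit 233987986) (nat_lit 0) (nat_lit 1751310028) (nat_lit 608) (nat_lit 165948412) (nat_lit 322) (nat_lit 1) (nat_lit 313) (nat_lit 1) (nat_lit 321) (nat_lit 1) (nat_lit 386) (nat_lit 335) (nat_lit 299)))) (XT.nd (nat_lit 50076) (nat_lit 0) (nat_lit 15276) (XT.nd (nat_lit 78) (nat_lit 608) (nat_lit 0) (XT.lf (nat_lit 76) (nat_lit 1159665071) (nat_lit 0) (nat_lit 291015432) (nat_lit 684) (nat_lit 674118732)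 (nat_lit 305) (nat_lit 1) (nat_lit 304) (nat_lit 1) (nat_lit 313) (nat_lit 1) (nat_lit 387) (nat_lit 335) (nat_lit 298)) (XT.lf (nat_lit 76) (nat_lit 352618642) (nat_lit 0) (nat_lit 811257463) (nat_lit 684) (nat_lit 934946558) (nat_lit 297) (nat_lit 1) (nat_lit 296) (nat_lit 1) (nat_lit 305) (nat_lit 1) (nat_lit 388) (nat_lit 335) (nat_lit 297))) (XT.nd (nat_lit 78) (nat_lit 0) (nat_lit 76) (XT.lf (nat_lit 1900) (nat_lit 599289207) (nat_lit 0) (nat_lit 604300658) (nat_lit 1900) (nat_lit 599289207) (nat_lit 522) (nat_lit 1) (nat_lit 497) (nat_lit 0) (nat_lit 522) (nat_lit 0) (nat_lit 348) (nat_lit 336) (nat_lit 336)) (XT.nd (nat_lit 78) (nat_lit 0) (nat_lit 0) (XT.lf (nat_lit 1900) (nat_lit 277012022) (nat_lit 0) (nat_lit 1202440431) (nat_lit 1824) (nat_lit 2073565850) (nat_lit 523) (nat_lit 1) (nat_lit 498) (nat_lit 1) (nat_lit 522) (nat_lit 1) (nat_lit 349) (nat_lit 336) (nat_lit 335)) (XT.lf (nat_lit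 1900) (nat_lit 2278138681) (nat_lit 76) (nat_lit 585743136) (nat_lit 0) (nat_lit 637399090) (nat_lit 523) (nat_lit 1) (nat_lit 499) (nat_lit 1) (nat_lit 498) (nat_lit 1) (nat_lit 350) (nat_lit 336) (nat_lit 334)))))) (XT.nd (nat_lit 312) (nat_lit 0) (nat_lit 228) (XT.nd (nat_lit 156) (nat_lit 0) (nat_lit 152) (XT.nd (nat_lit 78) (nat_lit 0) (nat_lit 76) (XT.lf (nat_lit 1900) (nat_lit 1912449452) (nat_lit 0) (nat_lit 1269067507) (nat_lit 1824) (nat_lit 269016938) (nat_lit 524) (nat_lit 1) (nat_lit 499) (nat_lit 1) (nat_lit 523) (nat_lit 1) (nat_lit 351) (nat_lit 336) (nat_lit 333)) (XT.lf (nat_lit 1900) (nat_lit 981101592) (nat_lit 0) (nat_lit 1339235568) (nat_lit 1824) (nat_lit 1080416187) (nat_lit 525) (nat_lit 1) (nat_lit 500) (nat_lit 1) (nat_lit 524) (nat_lit 1) (nat_lit 352) (nat_lit 336) (nat_lit 332))) (XT.nd (nat_lit 78) (nat_lit 0) (nat_lit 0) (XT.lf (nat_lit 1900) (nat_lit 65890758) (nat_lit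 0) (nat_lit 1428926689) (nat_lit 1824) (nat_lit 1857173932) (nat_lit 526) (nat_lit 1) (nat_lit 501) (nat_lit 1) (nat_lit 525) (nat_lit 1) (nat_lit 353) (nat_lit 336) (nat_lit 331)) (XT.lf (nat_lit 1900) (nat_lit 1761376426) (nat_lit 76) (nat_lit 698333249) (nat_lit 0) (nat_lit 844405326) (nat_lit 526) (nat_lit 1) (nat_lit 502) (nat_lit 1) (nat_lit 501) (nat_lit 1) (nat_lit 354) (nat_lit 336) (nat_lit 330)))) (XT.nd (nat_lit 156) (nat_lit 0) (nat_lit 76) (XT.nd (nat_lit 78) (nat_lit 0) (nat_lit 76) (XT.lf (nat_lit 1900) (nat_lit 1518097538) (nat_lit 0) (nat_lit 1675085415) (nat_lit 1824) (nat_lit 64013130) (nat_lit 527) (nat_lit 1) (nat_lit 502) (nat_lit 1) (nat_lit 526) (nat_lit 1) (nat_lit 355) (nat_lit 336) (nat_lit 329)) (XT.lf (nat_lit 1900) (nat_lit 597652434) (nat_lit 0) (nat_lit 1828611125) (nat_lit 1824) (nat_lit 784879504) (nat_lit 528) (nat_lit 1) (nat_lit 503) (nat_lit 1) (nat_lit 527)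 (nat_lit 1) (nat_lit 356) (nat_lit 336) (nat_lit 328))) (XT.nd (nat_lit 78) (nat_lit 0) (nat_lit 76) (XT.lf (nat_lit 1900) (nat_lit 1165975177) (nat_lit 76) (nat_lit 1689604883) (nat_lit 0) (nat_lit 310404451) (nat_lit 528) (nat_lit 1) (nat_lit 504) (nat_lit 1) (nat_lit 503) (nat_lit 1) (nat_lit 357) (nat_lit 336) (nat_lit 327)) (XT.nd (nat_lit 78) (nat_lit 0) (nat_lit 76) (XT.lf (nat_lit 1900) (nat_lit 931333267) (nat_lit 76) (nat_lit 980425726) (nat_lit 0) (nat_lit 1209903975) (nat_lit 529) (nat_lit 1) (nat_lit 505) (nat_lit 1) (nat_lit 504) (nat_lit 1) (nat_lit 358) (nat_lit 336) (nat_lit 326)) (XT.lf (nat_lit 1900) (nat_lit 683327626) (nat_lit 76) (nat_lit 301825077) (nat_lit 0) (nat_lit 2093083604) (nat_lit 530) (nat_lit 1) (nat_lit 506) (nat_lit 1) (nat_lit 505) (nat_lit 1) (nat_lit 359) (nat_lit 336) (nat_lit 325))))))) (XT.nd (nat_lit 702) (nat_lit 6612) (nat_lit 0) (XT.nd (nat_lit 312) (nat_lit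 2812) (nat_lit 0) (XT.nd (nat_lit 156) (nat_lit 1824) (nat_lit 0) (XT.nd (nat_lit 78) (nat_lit 0) (nat_lit 0) (XT.lf (nat_lit 1900) (nat_lit 77812844) (nat_lit 0) (nat_lit 2615294283) (nat_lit 1824) (nat_lit 342532068) (nat_lit 531) (nat_lit 1) (nat_lit 506) (nat_lit 1) (nat_lit 530) (nat_lit 1) (nat_lit 360) (nat_lit 336) (nat_lit 324)) (XT.lf (nat_lit 1900) (nat_lit 138094347) (nat_lit 76) (nat_lit 2033939014) (nat_lit 0) (nat_lit 821721424) (nat_lit 531) (nat_lit 1) (nat_lit 507) (nat_lit 1) (nat_lit 506) (nat_lit 1) (nat_lit 361) (nat_lit 336) (nat_lit 323))) (XT.nd (nat_lit 78) (nat_lit 0) (nat_lit 76) (XT.lf (nat_lit 1976) (nat_lit 1248066174) (nat_lit 0) (nat_lit 153721539) (nat_lit 1900) (nat_lit 1550893563) (nat_lit 508) (nat_lit 1) (nat_lit 482) (nat_lit 1) (nat_lit 507) (nat_lit 1) (nat_lit 362) (nat_lit 336) (nat_lit 322)) (XT.lf (nat_lit 1976) (nat_lit 342327660) (nat_lit 0) (nat_lit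 454068382) (nat_lit 1900) (nat_lit 2116014856) (nat_lit 509) (nat_lit 1) (nat_lit 483) (nat_lit 1) (nat_lit 508) (nat_lit 1) (nat_lit 363) (nat_lit 336) (nat_lit 321)))) (XT.nd (nat_lit 156) (nat_lit 2888) (nat_lit 0) (XT.nd (nat_lit 78) (nat_lit 0) (nat_lit 76) (XT.lf (nat_lit 1976) (nat_lit 2105096423) (nat_lit 76) (nat_lit 214211602) (nat_lit 0) (nat_lit 553563265) (nat_lit 509) (nat_lit 1) (nat_lit 484) (nat_lit 1) (nat_lit 483) (nat_lit 1) (nat_lit 364) (nat_lit 336) (nat_lit 320)) (XT.lf (nat_lit 76) (nat_lit 1399411664) (nat_lit 0) (nat_lit 1095066607) (nat_lit 1900) (nat_lit 339550604) (nat_lit 485) (nat_lit 1) (nat_lit 484) (nat_lit 1) (nat_lit 509) (nat_lit 1) (nat_lit 365) (nat_lit 336) (nat_lit 319))) (XT.nd (nat_lit 78) (nat_lit 1824) (nat_lit 0) (XT.lf (nat_lit 76) (nat_lit 498391034) (nat_lit 0) (nat_lit 1432149950) (nat_lit 1216) (nat_lit 865390321) (nat_lit 470) (nat_lit 1) (nat_lit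 469) (nat_lit 1) (nat_lit 485) (nat_lit 1) (nat_lit 366) (nat_lit 336) (nat_lit 318)) (XT.nd (nat_lit 78) (nat_lit 912) (nat_lit 0) (XT.lf (nat_lit 988) (nat_lit 978877432) (nat_lit 0) (nat_lit 1389155898) (nat_lit 912) (nat_lit 390505130) (nat_lit 470) (nat_lit 1) (nat_lit 457) (nat_lit 1) (nat_lit 469) (nat_lit 1) (nat_lit 367) (nat_lit 336) (nat_lit 317)) (XT.lf (nat_lit 988) (nat_lit 584078837) (nat_lit 0) (nat_lit 868951321) (nat_lit 912) (nat_lit 1268790734) (nat_lit 458) (nat_lit 1) (nat_lit 445) (nat_lit 1) (nat_lit 457) (nat_lit 1) (nat_lit 368) (nat_lit 336) (nat_lit 316)))))) (XT.nd (nat_lit 390) (nat_lit 3116) (nat_lit 0) (XT.nd (nat_lit 156) (nat_lit 2584) (nat_lit 0) (XT.nd (nat_lit 78) (nat_lit 76) (nat_lit 0) (XT.lf (nat_lit 912) (nat_lit 183182911) (nat_lit 0) (nat_lit 372562040) (nat_lit 836) (nat_lit 2130082794) (nat_lit 446) (nat_lit 1) (nat_lit 434) (nat_lit 1) (nat_lit 445)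 (nat_lit 1) (nat_lit 369) (nat_lit 336) (nat_lit 315)) (XT.lf (nat_lit 76) (nat_lit 2324234062) (nat_lit 0) (nat_lit 223245385) (nat_lit 912) (nat_lit 102978515) (nat_lit 434) (nat_lit 1) (nat_lit 433) (nat_lit 1) (nat_lit 445) (nat_lit 1) (nat_lit 370) (nat_lit 336) (nat_lit 314))) (XT.nd (nat_lit 78) (nat_lit 1672) (nat_lit 0) (XT.lf (nat_lit 76) (nat_lit 1421089080) (nat_lit 0) (nat_lit 638285474) (nat_lit 988) (nat_lit 556265079) (nat_lit 422) (nat_lit 1) (nat_lit 421) (nat_lit 1) (nat_lit 434) (nat_lit 1) (nat_lit 371) (nat_lit 336) (nat_lit 313)) (XT.nd (nat_lit 78) (nat_lit 836) (nat_lit 0) (XT.lf (nat_lit 76) (nat_lit 535694612) (nat_lit 0) (nat_lit 1057849493) (nat_lit 912) (nat_lit 987959076) (nat_lit 411) (nat_lit 1) (nat_lit 410) (nat_lit 1) (nat_lit 422) (nat_lit 1) (nat_lit 372) (nat_lit 336) (nat_lit 312)) (XT.lf (nat_lit 912) (nat_lit 1064242376) (nat_lit 0) (nat_lit 1147115894) (nat_lit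 836) (nat_lit 336631638) (nat_lit 411) (nat_lit 1) (nat_lit 399) (nat_lit 1) (nat_lit 410) (nat_lit 1) (nat_lit 373) (nat_lit 336) (nat_lit 311))))) (XT.nd (nat_lit 156) (nat_lit 1596) (nat_lit 0) (XT.nd (nat_lit 78) (nat_lit 760) (nat_lit 0) (XT.lf (nat_lit 836) (nat_lit 598216314) (nat_lit 0) (nat_lit 718214178) (nat_lit 760) (nat_lit 1198630186) (nat_lit 400) (nat_lit 1) (nat_lit 389) (nat_lit 1) (nat_lit 399) (nat_lit 1) (nat_lit 374) (nat_lit 336) (nat_lit 310)) (XT.lf (nat_lit 836) (nat_lit 129500456) (nat_lit 0) (nat_lit 309822713) (nat_lit 760) (nat_lit 2043448494) (nat_lit 390) (nat_lit 1) (nat_lit 379) (nat_lit 1) (nat_lit 389) (nat_lit 1) (nat_lit 375) (nat_lit 336) (nat_lit 309))) (XT.nd (nat_lit 78) (nat_lit 1520) (nat_lit 0) (XT.lf (nat_lit 76) (nat_lit 2027973594) (nat_lit 0) (nat_lit 340402348) (nat_lit 836) (nat_lit 82622711) (nat_lit 379) (nat_lit 1) (nat_lit 378) (nat_lit 1) (nat_lit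 389) (nat_lit 1) (nat_lit 376) (nat_lit 336) (nat_lit 308)) (XT.nd (nat_lit 78) (nat_lit 760) (nat_lit 0) (XT.lf (nat_lit 76) (nat_lit 1148825636) (nat_lit 0) (nat_lit 815330430) (nat_lit 836) (nat_lit 455571465) (nat_lit 369) (nat_lit 1) (nat_lit 368) (nat_lit 1) (nat_lit 379) (nat_lit 1) (nat_lit 377) (nat_lit 336) (nat_lit 307)) (XT.lf (nat_lit 76) (nat_lit 287387391) (nat_lit 0) (nat_lit 1291779679) (nat_lit 836) (nat_lit 809893068) (nat_lit 359) (nat_lit 1) (nat_lit 358) (nat_lit 1) (nat_lit 369) (nat_lit 1) (nat_lit 378) (nat_lit 336) (nat_lit 306))))))))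
noncomputable def ec12 : XT := (XT.nd (nat_lit 51168) (nat_lit 0) (nat_lit 8208) (XT.nd (nat_lit 702) (nat_lit 532) (nat_lit 0) (XT.nd (nat_lit 312) (nat_lit 2508) (nat_lit 0) (XT.nd (nat_lit 156) (nat_lit 1444) (nat_lit 0) (XT.nd (nat_lit 78) (nat_lit 684) (nat_lit 0) (XT.lf (nat_lit 760) (nat_lit 585767631) (nat_lit 0) (nat_lit 1209118910) (nat_lit 684) (nat_lit 564023615) (nat_lit 359) (nat_lit 1) (nat_lit 349) (nat_lit 1) (nat_lit 358) (nat_lit 1) (nat_lit 379) (nat_lit 336) (nat_lit 305)) (XT.lf (nat_lit 760) (nat_lit 72025667) (nat_lit 0) (nat_lit 855393145) (nat_lit 684) (nat_lit 1401883681) (nat_lit 350) (nat_lit 1) (nat_lit 340) (nat_lit 1) (nat_lit 349) (nat_lit 1) (nat_lit 380) (nat_lit 336) (nat_lit 304))) (XT.nd (nat_lit 78) (nat_lit 684) (nat_lit 0) (XT.lf (nat_lit 76) (nat_lit 80474441) (nat_lit 0) (nat_lit 435990257) (nat_lit 760) (nat_lit 1783740391) (nat_lit 331) (nat_lit 1) (nat_lit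 330) (nat_lit 1) (nat_lit 340) (nat_lit 1) (nat_lit 381) (nat_lit 336) (nat_lit 303)) (XT.lf (nat_lit 760) (nat_lit 1323720523) (nat_lit 0) (nat_lit 189245532) (nat_lit 684) (nat_lit 758589201) (nat_lit 331) (nat_lit 1) (nat_lit 321) (nat_lit 1) (nat_lit 330) (nat_lit 1) (nat_lit 382) (nat_lit 336) (nat_lit 302)))) (XT.nd (nat_lit 156) (nat_lit 1900) (nat_lit 0) (XT.nd (nat_lit 78) (nat_lit 608) (nat_lit 0) (XT.lf (nat_lit 76) (nat_lit 662807564) (nat_lit 0) (nat_lit 1460525029) (nat_lit 760) (nat_lit 120092214) (nat_lit 322) (nat_lit 1) (nat_lit 321) (nat_lit 1) (nat_lit 331) (nat_lit 1) (nat_lit 383) (nat_lit 336) (nat_lit 301)) (XT.lf (nat_lit 684) (nat_lit 241007626) (nat_lit 0) (nat_lit 1803849329) (nat_lit 608) (nat_lit 170926865) (nat_lit 322) (nat_lit 1) (nat_lit 313) (nat_lit 1) (nat_lit 321) (nat_lit 1) (nat_lit 384) (nat_lit 336) (nat_lit 300))) (XT.nd (nat_lit 78) (nat_lit 1216) (nat_lit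 0) (XT.lf (nat_lit 76) (nat_lit 1194455023) (nat_lit 0) (nat_lit 299745895) (nat_lit 684) (nat_lit 694342294) (nat_lit 305) (nat_lit 1) (nat_lit 304) (nat_lit 1) (nat_lit 313) (nat_lit 1) (nat_lit 385) (nat_lit 336) (nat_lit 299)) (XT.nd (nat_lit 78) (nat_lit 608) (nat_lit 0) (XT.lf (nat_lit 76) (nat_lit 363197201) (nat_lit 0) (nat_lit 835595186) (nat_lit 684) (nat_lit 962994955) (nat_lit 297) (nat_lit 1) (nat_lit 296) (nat_lit 1) (nat_lit 305) (nat_lit 1) (nat_lit 386) (nat_lit 336) (nat_lit 298)) (XT.lf (nat_lit 684) (nat_lit 762963795) (nat_lit 0) (nat_lit 915738247) (nat_lit 608) (nat_lit 456775204) (nat_lit 297) (nat_lit 1) (nat_lit 288) (nat_lit 1) (nat_lit 296) (nat_lit 1) (nat_lit 387) (nat_lit 336) (nat_lit 297)))))) (XT.nd (nat_lit 50076) (nat_lit 0) (nat_lit 16568) (XT.nd (nat_lit 49920) (nat_lit 0) (nat_lit 16492) (XT.nd (nat_lit 49842) (nat_lit 0) (nat_lit 16416) (XT.lf (nat_lit 608)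 (nat_lit 199948761) (nat_lit 0) (nat_lit 645295481) (nat_lit 532) (nat_lit 1264371742) (nat_lit 289) (nat_lit 1) (nat_lit 281) (nat_lit 1) (nat_lit 288) (nat_lit 1) (nat_lit 388) (nat_lit 336) (nat_lit 296)) (XT.lf (nat_lit 1900) (nat_lit 617267883) (nat_lit 0) (nat_lit 622429678) (nat_lit 1900) (nat_lit 617267883) (nat_lit 522) (nat_lit 1) (nat_lit 497) (nat_lit 0) (nat_lit 522) (nat_lit 0) (nat_lit 346) (nat_lit 337) (nat_lit 337))) (XT.nd (nat_lit 78) (nat_lit 0) (nat_lit 0) (XT.lf (nat_lit 1900) (nat_lit 285322383) (nat_lit 0) (nat_lit 1238513644) (nat_lit 1824) (nat_lit 2135772826) (nat_lit 523) (nat_lit 1) (nat_lit 498) (nat_lit 1) (nat_lit 522) (nat_lit 1) (nat_lit 347) (nat_lit 337) (nat_lit 336)) (XT.lf (nat_lit 1900) (nat_lit 2346482841) (nat_lit 76) (nat_lit 603315430) (nat_lit 0) (nat_lit 656521063) (nat_lit 523) (nat_lit 1) (nat_lit 499) (nat_lit 1) (nat_lit 498) (nat_lit 1) (nat_lit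 348) (nat_lit 337) (nat_lit 335)))) (XT.nd (nat_lit 156) (nat_lit 0) (nat_lit 152) (XT.nd (nat_lit 78) (nat_lit 0) (nat_lit 76) (XT.lf (nat_lit 1900) (nat_lit 1969822936) (nat_lit 0) (nat_lit 1307139532) (nat_lit 1824) (nat_lit 277087446) (nat_lit 524) (nat_lit 1) (nat_lit 499) (nat_lit 1) (nat_lit 523) (nat_lit 1) (nat_lit 349) (nat_lit 337) (nat_lit 334)) (XT.lf (nat_lit 1900) (nat_lit 1010534640) (nat_lit 0) (nat_lit 1379412635) (nat_lit 1824) (nat_lit 1112828672) (nat_lit 525) (nat_lit 1) (nat_lit 500) (nat_lit 1) (nat_lit 524) (nat_lit 1) (nat_lit 350) (nat_lit 337) (nat_lit 333))) (XT.nd (nat_lit 78) (nat_lit 0) (nat_lit 0) (XT.lf (nat_lit 1900) (nat_lit 67867481) (nat_lit 0) (nat_lit 1471794490) (nat_lit 1824) (nat_lit 1912889150) (nat_lit 526) (nat_lit 1) (nat_lit 501) (nat_lit 1) (nat_lit 525) (nat_lit 1) (nat_lit 351) (nat_lit 337) (nat_lit 332)) (XT.nd (nat_lit 78) (nat_lit 0) (nat_lit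 76) (XT.lf (nat_lit 1900) (nat_lit 1814217718) (nat_lit 76) (nat_lit 719283247) (nat_lit 0) (nat_lit 869737486) (nat_lit 526) (nat_lit 1) (nat_lit 502) (nat_lit 1) (nat_lit 501) (nat_lit 1) (nat_lit 352) (nat_lit 337) (nat_lit 331)) (XT.lf (nat_lit 1900) (nat_lit 1563640464) (nat_lit 0) (nat_lit 1725337978) (nat_lit 1824) (nat_lit 65933523) (nat_lit 527) (nat_lit 1) (nat_lit 502) (nat_lit 1) (nat_lit 526) (nat_lit 1) (nat_lit 353) (nat_lit 337) (nat_lit 330))))))) (XT.nd (nat_lit 702) (nat_lit 7068) (nat_lit 0) (XT.nd (nat_lit 312) (nat_lit 1596) (nat_lit 0) (XT.nd (nat_lit 156) (nat_lit 0) (nat_lit 76) (XT.nd (nat_lit 78) (nat_lit 0) (nat_lit 0) (XT.lf (nat_lit 1900) (nat_lit 615582007) (nat_lit 0) (nat_lit 1883469458) (nat_lit 1824) (nat_lit 808425889) (nat_lit 528) (nat_lit 1) (nat_lit 503) (nat_lit 1) (nat_lit 527) (nat_lit 1) (nat_lit 354) (nat_lit 337) (nat_lit 329)) (XT.lf (nat_lit 1900) (nat_lit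 1200954432) (nat_lit 76) (nat_lit 1740293029) (nat_lit 0) (nat_lit 319716584) (nat_lit 528) (nat_lit 1) (nat_lit 504) (nat_lit 1) (nat_lit 503) (nat_lit 1) (nat_lit 355) (nat_lit 337) (nat_lit 328))) (XT.nd (nat_lit 78) (nat_lit 0) (nat_lit 76) (XT.lf (nat_lit 1900) (nat_lit 959273265) (nat_lit 76) (nat_lit 1009838497) (nat_lit 0) (nat_lit 1246201095) (nat_lit 529) (nat_lit 1) (nat_lit 505) (nat_lit 1) (nat_lit 504) (nat_lit 1) (nat_lit 356) (nat_lit 337) (nat_lit 327)) (XT.lf (nat_lit 1900) (nat_lit 703827455) (nat_lit 76) (nat_lit 310879829) (nat_lit 0) (nat_lit 2155876112) (nat_lit 530) (nat_lit 1) (nat_lit 506) (nat_lit 1) (nat_lit 505) (nat_lit 1) (nat_lit 357) (nat_lit 337) (nat_lit 326)))) (XT.nd (nat_lit 156) (nat_lit 1824) (nat_lit 0) (XT.nd (nat_lit 78) (nat_lit 0) (nat_lit 0) (XT.lf (nat_lit 1900) (nat_lit 80147230) (nat_lit 0) (nat_lit 2693753111) (nat_lit 1824) (nat_lit 352808030) (nat_lit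 531) (nat_lit 1) (nat_lit 506) (nat_lit 1) (nat_lit 530) (nat_lit 1) (nat_lit 358) (nat_lit 337) (nat_lit 325)) (XT.lf (nat_lit 1900) (nat_lit 142237178) (nat_lit 76) (nat_lit 2094957185) (nat_lit 0) (nat_lit 846373066) (nat_lit 531) (nat_lit 1) (nat_lit 507) (nat_lit 1) (nat_lit 506) (nat_lit 1) (nat_lit 359) (nat_lit 337) (nat_lit 324))) (XT.nd (nat_lit 78) (nat_lit 0) (nat_lit 76) (XT.lf (nat_lit 1976) (nat_lit 1285508159) (nat_lit 0) (nat_lit 158333186) (nat_lit 1900) (nat_lit 1597420370) (nat_lit 508) (nat_lit 1) (nat_lit 482) (nat_lit 1) (nat_lit 507) (nat_lit 1) (nat_lit 360) (nat_lit 337) (nat_lit 323)) (XT.nd (nat_lit 78) (nat_lit 0) (nat_lit 0) (XT.lf (nat_lit 1976) (nat_lit 352597490) (nat_lit 0) (nat_lit 467690433) (nat_lit 1900) (nat_lit 2179495302) (nat_lit 509) (nat_lit 1) (nat_lit 483) (nat_lit 1) (nat_lit 508) (nat_lit 1) (nat_lit 361) (nat_lit 337) (nat_lit 322)) (XT.lf (nat_lit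 1976) (nat_lit 2168249316) (nat_lit 76) (nat_lit 220637950) (nat_lit 0) (nat_lit 570170163) (nat_lit 509) (nat_lit 1) (nat_lit 484) (nat_lit 1) (nat_lit 483) (nat_lit 1) (nat_lit 362) (nat_lit 337) (nat_lit 321)))))) (XT.nd (nat_lit 390) (nat_lit 3420) (nat_lit 0) (XT.nd (nat_lit 156) (nat_lit 2660) (nat_lit 0) (XT.nd (nat_lit 78) (nat_lit 1140) (nat_lit 0) (XT.lf (nat_lit 76) (nat_lit 1441394014) (nat_lit 0) (nat_lit 1127918605) (nat_lit 1900) (nat_lit 349737122) (nat_lit 485) (nat_lit 1) (nat_lit 484) (nat_lit 1) (nat_lit 509) (nat_lit 1) (nat_lit 363) (nat_lit 337) (nat_lit 320)) (XT.lf (nat_lit 76) (nat_lit 513342765) (nat_lit 0) (nat_lit 1475114449) (nat_lit 1216) (nat_lit 891352031) (nat_lit 470) (nat_lit 1) (nat_lit 469) (nat_lit 1) (nat_lit 485) (nat_lit 1) (nat_lit 364) (nat_lit 337) (nat_lit 319))) (XT.nd (nat_lit 78) (nat_lit 1748) (nat_lit 0) (XT.lf (nat_lit 988) (nat_lit 1008243755)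 (nat_lit 0) (nat_lit 1430830575) (nat_lit 912) (nat_lit 402220284) (nat_lit 470) (nat_lit 1) (nat_lit 457) (nat_lit 1) (nat_lit 469) (nat_lit 1) (nat_lit 365) (nat_lit 337) (nat_lit 318)) (XT.nd (nat_lit 78) (nat_lit 836) (nat_lit 0) (XT.lf (nat_lit 988) (nat_lit 601601203) (nat_lit 0) (nat_lit 895019861) (nat_lit 912) (nat_lit 1306854456) (nat_lit 458) (nat_lit 1) (nat_lit 445) (nat_lit 1) (nat_lit 457) (nat_lit 1) (nat_lit 366) (nat_lit 337) (nat_lit 317)) (XT.lf (nat_lit 912) (nat_lit 188678398) (nat_lit 0) (nat_lit 383738901) (nat_lit 836) (nat_lit 2193985277) (nat_lit 446) (nat_lit 1) (nat_lit 434) (nat_lit 1) (nat_lit 445) (nat_lit 1) (nat_lit 367) (nat_lit 337) (nat_lit 316))))) (XT.nd (nat_lit 156) (nat_lit 2432) (nat_lit 0) (XT.nd (nat_lit 78) (nat_lit 912) (nat_lit 0) (XT.lf (nat_lit 76) (nat_lit 2393961084) (nat_lit 0) (nat_lit 229942746) (nat_lit 912) (nat_lit 106067871) (nat_lit 434)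 (nat_lit 1) (nat_lit 433) (nat_lit 1) (nat_lit 445) (nat_lit 1) (nat_lit 368) (nat_lit 337) (nat_lit 315)) (XT.lf (nat_lit 76) (nat_lit 1463721753) (nat_lit 0) (nat_lit 657434038) (nat_lit 988) (nat_lit 572953032) (nat_lit 422) (nat_lit 1) (nat_lit 421) (nat_lit 1) (nat_lit 434) (nat_lit 1) (nat_lit 369) (nat_lit 337) (nat_lit 314))) (XT.nd (nat_lit 78) (nat_lit 1596) (nat_lit 0) (XT.lf (nat_lit 76) (nat_lit 551765451) (nat_lit 0) (nat_lit 1089584978) (nat_lit 912) (nat_lit 1017597848) (nat_lit 411) (nat_lit 1) (nat_lit 410) (nat_lit 1) (nat_lit 422) (nat_lit 1) (nat_lit 370) (nat_lit 337) (nat_lit 313)) (XT.nd (nat_lit 78) (nat_lit 760) (nat_lit 0) (XT.lf (nat_lit 912) (nat_lit 1096169648) (nat_lit 0) (nat_lit 1181529371) (nat_lit 836) (nat_lit 346730587) (nat_lit 411) (nat_lit 1) (nat_lit 399) (nat_lit 1) (nat_lit 410) (nat_lit 1) (nat_lit 371) (nat_lit 337) (nat_lit 312)) (XT.lf (nat_lit 836)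 (nat_lit 616162804) (nat_lit 0) (nat_lit 739760603) (nat_lit 760) (nat_lit 1234589091) (nat_lit 400) (nat_lit 1) (nat_lit 389) (nat_lit 1) (nat_lit 399) (nat_lit 1) (nat_lit 372) (nat_lit 337) (nat_lit 311))))))))
noncomputable def ec13 : XT := (XT.nd (nat_lit 51012) (nat_lit 0) (nat_lit 13680) (XT.nd (nat_lit 702) (nat_lit 4256) (nat_lit 0) (XT.nd (nat_lit 312) (nat_lit 2812) (nat_lit 0) (XT.nd (nat_lit 156) (nat_lit 1520) (nat_lit 0) (XT.nd (nat_lit 78) (nat_lit 76) (nat_lit 0) (XT.lf (nat_lit 836) (nat_lit 133385469) (nat_lit 0) (nat_lit 319117394) (nat_lit 760) (nat_lit 2104751948) (nat_lit 390) (nat_lit 1) (nat_lit 379) (nat_lit 1) (nat_lit 389) (nat_lit 1) (nat_lit 373) (nat_lit 337) (nat_lit 310)) (XT.lf (nat_lit 76) (nat_lit 2088812802) (nat_lit 0) (nat_lit 350614418) (nat_lit 836) (nat_lit 85101393) (nat_lit 379) (nat_lit 1) (nat_lit 378) (nat_lit 1) (nat_lit 389) (nat_lit 1) (nat_lit 374)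 (nat_lit 337) (nat_lit 309))) (XT.nd (nat_lit 78) (nat_lit 760) (nat_lit 0) (XT.lf (nat_lit 76) (nat_lit 1183290406) (nat_lit 0) (nat_lit 839790343) (nat_lit 836) (nat_lit 469238609) (nat_lit 369) (nat_lit 1) (nat_lit 368) (nat_lit 1) (nat_lit 379) (nat_lit 1) (nat_lit 375) (nat_lit 337) (nat_lit 308)) (XT.lf (nat_lit 76) (nat_lit 296009013) (nat_lit 0) (nat_lit 1330533070) (nat_lit 836) (nat_lit 834189860) (nat_lit 359) (nat_lit 1) (nat_lit 358) (nat_lit 1) (nat_lit 369) (nat_lit 1) (nat_lit 376) (nat_lit 337) (nat_lit 307)))) (XT.nd (nat_lit 156) (nat_lit 1444) (nat_lit 0) (XT.nd (nat_lit 78) (nat_lit 684) (nat_lit 0) (XT.lf (nat_lit 760) (nat_lit 603340660) (nat_lit 0) (nat_lit 1245392477) (nat_lit 684) (nat_lit 580944323) (nat_lit 359) (nat_lit 1) (nat_lit 349) (nat_lit 1) (nat_lit 358) (nat_lit 1) (nat_lit 377) (nat_lit 337) (nat_lit 306)) (XT.lf (nat_lit 760) (nat_lit 74186437) (nat_lit 0)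 (nat_lit 881054940) (nat_lit 684) (nat_lit 1443940191) (nat_lit 350) (nat_lit 1) (nat_lit 340) (nat_lit 1) (nat_lit 349) (nat_lit 1) (nat_lit 378) (nat_lit 337) (nat_lit 305))) (XT.nd (nat_lit 78) (nat_lit 684) (nat_lit 0) (XT.lf (nat_lit 76) (nat_lit 82888675) (nat_lit 0) (nat_lit 449069964) (nat_lit 760) (nat_lit 1837252602) (nat_lit 331) (nat_lit 1) (nat_lit 330) (nat_lit 1) (nat_lit 340) (nat_lit 1) (nat_lit 379) (nat_lit 337) (nat_lit 304)) (XT.nd (nat_lit 78) (nat_lit 0) (nat_lit 0) (XT.lf (nat_lit 760) (nat_lit 1363432139) (nat_lit 0) (nat_lit 194922898) (nat_lit 684) (nat_lit 781346877) (nat_lit 331) (nat_lit 1) (nat_lit 321) (nat_lit 1) (nat_lit 330) (nat_lit 1) (nat_lit 380) (nat_lit 337) (nat_lit 303)) (XT.lf (nat_lit 76) (nat_lit 682691791) (nat_lit 0) (nat_lit 1504340780) (nat_lit 760) (nat_lit 123694980) (nat_lit 322) (nat_lit 1) (nat_lit 321) (nat_lit 1) (nat_lit 331) (nat_lit 1) (nat_lit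 381) (nat_lit 337) (nat_lit 302)))))) (XT.nd (nat_lit 312) (nat_lit 1748) (nat_lit 0) (XT.nd (nat_lit 156) (nat_lit 1216) (nat_lit 0) (XT.nd (nat_lit 78) (nat_lit 684) (nat_lit 0) (XT.lf (nat_lit 684) (nat_lit 248237855) (nat_lit 0) (nat_lit 1857964808) (nat_lit 608) (nat_lit 176054671) (nat_lit 322) (nat_lit 1) (nat_lit 313) (nat_lit 1) (nat_lit 321) (nat_lit 1) (nat_lit 382) (nat_lit 337) (nat_lit 301)) (XT.lf (nat_lit 76) (nat_lit 1230288673) (nat_lit 0) (nat_lit 308738271) (nat_lit 684) (nat_lit 715172563) (nat_lit 305) (nat_lit 1) (nat_lit 304) (nat_lit 1) (nat_lit 313) (nat_lit 1) (nat_lit 383) (nat_lit 337) (nat_lit 300))) (XT.nd (nat_lit 78) (nat_lit 608) (nat_lit 0) (XT.lf (nat_lit 76) (nat_lit 374093117) (nat_lit 0) (nat_lit 860663042) (nat_lit 684) (nat_lit 991884804) (nat_lit 297) (nat_lit 1) (nat_lit 296) (nat_lit 1) (nat_lit 305) (nat_lit 1) (nat_lit 384) (nat_lit 337) (nat_lit 299))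 (XT.lf (nat_lit 684) (nat_lit 785852709) (nat_lit 0) (nat_lit 943210394) (nat_lit 608) (nat_lit 470478460) (nat_lit 297) (nat_lit 1) (nat_lit 288) (nat_lit 1) (nat_lit 296) (nat_lit 1) (nat_lit 385) (nat_lit 337) (nat_lit 298)))) (XT.nd (nat_lit 156) (nat_lit 532) (nat_lit 0) (XT.nd (nat_lit 78) (nat_lit 684) (nat_lit 0) (XT.lf (nat_lit 608) (nat_lit 205947224) (nat_lit 0) (nat_lit 664654346) (nat_lit 532) (nat_lit 1302302894) (nat_lit 289) (nat_lit 1) (nat_lit 281) (nat_lit 1) (nat_lit 288) (nat_lit 1) (nat_lit 386) (nat_lit 337) (nat_lit 297)) (XT.lf (nat_lit 76) (nat_lit 32460826) (nat_lit 0) (nat_lit 366231780) (nat_lit 684) (nat_lit 1748027291) (nat_lit 273) (nat_lit 1) (nat_lit 272) (nat_lit 1) (nat_lit 281) (nat_lit 1) (nat_lit 387) (nat_lit 337) (nat_lit 296))) (XT.nd (nat_lit 49686) (nat_lit 0) (nat_lit 17632) (XT.lf (nat_lit 608) (nat_lit 1182952314) (nat_lit 0) (nat_lit 140722507) (nat_lit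 532) (nat_lit 797220795) (nat_lit 273) (nat_lit 1) (nat_lit 265) (nat_lit 1) (nat_lit 272) (nat_lit 1) (nat_lit 388) (nat_lit 337) (nat_lit 295)) (XT.nd (nat_lit 78) (nat_lit 0) (nat_lit 76) (XT.lf (nat_lit 1900) (nat_lit 635785920) (nat_lit 0) (nat_lit 641102569) (nat_lit 1900) (nat_lit 635785920) (nat_lit 522) (nat_lit 1) (nat_lit 497) (nat_lit 0) (nat_lit 522) (nat_lit 0) (nat_lit 344) (nat_lit 338) (nat_lit 338)) (XT.lf (nat_lit 1900) (nat_lit 293882054) (nat_lit 0) (nat_lit 1275669053) (nat_lit 1824) (nat_lit 2199846011) (nat_lit 523) (nat_lit 1) (nat_lit 498) (nat_lit 1) (nat_lit 522) (nat_lit 1) (nat_lit 345) (nat_lit 338) (nat_lit 337))))))) (XT.nd (nat_lit 702) (nat_lit 4028) (nat_lit 0) (XT.nd (nat_lit 312) (nat_lit 0) (nat_lit 228) (XT.nd (nat_lit 156) (nat_lit 0) (nat_lit 152) (XT.nd (nat_lit 78) (nat_lit 0) (nat_lit 76) (XT.lf (nat_lit 1900) (nat_lit 2416877326) (nat_lit 76) (nat_lit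 621414893) (nat_lit 0) (nat_lit 676216695) (nat_lit 523) (nat_lit 1) (nat_lit 499) (nat_lit 1) (nat_lit 498) (nat_lit 1) (nat_lit 346) (nat_lit 338) (nat_lit 336)) (XT.lf (nat_lit 1900) (nat_lit 2028917624) (nat_lit 0) (nat_lit 1346353718) (nat_lit 1824) (nat_lit 285400069) (nat_lit 524) (nat_lit 1) (nat_lit 499) (nat_lit 1) (nat_lit 523) (nat_lit 1) (nat_lit 347) (nat_lit 338) (nat_lit 335))) (XT.nd (nat_lit 78) (nat_lit 0) (nat_lit 76) (XT.lf (nat_lit 1900) (nat_lit 1040850679) (nat_lit 0) (nat_lit 1420795014) (nat_lit 1824) (nat_lit 1146213533) (nat_lit 525) (nat_lit 1) (nat_lit 500) (nat_lit 1) (nat_lit 524) (nat_lit 1) (nat_lit 348) (nat_lit 338) (nat_lit 334)) (XT.lf (nat_lit 1900) (nat_lit 69903505) (nat_lit 0) (nat_lit 1515948324) (nat_lit 1824) (nat_lit 1970275824) (nat_lit 526) (nat_lit 1) (nat_lit 501) (nat_lit 1) (nat_lit 525) (nat_lit 1) (nat_lit 349) (nat_lit 338) (nat_lit 333)))) (XT.nd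 (nat_lit 156) (nat_lit 0) (nat_lit 152) (XT.nd (nat_lit 78) (nat_lit 0) (nat_lit 76) (XT.lf (nat_lit 1900) (nat_lit 1868644250) (nat_lit 76) (nat_lit 740861744) (nat_lit 0) (nat_lit 895829610) (nat_lit 526) (nat_lit 1) (nat_lit 502) (nat_lit 1) (nat_lit 501) (nat_lit 1) (nat_lit 350) (nat_lit 338) (nat_lit 332)) (XT.lf (nat_lit 1900) (nat_lit 1610549678) (nat_lit 0) (nat_lit 1777098117) (nat_lit 1824) (nat_lit 67911529) (nat_lit 527) (nat_lit 1) (nat_lit 502) (nat_lit 1) (nat_lit 526) (nat_lit 1) (nat_lit 351) (nat_lit 338) (nat_lit 331))) (XT.nd (nat_lit 78) (nat_lit 0) (nat_lit 0) (XT.lf (nat_lit 1900) (nat_lit 634049467) (nat_lit 0) (nat_lit 1939973542) (nat_lit 1824) (nat_lit 832678666) (nat_lit 528) (nat_lit 1) (nat_lit 503) (nat_lit 1) (nat_lit 527) (nat_lit 1) (nat_lit 352) (nat_lit 338) (nat_lit 330)) (XT.nd (nat_lit 78) (nat_lit 0) (nat_lit 76) (XT.lf (nat_lit 1900) (nat_lit 1236983065)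 (nat_lit 76) (nat_lit 1792501820) (nat_lit 0) (nat_lit 329308082) (nat_lit 528) (nat_lit 1) (nat_lit 504) (nat_lit 1) (nat_lit 503) (nat_lit 1) (nat_lit 353) (nat_lit 338) (nat_lit 329)) (XT.lf (nat_lit 1900) (nat_lit 988051463) (nat_lit 76) (nat_lit 1040133652) (nat_lit 0) (nat_lit 1283587128) (nat_lit 529) (nat_lit 1) (nat_lit 505) (nat_lit 1) (nat_lit 504) (nat_lit 1) (nat_lit 354) (nat_lit 338) (nat_lit 328)))))) (XT.nd (nat_lit 390) (nat_lit 2812) (nat_lit 0) (XT.nd (nat_lit 156) (nat_lit 1748) (nat_lit 0) (XT.nd (nat_lit 78) (nat_lit 0) (nat_lit 76) (XT.lf (nat_lit 1900) (nat_lit 724942279) (nat_lit 76) (nat_lit 320206224) (nat_lit 0) (nat_lit 2220552396) (nat_lit 530) (nat_lit 1) (nat_lit 506) (nat_lit 1) (nat_lit 505) (nat_lit 1) (nat_lit 355) (nat_lit 338) (nat_lit 327)) (XT.lf (nat_lit 1900) (nat_lit 82551646) (nat_lit 0) (nat_lit 2774565705) (nat_lit 1824) (nat_lit 363392271) (nat_lit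 531) (nat_lit 1) (nat_lit 506) (nat_lit 1) (nat_lit 530) (nat_lit 1) (nat_lit 356) (nat_lit 338) (nat_lit 326))) (XT.nd (nat_lit 78) (nat_lit 1824) (nat_lit 0) (XT.lf (nat_lit 1900) (nat_lit 146504293) (nat_lit 76) (nat_lit 2157805900) (nat_lit 0) (nat_lit 871764258) (nat_lit 531) (nat_lit 1) (nat_lit 507) (nat_lit 1) (nat_lit 506) (nat_lit 1) (nat_lit 357) (nat_lit 338) (nat_lit 325)) (XT.nd (nat_lit 78) (nat_lit 0) (nat_lit 76) (XT.lf (nat_lit 1976) (nat_lit 1324073404) (nat_lit 0) (nat_lit 163083181) (nat_lit 1900) (nat_lit 1645342981) (nat_lit 508) (nat_lit 1) (nat_lit 482) (nat_lit 1) (nat_lit 507) (nat_lit 1) (nat_lit 358) (nat_lit 338) (nat_lit 324)) (XT.lf (nat_lit 1976) (nat_lit 363175415) (nat_lit 0) (nat_lit 481721146) (nat_lit 1900) (nat_lit 2244880161) (nat_lit 509) (nat_lit 1) (nat_lit 483) (nat_lit 1) (nat_lit 508) (nat_lit 1) (nat_lit 359) (nat_lit 338) (nat_lit 323))))) (XT.nd (nat_lit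 156) (nat_lit 2888) (nat_lit 0) (XT.nd (nat_lit 78) (nat_lit 0) (nat_lit 76) (XT.lf (nat_lit 1976) (nat_lit 2233296795) (nat_lit 76) (nat_lit 227257088) (nat_lit 0) (nat_lit 587275268) (nat_lit 509) (nat_lit 1) (nat_lit 484) (nat_lit 1) (nat_lit 483) (nat_lit 1) (nat_lit 360) (nat_lit 338) (nat_lit 322)) (XT.lf (nat_lit 76) (nat_lit 1484635834) (nat_lit 0) (nat_lit 1161756164) (nat_lit 1900) (nat_lit 360229236) (nat_lit 485) (nat_lit 1) (nat_lit 484) (nat_lit 1) (nat_lit 509) (nat_lit 1) (nat_lit 361) (nat_lit 338) (nat_lit 321))) (XT.nd (nat_lit 78) (nat_lit 1824) (nat_lit 0) (XT.lf (nat_lit 76) (nat_lit 528743048) (nat_lit 0) (nat_lit 1519367882) (nat_lit 1216) (nat_lit 918092592) (nat_lit 470) (nat_lit 1) (nat_lit 469) (nat_lit 1) (nat_lit 485) (nat_lit 1) (nat_lit 362) (nat_lit 338) (nat_lit 320)) (XT.nd (nat_lit 78) (nat_lit 912) (nat_lit 0) (XT.lf (nat_lit 988) (nat_lit 1038491067) (nat_lit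 0) (nat_lit 1473755492) (nat_lit 912) (nat_lit 414286892) (nat_lit 470) (nat_lit 1) (nat_lit 457) (nat_lit 1) (nat_lit 469) (nat_lit 1) (nat_lit 363) (nat_lit 338) (nat_lit 319)) (XT.lf (nat_lit 988) (nat_lit 619649239) (nat_lit 0) (nat_lit 921870457) (nat_lit 912) (nat_lit 1346060090) (nat_lit 458) (nat_lit 1) (nat_lit 445) (nat_lit 1) (nat_lit 457) (nat_lit 1) (nat_lit 364) (nat_lit 338) (nat_lit 318))))))))
noncomputable def ec14 : XT := (XT.nd (nat_lit 1404) (nat_lit 2964) (nat_lit 0) (XT.nd (nat_lit 702) (nat_lit 5472) (nat_lit 0) (XT.nd (nat_lit 312) (nat_lit 3192) (nat_lit 0) (XT.nd (nat_lit 156) (nat_lit 1748) (nat_lit 0) (XT.nd (nat_lit 78) (nat_lit 76) (nat_lit 0) (XT.lf (nat_lit 912) (nat_lit 194338750) (nat_lit 0) (nat_lit 395251068) (nat_lit 836) (nat_lit 2259804836) (nat_lit 446) (nat_lit 1) (nat_lit 434) (nat_lit 1) (nat_lit 445) (nat_lit 1) (nat_lit 365) (nat_lit 338) (nat_lit 317))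 (XT.lf (nat_lit 76) (nat_lit 2465779917) (nat_lit 0) (nat_lit 236841029) (nat_lit 912) (nat_lit 109249907) (nat_lit 434) (nat_lit 1) (nat_lit 433) (nat_lit 1) (nat_lit 445) (nat_lit 1) (nat_lit 366) (nat_lit 338) (nat_lit 316))) (XT.nd (nat_lit 78) (nat_lit 836) (nat_lit 0) (XT.lf (nat_lit 76) (nat_lit 1507633405) (nat_lit 0) (nat_lit 677157059) (nat_lit 988) (nat_lit 590141622) (nat_lit 422) (nat_lit 1) (nat_lit 421) (nat_lit 1) (nat_lit 434) (nat_lit 1) (nat_lit 367) (nat_lit 338) (nat_lit 315)) (XT.lf (nat_lit 76) (nat_lit 568318414) (nat_lit 0) (nat_lit 1122272527) (nat_lit 912) (nat_lit 1048125784) (nat_lit 411) (nat_lit 1) (nat_lit 410) (nat_lit 1) (nat_lit 422) (nat_lit 1) (nat_lit 368) (nat_lit 338) (nat_lit 314)))) (XT.nd (nat_lit 156) (nat_lit 1596) (nat_lit 0) (XT.nd (nat_lit 78) (nat_lit 760) (nat_lit 0) (XT.lf (nat_lit 912) (nat_lit 1129054737) (nat_lit 0) (nat_lit 1216975252) (nat_lit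 836) (nat_lit 357132504) (nat_lit 411) (nat_lit 1) (nat_lit 399) (nat_lit 1) (nat_lit 410) (nat_lit 1) (nat_lit 369) (nat_lit 338) (nat_lit 313)) (XT.lf (nat_lit 836) (nat_lit 634647688) (nat_lit 0) (nat_lit 761953421) (nat_lit 760) (nat_lit 1271626764) (nat_lit 400) (nat_lit 1) (nat_lit 389) (nat_lit 1) (nat_lit 399) (nat_lit 1) (nat_lit 370) (nat_lit 338) (nat_lit 312))) (XT.nd (nat_lit 78) (nat_lit 836) (nat_lit 0) (XT.lf (nat_lit 836) (nat_lit 137387033) (nat_lit 0) (nat_lit 328690916) (nat_lit 760) (nat_lit 2167894507) (nat_lit 390) (nat_lit 1) (nat_lit 379) (nat_lit 1) (nat_lit 389) (nat_lit 1) (nat_lit 371) (nat_lit 338) (nat_lit 311)) (XT.nd (nat_lit 78) (nat_lit 760) (nat_lit 0) (XT.lf (nat_lit 76) (nat_lit 2151477186) (nat_lit 0) (nat_lit 361132851) (nat_lit 836) (nat_lit 87654435) (nat_lit 379) (nat_lit 1) (nat_lit 378) (nat_lit 1) (nat_lit 389) (nat_lit 1) (nat_lit 372) (nat_lit 338)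 (nat_lit 310)) (XT.lf (nat_lit 76) (nat_lit 1218789118) (nat_lit 0) (nat_lit 864984053) (nat_lit 836) (nat_lit 483315767) (nat_lit 369) (nat_lit 1) (nat_lit 368) (nat_lit 1) (nat_lit 379) (nat_lit 1) (nat_lit 373) (nat_lit 338) (nat_lit 309)))))) (XT.nd (nat_lit 312) (nat_lit 2584) (nat_lit 0) (XT.nd (nat_lit 156) (nat_lit 1444) (nat_lit 0) (XT.nd (nat_lit 78) (nat_lit 684) (nat_lit 0) (XT.lf (nat_lit 76) (nat_lit 304889284) (nat_lit 0) (nat_lit 1370449062) (nat_lit 836) (nat_lit 859215556) (nat_lit 359) (nat_lit 1) (nat_lit 358) (nat_lit 1) (nat_lit 369) (nat_lit 1) (nat_lit 374) (nat_lit 338) (nat_lit 308)) (XT.lf (nat_lit 760) (nat_lit 621440880) (nat_lit 0) (nat_lit 1282754251) (nat_lit 684) (nat_lit 598372653) (nat_lit 359) (nat_lit 1) (nat_lit 349) (nat_lit 1) (nat_lit 358) (nat_lit 1) (nat_lit 375) (nat_lit 338) (nat_lit 307))) (XT.nd (nat_lit 78) (nat_lit 760) (nat_lit 0) (XT.lf (nat_lit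 760) (nat_lit 76412030) (nat_lit 0) (nat_lit 907486588) (nat_lit 684) (nat_lit 1487258397) (nat_lit 350) (nat_lit 1) (nat_lit 340) (nat_lit 1) (nat_lit 349) (nat_lit 1) (nat_lit 376) (nat_lit 338) (nat_lit 306)) (XT.lf (nat_lit 76) (nat_lit 85375335) (nat_lit 0) (nat_lit 462542063) (nat_lit 760) (nat_lit 1892370180) (nat_lit 331) (nat_lit 1) (nat_lit 330) (nat_lit 1) (nat_lit 340) (nat_lit 1) (nat_lit 377) (nat_lit 338) (nat_lit 305)))) (XT.nd (nat_lit 156) (nat_lit 1900) (nat_lit 0) (XT.nd (nat_lit 78) (nat_lit 0) (nat_lit 0) (XT.lf (nat_lit 760) (nat_lit 1404335103) (nat_lit 0) (nat_lit 200770585) (nat_lit 684) (nat_lit 804787283) (nat_lit 331) (nat_lit 1) (nat_lit 321) (nat_lit 1) (nat_lit 330) (nat_lit 1) (nat_lit 378) (nat_lit 338) (nat_lit 304)) (XT.lf (nat_lit 76) (nat_lit 703172545) (nat_lit 0) (nat_lit 1549471003) (nat_lit 760) (nat_lit 127405829) (nat_lit 322) (nat_lit 1) (nat_lit 321)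 (nat_lit 1) (nat_lit 331) (nat_lit 1) (nat_lit 379) (nat_lit 338) (nat_lit 303))) (XT.nd (nat_lit 78) (nat_lit 1292) (nat_lit 0) (XT.lf (nat_lit 684) (nat_lit 255684990) (nat_lit 0) (nat_lit 1913703753) (nat_lit 608) (nat_lit 181336311) (nat_lit 322) (nat_lit 1) (nat_lit 313) (nat_lit 1) (nat_lit 321) (nat_lit 1) (nat_lit 380) (nat_lit 338) (nat_lit 302)) (XT.nd (nat_lit 78) (nat_lit 608) (nat_lit 0) (XT.lf (nat_lit 76) (nat_lit 1267197334) (nat_lit 0) (nat_lit 318000420) (nat_lit 684) (nat_lit 736627740) (nat_lit 305) (nat_lit 1) (nat_lit 304) (nat_lit 1) (nat_lit 313) (nat_lit 1) (nat_lit 381) (nat_lit 338) (nat_lit 301)) (XT.lf (nat_lit 76) (nat_lit 385315910) (nat_lit 0) (nat_lit 886482933) (nat_lit 684) (nat_lit 1021641348) (nat_lit 297) (nat_lit 1) (nat_lit 296) (nat_lit 1) (nat_lit 305) (nat_lit 1) (nat_lit 382) (nat_lit 338) (nat_lit 300))))))) (XT.nd (nat_lit 50154) (nat_lit 0) (nat_lit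 18392) (XT.nd (nat_lit 312) (nat_lit 608) (nat_lit 0) (XT.nd (nat_lit 156) (nat_lit 1216) (nat_lit 0) (XT.nd (nat_lit 78) (nat_lit 532) (nat_lit 0) (XT.lf (nat_lit 684) (nat_lit 809428290) (nat_lit 0) (nat_lit 971506706) (nat_lit 608) (nat_lit 484592814) (nat_lit 297) (nat_lit 1) (nat_lit 288) (nat_lit 1) (nat_lit 296) (nat_lit 1) (nat_lit 383) (nat_lit 338) (nat_lit 299)) (XT.lf (nat_lit 608) (nat_lit 212125640) (nat_lit 0) (nat_lit 684593976) (nat_lit 532) (nat_lit 1341371981) (nat_lit 289) (nat_lit 1) (nat_lit 281) (nat_lit 1) (nat_lit 288) (nat_lit 1) (nat_lit 384) (nat_lit 338) (nat_lit 298))) (XT.nd (nat_lit 78) (nat_lit 532) (nat_lit 0) (XT.lf (nat_lit 76) (nat_lit 33434651) (nat_lit 0) (nat_lit 377218733) (nat_lit 684) (nat_lit 1800468109) (nat_lit 273) (nat_lit 1) (nat_lit 272) (nat_lit 1) (nat_lit 281) (nat_lit 1) (nat_lit 385) (nat_lit 338) (nat_lit 297)) (XT.lf (nat_lit 608) (nat_lit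 1218440884) (nat_lit 0) (nat_lit 144944182) (nat_lit 532) (nat_lit 821137419) (nat_lit 273) (nat_lit 1) (nat_lit 265) (nat_lit 1) (nat_lit 272) (nat_lit 1) (nat_lit 386) (nat_lit 338) (nat_lit 296)))) (XT.nd (nat_lit 49608) (nat_lit 0) (nat_lit 18240) (XT.nd (nat_lit 78) (nat_lit 608) (nat_lit 0) (XT.lf (nat_lit 76) (nat_lit 500973366) (nat_lit 0) (nat_lit 1552589181) (nat_lit 608) (nat_lit 104839736) (nat_lit 266) (nat_lit 1) (nat_lit 265) (nat_lit 1) (nat_lit 273) (nat_lit 1) (nat_lit 387) (nat_lit 338) (nat_lit 295)) (XT.lf (nat_lit 76) (nat_lit 1785794117) (nat_lit 0) (nat_lit 6037227) (nat_lit 608) (nat_lit 340874525) (nat_lit 258) (nat_lit 1) (nat_lit 257) (nat_lit 1) (nat_lit 265) (nat_lit 1) (nat_lit 388) (nat_lit 338) (nat_lit 294))) (XT.nd (nat_lit 78) (nat_lit 0) (nat_lit 76) (XT.lf (nat_lit 1900) (nat_lit 654859497) (nat_lit 0) (nat_lit 660335646) (nat_lit 1900) (nat_lit 654859497) (nat_lit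 522) (nat_lit 1) (nat_lit 497) (nat_lit 0) (nat_lit 522) (nat_lit 0) (nat_lit 342) (nat_lit 339) (nat_lit 339)) (XT.nd (nat_lit 78) (nat_lit 0) (nat_lit 0) (XT.lf (nat_lit 1900) (nat_lit 302698516) (nat_lit 0) (nat_lit 1313939125) (nat_lit 1824) (nat_lit 2265841391) (nat_lit 523) (nat_lit 1) (nat_lit 498) (nat_lit 1) (nat_lit 522) (nat_lit 1) (nat_lit 343) (nat_lit 339) (nat_lit 338)) (XT.lf (nat_lit 1900) (nat_lit 2489383646) (nat_lit 76) (nat_lit 640057340) (nat_lit 0) (nat_lit 696503196) (nat_lit 523) (nat_lit 1) (nat_lit 499) (nat_lit 1) (nat_lit 498) (nat_lit 1) (nat_lit 344) (nat_lit 339) (nat_lit 337)))))) (XT.nd (nat_lit 390) (nat_lit 0) (nat_lit 304) (XT.nd (nat_lit 156) (nat_lit 0) (nat_lit 152) (XT.nd (nat_lit 78) (nat_lit 0) (nat_lit 76) (XT.lf (nat_lit 1900) (nat_lit 2089785153) (nat_lit 0) (nat_lit 1386744330) (nat_lit 1824) (nat_lit 293962072) (nat_lit 524) (nat_lit 1) (nat_lit 499)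 (nat_lit 1) (nat_lit 523) (nat_lit 1) (nat_lit 345) (nat_lit 339) (nat_lit 336)) (XT.lf (nat_lit 1900) (nat_lit 1072076199) (nat_lit 0) (nat_lit 1463418864) (nat_lit 1824) (nat_lit 1180599939) (nat_lit 525) (nat_lit 1) (nat_lit 500) (nat_lit 1) (nat_lit 524) (nat_lit 1) (nat_lit 346) (nat_lit 339) (nat_lit 335))) (XT.nd (nat_lit 78) (nat_lit 0) (nat_lit 0) (XT.lf (nat_lit 1900) (nat_lit 72000611) (nat_lit 0) (nat_lit 1561426774) (nat_lit 1824) (nat_lit 2029384099) (nat_lit 526) (nat_lit 1) (nat_lit 501) (nat_lit 1) (nat_lit 525) (nat_lit 1) (nat_lit 347) (nat_lit 339) (nat_lit 334)) (XT.nd (nat_lit 78) (nat_lit 0) (nat_lit 76) (XT.lf (nat_lit 1900) (nat_lit 1924703577) (nat_lit 76) (nat_lit 763087596) (nat_lit 0) (nat_lit 922704499) (nat_lit 526) (nat_lit 1) (nat_lit 502) (nat_lit 1) (nat_lit 501) (nat_lit 1) (nat_lit 348) (nat_lit 339) (nat_lit 333)) (XT.lf (nat_lit 1900) (nat_lit 1658866168) (nat_lit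 0) (nat_lit 1830411061) (nat_lit 1824) (nat_lit 69948875) (nat_lit 527) (nat_lit 1) (nat_lit 502) (nat_lit 1) (nat_lit 526) (nat_lit 1) (nat_lit 349) (nat_lit 339) (nat_lit 332))))) (XT.nd (nat_lit 156) (nat_lit 0) (nat_lit 76) (XT.nd (nat_lit 78) (nat_lit 0) (nat_lit 0) (XT.lf (nat_lit 1900) (nat_lit 653070951) (nat_lit 0) (nat_lit 1998172748) (nat_lit 1824) (nat_lit 857659026) (nat_lit 528) (nat_lit 1) (nat_lit 503) (nat_lit 1) (nat_lit 527) (nat_lit 1) (nat_lit 350) (nat_lit 339) (nat_lit 331)) (XT.lf (nat_lit 1900) (nat_lit 1274092557) (nat_lit 76) (nat_lit 1846276875) (nat_lit 0) (nat_lit 339187324) (nat_lit 528) (nat_lit 1) (nat_lit 504) (nat_lit 1) (nat_lit 503) (nat_lit 1) (nat_lit 351) (nat_lit 339) (nat_lit 330))) (XT.nd (nat_lit 78) (nat_lit 0) (nat_lit 76) (XT.lf (nat_lit 1900) (nat_lit 1017693007) (nat_lit 76) (nat_lit 1071337662) (nat_lit 0) (nat_lit 1322094741) (nat_lit 529) (nat_lit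 1) (nat_lit 505) (nat_lit 1) (nat_lit 504) (nat_lit 1) (nat_lit 352) (nat_lit 339) (nat_lit 329)) (XT.nd (nat_lit 78) (nat_lit 0) (nat_lit 76) (XT.lf (nat_lit 1900) (nat_lit 746690547) (nat_lit 76) (nat_lit 329812411) (nat_lit 0) (nat_lit 2287168968) (nat_lit 530) (nat_lit 1) (nat_lit 506) (nat_lit 1) (nat_lit 505) (nat_lit 1) (nat_lit 353) (nat_lit 339) (nat_lit 328)) (XT.lf (nat_lit 1900) (nat_lit 85028196) (nat_lit 0) (nat_lit 2857802676) (nat_lit 1824) (nat_lit 374294039) (nat_lit 531) (nat_lit 1) (nat_lit 506) (nat_lit 1) (nat_lit 530) (nat_lit 1) (nat_lit 354) (nat_lit 339) (nat_lit 327))))))))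
noncomputable def ec15 : XT := (XT.nd (nat_lit 1404) (nat_lit 8208) (nat_lit 0) (XT.nd (nat_lit 702) (nat_lit 5776) (nat_lit 0) (XT.nd (nat_lit 312) (nat_lit 3648) (nat_lit 0) (XT.nd (nat_lit 156) (nat_lit 0) (nat_lit 76) (XT.nd (nat_lit 78) (nat_lit 1824) (nat_lit 0) (XT.lf (nat_lit 1900) (nat_lit 150899422) (nat_lit 76) (nat_lit 2222540077) (nat_lit 0) (nat_lit 897917186) (nat_lit 531) (nat_lit 1) (nat_lit 507) (nat_lit 1) (nat_lit 506) (nat_lit 1) (nat_lit 355) (nat_lit 339) (nat_lit 326)) (XT.lf (nat_lit 1976) (nat_lit 1363795606) (nat_lit 0) (nat_lit 167975677) (nat_lit 1900) (nat_lit 1694703270) (nat_lit 508) (nat_lit 1) (nat_lit 482) (nat_lit 1) (nat_lit 507) (nat_lit 1) (nat_lit 356) (nat_lit 339) (nat_lit 325))) (XT.nd (nat_lit 78) (nat_lit 0) (nat_lit 0) (XT.lf (nat_lit 1976) (nat_lit 374070677) (nat_lit 0) (nat_lit 496172781) (nat_lit 1900) (nat_lit 2312226566) (nat_lit 509) (nat_lit 1)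 (nat_lit 483) (nat_lit 1) (nat_lit 508) (nat_lit 1) (nat_lit 357) (nat_lit 339) (nat_lit 324)) (XT.lf (nat_lit 1976) (nat_lit 2300295699) (nat_lit 76) (nat_lit 234074801) (nat_lit 0) (nat_lit 604893526) (nat_lit 509) (nat_lit 1) (nat_lit 484) (nat_lit 1) (nat_lit 483) (nat_lit 1) (nat_lit 358) (nat_lit 339) (nat_lit 323)))) (XT.nd (nat_lit 156) (nat_lit 2660) (nat_lit 0) (XT.nd (nat_lit 78) (nat_lit 1140) (nat_lit 0) (XT.lf (nat_lit 76) (nat_lit 1529174909) (nat_lit 0) (nat_lit 1196608849) (nat_lit 1900) (nat_lit 371036113) (nat_lit 485) (nat_lit 1) (nat_lit 484) (nat_lit 1) (nat_lit 509) (nat_lit 1) (nat_lit 359) (nat_lit 339) (nat_lit 322)) (XT.lf (nat_lit 76) (nat_lit 544605340) (nat_lit 0) (nat_lit 1564948919) (nat_lit 1216) (nat_lit 945635369) (nat_lit 470) (nat_lit 1) (nat_lit 469) (nat_lit 1) (nat_lit 485) (nat_lit 1) (nat_lit 360) (nat_lit 339) (nat_lit 321))) (XT.nd (nat_lit 78) (nat_lit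 1748) (nat_lit 0) (XT.lf (nat_lit 988) (nat_lit 1069645799) (nat_lit 0) (nat_lit 1517968157) (nat_lit 912) (nat_lit 426715499) (nat_lit 470) (nat_lit 1) (nat_lit 457) (nat_lit 1) (nat_lit 469) (nat_lit 1) (nat_lit 361) (nat_lit 339) (nat_lit 320)) (XT.nd (nat_lit 78) (nat_lit 836) (nat_lit 0) (XT.lf (nat_lit 988) (nat_lit 638238716) (nat_lit 0) (nat_lit 949526571) (nat_lit 912) (nat_lit 1386441893) (nat_lit 458) (nat_lit 1) (nat_lit 445) (nat_lit 1) (nat_lit 457) (nat_lit 1) (nat_lit 362) (nat_lit 339) (nat_lit 319)) (XT.lf (nat_lit 912) (nat_lit 200168913) (nat_lit 0) (nat_lit 407108600) (nat_lit 836) (nat_lit 2327598981) (nat_lit 446) (nat_lit 1) (nat_lit 434) (nat_lit 1) (nat_lit 445) (nat_lit 1) (nat_lit 363) (nat_lit 339) (nat_lit 318)))))) (XT.nd (nat_lit 312) (nat_lit 3116) (nat_lit 0) (XT.nd (nat_lit 156) (nat_lit 1672) (nat_lit 0) (XT.nd (nat_lit 78) (nat_lit 912) (nat_lit 0) (XT.lf (nat_lit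 76) (nat_lit 2539753314) (nat_lit 0) (nat_lit 243946260) (nat_lit 912) (nat_lit 112527404) (nat_lit 434) (nat_lit 1) (nat_lit 433) (nat_lit 1) (nat_lit 445) (nat_lit 1) (nat_lit 364) (nat_lit 339) (nat_lit 317)) (XT.lf (nat_lit 76) (nat_lit 1552862408) (nat_lit 0) (nat_lit 697471771) (nat_lit 988) (nat_lit 607845871) (nat_lit 422) (nat_lit 1) (nat_lit 421) (nat_lit 1) (nat_lit 434) (nat_lit 1) (nat_lit 365) (nat_lit 339) (nat_lit 316))) (XT.nd (nat_lit 78) (nat_lit 836) (nat_lit 0) (XT.lf (nat_lit 76) (nat_lit 585367967) (nat_lit 0) (nat_lit 1155940703) (nat_lit 912) (nat_lit 1079569557) (nat_lit 411) (nat_lit 1) (nat_lit 410) (nat_lit 1) (nat_lit 422) (nat_lit 1) (nat_lit 366) (nat_lit 339) (nat_lit 315)) (XT.lf (nat_lit 912) (nat_lit 1162926379) (nat_lit 0) (nat_lit 1253484510) (nat_lit 836) (nat_lit 367846479) (nat_lit 411) (nat_lit 1) (nat_lit 399) (nat_lit 1) (nat_lit 410) (nat_lit 1) (nat_lit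 367) (nat_lit 339) (nat_lit 314)))) (XT.nd (nat_lit 156) (nat_lit 1596) (nat_lit 0) (XT.nd (nat_lit 78) (nat_lit 760) (nat_lit 0) (XT.lf (nat_lit 836) (nat_lit 653687119) (nat_lit 0) (nat_lit 784812024) (nat_lit 760) (nat_lit 1309775567) (nat_lit 400) (nat_lit 1) (nat_lit 389) (nat_lit 1) (nat_lit 399) (nat_lit 1) (nat_lit 368) (nat_lit 339) (nat_lit 313)) (XT.lf (nat_lit 836) (nat_lit 141508644) (nat_lit 0) (nat_lit 338551643) (nat_lit 760) (nat_lit 2232931342) (nat_lit 390) (nat_lit 1) (nat_lit 379) (nat_lit 1) (nat_lit 389) (nat_lit 1) (nat_lit 369) (nat_lit 339) (nat_lit 312))) (XT.nd (nat_lit 78) (nat_lit 1520) (nat_lit 0) (XT.lf (nat_lit 76) (nat_lit 2216021502) (nat_lit 0) (nat_lit 371966836) (nat_lit 836) (nat_lit 90284068) (nat_lit 379) (nat_lit 1) (nat_lit 378) (nat_lit 1) (nat_lit 389) (nat_lit 1) (nat_lit 370) (nat_lit 339) (nat_lit 311)) (XT.nd (nat_lit 78) (nat_lit 760) (nat_lit 0)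 (XT.lf (nat_lit 76) (nat_lit 1255352791) (nat_lit 0) (nat_lit 890933575) (nat_lit 836) (nat_lit 497815240) (nat_lit 369) (nat_lit 1) (nat_lit 368) (nat_lit 1) (nat_lit 379) (nat_lit 1) (nat_lit 371) (nat_lit 339) (nat_lit 310)) (XT.lf (nat_lit 76) (nat_lit 314035962) (nat_lit 0) (nat_lit 1411562534) (nat_lit 836) (nat_lit 884992023) (nat_lit 359) (nat_lit 1) (nat_lit 358) (nat_lit 1) (nat_lit 369) (nat_lit 1) (nat_lit 372) (nat_lit 339) (nat_lit 309))))))) (XT.nd (nat_lit 702) (nat_lit 2888) (nat_lit 0) (XT.nd (nat_lit 312) (nat_lit 2508) (nat_lit 0) (XT.nd (nat_lit 156) (nat_lit 1444) (nat_lit 0) (XT.nd (nat_lit 78) (nat_lit 684) (nat_lit 0) (XT.lf (nat_lit 760) (nat_lit 640084107) (nat_lit 0) (nat_lit 1321236879) (nat_lit 684) (nat_lit 616323832) (nat_lit 359) (nat_lit 1) (nat_lit 349) (nat_lit 1) (nat_lit 358) (nat_lit 1) (nat_lit 373) (nat_lit 339) (nat_lit 308)) (XT.lf (nat_lit 760) (nat_lit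 78704391) (nat_lit 0) (nat_lit 934711185) (nat_lit 684) (nat_lit 1531876149) (nat_lit 350) (nat_lit 1) (nat_lit 340) (nat_lit 1) (nat_lit 349) (nat_lit 1) (nat_lit 374) (nat_lit 339) (nat_lit 307))) (XT.nd (nat_lit 78) (nat_lit 684) (nat_lit 0) (XT.lf (nat_lit 76) (nat_lit 87936595) (nat_lit 0) (nat_lit 476418325) (nat_lit 760) (nat_lit 1949141286) (nat_lit 331) (nat_lit 1) (nat_lit 330) (nat_lit 1) (nat_lit 340) (nat_lit 1) (nat_lit 375) (nat_lit 339) (nat_lit 306)) (XT.lf (nat_lit 760) (nat_lit 1446465156) (nat_lit 0) (nat_lit 206793703) (nat_lit 684) (nat_lit 828930902) (nat_lit 331) (nat_lit 1) (nat_lit 321) (nat_lit 1) (nat_lit 330) (nat_lit 1) (nat_lit 376) (nat_lit 339) (nat_lit 305)))) (XT.nd (nat_lit 156) (nat_lit 1900) (nat_lit 0) (XT.nd (nat_lit 78) (nat_lit 608) (nat_lit 0) (XT.lf (nat_lit 76) (nat_lit 724267722) (nat_lit 0) (nat_lit 1595955133) (nat_lit 760) (nat_lit 131228004) (nat_lit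 322) (nat_lit 1) (nat_lit 321) (nat_lit 1) (nat_lit 331) (nat_lit 1) (nat_lit 377) (nat_lit 339) (nat_lit 304)) (XT.lf (nat_lit 684) (nat_lit 263355540) (nat_lit 0) (nat_lit 1971114865) (nat_lit 608) (nat_lit 186776400) (nat_lit 322) (nat_lit 1) (nat_lit 313) (nat_lit 1) (nat_lit 321) (nat_lit 1) (nat_lit 378) (nat_lit 339) (nat_lit 303))) (XT.nd (nat_lit 78) (nat_lit 1216) (nat_lit 0) (XT.lf (nat_lit 76) (nat_lit 1305213254) (nat_lit 0) (nat_lit 327540432) (nat_lit 684) (nat_lit 758726572) (nat_lit 305) (nat_lit 1) (nat_lit 304) (nat_lit 1) (nat_lit 313) (nat_lit 1) (nat_lit 379) (nat_lit 339) (nat_lit 302)) (XT.nd (nat_lit 78) (nat_lit 608) (nat_lit 0) (XT.lf (nat_lit 76) (nat_lit 396875388) (nat_lit 0) (nat_lit 913077421) (nat_lit 684) (nat_lit 1052290588) (nat_lit 297) (nat_lit 1) (nat_lit 296) (nat_lit 1) (nat_lit 305) (nat_lit 1) (nat_lit 380) (nat_lit 339) (nat_lit 301)) (XT.lf (nat_lit 684)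 (nat_lit 833711139) (nat_lit 0) (nat_lit 1000651907) (nat_lit 608) (nat_lit 499130598) (nat_lit 297) (nat_lit 1) (nat_lit 288) (nat_lit 1) (nat_lit 296) (nat_lit 1) (nat_lit 381) (nat_lit 339) (nat_lit 300)))))) (XT.nd (nat_lit 390) (nat_lit 532) (nat_lit 0) (XT.nd (nat_lit 156) (nat_lit 1140) (nat_lit 0) (XT.nd (nat_lit 78) (nat_lit 684) (nat_lit 0) (XT.lf (nat_lit 608) (nat_lit 218489410) (nat_lit 0) (nat_lit 705131795) (nat_lit 532) (nat_lit 1381613141) (nat_lit 289) (nat_lit 1) (nat_lit 281) (nat_lit 1) (nat_lit 288) (nat_lit 1) (nat_lit 382) (nat_lit 339) (nat_lit 299)) (XT.lf (nat_lit 76) (nat_lit 34437690) (nat_lit 0) (nat_lit 388535295) (nat_lit 684) (nat_lit 1854482153) (nat_lit 273) (nat_lit 1) (nat_lit 272) (nat_lit 1) (nat_lit 281) (nat_lit 1) (nat_lit 383) (nat_lit 339) (nat_lit 298))) (XT.nd (nat_lit 78) (nat_lit 608) (nat_lit 0) (XT.lf (nat_lit 608) (nat_lit 1254994110) (nat_lit 0)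 (nat_lit 149292507) (nat_lit 532) (nat_lit 845771542) (nat_lit 273) (nat_lit 1) (nat_lit 265) (nat_lit 1) (nat_lit 272) (nat_lit 1) (nat_lit 384) (nat_lit 339) (nat_lit 297)) (XT.nd (nat_lit 78) (nat_lit 608) (nat_lit 0) (XT.lf (nat_lit 76) (nat_lit 516002567) (nat_lit 0) (nat_lit 1599166857) (nat_lit 608) (nat_lit 107984928) (nat_lit 266) (nat_lit 1) (nat_lit 265) (nat_lit 1) (nat_lit 273) (nat_lit 1) (nat_lit 385) (nat_lit 339) (nat_lit 296)) (XT.lf (nat_lit 76) (nat_lit 1839367940) (nat_lit 0) (nat_lit 6218344) (nat_lit 608) (nat_lit 351100761) (nat_lit 258) (nat_lit 1) (nat_lit 257) (nat_lit 1) (nat_lit 265) (nat_lit 1) (nat_lit 386) (nat_lit 339) (nat_lit 295))))) (XT.nd (nat_lit 49530) (nat_lit 0) (nat_lit 18848) (XT.nd (nat_lit 49452) (nat_lit 0) (nat_lit 18772) (XT.lf (nat_lit 76) (nat_lit 955743965) (nat_lit 0) (nat_lit 627426050) (nat_lit 608) (nat_lit 587395894) (nat_lit 251) (nat_lit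 1) (nat_lit 250) (nat_lit 1) (nat_lit 258) (nat_lit 1) (nat_lit 387) (nat_lit 339) (nat_lit 294)) (XT.lf (nat_lit 1900) (nat_lit 674505282) (nat_lit 0) (nat_lit 680145715) (nat_lit 1900) (nat_lit 674505282) (nat_lit 522) (nat_lit 1) (nat_lit 497) (nat_lit 0) (nat_lit 522) (nat_lit 0) (nat_lit 340) (nat_lit 340) (nat_lit 340))) (XT.nd (nat_lit 78) (nat_lit 0) (nat_lit 0) (XT.lf (nat_lit 1900) (nat_lit 311779471) (nat_lit 0) (nat_lit 1353357298) (nat_lit 1824) (nat_lit 2333816633) (nat_lit 523) (nat_lit 1) (nat_lit 498) (nat_lit 1) (nat_lit 522) (nat_lit 1) (nat_lit 341) (nat_lit 340) (nat_lit 339)) (XT.nd (nat_lit 78) (nat_lit 0) (nat_lit 76) (XT.lf (nat_lit 1900) (nat_lit 2564065156) (nat_lit 76) (nat_lit 659259060) (nat_lit 0) (nat_lit 717398292) (nat_lit 523) (nat_lit 1) (nat_lit 499) (nat_lit 1) (nat_lit 498) (nat_lit 1) (nat_lit 342) (nat_lit 340) (nat_lit 338)) (XT.lf (nat_lit 1900) (nat_lit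 2152478707) (nat_lit 0) (nat_lit 1428346659) (nat_lit 1824) (nat_lit 302780934) (nat_lit 524) (nat_lit 1) (nat_lit 499) (nat_lit 1) (nat_lit 523) (nat_lit 1) (nat_lit 343) (nat_lit 340) (nat_lit 337))))))))
noncomputable def ec16 : XT := (XT.nd (nat_lit 1404) (nat_lit 11628) (nat_lit 0) (XT.nd (nat_lit 702) (nat_lit 5016) (nat_lit 0) (XT.nd (nat_lit 312) (nat_lit 0) (nat_lit 228) (XT.nd (nat_lit 156) (nat_lit 0) (nat_lit 76) (XT.nd (nat_lit 78) (nat_lit 0) (nat_lit 76) (XT.lf (nat_lit 1900) (nat_lit 1104238485) (nat_lit 0) (nat_lit 1507321430) (nat_lit 1824) (nat_lit 1216017937) (nat_lit 525) (nat_lit 1) (nat_lit 500) (nat_lit 1) (nat_lit 524) (nat_lit 1) (nat_lit 344) (nat_lit 340) (nat_lit 336)) (XT.lf (nat_lit 1900) (nat_lit 74160629) (nat_lit 0) (nat_lit 1608269577) (nat_lit 1824) (nat_lit 2090265622) (nat_lit 526) (nat_lit 1) (nat_lit 501) (nat_lit 1) (nat_lit 525) (nat_lit 1) (nat_lit 345)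 (nat_lit 340) (nat_lit 335))) (XT.nd (nat_lit 78) (nat_lit 0) (nat_lit 76) (XT.lf (nat_lit 1900) (nat_lit 1982444685) (nat_lit 76) (nat_lit 785980224) (nat_lit 0) (nat_lit 950385634) (nat_lit 526) (nat_lit 1) (nat_lit 502) (nat_lit 1) (nat_lit 501) (nat_lit 1) (nat_lit 346) (nat_lit 340) (nat_lit 334)) (XT.lf (nat_lit 1900) (nat_lit 1708632154) (nat_lit 0) (nat_lit 1885323392) (nat_lit 1824) (nat_lit 72047341) (nat_lit 527) (nat_lit 1) (nat_lit 502) (nat_lit 1) (nat_lit 526) (nat_lit 1) (nat_lit 347) (nat_lit 340) (nat_lit 333)))) (XT.nd (nat_lit 156) (nat_lit 0) (nat_lit 76) (XT.nd (nat_lit 78) (nat_lit 0) (nat_lit 0) (XT.lf (nat_lit 1900) (nat_lit 672663080) (nat_lit 0) (nat_lit 2058117931) (nat_lit 1824) (nat_lit 883388797) (nat_lit 528) (nat_lit 1) (nat_lit 503) (nat_lit 1) (nat_lit 527) (nat_lit 1) (nat_lit 348) (nat_lit 340) (nat_lit 332)) (XT.lf (nat_lit 1900) (nat_lit 1312315334) (nat_lit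 76) (nat_lit 1901665181) (nat_lit 0) (nat_lit 349362944) (nat_lit 528) (nat_lit 1) (nat_lit 504) (nat_lit 1) (nat_lit 503) (nat_lit 1) (nat_lit 349) (nat_lit 340) (nat_lit 331))) (XT.nd (nat_lit 78) (nat_lit 0) (nat_lit 76) (XT.lf (nat_lit 1900) (nat_lit 1048223798) (nat_lit 76) (nat_lit 1103477792) (nat_lit 0) (nat_lit 1361757584) (nat_lit 529) (nat_lit 1) (nat_lit 505) (nat_lit 1) (nat_lit 504) (nat_lit 1) (nat_lit 350) (nat_lit 340) (nat_lit 330)) (XT.nd (nat_lit 78) (nat_lit 0) (nat_lit 76) (XT.lf (nat_lit 1900) (nat_lit 769091264) (nat_lit 76) (nat_lit 339706783) (nat_lit 0) (nat_lit 2355784037) (nat_lit 530) (nat_lit 1) (nat_lit 506) (nat_lit 1) (nat_lit 505) (nat_lit 1) (nat_lit 351) (nat_lit 340) (nat_lit 329)) (XT.lf (nat_lit 1900) (nat_lit 87579042) (nat_lit 0) (nat_lit 2943536756) (nat_lit 1824) (nat_lit 385522861) (nat_lit 531) (nat_lit 1) (nat_lit 506) (nat_lit 1) (nat_lit 530) (nat_lit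 1) (nat_lit 352) (nat_lit 340) (nat_lit 328)))))) (XT.nd (nat_lit 312) (nat_lit 3648) (nat_lit 0) (XT.nd (nat_lit 156) (nat_lit 0) (nat_lit 76) (XT.nd (nat_lit 78) (nat_lit 1824) (nat_lit 0) (XT.lf (nat_lit 1900) (nat_lit 155426404) (nat_lit 76) (nat_lit 2289216279) (nat_lit 0) (nat_lit 924854702) (nat_lit 531) (nat_lit 1) (nat_lit 507) (nat_lit 1) (nat_lit 506) (nat_lit 1) (nat_lit 353) (nat_lit 340) (nat_lit 327)) (XT.lf (nat_lit 1976) (nat_lit 1404709475) (nat_lit 0) (nat_lit 173014947) (nat_lit 1900) (nat_lit 1745544368) (nat_lit 508) (nat_lit 1) (nat_lit 482) (nat_lit 1) (nat_lit 507) (nat_lit 1) (nat_lit 354) (nat_lit 340) (nat_lit 326))) (XT.nd (nat_lit 78) (nat_lit 0) (nat_lit 0) (XT.lf (nat_lit 1976) (nat_lit 385292797) (nat_lit 0) (nat_lit 511057964) (nat_lit 1900) (nat_lit 2381593363) (nat_lit 509) (nat_lit 1) (nat_lit 483) (nat_lit 1) (nat_lit 508) (nat_lit 1) (nat_lit 355) (nat_lit 340)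 (nat_lit 325)) (XT.lf (nat_lit 1976) (nat_lit 2369304570) (nat_lit 76) (nat_lit 241097045) (nat_lit 0) (nat_lit 623040332) (nat_lit 509) (nat_lit 1) (nat_lit 484) (nat_lit 1) (nat_lit 483) (nat_lit 1) (nat_lit 356) (nat_lit 340) (nat_lit 324)))) (XT.nd (nat_lit 156) (nat_lit 2660) (nat_lit 0) (XT.nd (nat_lit 78) (nat_lit 1140) (nat_lit 0) (XT.lf (nat_lit 76) (nat_lit 1575050157) (nat_lit 0) (nat_lit 1232507114) (nat_lit 1900) (nat_lit 382167197) (nat_lit 485) (nat_lit 1) (nat_lit 484) (nat_lit 1) (nat_lit 509) (nat_lit 1) (nat_lit 357) (nat_lit 340) (nat_lit 323)) (XT.lf (nat_lit 76) (nat_lit 560943500) (nat_lit 0) (nat_lit 1611897386) (nat_lit 1216) (nat_lit 974004430) (nat_lit 470) (nat_lit 1) (nat_lit 469) (nat_lit 1) (nat_lit 485) (nat_lit 1) (nat_lit 358) (nat_lit 340) (nat_lit 322))) (XT.nd (nat_lit 78) (nat_lit 1748) (nat_lit 0) (XT.lf (nat_lit 988) (nat_lit 1101735173) (nat_lit 0) (nat_lit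 1563507202) (nat_lit 912) (nat_lit 439516964) (nat_lit 470) (nat_lit 1) (nat_lit 457) (nat_lit 1) (nat_lit 469) (nat_lit 1) (nat_lit 359) (nat_lit 340) (nat_lit 321)) (XT.nd (nat_lit 78) (nat_lit 836) (nat_lit 0) (XT.lf (nat_lit 988) (nat_lit 657385877) (nat_lit 0) (nat_lit 978012368) (nat_lit 912) (nat_lit 1428035150) (nat_lit 458) (nat_lit 1) (nat_lit 445) (nat_lit 1) (nat_lit 457) (nat_lit 1) (nat_lit 360) (nat_lit 340) (nat_lit 320)) (XT.lf (nat_lit 912) (nat_lit 206173980) (nat_lit 0) (nat_lit 419321858) (nat_lit 836) (nat_lit 2397426950) (nat_lit 446) (nat_lit 1) (nat_lit 434) (nat_lit 1) (nat_lit 445) (nat_lit 1) (nat_lit 361) (nat_lit 340) (nat_lit 319))))))) (XT.nd (nat_lit 702) (nat_lit 5852) (nat_lit 0) (XT.nd (nat_lit 312) (nat_lit 3116) (nat_lit 0) (XT.nd (nat_lit 156) (nat_lit 1672) (nat_lit 0) (XT.nd (nat_lit 78) (nat_lit 912) (nat_lit 0) (XT.lf (nat_lit 76) (nat_lit 2615945914) (nat_lit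 0) (nat_lit 251264647) (nat_lit 912) (nat_lit 115903226) (nat_lit 434) (nat_lit 1) (nat_lit 433) (nat_lit 1) (nat_lit 445) (nat_lit 1) (nat_lit 362) (nat_lit 340) (nat_lit 318)) (XT.lf (nat_lit 76) (nat_lit 1599448280) (nat_lit 0) (nat_lit 718395924) (nat_lit 988) (nat_lit 626081247) (nat_lit 422) (nat_lit 1) (nat_lit 421) (nat_lit 1) (nat_lit 434) (nat_lit 1) (nat_lit 363) (nat_lit 340) (nat_lit 317))) (XT.nd (nat_lit 78) (nat_lit 836) (nat_lit 0) (XT.lf (nat_lit 76) (nat_lit 602929006) (nat_lit 0) (nat_lit 1190618924) (nat_lit 912) (nat_lit 1111956644) (nat_lit 411) (nat_lit 1) (nat_lit 410) (nat_lit 1) (nat_lit 422) (nat_lit 1) (nat_lit 364) (nat_lit 340) (nat_lit 316)) (XT.lf (nat_lit 912) (nat_lit 1197814171) (nat_lit 0) (nat_lit 1291089045) (nat_lit 836) (nat_lit 378881874) (nat_lit 411) (nat_lit 1) (nat_lit 399) (nat_lit 1) (nat_lit 410) (nat_lit 1) (nat_lit 365) (nat_lit 340) (nat_lit 315))))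 (XT.nd (nat_lit 156) (nat_lit 1596) (nat_lit 0) (XT.nd (nat_lit 78) (nat_lit 760) (nat_lit 0) (XT.lf (nat_lit 836) (nat_lit 673297732) (nat_lit 0) (nat_lit 808356384) (nat_lit 760) (nat_lit 1349068834) (nat_lit 400) (nat_lit 1) (nat_lit 389) (nat_lit 1) (nat_lit 399) (nat_lit 1) (nat_lit 366) (nat_lit 340) (nat_lit 314)) (XT.lf (nat_lit 836) (nat_lit 145753904) (nat_lit 0) (nat_lit 348708193) (nat_lit 760) (nat_lit 2299919282) (nat_lit 390) (nat_lit 1) (nat_lit 379) (nat_lit 1) (nat_lit 389) (nat_lit 1) (nat_lit 367) (nat_lit 340) (nat_lit 313))) (XT.nd (nat_lit 78) (nat_lit 1520) (nat_lit 0) (XT.lf (nat_lit 76) (nat_lit 2282502147) (nat_lit 0) (nat_lit 383125841) (nat_lit 836) (nat_lit 92992590) (nat_lit 379) (nat_lit 1) (nat_lit 378) (nat_lit 1) (nat_lit 389) (nat_lit 1) (nat_lit 368) (nat_lit 340) (nat_lit 312)) (XT.nd (nat_lit 78) (nat_lit 760) (nat_lit 0) (XT.lf (nat_lit 76) (nat_lit 1293013375)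 (nat_lit 0) (nat_lit 917661582) (nat_lit 836) (nat_lit 512749698) (nat_lit 369) (nat_lit 1) (nat_lit 368) (nat_lit 1) (nat_lit 379) (nat_lit 1) (nat_lit 369) (nat_lit 340) (nat_lit 311)) (XT.lf (nat_lit 76) (nat_lit 323457041) (nat_lit 0) (nat_lit 1453909410) (nat_lit 836) (nat_lit 911541783) (nat_lit 359) (nat_lit 1) (nat_lit 358) (nat_lit 1) (nat_lit 369) (nat_lit 1) (nat_lit 370) (nat_lit 340) (nat_lit 310)))))) (XT.nd (nat_lit 390) (nat_lit 3040) (nat_lit 0) (XT.nd (nat_lit 156) (nat_lit 1444) (nat_lit 0) (XT.nd (nat_lit 78) (nat_lit 684) (nat_lit 0) (XT.lf (nat_lit 760) (nat_lit 659286630) (nat_lit 0) (nat_lit 1360873985) (nat_lit 684) (nat_lit 634813547) (nat_lit 359) (nat_lit 1) (nat_lit 349) (nat_lit 1) (nat_lit 358) (nat_lit 1) (nat_lit 371) (nat_lit 340) (nat_lit 309)) (XT.lf (nat_lit 760) (nat_lit 81065522) (nat_lit 0) (nat_lit 962752521) (nat_lit 684) (nat_lit 1577832434) (nat_lit 350)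 (nat_lit 1) (nat_lit 340) (nat_lit 1) (nat_lit 349) (nat_lit 1) (nat_lit 372) (nat_lit 340) (nat_lit 308))) (XT.nd (nat_lit 78) (nat_lit 684) (nat_lit 0) (XT.lf (nat_lit 76) (nat_lit 90574693) (nat_lit 0) (nat_lit 490710875) (nat_lit 760) (nat_lit 2007615524) (nat_lit 331) (nat_lit 1) (nat_lit 330) (nat_lit 1) (nat_lit 340) (nat_lit 1) (nat_lit 373) (nat_lit 340) (nat_lit 307)) (XT.nd (nat_lit 78) (nat_lit 0) (nat_lit 0) (XT.lf (nat_lit 760) (nat_lit 1489859111) (nat_lit 0) (nat_lit 212997514) (nat_lit 684) (nat_lit 853798829) (nat_lit 331) (nat_lit 1) (nat_lit 321) (nat_lit 1) (nat_lit 330) (nat_lit 1) (nat_lit 374) (nat_lit 340) (nat_lit 306)) (XT.lf (nat_lit 76) (nat_lit 745995753) (nat_lit 0) (nat_lit 1643833787) (nat_lit 760) (nat_lit 135164844) (nat_lit 322) (nat_lit 1) (nat_lit 321) (nat_lit 1) (nat_lit 331) (nat_lit 1) (nat_lit 375) (nat_lit 340) (nat_lit 305))))) (XT.nd (nat_lit 156) (nat_lit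 1748) (nat_lit 0) (XT.nd (nat_lit 78) (nat_lit 684) (nat_lit 0) (XT.lf (nat_lit 684) (nat_lit 271256206) (nat_lit 0) (nat_lit 2030248311) (nat_lit 608) (nat_lit 192379692) (nat_lit 322) (nat_lit 1) (nat_lit 313) (nat_lit 1) (nat_lit 321) (nat_lit 1) (nat_lit 376) (nat_lit 340) (nat_lit 304)) (XT.lf (nat_lit 76) (nat_lit 1344369651) (nat_lit 0) (nat_lit 337366645) (nat_lit 684) (nat_lit 781488370) (nat_lit 305) (nat_lit 1) (nat_lit 304) (nat_lit 1) (nat_lit 313) (nat_lit 1) (nat_lit 377) (nat_lit 340) (nat_lit 303))) (XT.nd (nat_lit 78) (nat_lit 1140) (nat_lit 0) (XT.lf (nat_lit 76) (nat_lit 408781649) (nat_lit 0) (nat_lit 940469744) (nat_lit 684) (nat_lit 1083859306) (nat_lit 297) (nat_lit 1) (nat_lit 296) (nat_lit 1) (nat_lit 305) (nat_lit 1) (nat_lit 378) (nat_lit 340) (nat_lit 302)) (XT.nd (nat_lit 78) (nat_lit 532) (nat_lit 0) (XT.lf (nat_lit 684) (nat_lit 858722473) (nat_lit 0) (nat_lit 1030671465)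 (nat_lit 608) (nat_lit 514104516) (nat_lit 297) (nat_lit 1) (nat_lit 288) (nat_lit 1) (nat_lit 296) (nat_lit 1) (nat_lit 379) (nat_lit 340) (nat_lit 301)) (XT.lf (nat_lit 608) (nat_lit 225044092) (nat_lit 0) (nat_lit 726285749) (nat_lit 532) (nat_lit 1423061535) (nat_lit 289) (nat_lit 1) (nat_lit 281) (nat_lit 1) (nat_lit 288) (nat_lit 1) (nat_lit 380) (nat_lit 340) (nat_lit 300))))))))
noncomputable def ec17 : XT := (XT.nd (nat_lit 50622) (nat_lit 0) (nat_lit 9956) (XT.nd (nat_lit 49920) (nat_lit 0) (nat_lit 19836) (XT.nd (nat_lit 312) (nat_lit 1520) (nat_lit 0) (XT.nd (nat_lit 156) (nat_lit 608) (nat_lit 0) (XT.nd (nat_lit 78) (nat_lit 532) (nat_lit 0) (XT.lf (nat_lit 76) (nat_lit 35470821) (nat_lit 0) (nat_lit 400191354) (nat_lit 684) (nat_lit 1910116617) (nat_lit 273) (nat_lit 1) (nat_lit 272) (nat_lit 1) (nat_lit 281) (nat_lit 1) (nat_lit 381) (nat_lit 340) (nat_lit 299)) (XT.lf (nat_lit 608)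 (nat_lit 1292643934) (nat_lit 0) (nat_lit 153771283) (nat_lit 532) (nat_lit 871144688) (nat_lit 273) (nat_lit 1) (nat_lit 265) (nat_lit 1) (nat_lit 272) (nat_lit 1) (nat_lit 382) (nat_lit 340) (nat_lit 298))) (XT.nd (nat_lit 78) (nat_lit 608) (nat_lit 0) (XT.lf (nat_lit 76) (nat_lit 531482644) (nat_lit 0) (nat_lit 1647141863) (nat_lit 608) (nat_lit 111224476) (nat_lit 266) (nat_lit 1) (nat_lit 265) (nat_lit 1) (nat_lit 273) (nat_lit 1) (nat_lit 383) (nat_lit 340) (nat_lit 297)) (XT.lf (nat_lit 76) (nat_lit 1894548978) (nat_lit 0) (nat_lit 6404894) (nat_lit 608) (nat_lit 361633784) (nat_lit 258) (nat_lit 1) (nat_lit 257) (nat_lit 1) (nat_lit 265) (nat_lit 1) (nat_lit 384) (nat_lit 340) (nat_lit 296)))) (XT.nd (nat_lit 156) (nat_lit 456) (nat_lit 0) (XT.nd (nat_lit 78) (nat_lit 532) (nat_lit 0) (XT.lf (nat_lit 76) (nat_lit 984416284) (nat_lit 0) (nat_lit 646248831) (nat_lit 608) (nat_lit 605017771)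 (nat_lit 251) (nat_lit 1) (nat_lit 250) (nat_lit 1) (nat_lit 258) (nat_lit 1) (nat_lit 385) (nat_lit 340) (nat_lit 295)) (XT.lf (nat_lit 76) (nat_lit 93517794) (nat_lit 0) (nat_lit 1281649481) (nat_lit 608) (nat_lit 834110616) (nat_lit 244) (nat_lit 1) (nat_lit 243) (nat_lit 1) (nat_lit 251) (nat_lit 1) (nat_lit 386) (nat_lit 340) (nat_lit 294))) (XT.nd (nat_lit 49296) (nat_lit 0) (nat_lit 19760) (XT.lf (nat_lit 532) (nat_lit 265610075) (nat_lit 0) (nat_lit 1128810052) (nat_lit 456) (nat_lit 788839716) (nat_lit 244) (nat_lit 1) (nat_lit 237) (nat_lit 1) (nat_lit 243) (nat_lit 1) (nat_lit 387) (nat_lit 340) (nat_lit 293)) (XT.nd (nat_lit 78) (nat_lit 0) (nat_lit 76) (XT.lf (nat_lit 1900) (nat_lit 694740441) (nat_lit 0) (nat_lit 700550087) (nat_lit 1900) (nat_lit 694740441) (nat_lit 522) (nat_lit 1) (nat_lit 497) (nat_lit 0) (nat_lit 522) (nat_lit 0) (nat_lit 338) (nat_lit 341) (nat_lit 341)) (XT.lf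 (nat_lit 1900) (nat_lit 321132855) (nat_lit 0) (nat_lit 1393958017) (nat_lit 1824) (nat_lit 2403831132) (nat_lit 523) (nat_lit 1) (nat_lit 498) (nat_lit 1) (nat_lit 522) (nat_lit 1) (nat_lit 339) (nat_lit 341) (nat_lit 340)))))) (XT.nd (nat_lit 312) (nat_lit 0) (nat_lit 228) (XT.nd (nat_lit 156) (nat_lit 0) (nat_lit 152) (XT.nd (nat_lit 78) (nat_lit 0) (nat_lit 76) (XT.lf (nat_lit 1900) (nat_lit 2640987110) (nat_lit 76) (nat_lit 679036832) (nat_lit 0) (nat_lit 738920240) (nat_lit 523) (nat_lit 1) (nat_lit 499) (nat_lit 1) (nat_lit 498) (nat_lit 1) (nat_lit 340) (nat_lit 341) (nat_lit 339)) (XT.lf (nat_lit 1900) (nat_lit 2217053068) (nat_lit 0) (nat_lit 1471197059) (nat_lit 1824) (nat_lit 311864362) (nat_lit 524) (nat_lit 1) (nat_lit 499) (nat_lit 1) (nat_lit 523) (nat_lit 1) (nat_lit 341) (nat_lit 341) (nat_lit 338))) (XT.nd (nat_lit 78) (nat_lit 0) (nat_lit 76) (XT.lf (nat_lit 1900) (nat_lit 1137365640)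 (nat_lit 0) (nat_lit 1552541073) (nat_lit 1824) (nat_lit 1252498475) (nat_lit 525) (nat_lit 1) (nat_lit 500) (nat_lit 1) (nat_lit 524) (nat_lit 1) (nat_lit 342) (nat_lit 341) (nat_lit 337)) (XT.lf (nat_lit 1900) (nat_lit 76385448) (nat_lit 0) (nat_lit 1656517665) (nat_lit 1824) (nat_lit 2152973591) (nat_lit 526) (nat_lit 1) (nat_lit 501) (nat_lit 1) (nat_lit 525) (nat_lit 1) (nat_lit 343) (nat_lit 341) (nat_lit 336)))) (XT.nd (nat_lit 156) (nat_lit 0) (nat_lit 152) (XT.nd (nat_lit 78) (nat_lit 0) (nat_lit 76) (XT.lf (nat_lit 1900) (nat_lit 2041918025) (nat_lit 76) (nat_lit 809559631) (nat_lit 0) (nat_lit 978897203) (nat_lit 526) (nat_lit 1) (nat_lit 502) (nat_lit 1) (nat_lit 501) (nat_lit 1) (nat_lit 344) (nat_lit 341) (nat_lit 335)) (XT.lf (nat_lit 1900) (nat_lit 1759891118) (nat_lit 0) (nat_lit 1941883094) (nat_lit 1824) (nat_lit 74208762) (nat_lit 527) (nat_lit 1) (nat_lit 502) (nat_lit 1) (nat_lit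 526) (nat_lit 1) (nat_lit 345) (nat_lit 341) (nat_lit 334))) (XT.nd (nat_lit 78) (nat_lit 0) (nat_lit 0) (XT.lf (nat_lit 1900) (nat_lit 692842972) (nat_lit 0) (nat_lit 2119861469) (nat_lit 1824) (nat_lit 909890461) (nat_lit 528) (nat_lit 1) (nat_lit 503) (nat_lit 1) (nat_lit 527) (nat_lit 1) (nat_lit 346) (nat_lit 341) (nat_lit 333)) (XT.nd (nat_lit 78) (nat_lit 0) (nat_lit 76) (XT.lf (nat_lit 1900) (nat_lit 1351684794) (nat_lit 76) (nat_lit 1958715136) (nat_lit 0) (nat_lit 359843832) (nat_lit 528) (nat_lit 1) (nat_lit 504) (nat_lit 1) (nat_lit 503) (nat_lit 1) (nat_lit 347) (nat_lit 341) (nat_lit 332)) (XT.lf (nat_lit 1900) (nat_lit 1079670512) (nat_lit 76) (nat_lit 1136582126) (nat_lit 0) (nat_lit 1402610311) (nat_lit 529) (nat_lit 1) (nat_lit 505) (nat_lit 1) (nat_lit 504) (nat_lit 1) (nat_lit 348) (nat_lit 341) (nat_lit 331))))))) (XT.nd (nat_lit 702) (nat_lit 6764) (nat_lit 0) (XT.nd (nat_lit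 312) (nat_lit 1900) (nat_lit 0) (XT.nd (nat_lit 156) (nat_lit 1748) (nat_lit 0) (XT.nd (nat_lit 78) (nat_lit 0) (nat_lit 76) (XT.lf (nat_lit 1900) (nat_lit 792164001) (nat_lit 76) (nat_lit 349897986) (nat_lit 0) (nat_lit 2426457558) (nat_lit 530) (nat_lit 1) (nat_lit 506) (nat_lit 1) (nat_lit 505) (nat_lit 1) (nat_lit 349) (nat_lit 341) (nat_lit 330)) (XT.lf (nat_lit 1900) (nat_lit 90206413) (nat_lit 0) (nat_lit 3031842859) (nat_lit 1824) (nat_lit 397088546) (nat_lit 531) (nat_lit 1) (nat_lit 506) (nat_lit 1) (nat_lit 530) (nat_lit 1) (nat_lit 350) (nat_lit 341) (nat_lit 329))) (XT.nd (nat_lit 78) (nat_lit 1824) (nat_lit 0) (XT.lf (nat_lit 1900) (nat_lit 160089197) (nat_lit 76) (nat_lit 2357892768) (nat_lit 0) (nat_lit 952600343) (nat_lit 531) (nat_lit 1) (nat_lit 507) (nat_lit 1) (nat_lit 506) (nat_lit 1) (nat_lit 351) (nat_lit 341) (nat_lit 328)) (XT.lf (nat_lit 1976) (nat_lit 1446850759) (nat_lit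 0) (nat_lit 178205395) (nat_lit 1900) (nat_lit 1797910700) (nat_lit 508) (nat_lit 1) (nat_lit 482) (nat_lit 1) (nat_lit 507) (nat_lit 1) (nat_lit 352) (nat_lit 341) (nat_lit 327)))) (XT.nd (nat_lit 156) (nat_lit 1976) (nat_lit 0) (XT.nd (nat_lit 78) (nat_lit 0) (nat_lit 0) (XT.lf (nat_lit 1976) (nat_lit 396851581) (nat_lit 0) (nat_lit 526389703) (nat_lit 1900) (nat_lit 2453041163) (nat_lit 509) (nat_lit 1) (nat_lit 483) (nat_lit 1) (nat_lit 508) (nat_lit 1) (nat_lit 353) (nat_lit 341) (nat_lit 326)) (XT.lf (nat_lit 1976) (nat_lit 2440383707) (nat_lit 76) (nat_lit 248329956) (nat_lit 0) (nat_lit 641731542) (nat_lit 509) (nat_lit 1) (nat_lit 484) (nat_lit 1) (nat_lit 483) (nat_lit 1) (nat_lit 354) (nat_lit 341) (nat_lit 325))) (XT.nd (nat_lit 78) (nat_lit 2052) (nat_lit 0) (XT.lf (nat_lit 76) (nat_lit 1622301661) (nat_lit 0) (nat_lit 1269482327) (nat_lit 1900) (nat_lit 393632213) (nat_lit 485) (nat_lit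 1) (nat_lit 484) (nat_lit 1) (nat_lit 509) (nat_lit 1) (nat_lit 355) (nat_lit 341) (nat_lit 324)) (XT.nd (nat_lit 78) (nat_lit 912) (nat_lit 0) (XT.lf (nat_lit 76) (nat_lit 577771805) (nat_lit 0) (nat_lit 1660254308) (nat_lit 1216) (nat_lit 1003224563) (nat_lit 470) (nat_lit 1) (nat_lit 469) (nat_lit 1) (nat_lit 485) (nat_lit 1) (nat_lit 356) (nat_lit 341) (nat_lit 323)) (XT.lf (nat_lit 988) (nat_lit 1134787229) (nat_lit 0) (nat_lit 1610412418) (nat_lit 912) (nat_lit 452702473) (nat_lit 470) (nat_lit 1) (nat_lit 457) (nat_lit 1) (nat_lit 469) (nat_lit 1) (nat_lit 357) (nat_lit 341) (nat_lit 322)))))) (XT.nd (nat_lit 390) (nat_lit 3192) (nat_lit 0) (XT.nd (nat_lit 156) (nat_lit 1824) (nat_lit 0) (XT.nd (nat_lit 78) (nat_lit 836) (nat_lit 0) (XT.lf (nat_lit 988) (nat_lit 677107454) (nat_lit 0) (nat_lit 1007352739) (nat_lit 912) (nat_lit 1470876204) (nat_lit 458) (nat_lit 1) (nat_lit 445) (nat_lit 1)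 (nat_lit 457) (nat_lit 1) (nat_lit 358) (nat_lit 341) (nat_lit 321)) (XT.lf (nat_lit 912) (nat_lit 212359200) (nat_lit 0) (nat_lit 431901514) (nat_lit 836) (nat_lit 2469349759) (nat_lit 446) (nat_lit 1) (nat_lit 434) (nat_lit 1) (nat_lit 445) (nat_lit 1) (nat_lit 359) (nat_lit 341) (nat_lit 320))) (XT.nd (nat_lit 78) (nat_lit 1748) (nat_lit 0) (XT.lf (nat_lit 76) (nat_lit 2694424291) (nat_lit 0) (nat_lit 258802587) (nat_lit 912) (nat_lit 119380323) (nat_lit 434) (nat_lit 1) (nat_lit 433) (nat_lit 1) (nat_lit 445) (nat_lit 1) (nat_lit 360) (nat_lit 341) (nat_lit 319)) (XT.nd (nat_lit 78) (nat_lit 836) (nat_lit 0) (XT.lf (nat_lit 76) (nat_lit 1647431728) (nat_lit 0) (nat_lit 739947802) (nat_lit 988) (nat_lit 644863685) (nat_lit 422) (nat_lit 1) (nat_lit 421) (nat_lit 1) (nat_lit 434) (nat_lit 1) (nat_lit 361) (nat_lit 341) (nat_lit 318)) (XT.lf (nat_lit 76) (nat_lit 621016876) (nat_lit 0) (nat_lit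 1226337492) (nat_lit 912) (nat_lit 1145315343) (nat_lit 411) (nat_lit 1) (nat_lit 410) (nat_lit 1) (nat_lit 422) (nat_lit 1) (nat_lit 362) (nat_lit 341) (nat_lit 317))))) (XT.nd (nat_lit 156) (nat_lit 1596) (nat_lit 0) (XT.nd (nat_lit 78) (nat_lit 760) (nat_lit 0) (XT.lf (nat_lit 912) (nat_lit 1233748596) (nat_lit 0) (nat_lit 1329821717) (nat_lit 836) (nat_lit 390248330) (nat_lit 411) (nat_lit 1) (nat_lit 399) (nat_lit 1) (nat_lit 410) (nat_lit 1) (nat_lit 363) (nat_lit 341) (nat_lit 316)) (XT.lf (nat_lit 836) (nat_lit 693496664) (nat_lit 0) (nat_lit 832607076) (nat_lit 760) (nat_lit 1389540899) (nat_lit 400) (nat_lit 1) (nat_lit 389) (nat_lit 1) (nat_lit 399) (nat_lit 1) (nat_lit 364) (nat_lit 341) (nat_lit 315))) (XT.nd (nat_lit 78) (nat_lit 836) (nat_lit 0) (XT.lf (nat_lit 836) (nat_lit 150126521) (nat_lit 0) (nat_lit 359169439) (nat_lit 760) (nat_lit 2368916861) (nat_lit 390) (nat_lit 1) (nat_lit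 379) (nat_lit 1) (nat_lit 389) (nat_lit 1) (nat_lit 365) (nat_lit 341) (nat_lit 314)) (XT.nd (nat_lit 78) (nat_lit 760) (nat_lit 0) (XT.lf (nat_lit 76) (nat_lit 2350977211) (nat_lit 0) (nat_lit 394619617) (nat_lit 836) (nat_lit 95782367) (nat_lit 379) (nat_lit 1) (nat_lit 378) (nat_lit 1) (nat_lit 389) (nat_lit 1) (nat_lit 366) (nat_lit 341) (nat_lit 313)) (XT.lf (nat_lit 76) (nat_lit 1331803776) (nat_lit 0) (nat_lit 945191430) (nat_lit 836) (nat_lit 528132188) (nat_lit 369) (nat_lit 1) (nat_lit 368) (nat_lit 1) (nat_lit 379) (nat_lit 1) (nat_lit 367) (nat_lit 341) (nat_lit 312))))))))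
noncomputable def ec18 : XT := (XT.nd (nat_lit 1404) (nat_lit 1064) (nat_lit 0) (XT.nd (nat_lit 702) (nat_lit 4484) (nat_lit 0) (XT.nd (nat_lit 312) (nat_lit 2584) (nat_lit 0) (XT.nd (nat_lit 156) (nat_lit 1444) (nat_lit 0) (XT.nd (nat_lit 78) (nat_lit 684) (nat_lit 0) (XT.lf (nat_lit 76) (nat_lit 333160752) (nat_lit 0) (nat_lit 1497526692) (nat_lit 836) (nat_lit 938888037) (nat_lit 359) (nat_lit 1) (nat_lit 358) (nat_lit 1) (nat_lit 369) (nat_lit 1) (nat_lit 368) (nat_lit 341) (nat_lit 311)) (XT.lf (nat_lit 760) (nat_lit 679065229) (nat_lit 0) (nat_lit 1401700205) (nat_lit 684) (nat_lit 653857954) (nat_lit 359) (nat_lit 1) (nat_lit 349) (nat_lit 1) (nat_lit 358) (nat_lit 1) (nat_lit 369) (nat_lit 341) (nat_lit 310))) (XT.nd (nat_lit 78) (nat_lit 760) (nat_lit 0) (XT.lf (nat_lit 760) (nat_lit 83497488) (nat_lit 0) (nat_lit 991635097) (nat_lit 684) (nat_lit 1625167407) (nat_lit 350) (nat_lit 1) (nat_lit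 340) (nat_lit 1) (nat_lit 349) (nat_lit 1) (nat_lit 370) (nat_lit 341) (nat_lit 309)) (XT.lf (nat_lit 76) (nat_lit 93291934) (nat_lit 0) (nat_lit 505432201) (nat_lit 760) (nat_lit 2067843990) (nat_lit 331) (nat_lit 1) (nat_lit 330) (nat_lit 1) (nat_lit 340) (nat_lit 1) (nat_lit 371) (nat_lit 341) (nat_lit 308)))) (XT.nd (nat_lit 156) (nat_lit 1900) (nat_lit 0) (XT.nd (nat_lit 78) (nat_lit 0) (nat_lit 0) (XT.lf (nat_lit 760) (nat_lit 1534554884) (nat_lit 0) (nat_lit 219387439) (nat_lit 684) (nat_lit 879412794) (nat_lit 331) (nat_lit 1) (nat_lit 321) (nat_lit 1) (nat_lit 330) (nat_lit 1) (nat_lit 372) (nat_lit 341) (nat_lit 307)) (XT.lf (nat_lit 76) (nat_lit 768375626) (nat_lit 0) (nat_lit 1693148801) (nat_lit 760) (nat_lit 139219790) (nat_lit 322) (nat_lit 1) (nat_lit 321) (nat_lit 1) (nat_lit 331) (nat_lit 1) (nat_lit 373) (nat_lit 341) (nat_lit 306))) (XT.nd (nat_lit 78) (nat_lit 1292) (nat_lit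 0) (XT.lf (nat_lit 684) (nat_lit 279393893) (nat_lit 0) (nat_lit 2091155761) (nat_lit 608) (nat_lit 198151083) (nat_lit 322) (nat_lit 1) (nat_lit 313) (nat_lit 1) (nat_lit 321) (nat_lit 1) (nat_lit 374) (nat_lit 341) (nat_lit 305)) (XT.nd (nat_lit 78) (nat_lit 608) (nat_lit 0) (XT.lf (nat_lit 76) (nat_lit 1384700741) (nat_lit 0) (nat_lit 347487645) (nat_lit 684) (nat_lit 804933021) (nat_lit 305) (nat_lit 1) (nat_lit 304) (nat_lit 1) (nat_lit 313) (nat_lit 1) (nat_lit 375) (nat_lit 341) (nat_lit 304)) (XT.lf (nat_lit 76) (nat_lit 421045099) (nat_lit 0) (nat_lit 968683836) (nat_lit 684) (nat_lit 1116375085) (nat_lit 297) (nat_lit 1) (nat_lit 296) (nat_lit 1) (nat_lit 305) (nat_lit 1) (nat_lit 376) (nat_lit 341) (nat_lit 303)))))) (XT.nd (nat_lit 312) (nat_lit 2128) (nat_lit 0) (XT.nd (nat_lit 156) (nat_lit 1216) (nat_lit 0) (XT.nd (nat_lit 78) (nat_lit 532) (nat_lit 0) (XT.lf (nat_lit 684) (nat_lit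 884484147) (nat_lit 0) (nat_lit 1061591609) (nat_lit 608) (nat_lit 529527651) (nat_lit 297) (nat_lit 1) (nat_lit 288) (nat_lit 1) (nat_lit 296) (nat_lit 1) (nat_lit 377) (nat_lit 341) (nat_lit 302)) (XT.lf (nat_lit 608) (nat_lit 231795415) (nat_lit 0) (nat_lit 748074322) (nat_lit 532) (nat_lit 1465753381) (nat_lit 289) (nat_lit 1) (nat_lit 281) (nat_lit 1) (nat_lit 288) (nat_lit 1) (nat_lit 378) (nat_lit 341) (nat_lit 301))) (XT.nd (nat_lit 78) (nat_lit 532) (nat_lit 0) (XT.lf (nat_lit 76) (nat_lit 36534946) (nat_lit 0) (nat_lit 412197094) (nat_lit 684) (nat_lit 1967420116) (nat_lit 273) (nat_lit 1) (nat_lit 272) (nat_lit 1) (nat_lit 281) (nat_lit 1) (nat_lit 379) (nat_lit 341) (nat_lit 300)) (XT.lf (nat_lit 608) (nat_lit 1331423252) (nat_lit 0) (nat_lit 158384421) (nat_lit 532) (nat_lit 897279029) (nat_lit 273) (nat_lit 1) (nat_lit 265) (nat_lit 1) (nat_lit 272) (nat_lit 1) (nat_lit 380) (nat_lit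 341) (nat_lit 299)))) (XT.nd (nat_lit 156) (nat_lit 1520) (nat_lit 0) (XT.nd (nat_lit 78) (nat_lit 608) (nat_lit 0) (XT.lf (nat_lit 76) (nat_lit 547427124) (nat_lit 0) (nat_lit 1696556119) (nat_lit 608) (nat_lit 114561210) (nat_lit 266) (nat_lit 1) (nat_lit 265) (nat_lit 1) (nat_lit 273) (nat_lit 1) (nat_lit 381) (nat_lit 341) (nat_lit 298)) (XT.lf (nat_lit 76) (nat_lit 1951385448) (nat_lit 0) (nat_lit 6597041) (nat_lit 608) (nat_lit 372482797) (nat_lit 258) (nat_lit 1) (nat_lit 257) (nat_lit 1) (nat_lit 265) (nat_lit 1) (nat_lit 382) (nat_lit 341) (nat_lit 297))) (XT.nd (nat_lit 78) (nat_lit 988) (nat_lit 0) (XT.lf (nat_lit 76) (nat_lit 1013948772) (nat_lit 0) (nat_lit 665636296) (nat_lit 608) (nat_lit 623168304) (nat_lit 251) (nat_lit 1) (nat_lit 250) (nat_lit 1) (nat_lit 258) (nat_lit 1) (nat_lit 383) (nat_lit 341) (nat_lit 296)) (XT.nd (nat_lit 78) (nat_lit 456) (nat_lit 0) (XT.lf (nat_lit 76)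 (nat_lit 96323328) (nat_lit 0) (nat_lit 1320098966) (nat_lit 608) (nat_lit 859133934) (nat_lit 244) (nat_lit 1) (nat_lit 243) (nat_lit 1) (nat_lit 251) (nat_lit 1) (nat_lit 384) (nat_lit 341) (nat_lit 295)) (XT.lf (nat_lit 532) (nat_lit 273578378) (nat_lit 0) (nat_lit 1162674354) (nat_lit 456) (nat_lit 812504908) (nat_lit 244) (nat_lit 1) (nat_lit 237) (nat_lit 1) (nat_lit 243) (nat_lit 1) (nat_lit 385) (nat_lit 341) (nat_lit 294))))))) (XT.nd (nat_lit 49764) (nat_lit 0) (nat_lit 19684) (XT.nd (nat_lit 49374) (nat_lit 0) (nat_lit 20900) (XT.nd (nat_lit 49218) (nat_lit 0) (nat_lit 20824) (XT.nd (nat_lit 78) (nat_lit 456) (nat_lit 0) (XT.lf (nat_lit 76) (nat_lit 521804395) (nat_lit 0) (nat_lit 398298987) (nat_lit 608) (nat_lit 1302286701) (nat_lit 230) (nat_lit 1) (nat_lit 229) (nat_lit 1) (nat_lit 237) (nat_lit 1) (nat_lit 386) (nat_lit 341) (nat_lit 293)) (XT.lf (nat_lit 532) (nat_lit 1132733632)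 (nat_lit 0) (nat_lit 687341217) (nat_lit 456) (nat_lit 376349824) (nat_lit 230) (nat_lit 1) (nat_lit 223) (nat_lit 1) (nat_lit 229) (nat_lit 1) (nat_lit 387) (nat_lit 341) (nat_lit 292))) (XT.nd (nat_lit 78) (nat_lit 0) (nat_lit 76) (XT.lf (nat_lit 1900) (nat_lit 715582654) (nat_lit 0) (nat_lit 721566589) (nat_lit 1900) (nat_lit 715582654) (nat_lit 522) (nat_lit 1) (nat_lit 497) (nat_lit 0) (nat_lit 522) (nat_lit 0) (nat_lit 336) (nat_lit 342) (nat_lit 342)) (XT.lf (nat_lit 1900) (nat_lit 330766841) (nat_lit 0) (nat_lit 1435776758) (nat_lit 1824) (nat_lit 2475946066) (nat_lit 523) (nat_lit 1) (nat_lit 498) (nat_lit 1) (nat_lit 522) (nat_lit 1) (nat_lit 337) (nat_lit 342) (nat_lit 341)))) (XT.nd (nat_lit 156) (nat_lit 0) (nat_lit 152) (XT.nd (nat_lit 78) (nat_lit 0) (nat_lit 76) (XT.lf (nat_lit 1900) (nat_lit 2720216724) (nat_lit 76) (nat_lit 699407937) (nat_lit 0) (nat_lit 761087848) (nat_lit 523)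 (nat_lit 1) (nat_lit 499) (nat_lit 1) (nat_lit 498) (nat_lit 1) (nat_lit 338) (nat_lit 342) (nat_lit 340)) (XT.lf (nat_lit 1900) (nat_lit 2283564660) (nat_lit 0) (nat_lit 1515332971) (nat_lit 1824) (nat_lit 321220293) (nat_lit 524) (nat_lit 1) (nat_lit 499) (nat_lit 1) (nat_lit 523) (nat_lit 1) (nat_lit 339) (nat_lit 342) (nat_lit 339))) (XT.nd (nat_lit 78) (nat_lit 0) (nat_lit 76) (XT.lf (nat_lit 1900) (nat_lit 1171486609) (nat_lit 0) (nat_lit 1599117305) (nat_lit 1824) (nat_lit 1290073429) (nat_lit 525) (nat_lit 1) (nat_lit 500) (nat_lit 1) (nat_lit 524) (nat_lit 1) (nat_lit 340) (nat_lit 342) (nat_lit 338)) (XT.nd (nat_lit 78) (nat_lit 0) (nat_lit 0) (XT.lf (nat_lit 1900) (nat_lit 78677011) (nat_lit 0) (nat_lit 1706213195) (nat_lit 1824) (nat_lit 2217562799) (nat_lit 526) (nat_lit 1) (nat_lit 501) (nat_lit 1) (nat_lit 525) (nat_lit 1) (nat_lit 341) (nat_lit 342) (nat_lit 337)) (XT.lf (nat_lit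 1900) (nat_lit 2103175566) (nat_lit 76) (nat_lit 833846420) (nat_lit 0) (nat_lit 1008264119) (nat_lit 526) (nat_lit 1) (nat_lit 502) (nat_lit 1) (nat_lit 501) (nat_lit 1) (nat_lit 342) (nat_lit 342) (nat_lit 336)))))) (XT.nd (nat_lit 390) (nat_lit 1520) (nat_lit 0) (XT.nd (nat_lit 156) (nat_lit 0) (nat_lit 76) (XT.nd (nat_lit 78) (nat_lit 0) (nat_lit 76) (XT.lf (nat_lit 1900) (nat_lit 1812687852) (nat_lit 0) (nat_lit 2000139587) (nat_lit 1824) (nat_lit 76435024) (nat_lit 527) (nat_lit 1) (nat_lit 502) (nat_lit 1) (nat_lit 526) (nat_lit 1) (nat_lit 343) (nat_lit 342) (nat_lit 335)) (XT.lf (nat_lit 1900) (nat_lit 713628261) (nat_lit 0) (nat_lit 2183457313) (nat_lit 1824) (nat_lit 937187174) (nat_lit 528) (nat_lit 1) (nat_lit 503) (nat_lit 1) (nat_lit 527) (nat_lit 1) (nat_lit 344) (nat_lit 342) (nat_lit 334))) (XT.nd (nat_lit 78) (nat_lit 0) (nat_lit 76) (XT.lf (nat_lit 1900) (nat_lit 1392235338) (nat_lit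 76) (nat_lit 2017476590) (nat_lit 0) (nat_lit 370639147) (nat_lit 528) (nat_lit 1) (nat_lit 504) (nat_lit 1) (nat_lit 503) (nat_lit 1) (nat_lit 345) (nat_lit 342) (nat_lit 333)) (XT.nd (nat_lit 78) (nat_lit 0) (nat_lit 76) (XT.lf (nat_lit 1900) (nat_lit 1112060627) (nat_lit 76) (nat_lit 1170679589) (nat_lit 0) (nat_lit 1444688620) (nat_lit 529) (nat_lit 1) (nat_lit 505) (nat_lit 1) (nat_lit 504) (nat_lit 1) (nat_lit 346) (nat_lit 342) (nat_lit 332)) (XT.lf (nat_lit 1900) (nat_lit 815928922) (nat_lit 76) (nat_lit 360394926) (nat_lit 0) (nat_lit 2499251284) (nat_lit 530) (nat_lit 1) (nat_lit 506) (nat_lit 1) (nat_lit 505) (nat_lit 1) (nat_lit 347) (nat_lit 342) (nat_lit 331))))) (XT.nd (nat_lit 156) (nat_lit 1824) (nat_lit 0) (XT.nd (nat_lit 78) (nat_lit 0) (nat_lit 0) (XT.lf (nat_lit 1900) (nat_lit 92912605) (nat_lit 0) (nat_lit 3122798144) (nat_lit 1824) (nat_lit 409001203) (nat_lit 531) (nat_lit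 1) (nat_lit 506) (nat_lit 1) (nat_lit 530) (nat_lit 1) (nat_lit 348) (nat_lit 342) (nat_lit 330)) (XT.lf (nat_lit 1900) (nat_lit 164891872) (nat_lit 76) (nat_lit 2428629551) (nat_lit 0) (nat_lit 981178353) (nat_lit 531) (nat_lit 1) (nat_lit 507) (nat_lit 1) (nat_lit 506) (nat_lit 1) (nat_lit 349) (nat_lit 342) (nat_lit 329))) (XT.nd (nat_lit 78) (nat_lit 0) (nat_lit 76) (XT.lf (nat_lit 1976) (nat_lit 1490256282) (nat_lit 0) (nat_lit 183551557) (nat_lit 1900) (nat_lit 1851848021) (nat_lit 508) (nat_lit 1) (nat_lit 482) (nat_lit 1) (nat_lit 507) (nat_lit 1) (nat_lit 350) (nat_lit 342) (nat_lit 328)) (XT.nd (nat_lit 78) (nat_lit 0) (nat_lit 0) (XT.lf (nat_lit 1976) (nat_lit 408757129) (nat_lit 0) (nat_lit 542181394) (nat_lit 1900) (nat_lit 2526632398) (nat_lit 509) (nat_lit 1) (nat_lit 483) (nat_lit 1) (nat_lit 508) (nat_lit 1) (nat_lit 351) (nat_lit 342) (nat_lit 327)) (XT.lf (nat_lit 1976) (nat_lit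 2513595219) (nat_lit 76) (nat_lit 255779855) (nat_lit 0) (nat_lit 660983488) (nat_lit 509) (nat_lit 1) (nat_lit 484) (nat_lit 1) (nat_lit 483) (nat_lit 1) (nat_lit 352) (nat_lit 342) (nat_lit 326))))))))
noncomputable def ec19 : XT := (XT.nd (nat_lit 1404) (nat_lit 8436) (nat_lit 0) (XT.nd (nat_lit 702) (nat_lit 5928) (nat_lit 0) (XT.nd (nat_lit 312) (nat_lit 3496) (nat_lit 0) (XT.nd (nat_lit 156) (nat_lit 1824) (nat_lit 0) (XT.nd (nat_lit 78) (nat_lit 1140) (nat_lit 0) (XT.lf (nat_lit 76) (nat_lit 1670970711) (nat_lit 0) (nat_lit 1307566797) (nat_lit 1900) (nat_lit 405441179) (nat_lit 485) (nat_lit 1) (nat_lit 484) (nat_lit 1) (nat_lit 509) (nat_lit 1) (nat_lit 353) (nat_lit 342) (nat_lit 325)) (XT.lf (nat_lit 76) (nat_lit 595104959) (nat_lit 0) (nat_lit 1710061937) (nat_lit 1216) (nat_lit 1033321300) (nat_lit 470) (nat_lit 1) (nat_lit 469) (nat_lit 1) (nat_lit 485) (nat_lit 1) (nat_lit 354) (nat_lit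 342) (nat_lit 324))) (XT.nd (nat_lit 78) (nat_lit 912) (nat_lit 0) (XT.lf (nat_lit 988) (nat_lit 1168830845) (nat_lit 0) (nat_lit 1658724790) (nat_lit 912) (nat_lit 466283547) (nat_lit 470) (nat_lit 1) (nat_lit 457) (nat_lit 1) (nat_lit 469) (nat_lit 1) (nat_lit 355) (nat_lit 342) (nat_lit 323)) (XT.lf (nat_lit 988) (nat_lit 697420677) (nat_lit 0) (nat_lit 1037573321) (nat_lit 912) (nat_lit 1515002490) (nat_lit 458) (nat_lit 1) (nat_lit 445) (nat_lit 1) (nat_lit 457) (nat_lit 1) (nat_lit 356) (nat_lit 342) (nat_lit 322)))) (XT.nd (nat_lit 156) (nat_lit 2584) (nat_lit 0) (XT.nd (nat_lit 78) (nat_lit 76) (nat_lit 0) (XT.lf (nat_lit 912) (nat_lit 218729976) (nat_lit 0) (nat_lit 444858559) (nat_lit 836) (nat_lit 2543430252) (nat_lit 446) (nat_lit 1) (nat_lit 434) (nat_lit 1) (nat_lit 445) (nat_lit 1) (nat_lit 357) (nat_lit 342) (nat_lit 321)) (XT.lf (nat_lit 76) (nat_lit 2775257020) (nat_lit 0) (nat_lit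 266566664) (nat_lit 912) (nat_lit 122961733) (nat_lit 434) (nat_lit 1) (nat_lit 433) (nat_lit 1) (nat_lit 445) (nat_lit 1) (nat_lit 358) (nat_lit 342) (nat_lit 320))) (XT.nd (nat_lit 78) (nat_lit 1672) (nat_lit 0) (XT.lf (nat_lit 76) (nat_lit 1696854680) (nat_lit 0) (nat_lit 762146236) (nat_lit 988) (nat_lit 664209595) (nat_lit 422) (nat_lit 1) (nat_lit 421) (nat_lit 1) (nat_lit 434) (nat_lit 1) (nat_lit 359) (nat_lit 342) (nat_lit 319)) (XT.nd (nat_lit 78) (nat_lit 836) (nat_lit 0) (XT.lf (nat_lit 76) (nat_lit 639647382) (nat_lit 0) (nat_lit 1263127616) (nat_lit 912) (nat_lit 1179674804) (nat_lit 411) (nat_lit 1) (nat_lit 410) (nat_lit 1) (nat_lit 422) (nat_lit 1) (nat_lit 360) (nat_lit 342) (nat_lit 318)) (XT.lf (nat_lit 912) (nat_lit 1270761054) (nat_lit 0) (nat_lit 1369716368) (nat_lit 836) (nat_lit 401955780) (nat_lit 411) (nat_lit 1) (nat_lit 399) (nat_lit 1) (nat_lit 410) (nat_lit 1) (nat_lit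 361) (nat_lit 342) (nat_lit 317)))))) (XT.nd (nat_lit 312) (nat_lit 3572) (nat_lit 0) (XT.nd (nat_lit 156) (nat_lit 836) (nat_lit 0) (XT.nd (nat_lit 78) (nat_lit 760) (nat_lit 0) (XT.lf (nat_lit 836) (nat_lit 714301564) (nat_lit 0) (nat_lit 857585288) (nat_lit 760) (nat_lit 1431227126) (nat_lit 400) (nat_lit 1) (nat_lit 389) (nat_lit 1) (nat_lit 399) (nat_lit 1) (nat_lit 362) (nat_lit 342) (nat_lit 316)) (XT.lf (nat_lit 836) (nat_lit 154630316) (nat_lit 0) (nat_lit 369944522) (nat_lit 760) (nat_lit 2439984367) (nat_lit 390) (nat_lit 1) (nat_lit 379) (nat_lit 1) (nat_lit 389) (nat_lit 1) (nat_lit 363) (nat_lit 342) (nat_lit 315))) (XT.nd (nat_lit 78) (nat_lit 760) (nat_lit 0) (XT.lf (nat_lit 76) (nat_lit 2421506527) (nat_lit 0) (nat_lit 406458205) (nat_lit 836) (nat_lit 98655838) (nat_lit 379) (nat_lit 1) (nat_lit 378) (nat_lit 1) (nat_lit 389) (nat_lit 1) (nat_lit 364) (nat_lit 342) (nat_lit 314))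 (XT.lf (nat_lit 76) (nat_lit 1371757890) (nat_lit 0) (nat_lit 973547173) (nat_lit 836) (nat_lit 543976154) (nat_lit 369) (nat_lit 1) (nat_lit 368) (nat_lit 1) (nat_lit 379) (nat_lit 1) (nat_lit 365) (nat_lit 342) (nat_lit 313)))) (XT.nd (nat_lit 156) (nat_lit 2128) (nat_lit 0) (XT.nd (nat_lit 78) (nat_lit 684) (nat_lit 0) (XT.lf (nat_lit 76) (nat_lit 343155575) (nat_lit 0) (nat_lit 1542452493) (nat_lit 836) (nat_lit 967054678) (nat_lit 359) (nat_lit 1) (nat_lit 358) (nat_lit 1) (nat_lit 369) (nat_lit 1) (nat_lit 366) (nat_lit 342) (nat_lit 312)) (XT.lf (nat_lit 760) (nat_lit 699437186) (nat_lit 0) (nat_lit 1443751211) (nat_lit 684) (nat_lit 673473692) (nat_lit 359) (nat_lit 1) (nat_lit 349) (nat_lit 1) (nat_lit 358) (nat_lit 1) (nat_lit 367) (nat_lit 342) (nat_lit 311))) (XT.nd (nat_lit 78) (nat_lit 1444) (nat_lit 0) (XT.lf (nat_lit 760) (nat_lit 86002413) (nat_lit 0) (nat_lit 1021384150) (nat_lit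 684) (nat_lit 1673922429) (nat_lit 350) (nat_lit 1) (nat_lit 340) (nat_lit 1) (nat_lit 349) (nat_lit 1) (nat_lit 368) (nat_lit 342) (nat_lit 310)) (XT.nd (nat_lit 78) (nat_lit 684) (nat_lit 0) (XT.lf (nat_lit 76) (nat_lit 96090692) (nat_lit 0) (nat_lit 520595167) (nat_lit 760) (nat_lit 2129879310) (nat_lit 331) (nat_lit 1) (nat_lit 330) (nat_lit 1) (nat_lit 340) (nat_lit 1) (nat_lit 369) (nat_lit 342) (nat_lit 309)) (XT.lf (nat_lit 760) (nat_lit 1580591531) (nat_lit 0) (nat_lit 225969062) (nat_lit 684) (nat_lit 905795177) (nat_lit 331) (nat_lit 1) (nat_lit 321) (nat_lit 1) (nat_lit 330) (nat_lit 1) (nat_lit 370) (nat_lit 342) (nat_lit 308))))))) (XT.nd (nat_lit 702) (nat_lit 4180) (nat_lit 0) (XT.nd (nat_lit 312) (nat_lit 2356) (nat_lit 0) (XT.nd (nat_lit 156) (nat_lit 1292) (nat_lit 0) (XT.nd (nat_lit 78) (nat_lit 608) (nat_lit 0) (XT.lf (nat_lit 76) (nat_lit 791426895) (nat_lit 0) (nat_lit 1743943265)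 (nat_lit 760) (nat_lit 143396384) (nat_lit 322) (nat_lit 1) (nat_lit 321) (nat_lit 1) (nat_lit 331) (nat_lit 1) (nat_lit 371) (nat_lit 342) (nat_lit 307)) (XT.lf (nat_lit 684) (nat_lit 287775709) (nat_lit 0) (nat_lit 2153890433) (nat_lit 608) (nat_lit 204095615) (nat_lit 322) (nat_lit 1) (nat_lit 313) (nat_lit 1) (nat_lit 321) (nat_lit 1) (nat_lit 372) (nat_lit 342) (nat_lit 306))) (XT.nd (nat_lit 78) (nat_lit 608) (nat_lit 0) (XT.lf (nat_lit 76) (nat_lit 1426241763) (nat_lit 0) (nat_lit 357912274) (nat_lit 684) (nat_lit 829081011) (nat_lit 305) (nat_lit 1) (nat_lit 304) (nat_lit 1) (nat_lit 313) (nat_lit 1) (nat_lit 373) (nat_lit 342) (nat_lit 305)) (XT.lf (nat_lit 76) (nat_lit 433676452) (nat_lit 0) (nat_lit 997744351) (nat_lit 684) (nat_lit 1149866338) (nat_lit 297) (nat_lit 1) (nat_lit 296) (nat_lit 1) (nat_lit 305) (nat_lit 1) (nat_lit 374) (nat_lit 342) (nat_lit 304)))) (XT.nd (nat_lit 156)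 (nat_lit 1216) (nat_lit 0) (XT.nd (nat_lit 78) (nat_lit 532) (nat_lit 0) (XT.lf (nat_lit 684) (nat_lit 911018672) (nat_lit 0) (nat_lit 1093439357) (nat_lit 608) (nat_lit 545413481) (nat_lit 297) (nat_lit 1) (nat_lit 288) (nat_lit 1) (nat_lit 296) (nat_lit 1) (nat_lit 375) (nat_lit 342) (nat_lit 303)) (XT.lf (nat_lit 608) (nat_lit 238749277) (nat_lit 0) (nat_lit 770516552) (nat_lit 532) (nat_lit 1509725982) (nat_lit 289) (nat_lit 1) (nat_lit 281) (nat_lit 1) (nat_lit 288) (nat_lit 1) (nat_lit 376) (nat_lit 342) (nat_lit 302))) (XT.nd (nat_lit 78) (nat_lit 532) (nat_lit 0) (XT.lf (nat_lit 76) (nat_lit 37630994) (nat_lit 0) (nat_lit 424563007) (nat_lit 684) (nat_lit 2026442719) (nat_lit 273) (nat_lit 1) (nat_lit 272) (nat_lit 1) (nat_lit 281) (nat_lit 1) (nat_lit 377) (nat_lit 342) (nat_lit 301)) (XT.nd (nat_lit 78) (nat_lit 0) (nat_lit 0) (XT.lf (nat_lit 608) (nat_lit 1371365949) (nat_lit 0) (nat_lit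 163135954) (nat_lit 532) (nat_lit 924197399) (nat_lit 273) (nat_lit 1) (nat_lit 265) (nat_lit 1) (nat_lit 272) (nat_lit 1) (nat_lit 378) (nat_lit 342) (nat_lit 300)) (XT.lf (nat_lit 76) (nat_lit 563849937) (nat_lit 0) (nat_lit 1747452802) (nat_lit 608) (nat_lit 117998047) (nat_lit 266) (nat_lit 1) (nat_lit 265) (nat_lit 1) (nat_lit 273) (nat_lit 1) (nat_lit 379) (nat_lit 342) (nat_lit 299)))))) (XT.nd (nat_lit 390) (nat_lit 1444) (nat_lit 0) (XT.nd (nat_lit 156) (nat_lit 1596) (nat_lit 0) (XT.nd (nat_lit 78) (nat_lit 532) (nat_lit 0) (XT.lf (nat_lit 76) (nat_lit 2009927011) (nat_lit 0) (nat_lit 6794952) (nat_lit 608) (nat_lit 383657281) (nat_lit 258) (nat_lit 1) (nat_lit 257) (nat_lit 1) (nat_lit 265) (nat_lit 1) (nat_lit 380) (nat_lit 342) (nat_lit 298)) (XT.lf (nat_lit 76) (nat_lit 1044367235) (nat_lit 0) (nat_lit 685605385) (nat_lit 608) (nat_lit 641863354) (nat_lit 251) (nat_lit 1) (nat_lit 250)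 (nat_lit 1) (nat_lit 258) (nat_lit 1) (nat_lit 381) (nat_lit 342) (nat_lit 297))) (XT.nd (nat_lit 78) (nat_lit 1064) (nat_lit 0) (XT.lf (nat_lit 76) (nat_lit 99213027) (nat_lit 0) (nat_lit 1359701935) (nat_lit 608) (nat_lit 884907952) (nat_lit 244) (nat_lit 1) (nat_lit 243) (nat_lit 1) (nat_lit 251) (nat_lit 1) (nat_lit 382) (nat_lit 342) (nat_lit 296)) (XT.nd (nat_lit 78) (nat_lit 608) (nat_lit 0) (XT.lf (nat_lit 532) (nat_lit 281785729) (nat_lit 0) (nat_lit 1197554584) (nat_lit 456) (nat_lit 836880055) (nat_lit 244) (nat_lit 1) (nat_lit 237) (nat_lit 1) (nat_lit 243) (nat_lit 1) (nat_lit 383) (nat_lit 342) (nat_lit 295)) (XT.lf (nat_lit 76) (nat_lit 537458527) (nat_lit 0) (nat_lit 410247957) (nat_lit 608) (nat_lit 1341355302) (nat_lit 230) (nat_lit 1) (nat_lit 229) (nat_lit 1) (nat_lit 237) (nat_lit 1) (nat_lit 384) (nat_lit 342) (nat_lit 294))))) (XT.nd (nat_lit 156) (nat_lit 532) (nat_lit 0)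 (XT.nd (nat_lit 78) (nat_lit 456) (nat_lit 0) (XT.lf (nat_lit 532) (nat_lit 1166715641) (nat_lit 0) (nat_lit 707961454) (nat_lit 456) (nat_lit 387640319) (nat_lit 230) (nat_lit 1) (nat_lit 223) (nat_lit 1) (nat_lit 229) (nat_lit 1) (nat_lit 385) (nat_lit 342) (nat_lit 293)) (XT.lf (nat_lit 532) (nat_lit 457187409) (nat_lit 0) (nat_lit 478857994) (nat_lit 456) (nat_lit 1299950312) (nat_lit 224) (nat_lit 1) (nat_lit 217) (nat_lit 1) (nat_lit 223) (nat_lit 1) (nat_lit 386) (nat_lit 342) (nat_lit 292))) (XT.nd (nat_lit 48984) (nat_lit 0) (nat_lit 21812) (XT.lf (nat_lit 76) (nat_lit 19059950) (nat_lit 0) (nat_lit 242900985) (nat_lit 532) (nat_lit 1948164360) (nat_lit 211) (nat_lit 1) (nat_lit 210) (nat_lit 1) (nat_lit 217) (nat_lit 1) (nat_lit 387) (nat_lit 342) (nat_lit 291)) (XT.nd (nat_lit 78) (nat_lit 0) (nat_lit 76) (XT.lf (nat_lit 1900) (nat_lit 737050134) (nat_lit 0) (nat_lit 743213587) (nat_lit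 1900) (nat_lit 737050134) (nat_lit 522) (nat_lit 1) (nat_lit 497) (nat_lit 0) (nat_lit 522) (nat_lit 0) (nat_lit 334) (nat_lit 343) (nat_lit 343)) (XT.lf (nat_lit 1900) (nat_lit 340689846) (nat_lit 0) (nat_lit 1478850061) (nat_lit 1824) (nat_lit 2550224448) (nat_lit 523) (nat_lit 1) (nat_lit 498) (nat_lit 1) (nat_lit 522) (nat_lit 1) (nat_lit 335) (nat_lit 343) (nat_lit 342))))))))
noncomputable def ec20 : XT := (XT.nd (nat_lit 1404) (nat_lit 12236) (nat_lit 0) (XT.nd (nat_lit 702) (nat_lit 3116) (nat_lit 0) (XT.nd (nat_lit 312) (nat_lit 0) (nat_lit 228) (XT.nd (nat_lit 156) (nat_lit 0) (nat_lit 152) (XT.nd (nat_lit 78) (nat_lit 0) (nat_lit 76) (XT.lf (nat_lit 1900) (nat_lit 2801823225) (nat_lit 76) (nat_lit 720390175) (nat_lit 0) (nat_lit 783920483) (nat_lit 523) (nat_lit 1) (nat_lit 499) (nat_lit 1) (nat_lit 498) (nat_lit 1) (nat_lit 336) (nat_lit 343) (nat_lit 341)) (XT.lf (nat_lit 1900) (nat_lit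 2352071600) (nat_lit 0) (nat_lit 1560792960) (nat_lit 1824) (nat_lit 330856901) (nat_lit 524) (nat_lit 1) (nat_lit 499) (nat_lit 1) (nat_lit 523) (nat_lit 1) (nat_lit 337) (nat_lit 343) (nat_lit 340))) (XT.nd (nat_lit 78) (nat_lit 0) (nat_lit 76) (XT.lf (nat_lit 1900) (nat_lit 1206631207) (nat_lit 0) (nat_lit 1647090825) (nat_lit 1824) (nat_lit 1328775632) (nat_lit 525) (nat_lit 1) (nat_lit 500) (nat_lit 1) (nat_lit 524) (nat_lit 1) (nat_lit 338) (nat_lit 343) (nat_lit 339)) (XT.lf (nat_lit 1900) (nat_lit 81037322) (nat_lit 0) (nat_lit 1757399591) (nat_lit 1824) (nat_lit 2284089682) (nat_lit 526) (nat_lit 1) (nat_lit 501) (nat_lit 1) (nat_lit 525) (nat_lit 1) (nat_lit 339) (nat_lit 343) (nat_lit 338)))) (XT.nd (nat_lit 156) (nat_lit 0) (nat_lit 152) (XT.nd (nat_lit 78) (nat_lit 0) (nat_lit 76) (XT.lf (nat_lit 1900) (nat_lit 2166270833) (nat_lit 76) (nat_lit 858861813) (nat_lit 0) (nat_lit 1038512042)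 (nat_lit 526) (nat_lit 1) (nat_lit 502) (nat_lit 1) (nat_lit 501) (nat_lit 1) (nat_lit 340) (nat_lit 343) (nat_lit 337)) (XT.lf (nat_lit 1900) (nat_lit 1867068487) (nat_lit 0) (nat_lit 2060143775) (nat_lit 1824) (nat_lit 78728075) (nat_lit 527) (nat_lit 1) (nat_lit 502) (nat_lit 1) (nat_lit 526) (nat_lit 1) (nat_lit 341) (nat_lit 343) (nat_lit 336))) (XT.nd (nat_lit 78) (nat_lit 0) (nat_lit 0) (XT.lf (nat_lit 1900) (nat_lit 735037109) (nat_lit 0) (nat_lit 2248961032) (nat_lit 1824) (nat_lit 965302790) (nat_lit 528) (nat_lit 1) (nat_lit 503) (nat_lit 1) (nat_lit 527) (nat_lit 1) (nat_lit 342) (nat_lit 343) (nat_lit 335)) (XT.nd (nat_lit 78) (nat_lit 0) (nat_lit 76) (XT.lf (nat_lit 1900) (nat_lit 1434002398) (nat_lit 76) (nat_lit 2078000888) (nat_lit 0) (nat_lit 381758322) (nat_lit 528) (nat_lit 1) (nat_lit 504) (nat_lit 1) (nat_lit 503) (nat_lit 1) (nat_lit 343) (nat_lit 343) (nat_lit 334)) (XT.lf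 (nat_lit 1900) (nat_lit 1145422446) (nat_lit 76) (nat_lit 1205799977) (nat_lit 0) (nat_lit 1488029279) (nat_lit 529) (nat_lit 1) (nat_lit 505) (nat_lit 1) (nat_lit 504) (nat_lit 1) (nat_lit 344) (nat_lit 343) (nat_lit 333)))))) (XT.nd (nat_lit 312) (nat_lit 1900) (nat_lit 0) (XT.nd (nat_lit 156) (nat_lit 1748) (nat_lit 0) (XT.nd (nat_lit 78) (nat_lit 0) (nat_lit 76) (XT.lf (nat_lit 1900) (nat_lit 840406789) (nat_lit 76) (nat_lit 371206774) (nat_lit 0) (nat_lit 2574228823) (nat_lit 530) (nat_lit 1) (nat_lit 506) (nat_lit 1) (nat_lit 505) (nat_lit 1) (nat_lit 345) (nat_lit 343) (nat_lit 332)) (XT.lf (nat_lit 1900) (nat_lit 95699984) (nat_lit 0) (nat_lit 3216482089) (nat_lit 1824) (nat_lit 421271239) (nat_lit 531) (nat_lit 1) (nat_lit 506) (nat_lit 1) (nat_lit 530) (nat_lit 1) (nat_lit 346) (nat_lit 343) (nat_lit 331))) (XT.nd (nat_lit 78) (nat_lit 1824) (nat_lit 0) (XT.lf (nat_lit 1900) (nat_lit 169838629)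 (nat_lit 76) (nat_lit 2501488437) (nat_lit 0) (nat_lit 1010613704) (nat_lit 531) (nat_lit 1) (nat_lit 507) (nat_lit 1) (nat_lit 506) (nat_lit 1) (nat_lit 347) (nat_lit 343) (nat_lit 330)) (XT.lf (nat_lit 1976) (nat_lit 1534963970) (nat_lit 0) (nat_lit 189058104) (nat_lit 1900) (nat_lit 1907403461) (nat_lit 508) (nat_lit 1) (nat_lit 482) (nat_lit 1) (nat_lit 507) (nat_lit 1) (nat_lit 348) (nat_lit 343) (nat_lit 329)))) (XT.nd (nat_lit 156) (nat_lit 1976) (nat_lit 0) (XT.nd (nat_lit 78) (nat_lit 0) (nat_lit 0) (XT.lf (nat_lit 1976) (nat_lit 421019843) (nat_lit 0) (nat_lit 558446836) (nat_lit 1900) (nat_lit 2602431370) (nat_lit 509) (nat_lit 1) (nat_lit 483) (nat_lit 1) (nat_lit 508) (nat_lit 1) (nat_lit 349) (nat_lit 343) (nat_lit 328)) (XT.lf (nat_lit 1976) (nat_lit 2589003075) (nat_lit 76) (nat_lit 263453251) (nat_lit 0) (nat_lit 680812993) (nat_lit 509) (nat_lit 1) (nat_lit 484) (nat_lit 1) (nat_lit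 483) (nat_lit 1) (nat_lit 350) (nat_lit 343) (nat_lit 327))) (XT.nd (nat_lit 78) (nat_lit 2052) (nat_lit 0) (XT.lf (nat_lit 76) (nat_lit 1721099833) (nat_lit 0) (nat_lit 1346793801) (nat_lit 1900) (nat_lit 417604414) (nat_lit 485) (nat_lit 1) (nat_lit 484) (nat_lit 1) (nat_lit 509) (nat_lit 1) (nat_lit 351) (nat_lit 343) (nat_lit 326)) (XT.nd (nat_lit 78) (nat_lit 912) (nat_lit 0) (XT.lf (nat_lit 76) (nat_lit 612958108) (nat_lit 0) (nat_lit 1761363795) (nat_lit 1216) (nat_lit 1064320939) (nat_lit 470) (nat_lit 1) (nat_lit 469) (nat_lit 1) (nat_lit 485) (nat_lit 1) (nat_lit 352) (nat_lit 343) (nat_lit 325)) (XT.lf (nat_lit 988) (nat_lit 1203895771) (nat_lit 0) (nat_lit 1708486534) (nat_lit 912) (nat_lit 480272054) (nat_lit 470) (nat_lit 1) (nat_lit 457) (nat_lit 1) (nat_lit 469) (nat_lit 1) (nat_lit 353) (nat_lit 343) (nat_lit 324))))))) (XT.nd (nat_lit 702) (nat_lit 6232) (nat_lit 0) (XT.nd (nat_lit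 312) (nat_lit 3268) (nat_lit 0) (XT.nd (nat_lit 156) (nat_lit 988) (nat_lit 0) (XT.nd (nat_lit 78) (nat_lit 836) (nat_lit 0) (XT.lf (nat_lit 988) (nat_lit 718343298) (nat_lit 0) (nat_lit 1068700521) (nat_lit 912) (nat_lit 1560452565) (nat_lit 458) (nat_lit 1) (nat_lit 445) (nat_lit 1) (nat_lit 457) (nat_lit 1) (nat_lit 354) (nat_lit 343) (nat_lit 323)) (XT.lf (nat_lit 912) (nat_lit 225291875) (nat_lit 0) (nat_lit 458204316) (nat_lit 836) (nat_lit 2619733159) (nat_lit 446) (nat_lit 1) (nat_lit 434) (nat_lit 1) (nat_lit 445) (nat_lit 1) (nat_lit 355) (nat_lit 343) (nat_lit 322))) (XT.nd (nat_lit 78) (nat_lit 912) (nat_lit 0) (XT.lf (nat_lit 76) (nat_lit 2858514730) (nat_lit 0) (nat_lit 274563664) (nat_lit 912) (nat_lit 126650585) (nat_lit 434) (nat_lit 1) (nat_lit 433) (nat_lit 1) (nat_lit 445) (nat_lit 1) (nat_lit 356) (nat_lit 343) (nat_lit 321)) (XT.lf (nat_lit 76) (nat_lit 1747760321) (nat_lit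 0) (nat_lit 785010623) (nat_lit 988) (nat_lit 684135883) (nat_lit 422) (nat_lit 1) (nat_lit 421) (nat_lit 1) (nat_lit 434) (nat_lit 1) (nat_lit 357) (nat_lit 343) (nat_lit 320)))) (XT.nd (nat_lit 156) (nat_lit 1596) (nat_lit 0) (XT.nd (nat_lit 78) (nat_lit 836) (nat_lit 0) (XT.lf (nat_lit 76) (nat_lit 658836804) (nat_lit 0) (nat_lit 1301021445) (nat_lit 912) (nat_lit 1215065048) (nat_lit 411) (nat_lit 1) (nat_lit 410) (nat_lit 1) (nat_lit 422) (nat_lit 1) (nat_lit 358) (nat_lit 343) (nat_lit 319)) (XT.lf (nat_lit 912) (nat_lit 1308883885) (nat_lit 0) (nat_lit 1410807859) (nat_lit 836) (nat_lit 414014453) (nat_lit 411) (nat_lit 1) (nat_lit 399) (nat_lit 1) (nat_lit 410) (nat_lit 1) (nat_lit 359) (nat_lit 343) (nat_lit 318))) (XT.nd (nat_lit 78) (nat_lit 836) (nat_lit 0) (XT.lf (nat_lit 836) (nat_lit 735730611) (nat_lit 0) (nat_lit 883312847) (nat_lit 760) (nat_lit 1474163940) (nat_lit 400) (nat_lit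 1) (nat_lit 389) (nat_lit 1) (nat_lit 399) (nat_lit 1) (nat_lit 360) (nat_lit 343) (nat_lit 317)) (XT.nd (nat_lit 78) (nat_lit 76) (nat_lit 0) (XT.lf (nat_lit 836) (nat_lit 159269226) (nat_lit 0) (nat_lit 381042857) (nat_lit 760) (nat_lit 2513183898) (nat_lit 390) (nat_lit 1) (nat_lit 379) (nat_lit 1) (nat_lit 389) (nat_lit 1) (nat_lit 361) (nat_lit 343) (nat_lit 316)) (XT.lf (nat_lit 76) (nat_lit 2494151723) (nat_lit 0) (nat_lit 418651951) (nat_lit 836) (nat_lit 101615514) (nat_lit 379) (nat_lit 1) (nat_lit 378) (nat_lit 1) (nat_lit 389) (nat_lit 1) (nat_lit 362) (nat_lit 343) (nat_lit 315)))))) (XT.nd (nat_lit 390) (nat_lit 2584) (nat_lit 0) (XT.nd (nat_lit 156) (nat_lit 2128) (nat_lit 0) (XT.nd (nat_lit 78) (nat_lit 760) (nat_lit 0) (XT.lf (nat_lit 76) (nat_lit 1412910626) (nat_lit 0) (nat_lit 1002753588) (nat_lit 836) (nat_lit 560295439) (nat_lit 369) (nat_lit 1) (nat_lit 368) (nat_lit 1) (nat_lit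 379) (nat_lit 1) (nat_lit 363) (nat_lit 343) (nat_lit 314)) (XT.lf (nat_lit 76) (nat_lit 353450242) (nat_lit 0) (nat_lit 1588726068) (nat_lit 836) (nat_lit 996066318) (nat_lit 359) (nat_lit 1) (nat_lit 358) (nat_lit 1) (nat_lit 369) (nat_lit 1) (nat_lit 364) (nat_lit 343) (nat_lit 313))) (XT.nd (nat_lit 78) (nat_lit 1444) (nat_lit 0) (XT.lf (nat_lit 760) (nat_lit 720420301) (nat_lit 0) (nat_lit 1487063747) (nat_lit 684) (nat_lit 693677903) (nat_lit 359) (nat_lit 1) (nat_lit 349) (nat_lit 1) (nat_lit 358) (nat_lit 1) (nat_lit 365) (nat_lit 343) (nat_lit 312)) (XT.nd (nat_lit 78) (nat_lit 760) (nat_lit 0) (XT.lf (nat_lit 760) (nat_lit 88582485) (nat_lit 0) (nat_lit 1052025674) (nat_lit 684) (nat_lit 1724140102) (nat_lit 350) (nat_lit 1) (nat_lit 340) (nat_lit 1) (nat_lit 349) (nat_lit 1) (nat_lit 366) (nat_lit 343) (nat_lit 311)) (XT.lf (nat_lit 76) (nat_lit 98973413) (nat_lit 0) (nat_lit 536213022)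 (nat_lit 760) (nat_lit 2193775689) (nat_lit 331) (nat_lit 1) (nat_lit 330) (nat_lit 1) (nat_lit 340) (nat_lit 1) (nat_lit 367) (nat_lit 343) (nat_lit 310))))) (XT.nd (nat_lit 156) (nat_lit 1900) (nat_lit 0) (XT.nd (nat_lit 78) (nat_lit 0) (nat_lit 0) (XT.lf (nat_lit 760) (nat_lit 1628009277) (nat_lit 0) (nat_lit 232748134) (nat_lit 684) (nat_lit 932969033) (nat_lit 331) (nat_lit 1) (nat_lit 321) (nat_lit 1) (nat_lit 330) (nat_lit 1) (nat_lit 368) (nat_lit 343) (nat_lit 309)) (XT.lf (nat_lit 76) (nat_lit 815169701) (nat_lit 0) (nat_lit 1796261563) (nat_lit 760) (nat_lit 147698275) (nat_lit 322) (nat_lit 1) (nat_lit 321) (nat_lit 1) (nat_lit 331) (nat_lit 1) (nat_lit 369) (nat_lit 343) (nat_lit 308))) (XT.nd (nat_lit 78) (nat_lit 1292) (nat_lit 0) (XT.lf (nat_lit 684) (nat_lit 296408981) (nat_lit 0) (nat_lit 2218507146) (nat_lit 608) (nat_lit 210218484) (nat_lit 322) (nat_lit 1) (nat_lit 313) (nat_lit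 1) (nat_lit 321) (nat_lit 1) (nat_lit 370) (nat_lit 343) (nat_lit 307)) (XT.nd (nat_lit 78) (nat_lit 608) (nat_lit 0) (XT.lf (nat_lit 76) (nat_lit 1469029016) (nat_lit 0) (nat_lit 368649642) (nat_lit 684) (nat_lit 853953442) (nat_lit 305) (nat_lit 1) (nat_lit 304) (nat_lit 1) (nat_lit 313) (nat_lit 1) (nat_lit 371) (nat_lit 343) (nat_lit 306)) (XT.lf (nat_lit 76) (nat_lit 446686745) (nat_lit 0) (nat_lit 1027676682) (nat_lit 684) (nat_lit 1184362328) (nat_lit 297) (nat_lit 1) (nat_lit 296) (nat_lit 1) (nat_lit 305) (nat_lit 1) (nat_lit 372) (nat_lit 343) (nat_lit 305))))))))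
noncomputable def ec21 : XT := (XT.nd (nat_lit 50154) (nat_lit 0) (nat_lit 17480) (XT.nd (nat_lit 702) (nat_lit 2508) (nat_lit 0) (XT.nd (nat_lit 312) (nat_lit 2128) (nat_lit 0) (XT.nd (nat_lit 156) (nat_lit 1216) (nat_lit 0) (XT.nd (nat_lit 78) (nat_lit 532) (nat_lit 0) (XT.lf (nat_lit 684) (nat_lit 938349232) (nat_lit 0) (nat_lit 1126242538) (nat_lit 608) (nat_lit 561775885) (nat_lit 297) (nat_lit 1) (nat_lit 288) (nat_lit 1) (nat_lit 296) (nat_lit 1) (nat_lit 373) (nat_lit 343) (nat_lit 304)) (XT.lf (nat_lit 608) (nat_lit 245911755) (nat_lit 0) (nat_lit 793632048) (nat_lit 532) (nat_lit 1555017762) (nat_lit 289) (nat_lit 1) (nat_lit 281) (nat_lit 1) (nat_lit 288) (nat_lit 1) (nat_lit 374) (nat_lit 343) (nat_lit 303))) (XT.nd (nat_lit 78) (nat_lit 532) (nat_lit 0) (XT.lf (nat_lit 76) (nat_lit 38759924) (nat_lit 0) (nat_lit 437299898) (nat_lit 684) (nat_lit 2087236001) (nat_lit 273) (nat_lit 1)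 (nat_lit 272) (nat_lit 1) (nat_lit 281) (nat_lit 1) (nat_lit 375) (nat_lit 343) (nat_lit 302)) (XT.lf (nat_lit 608) (nat_lit 1412506928) (nat_lit 0) (nat_lit 168030033) (nat_lit 532) (nat_lit 951923321) (nat_lit 273) (nat_lit 1) (nat_lit 265) (nat_lit 1) (nat_lit 272) (nat_lit 1) (nat_lit 376) (nat_lit 343) (nat_lit 301)))) (XT.nd (nat_lit 156) (nat_lit 1520) (nat_lit 0) (XT.nd (nat_lit 78) (nat_lit 608) (nat_lit 0) (XT.lf (nat_lit 76) (nat_lit 580765436) (nat_lit 0) (nat_lit 1799876386) (nat_lit 608) (nat_lit 121537988) (nat_lit 266) (nat_lit 1) (nat_lit 265) (nat_lit 1) (nat_lit 273) (nat_lit 1) (nat_lit 377) (nat_lit 343) (nat_lit 300)) (XT.lf (nat_lit 76) (nat_lit 2070224822) (nat_lit 0) (nat_lit 6998801) (nat_lit 608) (nat_lit 395167000) (nat_lit 258) (nat_lit 1) (nat_lit 257) (nat_lit 1) (nat_lit 265) (nat_lit 1) (nat_lit 378) (nat_lit 343) (nat_lit 299))) (XT.nd (nat_lit 78) (nat_lit 988)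 (nat_lit 0) (XT.lf (nat_lit 76) (nat_lit 1075698252) (nat_lit 0) (nat_lit 706173547) (nat_lit 608) (nat_lit 661119254) (nat_lit 251) (nat_lit 1) (nat_lit 250) (nat_lit 1) (nat_lit 258) (nat_lit 1) (nat_lit 379) (nat_lit 343) (nat_lit 298)) (XT.nd (nat_lit 78) (nat_lit 456) (nat_lit 0) (XT.lf (nat_lit 76) (nat_lit 102189418) (nat_lit 0) (nat_lit 1400492993) (nat_lit 608) (nat_lit 911455191) (nat_lit 244) (nat_lit 1) (nat_lit 243) (nat_lit 1) (nat_lit 251) (nat_lit 1) (nat_lit 380) (nat_lit 343) (nat_lit 297)) (XT.lf (nat_lit 532) (nat_lit 290239301) (nat_lit 0) (nat_lit 1233481222) (nat_lit 456) (nat_lit 861986457) (nat_lit 244) (nat_lit 1) (nat_lit 237) (nat_lit 1) (nat_lit 243) (nat_lit 1) (nat_lit 381) (nat_lit 343) (nat_lit 296)))))) (XT.nd (nat_lit 312) (nat_lit 456) (nat_lit 0) (XT.nd (nat_lit 156) (nat_lit 988) (nat_lit 0) (XT.nd (nat_lit 78) (nat_lit 456) (nat_lit 0) (XT.lf (nat_lit 76) (nat_lit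 553582283) (nat_lit 0) (nat_lit 422555395) (nat_lit 608) (nat_lit 1381595961) (nat_lit 230) (nat_lit 1) (nat_lit 229) (nat_lit 1) (nat_lit 237) (nat_lit 1) (nat_lit 382) (nat_lit 343) (nat_lit 295)) (XT.lf (nat_lit 532) (nat_lit 1201717110) (nat_lit 0) (nat_lit 729200297) (nat_lit 456) (nat_lit 399269529) (nat_lit 230) (nat_lit 1) (nat_lit 223) (nat_lit 1) (nat_lit 229) (nat_lit 1) (nat_lit 383) (nat_lit 343) (nat_lit 294))) (XT.nd (nat_lit 78) (nat_lit 532) (nat_lit 0) (XT.lf (nat_lit 532) (nat_lit 470903031) (nat_lit 0) (nat_lit 493223734) (nat_lit 456) (nat_lit 1338948822) (nat_lit 224) (nat_lit 1) (nat_lit 217) (nat_lit 1) (nat_lit 223) (nat_lit 1) (nat_lit 384) (nat_lit 343) (nat_lit 293)) (XT.lf (nat_lit 76) (nat_lit 19631748) (nat_lit 0) (nat_lit 250188014) (nat_lit 532) (nat_lit 2006609290) (nat_lit 211) (nat_lit 1) (nat_lit 210) (nat_lit 1) (nat_lit 217) (nat_lit 1) (nat_lit 385) (nat_lit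 343) (nat_lit 292)))) (XT.nd (nat_lit 48906) (nat_lit 0) (nat_lit 22268) (XT.nd (nat_lit 78) (nat_lit 0) (nat_lit 0) (XT.lf (nat_lit 532) (nat_lit 1285402007) (nat_lit 0) (nat_lit 51127916) (nat_lit 456) (nat_lit 913561167) (nat_lit 211) (nat_lit 1) (nat_lit 204) (nat_lit 1) (nat_lit 210) (nat_lit 1) (nat_lit 386) (nat_lit 343) (nat_lit 291)) (XT.lf (nat_lit 76) (nat_lit 398331185) (nat_lit 0) (nat_lit 1673816912) (nat_lit 532) (nat_lit 152063405) (nat_lit 205) (nat_lit 1) (nat_lit 204) (nat_lit 1) (nat_lit 211) (nat_lit 1) (nat_lit 387) (nat_lit 343) (nat_lit 290))) (XT.nd (nat_lit 78) (nat_lit 0) (nat_lit 76) (XT.lf (nat_lit 1900) (nat_lit 759161638) (nat_lit 0) (nat_lit 765509994) (nat_lit 1900) (nat_lit 759161638) (nat_lit 522) (nat_lit 1) (nat_lit 497) (nat_lit 0) (nat_lit 522) (nat_lit 0) (nat_lit 332) (nat_lit 344) (nat_lit 344)) (XT.nd (nat_lit 78) (nat_lit 0) (nat_lit 0) (XT.lf (nat_lit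 1900) (nat_lit 350910542) (nat_lit 0) (nat_lit 1523215562) (nat_lit 1824) (nat_lit 2626731181) (nat_lit 523) (nat_lit 1) (nat_lit 498) (nat_lit 1) (nat_lit 522) (nat_lit 1) (nat_lit 333) (nat_lit 344) (nat_lit 343)) (XT.lf (nat_lit 1900) (nat_lit 2885877922) (nat_lit 76) (nat_lit 742001880) (nat_lit 0) (nat_lit 807438098) (nat_lit 523) (nat_lit 1) (nat_lit 499) (nat_lit 1) (nat_lit 498) (nat_lit 1) (nat_lit 334) (nat_lit 344) (nat_lit 342))))))) (XT.nd (nat_lit 702) (nat_lit 4940) (nat_lit 0) (XT.nd (nat_lit 312) (nat_lit 0) (nat_lit 228) (XT.nd (nat_lit 156) (nat_lit 0) (nat_lit 152) (XT.nd (nat_lit 78) (nat_lit 0) (nat_lit 76) (XT.lf (nat_lit 1900) (nat_lit 2422633748) (nat_lit 0) (nat_lit 1607616749) (nat_lit 1824) (nat_lit 340782608) (nat_lit 524) (nat_lit 1) (nat_lit 499) (nat_lit 1) (nat_lit 523) (nat_lit 1) (nat_lit 335) (nat_lit 344) (nat_lit 341)) (XT.lf (nat_lit 1900) (nat_lit 1242830143)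 (nat_lit 0) (nat_lit 1696503549) (nat_lit 1824) (nat_lit 1368638901) (nat_lit 525) (nat_lit 1) (nat_lit 500) (nat_lit 1) (nat_lit 524) (nat_lit 1) (nat_lit 336) (nat_lit 344) (nat_lit 340))) (XT.nd (nat_lit 78) (nat_lit 0) (nat_lit 0) (XT.lf (nat_lit 1900) (nat_lit 83468441) (nat_lit 0) (nat_lit 1810121578) (nat_lit 1824) (nat_lit 2352612373) (nat_lit 526) (nat_lit 1) (nat_lit 501) (nat_lit 1) (nat_lit 525) (nat_lit 1) (nat_lit 337) (nat_lit 344) (nat_lit 339)) (XT.lf (nat_lit 1900) (nat_lit 2231258958) (nat_lit 76) (nat_lit 884627667) (nat_lit 0) (nat_lit 1069667404) (nat_lit 526) (nat_lit 1) (nat_lit 502) (nat_lit 1) (nat_lit 501) (nat_lit 1) (nat_lit 338) (nat_lit 344) (nat_lit 338)))) (XT.nd (nat_lit 156) (nat_lit 0) (nat_lit 76) (XT.nd (nat_lit 78) (nat_lit 0) (nat_lit 76) (XT.lf (nat_lit 1900) (nat_lit 1923080542) (nat_lit 0) (nat_lit 2121948088) (nat_lit 1824) (nat_lit 81089918) (nat_lit 527)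 (nat_lit 1) (nat_lit 502) (nat_lit 1) (nat_lit 526) (nat_lit 1) (nat_lit 339) (nat_lit 344) (nat_lit 337)) (XT.lf (nat_lit 1900) (nat_lit 757088223) (nat_lit 0) (nat_lit 2316429863) (nat_lit 1824) (nat_lit 994261873) (nat_lit 528) (nat_lit 1) (nat_lit 503) (nat_lit 1) (nat_lit 527) (nat_lit 1) (nat_lit 340) (nat_lit 344) (nat_lit 336))) (XT.nd (nat_lit 78) (nat_lit 0) (nat_lit 76) (XT.lf (nat_lit 1900) (nat_lit 1477022470) (nat_lit 76) (nat_lit 2140340915) (nat_lit 0) (nat_lit 393211071) (nat_lit 528) (nat_lit 1) (nat_lit 504) (nat_lit 1) (nat_lit 503) (nat_lit 1) (nat_lit 341) (nat_lit 344) (nat_lit 335)) (XT.nd (nat_lit 78) (nat_lit 0) (nat_lit 76) (XT.lf (nat_lit 1900) (nat_lit 1179785119) (nat_lit 76) (nat_lit 1241973976) (nat_lit 0) (nat_lit 1532670157) (nat_lit 529) (nat_lit 1) (nat_lit 505) (nat_lit 1) (nat_lit 504) (nat_lit 1) (nat_lit 342) (nat_lit 344) (nat_lit 334)) (XT.lf (nat_lit 1900)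 (nat_lit 865618993) (nat_lit 76) (nat_lit 382342977) (nat_lit 0) (nat_lit 2651455688) (nat_lit 530) (nat_lit 1) (nat_lit 506) (nat_lit 1) (nat_lit 505) (nat_lit 1) (nat_lit 343) (nat_lit 344) (nat_lit 333)))))) (XT.nd (nat_lit 390) (nat_lit 3648) (nat_lit 0) (XT.nd (nat_lit 156) (nat_lit 1824) (nat_lit 0) (XT.nd (nat_lit 78) (nat_lit 0) (nat_lit 0) (XT.lf (nat_lit 1900) (nat_lit 98570983) (nat_lit 0) (nat_lit 3312976551) (nat_lit 1824) (nat_lit 433909376) (nat_lit 531) (nat_lit 1) (nat_lit 506) (nat_lit 1) (nat_lit 530) (nat_lit 1) (nat_lit 344) (nat_lit 344) (nat_lit 332)) (XT.lf (nat_lit 1900) (nat_lit 174933787) (nat_lit 76) (nat_lit 2576533091) (nat_lit 0) (nat_lit 1040932115) (nat_lit 531) (nat_lit 1) (nat_lit 507) (nat_lit 1) (nat_lit 506) (nat_lit 1) (nat_lit 345) (nat_lit 344) (nat_lit 331))) (XT.nd (nat_lit 78) (nat_lit 0) (nat_lit 76) (XT.lf (nat_lit 1976) (nat_lit 1581012889) (nat_lit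 0) (nat_lit 194729847) (nat_lit 1900) (nat_lit 1964625565) (nat_lit 508) (nat_lit 1) (nat_lit 482) (nat_lit 1) (nat_lit 507) (nat_lit 1) (nat_lit 346) (nat_lit 344) (nat_lit 330)) (XT.nd (nat_lit 78) (nat_lit 0) (nat_lit 0) (XT.lf (nat_lit 1976) (nat_lit 433650438) (nat_lit 0) (nat_lit 575200241) (nat_lit 1900) (nat_lit 2680504311) (nat_lit 509) (nat_lit 1) (nat_lit 483) (nat_lit 1) (nat_lit 508) (nat_lit 1) (nat_lit 347) (nat_lit 344) (nat_lit 329)) (XT.lf (nat_lit 1976) (nat_lit 2666673168) (nat_lit 76) (nat_lit 271356848) (nat_lit 0) (nat_lit 701237383) (nat_lit 509) (nat_lit 1) (nat_lit 484) (nat_lit 1) (nat_lit 483) (nat_lit 1) (nat_lit 348) (nat_lit 344) (nat_lit 328))))) (XT.nd (nat_lit 156) (nat_lit 2660) (nat_lit 0) (XT.nd (nat_lit 78) (nat_lit 1140) (nat_lit 0) (XT.lf (nat_lit 76) (nat_lit 1772732828) (nat_lit 0) (nat_lit 1387197615) (nat_lit 1900) (nat_lit 430132547) (nat_lit 485) (nat_lit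 1) (nat_lit 484) (nat_lit 1) (nat_lit 509) (nat_lit 1) (nat_lit 349) (nat_lit 344) (nat_lit 327)) (XT.lf (nat_lit 76) (nat_lit 631346851) (nat_lit 0) (nat_lit 1814204709) (nat_lit 1216) (nat_lit 1096250568) (nat_lit 470) (nat_lit 1) (nat_lit 469) (nat_lit 1) (nat_lit 485) (nat_lit 1) (nat_lit 350) (nat_lit 344) (nat_lit 326))) (XT.nd (nat_lit 78) (nat_lit 1748) (nat_lit 0) (XT.lf (nat_lit 988) (nat_lit 1240012644) (nat_lit 0) (nat_lit 1759741130) (nat_lit 912) (nat_lit 494680215) (nat_lit 470) (nat_lit 1) (nat_lit 457) (nat_lit 1) (nat_lit 469) (nat_lit 1) (nat_lit 351) (nat_lit 344) (nat_lit 325)) (XT.nd (nat_lit 78) (nat_lit 836) (nat_lit 0) (XT.lf (nat_lit 988) (nat_lit 739893597) (nat_lit 0) (nat_lit 1100761536) (nat_lit 912) (nat_lit 1607266142) (nat_lit 458) (nat_lit 1) (nat_lit 445) (nat_lit 1) (nat_lit 457) (nat_lit 1) (nat_lit 352) (nat_lit 344) (nat_lit 324)) (XT.lf (nat_lit 912) (nat_lit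 232050631) (nat_lit 0) (nat_lit 471950445) (nat_lit 836) (nat_lit 2698325154) (nat_lit 446) (nat_lit 1) (nat_lit 434) (nat_lit 1) (nat_lit 445) (nat_lit 1) (nat_lit 353) (nat_lit 344) (nat_lit 323))))))))
noncomputable def ec22 : XT := (XT.nd (nat_lit 1404) (nat_lit 6840) (nat_lit 0) (XT.nd (nat_lit 702) (nat_lit 5320) (nat_lit 0) (XT.nd (nat_lit 312) (nat_lit 3116) (nat_lit 0) (XT.nd (nat_lit 156) (nat_lit 1672) (nat_lit 0) (XT.nd (nat_lit 78) (nat_lit 912) (nat_lit 0) (XT.lf (nat_lit 76) (nat_lit 2944270172) (nat_lit 0) (nat_lit 282800574) (nat_lit 912) (nat_lit 130450102) (nat_lit 434) (nat_lit 1) (nat_lit 433) (nat_lit 1) (nat_lit 445) (nat_lit 1) (nat_lit 354) (nat_lit 344) (nat_lit 322)) (XT.lf (nat_lit 76) (nat_lit 1800193130) (nat_lit 0) (nat_lit 808560942) (nat_lit 988) (nat_lit 704659960) (nat_lit 422) (nat_lit 1) (nat_lit 421) (nat_lit 1) (nat_lit 434) (nat_lit 1) (nat_lit 355) (nat_lit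 344) (nat_lit 321))) (XT.nd (nat_lit 78) (nat_lit 836) (nat_lit 0) (XT.lf (nat_lit 76) (nat_lit 678601908) (nat_lit 0) (nat_lit 1340052088) (nat_lit 912) (nat_lit 1251516999) (nat_lit 411) (nat_lit 1) (nat_lit 410) (nat_lit 1) (nat_lit 422) (nat_lit 1) (nat_lit 356) (nat_lit 344) (nat_lit 320)) (XT.lf (nat_lit 912) (nat_lit 1348150402) (nat_lit 0) (nat_lit 1453132095) (nat_lit 836) (nat_lit 426434887) (nat_lit 411) (nat_lit 1) (nat_lit 399) (nat_lit 1) (nat_lit 410) (nat_lit 1) (nat_lit 357) (nat_lit 344) (nat_lit 319)))) (XT.nd (nat_lit 156) (nat_lit 1596) (nat_lit 0) (XT.nd (nat_lit 78) (nat_lit 760) (nat_lit 0) (XT.lf (nat_lit 836) (nat_lit 757802529) (nat_lit 0) (nat_lit 909812232) (nat_lit 760) (nat_lit 1518388858) (nat_lit 400) (nat_lit 1) (nat_lit 389) (nat_lit 1) (nat_lit 399) (nat_lit 1) (nat_lit 358) (nat_lit 344) (nat_lit 318)) (XT.lf (nat_lit 836) (nat_lit 164047303) (nat_lit 0) (nat_lit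 392474143) (nat_lit 760) (nat_lit 2588579415) (nat_lit 390) (nat_lit 1) (nat_lit 379) (nat_lit 1) (nat_lit 389) (nat_lit 1) (nat_lit 359) (nat_lit 344) (nat_lit 317))) (XT.nd (nat_lit 78) (nat_lit 1520) (nat_lit 0) (XT.lf (nat_lit 76) (nat_lit 2568976275) (nat_lit 0) (nat_lit 431211510) (nat_lit 836) (nat_lit 104663979) (nat_lit 379) (nat_lit 1) (nat_lit 378) (nat_lit 1) (nat_lit 389) (nat_lit 1) (nat_lit 360) (nat_lit 344) (nat_lit 316)) (XT.nd (nat_lit 78) (nat_lit 760) (nat_lit 0) (XT.lf (nat_lit 76) (nat_lit 1455297945) (nat_lit 0) (nat_lit 1032836195) (nat_lit 836) (nat_lit 577104302) (nat_lit 369) (nat_lit 1) (nat_lit 368) (nat_lit 1) (nat_lit 379) (nat_lit 1) (nat_lit 361) (nat_lit 344) (nat_lit 315)) (XT.lf (nat_lit 76) (nat_lit 364053749) (nat_lit 0) (nat_lit 1636387850) (nat_lit 836) (nat_lit 1025948308) (nat_lit 359) (nat_lit 1) (nat_lit 358) (nat_lit 1) (nat_lit 369) (nat_lit 1) (nat_lit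 362) (nat_lit 344) (nat_lit 314)))))) (XT.nd (nat_lit 312) (nat_lit 2508) (nat_lit 0) (XT.nd (nat_lit 156) (nat_lit 1444) (nat_lit 0) (XT.nd (nat_lit 78) (nat_lit 684) (nat_lit 0) (XT.lf (nat_lit 760) (nat_lit 742032910) (nat_lit 0) (nat_lit 1531675660) (nat_lit 684) (nat_lit 714488240) (nat_lit 359) (nat_lit 1) (nat_lit 349) (nat_lit 1) (nat_lit 358) (nat_lit 1) (nat_lit 363) (nat_lit 344) (nat_lit 313)) (XT.lf (nat_lit 760) (nat_lit 91239960) (nat_lit 0) (nat_lit 1083586444) (nat_lit 684) (nat_lit 1775864305) (nat_lit 350) (nat_lit 1) (nat_lit 340) (nat_lit 1) (nat_lit 349) (nat_lit 1) (nat_lit 364) (nat_lit 344) (nat_lit 312))) (XT.nd (nat_lit 78) (nat_lit 684) (nat_lit 0) (XT.lf (nat_lit 76) (nat_lit 101942615) (nat_lit 0) (nat_lit 552299413) (nat_lit 760) (nat_lit 2259588960) (nat_lit 331) (nat_lit 1) (nat_lit 330) (nat_lit 1) (nat_lit 340) (nat_lit 1) (nat_lit 365) (nat_lit 344) (nat_lit 311))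 (XT.lf (nat_lit 760) (nat_lit 1676849555) (nat_lit 0) (nat_lit 239730578) (nat_lit 684) (nat_lit 960958104) (nat_lit 331) (nat_lit 1) (nat_lit 321) (nat_lit 1) (nat_lit 330) (nat_lit 1) (nat_lit 366) (nat_lit 344) (nat_lit 310)))) (XT.nd (nat_lit 156) (nat_lit 1900) (nat_lit 0) (XT.nd (nat_lit 78) (nat_lit 608) (nat_lit 0) (XT.lf (nat_lit 76) (nat_lit 839624792) (nat_lit 0) (nat_lit 1850149410) (nat_lit 760) (nat_lit 152129223) (nat_lit 322) (nat_lit 1) (nat_lit 321) (nat_lit 1) (nat_lit 331) (nat_lit 1) (nat_lit 367) (nat_lit 344) (nat_lit 309)) (XT.lf (nat_lit 684) (nat_lit 305301250) (nat_lit 0) (nat_lit 2285062361) (nat_lit 608) (nat_lit 216525038) (nat_lit 322) (nat_lit 1) (nat_lit 313) (nat_lit 1) (nat_lit 321) (nat_lit 1) (nat_lit 368) (nat_lit 344) (nat_lit 308))) (XT.nd (nat_lit 78) (nat_lit 1216) (nat_lit 0) (XT.lf (nat_lit 76) (nat_lit 1513099886) (nat_lit 0) (nat_lit 379709131) (nat_lit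 684) (nat_lit 879572045) (nat_lit 305) (nat_lit 1) (nat_lit 304) (nat_lit 1) (nat_lit 313) (nat_lit 1) (nat_lit 369) (nat_lit 344) (nat_lit 307)) (XT.nd (nat_lit 78) (nat_lit 608) (nat_lit 0) (XT.lf (nat_lit 76) (nat_lit 460087348) (nat_lit 0) (nat_lit 1058506982) (nat_lit 684) (nat_lit 1219893198) (nat_lit 297) (nat_lit 1) (nat_lit 296) (nat_lit 1) (nat_lit 305) (nat_lit 1) (nat_lit 370) (nat_lit 344) (nat_lit 306)) (XT.lf (nat_lit 684) (nat_lit 966499709) (nat_lit 0) (nat_lit 1160029814) (nat_lit 608) (nat_lit 578629162) (nat_lit 297) (nat_lit 1) (nat_lit 288) (nat_lit 1) (nat_lit 296) (nat_lit 1) (nat_lit 371) (nat_lit 344) (nat_lit 305))))))) (XT.nd (nat_lit 702) (nat_lit 2356) (nat_lit 0) (XT.nd (nat_lit 312) (nat_lit 2736) (nat_lit 0) (XT.nd (nat_lit 156) (nat_lit 532) (nat_lit 0) (XT.nd (nat_lit 78) (nat_lit 684) (nat_lit 0) (XT.lf (nat_lit 608) (nat_lit 253289108) (nat_lit 0) (nat_lit 817441010)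 (nat_lit 532) (nat_lit 1601668295) (nat_lit 289) (nat_lit 1) (nat_lit 281) (nat_lit 1) (nat_lit 288) (nat_lit 1) (nat_lit 372) (nat_lit 344) (nat_lit 304)) (XT.lf (nat_lit 76) (nat_lit 39922722) (nat_lit 0) (nat_lit 450418894) (nat_lit 684) (nat_lit 2149853081) (nat_lit 273) (nat_lit 1) (nat_lit 272) (nat_lit 1) (nat_lit 281) (nat_lit 1) (nat_lit 373) (nat_lit 344) (nat_lit 303))) (XT.nd (nat_lit 78) (nat_lit 0) (nat_lit 0) (XT.lf (nat_lit 608) (nat_lit 1454882136) (nat_lit 0) (nat_lit 173070933) (nat_lit 532) (nat_lit 980481021) (nat_lit 273) (nat_lit 1) (nat_lit 265) (nat_lit 1) (nat_lit 272) (nat_lit 1) (nat_lit 374) (nat_lit 344) (nat_lit 302)) (XT.lf (nat_lit 76) (nat_lit 598188399) (nat_lit 0) (nat_lit 1853872678) (nat_lit 608) (nat_lit 125184128) (nat_lit 266) (nat_lit 1) (nat_lit 265) (nat_lit 1) (nat_lit 273) (nat_lit 1) (nat_lit 375) (nat_lit 344) (nat_lit 301)))) (XT.nd (nat_lit 156) (nat_lit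 1596) (nat_lit 0) (XT.nd (nat_lit 78) (nat_lit 532) (nat_lit 0) (XT.lf (nat_lit 76) (nat_lit 2132331566) (nat_lit 0) (nat_lit 7208765) (nat_lit 608) (nat_lit 407022010) (nat_lit 258) (nat_lit 1) (nat_lit 257) (nat_lit 1) (nat_lit 265) (nat_lit 1) (nat_lit 376) (nat_lit 344) (nat_lit 300)) (XT.lf (nat_lit 76) (nat_lit 1107969200) (nat_lit 0) (nat_lit 727358753) (nat_lit 608) (nat_lit 680952832) (nat_lit 251) (nat_lit 1) (nat_lit 250) (nat_lit 1) (nat_lit 258) (nat_lit 1) (nat_lit 377) (nat_lit 344) (nat_lit 299))) (XT.nd (nat_lit 78) (nat_lit 1064) (nat_lit 0) (XT.lf (nat_lit 76) (nat_lit 105255101) (nat_lit 0) (nat_lit 1442507783) (nat_lit 608) (nat_lit 938798846) (nat_lit 244) (nat_lit 1) (nat_lit 243) (nat_lit 1) (nat_lit 251) (nat_lit 1) (nat_lit 378) (nat_lit 344) (nat_lit 298)) (XT.nd (nat_lit 78) (nat_lit 608) (nat_lit 0) (XT.lf (nat_lit 532) (nat_lit 298946480) (nat_lit 0) (nat_lit 1270485659)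 (nat_lit 456) (nat_lit 887846051) (nat_lit 244) (nat_lit 1) (nat_lit 237) (nat_lit 1) (nat_lit 243) (nat_lit 1) (nat_lit 379) (nat_lit 344) (nat_lit 297)) (XT.lf (nat_lit 76) (nat_lit 570189751) (nat_lit 0) (nat_lit 435232057) (nat_lit 608) (nat_lit 1423043840) (nat_lit 230) (nat_lit 1) (nat_lit 229) (nat_lit 1) (nat_lit 237) (nat_lit 1) (nat_lit 380) (nat_lit 344) (nat_lit 296)))))) (XT.nd (nat_lit 390) (nat_lit 456) (nat_lit 0) (XT.nd (nat_lit 156) (nat_lit 988) (nat_lit 0) (XT.nd (nat_lit 78) (nat_lit 456) (nat_lit 0) (XT.lf (nat_lit 532) (nat_lit 1237768624) (nat_lit 0) (nat_lit 751076306) (nat_lit 456) (nat_lit 411247615) (nat_lit 230) (nat_lit 1) (nat_lit 223) (nat_lit 1) (nat_lit 229) (nat_lit 1) (nat_lit 381) (nat_lit 344) (nat_lit 295)) (XT.lf (nat_lit 532) (nat_lit 485030122) (nat_lit 0) (nat_lit 508020446) (nat_lit 456) (nat_lit 1379117286) (nat_lit 224) (nat_lit 1) (nat_lit 217) (nat_lit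 1) (nat_lit 223) (nat_lit 1) (nat_lit 382) (nat_lit 344) (nat_lit 294))) (XT.nd (nat_lit 78) (nat_lit 456) (nat_lit 0) (XT.lf (nat_lit 76) (nat_lit 20220701) (nat_lit 0) (nat_lit 257693655) (nat_lit 532) (nat_lit 2066807569) (nat_lit 211) (nat_lit 1) (nat_lit 210) (nat_lit 1) (nat_lit 217) (nat_lit 1) (nat_lit 383) (nat_lit 344) (nat_lit 293)) (XT.nd (nat_lit 78) (nat_lit 0) (nat_lit 0) (XT.lf (nat_lit 532) (nat_lit 1323964067) (nat_lit 0) (nat_lit 52661754) (nat_lit 456) (nat_lit 940968002) (nat_lit 211) (nat_lit 1) (nat_lit 204) (nat_lit 1) (nat_lit 210) (nat_lit 1) (nat_lit 384) (nat_lit 344) (nat_lit 292)) (XT.lf (nat_lit 76) (nat_lit 410281120) (nat_lit 0) (nat_lit 1724031420) (nat_lit 532) (nat_lit 156625307) (nat_lit 205) (nat_lit 1) (nat_lit 204) (nat_lit 1) (nat_lit 211) (nat_lit 1) (nat_lit 385) (nat_lit 344) (nat_lit 291))))) (XT.nd (nat_lit 48828) (nat_lit 0) (nat_lit 22800) (XT.nd (nat_lit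 48750) (nat_lit 0) (nat_lit 22724) (XT.lf (nat_lit 76) (nat_lit 1723801751) (nat_lit 0) (nat_lit 184346132) (nat_lit 456) (nat_lit 356519552) (nat_lit 199) (nat_lit 1) (nat_lit 198) (nat_lit 1) (nat_lit 204) (nat_lit 1) (nat_lit 386) (nat_lit 344) (nat_lit 290)) (XT.lf (nat_lit 1900) (nat_lit 781936487) (nat_lit 0) (nat_lit 788475294) (nat_lit 1900) (nat_lit 781936487) (nat_lit 522) (nat_lit 1) (nat_lit 497) (nat_lit 0) (nat_lit 522) (nat_lit 0) (nat_lit 330) (nat_lit 345) (nat_lit 345))) (XT.nd (nat_lit 78) (nat_lit 0) (nat_lit 0) (XT.lf (nat_lit 1900) (nat_lit 361437858) (nat_lit 0) (nat_lit 1568912029) (nat_lit 1824) (nat_lit 2705533117) (nat_lit 523) (nat_lit 1) (nat_lit 498) (nat_lit 1) (nat_lit 522) (nat_lit 1) (nat_lit 331) (nat_lit 345) (nat_lit 344)) (XT.nd (nat_lit 78) (nat_lit 0) (nat_lit 76) (XT.lf (nat_lit 1900) (nat_lit 2972454260) (nat_lit 76) (nat_lit 764261937) (nat_lit 0) (nat_lit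 831661240) (nat_lit 523) (nat_lit 1) (nat_lit 499) (nat_lit 1) (nat_lit 498) (nat_lit 1) (nat_lit 332) (nat_lit 345) (nat_lit 343)) (XT.lf (nat_lit 1900) (nat_lit 2495312761) (nat_lit 0) (nat_lit 1655845251) (nat_lit 1824) (nat_lit 351006087) (nat_lit 524) (nat_lit 1) (nat_lit 499) (nat_lit 1) (nat_lit 523) (nat_lit 1) (nat_lit 333) (nat_lit 345) (nat_lit 342))))))))
noncomputable def ec23 : XT := (XT.nd (nat_lit 1404) (nat_lit 11628) (nat_lit 0) (XT.nd (nat_lit 702) (nat_lit 5016) (nat_lit 0) (XT.nd (nat_lit 312) (nat_lit 0) (nat_lit 228) (XT.nd (nat_lit 156) (nat_lit 0) (nat_lit 76) (XT.nd (nat_lit 78) (nat_lit 0) (nat_lit 76) (XT.lf (nat_lit 1900) (nat_lit 1280115048) (nat_lit 0) (nat_lit 1747398656) (nat_lit 1824) (nat_lit 1409698068) (nat_lit 525) (nat_lit 1) (nat_lit 500) (nat_lit 1) (nat_lit 524) (nat_lit 1) (nat_lit 334) (nat_lit 345) (nat_lit 341)) (XT.lf (nat_lit 1900) (nat_lit 85972495)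 (nat_lit 0) (nat_lit 1864425226) (nat_lit 1824) (nat_lit 2423190744) (nat_lit 526) (nat_lit 1) (nat_lit 501) (nat_lit 1) (nat_lit 525) (nat_lit 1) (nat_lit 335) (nat_lit 345) (nat_lit 340))) (XT.nd (nat_lit 78) (nat_lit 0) (nat_lit 76) (XT.lf (nat_lit 1900) (nat_lit 2298196727) (nat_lit 76) (nat_lit 911166497) (nat_lit 0) (nat_lit 1101757426) (nat_lit 526) (nat_lit 1) (nat_lit 502) (nat_lit 1) (nat_lit 501) (nat_lit 1) (nat_lit 336) (nat_lit 345) (nat_lit 339)) (XT.lf (nat_lit 1900) (nat_lit 1980772958) (nat_lit 0) (nat_lit 2185606531) (nat_lit 1824) (nat_lit 83522615) (nat_lit 527) (nat_lit 1) (nat_lit 502) (nat_lit 1) (nat_lit 526) (nat_lit 1) (nat_lit 337) (nat_lit 345) (nat_lit 338)))) (XT.nd (nat_lit 156) (nat_lit 0) (nat_lit 76) (XT.nd (nat_lit 78) (nat_lit 0) (nat_lit 0) (XT.lf (nat_lit 1900) (nat_lit 779800869) (nat_lit 0) (nat_lit 2385922759) (nat_lit 1824) (nat_lit 1024089730) (nat_lit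 528) (nat_lit 1) (nat_lit 503) (nat_lit 1) (nat_lit 527) (nat_lit 1) (nat_lit 338) (nat_lit 345) (nat_lit 337)) (XT.lf (nat_lit 1900) (nat_lit 1521333144) (nat_lit 76) (nat_lit 2204551142) (nat_lit 0) (nat_lit 405007403) (nat_lit 528) (nat_lit 1) (nat_lit 504) (nat_lit 1) (nat_lit 503) (nat_lit 1) (nat_lit 339) (nat_lit 345) (nat_lit 336))) (XT.nd (nat_lit 78) (nat_lit 0) (nat_lit 76) (XT.lf (nat_lit 1900) (nat_lit 1215178673) (nat_lit 76) (nat_lit 1279233196) (nat_lit 0) (nat_lit 1578650262) (nat_lit 529) (nat_lit 1) (nat_lit 505) (nat_lit 1) (nat_lit 504) (nat_lit 1) (nat_lit 340) (nat_lit 345) (nat_lit 335)) (XT.nd (nat_lit 78) (nat_lit 0) (nat_lit 76) (XT.lf (nat_lit 1900) (nat_lit 891587563) (nat_lit 76) (nat_lit 393813266) (nat_lit 0) (nat_lit 2730999358) (nat_lit 530) (nat_lit 1) (nat_lit 506) (nat_lit 1) (nat_lit 505) (nat_lit 1) (nat_lit 341) (nat_lit 345) (nat_lit 334)) (XT.lf (nat_lit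 1900) (nat_lit 101528113) (nat_lit 0) (nat_lit 3412365848) (nat_lit 1824) (nat_lit 446926657) (nat_lit 531) (nat_lit 1) (nat_lit 506) (nat_lit 1) (nat_lit 530) (nat_lit 1) (nat_lit 342) (nat_lit 345) (nat_lit 333)))))) (XT.nd (nat_lit 312) (nat_lit 3648) (nat_lit 0) (XT.nd (nat_lit 156) (nat_lit 0) (nat_lit 76) (XT.nd (nat_lit 78) (nat_lit 1824) (nat_lit 0) (XT.lf (nat_lit 1900) (nat_lit 180181801) (nat_lit 76) (nat_lit 2653829083) (nat_lit 0) (nat_lit 1072160078) (nat_lit 531) (nat_lit 1) (nat_lit 507) (nat_lit 1) (nat_lit 506) (nat_lit 1) (nat_lit 343) (nat_lit 345) (nat_lit 332)) (XT.lf (nat_lit 1976) (nat_lit 1628443276) (nat_lit 0) (nat_lit 200571742) (nat_lit 1900) (nat_lit 2023564332) (nat_lit 508) (nat_lit 1) (nat_lit 482) (nat_lit 1) (nat_lit 507) (nat_lit 1) (nat_lit 344) (nat_lit 345) (nat_lit 331))) (XT.nd (nat_lit 78) (nat_lit 0) (nat_lit 0) (XT.lf (nat_lit 1976) (nat_lit 446659951)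 (nat_lit 0) (nat_lit 592456248) (nat_lit 1900) (nat_lit 2760919441) (nat_lit 509) (nat_lit 1) (nat_lit 483) (nat_lit 1) (nat_lit 508) (nat_lit 1) (nat_lit 345) (nat_lit 345) (nat_lit 330)) (XT.lf (nat_lit 1976) (nat_lit 2746673363) (nat_lit 76) (nat_lit 279497554) (nat_lit 0) (nat_lit 722274504) (nat_lit 509) (nat_lit 1) (nat_lit 484) (nat_lit 1) (nat_lit 483) (nat_lit 1) (nat_lit 346) (nat_lit 345) (nat_lit 329)))) (XT.nd (nat_lit 156) (nat_lit 2660) (nat_lit 0) (XT.nd (nat_lit 78) (nat_lit 1140) (nat_lit 0) (XT.lf (nat_lit 76) (nat_lit 1825914812) (nat_lit 0) (nat_lit 1428813544) (nat_lit 1900) (nat_lit 443036523) (nat_lit 485) (nat_lit 1) (nat_lit 484) (nat_lit 1) (nat_lit 509) (nat_lit 1) (nat_lit 347) (nat_lit 345) (nat_lit 328)) (XT.lf (nat_lit 76) (nat_lit 650287257) (nat_lit 0) (nat_lit 1868630851) (nat_lit 1216) (nat_lit 1129138085) (nat_lit 470) (nat_lit 1) (nat_lit 469) (nat_lit 1) (nat_lit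 485) (nat_lit 1) (nat_lit 348) (nat_lit 345) (nat_lit 327))) (XT.nd (nat_lit 78) (nat_lit 1748) (nat_lit 0) (XT.lf (nat_lit 988) (nat_lit 1277213023) (nat_lit 0) (nat_lit 1812533364) (nat_lit 912) (nat_lit 509520622) (nat_lit 470) (nat_lit 1) (nat_lit 457) (nat_lit 1) (nat_lit 469) (nat_lit 1) (nat_lit 349) (nat_lit 345) (nat_lit 326)) (XT.nd (nat_lit 78) (nat_lit 836) (nat_lit 0) (XT.lf (nat_lit 988) (nat_lit 762090404) (nat_lit 0) (nat_lit 1133784382) (nat_lit 912) (nat_lit 1655484126) (nat_lit 458) (nat_lit 1) (nat_lit 445) (nat_lit 1) (nat_lit 457) (nat_lit 1) (nat_lit 350) (nat_lit 345) (nat_lit 325)) (XT.lf (nat_lit 912) (nat_lit 239012150) (nat_lit 0) (nat_lit 486108959) (nat_lit 836) (nat_lit 2779274909) (nat_lit 446) (nat_lit 1) (nat_lit 434) (nat_lit 1) (nat_lit 445) (nat_lit 1) (nat_lit 351) (nat_lit 345) (nat_lit 324))))))) (XT.nd (nat_lit 702) (nat_lit 5852) (nat_lit 0) (XT.nd (nat_lit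 312) (nat_lit 3116) (nat_lit 0) (XT.nd (nat_lit 156) (nat_lit 1672) (nat_lit 0) (XT.nd (nat_lit 78) (nat_lit 912) (nat_lit 0) (XT.lf (nat_lit 76) (nat_lit 3032598277) (nat_lit 0) (nat_lit 291284592) (nat_lit 912) (nat_lit 134363605) (nat_lit 434) (nat_lit 1) (nat_lit 433) (nat_lit 1) (nat_lit 445) (nat_lit 1) (nat_lit 352) (nat_lit 345) (nat_lit 323)) (XT.lf (nat_lit 76) (nat_lit 1854198924) (nat_lit 0) (nat_lit 832817770) (nat_lit 988) (nat_lit 725799758) (nat_lit 422) (nat_lit 1) (nat_lit 421) (nat_lit 1) (nat_lit 434) (nat_lit 1) (nat_lit 353) (nat_lit 345) (nat_lit 322))) (XT.nd (nat_lit 78) (nat_lit 836) (nat_lit 0) (XT.lf (nat_lit 76) (nat_lit 698959965) (nat_lit 0) (nat_lit 1380253651) (nat_lit 912) (nat_lit 1289062509) (nat_lit 411) (nat_lit 1) (nat_lit 410) (nat_lit 1) (nat_lit 422) (nat_lit 1) (nat_lit 354) (nat_lit 345) (nat_lit 321)) (XT.lf (nat_lit 912) (nat_lit 1388594914) (nat_lit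 0) (nat_lit 1496726058) (nat_lit 836) (nat_lit 439227934) (nat_lit 411) (nat_lit 1) (nat_lit 399) (nat_lit 1) (nat_lit 410) (nat_lit 1) (nat_lit 355) (nat_lit 345) (nat_lit 320)))) (XT.nd (nat_lit 156) (nat_lit 1596) (nat_lit 0) (XT.nd (nat_lit 78) (nat_lit 760) (nat_lit 0) (XT.lf (nat_lit 836) (nat_lit 780536605) (nat_lit 0) (nat_lit 937106599) (nat_lit 760) (nat_lit 1563940524) (nat_lit 400) (nat_lit 1) (nat_lit 389) (nat_lit 1) (nat_lit 399) (nat_lit 1) (nat_lit 356) (nat_lit 345) (nat_lit 319)) (XT.lf (nat_lit 836) (nat_lit 168968722) (nat_lit 0) (nat_lit 404248367) (nat_lit 760) (nat_lit 2666236797) (nat_lit 390) (nat_lit 1) (nat_lit 379) (nat_lit 1) (nat_lit 389) (nat_lit 1) (nat_lit 357) (nat_lit 345) (nat_lit 318))) (XT.nd (nat_lit 78) (nat_lit 1520) (nat_lit 0) (XT.lf (nat_lit 76) (nat_lit 2646045563) (nat_lit 0) (nat_lit 444147855) (nat_lit 836) (nat_lit 107803898) (nat_lit 379) (nat_lit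 1) (nat_lit 378) (nat_lit 1) (nat_lit 389) (nat_lit 1) (nat_lit 358) (nat_lit 345) (nat_lit 317)) (XT.nd (nat_lit 78) (nat_lit 760) (nat_lit 0) (XT.lf (nat_lit 76) (nat_lit 1498956883) (nat_lit 0) (nat_lit 1063821281) (nat_lit 836) (nat_lit 594417431) (nat_lit 369) (nat_lit 1) (nat_lit 368) (nat_lit 1) (nat_lit 379) (nat_lit 1) (nat_lit 359) (nat_lit 345) (nat_lit 316)) (XT.lf (nat_lit 76) (nat_lit 374975362) (nat_lit 0) (nat_lit 1685479485) (nat_lit 836) (nat_lit 1056726757) (nat_lit 359) (nat_lit 1) (nat_lit 358) (nat_lit 1) (nat_lit 369) (nat_lit 1) (nat_lit 360) (nat_lit 345) (nat_lit 315)))))) (XT.nd (nat_lit 390) (nat_lit 3040) (nat_lit 0) (XT.nd (nat_lit 156) (nat_lit 1444) (nat_lit 0) (XT.nd (nat_lit 78) (nat_lit 684) (nat_lit 0) (XT.lf (nat_lit 760) (nat_lit 764293898) (nat_lit 0) (nat_lit 1577625930) (nat_lit 684) (nat_lit 735922888) (nat_lit 359) (nat_lit 1) (nat_lit 349) (nat_lit 1) (nat_lit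 358) (nat_lit 1) (nat_lit 361) (nat_lit 345) (nat_lit 314)) (XT.lf (nat_lit 760) (nat_lit 93977158) (nat_lit 0) (nat_lit 1116094038) (nat_lit 684) (nat_lit 1829140234) (nat_lit 350) (nat_lit 1) (nat_lit 340) (nat_lit 1) (nat_lit 349) (nat_lit 1) (nat_lit 362) (nat_lit 345) (nat_lit 313))) (XT.nd (nat_lit 78) (nat_lit 684) (nat_lit 0) (XT.lf (nat_lit 76) (nat_lit 105000893) (nat_lit 0) (nat_lit 568868395) (nat_lit 760) (nat_lit 2327376629) (nat_lit 331) (nat_lit 1) (nat_lit 330) (nat_lit 1) (nat_lit 340) (nat_lit 1) (nat_lit 363) (nat_lit 345) (nat_lit 312)) (XT.nd (nat_lit 78) (nat_lit 0) (nat_lit 0) (XT.lf (nat_lit 760) (nat_lit 1727155042) (nat_lit 0) (nat_lit 246922496) (nat_lit 684) (nat_lit 989786847) (nat_lit 331) (nat_lit 1) (nat_lit 321) (nat_lit 1) (nat_lit 330) (nat_lit 1) (nat_lit 364) (nat_lit 345) (nat_lit 311)) (XT.lf (nat_lit 76) (nat_lit 864813536) (nat_lit 0) (nat_lit 1905653892)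 (nat_lit 760) (nat_lit 156693100) (nat_lit 322) (nat_lit 1) (nat_lit 321) (nat_lit 1) (nat_lit 331) (nat_lit 1) (nat_lit 365) (nat_lit 345) (nat_lit 310))))) (XT.nd (nat_lit 156) (nat_lit 1748) (nat_lit 0) (XT.nd (nat_lit 78) (nat_lit 684) (nat_lit 0) (XT.lf (nat_lit 684) (nat_lit 314460288) (nat_lit 0) (nat_lit 2353614232) (nat_lit 608) (nat_lit 223020790) (nat_lit 322) (nat_lit 1) (nat_lit 313) (nat_lit 1) (nat_lit 321) (nat_lit 1) (nat_lit 366) (nat_lit 345) (nat_lit 309)) (XT.lf (nat_lit 76) (nat_lit 1558492883) (nat_lit 0) (nat_lit 391100405) (nat_lit 684) (nat_lit 905959206) (nat_lit 305) (nat_lit 1) (nat_lit 304) (nat_lit 1) (nat_lit 313) (nat_lit 1) (nat_lit 367) (nat_lit 345) (nat_lit 308))) (XT.nd (nat_lit 78) (nat_lit 1140) (nat_lit 0) (XT.lf (nat_lit 76) (nat_lit 473889968) (nat_lit 0) (nat_lit 1090262192) (nat_lit 684) (nat_lit 1256489994) (nat_lit 297) (nat_lit 1) (nat_lit 296) (nat_lit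 1) (nat_lit 305) (nat_lit 1) (nat_lit 368) (nat_lit 345) (nat_lit 307)) (XT.nd (nat_lit 78) (nat_lit 532) (nat_lit 0) (XT.lf (nat_lit 684) (nat_lit 995494700) (nat_lit 0) (nat_lit 1194830708) (nat_lit 608) (nat_lit 595988037) (nat_lit 297) (nat_lit 1) (nat_lit 288) (nat_lit 1) (nat_lit 296) (nat_lit 1) (nat_lit 369) (nat_lit 345) (nat_lit 306)) (XT.lf (nat_lit 608) (nat_lit 260887781) (nat_lit 0) (nat_lit 841964240) (nat_lit 532) (nat_lit 1649718343) (nat_lit 289) (nat_lit 1) (nat_lit 281) (nat_lit 1) (nat_lit 288) (nat_lit 1) (nat_lit 370) (nat_lit 345) (nat_lit 305))))))))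
noncomputable def ec24 : XT := (XT.nd (nat_lit 49920) (nat_lit 0) (nat_lit 19608) (XT.nd (nat_lit 702) (nat_lit 2736) (nat_lit 0) (XT.nd (nat_lit 312) (nat_lit 2584) (nat_lit 0) (XT.nd (nat_lit 156) (nat_lit 608) (nat_lit 0) (XT.nd (nat_lit 78) (nat_lit 532) (nat_lit 0) (XT.lf (nat_lit 76) (nat_lit 41120403) (nat_lit 0) (nat_lit 463931461) (nat_lit 684) (nat_lit 2214348674) (nat_lit 273) (nat_lit 1) (nat_lit 272) (nat_lit 1) (nat_lit 281) (nat_lit 1) (nat_lit 371) (nat_lit 345) (nat_lit 304)) (XT.lf (nat_lit 608) (nat_lit 1498528600) (nat_lit 0) (nat_lit 178263062) (nat_lit 532) (nat_lit 1009895452) (nat_lit 273) (nat_lit 1) (nat_lit 265) (nat_lit 1) (nat_lit 272) (nat_lit 1) (nat_lit 372) (nat_lit 345) (nat_lit 303))) (XT.nd (nat_lit 78) (nat_lit 608) (nat_lit 0) (XT.lf (nat_lit 76) (nat_lit 616134051) (nat_lit 0) (nat_lit 1909488858) (nat_lit 608) (nat_lit 128939651) (nat_lit 266) (nat_lit 1) (nat_lit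 265) (nat_lit 1) (nat_lit 273) (nat_lit 1) (nat_lit 373) (nat_lit 345) (nat_lit 302)) (XT.lf (nat_lit 76) (nat_lit 2196301513) (nat_lit 0) (nat_lit 7425028) (nat_lit 608) (nat_lit 419232670) (nat_lit 258) (nat_lit 1) (nat_lit 257) (nat_lit 1) (nat_lit 265) (nat_lit 1) (nat_lit 374) (nat_lit 345) (nat_lit 301)))) (XT.nd (nat_lit 156) (nat_lit 1520) (nat_lit 0) (XT.nd (nat_lit 78) (nat_lit 532) (nat_lit 0) (XT.lf (nat_lit 76) (nat_lit 1141208276) (nat_lit 0) (nat_lit 749179516) (nat_lit 608) (nat_lit 701381417) (nat_lit 251) (nat_lit 1) (nat_lit 250) (nat_lit 1) (nat_lit 258) (nat_lit 1) (nat_lit 375) (nat_lit 345) (nat_lit 300)) (XT.lf (nat_lit 76) (nat_lit 108412754) (nat_lit 0) (nat_lit 1485783016) (nat_lit 608) (nat_lit 966962812) (nat_lit 244) (nat_lit 1) (nat_lit 243) (nat_lit 1) (nat_lit 251) (nat_lit 1) (nat_lit 376) (nat_lit 345) (nat_lit 299))) (XT.nd (nat_lit 78) (nat_lit 1064) (nat_lit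 0) (XT.lf (nat_lit 532) (nat_lit 307914874) (nat_lit 0) (nat_lit 1308600228) (nat_lit 456) (nat_lit 914481432) (nat_lit 244) (nat_lit 1) (nat_lit 237) (nat_lit 1) (nat_lit 243) (nat_lit 1) (nat_lit 377) (nat_lit 345) (nat_lit 298)) (XT.nd (nat_lit 78) (nat_lit 456) (nat_lit 0) (XT.lf (nat_lit 76) (nat_lit 587295444) (nat_lit 0) (nat_lit 448289019) (nat_lit 608) (nat_lit 1465735155) (nat_lit 230) (nat_lit 1) (nat_lit 229) (nat_lit 1) (nat_lit 237) (nat_lit 1) (nat_lit 378) (nat_lit 345) (nat_lit 297)) (XT.lf (nat_lit 532) (nat_lit 1274901682) (nat_lit 0) (nat_lit 773608595) (nat_lit 456) (nat_lit 423585043) (nat_lit 230) (nat_lit 1) (nat_lit 223) (nat_lit 1) (nat_lit 229) (nat_lit 1) (nat_lit 379) (nat_lit 345) (nat_lit 296)))))) (XT.nd (nat_lit 312) (nat_lit 1292) (nat_lit 0) (XT.nd (nat_lit 156) (nat_lit 456) (nat_lit 0) (XT.nd (nat_lit 78) (nat_lit 532) (nat_lit 0) (XT.lf (nat_lit 532) (nat_lit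 499581026) (nat_lit 0) (nat_lit 523261059) (nat_lit 456) (nat_lit 1420490805) (nat_lit 224) (nat_lit 1) (nat_lit 217) (nat_lit 1) (nat_lit 223) (nat_lit 1) (nat_lit 380) (nat_lit 345) (nat_lit 295)) (XT.lf (nat_lit 76) (nat_lit 20827322) (nat_lit 0) (nat_lit 265424464) (nat_lit 532) (nat_lit 2128811796) (nat_lit 211) (nat_lit 1) (nat_lit 210) (nat_lit 1) (nat_lit 217) (nat_lit 1) (nat_lit 381) (nat_lit 345) (nat_lit 294))) (XT.nd (nat_lit 78) (nat_lit 0) (nat_lit 0) (XT.lf (nat_lit 532) (nat_lit 1363682989) (nat_lit 0) (nat_lit 54241606) (nat_lit 456) (nat_lit 969197042) (nat_lit 211) (nat_lit 1) (nat_lit 204) (nat_lit 1) (nat_lit 210) (nat_lit 1) (nat_lit 382) (nat_lit 345) (nat_lit 293)) (XT.lf (nat_lit 76) (nat_lit 422589554) (nat_lit 0) (nat_lit 1775752362) (nat_lit 532) (nat_lit 161324066) (nat_lit 205) (nat_lit 1) (nat_lit 204) (nat_lit 1) (nat_lit 211) (nat_lit 1) (nat_lit 383) (nat_lit 345)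 (nat_lit 292)))) (XT.nd (nat_lit 156) (nat_lit 380) (nat_lit 0) (XT.nd (nat_lit 78) (nat_lit 456) (nat_lit 0) (XT.lf (nat_lit 76) (nat_lit 1775515803) (nat_lit 0) (nat_lit 189876516) (nat_lit 456) (nat_lit 367215138) (nat_lit 199) (nat_lit 1) (nat_lit 198) (nat_lit 1) (nat_lit 204) (nat_lit 1) (nat_lit 384) (nat_lit 345) (nat_lit 291)) (XT.lf (nat_lit 76) (nat_lit 788588958) (nat_lit 0) (nat_lit 951249883) (nat_lit 532) (nat_lit 566073472) (nat_lit 193) (nat_lit 1) (nat_lit 192) (nat_lit 1) (nat_lit 199) (nat_lit 1) (nat_lit 385) (nat_lit 345) (nat_lit 290))) (XT.nd (nat_lit 48594) (nat_lit 0) (nat_lit 23560) (XT.lf (nat_lit 456) (nat_lit 573445879) (nat_lit 0) (nat_lit 1526809678) (nat_lit 380) (nat_lit 179423424) (nat_lit 193) (nat_lit 1) (nat_lit 187) (nat_lit 1) (nat_lit 192) (nat_lit 1) (nat_lit 386) (nat_lit 345) (nat_lit 289)) (XT.nd (nat_lit 78) (nat_lit 0) (nat_lit 76) (XT.lf (nat_lit 1900)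 (nat_lit 805394581) (nat_lit 0) (nat_lit 812129553) (nat_lit 1900) (nat_lit 805394581) (nat_lit 522) (nat_lit 1) (nat_lit 497) (nat_lit 0) (nat_lit 522) (nat_lit 0) (nat_lit 328) (nat_lit 346) (nat_lit 346)) (XT.lf (nat_lit 1900) (nat_lit 372280994) (nat_lit 0) (nat_lit 1615979390) (nat_lit 1824) (nat_lit 2786699110) (nat_lit 523) (nat_lit 1) (nat_lit 498) (nat_lit 1) (nat_lit 522) (nat_lit 1) (nat_lit 329) (nat_lit 346) (nat_lit 345))))))) (XT.nd (nat_lit 702) (nat_lit 4028) (nat_lit 0) (XT.nd (nat_lit 312) (nat_lit 0) (nat_lit 228) (XT.nd (nat_lit 156) (nat_lit 0) (nat_lit 152) (XT.nd (nat_lit 78) (nat_lit 0) (nat_lit 76) (XT.lf (nat_lit 1900) (nat_lit 3061627888) (nat_lit 76) (nat_lit 787189795) (nat_lit 0) (nat_lit 856611078) (nat_lit 523) (nat_lit 1) (nat_lit 499) (nat_lit 1) (nat_lit 498) (nat_lit 1) (nat_lit 330) (nat_lit 346) (nat_lit 344)) (XT.lf (nat_lit 1900) (nat_lit 2570172144) (nat_lit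 0) (nat_lit 1705520609) (nat_lit 1824) (nat_lit 361536269) (nat_lit 524) (nat_lit 1) (nat_lit 499) (nat_lit 1) (nat_lit 523) (nat_lit 1) (nat_lit 331) (nat_lit 346) (nat_lit 343))) (XT.nd (nat_lit 78) (nat_lit 0) (nat_lit 76) (XT.lf (nat_lit 1900) (nat_lit 1318518499) (nat_lit 0) (nat_lit 1799820616) (nat_lit 1824) (nat_lit 1451989010) (nat_lit 525) (nat_lit 1) (nat_lit 500) (nat_lit 1) (nat_lit 524) (nat_lit 1) (nat_lit 332) (nat_lit 346) (nat_lit 342)) (XT.lf (nat_lit 1900) (nat_lit 88551669) (nat_lit 0) (nat_lit 1920357982) (nat_lit 1824) (nat_lit 2495886467) (nat_lit 526) (nat_lit 1) (nat_lit 501) (nat_lit 1) (nat_lit 525) (nat_lit 1) (nat_lit 333) (nat_lit 346) (nat_lit 341)))) (XT.nd (nat_lit 156) (nat_lit 0) (nat_lit 152) (XT.nd (nat_lit 78) (nat_lit 0) (nat_lit 76) (XT.lf (nat_lit 1900) (nat_lit 2367142629) (nat_lit 76) (nat_lit 938501492) (nat_lit 0) (nat_lit 1134810149) (nat_lit 526) (nat_lit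 1) (nat_lit 502) (nat_lit 1) (nat_lit 501) (nat_lit 1) (nat_lit 334) (nat_lit 346) (nat_lit 340)) (XT.lf (nat_lit 1900) (nat_lit 2040196147) (nat_lit 0) (nat_lit 2251174726) (nat_lit 1824) (nat_lit 86028294) (nat_lit 527) (nat_lit 1) (nat_lit 502) (nat_lit 1) (nat_lit 526) (nat_lit 1) (nat_lit 335) (nat_lit 346) (nat_lit 339))) (XT.nd (nat_lit 78) (nat_lit 0) (nat_lit 0) (XT.lf (nat_lit 1900) (nat_lit 803194895) (nat_lit 0) (nat_lit 2457500442) (nat_lit 1824) (nat_lit 1054812421) (nat_lit 528) (nat_lit 1) (nat_lit 503) (nat_lit 1) (nat_lit 527) (nat_lit 1) (nat_lit 336) (nat_lit 346) (nat_lit 338)) (XT.nd (nat_lit 78) (nat_lit 0) (nat_lit 76) (XT.lf (nat_lit 1900) (nat_lit 1566973138) (nat_lit 76) (nat_lit 2270687677) (nat_lit 0) (nat_lit 417157625) (nat_lit 528) (nat_lit 1) (nat_lit 504) (nat_lit 1) (nat_lit 503) (nat_lit 1) (nat_lit 337) (nat_lit 346) (nat_lit 337)) (XT.lf (nat_lit 1900) (nat_lit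 1251634033) (nat_lit 76) (nat_lit 1317610192) (nat_lit 0) (nat_lit 1626009770) (nat_lit 529) (nat_lit 1) (nat_lit 505) (nat_lit 1) (nat_lit 504) (nat_lit 1) (nat_lit 338) (nat_lit 346) (nat_lit 336)))))) (XT.nd (nat_lit 390) (nat_lit 2812) (nat_lit 0) (XT.nd (nat_lit 156) (nat_lit 1748) (nat_lit 0) (XT.nd (nat_lit 78) (nat_lit 0) (nat_lit 76) (XT.lf (nat_lit 1900) (nat_lit 918335190) (nat_lit 76) (nat_lit 405627664) (nat_lit 0) (nat_lit 2812929339) (nat_lit 530) (nat_lit 1) (nat_lit 506) (nat_lit 1) (nat_lit 505) (nat_lit 1) (nat_lit 339) (nat_lit 346) (nat_lit 335)) (XT.lf (nat_lit 1900) (nat_lit 104573956) (nat_lit 0) (nat_lit 3514736824) (nat_lit 1824) (nat_lit 460334457) (nat_lit 531) (nat_lit 1) (nat_lit 506) (nat_lit 1) (nat_lit 530) (nat_lit 1) (nat_lit 340) (nat_lit 346) (nat_lit 334))) (XT.nd (nat_lit 78) (nat_lit 1824) (nat_lit 0) (XT.lf (nat_lit 1900) (nat_lit 185587255) (nat_lit 76) (nat_lit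 2733443956) (nat_lit 0) (nat_lit 1104324880) (nat_lit 531) (nat_lit 1) (nat_lit 507) (nat_lit 1) (nat_lit 506) (nat_lit 1) (nat_lit 341) (nat_lit 346) (nat_lit 333)) (XT.nd (nat_lit 78) (nat_lit 0) (nat_lit 76) (XT.lf (nat_lit 1976) (nat_lit 1677296574) (nat_lit 0) (nat_lit 206588895) (nat_lit 1900) (nat_lit 2084271262) (nat_lit 508) (nat_lit 1) (nat_lit 482) (nat_lit 1) (nat_lit 507) (nat_lit 1) (nat_lit 342) (nat_lit 346) (nat_lit 332)) (XT.lf (nat_lit 1976) (nat_lit 460059750) (nat_lit 0) (nat_lit 610229936) (nat_lit 1900) (nat_lit 2843747024) (nat_lit 509) (nat_lit 1) (nat_lit 483) (nat_lit 1) (nat_lit 508) (nat_lit 1) (nat_lit 343) (nat_lit 346) (nat_lit 331))))) (XT.nd (nat_lit 156) (nat_lit 2888) (nat_lit 0) (XT.nd (nat_lit 78) (nat_lit 0) (nat_lit 76) (XT.lf (nat_lit 1976) (nat_lit 2829073563) (nat_lit 76) (nat_lit 287882480) (nat_lit 0) (nat_lit 743942740) (nat_lit 509) (nat_lit 1) (nat_lit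 484) (nat_lit 1) (nat_lit 483) (nat_lit 1) (nat_lit 344) (nat_lit 346) (nat_lit 330)) (XT.lf (nat_lit 76) (nat_lit 1880692257) (nat_lit 0) (nat_lit 1471677950) (nat_lit 1900) (nat_lit 456327619) (nat_lit 485) (nat_lit 1) (nat_lit 484) (nat_lit 1) (nat_lit 509) (nat_lit 1) (nat_lit 345) (nat_lit 346) (nat_lit 329))) (XT.nd (nat_lit 78) (nat_lit 1824) (nat_lit 0) (XT.lf (nat_lit 76) (nat_lit 669795874) (nat_lit 0) (nat_lit 1924689776) (nat_lit 1216) (nat_lit 1163012227) (nat_lit 470) (nat_lit 1) (nat_lit 469) (nat_lit 1) (nat_lit 485) (nat_lit 1) (nat_lit 346) (nat_lit 346) (nat_lit 328)) (XT.nd (nat_lit 78) (nat_lit 912) (nat_lit 0) (XT.lf (nat_lit 988) (nat_lit 1315529414) (nat_lit 0) (nat_lit 1866909365) (nat_lit 912) (nat_lit 524806240) (nat_lit 470) (nat_lit 1) (nat_lit 457) (nat_lit 1) (nat_lit 469) (nat_lit 1) (nat_lit 347) (nat_lit 346) (nat_lit 327)) (XT.lf (nat_lit 988) (nat_lit 784953117)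 (nat_lit 0) (nat_lit 1167797914) (nat_lit 912) (nat_lit 1705148650) (nat_lit 458) (nat_lit 1) (nat_lit 445) (nat_lit 1) (nat_lit 457) (nat_lit 1) (nat_lit 348) (nat_lit 346) (nat_lit 326))))))))
noncomputable def ec25 : XT := (XT.nd (nat_lit 1404) (nat_lit 8740) (nat_lit 0) (XT.nd (nat_lit 702) (nat_lit 5472) (nat_lit 0) (XT.nd (nat_lit 312) (nat_lit 3192) (nat_lit 0) (XT.nd (nat_lit 156) (nat_lit 1748) (nat_lit 0) (XT.nd (nat_lit 78) (nat_lit 76) (nat_lit 0) (XT.lf (nat_lit 912) (nat_lit 246182515) (nat_lit 0) (nat_lit 500692228) (nat_lit 836) (nat_lit 2862653156) (nat_lit 446) (nat_lit 1) (nat_lit 434) (nat_lit 1) (nat_lit 445) (nat_lit 1) (nat_lit 349) (nat_lit 346) (nat_lit 325)) (XT.lf (nat_lit 76) (nat_lit 3123576226) (nat_lit 0) (nat_lit 300023129) (nat_lit 912) (nat_lit 138394513) (nat_lit 434) (nat_lit 1) (nat_lit 433) (nat_lit 1) (nat_lit 445) (nat_lit 1) (nat_lit 350) (nat_lit 346) (nat_lit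 324))) (XT.nd (nat_lit 78) (nat_lit 836) (nat_lit 0) (XT.lf (nat_lit 76) (nat_lit 1909824892) (nat_lit 0) (nat_lit 857802303) (nat_lit 988) (nat_lit 747573751) (nat_lit 422) (nat_lit 1) (nat_lit 421) (nat_lit 1) (nat_lit 434) (nat_lit 1) (nat_lit 351) (nat_lit 346) (nat_lit 323)) (XT.lf (nat_lit 76) (nat_lit 719928764) (nat_lit 0) (nat_lit 1421661261) (nat_lit 912) (nat_lit 1327734385) (nat_lit 411) (nat_lit 1) (nat_lit 410) (nat_lit 1) (nat_lit 422) (nat_lit 1) (nat_lit 352) (nat_lit 346) (nat_lit 322)))) (XT.nd (nat_lit 156) (nat_lit 1596) (nat_lit 0) (XT.nd (nat_lit 78) (nat_lit 760) (nat_lit 0) (XT.lf (nat_lit 912) (nat_lit 1430252761) (nat_lit 0) (nat_lit 1541627839) (nat_lit 836) (nat_lit 452404772) (nat_lit 411) (nat_lit 1) (nat_lit 399) (nat_lit 1) (nat_lit 410) (nat_lit 1) (nat_lit 353) (nat_lit 346) (nat_lit 321)) (XT.lf (nat_lit 836) (nat_lit 803952703) (nat_lit 0) (nat_lit 965219797)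 (nat_lit 760) (nat_lit 1610858740) (nat_lit 400) (nat_lit 1) (nat_lit 389) (nat_lit 1) (nat_lit 399) (nat_lit 1) (nat_lit 354) (nat_lit 346) (nat_lit 320))) (XT.nd (nat_lit 78) (nat_lit 836) (nat_lit 0) (XT.lf (nat_lit 836) (nat_lit 174037784) (nat_lit 0) (nat_lit 416375818) (nat_lit 760) (nat_lit 2746223901) (nat_lit 390) (nat_lit 1) (nat_lit 379) (nat_lit 1) (nat_lit 389) (nat_lit 1) (nat_lit 355) (nat_lit 346) (nat_lit 319)) (XT.nd (nat_lit 78) (nat_lit 760) (nat_lit 0) (XT.lf (nat_lit 76) (nat_lit 2725426930) (nat_lit 0) (nat_lit 457472291) (nat_lit 836) (nat_lit 111038015) (nat_lit 379) (nat_lit 1) (nat_lit 378) (nat_lit 1) (nat_lit 389) (nat_lit 1) (nat_lit 356) (nat_lit 346) (nat_lit 318)) (XT.lf (nat_lit 76) (nat_lit 1543925590) (nat_lit 0) (nat_lit 1095735920) (nat_lit 836) (nat_lit 612249954) (nat_lit 369) (nat_lit 1) (nat_lit 368) (nat_lit 1) (nat_lit 379) (nat_lit 1) (nat_lit 357) (nat_lit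 346) (nat_lit 317)))))) (XT.nd (nat_lit 312) (nat_lit 2584) (nat_lit 0) (XT.nd (nat_lit 156) (nat_lit 1444) (nat_lit 0) (XT.nd (nat_lit 78) (nat_lit 684) (nat_lit 0) (XT.lf (nat_lit 76) (nat_lit 386224623) (nat_lit 0) (nat_lit 1736043870) (nat_lit 836) (nat_lit 1088428560) (nat_lit 359) (nat_lit 1) (nat_lit 358) (nat_lit 1) (nat_lit 369) (nat_lit 1) (nat_lit 358) (nat_lit 346) (nat_lit 316)) (XT.lf (nat_lit 760) (nat_lit 787222714) (nat_lit 0) (nat_lit 1624954707) (nat_lit 684) (nat_lit 758000574) (nat_lit 359) (nat_lit 1) (nat_lit 349) (nat_lit 1) (nat_lit 358) (nat_lit 1) (nat_lit 359) (nat_lit 346) (nat_lit 315))) (XT.nd (nat_lit 78) (nat_lit 760) (nat_lit 0) (XT.lf (nat_lit 760) (nat_lit 96796473) (nat_lit 0) (nat_lit 1149576859) (nat_lit 684) (nat_lit 1884014441) (nat_lit 350) (nat_lit 1) (nat_lit 340) (nat_lit 1) (nat_lit 349) (nat_lit 1) (nat_lit 360) (nat_lit 346) (nat_lit 314)) (XT.lf (nat_lit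 76) (nat_lit 108150920) (nat_lit 0) (nat_lit 585934447) (nat_lit 760) (nat_lit 2397197928) (nat_lit 331) (nat_lit 1) (nat_lit 330) (nat_lit 1) (nat_lit 340) (nat_lit 1) (nat_lit 361) (nat_lit 346) (nat_lit 313)))) (XT.nd (nat_lit 156) (nat_lit 1900) (nat_lit 0) (XT.nd (nat_lit 78) (nat_lit 0) (nat_lit 0) (XT.lf (nat_lit 760) (nat_lit 1778969693) (nat_lit 0) (nat_lit 254330171) (nat_lit 684) (nat_lit 1019480452) (nat_lit 331) (nat_lit 1) (nat_lit 321) (nat_lit 1) (nat_lit 330) (nat_lit 1) (nat_lit 362) (nat_lit 346) (nat_lit 312)) (XT.lf (nat_lit 76) (nat_lit 890757942) (nat_lit 0) (nat_lit 1962823509) (nat_lit 760) (nat_lit 161393893) (nat_lit 322) (nat_lit 1) (nat_lit 321) (nat_lit 1) (nat_lit 331) (nat_lit 1) (nat_lit 363) (nat_lit 346) (nat_lit 311))) (XT.nd (nat_lit 78) (nat_lit 1292) (nat_lit 0) (XT.lf (nat_lit 684) (nat_lit 323894096) (nat_lit 0) (nat_lit 2424222659) (nat_lit 608) (nat_lit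 229711413) (nat_lit 322) (nat_lit 1) (nat_lit 313) (nat_lit 1) (nat_lit 321) (nat_lit 1) (nat_lit 364) (nat_lit 346) (nat_lit 310)) (XT.nd (nat_lit 78) (nat_lit 608) (nat_lit 0) (XT.lf (nat_lit 76) (nat_lit 1605247670) (nat_lit 0) (nat_lit 402833418) (nat_lit 684) (nat_lit 933137982) (nat_lit 305) (nat_lit 1) (nat_lit 304) (nat_lit 1) (nat_lit 313) (nat_lit 1) (nat_lit 365) (nat_lit 346) (nat_lit 309)) (XT.lf (nat_lit 76) (nat_lit 488106667) (nat_lit 0) (nat_lit 1122970058) (nat_lit 684) (nat_lit 1294184693) (nat_lit 297) (nat_lit 1) (nat_lit 296) (nat_lit 1) (nat_lit 305) (nat_lit 1) (nat_lit 366) (nat_lit 346) (nat_lit 308))))))) (XT.nd (nat_lit 702) (nat_lit 4256) (nat_lit 0) (XT.nd (nat_lit 312) (nat_lit 2128) (nat_lit 0) (XT.nd (nat_lit 156) (nat_lit 1216) (nat_lit 0) (XT.nd (nat_lit 78) (nat_lit 532) (nat_lit 0) (XT.lf (nat_lit 684) (nat_lit 1025359541) (nat_lit 0) (nat_lit 1230675629) (nat_lit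 608) (nat_lit 613867678) (nat_lit 297) (nat_lit 1) (nat_lit 288) (nat_lit 1) (nat_lit 296) (nat_lit 1) (nat_lit 367) (nat_lit 346) (nat_lit 307)) (XT.lf (nat_lit 608) (nat_lit 268714415) (nat_lit 0) (nat_lit 867223167) (nat_lit 532) (nat_lit 1699209894) (nat_lit 289) (nat_lit 1) (nat_lit 281) (nat_lit 1) (nat_lit 288) (nat_lit 1) (nat_lit 368) (nat_lit 346) (nat_lit 306))) (XT.nd (nat_lit 78) (nat_lit 532) (nat_lit 0) (XT.lf (nat_lit 76) (nat_lit 42354015) (nat_lit 0) (nat_lit 477849405) (nat_lit 684) (nat_lit 2280779134) (nat_lit 273) (nat_lit 1) (nat_lit 272) (nat_lit 1) (nat_lit 281) (nat_lit 1) (nat_lit 369) (nat_lit 346) (nat_lit 305)) (XT.lf (nat_lit 608) (nat_lit 1543484458) (nat_lit 0) (nat_lit 183610953) (nat_lit 532) (nat_lit 1040192315) (nat_lit 273) (nat_lit 1) (nat_lit 265) (nat_lit 1) (nat_lit 272) (nat_lit 1) (nat_lit 370) (nat_lit 346) (nat_lit 304)))) (XT.nd (nat_lit 156) (nat_lit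 1520) (nat_lit 0) (XT.nd (nat_lit 78) (nat_lit 608) (nat_lit 0) (XT.lf (nat_lit 76) (nat_lit 634618072) (nat_lit 0) (nat_lit 1966773524) (nat_lit 608) (nat_lit 132807841) (nat_lit 266) (nat_lit 1) (nat_lit 265) (nat_lit 1) (nat_lit 273) (nat_lit 1) (nat_lit 371) (nat_lit 346) (nat_lit 303)) (XT.lf (nat_lit 76) (nat_lit 2262190559) (nat_lit 0) (nat_lit 7647779) (nat_lit 608) (nat_lit 431809650) (nat_lit 258) (nat_lit 1) (nat_lit 257) (nat_lit 1) (nat_lit 265) (nat_lit 1) (nat_lit 372) (nat_lit 346) (nat_lit 302))) (XT.nd (nat_lit 78) (nat_lit 988) (nat_lit 0) (XT.lf (nat_lit 76) (nat_lit 1175444524) (nat_lit 0) (nat_lit 771654901) (nat_lit 608) (nat_lit 722422859) (nat_lit 251) (nat_lit 1) (nat_lit 250) (nat_lit 1) (nat_lit 258) (nat_lit 1) (nat_lit 373) (nat_lit 346) (nat_lit 301)) (XT.nd (nat_lit 78) (nat_lit 456) (nat_lit 0) (XT.lf (nat_lit 76) (nat_lit 111665137) (nat_lit 0) (nat_lit 1530356507)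 (nat_lit 608) (nat_lit 995971696) (nat_lit 244) (nat_lit 1) (nat_lit 243) (nat_lit 1) (nat_lit 251) (nat_lit 1) (nat_lit 374) (nat_lit 346) (nat_lit 300)) (XT.lf (nat_lit 532) (nat_lit 317152321) (nat_lit 0) (nat_lit 1347858235) (nat_lit 456) (nat_lit 941915875) (nat_lit 244) (nat_lit 1) (nat_lit 237) (nat_lit 1) (nat_lit 243) (nat_lit 1) (nat_lit 375) (nat_lit 346) (nat_lit 299)))))) (XT.nd (nat_lit 390) (nat_lit 1748) (nat_lit 0) (XT.nd (nat_lit 156) (nat_lit 1444) (nat_lit 0) (XT.nd (nat_lit 78) (nat_lit 456) (nat_lit 0) (XT.lf (nat_lit 76) (nat_lit 604914307) (nat_lit 0) (nat_lit 461737690) (nat_lit 608) (nat_lit 1509707209) (nat_lit 230) (nat_lit 1) (nat_lit 229) (nat_lit 1) (nat_lit 237) (nat_lit 1) (nat_lit 376) (nat_lit 346) (nat_lit 298)) (XT.lf (nat_lit 532) (nat_lit 1313148733) (nat_lit 0) (nat_lit 796816853) (nat_lit 456) (nat_lit 436292594) (nat_lit 230) (nat_lit 1) (nat_lit 223) (nat_lit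 1) (nat_lit 229) (nat_lit 1) (nat_lit 377) (nat_lit 346) (nat_lit 297))) (XT.nd (nat_lit 78) (nat_lit 988) (nat_lit 0) (XT.lf (nat_lit 532) (nat_lit 514568456) (nat_lit 0) (nat_lit 538958891) (nat_lit 456) (nat_lit 1463105529) (nat_lit 224) (nat_lit 1) (nat_lit 217) (nat_lit 1) (nat_lit 223) (nat_lit 1) (nat_lit 378) (nat_lit 346) (nat_lit 296)) (XT.nd (nat_lit 78) (nat_lit 456) (nat_lit 0) (XT.lf (nat_lit 76) (nat_lit 21452142) (nat_lit 0) (nat_lit 273387198) (nat_lit 532) (nat_lit 2192676150) (nat_lit 211) (nat_lit 1) (nat_lit 210) (nat_lit 1) (nat_lit 217) (nat_lit 1) (nat_lit 379) (nat_lit 346) (nat_lit 295)) (XT.lf (nat_lit 532) (nat_lit 1404593479) (nat_lit 0) (nat_lit 55868855) (nat_lit 456) (nat_lit 998272953) (nat_lit 211) (nat_lit 1) (nat_lit 204) (nat_lit 1) (nat_lit 210) (nat_lit 1) (nat_lit 380) (nat_lit 346) (nat_lit 294))))) (XT.nd (nat_lit 156) (nat_lit 1292) (nat_lit 0) (XT.nd (nat_lit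 78) (nat_lit 456) (nat_lit 0) (XT.lf (nat_lit 76) (nat_lit 435267240) (nat_lit 0) (nat_lit 1829024933) (nat_lit 532) (nat_lit 166163788) (nat_lit 205) (nat_lit 1) (nat_lit 204) (nat_lit 1) (nat_lit 211) (nat_lit 1) (nat_lit 381) (nat_lit 346) (nat_lit 293)) (XT.lf (nat_lit 76) (nat_lit 1828781277) (nat_lit 0) (nat_lit 195572812) (nat_lit 456) (nat_lit 378231592) (nat_lit 199) (nat_lit 1) (nat_lit 198) (nat_lit 1) (nat_lit 204) (nat_lit 1) (nat_lit 382) (nat_lit 346) (nat_lit 292))) (XT.nd (nat_lit 78) (nat_lit 836) (nat_lit 0) (XT.lf (nat_lit 76) (nat_lit 812246626) (nat_lit 0) (nat_lit 979787379) (nat_lit 532) (nat_lit 583055677) (nat_lit 193) (nat_lit 1) (nat_lit 192) (nat_lit 1) (nat_lit 199) (nat_lit 1) (nat_lit 383) (nat_lit 346) (nat_lit 291)) (XT.nd (nat_lit 78) (nat_lit 456) (nat_lit 0) (XT.lf (nat_lit 456) (nat_lit 590649255) (nat_lit 0) (nat_lit 1572613968) (nat_lit 380) (nat_lit 184806127)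 (nat_lit 193) (nat_lit 1) (nat_lit 187) (nat_lit 1) (nat_lit 192) (nat_lit 1) (nat_lit 384) (nat_lit 346) (nat_lit 290)) (XT.lf (nat_lit 76) (nat_lit 1151930286) (nat_lit 0) (nat_lit 208276846) (nat_lit 456) (nat_lit 961199963) (nat_lit 182) (nat_lit 1) (nat_lit 181) (nat_lit 1) (nat_lit 187) (nat_lit 1) (nat_lit 385) (nat_lit 346) (nat_lit 289))))))))
noncomputable def ec26 : XT := (XT.nd (nat_lit 49764) (nat_lit 0) (nat_lit 11020) (XT.nd (nat_lit 49062) (nat_lit 0) (nat_lit 23256) (XT.nd (nat_lit 48672) (nat_lit 0) (nat_lit 24548) (XT.nd (nat_lit 48516) (nat_lit 0) (nat_lit 24472) (XT.nd (nat_lit 48438) (nat_lit 0) (nat_lit 24396) (XT.lf (nat_lit 76) (nat_lit 166227859) (nat_lit 0) (nat_lit 991178734) (nat_lit 456) (nat_lit 1137745027) (nat_lit 177) (nat_lit 1) (nat_lit 176) (nat_lit 1) (nat_lit 182) (nat_lit 1) (nat_lit 386) (nat_lit 346) (nat_lit 288)) (XT.lf (nat_lit 1900) (nat_lit 829556419)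 (nat_lit 0) (nat_lit 836493440) (nat_lit 1900) (nat_lit 829556419) (nat_lit 522) (nat_lit 1) (nat_lit 497) (nat_lit 0) (nat_lit 522) (nat_lit 0) (nat_lit 326) (nat_lit 347) (nat_lit 347))) (XT.nd (nat_lit 78) (nat_lit 0) (nat_lit 0) (XT.lf (nat_lit 1900) (nat_lit 383449424) (nat_lit 0) (nat_lit 1664458772) (nat_lit 1824) (nat_lit 2870300084) (nat_lit 523) (nat_lit 1) (nat_lit 498) (nat_lit 1) (nat_lit 522) (nat_lit 1) (nat_lit 327) (nat_lit 347) (nat_lit 346)) (XT.lf (nat_lit 1900) (nat_lit 3153476724) (nat_lit 76) (nat_lit 810805489) (nat_lit 0) (nat_lit 882309410) (nat_lit 523) (nat_lit 1) (nat_lit 499) (nat_lit 1) (nat_lit 498) (nat_lit 1) (nat_lit 328) (nat_lit 347) (nat_lit 345)))) (XT.nd (nat_lit 156) (nat_lit 0) (nat_lit 152) (XT.nd (nat_lit 78) (nat_lit 0) (nat_lit 76) (XT.lf (nat_lit 1900) (nat_lit 2647277308) (nat_lit 0) (nat_lit 1756686227) (nat_lit 1824) (nat_lit 372382357) (nat_lit 524)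 (nat_lit 1) (nat_lit 499) (nat_lit 1) (nat_lit 523) (nat_lit 1) (nat_lit 329) (nat_lit 347) (nat_lit 344)) (XT.lf (nat_lit 1900) (nat_lit 1358074054) (nat_lit 0) (nat_lit 1853815234) (nat_lit 1824) (nat_lit 1495548680) (nat_lit 525) (nat_lit 1) (nat_lit 500) (nat_lit 1) (nat_lit 524) (nat_lit 1) (nat_lit 330) (nat_lit 347) (nat_lit 343))) (XT.nd (nat_lit 78) (nat_lit 0) (nat_lit 0) (XT.lf (nat_lit 1900) (nat_lit 91208220) (nat_lit 0) (nat_lit 1977968722) (nat_lit 1824) (nat_lit 2570763061) (nat_lit 526) (nat_lit 1) (nat_lit 501) (nat_lit 1) (nat_lit 525) (nat_lit 1) (nat_lit 331) (nat_lit 347) (nat_lit 342)) (XT.nd (nat_lit 78) (nat_lit 0) (nat_lit 76) (XT.lf (nat_lit 1900) (nat_lit 2438156908) (nat_lit 76) (nat_lit 966656537) (nat_lit 0) (nat_lit 1168854453) (nat_lit 526) (nat_lit 1) (nat_lit 502) (nat_lit 1) (nat_lit 501) (nat_lit 1) (nat_lit 332) (nat_lit 347) (nat_lit 341)) (XT.lf (nat_lit 1900)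 (nat_lit 2101402031) (nat_lit 0) (nat_lit 2318709968) (nat_lit 1824) (nat_lit 88609142) (nat_lit 527) (nat_lit 1) (nat_lit 502) (nat_lit 1) (nat_lit 526) (nat_lit 1) (nat_lit 333) (nat_lit 347) (nat_lit 340)))))) (XT.nd (nat_lit 312) (nat_lit 1596) (nat_lit 0) (XT.nd (nat_lit 156) (nat_lit 0) (nat_lit 76) (XT.nd (nat_lit 78) (nat_lit 0) (nat_lit 0) (XT.lf (nat_lit 1900) (nat_lit 827290742) (nat_lit 0) (nat_lit 2531225455) (nat_lit 1824) (nat_lit 1086456794) (nat_lit 528) (nat_lit 1) (nat_lit 503) (nat_lit 1) (nat_lit 527) (nat_lit 1) (nat_lit 334) (nat_lit 347) (nat_lit 339)) (XT.lf (nat_lit 1900) (nat_lit 1613982333) (nat_lit 76) (nat_lit 2338808307) (nat_lit 0) (nat_lit 429672354) (nat_lit 528) (nat_lit 1) (nat_lit 504) (nat_lit 1) (nat_lit 503) (nat_lit 1) (nat_lit 335) (nat_lit 347) (nat_lit 338))) (XT.nd (nat_lit 78) (nat_lit 0) (nat_lit 76) (XT.lf (nat_lit 1900) (nat_lit 1289183054) (nat_lit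 76) (nat_lit 1357138497) (nat_lit 0) (nat_lit 1674790063) (nat_lit 529) (nat_lit 1) (nat_lit 505) (nat_lit 1) (nat_lit 504) (nat_lit 1) (nat_lit 336) (nat_lit 347) (nat_lit 337)) (XT.lf (nat_lit 1900) (nat_lit 945885245) (nat_lit 76) (nat_lit 417796494) (nat_lit 0) (nat_lit 2897317219) (nat_lit 530) (nat_lit 1) (nat_lit 506) (nat_lit 1) (nat_lit 505) (nat_lit 1) (nat_lit 337) (nat_lit 347) (nat_lit 336)))) (XT.nd (nat_lit 156) (nat_lit 1824) (nat_lit 0) (XT.nd (nat_lit 78) (nat_lit 0) (nat_lit 0) (XT.lf (nat_lit 1900) (nat_lit 107711175) (nat_lit 0) (nat_lit 3620178928) (nat_lit 1824) (nat_lit 474144491) (nat_lit 531) (nat_lit 1) (nat_lit 506) (nat_lit 1) (nat_lit 530) (nat_lit 1) (nat_lit 338) (nat_lit 347) (nat_lit 335)) (XT.lf (nat_lit 1900) (nat_lit 191154873) (nat_lit 76) (nat_lit 2815447275) (nat_lit 0) (nat_lit 1137454627) (nat_lit 531) (nat_lit 1) (nat_lit 507) (nat_lit 1) (nat_lit 506) (nat_lit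 1) (nat_lit 339) (nat_lit 347) (nat_lit 334))) (XT.nd (nat_lit 78) (nat_lit 0) (nat_lit 76) (XT.lf (nat_lit 1976) (nat_lit 1727615471) (nat_lit 0) (nat_lit 212786562) (nat_lit 1900) (nat_lit 2146799400) (nat_lit 508) (nat_lit 1) (nat_lit 482) (nat_lit 1) (nat_lit 507) (nat_lit 1) (nat_lit 340) (nat_lit 347) (nat_lit 333)) (XT.nd (nat_lit 78) (nat_lit 0) (nat_lit 0) (XT.lf (nat_lit 1976) (nat_lit 473861542) (nat_lit 0) (nat_lit 628536834) (nat_lit 1900) (nat_lit 2929059435) (nat_lit 509) (nat_lit 1) (nat_lit 483) (nat_lit 1) (nat_lit 508) (nat_lit 1) (nat_lit 341) (nat_lit 347) (nat_lit 332)) (XT.lf (nat_lit 1976) (nat_lit 2913945770) (nat_lit 76) (nat_lit 296518955) (nat_lit 0) (nat_lit 766261022) (nat_lit 509) (nat_lit 1) (nat_lit 484) (nat_lit 1) (nat_lit 483) (nat_lit 1) (nat_lit 342) (nat_lit 347) (nat_lit 331))))))) (XT.nd (nat_lit 702) (nat_lit 5928) (nat_lit 0) (XT.nd (nat_lit 312) (nat_lit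 3496) (nat_lit 0) (XT.nd (nat_lit 156) (nat_lit 1824) (nat_lit 0) (XT.nd (nat_lit 78) (nat_lit 1140) (nat_lit 0) (XT.lf (nat_lit 76) (nat_lit 1937113025) (nat_lit 0) (nat_lit 1515828289) (nat_lit 1900) (nat_lit 470017447) (nat_lit 485) (nat_lit 1) (nat_lit 484) (nat_lit 1) (nat_lit 509) (nat_lit 1) (nat_lit 343) (nat_lit 347) (nat_lit 330)) (XT.lf (nat_lit 76) (nat_lit 689889750) (nat_lit 0) (nat_lit 1982430469) (nat_lit 1216) (nat_lit 1197902594) (nat_lit 470) (nat_lit 1) (nat_lit 469) (nat_lit 1) (nat_lit 485) (nat_lit 1) (nat_lit 344) (nat_lit 347) (nat_lit 329))) (XT.nd (nat_lit 78) (nat_lit 912) (nat_lit 0) (XT.lf (nat_lit 988) (nat_lit 1354995296) (nat_lit 0) (nat_lit 1922916646) (nat_lit 912) (nat_lit 540550428) (nat_lit 470) (nat_lit 1) (nat_lit 457) (nat_lit 1) (nat_lit 469) (nat_lit 1) (nat_lit 345) (nat_lit 347) (nat_lit 328)) (XT.lf (nat_lit 988) (nat_lit 808501710) (nat_lit 0) (nat_lit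 1202831851) (nat_lit 912) (nat_lit 1756303109) (nat_lit 458) (nat_lit 1) (nat_lit 445) (nat_lit 1) (nat_lit 457) (nat_lit 1) (nat_lit 346) (nat_lit 347) (nat_lit 327)))) (XT.nd (nat_lit 156) (nat_lit 2584) (nat_lit 0) (XT.nd (nat_lit 78) (nat_lit 76) (nat_lit 0) (XT.lf (nat_lit 912) (nat_lit 253567990) (nat_lit 0) (nat_lit 515712994) (nat_lit 836) (nat_lit 2948532750) (nat_lit 446) (nat_lit 1) (nat_lit 434) (nat_lit 1) (nat_lit 445) (nat_lit 1) (nat_lit 347) (nat_lit 347) (nat_lit 326)) (XT.lf (nat_lit 76) (nat_lit 3217283513) (nat_lit 0) (nat_lit 309023823) (nat_lit 912) (nat_lit 142546349) (nat_lit 434) (nat_lit 1) (nat_lit 433) (nat_lit 1) (nat_lit 445) (nat_lit 1) (nat_lit 348) (nat_lit 347) (nat_lit 325))) (XT.nd (nat_lit 78) (nat_lit 1672) (nat_lit 0) (XT.lf (nat_lit 76) (nat_lit 1967119639) (nat_lit 0) (nat_lit 883536372) (nat_lit 988) (nat_lit 770000964) (nat_lit 422) (nat_lit 1) (nat_lit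 421) (nat_lit 1) (nat_lit 434) (nat_lit 1) (nat_lit 349) (nat_lit 347) (nat_lit 324)) (XT.nd (nat_lit 78) (nat_lit 836) (nat_lit 0) (XT.lf (nat_lit 76) (nat_lit 741526627) (nat_lit 0) (nat_lit 1464311098) (nat_lit 912) (nat_lit 1367566416) (nat_lit 411) (nat_lit 1) (nat_lit 410) (nat_lit 1) (nat_lit 422) (nat_lit 1) (nat_lit 350) (nat_lit 347) (nat_lit 323)) (XT.lf (nat_lit 912) (nat_lit 1473160344) (nat_lit 0) (nat_lit 1587876675) (nat_lit 836) (nat_lit 465976915) (nat_lit 411) (nat_lit 1) (nat_lit 399) (nat_lit 1) (nat_lit 410) (nat_lit 1) (nat_lit 351) (nat_lit 347) (nat_lit 322)))))) (XT.nd (nat_lit 390) (nat_lit 2812) (nat_lit 0) (XT.nd (nat_lit 156) (nat_lit 1596) (nat_lit 0) (XT.nd (nat_lit 78) (nat_lit 760) (nat_lit 0) (XT.lf (nat_lit 836) (nat_lit 828071285) (nat_lit 0) (nat_lit 994176391) (nat_lit 760) (nat_lit 1659184502) (nat_lit 400) (nat_lit 1) (nat_lit 389) (nat_lit 1) (nat_lit 399)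 (nat_lit 1) (nat_lit 352) (nat_lit 347) (nat_lit 321)) (XT.lf (nat_lit 836) (nat_lit 179258917) (nat_lit 0) (nat_lit 428867093) (nat_lit 760) (nat_lit 2828610618) (nat_lit 390) (nat_lit 1) (nat_lit 379) (nat_lit 1) (nat_lit 389) (nat_lit 1) (nat_lit 353) (nat_lit 347) (nat_lit 320))) (XT.nd (nat_lit 78) (nat_lit 1520) (nat_lit 0) (XT.lf (nat_lit 76) (nat_lit 2807189738) (nat_lit 0) (nat_lit 471196460) (nat_lit 836) (nat_lit 114369156) (nat_lit 379) (nat_lit 1) (nat_lit 378) (nat_lit 1) (nat_lit 389) (nat_lit 1) (nat_lit 354) (nat_lit 347) (nat_lit 319)) (XT.nd (nat_lit 78) (nat_lit 760) (nat_lit 0) (XT.lf (nat_lit 76) (nat_lit 1590243358) (nat_lit 0) (nat_lit 1128607997) (nat_lit 836) (nat_lit 630617453) (nat_lit 369) (nat_lit 1) (nat_lit 368) (nat_lit 1) (nat_lit 379) (nat_lit 1) (nat_lit 355) (nat_lit 347) (nat_lit 318)) (XT.lf (nat_lit 76) (nat_lit 397811361) (nat_lit 0) (nat_lit 1788125186) (nat_lit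 836) (nat_lit 1121081417) (nat_lit 359) (nat_lit 1) (nat_lit 358) (nat_lit 1) (nat_lit 369) (nat_lit 1) (nat_lit 356) (nat_lit 347) (nat_lit 317))))) (XT.nd (nat_lit 156) (nat_lit 1444) (nat_lit 0) (XT.nd (nat_lit 78) (nat_lit 684) (nat_lit 0) (XT.lf (nat_lit 760) (nat_lit 810839396) (nat_lit 0) (nat_lit 1673703349) (nat_lit 684) (nat_lit 780740592) (nat_lit 359) (nat_lit 1) (nat_lit 349) (nat_lit 1) (nat_lit 358) (nat_lit 1) (nat_lit 357) (nat_lit 347) (nat_lit 316)) (XT.lf (nat_lit 760) (nat_lit 99700367) (nat_lit 0) (nat_lit 1184064165) (nat_lit 684) (nat_lit 1940534874) (nat_lit 350) (nat_lit 1) (nat_lit 340) (nat_lit 1) (nat_lit 349) (nat_lit 1) (nat_lit 358) (nat_lit 347) (nat_lit 315))) (XT.nd (nat_lit 78) (nat_lit 684) (nat_lit 0) (XT.lf (nat_lit 76) (nat_lit 111395448) (nat_lit 0) (nat_lit 603512481) (nat_lit 760) (nat_lit 2469113865) (nat_lit 331) (nat_lit 1) (nat_lit 330) (nat_lit 1) (nat_lit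 340) (nat_lit 1) (nat_lit 359) (nat_lit 347) (nat_lit 314)) (XT.nd (nat_lit 78) (nat_lit 0) (nat_lit 0) (XT.lf (nat_lit 760) (nat_lit 1832338784) (nat_lit 0) (nat_lit 261960076) (nat_lit 684) (nat_lit 1050064866) (nat_lit 331) (nat_lit 1) (nat_lit 321) (nat_lit 1) (nat_lit 330) (nat_lit 1) (nat_lit 360) (nat_lit 347) (nat_lit 313)) (XT.lf (nat_lit 76) (nat_lit 917480681) (nat_lit 0) (nat_lit 2021708214) (nat_lit 760) (nat_lit 166235710) (nat_lit 322) (nat_lit 1) (nat_lit 321) (nat_lit 1) (nat_lit 331) (nat_lit 1) (nat_lit 361) (nat_lit 347) (nat_lit 312))))))))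
noncomputable def ec27 : XT := (XT.nd (nat_lit 1404) (nat_lit 2888) (nat_lit 0) (XT.nd (nat_lit 702) (nat_lit 4028) (nat_lit 0) (XT.nd (nat_lit 312) (nat_lit 2356) (nat_lit 0) (XT.nd (nat_lit 156) (nat_lit 1216) (nat_lit 0) (XT.nd (nat_lit 78) (nat_lit 684) (nat_lit 0) (XT.lf (nat_lit 684) (nat_lit 333610919) (nat_lit 0) (nat_lit 2496949338) (nat_lit 608) (nat_lit 236602756) (nat_lit 322) (nat_lit 1) (nat_lit 313) (nat_lit 1) (nat_lit 321) (nat_lit 1) (nat_lit 362) (nat_lit 347) (nat_lit 311)) (XT.lf (nat_lit 76) (nat_lit 1653405100) (nat_lit 0) (nat_lit 414918420) (nat_lit 684) (nat_lit 961132122) (nat_lit 305) (nat_lit 1) (nat_lit 304) (nat_lit 1) (nat_lit 313) (nat_lit 1) (nat_lit 363) (nat_lit 347) (nat_lit 310))) (XT.nd (nat_lit 78) (nat_lit 608) (nat_lit 0) (XT.lf (nat_lit 76) (nat_lit 502749867) (nat_lit 0) (nat_lit 1156659159) (nat_lit 684) (nat_lit 1333010234) (nat_lit 297) (nat_lit 1) (nat_lit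 296) (nat_lit 1) (nat_lit 305) (nat_lit 1) (nat_lit 364) (nat_lit 347) (nat_lit 309)) (XT.lf (nat_lit 684) (nat_lit 1056120327) (nat_lit 0) (nat_lit 1267595898) (nat_lit 608) (nat_lit 632283708) (nat_lit 297) (nat_lit 1) (nat_lit 288) (nat_lit 1) (nat_lit 296) (nat_lit 1) (nat_lit 365) (nat_lit 347) (nat_lit 308)))) (XT.nd (nat_lit 156) (nat_lit 1140) (nat_lit 0) (XT.nd (nat_lit 78) (nat_lit 684) (nat_lit 0) (XT.lf (nat_lit 608) (nat_lit 276775847) (nat_lit 0) (nat_lit 893239862) (nat_lit 532) (nat_lit 1750186191) (nat_lit 289) (nat_lit 1) (nat_lit 281) (nat_lit 1) (nat_lit 288) (nat_lit 1) (nat_lit 366) (nat_lit 347) (nat_lit 307)) (XT.lf (nat_lit 76) (nat_lit 43624636) (nat_lit 0) (nat_lit 492184887) (nat_lit 684) (nat_lit 2349202508) (nat_lit 273) (nat_lit 1) (nat_lit 272) (nat_lit 1) (nat_lit 281) (nat_lit 1) (nat_lit 367) (nat_lit 347) (nat_lit 306))) (XT.nd (nat_lit 78) (nat_lit 608) (nat_lit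 0) (XT.lf (nat_lit 608) (nat_lit 1589788991) (nat_lit 0) (nat_lit 189119282) (nat_lit 532) (nat_lit 1071398085) (nat_lit 273) (nat_lit 1) (nat_lit 265) (nat_lit 1) (nat_lit 272) (nat_lit 1) (nat_lit 368) (nat_lit 347) (nat_lit 305)) (XT.nd (nat_lit 78) (nat_lit 608) (nat_lit 0) (XT.lf (nat_lit 76) (nat_lit 653656614) (nat_lit 0) (nat_lit 2025776730) (nat_lit 608) (nat_lit 136792076) (nat_lit 266) (nat_lit 1) (nat_lit 265) (nat_lit 1) (nat_lit 273) (nat_lit 1) (nat_lit 369) (nat_lit 347) (nat_lit 304)) (XT.lf (nat_lit 76) (nat_lit 2330056275) (nat_lit 0) (nat_lit 7877212) (nat_lit 608) (nat_lit 444763940) (nat_lit 258) (nat_lit 1) (nat_lit 257) (nat_lit 1) (nat_lit 265) (nat_lit 1) (nat_lit 370) (nat_lit 347) (nat_lit 303)))))) (XT.nd (nat_lit 312) (nat_lit 1900) (nat_lit 0) (XT.nd (nat_lit 156) (nat_lit 1064) (nat_lit 0) (XT.nd (nat_lit 78) (nat_lit 532) (nat_lit 0) (XT.lf (nat_lit 76) (nat_lit 1210707860)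 (nat_lit 0) (nat_lit 794804548) (nat_lit 608) (nat_lit 744095545) (nat_lit 251) (nat_lit 1) (nat_lit 250) (nat_lit 1) (nat_lit 258) (nat_lit 1) (nat_lit 371) (nat_lit 347) (nat_lit 302)) (XT.lf (nat_lit 76) (nat_lit 115015091) (nat_lit 0) (nat_lit 1576267202) (nat_lit 608) (nat_lit 1025850847) (nat_lit 244) (nat_lit 1) (nat_lit 243) (nat_lit 1) (nat_lit 251) (nat_lit 1) (nat_lit 372) (nat_lit 347) (nat_lit 301))) (XT.nd (nat_lit 78) (nat_lit 608) (nat_lit 0) (XT.lf (nat_lit 532) (nat_lit 326666890) (nat_lit 0) (nat_lit 1388293982) (nat_lit 456) (nat_lit 970173351) (nat_lit 244) (nat_lit 1) (nat_lit 237) (nat_lit 1) (nat_lit 243) (nat_lit 1) (nat_lit 373) (nat_lit 347) (nat_lit 300)) (XT.lf (nat_lit 76) (nat_lit 623061736) (nat_lit 0) (nat_lit 475589820) (nat_lit 608) (nat_lit 1554998426) (nat_lit 230) (nat_lit 1) (nat_lit 229) (nat_lit 1) (nat_lit 237) (nat_lit 1) (nat_lit 374) (nat_lit 347) (nat_lit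 299)))) (XT.nd (nat_lit 156) (nat_lit 988) (nat_lit 0) (XT.nd (nat_lit 78) (nat_lit 456) (nat_lit 0) (XT.lf (nat_lit 532) (nat_lit 1352543195) (nat_lit 0) (nat_lit 820721359) (nat_lit 456) (nat_lit 449381372) (nat_lit 230) (nat_lit 1) (nat_lit 223) (nat_lit 1) (nat_lit 229) (nat_lit 1) (nat_lit 375) (nat_lit 347) (nat_lit 298)) (XT.lf (nat_lit 532) (nat_lit 530005510) (nat_lit 0) (nat_lit 555127658) (nat_lit 456) (nat_lit 1506998695) (nat_lit 224) (nat_lit 1) (nat_lit 217) (nat_lit 1) (nat_lit 223) (nat_lit 1) (nat_lit 376) (nat_lit 347) (nat_lit 297))) (XT.nd (nat_lit 78) (nat_lit 456) (nat_lit 0) (XT.lf (nat_lit 76) (nat_lit 22095706) (nat_lit 0) (nat_lit 281588814) (nat_lit 532) (nat_lit 2258456435) (nat_lit 211) (nat_lit 1) (nat_lit 210) (nat_lit 1) (nat_lit 217) (nat_lit 1) (nat_lit 377) (nat_lit 347) (nat_lit 296)) (XT.nd (nat_lit 78) (nat_lit 0) (nat_lit 0) (XT.lf (nat_lit 532) (nat_lit 1446731283)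 (nat_lit 0) (nat_lit 57544920) (nat_lit 456) (nat_lit 1028221142) (nat_lit 211) (nat_lit 1) (nat_lit 204) (nat_lit 1) (nat_lit 210) (nat_lit 1) (nat_lit 378) (nat_lit 347) (nat_lit 295)) (XT.lf (nat_lit 76) (nat_lit 448325258) (nat_lit 0) (nat_lit 1883895681) (nat_lit 532) (nat_lit 171148702) (nat_lit 205) (nat_lit 1) (nat_lit 204) (nat_lit 1) (nat_lit 211) (nat_lit 1) (nat_lit 379) (nat_lit 347) (nat_lit 294))))))) (XT.nd (nat_lit 48906) (nat_lit 0) (nat_lit 25232) (XT.nd (nat_lit 312) (nat_lit 1140) (nat_lit 0) (XT.nd (nat_lit 156) (nat_lit 836) (nat_lit 0) (XT.nd (nat_lit 78) (nat_lit 456) (nat_lit 0) (XT.lf (nat_lit 76) (nat_lit 1883644715) (nat_lit 0) (nat_lit 201439996) (nat_lit 456) (nat_lit 389578540) (nat_lit 199) (nat_lit 1) (nat_lit 198) (nat_lit 1) (nat_lit 204) (nat_lit 1) (nat_lit 380) (nat_lit 347) (nat_lit 293)) (XT.lf (nat_lit 76) (nat_lit 836614025) (nat_lit 0) (nat_lit 1009181001)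 (nat_lit 532) (nat_lit 600547347) (nat_lit 193) (nat_lit 1) (nat_lit 192) (nat_lit 1) (nat_lit 199) (nat_lit 1) (nat_lit 381) (nat_lit 347) (nat_lit 292))) (XT.nd (nat_lit 78) (nat_lit 456) (nat_lit 0) (XT.lf (nat_lit 456) (nat_lit 608368733) (nat_lit 0) (nat_lit 1619792387) (nat_lit 380) (nat_lit 190350310) (nat_lit 193) (nat_lit 1) (nat_lit 187) (nat_lit 1) (nat_lit 192) (nat_lit 1) (nat_lit 382) (nat_lit 347) (nat_lit 291)) (XT.lf (nat_lit 76) (nat_lit 1186488195) (nat_lit 0) (nat_lit 214525151) (nat_lit 456) (nat_lit 990035961) (nat_lit 182) (nat_lit 1) (nat_lit 181) (nat_lit 1) (nat_lit 187) (nat_lit 1) (nat_lit 383) (nat_lit 347) (nat_lit 290)))) (XT.nd (nat_lit 156) (nat_lit 380) (nat_lit 0) (XT.nd (nat_lit 78) (nat_lit 380) (nat_lit 0) (XT.lf (nat_lit 76) (nat_lit 171214695) (nat_lit 0) (nat_lit 1020914096) (nat_lit 456) (nat_lit 1171877378) (nat_lit 177) (nat_lit 1) (nat_lit 176) (nat_lit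 1) (nat_lit 182) (nat_lit 1) (nat_lit 384) (nat_lit 347) (nat_lit 289)) (XT.lf (nat_lit 456) (nat_lit 513132384) (nat_lit 0) (nat_lit 991250499) (nat_lit 380) (nat_lit 832959921) (nat_lit 177) (nat_lit 1) (nat_lit 171) (nat_lit 1) (nat_lit 176) (nat_lit 1) (nat_lit 385) (nat_lit 347) (nat_lit 288))) (XT.nd (nat_lit 48282) (nat_lit 0) (nat_lit 25156) (XT.lf (nat_lit 76) (nat_lit 495624876) (nat_lit 0) (nat_lit 304829615) (nat_lit 380) (nat_lit 1510643269) (nat_lit 167) (nat_lit 1) (nat_lit 166) (nat_lit 1) (nat_lit 171) (nat_lit 1) (nat_lit 386) (nat_lit 347) (nat_lit 287)) (XT.nd (nat_lit 78) (nat_lit 0) (nat_lit 76) (XT.lf (nat_lit 1900) (nat_lit 854443111) (nat_lit 0) (nat_lit 861588243) (nat_lit 1900) (nat_lit 854443111) (nat_lit 522) (nat_lit 1) (nat_lit 497) (nat_lit 0) (nat_lit 522) (nat_lit 0) (nat_lit 324) (nat_lit 348) (nat_lit 348)) (XT.lf (nat_lit 1900) (nat_lit 394952906) (nat_lit 0)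 (nat_lit 1714392535) (nat_lit 1824) (nat_lit 2956409086) (nat_lit 523) (nat_lit 1) (nat_lit 498) (nat_lit 1) (nat_lit 522) (nat_lit 1) (nat_lit 325) (nat_lit 348) (nat_lit 347)))))) (XT.nd (nat_lit 390) (nat_lit 0) (nat_lit 304) (XT.nd (nat_lit 156) (nat_lit 0) (nat_lit 152) (XT.nd (nat_lit 78) (nat_lit 0) (nat_lit 76) (XT.lf (nat_lit 1900) (nat_lit 3248081026) (nat_lit 76) (nat_lit 835129654) (nat_lit 0) (nat_lit 908778692) (nat_lit 523) (nat_lit 1) (nat_lit 499) (nat_lit 1) (nat_lit 498) (nat_lit 1) (nat_lit 326) (nat_lit 348) (nat_lit 346)) (XT.lf (nat_lit 1900) (nat_lit 2726695627) (nat_lit 0) (nat_lit 1809386814) (nat_lit 1824) (nat_lit 383553828) (nat_lit 524) (nat_lit 1) (nat_lit 499) (nat_lit 1) (nat_lit 523) (nat_lit 1) (nat_lit 327) (nat_lit 348) (nat_lit 345))) (XT.nd (nat_lit 78) (nat_lit 0) (nat_lit 76) (XT.lf (nat_lit 1900) (nat_lit 1398816276) (nat_lit 0) (nat_lit 1909429691) (nat_lit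 1824) (nat_lit 1540415141) (nat_lit 525) (nat_lit 1) (nat_lit 500) (nat_lit 1) (nat_lit 524) (nat_lit 1) (nat_lit 328) (nat_lit 348) (nat_lit 344)) (XT.nd (nat_lit 78) (nat_lit 0) (nat_lit 0) (XT.lf (nat_lit 1900) (nat_lit 93944466) (nat_lit 0) (nat_lit 2037307784) (nat_lit 1824) (nat_lit 2647885952) (nat_lit 526) (nat_lit 1) (nat_lit 501) (nat_lit 1) (nat_lit 525) (nat_lit 1) (nat_lit 329) (nat_lit 348) (nat_lit 343)) (XT.lf (nat_lit 1900) (nat_lit 2511301615) (nat_lit 76) (nat_lit 995656233) (nat_lit 0) (nat_lit 1203920087) (nat_lit 526) (nat_lit 1) (nat_lit 502) (nat_lit 1) (nat_lit 501) (nat_lit 1) (nat_lit 330) (nat_lit 348) (nat_lit 342))))) (XT.nd (nat_lit 156) (nat_lit 0) (nat_lit 76) (XT.nd (nat_lit 78) (nat_lit 0) (nat_lit 76) (XT.lf (nat_lit 1900) (nat_lit 2164444092) (nat_lit 0) (nat_lit 2388271267) (nat_lit 1824) (nat_lit 91267417) (nat_lit 527) (nat_lit 1) (nat_lit 502) (nat_lit 1)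 (nat_lit 526) (nat_lit 1) (nat_lit 331) (nat_lit 348) (nat_lit 341)) (XT.lf (nat_lit 1900) (nat_lit 852109465) (nat_lit 0) (nat_lit 2607162219) (nat_lit 1824) (nat_lit 1119050498) (nat_lit 528) (nat_lit 1) (nat_lit 503) (nat_lit 1) (nat_lit 527) (nat_lit 1) (nat_lit 332) (nat_lit 348) (nat_lit 340))) (XT.nd (nat_lit 78) (nat_lit 0) (nat_lit 76) (XT.lf (nat_lit 1900) (nat_lit 1662401803) (nat_lit 76) (nat_lit 2408972556) (nat_lit 0) (nat_lit 442562525) (nat_lit 528) (nat_lit 1) (nat_lit 504) (nat_lit 1) (nat_lit 503) (nat_lit 1) (nat_lit 333) (nat_lit 348) (nat_lit 339)) (XT.nd (nat_lit 78) (nat_lit 0) (nat_lit 76) (XT.lf (nat_lit 1900) (nat_lit 1327858546) (nat_lit 76) (nat_lit 1397852652) (nat_lit 0) (nat_lit 1725033765) (nat_lit 529) (nat_lit 1) (nat_lit 505) (nat_lit 1) (nat_lit 504) (nat_lit 1) (nat_lit 334) (nat_lit 348) (nat_lit 338)) (XT.lf (nat_lit 1900) (nat_lit 974261803) (nat_lit 76) (nat_lit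 430330389) (nat_lit 0) (nat_lit 2984236736) (nat_lit 530) (nat_lit 1) (nat_lit 506) (nat_lit 1) (nat_lit 505) (nat_lit 1) (nat_lit 335) (nat_lit 348) (nat_lit 337))))))))
noncomputable def ec28 : XT := (XT.nd (nat_lit 1404) (nat_lit 10564) (nat_lit 0) (XT.nd (nat_lit 702) (nat_lit 5852) (nat_lit 0) (XT.nd (nat_lit 312) (nat_lit 2812) (nat_lit 0) (XT.nd (nat_lit 156) (nat_lit 1824) (nat_lit 0) (XT.nd (nat_lit 78) (nat_lit 0) (nat_lit 0) (XT.lf (nat_lit 1900) (nat_lit 110942510) (nat_lit 0) (nat_lit 3728784296) (nat_lit 1824) (nat_lit 488368826) (nat_lit 531) (nat_lit 1) (nat_lit 506) (nat_lit 1) (nat_lit 530) (nat_lit 1) (nat_lit 336) (nat_lit 348) (nat_lit 336)) (XT.lf (nat_lit 1900) (nat_lit 196889519) (nat_lit 76) (nat_lit 2899910693) (nat_lit 0) (nat_lit 1171578266) (nat_lit 531) (nat_lit 1) (nat_lit 507) (nat_lit 1) (nat_lit 506) (nat_lit 1) (nat_lit 337) (nat_lit 348) (nat_lit 335))) (XT.nd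 (nat_lit 78) (nat_lit 0) (nat_lit 76) (XT.lf (nat_lit 1976) (nat_lit 1779443936) (nat_lit 0) (nat_lit 219170159) (nat_lit 1900) (nat_lit 2211203382) (nat_lit 508) (nat_lit 1) (nat_lit 482) (nat_lit 1) (nat_lit 507) (nat_lit 1) (nat_lit 338) (nat_lit 348) (nat_lit 334)) (XT.lf (nat_lit 1976) (nat_lit 488077388) (nat_lit 0) (nat_lit 647392939) (nat_lit 1900) (nat_lit 3016931218) (nat_lit 509) (nat_lit 1) (nat_lit 483) (nat_lit 1) (nat_lit 508) (nat_lit 1) (nat_lit 339) (nat_lit 348) (nat_lit 333)))) (XT.nd (nat_lit 156) (nat_lit 2888) (nat_lit 0) (XT.nd (nat_lit 78) (nat_lit 0) (nat_lit 76) (XT.lf (nat_lit 1976) (nat_lit 3001364144) (nat_lit 76) (nat_lit 305414524) (nat_lit 0) (nat_lit 789248852) (nat_lit 509) (nat_lit 1) (nat_lit 484) (nat_lit 1) (nat_lit 483) (nat_lit 1) (nat_lit 340) (nat_lit 348) (nat_lit 332)) (XT.lf (nat_lit 76) (nat_lit 1995226415) (nat_lit 0) (nat_lit 1561303137) (nat_lit 1900)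 (nat_lit 484117971) (nat_lit 485) (nat_lit 1) (nat_lit 484) (nat_lit 1) (nat_lit 509) (nat_lit 1) (nat_lit 341) (nat_lit 348) (nat_lit 331))) (XT.nd (nat_lit 78) (nat_lit 1824) (nat_lit 0) (XT.lf (nat_lit 76) (nat_lit 710586443) (nat_lit 0) (nat_lit 2041903384) (nat_lit 1216) (nat_lit 1233839672) (nat_lit 470) (nat_lit 1) (nat_lit 469) (nat_lit 1) (nat_lit 485) (nat_lit 1) (nat_lit 342) (nat_lit 348) (nat_lit 330)) (XT.nd (nat_lit 78) (nat_lit 912) (nat_lit 0) (XT.lf (nat_lit 988) (nat_lit 1395645155) (nat_lit 0) (nat_lit 1980604145) (nat_lit 912) (nat_lit 556766941) (nat_lit 470) (nat_lit 1) (nat_lit 457) (nat_lit 1) (nat_lit 469) (nat_lit 1) (nat_lit 343) (nat_lit 348) (nat_lit 329)) (XT.lf (nat_lit 988) (nat_lit 832756761) (nat_lit 0) (nat_lit 1238916807) (nat_lit 912) (nat_lit 1808992203) (nat_lit 458) (nat_lit 1) (nat_lit 445) (nat_lit 1) (nat_lit 457) (nat_lit 1) (nat_lit 344) (nat_lit 348)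 (nat_lit 328)))))) (XT.nd (nat_lit 312) (nat_lit 3192) (nat_lit 0) (XT.nd (nat_lit 156) (nat_lit 1748) (nat_lit 0) (XT.nd (nat_lit 78) (nat_lit 76) (nat_lit 0) (XT.lf (nat_lit 912) (nat_lit 261175030) (nat_lit 0) (nat_lit 531184384) (nat_lit 836) (nat_lit 3036988733) (nat_lit 446) (nat_lit 1) (nat_lit 434) (nat_lit 1) (nat_lit 445) (nat_lit 1) (nat_lit 345) (nat_lit 348) (nat_lit 327)) (XT.lf (nat_lit 76) (nat_lit 3313802018) (nat_lit 0) (nat_lit 318294538) (nat_lit 912) (nat_lit 146822739) (nat_lit 434) (nat_lit 1) (nat_lit 433) (nat_lit 1) (nat_lit 445) (nat_lit 1) (nat_lit 346) (nat_lit 348) (nat_lit 326))) (XT.nd (nat_lit 78) (nat_lit 836) (nat_lit 0) (XT.lf (nat_lit 76) (nat_lit 2026133228) (nat_lit 0) (nat_lit 910042464) (nat_lit 988) (nat_lit 793100993) (nat_lit 422) (nat_lit 1) (nat_lit 421) (nat_lit 1) (nat_lit 434) (nat_lit 1) (nat_lit 347) (nat_lit 348) (nat_lit 325)) (XT.lf (nat_lit 76)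 (nat_lit 763772426) (nat_lit 0) (nat_lit 1508240431) (nat_lit 912) (nat_lit 1408593409) (nat_lit 411) (nat_lit 1) (nat_lit 410) (nat_lit 1) (nat_lit 422) (nat_lit 1) (nat_lit 348) (nat_lit 348) (nat_lit 324)))) (XT.nd (nat_lit 156) (nat_lit 1596) (nat_lit 0) (XT.nd (nat_lit 78) (nat_lit 760) (nat_lit 0) (XT.lf (nat_lit 912) (nat_lit 1517355154) (nat_lit 0) (nat_lit 1635512975) (nat_lit 836) (nat_lit 479956222) (nat_lit 411) (nat_lit 1) (nat_lit 399) (nat_lit 1) (nat_lit 410) (nat_lit 1) (nat_lit 349) (nat_lit 348) (nat_lit 323)) (XT.lf (nat_lit 836) (nat_lit 852913423) (nat_lit 0) (nat_lit 1024001683) (nat_lit 760) (nat_lit 1708960037) (nat_lit 400) (nat_lit 1) (nat_lit 389) (nat_lit 1) (nat_lit 399) (nat_lit 1) (nat_lit 350) (nat_lit 348) (nat_lit 322))) (XT.nd (nat_lit 78) (nat_lit 836) (nat_lit 0) (XT.lf (nat_lit 836) (nat_lit 184636685) (nat_lit 0) (nat_lit 441733106) (nat_lit 760) (nat_lit 2913468937)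 (nat_lit 390) (nat_lit 1) (nat_lit 379) (nat_lit 1) (nat_lit 389) (nat_lit 1) (nat_lit 351) (nat_lit 348) (nat_lit 321)) (XT.nd (nat_lit 78) (nat_lit 760) (nat_lit 0) (XT.lf (nat_lit 76) (nat_lit 2891405430) (nat_lit 0) (nat_lit 485332353) (nat_lit 836) (nat_lit 117800231) (nat_lit 379) (nat_lit 1) (nat_lit 378) (nat_lit 1) (nat_lit 389) (nat_lit 1) (nat_lit 352) (nat_lit 348) (nat_lit 320)) (XT.lf (nat_lit 76) (nat_lit 1637950658) (nat_lit 0) (nat_lit 1162466237) (nat_lit 836) (nat_lit 649535976) (nat_lit 369) (nat_lit 1) (nat_lit 368) (nat_lit 1) (nat_lit 379) (nat_lit 1) (nat_lit 353) (nat_lit 348) (nat_lit 319))))))) (XT.nd (nat_lit 702) (nat_lit 5092) (nat_lit 0) (XT.nd (nat_lit 312) (nat_lit 2584) (nat_lit 0) (XT.nd (nat_lit 156) (nat_lit 1444) (nat_lit 0) (XT.nd (nat_lit 78) (nat_lit 684) (nat_lit 0) (XT.lf (nat_lit 76) (nat_lit 409745702) (nat_lit 0) (nat_lit 1841768941) (nat_lit 836) (nat_lit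 1154713859) (nat_lit 359) (nat_lit 1) (nat_lit 358) (nat_lit 1) (nat_lit 369) (nat_lit 1) (nat_lit 354) (nat_lit 348) (nat_lit 318)) (XT.lf (nat_lit 760) (nat_lit 835164578) (nat_lit 0) (nat_lit 1723914449) (nat_lit 684) (nat_lit 804162809) (nat_lit 359) (nat_lit 1) (nat_lit 349) (nat_lit 1) (nat_lit 358) (nat_lit 1) (nat_lit 355) (nat_lit 348) (nat_lit 317))) (XT.nd (nat_lit 78) (nat_lit 760) (nat_lit 0) (XT.lf (nat_lit 760) (nat_lit 102691378) (nat_lit 0) (nat_lit 1219586090) (nat_lit 684) (nat_lit 1998750921) (nat_lit 350) (nat_lit 1) (nat_lit 340) (nat_lit 1) (nat_lit 349) (nat_lit 1) (nat_lit 356) (nat_lit 348) (nat_lit 316)) (XT.lf (nat_lit 76) (nat_lit 114737311) (nat_lit 0) (nat_lit 621617855) (nat_lit 760) (nat_lit 2543187281) (nat_lit 331) (nat_lit 1) (nat_lit 330) (nat_lit 1) (nat_lit 340) (nat_lit 1) (nat_lit 357) (nat_lit 348) (nat_lit 315)))) (XT.nd (nat_lit 156) (nat_lit 1900) (nat_lit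 0) (XT.nd (nat_lit 78) (nat_lit 0) (nat_lit 0) (XT.lf (nat_lit 760) (nat_lit 1887308948) (nat_lit 0) (nat_lit 269818878) (nat_lit 684) (nat_lit 1081566812) (nat_lit 331) (nat_lit 1) (nat_lit 321) (nat_lit 1) (nat_lit 330) (nat_lit 1) (nat_lit 358) (nat_lit 348) (nat_lit 314)) (XT.lf (nat_lit 76) (nat_lit 945005101) (nat_lit 0) (nat_lit 2082359461) (nat_lit 760) (nat_lit 171222781) (nat_lit 322) (nat_lit 1) (nat_lit 321) (nat_lit 1) (nat_lit 331) (nat_lit 1) (nat_lit 359) (nat_lit 348) (nat_lit 313))) (XT.nd (nat_lit 78) (nat_lit 1292) (nat_lit 0) (XT.lf (nat_lit 684) (nat_lit 343619247) (nat_lit 0) (nat_lit 2571857819) (nat_lit 608) (nat_lit 243700838) (nat_lit 322) (nat_lit 1) (nat_lit 313) (nat_lit 1) (nat_lit 321) (nat_lit 1) (nat_lit 360) (nat_lit 348) (nat_lit 312)) (XT.nd (nat_lit 78) (nat_lit 608) (nat_lit 0) (XT.lf (nat_lit 76) (nat_lit 1703007253) (nat_lit 0) (nat_lit 427365973) (nat_lit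 684) (nat_lit 989966086) (nat_lit 305) (nat_lit 1) (nat_lit 304) (nat_lit 1) (nat_lit 313) (nat_lit 1) (nat_lit 361) (nat_lit 348) (nat_lit 311)) (XT.lf (nat_lit 76) (nat_lit 517832363) (nat_lit 0) (nat_lit 1191358934) (nat_lit 684) (nat_lit 1373000541) (nat_lit 297) (nat_lit 1) (nat_lit 296) (nat_lit 1) (nat_lit 305) (nat_lit 1) (nat_lit 362) (nat_lit 348) (nat_lit 310)))))) (XT.nd (nat_lit 390) (nat_lit 2736) (nat_lit 0) (XT.nd (nat_lit 156) (nat_lit 1216) (nat_lit 0) (XT.nd (nat_lit 78) (nat_lit 532) (nat_lit 0) (XT.lf (nat_lit 684) (nat_lit 1087803937) (nat_lit 0) (nat_lit 1305623775) (nat_lit 608) (nat_lit 651252220) (nat_lit 297) (nat_lit 1) (nat_lit 288) (nat_lit 1) (nat_lit 296) (nat_lit 1) (nat_lit 363) (nat_lit 348) (nat_lit 309)) (XT.lf (nat_lit 608) (nat_lit 285079123) (nat_lit 0) (nat_lit 920037058) (nat_lit 532) (nat_lit 1802691776) (nat_lit 289) (nat_lit 1) (nat_lit 281) (nat_lit 1)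 (nat_lit 288) (nat_lit 1) (nat_lit 364) (nat_lit 348) (nat_lit 308))) (XT.nd (nat_lit 78) (nat_lit 532) (nat_lit 0) (XT.lf (nat_lit 76) (nat_lit 44933375) (nat_lit 0) (nat_lit 506950434) (nat_lit 684) (nat_lit 2419678583) (nat_lit 273) (nat_lit 1) (nat_lit 272) (nat_lit 1) (nat_lit 281) (nat_lit 1) (nat_lit 365) (nat_lit 348) (nat_lit 307)) (XT.nd (nat_lit 78) (nat_lit 0) (nat_lit 0) (XT.lf (nat_lit 608) (nat_lit 1637482661) (nat_lit 0) (nat_lit 194792860) (nat_lit 532) (nat_lit 1103540027) (nat_lit 273) (nat_lit 1) (nat_lit 265) (nat_lit 1) (nat_lit 272) (nat_lit 1) (nat_lit 366) (nat_lit 348) (nat_lit 306)) (XT.lf (nat_lit 76) (nat_lit 673266313) (nat_lit 0) (nat_lit 2086550031) (nat_lit 608) (nat_lit 140895839) (nat_lit 266) (nat_lit 1) (nat_lit 265) (nat_lit 1) (nat_lit 273) (nat_lit 1) (nat_lit 367) (nat_lit 348) (nat_lit 305))))) (XT.nd (nat_lit 156) (nat_lit 1596) (nat_lit 0) (XT.nd (nat_lit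 78) (nat_lit 532) (nat_lit 0) (XT.lf (nat_lit 76) (nat_lit 2399957964) (nat_lit 0) (nat_lit 8113528) (nat_lit 608) (nat_lit 458106858) (nat_lit 258) (nat_lit 1) (nat_lit 257) (nat_lit 1) (nat_lit 265) (nat_lit 1) (nat_lit 368) (nat_lit 348) (nat_lit 304)) (XT.lf (nat_lit 76) (nat_lit 1247029096) (nat_lit 0) (nat_lit 818648684) (nat_lit 608) (nat_lit 766418411) (nat_lit 251) (nat_lit 1) (nat_lit 250) (nat_lit 1) (nat_lit 258) (nat_lit 1) (nat_lit 369) (nat_lit 348) (nat_lit 303))) (XT.nd (nat_lit 78) (nat_lit 1064) (nat_lit 0) (XT.lf (nat_lit 76) (nat_lit 118465543) (nat_lit 0) (nat_lit 1623555218) (nat_lit 608) (nat_lit 1056626372) (nat_lit 244) (nat_lit 1) (nat_lit 243) (nat_lit 1) (nat_lit 251) (nat_lit 1) (nat_lit 370) (nat_lit 348) (nat_lit 302)) (XT.nd (nat_lit 78) (nat_lit 608) (nat_lit 0) (XT.lf (nat_lit 532) (nat_lit 336466897) (nat_lit 0) (nat_lit 1429942802) (nat_lit 456) (nat_lit 999278552)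 (nat_lit 244) (nat_lit 1) (nat_lit 237) (nat_lit 1) (nat_lit 243) (nat_lit 1) (nat_lit 371) (nat_lit 348) (nat_lit 301)) (XT.lf (nat_lit 76) (nat_lit 641753588) (nat_lit 0) (nat_lit 489857515) (nat_lit 608) (nat_lit 1601648378) (nat_lit 230) (nat_lit 1) (nat_lit 229) (nat_lit 1) (nat_lit 237) (nat_lit 1) (nat_lit 372) (nat_lit 348) (nat_lit 300))))))))
noncomputable def ec29 : XT := (XT.nd (nat_lit 49530) (nat_lit 0) (nat_lit 19760) (XT.nd (nat_lit 702) (nat_lit 1520) (nat_lit 0) (XT.nd (nat_lit 312) (nat_lit 1748) (nat_lit 0) (XT.nd (nat_lit 156) (nat_lit 988) (nat_lit 0) (XT.nd (nat_lit 78) (nat_lit 456) (nat_lit 0) (XT.lf (nat_lit 532) (nat_lit 1393119491) (nat_lit 0) (nat_lit 845343000) (nat_lit 456) (nat_lit 462862814) (nat_lit 230) (nat_lit 1) (nat_lit 223) (nat_lit 1) (nat_lit 229) (nat_lit 1) (nat_lit 373) (nat_lit 348) (nat_lit 299)) (XT.lf (nat_lit 532) (nat_lit 545905676) (nat_lit 0) (nat_lit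 571781488) (nat_lit 456) (nat_lit 1552208656) (nat_lit 224) (nat_lit 1) (nat_lit 217) (nat_lit 1) (nat_lit 223) (nat_lit 1) (nat_lit 374) (nat_lit 348) (nat_lit 298))) (XT.nd (nat_lit 78) (nat_lit 456) (nat_lit 0) (XT.lf (nat_lit 76) (nat_lit 22758577) (nat_lit 0) (nat_lit 290036479) (nat_lit 532) (nat_lit 2326210128) (nat_lit 211) (nat_lit 1) (nat_lit 210) (nat_lit 1) (nat_lit 217) (nat_lit 1) (nat_lit 375) (nat_lit 348) (nat_lit 297)) (XT.lf (nat_lit 532) (nat_lit 1490133222) (nat_lit 0) (nat_lit 59271268) (nat_lit 456) (nat_lit 1059067776) (nat_lit 211) (nat_lit 1) (nat_lit 204) (nat_lit 1) (nat_lit 210) (nat_lit 1) (nat_lit 376) (nat_lit 348) (nat_lit 296)))) (XT.nd (nat_lit 156) (nat_lit 1292) (nat_lit 0) (XT.nd (nat_lit 78) (nat_lit 456) (nat_lit 0) (XT.lf (nat_lit 76) (nat_lit 461775015) (nat_lit 0) (nat_lit 1940412552) (nat_lit 532) (nat_lit 176283163) (nat_lit 205) (nat_lit 1) (nat_lit 204)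 (nat_lit 1) (nat_lit 211) (nat_lit 1) (nat_lit 377) (nat_lit 348) (nat_lit 295)) (XT.lf (nat_lit 76) (nat_lit 1940154057) (nat_lit 0) (nat_lit 207483196) (nat_lit 456) (nat_lit 401265896) (nat_lit 199) (nat_lit 1) (nat_lit 198) (nat_lit 1) (nat_lit 204) (nat_lit 1) (nat_lit 378) (nat_lit 348) (nat_lit 294))) (XT.nd (nat_lit 78) (nat_lit 836) (nat_lit 0) (XT.lf (nat_lit 76) (nat_lit 861712446) (nat_lit 0) (nat_lit 1039456431) (nat_lit 532) (nat_lit 618563767) (nat_lit 193) (nat_lit 1) (nat_lit 192) (nat_lit 1) (nat_lit 199) (nat_lit 1) (nat_lit 379) (nat_lit 348) (nat_lit 293)) (XT.nd (nat_lit 78) (nat_lit 456) (nat_lit 0) (XT.lf (nat_lit 456) (nat_lit 626619795) (nat_lit 0) (nat_lit 1668386159) (nat_lit 380) (nat_lit 196060820) (nat_lit 193) (nat_lit 1) (nat_lit 187) (nat_lit 1) (nat_lit 192) (nat_lit 1) (nat_lit 380) (nat_lit 348) (nat_lit 292)) (XT.lf (nat_lit 76) (nat_lit 1222082841) (nat_lit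 0) (nat_lit 220960906) (nat_lit 456) (nat_lit 1019737040) (nat_lit 182) (nat_lit 1) (nat_lit 181) (nat_lit 1) (nat_lit 187) (nat_lit 1) (nat_lit 381) (nat_lit 348) (nat_lit 291)))))) (XT.nd (nat_lit 48438) (nat_lit 0) (nat_lit 25536) (XT.nd (nat_lit 156) (nat_lit 760) (nat_lit 0) (XT.nd (nat_lit 78) (nat_lit 380) (nat_lit 0) (XT.lf (nat_lit 76) (nat_lit 176351136) (nat_lit 0) (nat_lit 1051541519) (nat_lit 456) (nat_lit 1207033699) (nat_lit 177) (nat_lit 1) (nat_lit 176) (nat_lit 1) (nat_lit 182) (nat_lit 1) (nat_lit 382) (nat_lit 348) (nat_lit 290)) (XT.lf (nat_lit 456) (nat_lit 528526356) (nat_lit 0) (nat_lit 1020988014) (nat_lit 380) (nat_lit 857948719) (nat_lit 177) (nat_lit 1) (nat_lit 171) (nat_lit 1) (nat_lit 176) (nat_lit 1) (nat_lit 383) (nat_lit 348) (nat_lit 289))) (XT.nd (nat_lit 78) (nat_lit 380) (nat_lit 0) (XT.lf (nat_lit 76) (nat_lit 510493622) (nat_lit 0) (nat_lit 313974504) (nat_lit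 380) (nat_lit 1555962567) (nat_lit 167) (nat_lit 1) (nat_lit 166) (nat_lit 1) (nat_lit 171) (nat_lit 1) (nat_lit 384) (nat_lit 348) (nat_lit 288)) (XT.lf (nat_lit 456) (nat_lit 1210101796) (nat_lit 0) (nat_lit 634417377) (nat_lit 380) (nat_lit 509231008) (nat_lit 167) (nat_lit 1) (nat_lit 161) (nat_lit 1) (nat_lit 166) (nat_lit 1) (nat_lit 385) (nat_lit 348) (nat_lit 287)))) (XT.nd (nat_lit 156) (nat_lit 0) (nat_lit 76) (XT.nd (nat_lit 78) (nat_lit 0) (nat_lit 76) (XT.lf (nat_lit 1900) (nat_lit 880076405) (nat_lit 0) (nat_lit 887435890) (nat_lit 1900) (nat_lit 880076405) (nat_lit 522) (nat_lit 1) (nat_lit 497) (nat_lit 0) (nat_lit 522) (nat_lit 0) (nat_lit 322) (nat_lit 349) (nat_lit 349)) (XT.lf (nat_lit 1900) (nat_lit 406801493) (nat_lit 0) (nat_lit 1765824311) (nat_lit 1824) (nat_lit 3045101359) (nat_lit 523) (nat_lit 1) (nat_lit 498) (nat_lit 1) (nat_lit 522) (nat_lit 1) (nat_lit 323) (nat_lit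 349) (nat_lit 348))) (XT.nd (nat_lit 78) (nat_lit 0) (nat_lit 76) (XT.lf (nat_lit 1900) (nat_lit 3345523457) (nat_lit 76) (nat_lit 860183543) (nat_lit 0) (nat_lit 936042053) (nat_lit 523) (nat_lit 1) (nat_lit 499) (nat_lit 1) (nat_lit 498) (nat_lit 1) (nat_lit 324) (nat_lit 349) (nat_lit 347)) (XT.nd (nat_lit 78) (nat_lit 0) (nat_lit 76) (XT.lf (nat_lit 1900) (nat_lit 2808496496) (nat_lit 0) (nat_lit 1863668419) (nat_lit 1824) (nat_lit 395060443) (nat_lit 524) (nat_lit 1) (nat_lit 499) (nat_lit 1) (nat_lit 523) (nat_lit 1) (nat_lit 325) (nat_lit 349) (nat_lit 346)) (XT.lf (nat_lit 1900) (nat_lit 1440780764) (nat_lit 0) (nat_lit 1966712582) (nat_lit 1824) (nat_lit 1586627595) (nat_lit 525) (nat_lit 1) (nat_lit 500) (nat_lit 1) (nat_lit 524) (nat_lit 1) (nat_lit 326) (nat_lit 349) (nat_lit 345))))))) (XT.nd (nat_lit 702) (nat_lit 6080) (nat_lit 0) (XT.nd (nat_lit 312) (nat_lit 0) (nat_lit 152) (XT.nd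 (nat_lit 156) (nat_lit 0) (nat_lit 76) (XT.nd (nat_lit 78) (nat_lit 0) (nat_lit 0) (XT.lf (nat_lit 1900) (nat_lit 96762800) (nat_lit 0) (nat_lit 2098427017) (nat_lit 1824) (nat_lit 2727322531) (nat_lit 526) (nat_lit 1) (nat_lit 501) (nat_lit 1) (nat_lit 525) (nat_lit 1) (nat_lit 327) (nat_lit 349) (nat_lit 344)) (XT.lf (nat_lit 1900) (nat_lit 2586640663) (nat_lit 76) (nat_lit 1025525920) (nat_lit 0) (nat_lit 1240037689) (nat_lit 526) (nat_lit 1) (nat_lit 502) (nat_lit 1) (nat_lit 501) (nat_lit 1) (nat_lit 328) (nat_lit 349) (nat_lit 343))) (XT.nd (nat_lit 78) (nat_lit 0) (nat_lit 76) (XT.lf (nat_lit 1900) (nat_lit 2229377415) (nat_lit 0) (nat_lit 2459919405) (nat_lit 1824) (nat_lit 94005439) (nat_lit 527) (nat_lit 1) (nat_lit 502) (nat_lit 1) (nat_lit 526) (nat_lit 1) (nat_lit 329) (nat_lit 349) (nat_lit 342)) (XT.lf (nat_lit 1900) (nat_lit 877672749) (nat_lit 0) (nat_lit 2685377086) (nat_lit 1824)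 (nat_lit 1152622013) (nat_lit 528) (nat_lit 1) (nat_lit 503) (nat_lit 1) (nat_lit 527) (nat_lit 1) (nat_lit 330) (nat_lit 349) (nat_lit 341)))) (XT.nd (nat_lit 156) (nat_lit 0) (nat_lit 152) (XT.nd (nat_lit 78) (nat_lit 0) (nat_lit 76) (XT.lf (nat_lit 1900) (nat_lit 1712273857) (nat_lit 76) (nat_lit 2481241733) (nat_lit 0) (nat_lit 455839401) (nat_lit 528) (nat_lit 1) (nat_lit 504) (nat_lit 1) (nat_lit 503) (nat_lit 1) (nat_lit 331) (nat_lit 349) (nat_lit 340)) (XT.lf (nat_lit 1900) (nat_lit 1367694302) (nat_lit 76) (nat_lit 1439788232) (nat_lit 0) (nat_lit 1776784778) (nat_lit 529) (nat_lit 1) (nat_lit 505) (nat_lit 1) (nat_lit 504) (nat_lit 1) (nat_lit 332) (nat_lit 349) (nat_lit 339))) (XT.nd (nat_lit 78) (nat_lit 0) (nat_lit 76) (XT.lf (nat_lit 1900) (nat_lit 1003489657) (nat_lit 76) (nat_lit 443240301) (nat_lit 0) (nat_lit 3073763838) (nat_lit 530) (nat_lit 1) (nat_lit 506) (nat_lit 1) (nat_lit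 505) (nat_lit 1) (nat_lit 333) (nat_lit 349) (nat_lit 338)) (XT.nd (nat_lit 78) (nat_lit 0) (nat_lit 0) (XT.lf (nat_lit 1900) (nat_lit 114270785) (nat_lit 0) (nat_lit 3840647825) (nat_lit 1824) (nat_lit 503019890) (nat_lit 531) (nat_lit 1) (nat_lit 506) (nat_lit 1) (nat_lit 530) (nat_lit 1) (nat_lit 334) (nat_lit 349) (nat_lit 337)) (XT.lf (nat_lit 1900) (nat_lit 202796205) (nat_lit 76) (nat_lit 2986908014) (nat_lit 0) (nat_lit 1206725614) (nat_lit 531) (nat_lit 1) (nat_lit 507) (nat_lit 1) (nat_lit 506) (nat_lit 1) (nat_lit 335) (nat_lit 349) (nat_lit 336)))))) (XT.nd (nat_lit 390) (nat_lit 3648) (nat_lit 0) (XT.nd (nat_lit 156) (nat_lit 988) (nat_lit 0) (XT.nd (nat_lit 78) (nat_lit 0) (nat_lit 76) (XT.lf (nat_lit 1976) (nat_lit 1832827254) (nat_lit 0) (nat_lit 225745263) (nat_lit 1900) (nat_lit 2277539483) (nat_lit 508) (nat_lit 1) (nat_lit 482) (nat_lit 1) (nat_lit 507) (nat_lit 1) (nat_lit 336)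 (nat_lit 349) (nat_lit 335)) (XT.lf (nat_lit 1976) (nat_lit 502719710) (nat_lit 0) (nat_lit 666814727) (nat_lit 1900) (nat_lit 3107439154) (nat_lit 509) (nat_lit 1) (nat_lit 483) (nat_lit 1) (nat_lit 508) (nat_lit 1) (nat_lit 337) (nat_lit 349) (nat_lit 334))) (XT.nd (nat_lit 78) (nat_lit 1064) (nat_lit 0) (XT.lf (nat_lit 1976) (nat_lit 3091405068) (nat_lit 76) (nat_lit 314576959) (nat_lit 0) (nat_lit 812926318) (nat_lit 509) (nat_lit 1) (nat_lit 484) (nat_lit 1) (nat_lit 483) (nat_lit 1) (nat_lit 338) (nat_lit 349) (nat_lit 333)) (XT.nd (nat_lit 78) (nat_lit 1140) (nat_lit 0) (XT.lf (nat_lit 76) (nat_lit 2055083208) (nat_lit 0) (nat_lit 1608142231) (nat_lit 1900) (nat_lit 498641510) (nat_lit 485) (nat_lit 1) (nat_lit 484) (nat_lit 1) (nat_lit 509) (nat_lit 1) (nat_lit 339) (nat_lit 349) (nat_lit 332)) (XT.lf (nat_lit 76) (nat_lit 731904036) (nat_lit 0) (nat_lit 2103160485) (nat_lit 1216) (nat_lit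 1270854862) (nat_lit 470) (nat_lit 1) (nat_lit 469) (nat_lit 1) (nat_lit 485) (nat_lit 1) (nat_lit 340) (nat_lit 349) (nat_lit 331))))) (XT.nd (nat_lit 156) (nat_lit 1824) (nat_lit 0) (XT.nd (nat_lit 78) (nat_lit 912) (nat_lit 0) (XT.lf (nat_lit 988) (nat_lit 1437514510) (nat_lit 0) (nat_lit 2040022270) (nat_lit 912) (nat_lit 573469949) (nat_lit 470) (nat_lit 1) (nat_lit 457) (nat_lit 1) (nat_lit 469) (nat_lit 1) (nat_lit 341) (nat_lit 349) (nat_lit 330)) (XT.lf (nat_lit 988) (nat_lit 857739464) (nat_lit 0) (nat_lit 1276084311) (nat_lit 912) (nat_lit 1863261969) (nat_lit 458) (nat_lit 1) (nat_lit 445) (nat_lit 1) (nat_lit 457) (nat_lit 1) (nat_lit 342) (nat_lit 349) (nat_lit 329))) (XT.nd (nat_lit 78) (nat_lit 988) (nat_lit 0) (XT.lf (nat_lit 912) (nat_lit 269010281) (nat_lit 0) (nat_lit 547119916) (nat_lit 836) (nat_lit 3128098395) (nat_lit 446) (nat_lit 1) (nat_lit 434) (nat_lit 1) (nat_lit 445)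 (nat_lit 1) (nat_lit 343) (nat_lit 349) (nat_lit 328)) (XT.nd (nat_lit 78) (nat_lit 912) (nat_lit 0) (XT.lf (nat_lit 76) (nat_lit 3413216079) (nat_lit 0) (nat_lit 327843374) (nat_lit 912) (nat_lit 151227422) (nat_lit 434) (nat_lit 1) (nat_lit 433) (nat_lit 1) (nat_lit 445) (nat_lit 1) (nat_lit 344) (nat_lit 349) (nat_lit 327)) (XT.lf (nat_lit 76) (nat_lit 2086917225) (nat_lit 0) (nat_lit 937343737) (nat_lit 988) (nat_lit 816894023) (nat_lit 422) (nat_lit 1) (nat_lit 421) (nat_lit 1) (nat_lit 434) (nat_lit 1) (nat_lit 345) (nat_lit 349) (nat_lit 326))))))))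
noncomputable def ec30 : XT := (XT.nd (nat_lit 1404) (nat_lit 8056) (nat_lit 0) (XT.nd (nat_lit 702) (nat_lit 5168) (nat_lit 0) (XT.nd (nat_lit 312) (nat_lit 2964) (nat_lit 0) (XT.nd (nat_lit 156) (nat_lit 1520) (nat_lit 0) (XT.nd (nat_lit 78) (nat_lit 836) (nat_lit 0) (XT.lf (nat_lit 76) (nat_lit 786685599) (nat_lit 0) (nat_lit 1553487644) (nat_lit 912) (nat_lit 1450851211) (nat_lit 411) (nat_lit 1) (nat_lit 410) (nat_lit 1) (nat_lit 422) (nat_lit 1) (nat_lit 346) (nat_lit 349) (nat_lit 325)) (XT.lf (nat_lit 912) (nat_lit 1562875809) (nat_lit 0) (nat_lit 1684578364) (nat_lit 836) (nat_lit 494354909) (nat_lit 411) (nat_lit 1) (nat_lit 399) (nat_lit 1) (nat_lit 410) (nat_lit 1) (nat_lit 347) (nat_lit 349) (nat_lit 324))) (XT.nd (nat_lit 78) (nat_lit 760) (nat_lit 0) (XT.lf (nat_lit 836) (nat_lit 878500826) (nat_lit 0) (nat_lit 1054721734) (nat_lit 760) (nat_lit 1760228838) (nat_lit 400) (nat_lit 1)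 (nat_lit 389) (nat_lit 1) (nat_lit 399) (nat_lit 1) (nat_lit 348) (nat_lit 349) (nat_lit 323)) (XT.lf (nat_lit 836) (nat_lit 190175785) (nat_lit 0) (nat_lit 454985099) (nat_lit 760) (nat_lit 3000873005) (nat_lit 390) (nat_lit 1) (nat_lit 379) (nat_lit 1) (nat_lit 389) (nat_lit 1) (nat_lit 349) (nat_lit 349) (nat_lit 322)))) (XT.nd (nat_lit 156) (nat_lit 2128) (nat_lit 0) (XT.nd (nat_lit 78) (nat_lit 760) (nat_lit 0) (XT.lf (nat_lit 76) (nat_lit 2978147593) (nat_lit 0) (nat_lit 499892324) (nat_lit 836) (nat_lit 121334238) (nat_lit 379) (nat_lit 1) (nat_lit 378) (nat_lit 1) (nat_lit 389) (nat_lit 1) (nat_lit 350) (nat_lit 349) (nat_lit 321)) (XT.lf (nat_lit 76) (nat_lit 1687089178) (nat_lit 0) (nat_lit 1197340224) (nat_lit 836) (nat_lit 669022055) (nat_lit 369) (nat_lit 1) (nat_lit 368) (nat_lit 1) (nat_lit 379) (nat_lit 1) (nat_lit 351) (nat_lit 349) (nat_lit 320))) (XT.nd (nat_lit 78) (nat_lit 1368)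 (nat_lit 0) (XT.lf (nat_lit 76) (nat_lit 422038073) (nat_lit 0) (nat_lit 1897022010) (nat_lit 836) (nat_lit 1189355275) (nat_lit 359) (nat_lit 1) (nat_lit 358) (nat_lit 1) (nat_lit 369) (nat_lit 1) (nat_lit 352) (nat_lit 349) (nat_lit 319)) (XT.nd (nat_lit 78) (nat_lit 684) (nat_lit 0) (XT.lf (nat_lit 760) (nat_lit 860219515) (nat_lit 0) (nat_lit 1775631883) (nat_lit 684) (nat_lit 828287694) (nat_lit 359) (nat_lit 1) (nat_lit 349) (nat_lit 1) (nat_lit 358) (nat_lit 1) (nat_lit 353) (nat_lit 349) (nat_lit 318)) (XT.lf (nat_lit 760) (nat_lit 105772120) (nat_lit 0) (nat_lit 1256173672) (nat_lit 684) (nat_lit 2058713448) (nat_lit 350) (nat_lit 1) (nat_lit 340) (nat_lit 1) (nat_lit 349) (nat_lit 1) (nat_lit 354) (nat_lit 349) (nat_lit 317)))))) (XT.nd (nat_lit 312) (nat_lit 3116) (nat_lit 0) (XT.nd (nat_lit 156) (nat_lit 608) (nat_lit 0) (XT.nd (nat_lit 78) (nat_lit 684) (nat_lit 0) (XT.lf (nat_lit 76)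 (nat_lit 118179431) (nat_lit 0) (nat_lit 640266391) (nat_lit 760) (nat_lit 2619482900) (nat_lit 331) (nat_lit 1) (nat_lit 330) (nat_lit 1) (nat_lit 340) (nat_lit 1) (nat_lit 355) (nat_lit 349) (nat_lit 316)) (XT.lf (nat_lit 760) (nat_lit 1943928216) (nat_lit 0) (nat_lit 277913444) (nat_lit 684) (nat_lit 1114013816) (nat_lit 331) (nat_lit 1) (nat_lit 321) (nat_lit 1) (nat_lit 330) (nat_lit 1) (nat_lit 356) (nat_lit 349) (nat_lit 315))) (XT.nd (nat_lit 78) (nat_lit 608) (nat_lit 0) (XT.lf (nat_lit 76) (nat_lit 973355254) (nat_lit 0) (nat_lit 2144830245) (nat_lit 760) (nat_lit 176359465) (nat_lit 322) (nat_lit 1) (nat_lit 321) (nat_lit 1) (nat_lit 331) (nat_lit 1) (nat_lit 357) (nat_lit 349) (nat_lit 314)) (XT.lf (nat_lit 684) (nat_lit 353927824) (nat_lit 0) (nat_lit 2649013553) (nat_lit 608) (nat_lit 251011864) (nat_lit 322) (nat_lit 1) (nat_lit 313) (nat_lit 1) (nat_lit 321) (nat_lit 1) (nat_lit 358)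 (nat_lit 349) (nat_lit 313)))) (XT.nd (nat_lit 156) (nat_lit 1824) (nat_lit 0) (XT.nd (nat_lit 78) (nat_lit 608) (nat_lit 0) (XT.lf (nat_lit 76) (nat_lit 1754097470) (nat_lit 0) (nat_lit 440186952) (nat_lit 684) (nat_lit 1019665068) (nat_lit 305) (nat_lit 1) (nat_lit 304) (nat_lit 1) (nat_lit 313) (nat_lit 1) (nat_lit 359) (nat_lit 349) (nat_lit 312)) (XT.lf (nat_lit 76) (nat_lit 533367334) (nat_lit 0) (nat_lit 1227099702) (nat_lit 684) (nat_lit 1414190558) (nat_lit 297) (nat_lit 1) (nat_lit 296) (nat_lit 1) (nat_lit 305) (nat_lit 1) (nat_lit 360) (nat_lit 349) (nat_lit 311))) (XT.nd (nat_lit 78) (nat_lit 1216) (nat_lit 0) (XT.lf (nat_lit 684) (nat_lit 1120438055) (nat_lit 0) (nat_lit 1344792489) (nat_lit 608) (nat_lit 670789786) (nat_lit 297) (nat_lit 1) (nat_lit 288) (nat_lit 1) (nat_lit 296) (nat_lit 1) (nat_lit 361) (nat_lit 349) (nat_lit 310)) (XT.nd (nat_lit 78) (nat_lit 684) (nat_lit 0) (XT.lf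 (nat_lit 608) (nat_lit 293631496) (nat_lit 0) (nat_lit 947638170) (nat_lit 532) (nat_lit 1856772530) (nat_lit 289) (nat_lit 1) (nat_lit 281) (nat_lit 1) (nat_lit 288) (nat_lit 1) (nat_lit 362) (nat_lit 349) (nat_lit 309)) (XT.lf (nat_lit 76) (nat_lit 46281376) (nat_lit 0) (nat_lit 522158947) (nat_lit 684) (nat_lit 2492268941) (nat_lit 273) (nat_lit 1) (nat_lit 272) (nat_lit 1) (nat_lit 281) (nat_lit 1) (nat_lit 363) (nat_lit 349) (nat_lit 308))))))) (XT.nd (nat_lit 702) (nat_lit 3876) (nat_lit 0) (XT.nd (nat_lit 312) (nat_lit 2508) (nat_lit 0) (XT.nd (nat_lit 156) (nat_lit 1140) (nat_lit 0) (XT.nd (nat_lit 78) (nat_lit 0) (nat_lit 0) (XT.lf (nat_lit 608) (nat_lit 1686607141) (nat_lit 0) (nat_lit 200636646) (nat_lit 532) (nat_lit 1136646228) (nat_lit 273) (nat_lit 1) (nat_lit 265) (nat_lit 1) (nat_lit 272) (nat_lit 1) (nat_lit 364) (nat_lit 349) (nat_lit 307)) (XT.lf (nat_lit 76) (nat_lit 693464302)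 (nat_lit 0) (nat_lit 2149146532) (nat_lit 608) (nat_lit 145122714) (nat_lit 266) (nat_lit 1) (nat_lit 265) (nat_lit 1) (nat_lit 273) (nat_lit 1) (nat_lit 365) (nat_lit 349) (nat_lit 306))) (XT.nd (nat_lit 78) (nat_lit 532) (nat_lit 0) (XT.lf (nat_lit 76) (nat_lit 2471956703) (nat_lit 0) (nat_lit 8356934) (nat_lit 608) (nat_lit 471850064) (nat_lit 258) (nat_lit 1) (nat_lit 257) (nat_lit 1) (nat_lit 265) (nat_lit 1) (nat_lit 366) (nat_lit 349) (nat_lit 305)) (XT.lf (nat_lit 76) (nat_lit 1284439969) (nat_lit 0) (nat_lit 843208145) (nat_lit 608) (nat_lit 789410964) (nat_lit 251) (nat_lit 1) (nat_lit 250) (nat_lit 1) (nat_lit 258) (nat_lit 1) (nat_lit 367) (nat_lit 349) (nat_lit 304)))) (XT.nd (nat_lit 156) (nat_lit 1520) (nat_lit 0) (XT.nd (nat_lit 78) (nat_lit 456) (nat_lit 0) (XT.lf (nat_lit 76) (nat_lit 122019510) (nat_lit 0) (nat_lit 1672261875) (nat_lit 608) (nat_lit 1088325164) (nat_lit 244) (nat_lit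 1) (nat_lit 243) (nat_lit 1) (nat_lit 251) (nat_lit 1) (nat_lit 368) (nat_lit 349) (nat_lit 303)) (XT.lf (nat_lit 532) (nat_lit 346560904) (nat_lit 0) (nat_lit 1472841086) (nat_lit 456) (nat_lit 1029256909) (nat_lit 244) (nat_lit 1) (nat_lit 237) (nat_lit 1) (nat_lit 243) (nat_lit 1) (nat_lit 369) (nat_lit 349) (nat_lit 302))) (XT.nd (nat_lit 78) (nat_lit 912) (nat_lit 0) (XT.lf (nat_lit 76) (nat_lit 661006196) (nat_lit 0) (nat_lit 504553240) (nat_lit 608) (nat_lit 1649697830) (nat_lit 230) (nat_lit 1) (nat_lit 229) (nat_lit 1) (nat_lit 237) (nat_lit 1) (nat_lit 370) (nat_lit 349) (nat_lit 301)) (XT.nd (nat_lit 78) (nat_lit 456) (nat_lit 0) (XT.lf (nat_lit 532) (nat_lit 1434913075) (nat_lit 0) (nat_lit 870703290) (nat_lit 456) (nat_lit 476748698) (nat_lit 230) (nat_lit 1) (nat_lit 223) (nat_lit 1) (nat_lit 229) (nat_lit 1) (nat_lit 371) (nat_lit 349) (nat_lit 300)) (XT.lf (nat_lit 532) (nat_lit 562282846)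 (nat_lit 0) (nat_lit 588934932) (nat_lit 456) (nat_lit 1598774916) (nat_lit 224) (nat_lit 1) (nat_lit 217) (nat_lit 1) (nat_lit 223) (nat_lit 1) (nat_lit 372) (nat_lit 349) (nat_lit 299)))))) (XT.nd (nat_lit 390) (nat_lit 1976) (nat_lit 0) (XT.nd (nat_lit 156) (nat_lit 912) (nat_lit 0) (XT.nd (nat_lit 78) (nat_lit 456) (nat_lit 0) (XT.lf (nat_lit 76) (nat_lit 23441334) (nat_lit 0) (nat_lit 298737573) (nat_lit 532) (nat_lit 2395996432) (nat_lit 211) (nat_lit 1) (nat_lit 210) (nat_lit 1) (nat_lit 217) (nat_lit 1) (nat_lit 373) (nat_lit 349) (nat_lit 298)) (XT.lf (nat_lit 532) (nat_lit 1534837218) (nat_lit 0) (nat_lit 61049406) (nat_lit 456) (nat_lit 1090839809) (nat_lit 211) (nat_lit 1) (nat_lit 204) (nat_lit 1) (nat_lit 210) (nat_lit 1) (nat_lit 374) (nat_lit 349) (nat_lit 297))) (XT.nd (nat_lit 78) (nat_lit 912) (nat_lit 0) (XT.lf (nat_lit 76) (nat_lit 475628266) (nat_lit 0) (nat_lit 1998624928)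 (nat_lit 532) (nat_lit 181571658) (nat_lit 205) (nat_lit 1) (nat_lit 204) (nat_lit 1) (nat_lit 211) (nat_lit 1) (nat_lit 375) (nat_lit 349) (nat_lit 296)) (XT.nd (nat_lit 78) (nat_lit 456) (nat_lit 0) (XT.lf (nat_lit 76) (nat_lit 1998358679) (nat_lit 0) (nat_lit 213707692) (nat_lit 456) (nat_lit 413303873) (nat_lit 199) (nat_lit 1) (nat_lit 198) (nat_lit 1) (nat_lit 204) (nat_lit 1) (nat_lit 376) (nat_lit 349) (nat_lit 295)) (XT.lf (nat_lit 76) (nat_lit 887563819) (nat_lit 0) (nat_lit 1070640123) (nat_lit 532) (nat_lit 637120680) (nat_lit 193) (nat_lit 1) (nat_lit 192) (nat_lit 1) (nat_lit 199) (nat_lit 1) (nat_lit 377) (nat_lit 349) (nat_lit 294))))) (XT.nd (nat_lit 156) (nat_lit 1140) (nat_lit 0) (XT.nd (nat_lit 78) (nat_lit 456) (nat_lit 0) (XT.lf (nat_lit 456) (nat_lit 645418389) (nat_lit 0) (nat_lit 1718437744) (nat_lit 380) (nat_lit 201942644) (nat_lit 193) (nat_lit 1) (nat_lit 187) (nat_lit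 1) (nat_lit 192) (nat_lit 1) (nat_lit 378) (nat_lit 349) (nat_lit 293)) (XT.lf (nat_lit 76) (nat_lit 1258745326) (nat_lit 0) (nat_lit 227589733) (nat_lit 456) (nat_lit 1050329152) (nat_lit 182) (nat_lit 1) (nat_lit 181) (nat_lit 1) (nat_lit 187) (nat_lit 1) (nat_lit 379) (nat_lit 349) (nat_lit 292))) (XT.nd (nat_lit 78) (nat_lit 760) (nat_lit 0) (XT.lf (nat_lit 76) (nat_lit 181641670) (nat_lit 0) (nat_lit 1083087764) (nat_lit 456) (nat_lit 1243244710) (nat_lit 177) (nat_lit 1) (nat_lit 176) (nat_lit 1) (nat_lit 182) (nat_lit 1) (nat_lit 380) (nat_lit 349) (nat_lit 291)) (XT.nd (nat_lit 78) (nat_lit 380) (nat_lit 0) (XT.lf (nat_lit 456) (nat_lit 544382146) (nat_lit 0) (nat_lit 1051617655) (nat_lit 380) (nat_lit 883687180) (nat_lit 177) (nat_lit 1) (nat_lit 171) (nat_lit 1) (nat_lit 176) (nat_lit 1) (nat_lit 381) (nat_lit 349) (nat_lit 290)) (XT.lf (nat_lit 76) (nat_lit 525808431) (nat_lit 0) (nat_lit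 323393739) (nat_lit 380) (nat_lit 1602641444) (nat_lit 167) (nat_lit 1) (nat_lit 166) (nat_lit 1) (nat_lit 171) (nat_lit 1) (nat_lit 382) (nat_lit 349) (nat_lit 289))))))))
noncomputable def ec31 : XT := (XT.nd (nat_lit 49374) (nat_lit 0) (nat_lit 13604) (XT.nd (nat_lit 48672) (nat_lit 0) (nat_lit 25156) (XT.nd (nat_lit 48282) (nat_lit 0) (nat_lit 26372) (XT.nd (nat_lit 156) (nat_lit 456) (nat_lit 0) (XT.nd (nat_lit 78) (nat_lit 304) (nat_lit 0) (XT.lf (nat_lit 456) (nat_lit 1246404850) (nat_lit 0) (nat_lit 653449898) (nat_lit 380) (nat_lit 524507939) (nat_lit 167) (nat_lit 1) (nat_lit 161) (nat_lit 1) (nat_lit 166) (nat_lit 1) (nat_lit 383) (nat_lit 349) (nat_lit 288)) (XT.lf (nat_lit 380) (nat_lit 370905114) (nat_lit 0) (nat_lit 467666912) (nat_lit 304) (nat_lit 1558734752) (nat_lit 162) (nat_lit 1) (nat_lit 157) (nat_lit 1) (nat_lit 161) (nat_lit 1) (nat_lit 384) (nat_lit 349) (nat_lit 287)))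 (XT.nd (nat_lit 48048) (nat_lit 0) (nat_lit 26296) (XT.lf (nat_lit 456) (nat_lit 1881255879) (nat_lit 0) (nat_lit 290398467) (nat_lit 380) (nat_lit 198990785) (nat_lit 157) (nat_lit 1) (nat_lit 151) (nat_lit 1) (nat_lit 156) (nat_lit 1) (nat_lit 385) (nat_lit 349) (nat_lit 286)) (XT.lf (nat_lit 1900) (nat_lit 906478697) (nat_lit 0) (nat_lit 914058967) (nat_lit 1900) (nat_lit 906478697) (nat_lit 522) (nat_lit 1) (nat_lit 497) (nat_lit 0) (nat_lit 522) (nat_lit 0) (nat_lit 320) (nat_lit 350) (nat_lit 350)))) (XT.nd (nat_lit 156) (nat_lit 0) (nat_lit 76) (XT.nd (nat_lit 78) (nat_lit 0) (nat_lit 0) (XT.lf (nat_lit 1900) (nat_lit 419005538) (nat_lit 0) (nat_lit 1818799041) (nat_lit 1824) (nat_lit 3136454400) (nat_lit 523) (nat_lit 1) (nat_lit 498) (nat_lit 1) (nat_lit 522) (nat_lit 1) (nat_lit 321) (nat_lit 350) (nat_lit 349)) (XT.lf (nat_lit 1900) (nat_lit 3445889161) (nat_lit 76) (nat_lit 885989050)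 (nat_lit 0) (nat_lit 964123315) (nat_lit 523) (nat_lit 1) (nat_lit 499) (nat_lit 1) (nat_lit 498) (nat_lit 1) (nat_lit 322) (nat_lit 350) (nat_lit 348))) (XT.nd (nat_lit 78) (nat_lit 0) (nat_lit 76) (XT.lf (nat_lit 1900) (nat_lit 2892751391) (nat_lit 0) (nat_lit 1919578471) (nat_lit 1824) (nat_lit 406912256) (nat_lit 524) (nat_lit 1) (nat_lit 499) (nat_lit 1) (nat_lit 523) (nat_lit 1) (nat_lit 323) (nat_lit 350) (nat_lit 347)) (XT.nd (nat_lit 78) (nat_lit 0) (nat_lit 76) (XT.lf (nat_lit 1900) (nat_lit 1484004187) (nat_lit 0) (nat_lit 2025713959) (nat_lit 1824) (nat_lit 1634226423) (nat_lit 525) (nat_lit 1) (nat_lit 500) (nat_lit 1) (nat_lit 524) (nat_lit 1) (nat_lit 324) (nat_lit 350) (nat_lit 346)) (XT.lf (nat_lit 1900) (nat_lit 99665684) (nat_lit 0) (nat_lit 2161379828) (nat_lit 1824) (nat_lit 2809142207) (nat_lit 526) (nat_lit 1) (nat_lit 501) (nat_lit 1) (nat_lit 525) (nat_lit 1) (nat_lit 325)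 (nat_lit 350) (nat_lit 345)))))) (XT.nd (nat_lit 312) (nat_lit 1444) (nat_lit 0) (XT.nd (nat_lit 156) (nat_lit 0) (nat_lit 152) (XT.nd (nat_lit 78) (nat_lit 0) (nat_lit 76) (XT.lf (nat_lit 1900) (nat_lit 2664239883) (nat_lit 76) (nat_lit 1056291698) (nat_lit 0) (nat_lit 1277238820) (nat_lit 526) (nat_lit 1) (nat_lit 502) (nat_lit 1) (nat_lit 501) (nat_lit 1) (nat_lit 326) (nat_lit 350) (nat_lit 344)) (XT.lf (nat_lit 1900) (nat_lit 2296258738) (nat_lit 0) (nat_lit 2533716988) (nat_lit 1824) (nat_lit 96825602) (nat_lit 527) (nat_lit 1) (nat_lit 502) (nat_lit 1) (nat_lit 526) (nat_lit 1) (nat_lit 327) (nat_lit 350) (nat_lit 343))) (XT.nd (nat_lit 78) (nat_lit 0) (nat_lit 0) (XT.lf (nat_lit 1900) (nat_lit 904002931) (nat_lit 0) (nat_lit 2765938398) (nat_lit 1824) (nat_lit 1187200673) (nat_lit 528) (nat_lit 1) (nat_lit 503) (nat_lit 1) (nat_lit 527) (nat_lit 1) (nat_lit 328) (nat_lit 350) (nat_lit 342))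 (XT.lf (nat_lit 1900) (nat_lit 1763642072) (nat_lit 76) (nat_lit 2555678985) (nat_lit 0) (nat_lit 469514583) (nat_lit 528) (nat_lit 1) (nat_lit 504) (nat_lit 1) (nat_lit 503) (nat_lit 1) (nat_lit 329) (nat_lit 350) (nat_lit 341)))) (XT.nd (nat_lit 156) (nat_lit 1672) (nat_lit 0) (XT.nd (nat_lit 78) (nat_lit 0) (nat_lit 76) (XT.lf (nat_lit 1900) (nat_lit 1408725131) (nat_lit 76) (nat_lit 1482981879) (nat_lit 0) (nat_lit 1830088321) (nat_lit 529) (nat_lit 1) (nat_lit 505) (nat_lit 1) (nat_lit 504) (nat_lit 1) (nat_lit 330) (nat_lit 350) (nat_lit 340)) (XT.lf (nat_lit 1900) (nat_lit 1033594346) (nat_lit 76) (nat_lit 456537510) (nat_lit 0) (nat_lit 3165976753) (nat_lit 530) (nat_lit 1) (nat_lit 506) (nat_lit 1) (nat_lit 505) (nat_lit 1) (nat_lit 331) (nat_lit 350) (nat_lit 339))) (XT.nd (nat_lit 78) (nat_lit 1824) (nat_lit 0) (XT.lf (nat_lit 1900) (nat_lit 117698909) (nat_lit 0) (nat_lit 3955867260)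 (nat_lit 1824) (nat_lit 518110487) (nat_lit 531) (nat_lit 1) (nat_lit 506) (nat_lit 1) (nat_lit 530) (nat_lit 1) (nat_lit 332) (nat_lit 350) (nat_lit 338)) (XT.nd (nat_lit 78) (nat_lit 1824) (nat_lit 0) (XT.lf (nat_lit 1900) (nat_lit 208880091) (nat_lit 76) (nat_lit 3076515254) (nat_lit 0) (nat_lit 1242927382) (nat_lit 531) (nat_lit 1) (nat_lit 507) (nat_lit 1) (nat_lit 506) (nat_lit 1) (nat_lit 333) (nat_lit 350) (nat_lit 337)) (XT.lf (nat_lit 1976) (nat_lit 1887812071) (nat_lit 0) (nat_lit 232517621) (nat_lit 1900) (nat_lit 2345865668) (nat_lit 508) (nat_lit 1) (nat_lit 482) (nat_lit 1) (nat_lit 507) (nat_lit 1) (nat_lit 334) (nat_lit 350) (nat_lit 336))))))) (XT.nd (nat_lit 702) (nat_lit 6916) (nat_lit 0) (XT.nd (nat_lit 312) (nat_lit 3648) (nat_lit 0) (XT.nd (nat_lit 156) (nat_lit 1064) (nat_lit 0) (XT.nd (nat_lit 78) (nat_lit 0) (nat_lit 0) (XT.lf (nat_lit 1976) (nat_lit 517801301) (nat_lit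 0) (nat_lit 686819169) (nat_lit 1900) (nat_lit 3200662329) (nat_lit 509) (nat_lit 1) (nat_lit 483) (nat_lit 1) (nat_lit 508) (nat_lit 1) (nat_lit 335) (nat_lit 350) (nat_lit 335)) (XT.lf (nat_lit 1976) (nat_lit 3184147220) (nat_lit 76) (nat_lit 324014268) (nat_lit 0) (nat_lit 837314108) (nat_lit 509) (nat_lit 1) (nat_lit 484) (nat_lit 1) (nat_lit 483) (nat_lit 1) (nat_lit 336) (nat_lit 350) (nat_lit 334))) (XT.nd (nat_lit 78) (nat_lit 1140) (nat_lit 0) (XT.lf (nat_lit 76) (nat_lit 2116735704) (nat_lit 0) (nat_lit 1656386498) (nat_lit 1900) (nat_lit 513600755) (nat_lit 485) (nat_lit 1) (nat_lit 484) (nat_lit 1) (nat_lit 509) (nat_lit 1) (nat_lit 337) (nat_lit 350) (nat_lit 333)) (XT.lf (nat_lit 76) (nat_lit 753861157) (nat_lit 0) (nat_lit 2166255300) (nat_lit 1216) (nat_lit 1308980508) (nat_lit 470) (nat_lit 1) (nat_lit 469) (nat_lit 1) (nat_lit 485) (nat_lit 1) (nat_lit 338) (nat_lit 350) (nat_lit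 332)))) (XT.nd (nat_lit 156) (nat_lit 1824) (nat_lit 0) (XT.nd (nat_lit 78) (nat_lit 912) (nat_lit 0) (XT.lf (nat_lit 988) (nat_lit 1480639945) (nat_lit 0) (nat_lit 2101222938) (nat_lit 912) (nat_lit 590674047) (nat_lit 470) (nat_lit 1) (nat_lit 457) (nat_lit 1) (nat_lit 469) (nat_lit 1) (nat_lit 339) (nat_lit 350) (nat_lit 331)) (XT.lf (nat_lit 988) (nat_lit 883471648) (nat_lit 0) (nat_lit 1314366840) (nat_lit 912) (nat_lit 1919159828) (nat_lit 458) (nat_lit 1) (nat_lit 445) (nat_lit 1) (nat_lit 457) (nat_lit 1) (nat_lit 340) (nat_lit 350) (nat_lit 330))) (XT.nd (nat_lit 78) (nat_lit 988) (nat_lit 0) (XT.lf (nat_lit 912) (nat_lit 277080589) (nat_lit 0) (nat_lit 563533513) (nat_lit 836) (nat_lit 3221941347) (nat_lit 446) (nat_lit 1) (nat_lit 434) (nat_lit 1) (nat_lit 445) (nat_lit 1) (nat_lit 341) (nat_lit 350) (nat_lit 329)) (XT.nd (nat_lit 78) (nat_lit 912) (nat_lit 0) (XT.lf (nat_lit 76) (nat_lit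 3515612561) (nat_lit 0) (nat_lit 337678675) (nat_lit 912) (nat_lit 155764244) (nat_lit 434) (nat_lit 1) (nat_lit 433) (nat_lit 1) (nat_lit 445) (nat_lit 1) (nat_lit 342) (nat_lit 350) (nat_lit 328)) (XT.lf (nat_lit 76) (nat_lit 2149524741) (nat_lit 0) (nat_lit 965464050) (nat_lit 988) (nat_lit 841400843) (nat_lit 422) (nat_lit 1) (nat_lit 421) (nat_lit 1) (nat_lit 434) (nat_lit 1) (nat_lit 343) (nat_lit 350) (nat_lit 327)))))) (XT.nd (nat_lit 390) (nat_lit 3648) (nat_lit 0) (XT.nd (nat_lit 156) (nat_lit 1596) (nat_lit 0) (XT.nd (nat_lit 78) (nat_lit 836) (nat_lit 0) (XT.lf (nat_lit 76) (nat_lit 810286167) (nat_lit 0) (nat_lit 1600092274) (nat_lit 912) (nat_lit 1494376747) (nat_lit 411) (nat_lit 1) (nat_lit 410) (nat_lit 1) (nat_lit 422) (nat_lit 1) (nat_lit 344) (nat_lit 350) (nat_lit 326)) (XT.lf (nat_lit 912) (nat_lit 1609762083) (nat_lit 0) (nat_lit 1735115715) (nat_lit 836) (nat_lit 509185556)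 (nat_lit 411) (nat_lit 1) (nat_lit 399) (nat_lit 1) (nat_lit 410) (nat_lit 1) (nat_lit 345) (nat_lit 350) (nat_lit 325))) (XT.nd (nat_lit 78) (nat_lit 836) (nat_lit 0) (XT.lf (nat_lit 836) (nat_lit 904855851) (nat_lit 0) (nat_lit 1086363386) (nat_lit 760) (nat_lit 1813035703) (nat_lit 400) (nat_lit 1) (nat_lit 389) (nat_lit 1) (nat_lit 399) (nat_lit 1) (nat_lit 346) (nat_lit 350) (nat_lit 324)) (XT.nd (nat_lit 78) (nat_lit 76) (nat_lit 0) (XT.lf (nat_lit 836) (nat_lit 195881059) (nat_lit 0) (nat_lit 468634652) (nat_lit 760) (nat_lit 3090899195) (nat_lit 390) (nat_lit 1) (nat_lit 379) (nat_lit 1) (nat_lit 389) (nat_lit 1) (nat_lit 347) (nat_lit 350) (nat_lit 323)) (XT.lf (nat_lit 76) (nat_lit 3067492021) (nat_lit 0) (nat_lit 514889094) (nat_lit 836) (nat_lit 124974265) (nat_lit 379) (nat_lit 1) (nat_lit 378) (nat_lit 1) (nat_lit 389) (nat_lit 1) (nat_lit 348) (nat_lit 350) (nat_lit 322))))) (XT.nd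 (nat_lit 156) (nat_lit 2128) (nat_lit 0) (XT.nd (nat_lit 78) (nat_lit 760) (nat_lit 0) (XT.lf (nat_lit 76) (nat_lit 1737701854) (nat_lit 0) (nat_lit 1233260431) (nat_lit 836) (nat_lit 689092717) (nat_lit 369) (nat_lit 1) (nat_lit 368) (nat_lit 1) (nat_lit 379) (nat_lit 1) (nat_lit 349) (nat_lit 350) (nat_lit 321)) (XT.lf (nat_lit 76) (nat_lit 434699215) (nat_lit 0) (nat_lit 1953932670) (nat_lit 836) (nat_lit 1225035933) (nat_lit 359) (nat_lit 1) (nat_lit 358) (nat_lit 1) (nat_lit 369) (nat_lit 1) (nat_lit 350) (nat_lit 350) (nat_lit 320))) (XT.nd (nat_lit 78) (nat_lit 1444) (nat_lit 0) (XT.lf (nat_lit 760) (nat_lit 886026101) (nat_lit 0) (nat_lit 1828900839) (nat_lit 684) (nat_lit 853136324) (nat_lit 359) (nat_lit 1) (nat_lit 349) (nat_lit 1) (nat_lit 358) (nat_lit 1) (nat_lit 351) (nat_lit 350) (nat_lit 319)) (XT.nd (nat_lit 78) (nat_lit 760) (nat_lit 0) (XT.lf (nat_lit 760) (nat_lit 108945283)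 (nat_lit 0) (nat_lit 1293858882) (nat_lit 684) (nat_lit 2120474852) (nat_lit 350) (nat_lit 1) (nat_lit 340) (nat_lit 1) (nat_lit 349) (nat_lit 1) (nat_lit 352) (nat_lit 350) (nat_lit 318)) (XT.lf (nat_lit 76) (nat_lit 121724814) (nat_lit 0) (nat_lit 659474383) (nat_lit 760) (nat_lit 2698067387) (nat_lit 331) (nat_lit 1) (nat_lit 330) (nat_lit 1) (nat_lit 340) (nat_lit 1) (nat_lit 353) (nat_lit 350) (nat_lit 317))))))))
noncomputable def ec32 : XT := (XT.nd (nat_lit 1404) (nat_lit 4788) (nat_lit 0) (XT.nd (nat_lit 702) (nat_lit 4180) (nat_lit 0) (XT.nd (nat_lit 312) (nat_lit 2964) (nat_lit 0) (XT.nd (nat_lit 156) (nat_lit 1292) (nat_lit 0) (XT.nd (nat_lit 78) (nat_lit 0) (nat_lit 0) (XT.lf (nat_lit 760) (nat_lit 2002246063) (nat_lit 0) (nat_lit 286250848) (nat_lit 684) (nat_lit 1147434231) (nat_lit 331) (nat_lit 1) (nat_lit 321) (nat_lit 1) (nat_lit 330) (nat_lit 1) (nat_lit 354) (nat_lit 350) (nat_lit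 316)) (XT.lf (nat_lit 76) (nat_lit 1002555912) (nat_lit 0) (nat_lit 2209175152) (nat_lit 760) (nat_lit 181650249) (nat_lit 322) (nat_lit 1) (nat_lit 321) (nat_lit 1) (nat_lit 331) (nat_lit 1) (nat_lit 355) (nat_lit 350) (nat_lit 315))) (XT.nd (nat_lit 78) (nat_lit 684) (nat_lit 0) (XT.lf (nat_lit 684) (nat_lit 364545659) (nat_lit 0) (nat_lit 2728483960) (nat_lit 608) (nat_lit 258542219) (nat_lit 322) (nat_lit 1) (nat_lit 313) (nat_lit 1) (nat_lit 321) (nat_lit 1) (nat_lit 356) (nat_lit 350) (nat_lit 314)) (XT.lf (nat_lit 76) (nat_lit 1806720394) (nat_lit 0) (nat_lit 453392560) (nat_lit 684) (nat_lit 1050255020) (nat_lit 305) (nat_lit 1) (nat_lit 304) (nat_lit 1) (nat_lit 313) (nat_lit 1) (nat_lit 357) (nat_lit 350) (nat_lit 313)))) (XT.nd (nat_lit 156) (nat_lit 1748) (nat_lit 0) (XT.nd (nat_lit 78) (nat_lit 608) (nat_lit 0) (XT.lf (nat_lit 76) (nat_lit 549368354) (nat_lit 0) (nat_lit 1263912693)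 (nat_lit 684) (nat_lit 1456616274) (nat_lit 297) (nat_lit 1) (nat_lit 296) (nat_lit 1) (nat_lit 305) (nat_lit 1) (nat_lit 358) (nat_lit 350) (nat_lit 312)) (XT.lf (nat_lit 684) (nat_lit 1154051197) (nat_lit 0) (nat_lit 1385136263) (nat_lit 608) (nat_lit 690913480) (nat_lit 297) (nat_lit 1) (nat_lit 288) (nat_lit 1) (nat_lit 296) (nat_lit 1) (nat_lit 359) (nat_lit 350) (nat_lit 311))) (XT.nd (nat_lit 78) (nat_lit 1216) (nat_lit 0) (XT.lf (nat_lit 608) (nat_lit 302440441) (nat_lit 0) (nat_lit 976067315) (nat_lit 532) (nat_lit 1912475706) (nat_lit 289) (nat_lit 1) (nat_lit 281) (nat_lit 1) (nat_lit 288) (nat_lit 1) (nat_lit 360) (nat_lit 350) (nat_lit 310)) (XT.nd (nat_lit 78) (nat_lit 532) (nat_lit 0) (XT.lf (nat_lit 76) (nat_lit 47669817) (nat_lit 0) (nat_lit 537823715) (nat_lit 684) (nat_lit 2567037009) (nat_lit 273) (nat_lit 1) (nat_lit 272) (nat_lit 1) (nat_lit 281) (nat_lit 1) (nat_lit 361) (nat_lit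 350) (nat_lit 309)) (XT.lf (nat_lit 608) (nat_lit 1737205355) (nat_lit 0) (nat_lit 206655746) (nat_lit 532) (nat_lit 1170745615) (nat_lit 273) (nat_lit 1) (nat_lit 265) (nat_lit 1) (nat_lit 272) (nat_lit 1) (nat_lit 362) (nat_lit 350) (nat_lit 308)))))) (XT.nd (nat_lit 312) (nat_lit 2508) (nat_lit 0) (XT.nd (nat_lit 156) (nat_lit 1064) (nat_lit 0) (XT.nd (nat_lit 78) (nat_lit 608) (nat_lit 0) (XT.lf (nat_lit 76) (nat_lit 714268231) (nat_lit 0) (nat_lit 2213620928) (nat_lit 608) (nat_lit 149476395) (nat_lit 266) (nat_lit 1) (nat_lit 265) (nat_lit 1) (nat_lit 273) (nat_lit 1) (nat_lit 363) (nat_lit 350) (nat_lit 307)) (XT.lf (nat_lit 76) (nat_lit 2546115404) (nat_lit 0) (nat_lit 8607642) (nat_lit 608) (nat_lit 486005566) (nat_lit 258) (nat_lit 1) (nat_lit 257) (nat_lit 1) (nat_lit 265) (nat_lit 1) (nat_lit 364) (nat_lit 350) (nat_lit 306))) (XT.nd (nat_lit 78) (nat_lit 532) (nat_lit 0) (XT.lf (nat_lit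 76) (nat_lit 1322973168) (nat_lit 0) (nat_lit 868504389) (nat_lit 608) (nat_lit 813093293) (nat_lit 251) (nat_lit 1) (nat_lit 250) (nat_lit 1) (nat_lit 258) (nat_lit 1) (nat_lit 365) (nat_lit 350) (nat_lit 305)) (XT.lf (nat_lit 76) (nat_lit 125680095) (nat_lit 0) (nat_lit 1722429731) (nat_lit 608) (nat_lit 1120974919) (nat_lit 244) (nat_lit 1) (nat_lit 243) (nat_lit 1) (nat_lit 251) (nat_lit 1) (nat_lit 366) (nat_lit 350) (nat_lit 304)))) (XT.nd (nat_lit 156) (nat_lit 1444) (nat_lit 0) (XT.nd (nat_lit 78) (nat_lit 608) (nat_lit 0) (XT.lf (nat_lit 532) (nat_lit 356957731) (nat_lit 0) (nat_lit 1517026319) (nat_lit 456) (nat_lit 1060134616) (nat_lit 244) (nat_lit 1) (nat_lit 237) (nat_lit 1) (nat_lit 243) (nat_lit 1) (nat_lit 367) (nat_lit 350) (nat_lit 303)) (XT.lf (nat_lit 76) (nat_lit 680836382) (nat_lit 0) (nat_lit 519689838) (nat_lit 608) (nat_lit 1699188765) (nat_lit 230) (nat_lit 1) (nat_lit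 229) (nat_lit 1) (nat_lit 237) (nat_lit 1) (nat_lit 368) (nat_lit 350) (nat_lit 302))) (XT.nd (nat_lit 78) (nat_lit 988) (nat_lit 0) (XT.lf (nat_lit 532) (nat_lit 1477960468) (nat_lit 0) (nat_lit 896824388) (nat_lit 456) (nat_lit 491051159) (nat_lit 230) (nat_lit 1) (nat_lit 223) (nat_lit 1) (nat_lit 229) (nat_lit 1) (nat_lit 369) (nat_lit 350) (nat_lit 301)) (XT.nd (nat_lit 78) (nat_lit 532) (nat_lit 0) (XT.lf (nat_lit 532) (nat_lit 579151331) (nat_lit 0) (nat_lit 606602980) (nat_lit 456) (nat_lit 1646738163) (nat_lit 224) (nat_lit 1) (nat_lit 217) (nat_lit 1) (nat_lit 223) (nat_lit 1) (nat_lit 370) (nat_lit 350) (nat_lit 300)) (XT.lf (nat_lit 76) (nat_lit 24144575) (nat_lit 0) (nat_lit 307699700) (nat_lit 532) (nat_lit 2467876325) (nat_lit 211) (nat_lit 1) (nat_lit 210) (nat_lit 1) (nat_lit 217) (nat_lit 1) (nat_lit 371) (nat_lit 350) (nat_lit 299))))))) (XT.nd (nat_lit 702) (nat_lit 1444) (nat_lit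 0) (XT.nd (nat_lit 312) (nat_lit 1976) (nat_lit 0) (XT.nd (nat_lit 156) (nat_lit 912) (nat_lit 0) (XT.nd (nat_lit 78) (nat_lit 0) (nat_lit 0) (XT.lf (nat_lit 532) (nat_lit 1580882335) (nat_lit 0) (nat_lit 62880888) (nat_lit 456) (nat_lit 1123565003) (nat_lit 211) (nat_lit 1) (nat_lit 204) (nat_lit 1) (nat_lit 210) (nat_lit 1) (nat_lit 372) (nat_lit 350) (nat_lit 298)) (XT.lf (nat_lit 76) (nat_lit 489897114) (nat_lit 0) (nat_lit 2058583676) (nat_lit 532) (nat_lit 187018808) (nat_lit 205) (nat_lit 1) (nat_lit 204) (nat_lit 1) (nat_lit 211) (nat_lit 1) (nat_lit 373) (nat_lit 350) (nat_lit 297))) (XT.nd (nat_lit 78) (nat_lit 456) (nat_lit 0) (XT.lf (nat_lit 76) (nat_lit 2058309439) (nat_lit 0) (nat_lit 220118923) (nat_lit 456) (nat_lit 425702989) (nat_lit 199) (nat_lit 1) (nat_lit 198) (nat_lit 1) (nat_lit 204) (nat_lit 1) (nat_lit 374) (nat_lit 350) (nat_lit 296)) (XT.lf (nat_lit 76) (nat_lit 914190734)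 (nat_lit 0) (nat_lit 1102759327) (nat_lit 532) (nat_lit 656234301) (nat_lit 193) (nat_lit 1) (nat_lit 192) (nat_lit 1) (nat_lit 199) (nat_lit 1) (nat_lit 375) (nat_lit 350) (nat_lit 295)))) (XT.nd (nat_lit 156) (nat_lit 1140) (nat_lit 0) (XT.nd (nat_lit 78) (nat_lit 456) (nat_lit 0) (XT.lf (nat_lit 456) (nat_lit 664780941) (nat_lit 0) (nat_lit 1769990876) (nat_lit 380) (nat_lit 208000924) (nat_lit 193) (nat_lit 1) (nat_lit 187) (nat_lit 1) (nat_lit 192) (nat_lit 1) (nat_lit 376) (nat_lit 350) (nat_lit 294)) (XT.lf (nat_lit 76) (nat_lit 1296507686) (nat_lit 0) (nat_lit 234417425) (nat_lit 456) (nat_lit 1081839026) (nat_lit 182) (nat_lit 1) (nat_lit 181) (nat_lit 1) (nat_lit 187) (nat_lit 1) (nat_lit 377) (nat_lit 350) (nat_lit 293))) (XT.nd (nat_lit 78) (nat_lit 760) (nat_lit 0) (XT.lf (nat_lit 76) (nat_lit 187090920) (nat_lit 0) (nat_lit 1115580397) (nat_lit 456) (nat_lit 1280542051) (nat_lit 177)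 (nat_lit 1) (nat_lit 176) (nat_lit 1) (nat_lit 182) (nat_lit 1) (nat_lit 378) (nat_lit 350) (nat_lit 292)) (XT.nd (nat_lit 78) (nat_lit 380) (nat_lit 0) (XT.lf (nat_lit 456) (nat_lit 560713611) (nat_lit 0) (nat_lit 1083166184) (nat_lit 380) (nat_lit 910197796) (nat_lit 177) (nat_lit 1) (nat_lit 171) (nat_lit 1) (nat_lit 176) (nat_lit 1) (nat_lit 379) (nat_lit 350) (nat_lit 291)) (XT.lf (nat_lit 76) (nat_lit 541582684) (nat_lit 0) (nat_lit 333095551) (nat_lit 380) (nat_lit 1650720687) (nat_lit 167) (nat_lit 1) (nat_lit 166) (nat_lit 1) (nat_lit 171) (nat_lit 1) (nat_lit 380) (nat_lit 350) (nat_lit 290)))))) (XT.nd (nat_lit 48204) (nat_lit 0) (nat_lit 26600) (XT.nd (nat_lit 156) (nat_lit 760) (nat_lit 0) (XT.nd (nat_lit 78) (nat_lit 304) (nat_lit 0) (XT.lf (nat_lit 456) (nat_lit 1283796996) (nat_lit 0) (nat_lit 673053395) (nat_lit 380) (nat_lit 540243177) (nat_lit 167) (nat_lit 1) (nat_lit 161) (nat_lit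 1) (nat_lit 166) (nat_lit 1) (nat_lit 381) (nat_lit 350) (nat_lit 289)) (XT.lf (nat_lit 380) (nat_lit 382032267) (nat_lit 0) (nat_lit 481696919) (nat_lit 304) (nat_lit 1605496794) (nat_lit 162) (nat_lit 1) (nat_lit 157) (nat_lit 1) (nat_lit 161) (nat_lit 1) (nat_lit 382) (nat_lit 350) (nat_lit 288))) (XT.nd (nat_lit 78) (nat_lit 304) (nat_lit 0) (XT.lf (nat_lit 456) (nat_lit 1937693555) (nat_lit 0) (nat_lit 299110421) (nat_lit 380) (nat_lit 204960508) (nat_lit 157) (nat_lit 1) (nat_lit 151) (nat_lit 1) (nat_lit 156) (nat_lit 1) (nat_lit 383) (nat_lit 350) (nat_lit 287)) (XT.nd (nat_lit 78) (nat_lit 0) (nat_lit 0) (XT.lf (nat_lit 380) (nat_lit 1034066686) (nat_lit 0) (nat_lit 121547982) (nat_lit 304) (nat_lit 1259018689) (nat_lit 152) (nat_lit 1) (nat_lit 147) (nat_lit 1) (nat_lit 151) (nat_lit 1) (nat_lit 384) (nat_lit 350) (nat_lit 286)) (XT.lf (nat_lit 76) (nat_lit 98329162) (nat_lit 0) (nat_lit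 2247149628) (nat_lit 380) (nat_lit 42501344) (nat_lit 148) (nat_lit 1) (nat_lit 147) (nat_lit 1) (nat_lit 152) (nat_lit 1) (nat_lit 385) (nat_lit 350) (nat_lit 285))))) (XT.nd (nat_lit 156) (nat_lit 0) (nat_lit 76) (XT.nd (nat_lit 78) (nat_lit 0) (nat_lit 76) (XT.lf (nat_lit 1900) (nat_lit 933673058) (nat_lit 0) (nat_lit 941480736) (nat_lit 1900) (nat_lit 933673058) (nat_lit 522) (nat_lit 1) (nat_lit 497) (nat_lit 0) (nat_lit 522) (nat_lit 0) (nat_lit 318) (nat_lit 351) (nat_lit 351)) (XT.lf (nat_lit 1900) (nat_lit 431575704) (nat_lit 0) (nat_lit 1873363012) (nat_lit 1824) (nat_lit 3230548032) (nat_lit 523) (nat_lit 1) (nat_lit 498) (nat_lit 1) (nat_lit 522) (nat_lit 1) (nat_lit 319) (nat_lit 351) (nat_lit 350))) (XT.nd (nat_lit 78) (nat_lit 0) (nat_lit 76) (XT.lf (nat_lit 1900) (nat_lit 3549265835) (nat_lit 76) (nat_lit 912568721) (nat_lit 0) (nat_lit 993047014) (nat_lit 523) (nat_lit 1) (nat_lit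 499) (nat_lit 1) (nat_lit 498) (nat_lit 1) (nat_lit 320) (nat_lit 351) (nat_lit 349)) (XT.nd (nat_lit 78) (nat_lit 0) (nat_lit 76) (XT.lf (nat_lit 1900) (nat_lit 2979533933) (nat_lit 0) (nat_lit 1977165825) (nat_lit 1824) (nat_lit 419119624) (nat_lit 524) (nat_lit 1) (nat_lit 499) (nat_lit 1) (nat_lit 523) (nat_lit 1) (nat_lit 321) (nat_lit 351) (nat_lit 348)) (XT.lf (nat_lit 1900) (nat_lit 1528524313) (nat_lit 0) (nat_lit 2086485378) (nat_lit 1824) (nat_lit 1683253216) (nat_lit 525) (nat_lit 1) (nat_lit 500) (nat_lit 1) (nat_lit 524) (nat_lit 1) (nat_lit 322) (nat_lit 351) (nat_lit 347))))))))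
noncomputable def ec33 : XT := (XT.nd (nat_lit 1404) (nat_lit 12236) (nat_lit 0) (XT.nd (nat_lit 702) (nat_lit 5168) (nat_lit 0) (XT.nd (nat_lit 312) (nat_lit 0) (nat_lit 152) (XT.nd (nat_lit 156) (nat_lit 0) (nat_lit 76) (XT.nd (nat_lit 78) (nat_lit 0) (nat_lit 0) (XT.lf (nat_lit 1900) (nat_lit 102655655) (nat_lit 0) (nat_lit 2226221222) (nat_lit 1824) (nat_lit 2893416473) (nat_lit 526) (nat_lit 1) (nat_lit 501) (nat_lit 1) (nat_lit 525) (nat_lit 1) (nat_lit 323) (nat_lit 351) (nat_lit 346)) (XT.lf (nat_lit 1900) (nat_lit 2744167080) (nat_lit 76) (nat_lit 1087980448) (nat_lit 0) (nat_lit 1315555985) (nat_lit 526) (nat_lit 1) (nat_lit 502) (nat_lit 1) (nat_lit 501) (nat_lit 1) (nat_lit 324) (nat_lit 351) (nat_lit 345))) (XT.nd (nat_lit 78) (nat_lit 0) (nat_lit 76) (XT.lf (nat_lit 1900) (nat_lit 2365146500) (nat_lit 0) (nat_lit 2609728497) (nat_lit 1824) (nat_lit 99730370) (nat_lit 527) (nat_lit 1)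 (nat_lit 502) (nat_lit 1) (nat_lit 526) (nat_lit 1) (nat_lit 325) (nat_lit 351) (nat_lit 344)) (XT.lf (nat_lit 1900) (nat_lit 931123019) (nat_lit 0) (nat_lit 2848916550) (nat_lit 1824) (nat_lit 1222816693) (nat_lit 528) (nat_lit 1) (nat_lit 503) (nat_lit 1) (nat_lit 527) (nat_lit 1) (nat_lit 326) (nat_lit 351) (nat_lit 343)))) (XT.nd (nat_lit 156) (nat_lit 0) (nat_lit 152) (XT.nd (nat_lit 78) (nat_lit 0) (nat_lit 76) (XT.lf (nat_lit 1900) (nat_lit 1816551335) (nat_lit 76) (nat_lit 2632349354) (nat_lit 0) (nat_lit 483600020) (nat_lit 528) (nat_lit 1) (nat_lit 504) (nat_lit 1) (nat_lit 503) (nat_lit 1) (nat_lit 327) (nat_lit 351) (nat_lit 342)) (XT.lf (nat_lit 1900) (nat_lit 1450986885) (nat_lit 76) (nat_lit 1527471335) (nat_lit 0) (nat_lit 1884990971) (nat_lit 529) (nat_lit 1) (nat_lit 505) (nat_lit 1) (nat_lit 504) (nat_lit 1) (nat_lit 328) (nat_lit 351) (nat_lit 341))) (XT.nd (nat_lit 78) (nat_lit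 0) (nat_lit 76) (XT.lf (nat_lit 1900) (nat_lit 1064602177) (nat_lit 76) (nat_lit 470233635) (nat_lit 0) (nat_lit 3260956056) (nat_lit 530) (nat_lit 1) (nat_lit 506) (nat_lit 1) (nat_lit 505) (nat_lit 1) (nat_lit 329) (nat_lit 351) (nat_lit 340)) (XT.nd (nat_lit 78) (nat_lit 0) (nat_lit 0) (XT.lf (nat_lit 1900) (nat_lit 121229876) (nat_lit 0) (nat_lit 4074543278) (nat_lit 1824) (nat_lit 533653802) (nat_lit 531) (nat_lit 1) (nat_lit 506) (nat_lit 1) (nat_lit 530) (nat_lit 1) (nat_lit 330) (nat_lit 351) (nat_lit 339)) (XT.lf (nat_lit 1900) (nat_lit 215146494) (nat_lit 76) (nat_lit 3168810712) (nat_lit 0) (nat_lit 1280215204) (nat_lit 531) (nat_lit 1) (nat_lit 507) (nat_lit 1) (nat_lit 506) (nat_lit 1) (nat_lit 331) (nat_lit 351) (nat_lit 338)))))) (XT.nd (nat_lit 312) (nat_lit 3724) (nat_lit 0) (XT.nd (nat_lit 156) (nat_lit 0) (nat_lit 76) (XT.nd (nat_lit 78) (nat_lit 0) (nat_lit 76) (XT.lf (nat_lit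 1976) (nat_lit 1944446434) (nat_lit 0) (nat_lit 239493150) (nat_lit 1900) (nat_lit 2416241638) (nat_lit 508) (nat_lit 1) (nat_lit 482) (nat_lit 1) (nat_lit 507) (nat_lit 1) (nat_lit 332) (nat_lit 351) (nat_lit 337)) (XT.lf (nat_lit 1976) (nat_lit 533335340) (nat_lit 0) (nat_lit 707423744) (nat_lit 1900) (nat_lit 3296682199) (nat_lit 509) (nat_lit 1) (nat_lit 483) (nat_lit 1) (nat_lit 508) (nat_lit 1) (nat_lit 333) (nat_lit 351) (nat_lit 336))) (XT.nd (nat_lit 78) (nat_lit 0) (nat_lit 76) (XT.lf (nat_lit 1976) (nat_lit 3279671636) (nat_lit 76) (nat_lit 333734696) (nat_lit 0) (nat_lit 862433531) (nat_lit 509) (nat_lit 1) (nat_lit 484) (nat_lit 1) (nat_lit 483) (nat_lit 1) (nat_lit 334) (nat_lit 351) (nat_lit 335)) (XT.lf (nat_lit 76) (nat_lit 2180237775) (nat_lit 0) (nat_lit 1706078093) (nat_lit 1900) (nat_lit 529008778) (nat_lit 485) (nat_lit 1) (nat_lit 484) (nat_lit 1) (nat_lit 509) (nat_lit 1)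 (nat_lit 335) (nat_lit 351) (nat_lit 334)))) (XT.nd (nat_lit 156) (nat_lit 1824) (nat_lit 0) (XT.nd (nat_lit 78) (nat_lit 912) (nat_lit 0) (XT.lf (nat_lit 76) (nat_lit 776476992) (nat_lit 0) (nat_lit 2231242959) (nat_lit 1216) (nat_lit 1348249923) (nat_lit 470) (nat_lit 1) (nat_lit 469) (nat_lit 1) (nat_lit 485) (nat_lit 1) (nat_lit 336) (nat_lit 351) (nat_lit 333)) (XT.lf (nat_lit 988) (nat_lit 1525059144) (nat_lit 0) (nat_lit 2164259626) (nat_lit 912) (nat_lit 608394269) (nat_lit 470) (nat_lit 1) (nat_lit 457) (nat_lit 1) (nat_lit 469) (nat_lit 1) (nat_lit 337) (nat_lit 351) (nat_lit 332))) (XT.nd (nat_lit 78) (nat_lit 912) (nat_lit 0) (XT.lf (nat_lit 988) (nat_lit 909975798) (nat_lit 0) (nat_lit 1353797846) (nat_lit 912) (nat_lit 1976734623) (nat_lit 458) (nat_lit 1) (nat_lit 445) (nat_lit 1) (nat_lit 457) (nat_lit 1) (nat_lit 338) (nat_lit 351) (nat_lit 331)) (XT.nd (nat_lit 78) (nat_lit 76)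 (nat_lit 0) (XT.lf (nat_lit 912) (nat_lit 285393007) (nat_lit 0) (nat_lit 580439519) (nat_lit 836) (nat_lit 3318599587) (nat_lit 446) (nat_lit 1) (nat_lit 434) (nat_lit 1) (nat_lit 445) (nat_lit 1) (nat_lit 339) (nat_lit 351) (nat_lit 330)) (XT.lf (nat_lit 76) (nat_lit 3621080938) (nat_lit 0) (nat_lit 347809036) (nat_lit 912) (nat_lit 160437172) (nat_lit 434) (nat_lit 1) (nat_lit 433) (nat_lit 1) (nat_lit 445) (nat_lit 1) (nat_lit 340) (nat_lit 351) (nat_lit 329))))))) (XT.nd (nat_lit 702) (nat_lit 5852) (nat_lit 0) (XT.nd (nat_lit 312) (nat_lit 3040) (nat_lit 0) (XT.nd (nat_lit 156) (nat_lit 1596) (nat_lit 0) (XT.nd (nat_lit 78) (nat_lit 836) (nat_lit 0) (XT.lf (nat_lit 76) (nat_lit 2214010484) (nat_lit 0) (nat_lit 994427971) (nat_lit 988) (nat_lit 866642869) (nat_lit 422) (nat_lit 1) (nat_lit 421) (nat_lit 1) (nat_lit 434) (nat_lit 1) (nat_lit 341) (nat_lit 351) (nat_lit 328)) (XT.lf (nat_lit 76)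 (nat_lit 834594752) (nat_lit 0) (nat_lit 1648095042) (nat_lit 912) (nat_lit 1539208050) (nat_lit 411) (nat_lit 1) (nat_lit 410) (nat_lit 1) (nat_lit 422) (nat_lit 1) (nat_lit 342) (nat_lit 351) (nat_lit 327))) (XT.nd (nat_lit 78) (nat_lit 760) (nat_lit 0) (XT.lf (nat_lit 912) (nat_lit 1658054946) (nat_lit 0) (nat_lit 1787169187) (nat_lit 836) (nat_lit 524461123) (nat_lit 411) (nat_lit 1) (nat_lit 399) (nat_lit 1) (nat_lit 410) (nat_lit 1) (nat_lit 343) (nat_lit 351) (nat_lit 326)) (XT.lf (nat_lit 836) (nat_lit 932001526) (nat_lit 0) (nat_lit 1118954287) (nat_lit 760) (nat_lit 1867426774) (nat_lit 400) (nat_lit 1) (nat_lit 389) (nat_lit 1) (nat_lit 399) (nat_lit 1) (nat_lit 344) (nat_lit 351) (nat_lit 325)))) (XT.nd (nat_lit 156) (nat_lit 2204) (nat_lit 0) (XT.nd (nat_lit 78) (nat_lit 76) (nat_lit 0) (XT.lf (nat_lit 836) (nat_lit 201757490) (nat_lit 0) (nat_lit 482693692) (nat_lit 760) (nat_lit 3183626171)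 (nat_lit 390) (nat_lit 1) (nat_lit 379) (nat_lit 1) (nat_lit 389) (nat_lit 1) (nat_lit 345) (nat_lit 351) (nat_lit 324)) (XT.lf (nat_lit 76) (nat_lit 3159516782) (nat_lit 0) (nat_lit 530335767) (nat_lit 836) (nat_lit 128723493) (nat_lit 379) (nat_lit 1) (nat_lit 378) (nat_lit 1) (nat_lit 389) (nat_lit 1) (nat_lit 346) (nat_lit 351) (nat_lit 323))) (XT.nd (nat_lit 78) (nat_lit 1444) (nat_lit 0) (XT.lf (nat_lit 76) (nat_lit 1789832909) (nat_lit 0) (nat_lit 1270258244) (nat_lit 836) (nat_lit 709765499) (nat_lit 369) (nat_lit 1) (nat_lit 368) (nat_lit 1) (nat_lit 379) (nat_lit 1) (nat_lit 347) (nat_lit 351) (nat_lit 322)) (XT.nd (nat_lit 78) (nat_lit 684) (nat_lit 0) (XT.lf (nat_lit 76) (nat_lit 447740192) (nat_lit 0) (nat_lit 2012550650) (nat_lit 836) (nat_lit 1261787011) (nat_lit 359) (nat_lit 1) (nat_lit 358) (nat_lit 1) (nat_lit 369) (nat_lit 1) (nat_lit 348) (nat_lit 351) (nat_lit 321)) (XT.lf (nat_lit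 760) (nat_lit 912606884) (nat_lit 0) (nat_lit 1883767864) (nat_lit 684) (nat_lit 878730414) (nat_lit 359) (nat_lit 1) (nat_lit 349) (nat_lit 1) (nat_lit 358) (nat_lit 1) (nat_lit 349) (nat_lit 351) (nat_lit 320)))))) (XT.nd (nat_lit 390) (nat_lit 3116) (nat_lit 0) (XT.nd (nat_lit 156) (nat_lit 1292) (nat_lit 0) (XT.nd (nat_lit 78) (nat_lit 760) (nat_lit 0) (XT.lf (nat_lit 760) (nat_lit 112213642) (nat_lit 0) (nat_lit 1332674649) (nat_lit 684) (nat_lit 2184089097) (nat_lit 350) (nat_lit 1) (nat_lit 340) (nat_lit 1) (nat_lit 349) (nat_lit 1) (nat_lit 350) (nat_lit 351) (nat_lit 319)) (XT.lf (nat_lit 76) (nat_lit 125376558) (nat_lit 0) (nat_lit 679258614) (nat_lit 760) (nat_lit 2779009408) (nat_lit 331) (nat_lit 1) (nat_lit 330) (nat_lit 1) (nat_lit 340) (nat_lit 1) (nat_lit 351) (nat_lit 351) (nat_lit 318))) (XT.nd (nat_lit 78) (nat_lit 608) (nat_lit 0) (XT.lf (nat_lit 760) (nat_lit 2062313444) (nat_lit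 0) (nat_lit 294838373) (nat_lit 684) (nat_lit 1181857258) (nat_lit 331) (nat_lit 1) (nat_lit 321) (nat_lit 1) (nat_lit 330) (nat_lit 1) (nat_lit 352) (nat_lit 351) (nat_lit 317)) (XT.nd (nat_lit 78) (nat_lit 608) (nat_lit 0) (XT.lf (nat_lit 76) (nat_lit 1032632589) (nat_lit 0) (nat_lit 2275450407) (nat_lit 760) (nat_lit 187099756) (nat_lit 322) (nat_lit 1) (nat_lit 321) (nat_lit 1) (nat_lit 331) (nat_lit 1) (nat_lit 353) (nat_lit 351) (nat_lit 316)) (XT.lf (nat_lit 684) (nat_lit 375482029) (nat_lit 0) (nat_lit 2810338479) (nat_lit 608) (nat_lit 266298486) (nat_lit 322) (nat_lit 1) (nat_lit 313) (nat_lit 1) (nat_lit 321) (nat_lit 1) (nat_lit 354) (nat_lit 351) (nat_lit 315))))) (XT.nd (nat_lit 156) (nat_lit 1824) (nat_lit 0) (XT.nd (nat_lit 78) (nat_lit 608) (nat_lit 0) (XT.lf (nat_lit 76) (nat_lit 1860922006) (nat_lit 0) (nat_lit 466994337) (nat_lit 684) (nat_lit 1081762671) (nat_lit 305) (nat_lit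 1) (nat_lit 304) (nat_lit 1) (nat_lit 313) (nat_lit 1) (nat_lit 355) (nat_lit 351) (nat_lit 314)) (XT.lf (nat_lit 76) (nat_lit 565849405) (nat_lit 0) (nat_lit 1301830074) (nat_lit 684) (nat_lit 1500314763) (nat_lit 297) (nat_lit 1) (nat_lit 296) (nat_lit 1) (nat_lit 305) (nat_lit 1) (nat_lit 356) (nat_lit 351) (nat_lit 313))) (XT.nd (nat_lit 78) (nat_lit 1216) (nat_lit 0) (XT.lf (nat_lit 684) (nat_lit 1188672733) (nat_lit 0) (nat_lit 1426690351) (nat_lit 608) (nat_lit 711640884) (nat_lit 297) (nat_lit 1) (nat_lit 288) (nat_lit 1) (nat_lit 296) (nat_lit 1) (nat_lit 357) (nat_lit 351) (nat_lit 312)) (XT.nd (nat_lit 78) (nat_lit 684) (nat_lit 0) (XT.lf (nat_lit 608) (nat_lit 311513655) (nat_lit 0) (nat_lit 1005349334) (nat_lit 532) (nat_lit 1969849977) (nat_lit 289) (nat_lit 1) (nat_lit 281) (nat_lit 1) (nat_lit 288) (nat_lit 1) (nat_lit 358) (nat_lit 351) (nat_lit 311)) (XT.lf (nat_lit 76) (nat_lit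 49099912) (nat_lit 0) (nat_lit 553958427) (nat_lit 684) (nat_lit 2644048119) (nat_lit 273) (nat_lit 1) (nat_lit 272) (nat_lit 1) (nat_lit 281) (nat_lit 1) (nat_lit 359) (nat_lit 351) (nat_lit 310))))))))
noncomputable def ec34 : XT := (XT.nd (nat_lit 1404) (nat_lit 2508) (nat_lit 0) (XT.nd (nat_lit 702) (nat_lit 3496) (nat_lit 0) (XT.nd (nat_lit 312) (nat_lit 2508) (nat_lit 0) (XT.nd (nat_lit 156) (nat_lit 1140) (nat_lit 0) (XT.nd (nat_lit 78) (nat_lit 0) (nat_lit 0) (XT.lf (nat_lit 608) (nat_lit 1789321516) (nat_lit 0) (nat_lit 212855418) (nat_lit 532) (nat_lit 1205867983) (nat_lit 273) (nat_lit 1) (nat_lit 265) (nat_lit 1) (nat_lit 272) (nat_lit 1) (nat_lit 360) (nat_lit 351) (nat_lit 309)) (XT.lf (nat_lit 76) (nat_lit 735696278) (nat_lit 0) (nat_lit 2280029556) (nat_lit 608) (nat_lit 153960687) (nat_lit 266) (nat_lit 1) (nat_lit 265) (nat_lit 1) (nat_lit 273) (nat_lit 1) (nat_lit 361) (nat_lit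 351) (nat_lit 308))) (XT.nd (nat_lit 78) (nat_lit 532) (nat_lit 0) (XT.lf (nat_lit 76) (nat_lit 2622498866) (nat_lit 0) (nat_lit 8865871) (nat_lit 608) (nat_lit 500585733) (nat_lit 258) (nat_lit 1) (nat_lit 257) (nat_lit 1) (nat_lit 265) (nat_lit 1) (nat_lit 362) (nat_lit 351) (nat_lit 307)) (XT.lf (nat_lit 76) (nat_lit 1362662363) (nat_lit 0) (nat_lit 894559521) (nat_lit 608) (nat_lit 837486091) (nat_lit 251) (nat_lit 1) (nat_lit 250) (nat_lit 1) (nat_lit 258) (nat_lit 1) (nat_lit 363) (nat_lit 351) (nat_lit 306)))) (XT.nd (nat_lit 156) (nat_lit 1520) (nat_lit 0) (XT.nd (nat_lit 78) (nat_lit 456) (nat_lit 0) (XT.lf (nat_lit 76) (nat_lit 129450498) (nat_lit 0) (nat_lit 1774102623) (nat_lit 608) (nat_lit 1154604166) (nat_lit 244) (nat_lit 1) (nat_lit 243) (nat_lit 1) (nat_lit 251) (nat_lit 1) (nat_lit 364) (nat_lit 351) (nat_lit 305)) (XT.lf (nat_lit 532) (nat_lit 367666463) (nat_lit 0) (nat_lit 1562537108)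 (nat_lit 456) (nat_lit 1091938654) (nat_lit 244) (nat_lit 1) (nat_lit 237) (nat_lit 1) (nat_lit 243) (nat_lit 1) (nat_lit 365) (nat_lit 351) (nat_lit 304))) (XT.nd (nat_lit 78) (nat_lit 912) (nat_lit 0) (XT.lf (nat_lit 76) (nat_lit 701261473) (nat_lit 0) (nat_lit 535280533) (nat_lit 608) (nat_lit 1750164428) (nat_lit 230) (nat_lit 1) (nat_lit 229) (nat_lit 1) (nat_lit 237) (nat_lit 1) (nat_lit 366) (nat_lit 351) (nat_lit 303)) (XT.nd (nat_lit 78) (nat_lit 456) (nat_lit 0) (XT.lf (nat_lit 532) (nat_lit 1522299282) (nat_lit 0) (nat_lit 923729120) (nat_lit 456) (nat_lit 505782694) (nat_lit 230) (nat_lit 1) (nat_lit 223) (nat_lit 1) (nat_lit 229) (nat_lit 1) (nat_lit 367) (nat_lit 351) (nat_lit 302)) (XT.lf (nat_lit 532) (nat_lit 596525871) (nat_lit 0) (nat_lit 624801070) (nat_lit 456) (nat_lit 1696140308) (nat_lit 224) (nat_lit 1) (nat_lit 217) (nat_lit 1) (nat_lit 223) (nat_lit 1) (nat_lit 368) (nat_lit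 351) (nat_lit 301)))))) (XT.nd (nat_lit 312) (nat_lit 2052) (nat_lit 0) (XT.nd (nat_lit 156) (nat_lit 456) (nat_lit 0) (XT.nd (nat_lit 78) (nat_lit 456) (nat_lit 0) (XT.lf (nat_lit 76) (nat_lit 24868912) (nat_lit 0) (nat_lit 316930691) (nat_lit 532) (nat_lit 2541912614) (nat_lit 211) (nat_lit 1) (nat_lit 210) (nat_lit 1) (nat_lit 217) (nat_lit 1) (nat_lit 369) (nat_lit 351) (nat_lit 300)) (XT.lf (nat_lit 532) (nat_lit 1628308805) (nat_lit 0) (nat_lit 64767315) (nat_lit 456) (nat_lit 1157271954) (nat_lit 211) (nat_lit 1) (nat_lit 204) (nat_lit 1) (nat_lit 210) (nat_lit 1) (nat_lit 370) (nat_lit 351) (nat_lit 299))) (XT.nd (nat_lit 78) (nat_lit 456) (nat_lit 0) (XT.lf (nat_lit 76) (nat_lit 504594027) (nat_lit 0) (nat_lit 2120341187) (nat_lit 532) (nat_lit 192629372) (nat_lit 205) (nat_lit 1) (nat_lit 204) (nat_lit 1) (nat_lit 211) (nat_lit 1) (nat_lit 371) (nat_lit 351) (nat_lit 298)) (XT.lf (nat_lit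 76) (nat_lit 2120058722) (nat_lit 0) (nat_lit 226722491) (nat_lit 456) (nat_lit 438474079) (nat_lit 199) (nat_lit 1) (nat_lit 198) (nat_lit 1) (nat_lit 204) (nat_lit 1) (nat_lit 372) (nat_lit 351) (nat_lit 297)))) (XT.nd (nat_lit 156) (nat_lit 1216) (nat_lit 0) (XT.nd (nat_lit 78) (nat_lit 380) (nat_lit 0) (XT.lf (nat_lit 76) (nat_lit 941616456) (nat_lit 0) (nat_lit 1135842107) (nat_lit 532) (nat_lit 675921330) (nat_lit 193) (nat_lit 1) (nat_lit 192) (nat_lit 1) (nat_lit 199) (nat_lit 1) (nat_lit 373) (nat_lit 351) (nat_lit 296)) (XT.lf (nat_lit 456) (nat_lit 684724369) (nat_lit 0) (nat_lit 1823090602) (nat_lit 380) (nat_lit 214240951) (nat_lit 193) (nat_lit 1) (nat_lit 187) (nat_lit 1) (nat_lit 192) (nat_lit 1) (nat_lit 374) (nat_lit 351) (nat_lit 295))) (XT.nd (nat_lit 78) (nat_lit 760) (nat_lit 0) (XT.lf (nat_lit 76) (nat_lit 1335402916) (nat_lit 0) (nat_lit 241449948) (nat_lit 456) (nat_lit 1114294197)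 (nat_lit 182) (nat_lit 1) (nat_lit 181) (nat_lit 1) (nat_lit 187) (nat_lit 1) (nat_lit 375) (nat_lit 351) (nat_lit 294)) (XT.nd (nat_lit 78) (nat_lit 380) (nat_lit 0) (XT.lf (nat_lit 76) (nat_lit 192703648) (nat_lit 0) (nat_lit 1149047809) (nat_lit 456) (nat_lit 1318958313) (nat_lit 177) (nat_lit 1) (nat_lit 176) (nat_lit 1) (nat_lit 182) (nat_lit 1) (nat_lit 376) (nat_lit 351) (nat_lit 293)) (XT.lf (nat_lit 456) (nat_lit 577535019) (nat_lit 0) (nat_lit 1115661170) (nat_lit 380) (nat_lit 937503730) (nat_lit 177) (nat_lit 1) (nat_lit 171) (nat_lit 1) (nat_lit 176) (nat_lit 1) (nat_lit 377) (nat_lit 351) (nat_lit 292))))))) (XT.nd (nat_lit 48360) (nat_lit 0) (nat_lit 27360) (XT.nd (nat_lit 312) (nat_lit 988) (nat_lit 0) (XT.nd (nat_lit 156) (nat_lit 760) (nat_lit 0) (XT.nd (nat_lit 78) (nat_lit 380) (nat_lit 0) (XT.lf (nat_lit 76) (nat_lit 557830164) (nat_lit 0) (nat_lit 343088417) (nat_lit 380) (nat_lit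 1700242308) (nat_lit 167) (nat_lit 1) (nat_lit 166) (nat_lit 1) (nat_lit 171) (nat_lit 1) (nat_lit 378) (nat_lit 351) (nat_lit 291)) (XT.lf (nat_lit 456) (nat_lit 1322310905) (nat_lit 0) (nat_lit 693244997) (nat_lit 380) (nat_lit 556450472) (nat_lit 167) (nat_lit 1) (nat_lit 161) (nat_lit 1) (nat_lit 166) (nat_lit 1) (nat_lit 379) (nat_lit 351) (nat_lit 290))) (XT.nd (nat_lit 78) (nat_lit 456) (nat_lit 0) (XT.lf (nat_lit 380) (nat_lit 393493235) (nat_lit 0) (nat_lit 496147827) (nat_lit 304) (nat_lit 1653661698) (nat_lit 162) (nat_lit 1) (nat_lit 157) (nat_lit 1) (nat_lit 161) (nat_lit 1) (nat_lit 380) (nat_lit 351) (nat_lit 289)) (XT.lf (nat_lit 456) (nat_lit 1995824362) (nat_lit 0) (nat_lit 308083734) (nat_lit 380) (nat_lit 211109324) (nat_lit 157) (nat_lit 1) (nat_lit 151) (nat_lit 1) (nat_lit 156) (nat_lit 1) (nat_lit 381) (nat_lit 351) (nat_lit 288)))) (XT.nd (nat_lit 156) (nat_lit 684) (nat_lit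 0) (XT.nd (nat_lit 78) (nat_lit 0) (nat_lit 0) (XT.lf (nat_lit 380) (nat_lit 1065088687) (nat_lit 0) (nat_lit 125194422) (nat_lit 304) (nat_lit 1296789250) (nat_lit 152) (nat_lit 1) (nat_lit 147) (nat_lit 1) (nat_lit 151) (nat_lit 1) (nat_lit 382) (nat_lit 351) (nat_lit 287)) (XT.lf (nat_lit 76) (nat_lit 101279037) (nat_lit 0) (nat_lit 2314564116) (nat_lit 380) (nat_lit 43776385) (nat_lit 148) (nat_lit 1) (nat_lit 147) (nat_lit 1) (nat_lit 152) (nat_lit 1) (nat_lit 383) (nat_lit 351) (nat_lit 286))) (XT.nd (nat_lit 78) (nat_lit 304) (nat_lit 0) (XT.lf (nat_lit 76) (nat_lit 1461586938) (nat_lit 0) (nat_lit 761157237) (nat_lit 380) (nat_lit 209669205) (nat_lit 143) (nat_lit 1) (nat_lit 142) (nat_lit 1) (nat_lit 147) (nat_lit 1) (nat_lit 384) (nat_lit 351) (nat_lit 285)) (XT.nd (nat_lit 47736) (nat_lit 0) (nat_lit 27284) (XT.lf (nat_lit 76) (nat_lit 385900408) (nat_lit 0) (nat_lit 1655217726) (nat_lit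 380) (nat_lit 364541425) (nat_lit 139) (nat_lit 1) (nat_lit 138) (nat_lit 1) (nat_lit 143) (nat_lit 1) (nat_lit 385) (nat_lit 351) (nat_lit 284)) (XT.lf (nat_lit 1900) (nat_lit 961683250) (nat_lit 0) (nat_lit 969725158) (nat_lit 1900) (nat_lit 961683250) (nat_lit 522) (nat_lit 1) (nat_lit 497) (nat_lit 0) (nat_lit 522) (nat_lit 0) (nat_lit 316) (nat_lit 352) (nat_lit 352)))))) (XT.nd (nat_lit 390) (nat_lit 0) (nat_lit 228) (XT.nd (nat_lit 156) (nat_lit 0) (nat_lit 76) (XT.nd (nat_lit 78) (nat_lit 0) (nat_lit 0) (XT.lf (nat_lit 1900) (nat_lit 444522976) (nat_lit 0) (nat_lit 1929563902) (nat_lit 1824) (nat_lit 3327464472) (nat_lit 523) (nat_lit 1) (nat_lit 498) (nat_lit 1) (nat_lit 522) (nat_lit 1) (nat_lit 317) (nat_lit 352) (nat_lit 351)) (XT.lf (nat_lit 1900) (nat_lit 3655743811) (nat_lit 76) (nat_lit 939945783) (nat_lit 0) (nat_lit 1022838425) (nat_lit 523) (nat_lit 1) (nat_lit 499) (nat_lit 1)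 (nat_lit 498) (nat_lit 1) (nat_lit 318) (nat_lit 352) (nat_lit 350))) (XT.nd (nat_lit 78) (nat_lit 0) (nat_lit 76) (XT.lf (nat_lit 1900) (nat_lit 3068919951) (nat_lit 0) (nat_lit 2036480800) (nat_lit 1824) (nat_lit 431693213) (nat_lit 524) (nat_lit 1) (nat_lit 499) (nat_lit 1) (nat_lit 523) (nat_lit 1) (nat_lit 319) (nat_lit 352) (nat_lit 349)) (XT.nd (nat_lit 78) (nat_lit 0) (nat_lit 76) (XT.lf (nat_lit 1900) (nat_lit 1574380042) (nat_lit 0) (nat_lit 2149079939) (nat_lit 1824) (nat_lit 1733750812) (nat_lit 525) (nat_lit 1) (nat_lit 500) (nat_lit 1) (nat_lit 524) (nat_lit 1) (nat_lit 320) (nat_lit 352) (nat_lit 348)) (XT.lf (nat_lit 1900) (nat_lit 105735324) (nat_lit 0) (nat_lit 2293007859) (nat_lit 1824) (nat_lit 2980218967) (nat_lit 526) (nat_lit 1) (nat_lit 501) (nat_lit 1) (nat_lit 525) (nat_lit 1) (nat_lit 321) (nat_lit 352) (nat_lit 347))))) (XT.nd (nat_lit 156) (nat_lit 0) (nat_lit 152) (XT.nd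 (nat_lit 78) (nat_lit 0) (nat_lit 76) (XT.lf (nat_lit 1900) (nat_lit 2826492092) (nat_lit 76) (nat_lit 1120619862) (nat_lit 0) (nat_lit 1355022664) (nat_lit 526) (nat_lit 1) (nat_lit 502) (nat_lit 1) (nat_lit 501) (nat_lit 1) (nat_lit 322) (nat_lit 352) (nat_lit 346)) (XT.lf (nat_lit 1900) (nat_lit 2436100895) (nat_lit 0) (nat_lit 2688020352) (nat_lit 1824) (nat_lit 102722282) (nat_lit 527) (nat_lit 1) (nat_lit 502) (nat_lit 1) (nat_lit 526) (nat_lit 1) (nat_lit 323) (nat_lit 352) (nat_lit 345))) (XT.nd (nat_lit 78) (nat_lit 0) (nat_lit 0) (XT.lf (nat_lit 1900) (nat_lit 959056710) (nat_lit 0) (nat_lit 2934384047) (nat_lit 1824) (nat_lit 1259501194) (nat_lit 528) (nat_lit 1) (nat_lit 503) (nat_lit 1) (nat_lit 527) (nat_lit 1) (nat_lit 324) (nat_lit 352) (nat_lit 344)) (XT.nd (nat_lit 78) (nat_lit 0) (nat_lit 76) (XT.lf (nat_lit 1900) (nat_lit 1871047875) (nat_lit 76) (nat_lit 2711319835) (nat_lit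 0) (nat_lit 498108021) (nat_lit 528) (nat_lit 1) (nat_lit 504) (nat_lit 1) (nat_lit 503) (nat_lit 1) (nat_lit 325) (nat_lit 352) (nat_lit 343)) (XT.lf (nat_lit 1900) (nat_lit 1494516491) (nat_lit 76) (nat_lit 1573295475) (nat_lit 0) (nat_lit 1941540700) (nat_lit 529) (nat_lit 1) (nat_lit 505) (nat_lit 1) (nat_lit 504) (nat_lit 1) (nat_lit 326) (nat_lit 352) (nat_lit 342))))))))
noncomputable def ec35 : XT := (XT.nd (nat_lit 1404) (nat_lit 10716) (nat_lit 0) (XT.nd (nat_lit 702) (nat_lit 6004) (nat_lit 0) (XT.nd (nat_lit 312) (nat_lit 1900) (nat_lit 0) (XT.nd (nat_lit 156) (nat_lit 1748) (nat_lit 0) (XT.nd (nat_lit 78) (nat_lit 0) (nat_lit 76) (XT.lf (nat_lit 1900) (nat_lit 1096540242) (nat_lit 76) (nat_lit 484340644) (nat_lit 0) (nat_lit 3358784737) (nat_lit 530) (nat_lit 1) (nat_lit 506) (nat_lit 1) (nat_lit 505) (nat_lit 1) (nat_lit 327) (nat_lit 352) (nat_lit 341)) (XT.lf (nat_lit 1900) (nat_lit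 124866773) (nat_lit 0) (nat_lit 4196779576) (nat_lit 1824) (nat_lit 549663416) (nat_lit 531) (nat_lit 1) (nat_lit 506) (nat_lit 1) (nat_lit 530) (nat_lit 1) (nat_lit 328) (nat_lit 352) (nat_lit 340))) (XT.nd (nat_lit 78) (nat_lit 1824) (nat_lit 0) (XT.lf (nat_lit 1900) (nat_lit 221600888) (nat_lit 76) (nat_lit 3263875033) (nat_lit 0) (nat_lit 1318621660) (nat_lit 531) (nat_lit 1) (nat_lit 507) (nat_lit 1) (nat_lit 506) (nat_lit 1) (nat_lit 329) (nat_lit 352) (nat_lit 339)) (XT.lf (nat_lit 1976) (nat_lit 2002779827) (nat_lit 0) (nat_lit 246677944) (nat_lit 1900) (nat_lit 2488728887) (nat_lit 508) (nat_lit 1) (nat_lit 482) (nat_lit 1) (nat_lit 507) (nat_lit 1) (nat_lit 330) (nat_lit 352) (nat_lit 338)))) (XT.nd (nat_lit 156) (nat_lit 1976) (nat_lit 0) (XT.nd (nat_lit 78) (nat_lit 0) (nat_lit 0) (XT.lf (nat_lit 1976) (nat_lit 549335401) (nat_lit 0) (nat_lit 728646456) (nat_lit 1900) (nat_lit 3395582665)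 (nat_lit 509) (nat_lit 1) (nat_lit 483) (nat_lit 1) (nat_lit 508) (nat_lit 1) (nat_lit 331) (nat_lit 352) (nat_lit 337)) (XT.lf (nat_lit 1976) (nat_lit 3378061786) (nat_lit 76) (nat_lit 343746737) (nat_lit 0) (nat_lit 888306537) (nat_lit 509) (nat_lit 1) (nat_lit 484) (nat_lit 1) (nat_lit 483) (nat_lit 1) (nat_lit 332) (nat_lit 352) (nat_lit 336))) (XT.nd (nat_lit 78) (nat_lit 2052) (nat_lit 0) (XT.lf (nat_lit 76) (nat_lit 2245644908) (nat_lit 0) (nat_lit 1757260436) (nat_lit 1900) (nat_lit 544879041) (nat_lit 485) (nat_lit 1) (nat_lit 484) (nat_lit 1) (nat_lit 509) (nat_lit 1) (nat_lit 333) (nat_lit 352) (nat_lit 335)) (XT.nd (nat_lit 78) (nat_lit 912) (nat_lit 0) (XT.lf (nat_lit 76) (nat_lit 799771302) (nat_lit 0) (nat_lit 2298180247) (nat_lit 1216) (nat_lit 1388697421) (nat_lit 470) (nat_lit 1) (nat_lit 469) (nat_lit 1) (nat_lit 485) (nat_lit 1) (nat_lit 334) (nat_lit 352) (nat_lit 334)) (XT.lf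 (nat_lit 988) (nat_lit 1570810918) (nat_lit 0) (nat_lit 2229187415) (nat_lit 912) (nat_lit 626646097) (nat_lit 470) (nat_lit 1) (nat_lit 457) (nat_lit 1) (nat_lit 469) (nat_lit 1) (nat_lit 335) (nat_lit 352) (nat_lit 333)))))) (XT.nd (nat_lit 312) (nat_lit 3268) (nat_lit 0) (XT.nd (nat_lit 156) (nat_lit 988) (nat_lit 0) (XT.nd (nat_lit 78) (nat_lit 836) (nat_lit 0) (XT.lf (nat_lit 988) (nat_lit 937275072) (nat_lit 0) (nat_lit 1394411781) (nat_lit 912) (nat_lit 2036036661) (nat_lit 458) (nat_lit 1) (nat_lit 445) (nat_lit 1) (nat_lit 457) (nat_lit 1) (nat_lit 336) (nat_lit 352) (nat_lit 332)) (XT.lf (nat_lit 912) (nat_lit 293954797) (nat_lit 0) (nat_lit 597852704) (nat_lit 836) (nat_lit 3418157575) (nat_lit 446) (nat_lit 1) (nat_lit 434) (nat_lit 1) (nat_lit 445) (nat_lit 1) (nat_lit 337) (nat_lit 352) (nat_lit 331))) (XT.nd (nat_lit 78) (nat_lit 912) (nat_lit 0) (XT.lf (nat_lit 76) (nat_lit 3729713366)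 (nat_lit 0) (nat_lit 358243307) (nat_lit 912) (nat_lit 165250287) (nat_lit 434) (nat_lit 1) (nat_lit 433) (nat_lit 1) (nat_lit 445) (nat_lit 1) (nat_lit 338) (nat_lit 352) (nat_lit 330)) (XT.lf (nat_lit 76) (nat_lit 2280430798) (nat_lit 0) (nat_lit 1024260810) (nat_lit 988) (nat_lit 892642155) (nat_lit 422) (nat_lit 1) (nat_lit 421) (nat_lit 1) (nat_lit 434) (nat_lit 1) (nat_lit 339) (nat_lit 352) (nat_lit 329)))) (XT.nd (nat_lit 156) (nat_lit 1596) (nat_lit 0) (XT.nd (nat_lit 78) (nat_lit 836) (nat_lit 0) (XT.lf (nat_lit 76) (nat_lit 859632594) (nat_lit 0) (nat_lit 1697537893) (nat_lit 912) (nat_lit 1585384291) (nat_lit 411) (nat_lit 1) (nat_lit 410) (nat_lit 1) (nat_lit 422) (nat_lit 1) (nat_lit 340) (nat_lit 352) (nat_lit 328)) (XT.lf (nat_lit 912) (nat_lit 1707796594) (nat_lit 0) (nat_lit 1840784262) (nat_lit 836) (nat_lit 540194957) (nat_lit 411) (nat_lit 1) (nat_lit 399) (nat_lit 1) (nat_lit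 410) (nat_lit 1) (nat_lit 341) (nat_lit 352) (nat_lit 327))) (XT.nd (nat_lit 78) (nat_lit 836) (nat_lit 0) (XT.lf (nat_lit 836) (nat_lit 959961572) (nat_lit 0) (nat_lit 1152522916) (nat_lit 760) (nat_lit 1923449578) (nat_lit 400) (nat_lit 1) (nat_lit 389) (nat_lit 1) (nat_lit 399) (nat_lit 1) (nat_lit 342) (nat_lit 352) (nat_lit 326)) (XT.nd (nat_lit 78) (nat_lit 76) (nat_lit 0) (XT.lf (nat_lit 836) (nat_lit 207810215) (nat_lit 0) (nat_lit 497174502) (nat_lit 760) (nat_lit 3279134956) (nat_lit 390) (nat_lit 1) (nat_lit 379) (nat_lit 1) (nat_lit 389) (nat_lit 1) (nat_lit 343) (nat_lit 352) (nat_lit 325)) (XT.lf (nat_lit 76) (nat_lit 3254302285) (nat_lit 0) (nat_lit 546245840) (nat_lit 836) (nat_lit 132585197) (nat_lit 379) (nat_lit 1) (nat_lit 378) (nat_lit 1) (nat_lit 389) (nat_lit 1) (nat_lit 344) (nat_lit 352) (nat_lit 324))))))) (XT.nd (nat_lit 702) (nat_lit 5092) (nat_lit 0) (XT.nd (nat_lit 312)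 (nat_lit 2736) (nat_lit 0) (XT.nd (nat_lit 156) (nat_lit 1368) (nat_lit 0) (XT.nd (nat_lit 78) (nat_lit 760) (nat_lit 0) (XT.lf (nat_lit 76) (nat_lit 1843527896) (nat_lit 0) (nat_lit 1308365992) (nat_lit 836) (nat_lit 731058464) (nat_lit 369) (nat_lit 1) (nat_lit 368) (nat_lit 1) (nat_lit 379) (nat_lit 1) (nat_lit 345) (nat_lit 352) (nat_lit 323)) (XT.lf (nat_lit 76) (nat_lit 461172398) (nat_lit 0) (nat_lit 2072927170) (nat_lit 836) (nat_lit 1299640622) (nat_lit 359) (nat_lit 1) (nat_lit 358) (nat_lit 1) (nat_lit 369) (nat_lit 1) (nat_lit 346) (nat_lit 352) (nat_lit 322))) (XT.nd (nat_lit 78) (nat_lit 684) (nat_lit 0) (XT.lf (nat_lit 760) (nat_lit 939985090) (nat_lit 0) (nat_lit 1940280900) (nat_lit 684) (nat_lit 905092327) (nat_lit 359) (nat_lit 1) (nat_lit 349) (nat_lit 1) (nat_lit 358) (nat_lit 1) (nat_lit 347) (nat_lit 352) (nat_lit 321)) (XT.lf (nat_lit 760) (nat_lit 115580051) (nat_lit 0) (nat_lit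 1372654888) (nat_lit 684) (nat_lit 2249611770) (nat_lit 350) (nat_lit 1) (nat_lit 340) (nat_lit 1) (nat_lit 349) (nat_lit 1) (nat_lit 348) (nat_lit 352) (nat_lit 320)))) (XT.nd (nat_lit 156) (nat_lit 1292) (nat_lit 0) (XT.nd (nat_lit 78) (nat_lit 684) (nat_lit 0) (XT.lf (nat_lit 76) (nat_lit 129137855) (nat_lit 0) (nat_lit 699636373) (nat_lit 760) (nat_lit 2862379691) (nat_lit 331) (nat_lit 1) (nat_lit 330) (nat_lit 1) (nat_lit 340) (nat_lit 1) (nat_lit 349) (nat_lit 352) (nat_lit 319)) (XT.lf (nat_lit 760) (nat_lit 2124182848) (nat_lit 0) (nat_lit 303683524) (nat_lit 684) (nat_lit 1217312975) (nat_lit 331) (nat_lit 1) (nat_lit 321) (nat_lit 1) (nat_lit 330) (nat_lit 1) (nat_lit 350) (nat_lit 352) (nat_lit 318))) (XT.nd (nat_lit 78) (nat_lit 1292) (nat_lit 0) (XT.lf (nat_lit 76) (nat_lit 1063611567) (nat_lit 0) (nat_lit 2343713919) (nat_lit 760) (nat_lit 192712749) (nat_lit 322) (nat_lit 1) (nat_lit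 321) (nat_lit 1) (nat_lit 331) (nat_lit 1) (nat_lit 351) (nat_lit 352) (nat_lit 317)) (XT.nd (nat_lit 78) (nat_lit 684) (nat_lit 0) (XT.lf (nat_lit 684) (nat_lit 386746490) (nat_lit 0) (nat_lit 2894648633) (nat_lit 608) (nat_lit 274287441) (nat_lit 322) (nat_lit 1) (nat_lit 313) (nat_lit 1) (nat_lit 321) (nat_lit 1) (nat_lit 352) (nat_lit 352) (nat_lit 316)) (XT.lf (nat_lit 76) (nat_lit 1916749666) (nat_lit 0) (nat_lit 481004167) (nat_lit 684) (nat_lit 1114215551) (nat_lit 305) (nat_lit 1) (nat_lit 304) (nat_lit 1) (nat_lit 313) (nat_lit 1) (nat_lit 353) (nat_lit 352) (nat_lit 315)))))) (XT.nd (nat_lit 390) (nat_lit 2128) (nat_lit 0) (XT.nd (nat_lit 156) (nat_lit 1748) (nat_lit 0) (XT.nd (nat_lit 78) (nat_lit 608) (nat_lit 0) (XT.lf (nat_lit 76) (nat_lit 582824887) (nat_lit 0) (nat_lit 1340884976) (nat_lit 684) (nat_lit 1545324205) (nat_lit 297) (nat_lit 1) (nat_lit 296) (nat_lit 1) (nat_lit 305)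 (nat_lit 1) (nat_lit 354) (nat_lit 352) (nat_lit 314)) (XT.lf (nat_lit 684) (nat_lit 1224332915) (nat_lit 0) (nat_lit 1469491062) (nat_lit 608) (nat_lit 732990111) (nat_lit 297) (nat_lit 1) (nat_lit 288) (nat_lit 1) (nat_lit 296) (nat_lit 1) (nat_lit 355) (nat_lit 352) (nat_lit 313))) (XT.nd (nat_lit 78) (nat_lit 1216) (nat_lit 0) (XT.lf (nat_lit 608) (nat_lit 320859064) (nat_lit 0) (nat_lit 1035509814) (nat_lit 532) (nat_lit 2028945476) (nat_lit 289) (nat_lit 1) (nat_lit 281) (nat_lit 1) (nat_lit 288) (nat_lit 1) (nat_lit 356) (nat_lit 352) (nat_lit 312)) (XT.nd (nat_lit 78) (nat_lit 532) (nat_lit 0) (XT.lf (nat_lit 76) (nat_lit 50572909) (nat_lit 0) (nat_lit 570577180) (nat_lit 684) (nat_lit 2723369563) (nat_lit 273) (nat_lit 1) (nat_lit 272) (nat_lit 1) (nat_lit 281) (nat_lit 1) (nat_lit 357) (nat_lit 352) (nat_lit 311)) (XT.lf (nat_lit 608) (nat_lit 1843001161) (nat_lit 0) (nat_lit 219241081)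 (nat_lit 532) (nat_lit 1242044023) (nat_lit 273) (nat_lit 1) (nat_lit 265) (nat_lit 1) (nat_lit 272) (nat_lit 1) (nat_lit 358) (nat_lit 352) (nat_lit 310))))) (XT.nd (nat_lit 156) (nat_lit 1520) (nat_lit 0) (XT.nd (nat_lit 78) (nat_lit 608) (nat_lit 0) (XT.lf (nat_lit 76) (nat_lit 757767167) (nat_lit 0) (nat_lit 2348430443) (nat_lit 608) (nat_lit 158579508) (nat_lit 266) (nat_lit 1) (nat_lit 265) (nat_lit 1) (nat_lit 273) (nat_lit 1) (nat_lit 359) (nat_lit 352) (nat_lit 309)) (XT.lf (nat_lit 76) (nat_lit 2701173832) (nat_lit 0) (nat_lit 9131848) (nat_lit 608) (nat_lit 515603304) (nat_lit 258) (nat_lit 1) (nat_lit 257) (nat_lit 1) (nat_lit 265) (nat_lit 1) (nat_lit 360) (nat_lit 352) (nat_lit 308))) (XT.nd (nat_lit 78) (nat_lit 988) (nat_lit 0) (XT.lf (nat_lit 76) (nat_lit 1403542234) (nat_lit 0) (nat_lit 921396307) (nat_lit 608) (nat_lit 862610674) (nat_lit 251) (nat_lit 1) (nat_lit 250) (nat_lit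 1) (nat_lit 258) (nat_lit 1) (nat_lit 361) (nat_lit 352) (nat_lit 307)) (XT.nd (nat_lit 78) (nat_lit 456) (nat_lit 0) (XT.lf (nat_lit 76) (nat_lit 133334013) (nat_lit 0) (nat_lit 1827325702) (nat_lit 608) (nat_lit 1189242291) (nat_lit 244) (nat_lit 1) (nat_lit 243) (nat_lit 1) (nat_lit 251) (nat_lit 1) (nat_lit 362) (nat_lit 352) (nat_lit 306)) (XT.lf (nat_lit 532) (nat_lit 378696457) (nat_lit 0) (nat_lit 1609413221) (nat_lit 456) (nat_lit 1124696814) (nat_lit 244) (nat_lit 1) (nat_lit 237) (nat_lit 1) (nat_lit 243) (nat_lit 1) (nat_lit 363) (nat_lit 352) (nat_lit 305))))))))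
noncomputable def ec36 : XT := (XT.nd (nat_lit 1404) (nat_lit 1064) (nat_lit 0) (XT.nd (nat_lit 702) (nat_lit 3040) (nat_lit 0) (XT.nd (nat_lit 312) (nat_lit 1748) (nat_lit 0) (XT.nd (nat_lit 156) (nat_lit 988) (nat_lit 0) (XT.nd (nat_lit 78) (nat_lit 456) (nat_lit 0) (XT.lf (nat_lit 76) (nat_lit 722299318) (nat_lit 0) (nat_lit 551338949) (nat_lit 608) (nat_lit 1802669361) (nat_lit 230) (nat_lit 1) (nat_lit 229) (nat_lit 1) (nat_lit 237) (nat_lit 1) (nat_lit 364) (nat_lit 352) (nat_lit 304)) (XT.lf (nat_lit 532) (nat_lit 1567968260) (nat_lit 0) (nat_lit 951440994) (nat_lit 456) (nat_lit 520956174) (nat_lit 230) (nat_lit 1) (nat_lit 223) (nat_lit 1) (nat_lit 229) (nat_lit 1) (nat_lit 365) (nat_lit 352) (nat_lit 303))) (XT.nd (nat_lit 78) (nat_lit 532) (nat_lit 0) (XT.lf (nat_lit 532) (nat_lit 614421647) (nat_lit 0) (nat_lit 643545102) (nat_lit 456) (nat_lit 1747024517) (nat_lit 224) (nat_lit 1) (nat_lit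 217) (nat_lit 1) (nat_lit 223) (nat_lit 1) (nat_lit 366) (nat_lit 352) (nat_lit 302)) (XT.lf (nat_lit 76) (nat_lit 25614979) (nat_lit 0) (nat_lit 326438612) (nat_lit 532) (nat_lit 2618169993) (nat_lit 211) (nat_lit 1) (nat_lit 210) (nat_lit 1) (nat_lit 217) (nat_lit 1) (nat_lit 367) (nat_lit 352) (nat_lit 301)))) (XT.nd (nat_lit 156) (nat_lit 1292) (nat_lit 0) (XT.nd (nat_lit 78) (nat_lit 0) (nat_lit 0) (XT.lf (nat_lit 532) (nat_lit 1677158069) (nat_lit 0) (nat_lit 66710334) (nat_lit 456) (nat_lit 1191990112) (nat_lit 211) (nat_lit 1) (nat_lit 204) (nat_lit 1) (nat_lit 210) (nat_lit 1) (nat_lit 368) (nat_lit 352) (nat_lit 300)) (XT.lf (nat_lit 76) (nat_lit 519731848) (nat_lit 0) (nat_lit 2183951422) (nat_lit 532) (nat_lit 198408253) (nat_lit 205) (nat_lit 1) (nat_lit 204) (nat_lit 1) (nat_lit 211) (nat_lit 1) (nat_lit 369) (nat_lit 352) (nat_lit 299))) (XT.nd (nat_lit 78) (nat_lit 836) (nat_lit 0)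 (XT.lf (nat_lit 76) (nat_lit 2183660484) (nat_lit 0) (nat_lit 233524165) (nat_lit 456) (nat_lit 451628301) (nat_lit 199) (nat_lit 1) (nat_lit 198) (nat_lit 1) (nat_lit 204) (nat_lit 1) (nat_lit 370) (nat_lit 352) (nat_lit 298)) (XT.nd (nat_lit 78) (nat_lit 380) (nat_lit 0) (XT.lf (nat_lit 76) (nat_lit 969864950) (nat_lit 0) (nat_lit 1169917370) (nat_lit 532) (nat_lit 696198970) (nat_lit 193) (nat_lit 1) (nat_lit 192) (nat_lit 1) (nat_lit 199) (nat_lit 1) (nat_lit 371) (nat_lit 352) (nat_lit 297)) (XT.lf (nat_lit 456) (nat_lit 705266100) (nat_lit 0) (nat_lit 1877783320) (nat_lit 380) (nat_lit 220668180) (nat_lit 193) (nat_lit 1) (nat_lit 187) (nat_lit 1) (nat_lit 192) (nat_lit 1) (nat_lit 372) (nat_lit 352) (nat_lit 296)))))) (XT.nd (nat_lit 312) (nat_lit 1444) (nat_lit 0) (XT.nd (nat_lit 156) (nat_lit 760) (nat_lit 0) (XT.nd (nat_lit 78) (nat_lit 380) (nat_lit 0) (XT.lf (nat_lit 76) (nat_lit 1375465004)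 (nat_lit 0) (nat_lit 248693446) (nat_lit 456) (nat_lit 1147723023) (nat_lit 182) (nat_lit 1) (nat_lit 181) (nat_lit 1) (nat_lit 187) (nat_lit 1) (nat_lit 373) (nat_lit 352) (nat_lit 295)) (XT.lf (nat_lit 76) (nat_lit 198484757) (nat_lit 0) (nat_lit 1183519243) (nat_lit 456) (nat_lit 1358527062) (nat_lit 177) (nat_lit 1) (nat_lit 176) (nat_lit 1) (nat_lit 182) (nat_lit 1) (nat_lit 374) (nat_lit 352) (nat_lit 294))) (XT.nd (nat_lit 78) (nat_lit 380) (nat_lit 0) (XT.lf (nat_lit 456) (nat_lit 594861070) (nat_lit 0) (nat_lit 1149131005) (nat_lit 380) (nat_lit 965628842) (nat_lit 177) (nat_lit 1) (nat_lit 171) (nat_lit 1) (nat_lit 176) (nat_lit 1) (nat_lit 375) (nat_lit 352) (nat_lit 293)) (XT.lf (nat_lit 76) (nat_lit 574565069) (nat_lit 0) (nat_lit 353381070) (nat_lit 380) (nat_lit 1751249577) (nat_lit 167) (nat_lit 1) (nat_lit 166) (nat_lit 1) (nat_lit 171) (nat_lit 1) (nat_lit 376) (nat_lit 352) (nat_lit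 292)))) (XT.nd (nat_lit 156) (nat_lit 760) (nat_lit 0) (XT.nd (nat_lit 78) (nat_lit 304) (nat_lit 0) (XT.lf (nat_lit 456) (nat_lit 1361980233) (nat_lit 0) (nat_lit 714042347) (nat_lit 380) (nat_lit 573143986) (nat_lit 167) (nat_lit 1) (nat_lit 161) (nat_lit 1) (nat_lit 166) (nat_lit 1) (nat_lit 377) (nat_lit 352) (nat_lit 291)) (XT.lf (nat_lit 380) (nat_lit 405298032) (nat_lit 0) (nat_lit 511032262) (nat_lit 304) (nat_lit 1703271549) (nat_lit 162) (nat_lit 1) (nat_lit 157) (nat_lit 1) (nat_lit 161) (nat_lit 1) (nat_lit 378) (nat_lit 352) (nat_lit 290))) (XT.nd (nat_lit 78) (nat_lit 304) (nat_lit 0) (XT.lf (nat_lit 456) (nat_lit 2055699093) (nat_lit 0) (nat_lit 317326246) (nat_lit 380) (nat_lit 217442603) (nat_lit 157) (nat_lit 1) (nat_lit 151) (nat_lit 1) (nat_lit 156) (nat_lit 1) (nat_lit 379) (nat_lit 352) (nat_lit 289)) (XT.nd (nat_lit 78) (nat_lit 0) (nat_lit 0) (XT.lf (nat_lit 380) (nat_lit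 1097041347) (nat_lit 0) (nat_lit 128950254) (nat_lit 304) (nat_lit 1335692927) (nat_lit 152) (nat_lit 1) (nat_lit 147) (nat_lit 1) (nat_lit 151) (nat_lit 1) (nat_lit 380) (nat_lit 352) (nat_lit 288)) (XT.lf (nat_lit 76) (nat_lit 104317408) (nat_lit 0) (nat_lit 2384001040) (nat_lit 380) (nat_lit 45089676) (nat_lit 148) (nat_lit 1) (nat_lit 147) (nat_lit 1) (nat_lit 152) (nat_lit 1) (nat_lit 381) (nat_lit 352) (nat_lit 287))))))) (XT.nd (nat_lit 48282) (nat_lit 0) (nat_lit 26524) (XT.nd (nat_lit 47892) (nat_lit 0) (nat_lit 27740) (XT.nd (nat_lit 156) (nat_lit 380) (nat_lit 0) (XT.nd (nat_lit 78) (nat_lit 304) (nat_lit 0) (XT.lf (nat_lit 76) (nat_lit 1505434546) (nat_lit 0) (nat_lit 783991954) (nat_lit 380) (nat_lit 215959281) (nat_lit 143) (nat_lit 1) (nat_lit 142) (nat_lit 1) (nat_lit 147) (nat_lit 1) (nat_lit 382) (nat_lit 352) (nat_lit 286)) (XT.lf (nat_lit 76) (nat_lit 397477420) (nat_lit 0) (nat_lit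 1704874258) (nat_lit 380) (nat_lit 375477668) (nat_lit 139) (nat_lit 1) (nat_lit 138) (nat_lit 1) (nat_lit 143) (nat_lit 1) (nat_lit 383) (nat_lit 352) (nat_lit 285))) (XT.nd (nat_lit 47658) (nat_lit 0) (nat_lit 27664) (XT.lf (nat_lit 76) (nat_lit 1756444463) (nat_lit 0) (nat_lit 166236025) (nat_lit 380) (nat_lit 527969517) (nat_lit 134) (nat_lit 1) (nat_lit 133) (nat_lit 1) (nat_lit 138) (nat_lit 1) (nat_lit 384) (nat_lit 352) (nat_lit 284)) (XT.lf (nat_lit 1900) (nat_lit 990533747) (nat_lit 0) (nat_lit 998816913) (nat_lit 1900) (nat_lit 990533747) (nat_lit 522) (nat_lit 1) (nat_lit 497) (nat_lit 0) (nat_lit 522) (nat_lit 0) (nat_lit 314) (nat_lit 353) (nat_lit 353)))) (XT.nd (nat_lit 156) (nat_lit 0) (nat_lit 76) (XT.nd (nat_lit 78) (nat_lit 0) (nat_lit 0) (XT.lf (nat_lit 1900) (nat_lit 457858665) (nat_lit 0) (nat_lit 1987450819) (nat_lit 1824) (nat_lit 3427288407) (nat_lit 523) (nat_lit 1) (nat_lit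 498) (nat_lit 1) (nat_lit 522) (nat_lit 1) (nat_lit 315) (nat_lit 353) (nat_lit 352)) (XT.lf (nat_lit 1900) (nat_lit 3765416125) (nat_lit 76) (nat_lit 968144156) (nat_lit 0) (nat_lit 1053523577) (nat_lit 523) (nat_lit 1) (nat_lit 499) (nat_lit 1) (nat_lit 498) (nat_lit 1) (nat_lit 316) (nat_lit 353) (nat_lit 351))) (XT.nd (nat_lit 78) (nat_lit 0) (nat_lit 76) (XT.lf (nat_lit 1900) (nat_lit 3160987549) (nat_lit 0) (nat_lit 2097575224) (nat_lit 1824) (nat_lit 444644009) (nat_lit 524) (nat_lit 1) (nat_lit 499) (nat_lit 1) (nat_lit 523) (nat_lit 1) (nat_lit 317) (nat_lit 353) (nat_lit 350)) (XT.nd (nat_lit 78) (nat_lit 0) (nat_lit 76) (XT.lf (nat_lit 1900) (nat_lit 1621611443) (nat_lit 0) (nat_lit 2213552338) (nat_lit 1824) (nat_lit 1785763337) (nat_lit 525) (nat_lit 1) (nat_lit 500) (nat_lit 1) (nat_lit 524) (nat_lit 1) (nat_lit 318) (nat_lit 353) (nat_lit 349)) (XT.lf (nat_lit 1900) (nat_lit 108907384)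 (nat_lit 0) (nat_lit 2361798095) (nat_lit 1824) (nat_lit 3069625536) (nat_lit 526) (nat_lit 1) (nat_lit 501) (nat_lit 1) (nat_lit 525) (nat_lit 1) (nat_lit 319) (nat_lit 353) (nat_lit 348)))))) (XT.nd (nat_lit 390) (nat_lit 1444) (nat_lit 0) (XT.nd (nat_lit 156) (nat_lit 0) (nat_lit 152) (XT.nd (nat_lit 78) (nat_lit 0) (nat_lit 76) (XT.lf (nat_lit 1900) (nat_lit 2911286855) (nat_lit 76) (nat_lit 1154238458) (nat_lit 0) (nat_lit 1395673344) (nat_lit 526) (nat_lit 1) (nat_lit 502) (nat_lit 1) (nat_lit 501) (nat_lit 1) (nat_lit 320) (nat_lit 353) (nat_lit 347)) (XT.lf (nat_lit 1900) (nat_lit 2509183922) (nat_lit 0) (nat_lit 2768660963) (nat_lit 1824) (nat_lit 105803950) (nat_lit 527) (nat_lit 1) (nat_lit 502) (nat_lit 1) (nat_lit 526) (nat_lit 1) (nat_lit 321) (nat_lit 353) (nat_lit 346))) (XT.nd (nat_lit 78) (nat_lit 0) (nat_lit 0) (XT.lf (nat_lit 1900) (nat_lit 987828411) (nat_lit 0) (nat_lit 3022415568)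 (nat_lit 1824) (nat_lit 1297286230) (nat_lit 528) (nat_lit 1) (nat_lit 503) (nat_lit 1) (nat_lit 527) (nat_lit 1) (nat_lit 322) (nat_lit 353) (nat_lit 345)) (XT.nd (nat_lit 78) (nat_lit 0) (nat_lit 76) (XT.lf (nat_lit 1900) (nat_lit 1927179311) (nat_lit 76) (nat_lit 2792659430) (nat_lit 0) (nat_lit 513051261) (nat_lit 528) (nat_lit 1) (nat_lit 504) (nat_lit 1) (nat_lit 503) (nat_lit 1) (nat_lit 323) (nat_lit 353) (nat_lit 344)) (XT.lf (nat_lit 1900) (nat_lit 1539351986) (nat_lit 76) (nat_lit 1620494340) (nat_lit 0) (nat_lit 1999786921) (nat_lit 529) (nat_lit 1) (nat_lit 505) (nat_lit 1) (nat_lit 504) (nat_lit 1) (nat_lit 324) (nat_lit 353) (nat_lit 343))))) (XT.nd (nat_lit 156) (nat_lit 1748) (nat_lit 0) (XT.nd (nat_lit 78) (nat_lit 0) (nat_lit 76) (XT.lf (nat_lit 1900) (nat_lit 1129436449) (nat_lit 76) (nat_lit 498870864) (nat_lit 0) (nat_lit 3459548280) (nat_lit 530) (nat_lit 1) (nat_lit 506) (nat_lit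 1) (nat_lit 505) (nat_lit 1) (nat_lit 325) (nat_lit 353) (nat_lit 342)) (XT.lf (nat_lit 1900) (nat_lit 128612776) (nat_lit 0) (nat_lit 4322682963) (nat_lit 1824) (nat_lit 566153318) (nat_lit 531) (nat_lit 1) (nat_lit 506) (nat_lit 1) (nat_lit 530) (nat_lit 1) (nat_lit 326) (nat_lit 353) (nat_lit 341))) (XT.nd (nat_lit 78) (nat_lit 1824) (nat_lit 0) (XT.lf (nat_lit 1900) (nat_lit 228248915) (nat_lit 76) (nat_lit 3361791284) (nat_lit 0) (nat_lit 1358180310) (nat_lit 531) (nat_lit 1) (nat_lit 507) (nat_lit 1) (nat_lit 506) (nat_lit 1) (nat_lit 327) (nat_lit 353) (nat_lit 340)) (XT.nd (nat_lit 78) (nat_lit 0) (nat_lit 76) (XT.lf (nat_lit 1976) (nat_lit 2062863221) (nat_lit 0) (nat_lit 254078283) (nat_lit 1900) (nat_lit 2563390754) (nat_lit 508) (nat_lit 1) (nat_lit 482) (nat_lit 1) (nat_lit 507) (nat_lit 1) (nat_lit 328) (nat_lit 353) (nat_lit 339)) (XT.lf (nat_lit 1976) (nat_lit 565815463) (nat_lit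 0) (nat_lit 750505850) (nat_lit 1900) (nat_lit 3497450145) (nat_lit 509) (nat_lit 1) (nat_lit 483) (nat_lit 1) (nat_lit 508) (nat_lit 1) (nat_lit 329) (nat_lit 353) (nat_lit 338))))))))
noncomputable def ec37 : XT := (XT.nd (nat_lit 1404) (nat_lit 9576) (nat_lit 0) (XT.nd (nat_lit 702) (nat_lit 6080) (nat_lit 0) (XT.nd (nat_lit 312) (nat_lit 3572) (nat_lit 0) (XT.nd (nat_lit 156) (nat_lit 1976) (nat_lit 0) (XT.nd (nat_lit 78) (nat_lit 0) (nat_lit 76) (XT.lf (nat_lit 1976) (nat_lit 3479403639) (nat_lit 76) (nat_lit 354059139) (nat_lit 0) (nat_lit 914955733) (nat_lit 509) (nat_lit 1) (nat_lit 484) (nat_lit 1) (nat_lit 483) (nat_lit 1) (nat_lit 330) (nat_lit 353) (nat_lit 337)) (XT.lf (nat_lit 76) (nat_lit 2313014256) (nat_lit 0) (nat_lit 1809978249) (nat_lit 1900) (nat_lit 561225413) (nat_lit 485) (nat_lit 1) (nat_lit 484) (nat_lit 1) (nat_lit 509) (nat_lit 1) (nat_lit 331) (nat_lit 353) (nat_lit 336)))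 (XT.nd (nat_lit 78) (nat_lit 912) (nat_lit 0) (XT.lf (nat_lit 76) (nat_lit 823764441) (nat_lit 0) (nat_lit 2367125655) (nat_lit 1216) (nat_lit 1430358343) (nat_lit 470) (nat_lit 1) (nat_lit 469) (nat_lit 1) (nat_lit 485) (nat_lit 1) (nat_lit 332) (nat_lit 353) (nat_lit 335)) (XT.lf (nat_lit 988) (nat_lit 1617935246) (nat_lit 0) (nat_lit 2296063037) (nat_lit 912) (nat_lit 645445480) (nat_lit 470) (nat_lit 1) (nat_lit 457) (nat_lit 1) (nat_lit 469) (nat_lit 1) (nat_lit 333) (nat_lit 353) (nat_lit 334)))) (XT.nd (nat_lit 156) (nat_lit 1824) (nat_lit 0) (XT.nd (nat_lit 78) (nat_lit 836) (nat_lit 0) (XT.lf (nat_lit 988) (nat_lit 965393324) (nat_lit 0) (nat_lit 1436244134) (nat_lit 912) (nat_lit 2097117761) (nat_lit 458) (nat_lit 1) (nat_lit 445) (nat_lit 1) (nat_lit 457) (nat_lit 1) (nat_lit 334) (nat_lit 353) (nat_lit 333)) (XT.lf (nat_lit 912) (nat_lit 302773441) (nat_lit 0) (nat_lit 615788285) (nat_lit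 836) (nat_lit 3520702302) (nat_lit 446) (nat_lit 1) (nat_lit 434) (nat_lit 1) (nat_lit 445) (nat_lit 1) (nat_lit 335) (nat_lit 353) (nat_lit 332))) (XT.nd (nat_lit 78) (nat_lit 1748) (nat_lit 0) (XT.lf (nat_lit 76) (nat_lit 3841604767) (nat_lit 0) (nat_lit 368990606) (nat_lit 912) (nat_lit 170207795) (nat_lit 434) (nat_lit 1) (nat_lit 433) (nat_lit 1) (nat_lit 445) (nat_lit 1) (nat_lit 336) (nat_lit 353) (nat_lit 331)) (XT.nd (nat_lit 78) (nat_lit 836) (nat_lit 0) (XT.lf (nat_lit 76) (nat_lit 2348843722) (nat_lit 0) (nat_lit 1054988635) (nat_lit 988) (nat_lit 919421419) (nat_lit 422) (nat_lit 1) (nat_lit 421) (nat_lit 1) (nat_lit 434) (nat_lit 1) (nat_lit 337) (nat_lit 353) (nat_lit 330)) (XT.lf (nat_lit 76) (nat_lit 885421572) (nat_lit 0) (nat_lit 1748464030) (nat_lit 912) (nat_lit 1632945820) (nat_lit 411) (nat_lit 1) (nat_lit 410) (nat_lit 1) (nat_lit 422) (nat_lit 1) (nat_lit 338) (nat_lit 353)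 (nat_lit 329)))))) (XT.nd (nat_lit 312) (nat_lit 3648) (nat_lit 0) (XT.nd (nat_lit 156) (nat_lit 836) (nat_lit 0) (XT.nd (nat_lit 78) (nat_lit 760) (nat_lit 0) (XT.lf (nat_lit 912) (nat_lit 1759030492) (nat_lit 0) (nat_lit 1896007790) (nat_lit 836) (nat_lit 556400805) (nat_lit 411) (nat_lit 1) (nat_lit 399) (nat_lit 1) (nat_lit 410) (nat_lit 1) (nat_lit 339) (nat_lit 353) (nat_lit 328)) (XT.lf (nat_lit 836) (nat_lit 988760419) (nat_lit 0) (nat_lit 1187098603) (nat_lit 760) (nat_lit 1981153065) (nat_lit 400) (nat_lit 1) (nat_lit 389) (nat_lit 1) (nat_lit 399) (nat_lit 1) (nat_lit 340) (nat_lit 353) (nat_lit 327))) (XT.nd (nat_lit 78) (nat_lit 76) (nat_lit 0) (XT.lf (nat_lit 836) (nat_lit 214044522) (nat_lit 0) (nat_lit 512089737) (nat_lit 760) (nat_lit 3377509005) (nat_lit 390) (nat_lit 1) (nat_lit 379) (nat_lit 1) (nat_lit 389) (nat_lit 1) (nat_lit 341) (nat_lit 353) (nat_lit 326)) (XT.lf (nat_lit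 76) (nat_lit 3351931354) (nat_lit 0) (nat_lit 562633215) (nat_lit 836) (nat_lit 136562753) (nat_lit 379) (nat_lit 1) (nat_lit 378) (nat_lit 1) (nat_lit 389) (nat_lit 1) (nat_lit 342) (nat_lit 353) (nat_lit 325)))) (XT.nd (nat_lit 156) (nat_lit 2128) (nat_lit 0) (XT.nd (nat_lit 78) (nat_lit 760) (nat_lit 0) (XT.lf (nat_lit 76) (nat_lit 1898833733) (nat_lit 0) (nat_lit 1347616971) (nat_lit 836) (nat_lit 752990218) (nat_lit 369) (nat_lit 1) (nat_lit 368) (nat_lit 1) (nat_lit 379) (nat_lit 1) (nat_lit 343) (nat_lit 353) (nat_lit 324)) (XT.lf (nat_lit 76) (nat_lit 475007570) (nat_lit 0) (nat_lit 2135114985) (nat_lit 836) (nat_lit 1338629840) (nat_lit 359) (nat_lit 1) (nat_lit 358) (nat_lit 1) (nat_lit 369) (nat_lit 1) (nat_lit 344) (nat_lit 353) (nat_lit 323))) (XT.nd (nat_lit 78) (nat_lit 1444) (nat_lit 0) (XT.lf (nat_lit 760) (nat_lit 968184643) (nat_lit 0) (nat_lit 1998489327) (nat_lit 684) (nat_lit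 932245096) (nat_lit 359) (nat_lit 1) (nat_lit 349) (nat_lit 1) (nat_lit 358) (nat_lit 1) (nat_lit 345) (nat_lit 353) (nat_lit 322)) (XT.nd (nat_lit 78) (nat_lit 760) (nat_lit 0) (XT.lf (nat_lit 760) (nat_lit 119047453) (nat_lit 0) (nat_lit 1413834535) (nat_lit 684) (nat_lit 2317100123) (nat_lit 350) (nat_lit 1) (nat_lit 340) (nat_lit 1) (nat_lit 349) (nat_lit 1) (nat_lit 346) (nat_lit 353) (nat_lit 321)) (XT.lf (nat_lit 76) (nat_lit 133011990) (nat_lit 0) (nat_lit 720625464) (nat_lit 760) (nat_lit 2948251081) (nat_lit 331) (nat_lit 1) (nat_lit 330) (nat_lit 1) (nat_lit 340) (nat_lit 1) (nat_lit 347) (nat_lit 353) (nat_lit 320))))))) (XT.nd (nat_lit 702) (nat_lit 4636) (nat_lit 0) (XT.nd (nat_lit 312) (nat_lit 2964) (nat_lit 0) (XT.nd (nat_lit 156) (nat_lit 1292) (nat_lit 0) (XT.nd (nat_lit 78) (nat_lit 0) (nat_lit 0) (XT.lf (nat_lit 760) (nat_lit 2187908333) (nat_lit 0) (nat_lit 312794030) (nat_lit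 684) (nat_lit 1253832365) (nat_lit 331) (nat_lit 1) (nat_lit 321) (nat_lit 1) (nat_lit 330) (nat_lit 1) (nat_lit 348) (nat_lit 353) (nat_lit 319)) (XT.lf (nat_lit 76) (nat_lit 1095519914) (nat_lit 0) (nat_lit 2414025336) (nat_lit 760) (nat_lit 198494131) (nat_lit 322) (nat_lit 1) (nat_lit 321) (nat_lit 1) (nat_lit 331) (nat_lit 1) (nat_lit 349) (nat_lit 353) (nat_lit 318))) (XT.nd (nat_lit 78) (nat_lit 684) (nat_lit 0) (XT.lf (nat_lit 684) (nat_lit 398348884) (nat_lit 0) (nat_lit 2981488092) (nat_lit 608) (nat_lit 282516064) (nat_lit 322) (nat_lit 1) (nat_lit 313) (nat_lit 1) (nat_lit 321) (nat_lit 1) (nat_lit 350) (nat_lit 353) (nat_lit 317)) (XT.lf (nat_lit 76) (nat_lit 1974252156) (nat_lit 0) (nat_lit 495434292) (nat_lit 684) (nat_lit 1147642018) (nat_lit 305) (nat_lit 1) (nat_lit 304) (nat_lit 1) (nat_lit 313) (nat_lit 1) (nat_lit 351) (nat_lit 353) (nat_lit 316)))) (XT.nd (nat_lit 156) (nat_lit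 1748) (nat_lit 0) (XT.nd (nat_lit 78) (nat_lit 608) (nat_lit 0) (XT.lf (nat_lit 76) (nat_lit 600309634) (nat_lit 0) (nat_lit 1381111526) (nat_lit 684) (nat_lit 1591683932) (nat_lit 297) (nat_lit 1) (nat_lit 296) (nat_lit 1) (nat_lit 305) (nat_lit 1) (nat_lit 352) (nat_lit 353) (nat_lit 315)) (XT.lf (nat_lit 684) (nat_lit 1261062902) (nat_lit 0) (nat_lit 1513575794) (nat_lit 608) (nat_lit 754979814) (nat_lit 297) (nat_lit 1) (nat_lit 288) (nat_lit 1) (nat_lit 296) (nat_lit 1) (nat_lit 353) (nat_lit 353) (nat_lit 314))) (XT.nd (nat_lit 78) (nat_lit 1216) (nat_lit 0) (XT.lf (nat_lit 608) (nat_lit 330484836) (nat_lit 0) (nat_lit 1066575109) (nat_lit 532) (nat_lit 2089813840) (nat_lit 289) (nat_lit 1) (nat_lit 281) (nat_lit 1) (nat_lit 288) (nat_lit 1) (nat_lit 354) (nat_lit 353) (nat_lit 313)) (XT.nd (nat_lit 78) (nat_lit 532) (nat_lit 0) (XT.lf (nat_lit 76) (nat_lit 52090097) (nat_lit 0) (nat_lit 587694495)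 (nat_lit 684) (nat_lit 2805070649) (nat_lit 273) (nat_lit 1) (nat_lit 272) (nat_lit 1) (nat_lit 281) (nat_lit 1) (nat_lit 355) (nat_lit 353) (nat_lit 312)) (XT.lf (nat_lit 608) (nat_lit 1898291196) (nat_lit 0) (nat_lit 225818313) (nat_lit 532) (nat_lit 1279305344) (nat_lit 273) (nat_lit 1) (nat_lit 265) (nat_lit 1) (nat_lit 272) (nat_lit 1) (nat_lit 356) (nat_lit 353) (nat_lit 311)))))) (XT.nd (nat_lit 390) (nat_lit 2508) (nat_lit 0) (XT.nd (nat_lit 156) (nat_lit 1520) (nat_lit 0) (XT.nd (nat_lit 78) (nat_lit 608) (nat_lit 0) (XT.lf (nat_lit 76) (nat_lit 780500182) (nat_lit 0) (nat_lit 2418883356) (nat_lit 608) (nat_lit 163336893) (nat_lit 266) (nat_lit 1) (nat_lit 265) (nat_lit 1) (nat_lit 273) (nat_lit 1) (nat_lit 357) (nat_lit 353) (nat_lit 310)) (XT.lf (nat_lit 76) (nat_lit 2782209047) (nat_lit 0) (nat_lit 9405803) (nat_lit 608) (nat_lit 531071404) (nat_lit 258) (nat_lit 1) (nat_lit 257) (nat_lit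 1) (nat_lit 265) (nat_lit 1) (nat_lit 358) (nat_lit 353) (nat_lit 309))) (XT.nd (nat_lit 78) (nat_lit 988) (nat_lit 0) (XT.lf (nat_lit 76) (nat_lit 1445648501) (nat_lit 0) (nat_lit 949038196) (nat_lit 608) (nat_lit 888488994) (nat_lit 251) (nat_lit 1) (nat_lit 250) (nat_lit 1) (nat_lit 258) (nat_lit 1) (nat_lit 359) (nat_lit 353) (nat_lit 308)) (XT.nd (nat_lit 78) (nat_lit 456) (nat_lit 0) (XT.lf (nat_lit 76) (nat_lit 137334033) (nat_lit 0) (nat_lit 1882145473) (nat_lit 608) (nat_lit 1224919560) (nat_lit 244) (nat_lit 1) (nat_lit 243) (nat_lit 1) (nat_lit 251) (nat_lit 1) (nat_lit 360) (nat_lit 353) (nat_lit 307)) (XT.lf (nat_lit 532) (nat_lit 390057350) (nat_lit 0) (nat_lit 1657695618) (nat_lit 456) (nat_lit 1158437718) (nat_lit 244) (nat_lit 1) (nat_lit 237) (nat_lit 1) (nat_lit 243) (nat_lit 1) (nat_lit 361) (nat_lit 353) (nat_lit 306))))) (XT.nd (nat_lit 156) (nat_lit 1444) (nat_lit 0) (XT.nd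 (nat_lit 78) (nat_lit 456) (nat_lit 0) (XT.lf (nat_lit 76) (nat_lit 743968297) (nat_lit 0) (nat_lit 567879117) (nat_lit 608) (nat_lit 1856749441) (nat_lit 230) (nat_lit 1) (nat_lit 229) (nat_lit 1) (nat_lit 237) (nat_lit 1) (nat_lit 362) (nat_lit 353) (nat_lit 305)) (XT.lf (nat_lit 532) (nat_lit 1615007308) (nat_lit 0) (nat_lit 979984224) (nat_lit 456) (nat_lit 536584860) (nat_lit 230) (nat_lit 1) (nat_lit 223) (nat_lit 1) (nat_lit 229) (nat_lit 1) (nat_lit 363) (nat_lit 353) (nat_lit 304))) (XT.nd (nat_lit 78) (nat_lit 988) (nat_lit 0) (XT.lf (nat_lit 532) (nat_lit 632854297) (nat_lit 0) (nat_lit 662851455) (nat_lit 456) (nat_lit 1799435253) (nat_lit 224) (nat_lit 1) (nat_lit 217) (nat_lit 1) (nat_lit 223) (nat_lit 1) (nat_lit 364) (nat_lit 353) (nat_lit 303)) (XT.nd (nat_lit 78) (nat_lit 456) (nat_lit 0) (XT.lf (nat_lit 76) (nat_lit 26383429) (nat_lit 0) (nat_lit 336231771) (nat_lit 532) (nat_lit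 2696715093) (nat_lit 211) (nat_lit 1) (nat_lit 210) (nat_lit 1) (nat_lit 217) (nat_lit 1) (nat_lit 365) (nat_lit 353) (nat_lit 302)) (XT.lf (nat_lit 532) (nat_lit 1727472811) (nat_lit 0) (nat_lit 68711644) (nat_lit 456) (nat_lit 1227749816) (nat_lit 211) (nat_lit 1) (nat_lit 204) (nat_lit 1) (nat_lit 210) (nat_lit 1) (nat_lit 366) (nat_lit 353) (nat_lit 301))))))))
noncomputable def ec38 : XT := (XT.nd (nat_lit 48828) (nat_lit 0) (nat_lit 26144) (XT.nd (nat_lit 702) (nat_lit 2736) (nat_lit 0) (XT.nd (nat_lit 312) (nat_lit 1976) (nat_lit 0) (XT.nd (nat_lit 156) (nat_lit 836) (nat_lit 0) (XT.nd (nat_lit 78) (nat_lit 456) (nat_lit 0) (XT.lf (nat_lit 76) (nat_lit 535323804) (nat_lit 0) (nat_lit 2249469965) (nat_lit 532) (nat_lit 204360501) (nat_lit 205) (nat_lit 1) (nat_lit 204) (nat_lit 1) (nat_lit 211) (nat_lit 1) (nat_lit 367) (nat_lit 353) (nat_lit 300)) (XT.lf (nat_lit 76) (nat_lit 2249170298) (nat_lit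 0) (nat_lit 240529890) (nat_lit 456) (nat_lit 465177151) (nat_lit 199) (nat_lit 1) (nat_lit 198) (nat_lit 1) (nat_lit 204) (nat_lit 1) (nat_lit 368) (nat_lit 353) (nat_lit 299))) (XT.nd (nat_lit 78) (nat_lit 380) (nat_lit 0) (XT.lf (nat_lit 76) (nat_lit 998960898) (nat_lit 0) (nat_lit 1205014891) (nat_lit 532) (nat_lit 717084939) (nat_lit 193) (nat_lit 1) (nat_lit 192) (nat_lit 1) (nat_lit 199) (nat_lit 1) (nat_lit 369) (nat_lit 353) (nat_lit 298)) (XT.lf (nat_lit 456) (nat_lit 726424083) (nat_lit 0) (nat_lit 1934116820) (nat_lit 380) (nat_lit 227288225) (nat_lit 193) (nat_lit 1) (nat_lit 187) (nat_lit 1) (nat_lit 192) (nat_lit 1) (nat_lit 370) (nat_lit 353) (nat_lit 297)))) (XT.nd (nat_lit 156) (nat_lit 1140) (nat_lit 0) (XT.nd (nat_lit 78) (nat_lit 380) (nat_lit 0) (XT.lf (nat_lit 76) (nat_lit 1416728954) (nat_lit 0) (nat_lit 256154250) (nat_lit 456) (nat_lit 1182154714) (nat_lit 182) (nat_lit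 1) (nat_lit 181) (nat_lit 1) (nat_lit 187) (nat_lit 1) (nat_lit 371) (nat_lit 353) (nat_lit 296)) (XT.lf (nat_lit 76) (nat_lit 204439300) (nat_lit 0) (nat_lit 1219024821) (nat_lit 456) (nat_lit 1399282874) (nat_lit 177) (nat_lit 1) (nat_lit 176) (nat_lit 1) (nat_lit 182) (nat_lit 1) (nat_lit 372) (nat_lit 353) (nat_lit 295))) (XT.nd (nat_lit 78) (nat_lit 760) (nat_lit 0) (XT.lf (nat_lit 456) (nat_lit 612706902) (nat_lit 0) (nat_lit 1183604935) (nat_lit 380) (nat_lit 994597707) (nat_lit 177) (nat_lit 1) (nat_lit 171) (nat_lit 1) (nat_lit 176) (nat_lit 1) (nat_lit 373) (nat_lit 353) (nat_lit 294)) (XT.nd (nat_lit 78) (nat_lit 380) (nat_lit 0) (XT.lf (nat_lit 76) (nat_lit 591802021) (nat_lit 0) (nat_lit 363982502) (nat_lit 380) (nat_lit 1803787064) (nat_lit 167) (nat_lit 1) (nat_lit 166) (nat_lit 1) (nat_lit 171) (nat_lit 1) (nat_lit 374) (nat_lit 353) (nat_lit 293)) (XT.lf (nat_lit 456) (nat_lit 1402839640)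 (nat_lit 0) (nat_lit 735463617) (nat_lit 380) (nat_lit 590338306) (nat_lit 167) (nat_lit 1) (nat_lit 161) (nat_lit 1) (nat_lit 166) (nat_lit 1) (nat_lit 375) (nat_lit 353) (nat_lit 292)))))) (XT.nd (nat_lit 312) (nat_lit 1672) (nat_lit 0) (XT.nd (nat_lit 156) (nat_lit 304) (nat_lit 0) (XT.nd (nat_lit 78) (nat_lit 456) (nat_lit 0) (XT.lf (nat_lit 380) (nat_lit 417456973) (nat_lit 0) (nat_lit 526363229) (nat_lit 304) (nat_lit 1754369696) (nat_lit 162) (nat_lit 1) (nat_lit 157) (nat_lit 1) (nat_lit 161) (nat_lit 1) (nat_lit 376) (nat_lit 353) (nat_lit 291)) (XT.lf (nat_lit 456) (nat_lit 2117370065) (nat_lit 0) (nat_lit 326846033) (nat_lit 380) (nat_lit 223965881) (nat_lit 157) (nat_lit 1) (nat_lit 151) (nat_lit 1) (nat_lit 156) (nat_lit 1) (nat_lit 377) (nat_lit 353) (nat_lit 290))) (XT.nd (nat_lit 78) (nat_lit 0) (nat_lit 0) (XT.lf (nat_lit 380) (nat_lit 1129952588) (nat_lit 0) (nat_lit 132818762)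 (nat_lit 304) (nat_lit 1375763715) (nat_lit 152) (nat_lit 1) (nat_lit 147) (nat_lit 1) (nat_lit 151) (nat_lit 1) (nat_lit 378) (nat_lit 353) (nat_lit 289)) (XT.lf (nat_lit 76) (nat_lit 107446930) (nat_lit 0) (nat_lit 2455521071) (nat_lit 380) (nat_lit 46442366) (nat_lit 148) (nat_lit 1) (nat_lit 147) (nat_lit 1) (nat_lit 152) (nat_lit 1) (nat_lit 379) (nat_lit 353) (nat_lit 288)))) (XT.nd (nat_lit 156) (nat_lit 988) (nat_lit 0) (XT.nd (nat_lit 78) (nat_lit 304) (nat_lit 0) (XT.lf (nat_lit 76) (nat_lit 1550597582) (nat_lit 0) (nat_lit 807511713) (nat_lit 380) (nat_lit 222438059) (nat_lit 143) (nat_lit 1) (nat_lit 142) (nat_lit 1) (nat_lit 147) (nat_lit 1) (nat_lit 380) (nat_lit 353) (nat_lit 287)) (XT.lf (nat_lit 76) (nat_lit 409401743) (nat_lit 0) (nat_lit 1756020485) (nat_lit 380) (nat_lit 386741998) (nat_lit 139) (nat_lit 1) (nat_lit 138) (nat_lit 1) (nat_lit 143) (nat_lit 1) (nat_lit 381) (nat_lit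 353) (nat_lit 286))) (XT.nd (nat_lit 78) (nat_lit 608) (nat_lit 0) (XT.lf (nat_lit 76) (nat_lit 1809137797) (nat_lit 0) (nat_lit 171223105) (nat_lit 380) (nat_lit 543808602) (nat_lit 134) (nat_lit 1) (nat_lit 133) (nat_lit 1) (nat_lit 138) (nat_lit 1) (nat_lit 382) (nat_lit 353) (nat_lit 285)) (XT.nd (nat_lit 78) (nat_lit 304) (nat_lit 0) (XT.lf (nat_lit 76) (nat_lit 681665966) (nat_lit 0) (nat_lit 1118968640) (nat_lit 380) (nat_lit 695881350) (nat_lit 130) (nat_lit 1) (nat_lit 129) (nat_lit 1) (nat_lit 134) (nat_lit 1) (nat_lit 383) (nat_lit 353) (nat_lit 284)) (XT.lf (nat_lit 380) (nat_lit 411592305) (nat_lit 0) (nat_lit 1631072683) (nat_lit 304) (nat_lit 426630987) (nat_lit 130) (nat_lit 1) (nat_lit 125) (nat_lit 1) (nat_lit 129) (nat_lit 1) (nat_lit 384) (nat_lit 353) (nat_lit 283))))))) (XT.nd (nat_lit 702) (nat_lit 2128) (nat_lit 0) (XT.nd (nat_lit 312) (nat_lit 0) (nat_lit 228) (XT.nd (nat_lit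 156) (nat_lit 0) (nat_lit 76) (XT.nd (nat_lit 78) (nat_lit 0) (nat_lit 76) (XT.lf (nat_lit 1900) (nat_lit 1020249759) (nat_lit 0) (nat_lit 1028781420) (nat_lit 1900) (nat_lit 1020249759) (nat_lit 522) (nat_lit 1) (nat_lit 497) (nat_lit 0) (nat_lit 522) (nat_lit 0) (nat_lit 312) (nat_lit 354) (nat_lit 354)) (XT.lf (nat_lit 1900) (nat_lit 471594425) (nat_lit 0) (nat_lit 2047074344) (nat_lit 1824) (nat_lit 3530107059) (nat_lit 523) (nat_lit 1) (nat_lit 498) (nat_lit 1) (nat_lit 522) (nat_lit 1) (nat_lit 313) (nat_lit 354) (nat_lit 353))) (XT.nd (nat_lit 78) (nat_lit 0) (nat_lit 76) (XT.lf (nat_lit 1900) (nat_lit 3878378609) (nat_lit 76) (nat_lit 997188481) (nat_lit 0) (nat_lit 1085129285) (nat_lit 523) (nat_lit 1) (nat_lit 499) (nat_lit 1) (nat_lit 498) (nat_lit 1) (nat_lit 314) (nat_lit 354) (nat_lit 352)) (XT.lf (nat_lit 1900) (nat_lit 3255817176) (nat_lit 0) (nat_lit 2160502481) (nat_lit 1824) (nat_lit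 457983329) (nat_lit 524) (nat_lit 1) (nat_lit 499) (nat_lit 1) (nat_lit 523) (nat_lit 1) (nat_lit 315) (nat_lit 354) (nat_lit 351)))) (XT.nd (nat_lit 156) (nat_lit 0) (nat_lit 76) (XT.nd (nat_lit 78) (nat_lit 0) (nat_lit 76) (XT.lf (nat_lit 1900) (nat_lit 1670259787) (nat_lit 0) (nat_lit 2279958908) (nat_lit 1824) (nat_lit 1839336237) (nat_lit 525) (nat_lit 1) (nat_lit 500) (nat_lit 1) (nat_lit 524) (nat_lit 1) (nat_lit 316) (nat_lit 354) (nat_lit 350)) (XT.lf (nat_lit 1900) (nat_lit 112174606) (nat_lit 0) (nat_lit 2432652038) (nat_lit 1824) (nat_lit 3161714302) (nat_lit 526) (nat_lit 1) (nat_lit 501) (nat_lit 1) (nat_lit 525) (nat_lit 1) (nat_lit 317) (nat_lit 354) (nat_lit 349))) (XT.nd (nat_lit 78) (nat_lit 0) (nat_lit 76) (XT.lf (nat_lit 1900) (nat_lit 2998625460) (nat_lit 76) (nat_lit 1188865612) (nat_lit 0) (nat_lit 1437543545) (nat_lit 526) (nat_lit 1) (nat_lit 502) (nat_lit 1) (nat_lit 501)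 (nat_lit 1) (nat_lit 318) (nat_lit 354) (nat_lit 348)) (XT.nd (nat_lit 78) (nat_lit 0) (nat_lit 76) (XT.lf (nat_lit 1900) (nat_lit 2584459439) (nat_lit 0) (nat_lit 2851720792) (nat_lit 1824) (nat_lit 108978069) (nat_lit 527) (nat_lit 1) (nat_lit 502) (nat_lit 1) (nat_lit 526) (nat_lit 1) (nat_lit 319) (nat_lit 354) (nat_lit 347)) (XT.lf (nat_lit 1900) (nat_lit 1017463263) (nat_lit 0) (nat_lit 3113088035) (nat_lit 1824) (nat_lit 1336204817) (nat_lit 528) (nat_lit 1) (nat_lit 503) (nat_lit 1) (nat_lit 527) (nat_lit 1) (nat_lit 320) (nat_lit 354) (nat_lit 346)))))) (XT.nd (nat_lit 390) (nat_lit 2584) (nat_lit 0) (XT.nd (nat_lit 156) (nat_lit 0) (nat_lit 152) (XT.nd (nat_lit 78) (nat_lit 0) (nat_lit 76) (XT.lf (nat_lit 1900) (nat_lit 1984994690) (nat_lit 76) (nat_lit 2876439213) (nat_lit 0) (nat_lit 528442799) (nat_lit 528) (nat_lit 1) (nat_lit 504) (nat_lit 1) (nat_lit 503) (nat_lit 1) (nat_lit 321)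 (nat_lit 354) (nat_lit 345)) (XT.lf (nat_lit 1900) (nat_lit 1585532546) (nat_lit 76) (nat_lit 1669109170) (nat_lit 0) (nat_lit 2059780529) (nat_lit 529) (nat_lit 1) (nat_lit 505) (nat_lit 1) (nat_lit 504) (nat_lit 1) (nat_lit 322) (nat_lit 354) (nat_lit 344))) (XT.nd (nat_lit 78) (nat_lit 0) (nat_lit 76) (XT.lf (nat_lit 1900) (nat_lit 1163319543) (nat_lit 76) (nat_lit 513836990) (nat_lit 0) (nat_lit 3563334728) (nat_lit 530) (nat_lit 1) (nat_lit 506) (nat_lit 1) (nat_lit 505) (nat_lit 1) (nat_lit 323) (nat_lit 354) (nat_lit 343)) (XT.nd (nat_lit 78) (nat_lit 0) (nat_lit 0) (XT.lf (nat_lit 1900) (nat_lit 132471159) (nat_lit 0) (nat_lit 4452363452) (nat_lit 1824) (nat_lit 583137918) (nat_lit 531) (nat_lit 1) (nat_lit 506) (nat_lit 1) (nat_lit 530) (nat_lit 1) (nat_lit 324) (nat_lit 354) (nat_lit 342)) (XT.lf (nat_lit 1900) (nat_lit 235096382) (nat_lit 76) (nat_lit 3462645023) (nat_lit 0) (nat_lit 1398925719)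 (nat_lit 531) (nat_lit 1) (nat_lit 507) (nat_lit 1) (nat_lit 506) (nat_lit 1) (nat_lit 325) (nat_lit 354) (nat_lit 341))))) (XT.nd (nat_lit 156) (nat_lit 988) (nat_lit 0) (XT.nd (nat_lit 78) (nat_lit 0) (nat_lit 76) (XT.lf (nat_lit 1976) (nat_lit 2124749118) (nat_lit 0) (nat_lit 261700631) (nat_lit 1900) (nat_lit 2640292476) (nat_lit 508) (nat_lit 1) (nat_lit 482) (nat_lit 1) (nat_lit 507) (nat_lit 1) (nat_lit 326) (nat_lit 354) (nat_lit 340)) (XT.lf (nat_lit 1976) (nat_lit 582789927) (nat_lit 0) (nat_lit 773021026) (nat_lit 1900) (nat_lit 3602373649) (nat_lit 509) (nat_lit 1) (nat_lit 483) (nat_lit 1) (nat_lit 508) (nat_lit 1) (nat_lit 327) (nat_lit 354) (nat_lit 339))) (XT.nd (nat_lit 78) (nat_lit 1064) (nat_lit 0) (XT.lf (nat_lit 1976) (nat_lit 3583785748) (nat_lit 76) (nat_lit 364680913) (nat_lit 0) (nat_lit 942404405) (nat_lit 509) (nat_lit 1) (nat_lit 484) (nat_lit 1) (nat_lit 483) (nat_lit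 1) (nat_lit 328) (nat_lit 354) (nat_lit 338)) (XT.nd (nat_lit 78) (nat_lit 1140) (nat_lit 0) (XT.lf (nat_lit 76) (nat_lit 2382404683) (nat_lit 0) (nat_lit 1864277597) (nat_lit 1900) (nat_lit 578062175) (nat_lit 485) (nat_lit 1) (nat_lit 484) (nat_lit 1) (nat_lit 509) (nat_lit 1) (nat_lit 329) (nat_lit 354) (nat_lit 337)) (XT.lf (nat_lit 76) (nat_lit 848477374) (nat_lit 0) (nat_lit 2438139425) (nat_lit 1216) (nat_lit 1473269094) (nat_lit 470) (nat_lit 1) (nat_lit 469) (nat_lit 1) (nat_lit 485) (nat_lit 1) (nat_lit 330) (nat_lit 354) (nat_lit 336))))))))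
noncomputable def ec39 : XT := (XT.nd (nat_lit 1404) (nat_lit 9196) (nat_lit 0) (XT.nd (nat_lit 702) (nat_lit 5016) (nat_lit 0) (XT.nd (nat_lit 312) (nat_lit 4104) (nat_lit 0) (XT.nd (nat_lit 156) (nat_lit 912) (nat_lit 0) (XT.nd (nat_lit 78) (nat_lit 912) (nat_lit 0) (XT.lf (nat_lit 988) (nat_lit 1666473303) (nat_lit 0) (nat_lit 2364944928) (nat_lit 912) (nat_lit 664808844) (nat_lit 470) (nat_lit 1) (nat_lit 457) (nat_lit 1) (nat_lit 469) (nat_lit 1) (nat_lit 331) (nat_lit 354) (nat_lit 335)) (XT.lf (nat_lit 988) (nat_lit 994355123) (nat_lit 0) (nat_lit 1479331458) (nat_lit 912) (nat_lit 2160031294) (nat_lit 458) (nat_lit 1) (nat_lit 445) (nat_lit 1) (nat_lit 457) (nat_lit 1) (nat_lit 332) (nat_lit 354) (nat_lit 334))) (XT.nd (nat_lit 78) (nat_lit 76) (nat_lit 0) (XT.lf (nat_lit 912) (nat_lit 311856644) (nat_lit 0) (nat_lit 634261934) (nat_lit 836) (nat_lit 3626323371) (nat_lit 446) (nat_lit 1)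 (nat_lit 434) (nat_lit 1) (nat_lit 445) (nat_lit 1) (nat_lit 333) (nat_lit 354) (nat_lit 333)) (XT.lf (nat_lit 76) (nat_lit 3956852910) (nat_lit 0) (nat_lit 380060324) (nat_lit 912) (nat_lit 175314029) (nat_lit 434) (nat_lit 1) (nat_lit 433) (nat_lit 1) (nat_lit 445) (nat_lit 1) (nat_lit 334) (nat_lit 354) (nat_lit 332)))) (XT.nd (nat_lit 156) (nat_lit 2356) (nat_lit 0) (XT.nd (nat_lit 78) (nat_lit 836) (nat_lit 0) (XT.lf (nat_lit 76) (nat_lit 2419309034) (nat_lit 0) (nat_lit 1086638294) (nat_lit 988) (nat_lit 947004062) (nat_lit 422) (nat_lit 1) (nat_lit 421) (nat_lit 1) (nat_lit 434) (nat_lit 1) (nat_lit 335) (nat_lit 354) (nat_lit 331)) (XT.lf (nat_lit 76) (nat_lit 911984219) (nat_lit 0) (nat_lit 1800917951) (nat_lit 912) (nat_lit 1681934195) (nat_lit 411) (nat_lit 1) (nat_lit 410) (nat_lit 1) (nat_lit 422) (nat_lit 1) (nat_lit 336) (nat_lit 354) (nat_lit 330))) (XT.nd (nat_lit 78) (nat_lit 1520)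 (nat_lit 0) (XT.lf (nat_lit 912) (nat_lit 1811801407) (nat_lit 0) (nat_lit 1952888024) (nat_lit 836) (nat_lit 573092830) (nat_lit 411) (nat_lit 1) (nat_lit 399) (nat_lit 1) (nat_lit 410) (nat_lit 1) (nat_lit 337) (nat_lit 354) (nat_lit 329)) (XT.nd (nat_lit 78) (nat_lit 760) (nat_lit 0) (XT.lf (nat_lit 836) (nat_lit 1018423232) (nat_lit 0) (nat_lit 1222711561) (nat_lit 760) (nat_lit 2040587657) (nat_lit 400) (nat_lit 1) (nat_lit 389) (nat_lit 1) (nat_lit 399) (nat_lit 1) (nat_lit 338) (nat_lit 354) (nat_lit 328)) (XT.lf (nat_lit 836) (nat_lit 220465857) (nat_lit 0) (nat_lit 527452430) (nat_lit 760) (nat_lit 3478834275) (nat_lit 390) (nat_lit 1) (nat_lit 379) (nat_lit 1) (nat_lit 389) (nat_lit 1) (nat_lit 339) (nat_lit 354) (nat_lit 327)))))) (XT.nd (nat_lit 312) (nat_lit 2736) (nat_lit 0) (XT.nd (nat_lit 156) (nat_lit 1444) (nat_lit 0) (XT.nd (nat_lit 78) (nat_lit 760) (nat_lit 0) (XT.lf (nat_lit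 76) (nat_lit 3452489294) (nat_lit 0) (nat_lit 579512211) (nat_lit 836) (nat_lit 140659636) (nat_lit 379) (nat_lit 1) (nat_lit 378) (nat_lit 1) (nat_lit 389) (nat_lit 1) (nat_lit 340) (nat_lit 354) (nat_lit 326)) (XT.lf (nat_lit 76) (nat_lit 1955798745) (nat_lit 0) (nat_lit 1388045480) (nat_lit 836) (nat_lit 775579924) (nat_lit 369) (nat_lit 1) (nat_lit 368) (nat_lit 1) (nat_lit 379) (nat_lit 1) (nat_lit 341) (nat_lit 354) (nat_lit 325))) (XT.nd (nat_lit 78) (nat_lit 684) (nat_lit 0) (XT.lf (nat_lit 76) (nat_lit 489257797) (nat_lit 0) (nat_lit 2199168434) (nat_lit 836) (nat_lit 1378788735) (nat_lit 359) (nat_lit 1) (nat_lit 358) (nat_lit 1) (nat_lit 369) (nat_lit 1) (nat_lit 342) (nat_lit 354) (nat_lit 324)) (XT.lf (nat_lit 760) (nat_lit 997230182) (nat_lit 0) (nat_lit 2058444007) (nat_lit 684) (nat_lit 960212449) (nat_lit 359) (nat_lit 1) (nat_lit 349) (nat_lit 1) (nat_lit 358) (nat_lit 1) (nat_lit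 343) (nat_lit 354) (nat_lit 323)))) (XT.nd (nat_lit 156) (nat_lit 1292) (nat_lit 0) (XT.nd (nat_lit 78) (nat_lit 760) (nat_lit 0) (XT.lf (nat_lit 760) (nat_lit 122618876) (nat_lit 0) (nat_lit 1456249571) (nat_lit 684) (nat_lit 2386613127) (nat_lit 350) (nat_lit 1) (nat_lit 340) (nat_lit 1) (nat_lit 349) (nat_lit 1) (nat_lit 344) (nat_lit 354) (nat_lit 322)) (XT.lf (nat_lit 76) (nat_lit 137002350) (nat_lit 0) (nat_lit 742244228) (nat_lit 760) (nat_lit 3036698614) (nat_lit 331) (nat_lit 1) (nat_lit 330) (nat_lit 1) (nat_lit 340) (nat_lit 1) (nat_lit 345) (nat_lit 354) (nat_lit 321))) (XT.nd (nat_lit 78) (nat_lit 608) (nat_lit 0) (XT.lf (nat_lit 760) (nat_lit 2253545583) (nat_lit 0) (nat_lit 322177851) (nat_lit 684) (nat_lit 1291447336) (nat_lit 331) (nat_lit 1) (nat_lit 321) (nat_lit 1) (nat_lit 330) (nat_lit 1) (nat_lit 346) (nat_lit 354) (nat_lit 320)) (XT.nd (nat_lit 78) (nat_lit 608) (nat_lit 0)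 (XT.lf (nat_lit 76) (nat_lit 1128385511) (nat_lit 0) (nat_lit 2486446097) (nat_lit 760) (nat_lit 204448955) (nat_lit 322) (nat_lit 1) (nat_lit 321) (nat_lit 1) (nat_lit 331) (nat_lit 1) (nat_lit 347) (nat_lit 354) (nat_lit 319)) (XT.lf (nat_lit 684) (nat_lit 410299351) (nat_lit 0) (nat_lit 3070932735) (nat_lit 608) (nat_lit 290991546) (nat_lit 322) (nat_lit 1) (nat_lit 313) (nat_lit 1) (nat_lit 321) (nat_lit 1) (nat_lit 348) (nat_lit 354) (nat_lit 318))))))) (XT.nd (nat_lit 702) (nat_lit 4408) (nat_lit 0) (XT.nd (nat_lit 312) (nat_lit 2356) (nat_lit 0) (XT.nd (nat_lit 156) (nat_lit 1140) (nat_lit 0) (XT.nd (nat_lit 78) (nat_lit 608) (nat_lit 0) (XT.lf (nat_lit 76) (nat_lit 2033479721) (nat_lit 0) (nat_lit 510297321) (nat_lit 684) (nat_lit 1182071278) (nat_lit 305) (nat_lit 1) (nat_lit 304) (nat_lit 1) (nat_lit 313) (nat_lit 1) (nat_lit 349) (nat_lit 354) (nat_lit 317)) (XT.lf (nat_lit 76) (nat_lit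 618318923) (nat_lit 0) (nat_lit 1422544871) (nat_lit 684) (nat_lit 1639434450) (nat_lit 297) (nat_lit 1) (nat_lit 296) (nat_lit 1) (nat_lit 305) (nat_lit 1) (nat_lit 350) (nat_lit 354) (nat_lit 316))) (XT.nd (nat_lit 78) (nat_lit 532) (nat_lit 0) (XT.lf (nat_lit 684) (nat_lit 1298894789) (nat_lit 0) (nat_lit 1558983067) (nat_lit 608) (nat_lit 777629209) (nat_lit 297) (nat_lit 1) (nat_lit 288) (nat_lit 1) (nat_lit 296) (nat_lit 1) (nat_lit 351) (nat_lit 354) (nat_lit 315)) (XT.lf (nat_lit 608) (nat_lit 340399381) (nat_lit 0) (nat_lit 1098572362) (nat_lit 532) (nat_lit 2152508256) (nat_lit 289) (nat_lit 1) (nat_lit 281) (nat_lit 1) (nat_lit 288) (nat_lit 1) (nat_lit 352) (nat_lit 354) (nat_lit 314)))) (XT.nd (nat_lit 156) (nat_lit 1140) (nat_lit 0) (XT.nd (nat_lit 78) (nat_lit 532) (nat_lit 0) (XT.lf (nat_lit 76) (nat_lit 53652800) (nat_lit 0) (nat_lit 605325330) (nat_lit 684) (nat_lit 2889222769)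 (nat_lit 273) (nat_lit 1) (nat_lit 272) (nat_lit 1) (nat_lit 281) (nat_lit 1) (nat_lit 353) (nat_lit 354) (nat_lit 313)) (XT.lf (nat_lit 608) (nat_lit 1955239932) (nat_lit 0) (nat_lit 232592862) (nat_lit 532) (nat_lit 1317684504) (nat_lit 273) (nat_lit 1) (nat_lit 265) (nat_lit 1) (nat_lit 272) (nat_lit 1) (nat_lit 354) (nat_lit 354) (nat_lit 312))) (XT.nd (nat_lit 78) (nat_lit 1140) (nat_lit 0) (XT.lf (nat_lit 76) (nat_lit 803915187) (nat_lit 0) (nat_lit 2491449857) (nat_lit 608) (nat_lit 168237000) (nat_lit 266) (nat_lit 1) (nat_lit 265) (nat_lit 1) (nat_lit 273) (nat_lit 1) (nat_lit 355) (nat_lit 354) (nat_lit 311)) (XT.nd (nat_lit 78) (nat_lit 532) (nat_lit 0) (XT.lf (nat_lit 76) (nat_lit 2865675318) (nat_lit 0) (nat_lit 9687977) (nat_lit 608) (nat_lit 547003546) (nat_lit 258) (nat_lit 1) (nat_lit 257) (nat_lit 1) (nat_lit 265) (nat_lit 1) (nat_lit 356) (nat_lit 354) (nat_lit 310)) (XT.lf (nat_lit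 76) (nat_lit 1489017956) (nat_lit 0) (nat_lit 977509342) (nat_lit 608) (nat_lit 915143664) (nat_lit 251) (nat_lit 1) (nat_lit 250) (nat_lit 1) (nat_lit 258) (nat_lit 1) (nat_lit 357) (nat_lit 354) (nat_lit 309)))))) (XT.nd (nat_lit 390) (nat_lit 1900) (nat_lit 0) (XT.nd (nat_lit 156) (nat_lit 1520) (nat_lit 0) (XT.nd (nat_lit 78) (nat_lit 456) (nat_lit 0) (XT.lf (nat_lit 76) (nat_lit 141454054) (nat_lit 0) (nat_lit 1938609837) (nat_lit 608) (nat_lit 1261667147) (nat_lit 244) (nat_lit 1) (nat_lit 243) (nat_lit 1) (nat_lit 251) (nat_lit 1) (nat_lit 358) (nat_lit 354) (nat_lit 308)) (XT.lf (nat_lit 532) (nat_lit 401759071) (nat_lit 0) (nat_lit 1707426487) (nat_lit 456) (nat_lit 1193190850) (nat_lit 244) (nat_lit 1) (nat_lit 237) (nat_lit 1) (nat_lit 243) (nat_lit 1) (nat_lit 359) (nat_lit 354) (nat_lit 307))) (XT.nd (nat_lit 78) (nat_lit 912) (nat_lit 0) (XT.lf (nat_lit 76) (nat_lit 766287346) (nat_lit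 0) (nat_lit 584915491) (nat_lit 608) (nat_lit 1912451925) (nat_lit 230) (nat_lit 1) (nat_lit 229) (nat_lit 1) (nat_lit 237) (nat_lit 1) (nat_lit 360) (nat_lit 354) (nat_lit 306)) (XT.nd (nat_lit 78) (nat_lit 456) (nat_lit 0) (XT.lf (nat_lit 532) (nat_lit 1663457527) (nat_lit 0) (nat_lit 1009383750) (nat_lit 456) (nat_lit 552682406) (nat_lit 230) (nat_lit 1) (nat_lit 223) (nat_lit 1) (nat_lit 229) (nat_lit 1) (nat_lit 361) (nat_lit 354) (nat_lit 305)) (XT.lf (nat_lit 532) (nat_lit 651839926) (nat_lit 0) (nat_lit 682736999) (nat_lit 456) (nat_lit 1853418310) (nat_lit 224) (nat_lit 1) (nat_lit 217) (nat_lit 1) (nat_lit 223) (nat_lit 1) (nat_lit 362) (nat_lit 354) (nat_lit 304))))) (XT.nd (nat_lit 156) (nat_lit 912) (nat_lit 0) (XT.nd (nat_lit 78) (nat_lit 456) (nat_lit 0) (XT.lf (nat_lit 76) (nat_lit 27174931) (nat_lit 0) (nat_lit 346318724) (nat_lit 532) (nat_lit 2777616545) (nat_lit 211) (nat_lit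 1) (nat_lit 210) (nat_lit 1) (nat_lit 217) (nat_lit 1) (nat_lit 363) (nat_lit 354) (nat_lit 303)) (XT.lf (nat_lit 532) (nat_lit 1779296996) (nat_lit 0) (nat_lit 70772994) (nat_lit 456) (nat_lit 1264582310) (nat_lit 211) (nat_lit 1) (nat_lit 204) (nat_lit 1) (nat_lit 210) (nat_lit 1) (nat_lit 364) (nat_lit 354) (nat_lit 302))) (XT.nd (nat_lit 78) (nat_lit 912) (nat_lit 0) (XT.lf (nat_lit 76) (nat_lit 551383518) (nat_lit 0) (nat_lit 2316954064) (nat_lit 532) (nat_lit 210491316) (nat_lit 205) (nat_lit 1) (nat_lit 204) (nat_lit 1) (nat_lit 211) (nat_lit 1) (nat_lit 365) (nat_lit 354) (nat_lit 301)) (XT.nd (nat_lit 78) (nat_lit 456) (nat_lit 0) (XT.lf (nat_lit 76) (nat_lit 2316645407) (nat_lit 0) (nat_lit 247745787) (nat_lit 456) (nat_lit 479132465) (nat_lit 199) (nat_lit 1) (nat_lit 198) (nat_lit 1) (nat_lit 204) (nat_lit 1) (nat_lit 366) (nat_lit 354) (nat_lit 300)) (XT.lf (nat_lit 76) (nat_lit 1028929725)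 (nat_lit 0) (nat_lit 1241165338) (nat_lit 532) (nat_lit 738597487) (nat_lit 193) (nat_lit 1) (nat_lit 192) (nat_lit 1) (nat_lit 199) (nat_lit 1) (nat_lit 367) (nat_lit 354) (nat_lit 299))))))))
noncomputable def ec40 : XT := (XT.nd (nat_lit 48672) (nat_lit 0) (nat_lit 25840) (XT.nd (nat_lit 702) (nat_lit 2280) (nat_lit 0) (XT.nd (nat_lit 312) (nat_lit 1824) (nat_lit 0) (XT.nd (nat_lit 156) (nat_lit 760) (nat_lit 0) (XT.nd (nat_lit 78) (nat_lit 456) (nat_lit 0) (XT.lf (nat_lit 456) (nat_lit 748216805) (nat_lit 0) (nat_lit 1992140325) (nat_lit 380) (nat_lit 234106872) (nat_lit 193) (nat_lit 1) (nat_lit 187) (nat_lit 1) (nat_lit 192) (nat_lit 1) (nat_lit 368) (nat_lit 354) (nat_lit 298)) (XT.lf (nat_lit 76) (nat_lit 1459230822) (nat_lit 0) (nat_lit 263838877) (nat_lit 456) (nat_lit 1217619355) (nat_lit 182) (nat_lit 1) (nat_lit 181) (nat_lit 1) (nat_lit 187) (nat_lit 1) (nat_lit 369) (nat_lit 354) (nat_lit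 297))) (XT.nd (nat_lit 78) (nat_lit 380) (nat_lit 0) (XT.lf (nat_lit 76) (nat_lit 210572479) (nat_lit 0) (nat_lit 1255595565) (nat_lit 456) (nat_lit 1441261360) (nat_lit 177) (nat_lit 1) (nat_lit 176) (nat_lit 1) (nat_lit 182) (nat_lit 1) (nat_lit 370) (nat_lit 354) (nat_lit 296)) (XT.lf (nat_lit 456) (nat_lit 631088109) (nat_lit 0) (nat_lit 1219113083) (nat_lit 380) (nat_lit 1024435638) (nat_lit 177) (nat_lit 1) (nat_lit 171) (nat_lit 1) (nat_lit 176) (nat_lit 1) (nat_lit 371) (nat_lit 354) (nat_lit 295)))) (XT.nd (nat_lit 156) (nat_lit 1064) (nat_lit 0) (XT.nd (nat_lit 78) (nat_lit 380) (nat_lit 0) (XT.lf (nat_lit 76) (nat_lit 609556082) (nat_lit 0) (nat_lit 374901977) (nat_lit 380) (nat_lit 1857900676) (nat_lit 167) (nat_lit 1) (nat_lit 166) (nat_lit 1) (nat_lit 171) (nat_lit 1) (nat_lit 372) (nat_lit 354) (nat_lit 294)) (XT.lf (nat_lit 456) (nat_lit 1444924829) (nat_lit 0) (nat_lit 757527526)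 (nat_lit 380) (nat_lit 608048455) (nat_lit 167) (nat_lit 1) (nat_lit 161) (nat_lit 1) (nat_lit 166) (nat_lit 1) (nat_lit 373) (nat_lit 354) (nat_lit 293))) (XT.nd (nat_lit 78) (nat_lit 760) (nat_lit 0) (XT.lf (nat_lit 380) (nat_lit 429980682) (nat_lit 0) (nat_lit 542154126) (nat_lit 304) (nat_lit 1807000786) (nat_lit 162) (nat_lit 1) (nat_lit 157) (nat_lit 1) (nat_lit 161) (nat_lit 1) (nat_lit 374) (nat_lit 354) (nat_lit 292)) (XT.nd (nat_lit 78) (nat_lit 304) (nat_lit 0) (XT.lf (nat_lit 456) (nat_lit 2180891167) (nat_lit 0) (nat_lit 336651414) (nat_lit 380) (nat_lit 230684858) (nat_lit 157) (nat_lit 1) (nat_lit 151) (nat_lit 1) (nat_lit 156) (nat_lit 1) (nat_lit 375) (nat_lit 354) (nat_lit 291)) (XT.lf (nat_lit 380) (nat_lit 1163851166) (nat_lit 0) (nat_lit 136803325) (nat_lit 304) (nat_lit 1417036627) (nat_lit 152) (nat_lit 1) (nat_lit 147) (nat_lit 1) (nat_lit 151) (nat_lit 1) (nat_lit 376) (nat_lit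 354) (nat_lit 290)))))) (XT.nd (nat_lit 312) (nat_lit 1216) (nat_lit 0) (XT.nd (nat_lit 156) (nat_lit 684) (nat_lit 0) (XT.nd (nat_lit 78) (nat_lit 380) (nat_lit 0) (XT.lf (nat_lit 76) (nat_lit 110670338) (nat_lit 0) (nat_lit 2529186703) (nat_lit 380) (nat_lit 47835637) (nat_lit 148) (nat_lit 1) (nat_lit 147) (nat_lit 1) (nat_lit 152) (nat_lit 1) (nat_lit 377) (nat_lit 354) (nat_lit 289)) (XT.lf (nat_lit 76) (nat_lit 1597115510) (nat_lit 0) (nat_lit 831737064) (nat_lit 380) (nat_lit 229111201) (nat_lit 143) (nat_lit 1) (nat_lit 142) (nat_lit 1) (nat_lit 147) (nat_lit 1) (nat_lit 378) (nat_lit 354) (nat_lit 288))) (XT.nd (nat_lit 78) (nat_lit 380) (nat_lit 0) (XT.lf (nat_lit 76) (nat_lit 421683795) (nat_lit 0) (nat_lit 1808701100) (nat_lit 380) (nat_lit 398344258) (nat_lit 139) (nat_lit 1) (nat_lit 138) (nat_lit 1) (nat_lit 143) (nat_lit 1) (nat_lit 379) (nat_lit 354) (nat_lit 287)) (XT.lf (nat_lit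 76) (nat_lit 1863411931) (nat_lit 0) (nat_lit 176359799) (nat_lit 380) (nat_lit 560122860) (nat_lit 134) (nat_lit 1) (nat_lit 133) (nat_lit 1) (nat_lit 138) (nat_lit 1) (nat_lit 380) (nat_lit 354) (nat_lit 286)))) (XT.nd (nat_lit 156) (nat_lit 608) (nat_lit 0) (XT.nd (nat_lit 78) (nat_lit 304) (nat_lit 0) (XT.lf (nat_lit 76) (nat_lit 702115945) (nat_lit 0) (nat_lit 1152537699) (nat_lit 380) (nat_lit 716757790) (nat_lit 130) (nat_lit 1) (nat_lit 129) (nat_lit 1) (nat_lit 134) (nat_lit 1) (nat_lit 381) (nat_lit 354) (nat_lit 285)) (XT.lf (nat_lit 380) (nat_lit 423940074) (nat_lit 0) (nat_lit 1680004864) (nat_lit 304) (nat_lit 439429917) (nat_lit 130) (nat_lit 1) (nat_lit 125) (nat_lit 1) (nat_lit 129) (nat_lit 1) (nat_lit 382) (nat_lit 354) (nat_lit 284))) (XT.nd (nat_lit 78) (nat_lit 304) (nat_lit 0) (XT.lf (nat_lit 76) (nat_lit 954438196) (nat_lit 0) (nat_lit 555640011) (nat_lit 304) (nat_lit 1005591611)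 (nat_lit 122) (nat_lit 1) (nat_lit 121) (nat_lit 1) (nat_lit 125) (nat_lit 1) (nat_lit 383) (nat_lit 354) (nat_lit 283)) (XT.nd (nat_lit 47346) (nat_lit 0) (nat_lit 28880) (XT.lf (nat_lit 380) (nat_lit 970005836) (nat_lit 0) (nat_lit 1349089693) (nat_lit 304) (nat_lit 169281142) (nat_lit 122) (nat_lit 1) (nat_lit 117) (nat_lit 1) (nat_lit 121) (nat_lit 1) (nat_lit 384) (nat_lit 354) (nat_lit 282)) (XT.lf (nat_lit 1900) (nat_lit 1050857252) (nat_lit 0) (nat_lit 1059644863) (nat_lit 1900) (nat_lit 1050857252) (nat_lit 522) (nat_lit 1) (nat_lit 497) (nat_lit 0) (nat_lit 522) (nat_lit 0) (nat_lit 310) (nat_lit 355) (nat_lit 355))))))) (XT.nd (nat_lit 702) (nat_lit 3116) (nat_lit 0) (XT.nd (nat_lit 312) (nat_lit 0) (nat_lit 228) (XT.nd (nat_lit 156) (nat_lit 0) (nat_lit 76) (XT.nd (nat_lit 78) (nat_lit 0) (nat_lit 0) (XT.lf (nat_lit 1900) (nat_lit 485742258) (nat_lit 0) (nat_lit 2108486574) (nat_lit 1824)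 (nat_lit 3636010271) (nat_lit 523) (nat_lit 1) (nat_lit 498) (nat_lit 1) (nat_lit 522) (nat_lit 1) (nat_lit 311) (nat_lit 355) (nat_lit 354)) (XT.lf (nat_lit 1900) (nat_lit 3994729967) (nat_lit 76) (nat_lit 1027104135) (nat_lit 0) (nat_lit 1117683163) (nat_lit 523) (nat_lit 1) (nat_lit 499) (nat_lit 1) (nat_lit 498) (nat_lit 1) (nat_lit 312) (nat_lit 355) (nat_lit 353))) (XT.nd (nat_lit 78) (nat_lit 0) (nat_lit 76) (XT.lf (nat_lit 1900) (nat_lit 3353491691) (nat_lit 0) (nat_lit 2225317555) (nat_lit 1824) (nat_lit 471722829) (nat_lit 524) (nat_lit 1) (nat_lit 499) (nat_lit 1) (nat_lit 523) (nat_lit 1) (nat_lit 313) (nat_lit 355) (nat_lit 352)) (XT.lf (nat_lit 1900) (nat_lit 1720367580) (nat_lit 0) (nat_lit 2348357675) (nat_lit 1824) (nat_lit 1894516324) (nat_lit 525) (nat_lit 1) (nat_lit 500) (nat_lit 1) (nat_lit 524) (nat_lit 1) (nat_lit 314) (nat_lit 355) (nat_lit 351)))) (XT.nd (nat_lit 156) (nat_lit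 0) (nat_lit 76) (XT.nd (nat_lit 78) (nat_lit 0) (nat_lit 0) (XT.lf (nat_lit 1900) (nat_lit 115539844) (nat_lit 0) (nat_lit 2505631599) (nat_lit 1824) (nat_lit 3256565732) (nat_lit 526) (nat_lit 1) (nat_lit 501) (nat_lit 1) (nat_lit 525) (nat_lit 1) (nat_lit 315) (nat_lit 355) (nat_lit 350)) (XT.lf (nat_lit 1900) (nat_lit 3088584224) (nat_lit 76) (nat_lit 1224531580) (nat_lit 0) (nat_lit 1480669851) (nat_lit 526) (nat_lit 1) (nat_lit 502) (nat_lit 1) (nat_lit 501) (nat_lit 1) (nat_lit 316) (nat_lit 355) (nat_lit 349))) (XT.nd (nat_lit 78) (nat_lit 0) (nat_lit 76) (XT.lf (nat_lit 1900) (nat_lit 2661993222) (nat_lit 0) (nat_lit 2937272415) (nat_lit 1824) (nat_lit 112247411) (nat_lit 527) (nat_lit 1) (nat_lit 502) (nat_lit 1) (nat_lit 526) (nat_lit 1) (nat_lit 317) (nat_lit 355) (nat_lit 348)) (XT.nd (nat_lit 78) (nat_lit 0) (nat_lit 0) (XT.lf (nat_lit 1900) (nat_lit 1047987161) (nat_lit 0) (nat_lit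 3206480676) (nat_lit 1824) (nat_lit 1376290962) (nat_lit 528) (nat_lit 1) (nat_lit 503) (nat_lit 1) (nat_lit 527) (nat_lit 1) (nat_lit 318) (nat_lit 355) (nat_lit 347)) (XT.lf (nat_lit 1900) (nat_lit 2044544531) (nat_lit 76) (nat_lit 2962732389) (nat_lit 0) (nat_lit 544296083) (nat_lit 528) (nat_lit 1) (nat_lit 504) (nat_lit 1) (nat_lit 503) (nat_lit 1) (nat_lit 319) (nat_lit 355) (nat_lit 346)))))) (XT.nd (nat_lit 390) (nat_lit 1900) (nat_lit 0) (XT.nd (nat_lit 156) (nat_lit 1672) (nat_lit 0) (XT.nd (nat_lit 78) (nat_lit 0) (nat_lit 76) (XT.lf (nat_lit 1900) (nat_lit 1633098522) (nat_lit 76) (nat_lit 1719182445) (nat_lit 0) (nat_lit 2121573945) (nat_lit 529) (nat_lit 1) (nat_lit 505) (nat_lit 1) (nat_lit 504) (nat_lit 1) (nat_lit 320) (nat_lit 355) (nat_lit 345)) (XT.lf (nat_lit 1900) (nat_lit 1198219129) (nat_lit 76) (nat_lit 529252099) (nat_lit 0) (nat_lit 3670234770) (nat_lit 530) (nat_lit 1)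 (nat_lit 506) (nat_lit 1) (nat_lit 505) (nat_lit 1) (nat_lit 321) (nat_lit 355) (nat_lit 344))) (XT.nd (nat_lit 78) (nat_lit 1824) (nat_lit 0) (XT.lf (nat_lit 1900) (nat_lit 136445294) (nat_lit 0) (nat_lit 4585934356) (nat_lit 1824) (nat_lit 600632055) (nat_lit 531) (nat_lit 1) (nat_lit 506) (nat_lit 1) (nat_lit 530) (nat_lit 1) (nat_lit 322) (nat_lit 355) (nat_lit 343)) (XT.nd (nat_lit 78) (nat_lit 1824) (nat_lit 0) (XT.lf (nat_lit 1900) (nat_lit 242149274) (nat_lit 76) (nat_lit 3566524373) (nat_lit 0) (nat_lit 1440893490) (nat_lit 531) (nat_lit 1) (nat_lit 507) (nat_lit 1) (nat_lit 506) (nat_lit 1) (nat_lit 323) (nat_lit 355) (nat_lit 342)) (XT.lf (nat_lit 1976) (nat_lit 2188491592) (nat_lit 0) (nat_lit 269551650) (nat_lit 1900) (nat_lit 2719501251) (nat_lit 508) (nat_lit 1) (nat_lit 482) (nat_lit 1) (nat_lit 507) (nat_lit 1) (nat_lit 324) (nat_lit 355) (nat_lit 341))))) (XT.nd (nat_lit 156) (nat_lit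 1976) (nat_lit 0) (XT.nd (nat_lit 78) (nat_lit 0) (nat_lit 0) (XT.lf (nat_lit 1976) (nat_lit 600273624) (nat_lit 0) (nat_lit 796211656) (nat_lit 1900) (nat_lit 3710444859) (nat_lit 509) (nat_lit 1) (nat_lit 483) (nat_lit 1) (nat_lit 508) (nat_lit 1) (nat_lit 325) (nat_lit 355) (nat_lit 340)) (XT.lf (nat_lit 1976) (nat_lit 3691299321) (nat_lit 76) (nat_lit 375621341) (nat_lit 0) (nat_lit 970676537) (nat_lit 509) (nat_lit 1) (nat_lit 484) (nat_lit 1) (nat_lit 483) (nat_lit 1) (nat_lit 326) (nat_lit 355) (nat_lit 339))) (XT.nd (nat_lit 78) (nat_lit 2052) (nat_lit 0) (XT.lf (nat_lit 76) (nat_lit 2453876824) (nat_lit 0) (nat_lit 1920205925) (nat_lit 1900) (nat_lit 595404040) (nat_lit 485) (nat_lit 1) (nat_lit 484) (nat_lit 1) (nat_lit 509) (nat_lit 1) (nat_lit 327) (nat_lit 355) (nat_lit 338)) (XT.nd (nat_lit 78) (nat_lit 912) (nat_lit 0) (XT.lf (nat_lit 76) (nat_lit 873931695) (nat_lit 0) (nat_lit 2511283607)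 (nat_lit 1216) (nat_lit 1517467167) (nat_lit 470) (nat_lit 1) (nat_lit 469) (nat_lit 1) (nat_lit 485) (nat_lit 1) (nat_lit 328) (nat_lit 355) (nat_lit 337)) (XT.lf (nat_lit 988) (nat_lit 1716467502) (nat_lit 0) (nat_lit 2435893276) (nat_lit 912) (nat_lit 684753109) (nat_lit 470) (nat_lit 1) (nat_lit 457) (nat_lit 1) (nat_lit 469) (nat_lit 1) (nat_lit 329) (nat_lit 355) (nat_lit 336))))))))
noncomputable def ec41 : XT := (XT.nd (nat_lit 1404) (nat_lit 8892) (nat_lit 0) (XT.nd (nat_lit 702) (nat_lit 5624) (nat_lit 0) (XT.nd (nat_lit 312) (nat_lit 3268) (nat_lit 0) (XT.nd (nat_lit 156) (nat_lit 988) (nat_lit 0) (XT.nd (nat_lit 78) (nat_lit 836) (nat_lit 0) (XT.lf (nat_lit 988) (nat_lit 1024185777) (nat_lit 0) (nat_lit 1523711402) (nat_lit 912) (nat_lit 2224832233) (nat_lit 458) (nat_lit 1) (nat_lit 445) (nat_lit 1) (nat_lit 457) (nat_lit 1) (nat_lit 330) (nat_lit 355) (nat_lit 335)) (XT.lf (nat_lit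 912) (nat_lit 321212344) (nat_lit 0) (nat_lit 653289792) (nat_lit 836) (nat_lit 3735113072) (nat_lit 446) (nat_lit 1) (nat_lit 434) (nat_lit 1) (nat_lit 445) (nat_lit 1) (nat_lit 331) (nat_lit 355) (nat_lit 334))) (XT.nd (nat_lit 78) (nat_lit 912) (nat_lit 0) (XT.lf (nat_lit 76) (nat_lit 4075558497) (nat_lit 0) (nat_lit 391462134) (nat_lit 912) (nat_lit 180573450) (nat_lit 434) (nat_lit 1) (nat_lit 433) (nat_lit 1) (nat_lit 445) (nat_lit 1) (nat_lit 332) (nat_lit 355) (nat_lit 333)) (XT.lf (nat_lit 76) (nat_lit 2491888305) (nat_lit 0) (nat_lit 1119237442) (nat_lit 988) (nat_lit 975414184) (nat_lit 422) (nat_lit 1) (nat_lit 421) (nat_lit 1) (nat_lit 434) (nat_lit 1) (nat_lit 333) (nat_lit 355) (nat_lit 332)))) (XT.nd (nat_lit 156) (nat_lit 1596) (nat_lit 0) (XT.nd (nat_lit 78) (nat_lit 836) (nat_lit 0) (XT.lf (nat_lit 76) (nat_lit 939343746) (nat_lit 0) (nat_lit 1854945489) (nat_lit 912) (nat_lit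 1732392220) (nat_lit 411) (nat_lit 1) (nat_lit 410) (nat_lit 1) (nat_lit 422) (nat_lit 1) (nat_lit 334) (nat_lit 355) (nat_lit 331)) (XT.lf (nat_lit 912) (nat_lit 1866155449) (nat_lit 0) (nat_lit 2011474665) (nat_lit 836) (nat_lit 590285614) (nat_lit 411) (nat_lit 1) (nat_lit 399) (nat_lit 1) (nat_lit 410) (nat_lit 1) (nat_lit 335) (nat_lit 355) (nat_lit 330))) (XT.nd (nat_lit 78) (nat_lit 836) (nat_lit 0) (XT.lf (nat_lit 836) (nat_lit 1048975929) (nat_lit 0) (nat_lit 1259392908) (nat_lit 760) (nat_lit 2101805287) (nat_lit 400) (nat_lit 1) (nat_lit 389) (nat_lit 1) (nat_lit 399) (nat_lit 1) (nat_lit 336) (nat_lit 355) (nat_lit 329)) (XT.nd (nat_lit 78) (nat_lit 76) (nat_lit 0) (XT.lf (nat_lit 836) (nat_lit 227079833) (nat_lit 0) (nat_lit 543276002) (nat_lit 760) (nat_lit 3583199303) (nat_lit 390) (nat_lit 1) (nat_lit 379) (nat_lit 1) (nat_lit 389) (nat_lit 1) (nat_lit 337) (nat_lit 355) (nat_lit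 328)) (XT.lf (nat_lit 76) (nat_lit 3556063973) (nat_lit 0) (nat_lit 596897578) (nat_lit 836) (nat_lit 144879425) (nat_lit 379) (nat_lit 1) (nat_lit 378) (nat_lit 1) (nat_lit 389) (nat_lit 1) (nat_lit 338) (nat_lit 355) (nat_lit 327)))))) (XT.nd (nat_lit 312) (nat_lit 2736) (nat_lit 0) (XT.nd (nat_lit 156) (nat_lit 1368) (nat_lit 0) (XT.nd (nat_lit 78) (nat_lit 760) (nat_lit 0) (XT.lf (nat_lit 76) (nat_lit 2014472708) (nat_lit 0) (nat_lit 1429686845) (nat_lit 836) (nat_lit 798847322) (nat_lit 369) (nat_lit 1) (nat_lit 368) (nat_lit 1) (nat_lit 379) (nat_lit 1) (nat_lit 339) (nat_lit 355) (nat_lit 326)) (XT.lf (nat_lit 76) (nat_lit 503935531) (nat_lit 0) (nat_lit 2265143487) (nat_lit 836) (nat_lit 1420152397) (nat_lit 359) (nat_lit 1) (nat_lit 358) (nat_lit 1) (nat_lit 369) (nat_lit 1) (nat_lit 340) (nat_lit 355) (nat_lit 325))) (XT.nd (nat_lit 78) (nat_lit 684) (nat_lit 0) (XT.lf (nat_lit 760) (nat_lit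 1027147088) (nat_lit 0) (nat_lit 2120197327) (nat_lit 684) (nat_lit 989018823) (nat_lit 359) (nat_lit 1) (nat_lit 349) (nat_lit 1) (nat_lit 358) (nat_lit 1) (nat_lit 341) (nat_lit 355) (nat_lit 324)) (XT.lf (nat_lit 760) (nat_lit 126297443) (nat_lit 0) (nat_lit 1499937058) (nat_lit 684) (nat_lit 2458211521) (nat_lit 350) (nat_lit 1) (nat_lit 340) (nat_lit 1) (nat_lit 349) (nat_lit 1) (nat_lit 342) (nat_lit 355) (nat_lit 323)))) (XT.nd (nat_lit 156) (nat_lit 1292) (nat_lit 0) (XT.nd (nat_lit 78) (nat_lit 684) (nat_lit 0) (XT.lf (nat_lit 76) (nat_lit 141112421) (nat_lit 0) (nat_lit 764511554) (nat_lit 760) (nat_lit 3127799572) (nat_lit 331) (nat_lit 1) (nat_lit 330) (nat_lit 1) (nat_lit 340) (nat_lit 1) (nat_lit 343) (nat_lit 355) (nat_lit 322)) (XT.lf (nat_lit 760) (nat_lit 2321151951) (nat_lit 0) (nat_lit 331843187) (nat_lit 684) (nat_lit 1330190756) (nat_lit 331) (nat_lit 1) (nat_lit 321) (nat_lit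 1) (nat_lit 330) (nat_lit 1) (nat_lit 344) (nat_lit 355) (nat_lit 321))) (XT.nd (nat_lit 78) (nat_lit 1292) (nat_lit 0) (XT.lf (nat_lit 76) (nat_lit 1162237077) (nat_lit 0) (nat_lit 2561039479) (nat_lit 760) (nat_lit 210582424) (nat_lit 322) (nat_lit 1) (nat_lit 321) (nat_lit 1) (nat_lit 331) (nat_lit 1) (nat_lit 345) (nat_lit 355) (nat_lit 320)) (XT.nd (nat_lit 78) (nat_lit 684) (nat_lit 0) (XT.lf (nat_lit 684) (nat_lit 422608331) (nat_lit 0) (nat_lit 3163060717) (nat_lit 608) (nat_lit 299721292) (nat_lit 322) (nat_lit 1) (nat_lit 313) (nat_lit 1) (nat_lit 321) (nat_lit 1) (nat_lit 346) (nat_lit 355) (nat_lit 319)) (XT.lf (nat_lit 76) (nat_lit 2094484113) (nat_lit 0) (nat_lit 525606241) (nat_lit 684) (nat_lit 1217533416) (nat_lit 305) (nat_lit 1) (nat_lit 304) (nat_lit 1) (nat_lit 313) (nat_lit 1) (nat_lit 347) (nat_lit 355) (nat_lit 318))))))) (XT.nd (nat_lit 702) (nat_lit 4256) (nat_lit 0) (XT.nd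 (nat_lit 312) (nat_lit 2204) (nat_lit 0) (XT.nd (nat_lit 156) (nat_lit 1216) (nat_lit 0) (XT.nd (nat_lit 78) (nat_lit 608) (nat_lit 0) (XT.lf (nat_lit 76) (nat_lit 636868491) (nat_lit 0) (nat_lit 1465221218) (nat_lit 684) (nat_lit 1688617483) (nat_lit 297) (nat_lit 1) (nat_lit 296) (nat_lit 1) (nat_lit 305) (nat_lit 1) (nat_lit 348) (nat_lit 355) (nat_lit 317)) (XT.lf (nat_lit 684) (nat_lit 1337861633) (nat_lit 0) (nat_lit 1605752559) (nat_lit 608) (nat_lit 800958085) (nat_lit 297) (nat_lit 1) (nat_lit 288) (nat_lit 1) (nat_lit 296) (nat_lit 1) (nat_lit 349) (nat_lit 355) (nat_lit 316))) (XT.nd (nat_lit 78) (nat_lit 684) (nat_lit 0) (XT.lf (nat_lit 608) (nat_lit 350611363) (nat_lit 0) (nat_lit 1131529533) (nat_lit 532) (nat_lit 2217083503) (nat_lit 289) (nat_lit 1) (nat_lit 281) (nat_lit 1) (nat_lit 288) (nat_lit 1) (nat_lit 350) (nat_lit 355) (nat_lit 315)) (XT.lf (nat_lit 76) (nat_lit 55262384)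 (nat_lit 0) (nat_lit 623485090) (nat_lit 684) (nat_lit 2975899452) (nat_lit 273) (nat_lit 1) (nat_lit 272) (nat_lit 1) (nat_lit 281) (nat_lit 1) (nat_lit 351) (nat_lit 355) (nat_lit 314)))) (XT.nd (nat_lit 156) (nat_lit 1672) (nat_lit 0) (XT.nd (nat_lit 78) (nat_lit 0) (nat_lit 0) (XT.lf (nat_lit 608) (nat_lit 2013897130) (nat_lit 0) (nat_lit 239570648) (nat_lit 532) (nat_lit 1357215039) (nat_lit 273) (nat_lit 1) (nat_lit 265) (nat_lit 1) (nat_lit 272) (nat_lit 1) (nat_lit 352) (nat_lit 355) (nat_lit 313)) (XT.lf (nat_lit 76) (nat_lit 828032643) (nat_lit 0) (nat_lit 2566193353) (nat_lit 608) (nat_lit 173284110) (nat_lit 266) (nat_lit 1) (nat_lit 265) (nat_lit 1) (nat_lit 273) (nat_lit 1) (nat_lit 353) (nat_lit 355) (nat_lit 312))) (XT.nd (nat_lit 78) (nat_lit 1064) (nat_lit 0) (XT.lf (nat_lit 76) (nat_lit 2951645578) (nat_lit 0) (nat_lit 9978616) (nat_lit 608) (nat_lit 563413652) (nat_lit 258) (nat_lit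 1) (nat_lit 257) (nat_lit 1) (nat_lit 265) (nat_lit 1) (nat_lit 354) (nat_lit 355) (nat_lit 311)) (XT.nd (nat_lit 78) (nat_lit 532) (nat_lit 0) (XT.lf (nat_lit 76) (nat_lit 1533688494) (nat_lit 0) (nat_lit 1006834622) (nat_lit 608) (nat_lit 942597974) (nat_lit 251) (nat_lit 1) (nat_lit 250) (nat_lit 1) (nat_lit 258) (nat_lit 1) (nat_lit 355) (nat_lit 355) (nat_lit 310)) (XT.lf (nat_lit 76) (nat_lit 145697676) (nat_lit 0) (nat_lit 1996768132) (nat_lit 608) (nat_lit 1299517161) (nat_lit 244) (nat_lit 1) (nat_lit 243) (nat_lit 1) (nat_lit 251) (nat_lit 1) (nat_lit 356) (nat_lit 355) (nat_lit 309)))))) (XT.nd (nat_lit 390) (nat_lit 1748) (nat_lit 0) (XT.nd (nat_lit 156) (nat_lit 1444) (nat_lit 0) (XT.nd (nat_lit 78) (nat_lit 608) (nat_lit 0) (XT.lf (nat_lit 532) (nat_lit 413811843) (nat_lit 0) (nat_lit 1758649281) (nat_lit 456) (nat_lit 1228986575) (nat_lit 244) (nat_lit 1) (nat_lit 237) (nat_lit 1)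 (nat_lit 243) (nat_lit 1) (nat_lit 357) (nat_lit 355) (nat_lit 308)) (XT.lf (nat_lit 76) (nat_lit 789275967) (nat_lit 0) (nat_lit 602462956) (nat_lit 608) (nat_lit 1969825482) (nat_lit 230) (nat_lit 1) (nat_lit 229) (nat_lit 1) (nat_lit 237) (nat_lit 1) (nat_lit 358) (nat_lit 355) (nat_lit 307))) (XT.nd (nat_lit 78) (nat_lit 988) (nat_lit 0) (XT.lf (nat_lit 532) (nat_lit 1713361253) (nat_lit 0) (nat_lit 1039665263) (nat_lit 456) (nat_lit 569262878) (nat_lit 230) (nat_lit 1) (nat_lit 223) (nat_lit 1) (nat_lit 229) (nat_lit 1) (nat_lit 359) (nat_lit 355) (nat_lit 306)) (XT.nd (nat_lit 78) (nat_lit 532) (nat_lit 0) (XT.lf (nat_lit 532) (nat_lit 671395123) (nat_lit 0) (nat_lit 703219109) (nat_lit 456) (nat_lit 1909020860) (nat_lit 224) (nat_lit 1) (nat_lit 217) (nat_lit 1) (nat_lit 223) (nat_lit 1) (nat_lit 360) (nat_lit 355) (nat_lit 305)) (XT.lf (nat_lit 76) (nat_lit 27990179) (nat_lit 0) (nat_lit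 356708285) (nat_lit 532) (nat_lit 2860945042) (nat_lit 211) (nat_lit 1) (nat_lit 210) (nat_lit 1) (nat_lit 217) (nat_lit 1) (nat_lit 361) (nat_lit 355) (nat_lit 304))))) (XT.nd (nat_lit 156) (nat_lit 1292) (nat_lit 0) (XT.nd (nat_lit 78) (nat_lit 0) (nat_lit 0) (XT.lf (nat_lit 532) (nat_lit 1832675905) (nat_lit 0) (nat_lit 72896183) (nat_lit 456) (nat_lit 1302519779) (nat_lit 211) (nat_lit 1) (nat_lit 204) (nat_lit 1) (nat_lit 210) (nat_lit 1) (nat_lit 362) (nat_lit 355) (nat_lit 303)) (XT.lf (nat_lit 76) (nat_lit 567925023) (nat_lit 0) (nat_lit 2386462686) (nat_lit 532) (nat_lit 216806055) (nat_lit 205) (nat_lit 1) (nat_lit 204) (nat_lit 1) (nat_lit 211) (nat_lit 1) (nat_lit 363) (nat_lit 355) (nat_lit 302))) (XT.nd (nat_lit 78) (nat_lit 836) (nat_lit 0) (XT.lf (nat_lit 76) (nat_lit 2386144770) (nat_lit 0) (nat_lit 255178161) (nat_lit 456) (nat_lit 493506439) (nat_lit 199) (nat_lit 1) (nat_lit 198)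 (nat_lit 1) (nat_lit 204) (nat_lit 1) (nat_lit 364) (nat_lit 355) (nat_lit 301)) (XT.nd (nat_lit 78) (nat_lit 380) (nat_lit 0) (XT.lf (nat_lit 76) (nat_lit 1059797617) (nat_lit 0) (nat_lit 1278400298) (nat_lit 532) (nat_lit 760755412) (nat_lit 193) (nat_lit 1) (nat_lit 192) (nat_lit 1) (nat_lit 199) (nat_lit 1) (nat_lit 365) (nat_lit 355) (nat_lit 300)) (XT.lf (nat_lit 456) (nat_lit 770663310) (nat_lit 0) (nat_lit 2051904534) (nat_lit 380) (nat_lit 241130078) (nat_lit 193) (nat_lit 1) (nat_lit 187) (nat_lit 1) (nat_lit 192) (nat_lit 1) (nat_lit 366) (nat_lit 355) (nat_lit 299))))))))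
noncomputable def ec42 : XT := (XT.nd (nat_lit 48594) (nat_lit 0) (nat_lit 26144) (XT.nd (nat_lit 702) (nat_lit 2584) (nat_lit 0) (XT.nd (nat_lit 312) (nat_lit 1444) (nat_lit 0) (XT.nd (nat_lit 156) (nat_lit 760) (nat_lit 0) (XT.nd (nat_lit 78) (nat_lit 380) (nat_lit 0) (XT.lf (nat_lit 76) (nat_lit 1503007747) (nat_lit 0) (nat_lit 271754044) (nat_lit 456) (nat_lit 1254147936) (nat_lit 182) (nat_lit 1) (nat_lit 181) (nat_lit 1) (nat_lit 187) (nat_lit 1) (nat_lit 367) (nat_lit 355) (nat_lit 298)) (XT.lf (nat_lit 76) (nat_lit 216889653) (nat_lit 0) (nat_lit 1293263432) (nat_lit 456) (nat_lit 1484499201) (nat_lit 177) (nat_lit 1) (nat_lit 176) (nat_lit 1) (nat_lit 182) (nat_lit 1) (nat_lit 368) (nat_lit 355) (nat_lit 297))) (XT.nd (nat_lit 78) (nat_lit 380) (nat_lit 0) (XT.lf (nat_lit 456) (nat_lit 650020752) (nat_lit 0) (nat_lit 1255686476) (nat_lit 380) (nat_lit 1055168707) (nat_lit 177) (nat_lit 1)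 (nat_lit 171) (nat_lit 1) (nat_lit 176) (nat_lit 1) (nat_lit 369) (nat_lit 355) (nat_lit 296)) (XT.lf (nat_lit 76) (nat_lit 627842764) (nat_lit 0) (nat_lit 386149037) (nat_lit 380) (nat_lit 1913637697) (nat_lit 167) (nat_lit 1) (nat_lit 166) (nat_lit 1) (nat_lit 171) (nat_lit 1) (nat_lit 370) (nat_lit 355) (nat_lit 295)))) (XT.nd (nat_lit 156) (nat_lit 760) (nat_lit 0) (XT.nd (nat_lit 78) (nat_lit 304) (nat_lit 0) (XT.lf (nat_lit 456) (nat_lit 1488272574) (nat_lit 0) (nat_lit 780253352) (nat_lit 380) (nat_lit 626289909) (nat_lit 167) (nat_lit 1) (nat_lit 161) (nat_lit 1) (nat_lit 166) (nat_lit 1) (nat_lit 371) (nat_lit 355) (nat_lit 294)) (XT.lf (nat_lit 380) (nat_lit 442880103) (nat_lit 0) (nat_lit 558418750) (nat_lit 304) (nat_lit 1861210810) (nat_lit 162) (nat_lit 1) (nat_lit 157) (nat_lit 1) (nat_lit 161) (nat_lit 1) (nat_lit 372) (nat_lit 355) (nat_lit 293))) (XT.nd (nat_lit 78) (nat_lit 304)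 (nat_lit 0) (XT.lf (nat_lit 456) (nat_lit 2246317902) (nat_lit 0) (nat_lit 346750957) (nat_lit 380) (nat_lit 237605404) (nat_lit 157) (nat_lit 1) (nat_lit 151) (nat_lit 1) (nat_lit 156) (nat_lit 1) (nat_lit 373) (nat_lit 355) (nat_lit 292)) (XT.nd (nat_lit 78) (nat_lit 0) (nat_lit 0) (XT.lf (nat_lit 380) (nat_lit 1198766701) (nat_lit 0) (nat_lit 140907425) (nat_lit 304) (nat_lit 1459547726) (nat_lit 152) (nat_lit 1) (nat_lit 147) (nat_lit 1) (nat_lit 151) (nat_lit 1) (nat_lit 374) (nat_lit 355) (nat_lit 291)) (XT.lf (nat_lit 76) (nat_lit 113990448) (nat_lit 0) (nat_lit 2605062304) (nat_lit 380) (nat_lit 49270707) (nat_lit 148) (nat_lit 1) (nat_lit 147) (nat_lit 1) (nat_lit 152) (nat_lit 1) (nat_lit 375) (nat_lit 355) (nat_lit 290)))))) (XT.nd (nat_lit 312) (nat_lit 1216) (nat_lit 0) (XT.nd (nat_lit 156) (nat_lit 684) (nat_lit 0) (XT.nd (nat_lit 78) (nat_lit 304) (nat_lit 0) (XT.lf (nat_lit 76) (nat_lit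 1645028975) (nat_lit 0) (nat_lit 856689176) (nat_lit 380) (nat_lit 235984537) (nat_lit 143) (nat_lit 1) (nat_lit 142) (nat_lit 1) (nat_lit 147) (nat_lit 1) (nat_lit 376) (nat_lit 355) (nat_lit 289)) (XT.lf (nat_lit 76) (nat_lit 434334309) (nat_lit 0) (nat_lit 1862962133) (nat_lit 380) (nat_lit 410294586) (nat_lit 139) (nat_lit 1) (nat_lit 138) (nat_lit 1) (nat_lit 143) (nat_lit 1) (nat_lit 377) (nat_lit 355) (nat_lit 288))) (XT.nd (nat_lit 78) (nat_lit 304) (nat_lit 0) (XT.lf (nat_lit 76) (nat_lit 1919314289) (nat_lit 0) (nat_lit 181650593) (nat_lit 380) (nat_lit 576926546) (nat_lit 134) (nat_lit 1) (nat_lit 133) (nat_lit 1) (nat_lit 138) (nat_lit 1) (nat_lit 378) (nat_lit 355) (nat_lit 287)) (XT.lf (nat_lit 76) (nat_lit 723179423) (nat_lit 0) (nat_lit 1187113830) (nat_lit 380) (nat_lit 738260524) (nat_lit 130) (nat_lit 1) (nat_lit 129) (nat_lit 1) (nat_lit 134) (nat_lit 1) (nat_lit 379) (nat_lit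 355) (nat_lit 286)))) (XT.nd (nat_lit 156) (nat_lit 608) (nat_lit 0) (XT.nd (nat_lit 78) (nat_lit 304) (nat_lit 0) (XT.lf (nat_lit 380) (nat_lit 436658276) (nat_lit 0) (nat_lit 1730405010) (nat_lit 304) (nat_lit 452612814) (nat_lit 130) (nat_lit 1) (nat_lit 125) (nat_lit 1) (nat_lit 129) (nat_lit 1) (nat_lit 380) (nat_lit 355) (nat_lit 285)) (XT.lf (nat_lit 76) (nat_lit 983071342) (nat_lit 0) (nat_lit 572309211) (nat_lit 304) (nat_lit 1035759359) (nat_lit 122) (nat_lit 1) (nat_lit 121) (nat_lit 1) (nat_lit 125) (nat_lit 1) (nat_lit 381) (nat_lit 355) (nat_lit 284))) (XT.nd (nat_lit 78) (nat_lit 304) (nat_lit 0) (XT.lf (nat_lit 380) (nat_lit 999106011) (nat_lit 0) (nat_lit 1389562384) (nat_lit 304) (nat_lit 174359576) (nat_lit 122) (nat_lit 1) (nat_lit 117) (nat_lit 1) (nat_lit 121) (nat_lit 1) (nat_lit 382) (nat_lit 355) (nat_lit 283)) (XT.nd (nat_lit 47268) (nat_lit 0) (nat_lit 29184) (XT.lf (nat_lit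 76) (nat_lit 1216359122) (nat_lit 0) (nat_lit 13738587) (nat_lit 304) (nat_lit 1305184265) (nat_lit 114) (nat_lit 1) (nat_lit 113) (nat_lit 1) (nat_lit 117) (nat_lit 1) (nat_lit 383) (nat_lit 355) (nat_lit 282)) (XT.lf (nat_lit 1900) (nat_lit 1082382970) (nat_lit 0) (nat_lit 1091434209) (nat_lit 1900) (nat_lit 1082382970) (nat_lit 522) (nat_lit 1) (nat_lit 497) (nat_lit 0) (nat_lit 522) (nat_lit 0) (nat_lit 308) (nat_lit 356) (nat_lit 356))))))) (XT.nd (nat_lit 702) (nat_lit 3116) (nat_lit 0) (XT.nd (nat_lit 312) (nat_lit 0) (nat_lit 228) (XT.nd (nat_lit 156) (nat_lit 0) (nat_lit 76) (XT.nd (nat_lit 78) (nat_lit 0) (nat_lit 0) (XT.lf (nat_lit 1900) (nat_lit 500314525) (nat_lit 0) (nat_lit 2171741171) (nat_lit 1824) (nat_lit 3745090579) (nat_lit 523) (nat_lit 1) (nat_lit 498) (nat_lit 1) (nat_lit 522) (nat_lit 1) (nat_lit 309) (nat_lit 356) (nat_lit 355)) (XT.lf (nat_lit 1900) (nat_lit 4114571866)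 (nat_lit 76) (nat_lit 1057917259) (nat_lit 0) (nat_lit 1151213658) (nat_lit 523) (nat_lit 1) (nat_lit 499) (nat_lit 1) (nat_lit 498) (nat_lit 1) (nat_lit 310) (nat_lit 356) (nat_lit 354))) (XT.nd (nat_lit 78) (nat_lit 0) (nat_lit 76) (XT.lf (nat_lit 1900) (nat_lit 3454096442) (nat_lit 0) (nat_lit 2292077082) (nat_lit 1824) (nat_lit 485874514) (nat_lit 524) (nat_lit 1) (nat_lit 499) (nat_lit 1) (nat_lit 523) (nat_lit 1) (nat_lit 311) (nat_lit 356) (nat_lit 353)) (XT.lf (nat_lit 1900) (nat_lit 1771978608) (nat_lit 0) (nat_lit 2418808405) (nat_lit 1824) (nat_lit 1951351814) (nat_lit 525) (nat_lit 1) (nat_lit 500) (nat_lit 1) (nat_lit 524) (nat_lit 1) (nat_lit 312) (nat_lit 356) (nat_lit 352)))) (XT.nd (nat_lit 156) (nat_lit 0) (nat_lit 76) (XT.nd (nat_lit 78) (nat_lit 0) (nat_lit 0) (XT.lf (nat_lit 1900) (nat_lit 119006039) (nat_lit 0) (nat_lit 2580800547) (nat_lit 1824) (nat_lit 3354262703) (nat_lit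 526) (nat_lit 1) (nat_lit 501) (nat_lit 1) (nat_lit 525) (nat_lit 1) (nat_lit 313) (nat_lit 356) (nat_lit 351)) (XT.lf (nat_lit 1900) (nat_lit 3181241751) (nat_lit 76) (nat_lit 1261267527) (nat_lit 0) (nat_lit 1525089946) (nat_lit 526) (nat_lit 1) (nat_lit 502) (nat_lit 1) (nat_lit 501) (nat_lit 1) (nat_lit 314) (nat_lit 356) (nat_lit 350))) (XT.nd (nat_lit 78) (nat_lit 0) (nat_lit 76) (XT.lf (nat_lit 1900) (nat_lit 2741853019) (nat_lit 0) (nat_lit 3025390588) (nat_lit 1824) (nat_lit 115614833) (nat_lit 527) (nat_lit 1) (nat_lit 502) (nat_lit 1) (nat_lit 526) (nat_lit 1) (nat_lit 315) (nat_lit 356) (nat_lit 349)) (XT.nd (nat_lit 78) (nat_lit 0) (nat_lit 0) (XT.lf (nat_lit 1900) (nat_lit 1079426776) (nat_lit 0) (nat_lit 3302675096) (nat_lit 1824) (nat_lit 1417579690) (nat_lit 528) (nat_lit 1) (nat_lit 503) (nat_lit 1) (nat_lit 527) (nat_lit 1) (nat_lit 316) (nat_lit 356) (nat_lit 348)) (XT.lf (nat_lit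 1900) (nat_lit 2105880867) (nat_lit 76) (nat_lit 3051614361) (nat_lit 0) (nat_lit 560624966) (nat_lit 528) (nat_lit 1) (nat_lit 504) (nat_lit 1) (nat_lit 503) (nat_lit 1) (nat_lit 317) (nat_lit 356) (nat_lit 347)))))) (XT.nd (nat_lit 390) (nat_lit 1900) (nat_lit 0) (XT.nd (nat_lit 156) (nat_lit 1672) (nat_lit 0) (XT.nd (nat_lit 78) (nat_lit 0) (nat_lit 76) (XT.lf (nat_lit 1900) (nat_lit 1682091478) (nat_lit 76) (nat_lit 1770757918) (nat_lit 0) (nat_lit 2185221163) (nat_lit 529) (nat_lit 1) (nat_lit 505) (nat_lit 1) (nat_lit 504) (nat_lit 1) (nat_lit 318) (nat_lit 356) (nat_lit 346)) (XT.lf (nat_lit 1900) (nat_lit 1234165703) (nat_lit 76) (nat_lit 545129662) (nat_lit 0) (nat_lit 3780341813) (nat_lit 530) (nat_lit 1) (nat_lit 506) (nat_lit 1) (nat_lit 505) (nat_lit 1) (nat_lit 319) (nat_lit 356) (nat_lit 345))) (XT.nd (nat_lit 78) (nat_lit 1824) (nat_lit 0) (XT.lf (nat_lit 1900) (nat_lit 140538653)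 (nat_lit 0) (nat_lit 4723512386) (nat_lit 1824) (nat_lit 618651017) (nat_lit 531) (nat_lit 1) (nat_lit 506) (nat_lit 1) (nat_lit 530) (nat_lit 1) (nat_lit 320) (nat_lit 356) (nat_lit 344)) (XT.nd (nat_lit 78) (nat_lit 1824) (nat_lit 0) (XT.lf (nat_lit 1900) (nat_lit 249413752) (nat_lit 76) (nat_lit 3673520104) (nat_lit 0) (nat_lit 1484120295) (nat_lit 531) (nat_lit 1) (nat_lit 507) (nat_lit 1) (nat_lit 506) (nat_lit 1) (nat_lit 321) (nat_lit 356) (nat_lit 343)) (XT.lf (nat_lit 1976) (nat_lit 2254146339) (nat_lit 0) (nat_lit 277638200) (nat_lit 1900) (nat_lit 2801086288) (nat_lit 508) (nat_lit 1) (nat_lit 482) (nat_lit 1) (nat_lit 507) (nat_lit 1) (nat_lit 322) (nat_lit 356) (nat_lit 342))))) (XT.nd (nat_lit 156) (nat_lit 1976) (nat_lit 0) (XT.nd (nat_lit 78) (nat_lit 0) (nat_lit 0) (XT.lf (nat_lit 1976) (nat_lit 618281833) (nat_lit 0) (nat_lit 820098006) (nat_lit 1900) (nat_lit 3821758204) (nat_lit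 509) (nat_lit 1) (nat_lit 483) (nat_lit 1) (nat_lit 508) (nat_lit 1) (nat_lit 323) (nat_lit 356) (nat_lit 341)) (XT.lf (nat_lit 1976) (nat_lit 3802038300) (nat_lit 76) (nat_lit 386889981) (nat_lit 0) (nat_lit 999796833) (nat_lit 509) (nat_lit 1) (nat_lit 484) (nat_lit 1) (nat_lit 483) (nat_lit 1) (nat_lit 324) (nat_lit 356) (nat_lit 340))) (XT.nd (nat_lit 78) (nat_lit 2052) (nat_lit 0) (XT.lf (nat_lit 76) (nat_lit 2527493129) (nat_lit 0) (nat_lit 1977812102) (nat_lit 1900) (nat_lit 613266162) (nat_lit 485) (nat_lit 1) (nat_lit 484) (nat_lit 1) (nat_lit 509) (nat_lit 1) (nat_lit 325) (nat_lit 356) (nat_lit 339)) (XT.nd (nat_lit 78) (nat_lit 912) (nat_lit 0) (XT.lf (nat_lit 76) (nat_lit 900149646) (nat_lit 0) (nat_lit 2586622116) (nat_lit 1216) (nat_lit 1562991182) (nat_lit 470) (nat_lit 1) (nat_lit 469) (nat_lit 1) (nat_lit 485) (nat_lit 1) (nat_lit 326) (nat_lit 356) (nat_lit 338)) (XT.lf (nat_lit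 988) (nat_lit 1767961527) (nat_lit 0) (nat_lit 2508970075) (nat_lit 912) (nat_lit 705295703) (nat_lit 470) (nat_lit 1) (nat_lit 457) (nat_lit 1) (nat_lit 469) (nat_lit 1) (nat_lit 327) (nat_lit 356) (nat_lit 337))))))))
noncomputable def ec43 : XT := (XT.nd (nat_lit 1404) (nat_lit 8892) (nat_lit 0) (XT.nd (nat_lit 702) (nat_lit 5624) (nat_lit 0) (XT.nd (nat_lit 312) (nat_lit 3268) (nat_lit 0) (XT.nd (nat_lit 156) (nat_lit 988) (nat_lit 0) (XT.nd (nat_lit 78) (nat_lit 836) (nat_lit 0) (XT.lf (nat_lit 988) (nat_lit 1054911351) (nat_lit 0) (nat_lit 1569422744) (nat_lit 912) (nat_lit 2291577200) (nat_lit 458) (nat_lit 1) (nat_lit 445) (nat_lit 1) (nat_lit 457) (nat_lit 1) (nat_lit 328) (nat_lit 356) (nat_lit 336)) (XT.lf (nat_lit 912) (nat_lit 330848714) (nat_lit 0) (nat_lit 672888486) (nat_lit 836) (nat_lit 3847166465) (nat_lit 446) (nat_lit 1) (nat_lit 434) (nat_lit 1) (nat_lit 445) (nat_lit 1) (nat_lit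 329) (nat_lit 356) (nat_lit 335))) (XT.nd (nat_lit 78) (nat_lit 912) (nat_lit 0) (XT.lf (nat_lit 76) (nat_lit 4197825252) (nat_lit 0) (nat_lit 403205998) (nat_lit 912) (nat_lit 185990654) (nat_lit 434) (nat_lit 1) (nat_lit 433) (nat_lit 1) (nat_lit 445) (nat_lit 1) (nat_lit 330) (nat_lit 356) (nat_lit 334)) (XT.lf (nat_lit 76) (nat_lit 2566644954) (nat_lit 0) (nat_lit 1152814566) (nat_lit 988) (nat_lit 1004676609) (nat_lit 422) (nat_lit 1) (nat_lit 421) (nat_lit 1) (nat_lit 434) (nat_lit 1) (nat_lit 331) (nat_lit 356) (nat_lit 333)))) (XT.nd (nat_lit 156) (nat_lit 1596) (nat_lit 0) (XT.nd (nat_lit 78) (nat_lit 836) (nat_lit 0) (XT.lf (nat_lit 76) (nat_lit 967524058) (nat_lit 0) (nat_lit 1910593854) (nat_lit 912) (nat_lit 1784363987) (nat_lit 411) (nat_lit 1) (nat_lit 410) (nat_lit 1) (nat_lit 422) (nat_lit 1) (nat_lit 332) (nat_lit 356) (nat_lit 332)) (XT.lf (nat_lit 912) (nat_lit 1922140113) (nat_lit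 0) (nat_lit 2071818905) (nat_lit 836) (nat_lit 607994183) (nat_lit 411) (nat_lit 1) (nat_lit 399) (nat_lit 1) (nat_lit 410) (nat_lit 1) (nat_lit 333) (nat_lit 356) (nat_lit 331))) (XT.nd (nat_lit 78) (nat_lit 836) (nat_lit 0) (XT.lf (nat_lit 836) (nat_lit 1080445207) (nat_lit 0) (nat_lit 1297174695) (nat_lit 760) (nat_lit 2164859445) (nat_lit 400) (nat_lit 1) (nat_lit 389) (nat_lit 1) (nat_lit 399) (nat_lit 1) (nat_lit 334) (nat_lit 356) (nat_lit 330)) (XT.nd (nat_lit 78) (nat_lit 76) (nat_lit 0) (XT.lf (nat_lit 836) (nat_lit 233892228) (nat_lit 0) (nat_lit 559574283) (nat_lit 760) (nat_lit 3690695282) (nat_lit 390) (nat_lit 1) (nat_lit 379) (nat_lit 1) (nat_lit 389) (nat_lit 1) (nat_lit 335) (nat_lit 356) (nat_lit 329)) (XT.lf (nat_lit 76) (nat_lit 3662745892) (nat_lit 0) (nat_lit 614804505) (nat_lit 836) (nat_lit 149225808) (nat_lit 379) (nat_lit 1) (nat_lit 378) (nat_lit 1) (nat_lit 389) (nat_lit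 1) (nat_lit 336) (nat_lit 356) (nat_lit 328)))))) (XT.nd (nat_lit 312) (nat_lit 2736) (nat_lit 0) (XT.nd (nat_lit 156) (nat_lit 1368) (nat_lit 0) (XT.nd (nat_lit 78) (nat_lit 760) (nat_lit 0) (XT.lf (nat_lit 76) (nat_lit 2074906889) (nat_lit 0) (nat_lit 1472577450) (nat_lit 836) (nat_lit 822812742) (nat_lit 369) (nat_lit 1) (nat_lit 368) (nat_lit 1) (nat_lit 379) (nat_lit 1) (nat_lit 337) (nat_lit 356) (nat_lit 327)) (XT.lf (nat_lit 76) (nat_lit 519053597) (nat_lit 0) (nat_lit 2333097792) (nat_lit 836) (nat_lit 1462756969) (nat_lit 359) (nat_lit 1) (nat_lit 358) (nat_lit 1) (nat_lit 369) (nat_lit 1) (nat_lit 338) (nat_lit 356) (nat_lit 326))) (XT.nd (nat_lit 78) (nat_lit 684) (nat_lit 0) (XT.lf (nat_lit 760) (nat_lit 1057961500) (nat_lit 0) (nat_lit 2183803247) (nat_lit 684) (nat_lit 1018689387) (nat_lit 359) (nat_lit 1) (nat_lit 349) (nat_lit 1) (nat_lit 358) (nat_lit 1) (nat_lit 339) (nat_lit 356)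 (nat_lit 325)) (XT.lf (nat_lit 760) (nat_lit 130086366) (nat_lit 0) (nat_lit 1544935170) (nat_lit 684) (nat_lit 2531957866) (nat_lit 350) (nat_lit 1) (nat_lit 340) (nat_lit 1) (nat_lit 349) (nat_lit 1) (nat_lit 340) (nat_lit 356) (nat_lit 324)))) (XT.nd (nat_lit 156) (nat_lit 1292) (nat_lit 0) (XT.nd (nat_lit 78) (nat_lit 684) (nat_lit 0) (XT.lf (nat_lit 76) (nat_lit 145345793) (nat_lit 0) (nat_lit 787446901) (nat_lit 760) (nat_lit 3221633560) (nat_lit 331) (nat_lit 1) (nat_lit 330) (nat_lit 1) (nat_lit 340) (nat_lit 1) (nat_lit 341) (nat_lit 356) (nat_lit 323)) (XT.lf (nat_lit 760) (nat_lit 2390786509) (nat_lit 0) (nat_lit 341798482) (nat_lit 684) (nat_lit 1370096478) (nat_lit 331) (nat_lit 1) (nat_lit 321) (nat_lit 1) (nat_lit 330) (nat_lit 1) (nat_lit 342) (nat_lit 356) (nat_lit 322))) (XT.nd (nat_lit 78) (nat_lit 1292) (nat_lit 0) (XT.lf (nat_lit 76) (nat_lit 1197104189) (nat_lit 0) (nat_lit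 2637870664) (nat_lit 760) (nat_lit 216899897) (nat_lit 322) (nat_lit 1) (nat_lit 321) (nat_lit 1) (nat_lit 331) (nat_lit 1) (nat_lit 343) (nat_lit 356) (nat_lit 321)) (XT.nd (nat_lit 78) (nat_lit 684) (nat_lit 0) (XT.lf (nat_lit 684) (nat_lit 435286581) (nat_lit 0) (nat_lit 3257952538) (nat_lit 608) (nat_lit 308712931) (nat_lit 322) (nat_lit 1) (nat_lit 313) (nat_lit 1) (nat_lit 321) (nat_lit 1) (nat_lit 344) (nat_lit 356) (nat_lit 320)) (XT.lf (nat_lit 76) (nat_lit 2157318636) (nat_lit 0) (nat_lit 541374428) (nat_lit 684) (nat_lit 1254059419) (nat_lit 305) (nat_lit 1) (nat_lit 304) (nat_lit 1) (nat_lit 313) (nat_lit 1) (nat_lit 345) (nat_lit 356) (nat_lit 319))))))) (XT.nd (nat_lit 702) (nat_lit 4256) (nat_lit 0) (XT.nd (nat_lit 312) (nat_lit 2204) (nat_lit 0) (XT.nd (nat_lit 156) (nat_lit 1216) (nat_lit 0) (XT.nd (nat_lit 78) (nat_lit 608) (nat_lit 0) (XT.lf (nat_lit 76) (nat_lit 655974545) (nat_lit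 0) (nat_lit 1509177854) (nat_lit 684) (nat_lit 1739276008) (nat_lit 297) (nat_lit 1) (nat_lit 296) (nat_lit 1) (nat_lit 305) (nat_lit 1) (nat_lit 346) (nat_lit 356) (nat_lit 318)) (XT.lf (nat_lit 684) (nat_lit 1377997482) (nat_lit 0) (nat_lit 1653925136) (nat_lit 608) (nat_lit 824986827) (nat_lit 297) (nat_lit 1) (nat_lit 288) (nat_lit 1) (nat_lit 296) (nat_lit 1) (nat_lit 347) (nat_lit 356) (nat_lit 317))) (XT.nd (nat_lit 78) (nat_lit 684) (nat_lit 0) (XT.lf (nat_lit 608) (nat_lit 361129704) (nat_lit 0) (nat_lit 1165475419) (nat_lit 532) (nat_lit 2283596008) (nat_lit 289) (nat_lit 1) (nat_lit 281) (nat_lit 1) (nat_lit 288) (nat_lit 1) (nat_lit 348) (nat_lit 356) (nat_lit 316)) (XT.lf (nat_lit 76) (nat_lit 56920255) (nat_lit 0) (nat_lit 642189643) (nat_lit 684) (nat_lit 3065176436) (nat_lit 273) (nat_lit 1) (nat_lit 272) (nat_lit 1) (nat_lit 281) (nat_lit 1) (nat_lit 349) (nat_lit 356) (nat_lit 315))))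 (XT.nd (nat_lit 156) (nat_lit 1672) (nat_lit 0) (XT.nd (nat_lit 78) (nat_lit 0) (nat_lit 0) (XT.lf (nat_lit 608) (nat_lit 2074314044) (nat_lit 0) (nat_lit 246757768) (nat_lit 532) (nat_lit 1397931490) (nat_lit 273) (nat_lit 1) (nat_lit 265) (nat_lit 1) (nat_lit 272) (nat_lit 1) (nat_lit 350) (nat_lit 356) (nat_lit 314)) (XT.lf (nat_lit 76) (nat_lit 852873622) (nat_lit 0) (nat_lit 2643179153) (nat_lit 608) (nat_lit 178482633) (nat_lit 266) (nat_lit 1) (nat_lit 265) (nat_lit 1) (nat_lit 273) (nat_lit 1) (nat_lit 351) (nat_lit 356) (nat_lit 313))) (XT.nd (nat_lit 78) (nat_lit 1064) (nat_lit 0) (XT.lf (nat_lit 76) (nat_lit 3040194945) (nat_lit 0) (nat_lit 10277975) (nat_lit 608) (nat_lit 580316062) (nat_lit 258) (nat_lit 1) (nat_lit 257) (nat_lit 1) (nat_lit 265) (nat_lit 1) (nat_lit 352) (nat_lit 356) (nat_lit 312)) (XT.nd (nat_lit 78) (nat_lit 532) (nat_lit 0) (XT.lf (nat_lit 76) (nat_lit 1579699149)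 (nat_lit 0) (nat_lit 1037039661) (nat_lit 608) (nat_lit 970875914) (nat_lit 251) (nat_lit 1) (nat_lit 250) (nat_lit 1) (nat_lit 258) (nat_lit 1) (nat_lit 353) (nat_lit 356) (nat_lit 311)) (XT.lf (nat_lit 76) (nat_lit 150068606) (nat_lit 0) (nat_lit 2056671176) (nat_lit 608) (nat_lit 1338502676) (nat_lit 244) (nat_lit 1) (nat_lit 243) (nat_lit 1) (nat_lit 251) (nat_lit 1) (nat_lit 354) (nat_lit 356) (nat_lit 310)))))) (XT.nd (nat_lit 390) (nat_lit 1748) (nat_lit 0) (XT.nd (nat_lit 156) (nat_lit 1444) (nat_lit 0) (XT.nd (nat_lit 78) (nat_lit 608) (nat_lit 0) (XT.lf (nat_lit 532) (nat_lit 426226198) (nat_lit 0) (nat_lit 1811408760) (nat_lit 456) (nat_lit 1265856173) (nat_lit 244) (nat_lit 1) (nat_lit 237) (nat_lit 1) (nat_lit 243) (nat_lit 1) (nat_lit 355) (nat_lit 356) (nat_lit 309)) (XT.lf (nat_lit 76) (nat_lit 812954246) (nat_lit 0) (nat_lit 620536844) (nat_lit 608) (nat_lit 2028920247) (nat_lit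 230) (nat_lit 1) (nat_lit 229) (nat_lit 1) (nat_lit 237) (nat_lit 1) (nat_lit 356) (nat_lit 356) (nat_lit 308))) (XT.nd (nat_lit 78) (nat_lit 988) (nat_lit 0) (XT.lf (nat_lit 532) (nat_lit 1764762091) (nat_lit 0) (nat_lit 1070855221) (nat_lit 456) (nat_lit 586340764) (nat_lit 230) (nat_lit 1) (nat_lit 223) (nat_lit 1) (nat_lit 229) (nat_lit 1) (nat_lit 357) (nat_lit 356) (nat_lit 307)) (XT.nd (nat_lit 78) (nat_lit 532) (nat_lit 0) (XT.lf (nat_lit 532) (nat_lit 691536977) (nat_lit 0) (nat_lit 724315682) (nat_lit 456) (nat_lit 1966291486) (nat_lit 224) (nat_lit 1) (nat_lit 217) (nat_lit 1) (nat_lit 223) (nat_lit 1) (nat_lit 358) (nat_lit 356) (nat_lit 306)) (XT.lf (nat_lit 76) (nat_lit 28829885) (nat_lit 0) (nat_lit 367409534) (nat_lit 532) (nat_lit 2946773393) (nat_lit 211) (nat_lit 1) (nat_lit 210) (nat_lit 1) (nat_lit 217) (nat_lit 1) (nat_lit 359) (nat_lit 356) (nat_lit 305))))) (XT.nd (nat_lit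 156) (nat_lit 1292) (nat_lit 0) (XT.nd (nat_lit 78) (nat_lit 0) (nat_lit 0) (XT.lf (nat_lit 532) (nat_lit 1887656183) (nat_lit 0) (nat_lit 75083069) (nat_lit 456) (nat_lit 1341595373) (nat_lit 211) (nat_lit 1) (nat_lit 204) (nat_lit 1) (nat_lit 210) (nat_lit 1) (nat_lit 360) (nat_lit 356) (nat_lit 304)) (XT.lf (nat_lit 76) (nat_lit 584962774) (nat_lit 0) (nat_lit 2458056566) (nat_lit 532) (nat_lit 223310237) (nat_lit 205) (nat_lit 1) (nat_lit 204) (nat_lit 1) (nat_lit 211) (nat_lit 1) (nat_lit 361) (nat_lit 356) (nat_lit 303))) (XT.nd (nat_lit 78) (nat_lit 836) (nat_lit 0) (XT.lf (nat_lit 76) (nat_lit 2457729113) (nat_lit 0) (nat_lit 262833505) (nat_lit 456) (nat_lit 508311632) (nat_lit 199) (nat_lit 1) (nat_lit 198) (nat_lit 1) (nat_lit 204) (nat_lit 1) (nat_lit 362) (nat_lit 356) (nat_lit 302)) (XT.nd (nat_lit 78) (nat_lit 380) (nat_lit 0) (XT.lf (nat_lit 76) (nat_lit 1091591545) (nat_lit 0) (nat_lit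 1316752307) (nat_lit 532) (nat_lit 783578074) (nat_lit 193) (nat_lit 1) (nat_lit 192) (nat_lit 1) (nat_lit 199) (nat_lit 1) (nat_lit 363) (nat_lit 356) (nat_lit 301)) (XT.lf (nat_lit 456) (nat_lit 793783209) (nat_lit 0) (nat_lit 2113461670) (nat_lit 380) (nat_lit 248363981) (nat_lit 193) (nat_lit 1) (nat_lit 187) (nat_lit 1) (nat_lit 192) (nat_lit 1) (nat_lit 364) (nat_lit 356) (nat_lit 300))))))))
noncomputable def ec44 : XT := (XT.nd (nat_lit 1404) (nat_lit 228) (nat_lit 0) (XT.nd (nat_lit 702) (nat_lit 2888) (nat_lit 0) (XT.nd (nat_lit 312) (nat_lit 1444) (nat_lit 0) (XT.nd (nat_lit 156) (nat_lit 760) (nat_lit 0) (XT.nd (nat_lit 78) (nat_lit 380) (nat_lit 0) (XT.lf (nat_lit 76) (nat_lit 1548097980) (nat_lit 0) (nat_lit 279906665) (nat_lit 456) (nat_lit 1291772374) (nat_lit 182) (nat_lit 1) (nat_lit 181) (nat_lit 1) (nat_lit 187) (nat_lit 1) (nat_lit 365) (nat_lit 356) (nat_lit 299)) (XT.lf (nat_lit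 76) (nat_lit 223396343) (nat_lit 0) (nat_lit 1332061335) (nat_lit 456) (nat_lit 1529034177) (nat_lit 177) (nat_lit 1) (nat_lit 176) (nat_lit 1) (nat_lit 182) (nat_lit 1) (nat_lit 366) (nat_lit 356) (nat_lit 298))) (XT.nd (nat_lit 78) (nat_lit 380) (nat_lit 0) (XT.lf (nat_lit 456) (nat_lit 669521375) (nat_lit 0) (nat_lit 1293357070) (nat_lit 380) (nat_lit 1086823768) (nat_lit 177) (nat_lit 1) (nat_lit 171) (nat_lit 1) (nat_lit 176) (nat_lit 1) (nat_lit 367) (nat_lit 356) (nat_lit 297)) (XT.lf (nat_lit 76) (nat_lit 646678047) (nat_lit 0) (nat_lit 397733508) (nat_lit 380) (nat_lit 1971046828) (nat_lit 167) (nat_lit 1) (nat_lit 166) (nat_lit 1) (nat_lit 171) (nat_lit 1) (nat_lit 368) (nat_lit 356) (nat_lit 296)))) (XT.nd (nat_lit 156) (nat_lit 760) (nat_lit 0) (XT.nd (nat_lit 78) (nat_lit 304) (nat_lit 0) (XT.lf (nat_lit 456) (nat_lit 1532920751) (nat_lit 0) (nat_lit 803660952) (nat_lit 380) (nat_lit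 645078606) (nat_lit 167) (nat_lit 1) (nat_lit 161) (nat_lit 1) (nat_lit 166) (nat_lit 1) (nat_lit 369) (nat_lit 356) (nat_lit 295)) (XT.lf (nat_lit 380) (nat_lit 456166506) (nat_lit 0) (nat_lit 575171313) (nat_lit 304) (nat_lit 1917047134) (nat_lit 162) (nat_lit 1) (nat_lit 157) (nat_lit 1) (nat_lit 161) (nat_lit 1) (nat_lit 370) (nat_lit 356) (nat_lit 294))) (XT.nd (nat_lit 78) (nat_lit 304) (nat_lit 0) (XT.lf (nat_lit 456) (nat_lit 2313707439) (nat_lit 0) (nat_lit 357153485) (nat_lit 380) (nat_lit 244733566) (nat_lit 157) (nat_lit 1) (nat_lit 151) (nat_lit 1) (nat_lit 156) (nat_lit 1) (nat_lit 371) (nat_lit 356) (nat_lit 293)) (XT.nd (nat_lit 78) (nat_lit 0) (nat_lit 0) (XT.lf (nat_lit 380) (nat_lit 1234729702) (nat_lit 0) (nat_lit 145134647) (nat_lit 304) (nat_lit 1503334157) (nat_lit 152) (nat_lit 1) (nat_lit 147) (nat_lit 1) (nat_lit 151) (nat_lit 1) (nat_lit 372) (nat_lit 356) (nat_lit 292))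 (XT.lf (nat_lit 76) (nat_lit 117410161) (nat_lit 0) (nat_lit 2683214174) (nat_lit 380) (nat_lit 50748828) (nat_lit 148) (nat_lit 1) (nat_lit 147) (nat_lit 1) (nat_lit 152) (nat_lit 1) (nat_lit 373) (nat_lit 356) (nat_lit 291)))))) (XT.nd (nat_lit 312) (nat_lit 1520) (nat_lit 0) (XT.nd (nat_lit 156) (nat_lit 684) (nat_lit 0) (XT.nd (nat_lit 78) (nat_lit 304) (nat_lit 0) (XT.lf (nat_lit 76) (nat_lit 1694379844) (nat_lit 0) (nat_lit 882389851) (nat_lit 380) (nat_lit 243064073) (nat_lit 143) (nat_lit 1) (nat_lit 142) (nat_lit 1) (nat_lit 147) (nat_lit 1) (nat_lit 374) (nat_lit 356) (nat_lit 290)) (XT.lf (nat_lit 76) (nat_lit 447364338) (nat_lit 0) (nat_lit 1918850997) (nat_lit 380) (nat_lit 422603423) (nat_lit 139) (nat_lit 1) (nat_lit 138) (nat_lit 1) (nat_lit 143) (nat_lit 1) (nat_lit 375) (nat_lit 356) (nat_lit 289))) (XT.nd (nat_lit 78) (nat_lit 304) (nat_lit 0) (XT.lf (nat_lit 76) (nat_lit 1976893718)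 (nat_lit 0) (nat_lit 187100110) (nat_lit 380) (nat_lit 594234343) (nat_lit 134) (nat_lit 1) (nat_lit 133) (nat_lit 1) (nat_lit 138) (nat_lit 1) (nat_lit 376) (nat_lit 356) (nat_lit 288)) (XT.lf (nat_lit 76) (nat_lit 744874806) (nat_lit 0) (nat_lit 1222727245) (nat_lit 380) (nat_lit 760408340) (nat_lit 130) (nat_lit 1) (nat_lit 129) (nat_lit 1) (nat_lit 134) (nat_lit 1) (nat_lit 377) (nat_lit 356) (nat_lit 287)))) (XT.nd (nat_lit 156) (nat_lit 912) (nat_lit 0) (XT.nd (nat_lit 78) (nat_lit 304) (nat_lit 0) (XT.lf (nat_lit 380) (nat_lit 449758025) (nat_lit 0) (nat_lit 1782317160) (nat_lit 304) (nat_lit 466191199) (nat_lit 130) (nat_lit 1) (nat_lit 125) (nat_lit 1) (nat_lit 129) (nat_lit 1) (nat_lit 378) (nat_lit 356) (nat_lit 286)) (XT.lf (nat_lit 76) (nat_lit 1012563482) (nat_lit 0) (nat_lit 589478488) (nat_lit 304) (nat_lit 1066832140) (nat_lit 122) (nat_lit 1) (nat_lit 121) (nat_lit 1) (nat_lit 125)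 (nat_lit 1) (nat_lit 379) (nat_lit 356) (nat_lit 285))) (XT.nd (nat_lit 78) (nat_lit 608) (nat_lit 0) (XT.lf (nat_lit 380) (nat_lit 1029079192) (nat_lit 0) (nat_lit 1431249256) (nat_lit 304) (nat_lit 179590363) (nat_lit 122) (nat_lit 1) (nat_lit 117) (nat_lit 1) (nat_lit 121) (nat_lit 1) (nat_lit 380) (nat_lit 356) (nat_lit 284)) (XT.nd (nat_lit 78) (nat_lit 304) (nat_lit 0) (XT.lf (nat_lit 76) (nat_lit 1252849896) (nat_lit 0) (nat_lit 14150744) (nat_lit 304) (nat_lit 1344339793) (nat_lit 114) (nat_lit 1) (nat_lit 113) (nat_lit 1) (nat_lit 117) (nat_lit 1) (nat_lit 381) (nat_lit 356) (nat_lit 283)) (XT.lf (nat_lit 76) (nat_lit 78557720) (nat_lit 0) (nat_lit 1030516336) (nat_lit 380) (nat_lit 1474058153) (nat_lit 110) (nat_lit 1) (nat_lit 109) (nat_lit 1) (nat_lit 114) (nat_lit 1) (nat_lit 382) (nat_lit 356) (nat_lit 282))))))) (XT.nd (nat_lit 47736) (nat_lit 0) (nat_lit 28576) (XT.nd (nat_lit 47346)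 (nat_lit 0) (nat_lit 29868) (XT.nd (nat_lit 47190) (nat_lit 0) (nat_lit 29792) (XT.nd (nat_lit 47112) (nat_lit 0) (nat_lit 29716) (XT.lf (nat_lit 304) (nat_lit 514579525) (nat_lit 0) (nat_lit 956728087) (nat_lit 228) (nat_lit 1083969600) (nat_lit 110) (nat_lit 1) (nat_lit 106) (nat_lit 1) (nat_lit 109) (nat_lit 1) (nat_lit 383) (nat_lit 356) (nat_lit 281)) (XT.lf (nat_lit 1900) (nat_lit 1114854459) (nat_lit 0) (nat_lit 1124177235) (nat_lit 1900) (nat_lit 1114854459) (nat_lit 522) (nat_lit 1) (nat_lit 497) (nat_lit 0) (nat_lit 522) (nat_lit 0) (nat_lit 306) (nat_lit 357) (nat_lit 357))) (XT.nd (nat_lit 78) (nat_lit 0) (nat_lit 0) (XT.lf (nat_lit 1900) (nat_lit 515323961) (nat_lit 0) (nat_lit 2236893407) (nat_lit 1824) (nat_lit 3857443296) (nat_lit 523) (nat_lit 1) (nat_lit 498) (nat_lit 1) (nat_lit 522) (nat_lit 1) (nat_lit 307) (nat_lit 357) (nat_lit 356)) (XT.lf (nat_lit 1900) (nat_lit 4238009022)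 (nat_lit 76) (nat_lit 1089654777) (nat_lit 0) (nat_lit 1185750068) (nat_lit 523) (nat_lit 1) (nat_lit 499) (nat_lit 1) (nat_lit 498) (nat_lit 1) (nat_lit 308) (nat_lit 357) (nat_lit 355)))) (XT.nd (nat_lit 156) (nat_lit 0) (nat_lit 152) (XT.nd (nat_lit 78) (nat_lit 0) (nat_lit 76) (XT.lf (nat_lit 1900) (nat_lit 3557719335) (nat_lit 0) (nat_lit 2360839394) (nat_lit 1824) (nat_lit 500450750) (nat_lit 524) (nat_lit 1) (nat_lit 499) (nat_lit 1) (nat_lit 523) (nat_lit 1) (nat_lit 309) (nat_lit 357) (nat_lit 354)) (XT.lf (nat_lit 1900) (nat_lit 1825137966) (nat_lit 0) (nat_lit 2491372657) (nat_lit 1824) (nat_lit 2009892368) (nat_lit 525) (nat_lit 1) (nat_lit 500) (nat_lit 1) (nat_lit 524) (nat_lit 1) (nat_lit 310) (nat_lit 357) (nat_lit 353))) (XT.nd (nat_lit 78) (nat_lit 0) (nat_lit 0) (XT.lf (nat_lit 1900) (nat_lit 122576220) (nat_lit 0) (nat_lit 2658224563) (nat_lit 1824) (nat_lit 3454890585) (nat_lit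 526) (nat_lit 1) (nat_lit 501) (nat_lit 1) (nat_lit 525) (nat_lit 1) (nat_lit 311) (nat_lit 357) (nat_lit 352)) (XT.nd (nat_lit 78) (nat_lit 0) (nat_lit 76) (XT.lf (nat_lit 1900) (nat_lit 3276679004) (nat_lit 76) (nat_lit 1299105553) (nat_lit 0) (nat_lit 1570842645) (nat_lit 526) (nat_lit 1) (nat_lit 502) (nat_lit 1) (nat_lit 501) (nat_lit 1) (nat_lit 312) (nat_lit 357) (nat_lit 351)) (XT.lf (nat_lit 1900) (nat_lit 2824108610) (nat_lit 0) (nat_lit 3116152306) (nat_lit 1824) (nat_lit 119083278) (nat_lit 527) (nat_lit 1) (nat_lit 502) (nat_lit 1) (nat_lit 526) (nat_lit 1) (nat_lit 313) (nat_lit 357) (nat_lit 350)))))) (XT.nd (nat_lit 390) (nat_lit 1596) (nat_lit 0) (XT.nd (nat_lit 156) (nat_lit 0) (nat_lit 76) (XT.nd (nat_lit 78) (nat_lit 0) (nat_lit 0) (XT.lf (nat_lit 1900) (nat_lit 1111809579) (nat_lit 0) (nat_lit 3401755349) (nat_lit 1824) (nat_lit 1460107081) (nat_lit 528) (nat_lit 1) (nat_lit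 503) (nat_lit 1) (nat_lit 527) (nat_lit 1) (nat_lit 314) (nat_lit 357) (nat_lit 349)) (XT.lf (nat_lit 1900) (nat_lit 2169057293) (nat_lit 76) (nat_lit 3143162792) (nat_lit 0) (nat_lit 577443715) (nat_lit 528) (nat_lit 1) (nat_lit 504) (nat_lit 1) (nat_lit 503) (nat_lit 1) (nat_lit 315) (nat_lit 357) (nat_lit 348))) (XT.nd (nat_lit 78) (nat_lit 0) (nat_lit 76) (XT.lf (nat_lit 1900) (nat_lit 1732554222) (nat_lit 76) (nat_lit 1823880656) (nat_lit 0) (nat_lit 2250777798) (nat_lit 529) (nat_lit 1) (nat_lit 505) (nat_lit 1) (nat_lit 504) (nat_lit 1) (nat_lit 316) (nat_lit 357) (nat_lit 347)) (XT.nd (nat_lit 78) (nat_lit 0) (nat_lit 76) (XT.lf (nat_lit 1900) (nat_lit 1271190674) (nat_lit 76) (nat_lit 561483552) (nat_lit 0) (nat_lit 3893752067) (nat_lit 530) (nat_lit 1) (nat_lit 506) (nat_lit 1) (nat_lit 505) (nat_lit 1) (nat_lit 317) (nat_lit 357) (nat_lit 346)) (XT.lf (nat_lit 1900) (nat_lit 144754812)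 (nat_lit 0) (nat_lit 4865217758) (nat_lit 1824) (nat_lit 637210548) (nat_lit 531) (nat_lit 1) (nat_lit 506) (nat_lit 1) (nat_lit 530) (nat_lit 1) (nat_lit 318) (nat_lit 357) (nat_lit 345))))) (XT.nd (nat_lit 156) (nat_lit 0) (nat_lit 76) (XT.nd (nat_lit 78) (nat_lit 1824) (nat_lit 0) (XT.lf (nat_lit 1900) (nat_lit 256896165) (nat_lit 76) (nat_lit 3783725708) (nat_lit 0) (nat_lit 1528643904) (nat_lit 531) (nat_lit 1) (nat_lit 507) (nat_lit 1) (nat_lit 506) (nat_lit 1) (nat_lit 319) (nat_lit 357) (nat_lit 344)) (XT.lf (nat_lit 1976) (nat_lit 2321770729) (nat_lit 0) (nat_lit 285967346) (nat_lit 1900) (nat_lit 2885118877) (nat_lit 508) (nat_lit 1) (nat_lit 482) (nat_lit 1) (nat_lit 507) (nat_lit 1) (nat_lit 320) (nat_lit 357) (nat_lit 343))) (XT.nd (nat_lit 78) (nat_lit 0) (nat_lit 0) (XT.lf (nat_lit 1976) (nat_lit 636830288) (nat_lit 0) (nat_lit 844700946) (nat_lit 1900) (nat_lit 3936410951) (nat_lit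 509) (nat_lit 1) (nat_lit 483) (nat_lit 1) (nat_lit 508) (nat_lit 1) (nat_lit 321) (nat_lit 357) (nat_lit 342)) (XT.nd (nat_lit 78) (nat_lit 0) (nat_lit 76) (XT.lf (nat_lit 1976) (nat_lit 3916099450) (nat_lit 76) (nat_lit 398496680) (nat_lit 0) (nat_lit 1029790738) (nat_lit 509) (nat_lit 1) (nat_lit 484) (nat_lit 1) (nat_lit 483) (nat_lit 1) (nat_lit 322) (nat_lit 357) (nat_lit 341)) (XT.lf (nat_lit 76) (nat_lit 2603317923) (nat_lit 0) (nat_lit 2037146465) (nat_lit 1900) (nat_lit 631664146) (nat_lit 485) (nat_lit 1) (nat_lit 484) (nat_lit 1) (nat_lit 509) (nat_lit 1) (nat_lit 323) (nat_lit 357) (nat_lit 340))))))))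
noncomputable def ec45 : XT := (XT.nd (nat_lit 1404) (nat_lit 9348) (nat_lit 0) (XT.nd (nat_lit 702) (nat_lit 5168) (nat_lit 0) (XT.nd (nat_lit 312) (nat_lit 3420) (nat_lit 0) (XT.nd (nat_lit 156) (nat_lit 1748) (nat_lit 0) (XT.nd (nat_lit 78) (nat_lit 912) (nat_lit 0) (XT.lf (nat_lit 76) (nat_lit 927154136) (nat_lit 0) (nat_lit 2664220779) (nat_lit 1216) (nat_lit 1609880917) (nat_lit 470) (nat_lit 1) (nat_lit 469) (nat_lit 1) (nat_lit 485) (nat_lit 1) (nat_lit 324) (nat_lit 357) (nat_lit 339)) (XT.lf (nat_lit 988) (nat_lit 1821000373) (nat_lit 0) (nat_lit 2584239177) (nat_lit 912) (nat_lit 726454574) (nat_lit 470) (nat_lit 1) (nat_lit 457) (nat_lit 1) (nat_lit 469) (nat_lit 1) (nat_lit 325) (nat_lit 357) (nat_lit 338))) (XT.nd (nat_lit 78) (nat_lit 836) (nat_lit 0) (XT.lf (nat_lit 988) (nat_lit 1086558691) (nat_lit 0) (nat_lit 1616505427) (nat_lit 912) (nat_lit 2360324516) (nat_lit 458) (nat_lit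 1) (nat_lit 445) (nat_lit 1) (nat_lit 457) (nat_lit 1) (nat_lit 326) (nat_lit 357) (nat_lit 337)) (XT.lf (nat_lit 912) (nat_lit 340774176) (nat_lit 0) (nat_lit 693075140) (nat_lit 836) (nat_lit 3962581459) (nat_lit 446) (nat_lit 1) (nat_lit 434) (nat_lit 1) (nat_lit 445) (nat_lit 1) (nat_lit 327) (nat_lit 357) (nat_lit 336)))) (XT.nd (nat_lit 156) (nat_lit 2432) (nat_lit 0) (XT.nd (nat_lit 78) (nat_lit 912) (nat_lit 0) (XT.lf (nat_lit 76) (nat_lit 4323760010) (nat_lit 0) (nat_lit 415302178) (nat_lit 912) (nat_lit 191570373) (nat_lit 434) (nat_lit 1) (nat_lit 433) (nat_lit 1) (nat_lit 445) (nat_lit 1) (nat_lit 328) (nat_lit 357) (nat_lit 335)) (XT.lf (nat_lit 76) (nat_lit 2643644303) (nat_lit 0) (nat_lit 1187399003) (nat_lit 988) (nat_lit 1034816908) (nat_lit 422) (nat_lit 1) (nat_lit 421) (nat_lit 1) (nat_lit 434) (nat_lit 1) (nat_lit 329) (nat_lit 357) (nat_lit 334))) (XT.nd (nat_lit 78) (nat_lit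 1596) (nat_lit 0) (XT.lf (nat_lit 76) (nat_lit 996549780) (nat_lit 0) (nat_lit 1967911670) (nat_lit 912) (nat_lit 1837894907) (nat_lit 411) (nat_lit 1) (nat_lit 410) (nat_lit 1) (nat_lit 422) (nat_lit 1) (nat_lit 330) (nat_lit 357) (nat_lit 333)) (XT.nd (nat_lit 78) (nat_lit 760) (nat_lit 0) (XT.lf (nat_lit 912) (nat_lit 1979804316) (nat_lit 0) (nat_lit 2133973472) (nat_lit 836) (nat_lit 626234008) (nat_lit 411) (nat_lit 1) (nat_lit 399) (nat_lit 1) (nat_lit 410) (nat_lit 1) (nat_lit 331) (nat_lit 357) (nat_lit 332)) (XT.lf (nat_lit 836) (nat_lit 1112858563) (nat_lit 0) (nat_lit 1336089936) (nat_lit 760) (nat_lit 2229805229) (nat_lit 400) (nat_lit 1) (nat_lit 389) (nat_lit 1) (nat_lit 399) (nat_lit 1) (nat_lit 332) (nat_lit 357) (nat_lit 331)))))) (XT.nd (nat_lit 312) (nat_lit 2812) (nat_lit 0) (XT.nd (nat_lit 156) (nat_lit 1520) (nat_lit 0) (XT.nd (nat_lit 78) (nat_lit 76) (nat_lit 0) (XT.lf (nat_lit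 836) (nat_lit 240908995) (nat_lit 0) (nat_lit 576361511) (nat_lit 760) (nat_lit 3801416141) (nat_lit 390) (nat_lit 1) (nat_lit 379) (nat_lit 1) (nat_lit 389) (nat_lit 1) (nat_lit 333) (nat_lit 357) (nat_lit 330)) (XT.lf (nat_lit 76) (nat_lit 3772628269) (nat_lit 0) (nat_lit 633248640) (nat_lit 836) (nat_lit 153702582) (nat_lit 379) (nat_lit 1) (nat_lit 378) (nat_lit 1) (nat_lit 389) (nat_lit 1) (nat_lit 334) (nat_lit 357) (nat_lit 329))) (XT.nd (nat_lit 78) (nat_lit 760) (nat_lit 0) (XT.lf (nat_lit 76) (nat_lit 2137154096) (nat_lit 0) (nat_lit 1516754774) (nat_lit 836) (nat_lit 847497124) (nat_lit 369) (nat_lit 1) (nat_lit 368) (nat_lit 1) (nat_lit 379) (nat_lit 1) (nat_lit 335) (nat_lit 357) (nat_lit 328)) (XT.lf (nat_lit 76) (nat_lit 534625205) (nat_lit 0) (nat_lit 2403090726) (nat_lit 836) (nat_lit 1506639679) (nat_lit 359) (nat_lit 1) (nat_lit 358) (nat_lit 1) (nat_lit 369) (nat_lit 1) (nat_lit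 336) (nat_lit 357) (nat_lit 327)))) (XT.nd (nat_lit 156) (nat_lit 1444) (nat_lit 0) (XT.nd (nat_lit 78) (nat_lit 684) (nat_lit 0) (XT.lf (nat_lit 760) (nat_lit 1089700345) (nat_lit 0) (nat_lit 2249317345) (nat_lit 684) (nat_lit 1049250069) (nat_lit 359) (nat_lit 1) (nat_lit 349) (nat_lit 1) (nat_lit 358) (nat_lit 1) (nat_lit 337) (nat_lit 357) (nat_lit 326)) (XT.lf (nat_lit 760) (nat_lit 133988957) (nat_lit 0) (nat_lit 1591283225) (nat_lit 684) (nat_lit 2607916602) (nat_lit 350) (nat_lit 1) (nat_lit 340) (nat_lit 1) (nat_lit 349) (nat_lit 1) (nat_lit 338) (nat_lit 357) (nat_lit 325))) (XT.nd (nat_lit 78) (nat_lit 684) (nat_lit 0) (XT.lf (nat_lit 76) (nat_lit 149706167) (nat_lit 0) (nat_lit 811070308) (nat_lit 760) (nat_lit 3318282566) (nat_lit 331) (nat_lit 1) (nat_lit 330) (nat_lit 1) (nat_lit 340) (nat_lit 1) (nat_lit 339) (nat_lit 357) (nat_lit 324)) (XT.nd (nat_lit 78) (nat_lit 0) (nat_lit 0)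 (XT.lf (nat_lit 760) (nat_lit 2462510105) (nat_lit 0) (nat_lit 352052437) (nat_lit 684) (nat_lit 1411199373) (nat_lit 331) (nat_lit 1) (nat_lit 321) (nat_lit 1) (nat_lit 330) (nat_lit 1) (nat_lit 340) (nat_lit 357) (nat_lit 323)) (XT.lf (nat_lit 76) (nat_lit 1233017315) (nat_lit 0) (nat_lit 2717006784) (nat_lit 760) (nat_lit 223406893) (nat_lit 322) (nat_lit 1) (nat_lit 321) (nat_lit 1) (nat_lit 331) (nat_lit 1) (nat_lit 341) (nat_lit 357) (nat_lit 322))))))) (XT.nd (nat_lit 702) (nat_lit 4484) (nat_lit 0) (XT.nd (nat_lit 312) (nat_lit 2356) (nat_lit 0) (XT.nd (nat_lit 156) (nat_lit 1216) (nat_lit 0) (XT.nd (nat_lit 78) (nat_lit 684) (nat_lit 0) (XT.lf (nat_lit 684) (nat_lit 448345179) (nat_lit 0) (nat_lit 3355691115) (nat_lit 608) (nat_lit 317974319) (nat_lit 322) (nat_lit 1) (nat_lit 313) (nat_lit 1) (nat_lit 321) (nat_lit 1) (nat_lit 342) (nat_lit 357) (nat_lit 321)) (XT.lf (nat_lit 76) (nat_lit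 2222038195) (nat_lit 0) (nat_lit 557615661) (nat_lit 684) (nat_lit 1291681202) (nat_lit 305) (nat_lit 1) (nat_lit 304) (nat_lit 1) (nat_lit 313) (nat_lit 1) (nat_lit 343) (nat_lit 357) (nat_lit 320))) (XT.nd (nat_lit 78) (nat_lit 608) (nat_lit 0) (XT.lf (nat_lit 76) (nat_lit 675653782) (nat_lit 0) (nat_lit 1554453190) (nat_lit 684) (nat_lit 1791454288) (nat_lit 297) (nat_lit 1) (nat_lit 296) (nat_lit 1) (nat_lit 305) (nat_lit 1) (nat_lit 344) (nat_lit 357) (nat_lit 319)) (XT.lf (nat_lit 684) (nat_lit 1419337407) (nat_lit 0) (nat_lit 1703542890) (nat_lit 608) (nat_lit 849736432) (nat_lit 297) (nat_lit 1) (nat_lit 288) (nat_lit 1) (nat_lit 296) (nat_lit 1) (nat_lit 345) (nat_lit 357) (nat_lit 318)))) (XT.nd (nat_lit 156) (nat_lit 1140) (nat_lit 0) (XT.nd (nat_lit 78) (nat_lit 684) (nat_lit 0) (XT.lf (nat_lit 608) (nat_lit 371963595) (nat_lit 0) (nat_lit 1200439682) (nat_lit 532) (nat_lit 2352103889)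 (nat_lit 289) (nat_lit 1) (nat_lit 281) (nat_lit 1) (nat_lit 288) (nat_lit 1) (nat_lit 346) (nat_lit 357) (nat_lit 317)) (XT.lf (nat_lit 76) (nat_lit 58627863) (nat_lit 0) (nat_lit 661455332) (nat_lit 684) (nat_lit 3157131729) (nat_lit 273) (nat_lit 1) (nat_lit 272) (nat_lit 1) (nat_lit 281) (nat_lit 1) (nat_lit 347) (nat_lit 357) (nat_lit 316))) (XT.nd (nat_lit 78) (nat_lit 608) (nat_lit 0) (XT.lf (nat_lit 608) (nat_lit 2136543465) (nat_lit 0) (nat_lit 254160501) (nat_lit 532) (nat_lit 1439869435) (nat_lit 273) (nat_lit 1) (nat_lit 265) (nat_lit 1) (nat_lit 272) (nat_lit 1) (nat_lit 348) (nat_lit 357) (nat_lit 315)) (XT.nd (nat_lit 78) (nat_lit 608) (nat_lit 0) (XT.lf (nat_lit 76) (nat_lit 878459831) (nat_lit 0) (nat_lit 2722474528) (nat_lit 608) (nat_lit 183837112) (nat_lit 266) (nat_lit 1) (nat_lit 265) (nat_lit 1) (nat_lit 273) (nat_lit 1) (nat_lit 349) (nat_lit 357) (nat_lit 314)) (XT.lf (nat_lit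 76) (nat_lit 3131400794) (nat_lit 0) (nat_lit 10586314) (nat_lit 608) (nat_lit 597725544) (nat_lit 258) (nat_lit 1) (nat_lit 257) (nat_lit 1) (nat_lit 265) (nat_lit 1) (nat_lit 350) (nat_lit 357) (nat_lit 313)))))) (XT.nd (nat_lit 390) (nat_lit 1900) (nat_lit 0) (XT.nd (nat_lit 156) (nat_lit 1520) (nat_lit 0) (XT.nd (nat_lit 78) (nat_lit 532) (nat_lit 0) (XT.lf (nat_lit 76) (nat_lit 1627090124) (nat_lit 0) (nat_lit 1068150851) (nat_lit 608) (nat_lit 1000002191) (nat_lit 251) (nat_lit 1) (nat_lit 250) (nat_lit 1) (nat_lit 258) (nat_lit 1) (nat_lit 351) (nat_lit 357) (nat_lit 312)) (XT.lf (nat_lit 76) (nat_lit 154570664) (nat_lit 0) (nat_lit 2118371311) (nat_lit 608) (nat_lit 1378657756) (nat_lit 244) (nat_lit 1) (nat_lit 243) (nat_lit 1) (nat_lit 251) (nat_lit 1) (nat_lit 352) (nat_lit 357) (nat_lit 311))) (XT.nd (nat_lit 78) (nat_lit 1064) (nat_lit 0) (XT.lf (nat_lit 532) (nat_lit 439012984) (nat_lit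 0) (nat_lit 1865751023) (nat_lit 456) (nat_lit 1303831858) (nat_lit 244) (nat_lit 1) (nat_lit 237) (nat_lit 1) (nat_lit 243) (nat_lit 1) (nat_lit 353) (nat_lit 357) (nat_lit 310)) (XT.nd (nat_lit 78) (nat_lit 456) (nat_lit 0) (XT.lf (nat_lit 76) (nat_lit 837342873) (nat_lit 0) (nat_lit 639152950) (nat_lit 608) (nat_lit 2089787854) (nat_lit 230) (nat_lit 1) (nat_lit 229) (nat_lit 1) (nat_lit 237) (nat_lit 1) (nat_lit 354) (nat_lit 357) (nat_lit 309)) (XT.lf (nat_lit 532) (nat_lit 1817704953) (nat_lit 0) (nat_lit 1102980877) (nat_lit 456) (nat_lit 603930987) (nat_lit 230) (nat_lit 1) (nat_lit 223) (nat_lit 1) (nat_lit 229) (nat_lit 1) (nat_lit 355) (nat_lit 357) (nat_lit 308))))) (XT.nd (nat_lit 156) (nat_lit 912) (nat_lit 0) (XT.nd (nat_lit 78) (nat_lit 532) (nat_lit 0) (XT.lf (nat_lit 532) (nat_lit 712283086) (nat_lit 0) (nat_lit 746045152) (nat_lit 456) (nat_lit 2025280230) (nat_lit 224) (nat_lit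 1) (nat_lit 217) (nat_lit 1) (nat_lit 223) (nat_lit 1) (nat_lit 356) (nat_lit 357) (nat_lit 307)) (XT.lf (nat_lit 76) (nat_lit 29694781) (nat_lit 0) (nat_lit 378431820) (nat_lit 532) (nat_lit 3035176595) (nat_lit 211) (nat_lit 1) (nat_lit 210) (nat_lit 1) (nat_lit 217) (nat_lit 1) (nat_lit 357) (nat_lit 357) (nat_lit 306))) (XT.nd (nat_lit 78) (nat_lit 456) (nat_lit 0) (XT.lf (nat_lit 532) (nat_lit 1944285868) (nat_lit 0) (nat_lit 77335561) (nat_lit 456) (nat_lit 1381843234) (nat_lit 211) (nat_lit 1) (nat_lit 204) (nat_lit 1) (nat_lit 210) (nat_lit 1) (nat_lit 358) (nat_lit 357) (nat_lit 305)) (XT.nd (nat_lit 78) (nat_lit 456) (nat_lit 0) (XT.lf (nat_lit 76) (nat_lit 602511657) (nat_lit 0) (nat_lit 2531798263) (nat_lit 532) (nat_lit 230009544) (nat_lit 205) (nat_lit 1) (nat_lit 204) (nat_lit 1) (nat_lit 211) (nat_lit 1) (nat_lit 359) (nat_lit 357) (nat_lit 304)) (XT.lf (nat_lit 76) (nat_lit 2531460986)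 (nat_lit 0) (nat_lit 270718511) (nat_lit 456) (nat_lit 523560981) (nat_lit 199) (nat_lit 1) (nat_lit 198) (nat_lit 1) (nat_lit 204) (nat_lit 1) (nat_lit 360) (nat_lit 357) (nat_lit 303))))))))
noncomputable def ec46 : XT := (XT.nd (nat_lit 1404) (nat_lit 1444) (nat_lit 0) (XT.nd (nat_lit 702) (nat_lit 2584) (nat_lit 0) (XT.nd (nat_lit 312) (nat_lit 1900) (nat_lit 0) (XT.nd (nat_lit 156) (nat_lit 836) (nat_lit 0) (XT.nd (nat_lit 78) (nat_lit 380) (nat_lit 0) (XT.lf (nat_lit 76) (nat_lit 1124339292) (nat_lit 0) (nat_lit 1356254876) (nat_lit 532) (nat_lit 807085416) (nat_lit 193) (nat_lit 1) (nat_lit 192) (nat_lit 1) (nat_lit 199) (nat_lit 1) (nat_lit 361) (nat_lit 357) (nat_lit 302)) (XT.lf (nat_lit 456) (nat_lit 817596705) (nat_lit 0) (nat_lit 2176865520) (nat_lit 380) (nat_lit 255814900) (nat_lit 193) (nat_lit 1) (nat_lit 187) (nat_lit 1) (nat_lit 192) (nat_lit 1) (nat_lit 362) (nat_lit 357) (nat_lit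 301))) (XT.nd (nat_lit 78) (nat_lit 380) (nat_lit 0) (XT.lf (nat_lit 76) (nat_lit 1594540919) (nat_lit 0) (nat_lit 288303865) (nat_lit 456) (nat_lit 1330525545) (nat_lit 182) (nat_lit 1) (nat_lit 181) (nat_lit 1) (nat_lit 187) (nat_lit 1) (nat_lit 363) (nat_lit 357) (nat_lit 300)) (XT.lf (nat_lit 76) (nat_lit 230098233) (nat_lit 0) (nat_lit 1372023175) (nat_lit 456) (nat_lit 1574905203) (nat_lit 177) (nat_lit 1) (nat_lit 176) (nat_lit 1) (nat_lit 182) (nat_lit 1) (nat_lit 364) (nat_lit 357) (nat_lit 299)))) (XT.nd (nat_lit 156) (nat_lit 1140) (nat_lit 0) (XT.nd (nat_lit 78) (nat_lit 380) (nat_lit 0) (XT.lf (nat_lit 456) (nat_lit 689607016) (nat_lit 0) (nat_lit 1332157782) (nat_lit 380) (nat_lit 1119428482) (nat_lit 177) (nat_lit 1) (nat_lit 171) (nat_lit 1) (nat_lit 176) (nat_lit 1) (nat_lit 365) (nat_lit 357) (nat_lit 298)) (XT.lf (nat_lit 76) (nat_lit 666078389) (nat_lit 0) (nat_lit 409665513)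 (nat_lit 380) (nat_lit 2030178232) (nat_lit 167) (nat_lit 1) (nat_lit 166) (nat_lit 1) (nat_lit 171) (nat_lit 1) (nat_lit 366) (nat_lit 357) (nat_lit 297))) (XT.nd (nat_lit 78) (nat_lit 760) (nat_lit 0) (XT.lf (nat_lit 456) (nat_lit 1578908374) (nat_lit 0) (nat_lit 827770781) (nat_lit 380) (nat_lit 664430964) (nat_lit 167) (nat_lit 1) (nat_lit 161) (nat_lit 1) (nat_lit 166) (nat_lit 1) (nat_lit 367) (nat_lit 357) (nat_lit 296)) (XT.nd (nat_lit 78) (nat_lit 456) (nat_lit 0) (XT.lf (nat_lit 380) (nat_lit 469851501) (nat_lit 0) (nat_lit 592426452) (nat_lit 304) (nat_lit 1974558548) (nat_lit 162) (nat_lit 1) (nat_lit 157) (nat_lit 1) (nat_lit 161) (nat_lit 1) (nat_lit 368) (nat_lit 357) (nat_lit 295)) (XT.lf (nat_lit 456) (nat_lit 2383118663) (nat_lit 0) (nat_lit 367868090) (nat_lit 380) (nat_lit 252075573) (nat_lit 157) (nat_lit 1) (nat_lit 151) (nat_lit 1) (nat_lit 156) (nat_lit 1) (nat_lit 369) (nat_lit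 357) (nat_lit 294)))))) (XT.nd (nat_lit 312) (nat_lit 1596) (nat_lit 0) (XT.nd (nat_lit 156) (nat_lit 684) (nat_lit 0) (XT.nd (nat_lit 78) (nat_lit 0) (nat_lit 0) (XT.lf (nat_lit 380) (nat_lit 1271771593) (nat_lit 0) (nat_lit 149488687) (nat_lit 304) (nat_lit 1548434182) (nat_lit 152) (nat_lit 1) (nat_lit 147) (nat_lit 1) (nat_lit 151) (nat_lit 1) (nat_lit 370) (nat_lit 357) (nat_lit 293)) (XT.lf (nat_lit 76) (nat_lit 120932466) (nat_lit 0) (nat_lit 2763710599) (nat_lit 380) (nat_lit 52271293) (nat_lit 148) (nat_lit 1) (nat_lit 147) (nat_lit 1) (nat_lit 152) (nat_lit 1) (nat_lit 371) (nat_lit 357) (nat_lit 292))) (XT.nd (nat_lit 78) (nat_lit 304) (nat_lit 0) (XT.lf (nat_lit 76) (nat_lit 1745211240) (nat_lit 0) (nat_lit 908861547) (nat_lit 380) (nat_lit 250355996) (nat_lit 143) (nat_lit 1) (nat_lit 142) (nat_lit 1) (nat_lit 147) (nat_lit 1) (nat_lit 372) (nat_lit 357) (nat_lit 291)) (XT.lf (nat_lit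 76) (nat_lit 460785268) (nat_lit 0) (nat_lit 1976416527) (nat_lit 380) (nat_lit 435281526) (nat_lit 139) (nat_lit 1) (nat_lit 138) (nat_lit 1) (nat_lit 143) (nat_lit 1) (nat_lit 373) (nat_lit 357) (nat_lit 290)))) (XT.nd (nat_lit 156) (nat_lit 912) (nat_lit 0) (XT.nd (nat_lit 78) (nat_lit 304) (nat_lit 0) (XT.lf (nat_lit 76) (nat_lit 2036200529) (nat_lit 0) (nat_lit 192713114) (nat_lit 380) (nat_lit 612061373) (nat_lit 134) (nat_lit 1) (nat_lit 133) (nat_lit 1) (nat_lit 138) (nat_lit 1) (nat_lit 374) (nat_lit 357) (nat_lit 289)) (XT.lf (nat_lit 76) (nat_lit 767221050) (nat_lit 0) (nat_lit 1259409062) (nat_lit 380) (nat_lit 783220590) (nat_lit 130) (nat_lit 1) (nat_lit 129) (nat_lit 1) (nat_lit 134) (nat_lit 1) (nat_lit 375) (nat_lit 357) (nat_lit 288))) (XT.nd (nat_lit 78) (nat_lit 608) (nat_lit 0) (XT.lf (nat_lit 380) (nat_lit 463250765) (nat_lit 0) (nat_lit 1835786675) (nat_lit 304) (nat_lit 480176935)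 (nat_lit 130) (nat_lit 1) (nat_lit 125) (nat_lit 1) (nat_lit 129) (nat_lit 1) (nat_lit 376) (nat_lit 357) (nat_lit 287)) (XT.nd (nat_lit 78) (nat_lit 304) (nat_lit 0) (XT.lf (nat_lit 76) (nat_lit 1042940387) (nat_lit 0) (nat_lit 607162842) (nat_lit 304) (nat_lit 1098837104) (nat_lit 122) (nat_lit 1) (nat_lit 121) (nat_lit 1) (nat_lit 125) (nat_lit 1) (nat_lit 377) (nat_lit 357) (nat_lit 286)) (XT.lf (nat_lit 380) (nat_lit 1059951568) (nat_lit 0) (nat_lit 1474186733) (nat_lit 304) (nat_lit 184978074) (nat_lit 122) (nat_lit 1) (nat_lit 117) (nat_lit 1) (nat_lit 121) (nat_lit 1) (nat_lit 378) (nat_lit 357) (nat_lit 285))))))) (XT.nd (nat_lit 47580) (nat_lit 0) (nat_lit 30552) (XT.nd (nat_lit 312) (nat_lit 228) (nat_lit 0) (XT.nd (nat_lit 156) (nat_lit 608) (nat_lit 0) (XT.nd (nat_lit 78) (nat_lit 304) (nat_lit 0) (XT.lf (nat_lit 76) (nat_lit 1290435392) (nat_lit 0) (nat_lit 14575267) (nat_lit 304) (nat_lit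 1384669987) (nat_lit 114) (nat_lit 1) (nat_lit 113) (nat_lit 1) (nat_lit 117) (nat_lit 1) (nat_lit 379) (nat_lit 357) (nat_lit 284)) (XT.lf (nat_lit 76) (nat_lit 80914452) (nat_lit 0) (nat_lit 1061431826) (nat_lit 380) (nat_lit 1518279897) (nat_lit 110) (nat_lit 1) (nat_lit 109) (nat_lit 1) (nat_lit 114) (nat_lit 1) (nat_lit 380) (nat_lit 357) (nat_lit 283))) (XT.nd (nat_lit 78) (nat_lit 380) (nat_lit 0) (XT.lf (nat_lit 304) (nat_lit 530016911) (nat_lit 0) (nat_lit 985429929) (nat_lit 228) (nat_lit 1116488688) (nat_lit 110) (nat_lit 1) (nat_lit 106) (nat_lit 1) (nat_lit 109) (nat_lit 1) (nat_lit 381) (nat_lit 357) (nat_lit 282)) (XT.lf (nat_lit 76) (nat_lit 318761658) (nat_lit 0) (nat_lit 518666789) (nat_lit 380) (nat_lit 1766239912) (nat_lit 102) (nat_lit 1) (nat_lit 101) (nat_lit 1) (nat_lit 106) (nat_lit 1) (nat_lit 382) (nat_lit 357) (nat_lit 281)))) (XT.nd (nat_lit 47034) (nat_lit 0) (nat_lit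 30400) (XT.nd (nat_lit 46956) (nat_lit 0) (nat_lit 30324) (XT.lf (nat_lit 304) (nat_lit 1023534800) (nat_lit 0) (nat_lit 692883407) (nat_lit 228) (nat_lit 859297021) (nat_lit 102) (nat_lit 1) (nat_lit 98) (nat_lit 1) (nat_lit 101) (nat_lit 1) (nat_lit 383) (nat_lit 357) (nat_lit 280)) (XT.lf (nat_lit 1900) (nat_lit 1148300093) (nat_lit 0) (nat_lit 1157902552) (nat_lit 1900) (nat_lit 1148300093) (nat_lit 522) (nat_lit 1) (nat_lit 497) (nat_lit 0) (nat_lit 522) (nat_lit 0) (nat_lit 304) (nat_lit 358) (nat_lit 358))) (XT.nd (nat_lit 78) (nat_lit 0) (nat_lit 0) (XT.lf (nat_lit 1900) (nat_lit 530783680) (nat_lit 0) (nat_lit 2304000209) (nat_lit 1824) (nat_lit 3973166595) (nat_lit 523) (nat_lit 1) (nat_lit 498) (nat_lit 1) (nat_lit 522) (nat_lit 1) (nat_lit 305) (nat_lit 358) (nat_lit 357)) (XT.nd (nat_lit 78) (nat_lit 0) (nat_lit 76) (XT.lf (nat_lit 1900) (nat_lit 4365149293) (nat_lit 76) (nat_lit 1122344420)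 (nat_lit 0) (nat_lit 1221322570) (nat_lit 523) (nat_lit 1) (nat_lit 499) (nat_lit 1) (nat_lit 498) (nat_lit 1) (nat_lit 306) (nat_lit 358) (nat_lit 356)) (XT.lf (nat_lit 1900) (nat_lit 3664450915) (nat_lit 0) (nat_lit 2431664576) (nat_lit 1824) (nat_lit 515464272) (nat_lit 524) (nat_lit 1) (nat_lit 499) (nat_lit 1) (nat_lit 523) (nat_lit 1) (nat_lit 307) (nat_lit 358) (nat_lit 355)))))) (XT.nd (nat_lit 390) (nat_lit 0) (nat_lit 228) (XT.nd (nat_lit 156) (nat_lit 0) (nat_lit 76) (XT.nd (nat_lit 78) (nat_lit 0) (nat_lit 76) (XT.lf (nat_lit 1900) (nat_lit 1879892105) (nat_lit 0) (nat_lit 2566113837) (nat_lit 1824) (nat_lit 2070189139) (nat_lit 525) (nat_lit 1) (nat_lit 500) (nat_lit 1) (nat_lit 524) (nat_lit 1) (nat_lit 308) (nat_lit 358) (nat_lit 354)) (XT.lf (nat_lit 1900) (nat_lit 126253507) (nat_lit 0) (nat_lit 2737971300) (nat_lit 1824) (nat_lit 3558537302) (nat_lit 526) (nat_lit 1) (nat_lit 501)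 (nat_lit 1) (nat_lit 525) (nat_lit 1) (nat_lit 309) (nat_lit 358) (nat_lit 353))) (XT.nd (nat_lit 78) (nat_lit 0) (nat_lit 76) (XT.lf (nat_lit 1900) (nat_lit 3374979374) (nat_lit 76) (nat_lit 1338078720) (nat_lit 0) (nat_lit 1617967924) (nat_lit 526) (nat_lit 1) (nat_lit 502) (nat_lit 1) (nat_lit 501) (nat_lit 1) (nat_lit 310) (nat_lit 358) (nat_lit 352)) (XT.nd (nat_lit 78) (nat_lit 0) (nat_lit 76) (XT.lf (nat_lit 1900) (nat_lit 2908831868) (nat_lit 0) (nat_lit 3209636875) (nat_lit 1824) (nat_lit 122655776) (nat_lit 527) (nat_lit 1) (nat_lit 502) (nat_lit 1) (nat_lit 526) (nat_lit 1) (nat_lit 311) (nat_lit 358) (nat_lit 351)) (XT.lf (nat_lit 1900) (nat_lit 1145163867) (nat_lit 0) (nat_lit 3503808010) (nat_lit 1824) (nat_lit 1503910294) (nat_lit 528) (nat_lit 1) (nat_lit 503) (nat_lit 1) (nat_lit 527) (nat_lit 1) (nat_lit 312) (nat_lit 358) (nat_lit 350))))) (XT.nd (nat_lit 156) (nat_lit 0) (nat_lit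 152) (XT.nd (nat_lit 78) (nat_lit 0) (nat_lit 76) (XT.lf (nat_lit 1900) (nat_lit 2234129012) (nat_lit 76) (nat_lit 3237457676) (nat_lit 0) (nat_lit 594767026) (nat_lit 528) (nat_lit 1) (nat_lit 504) (nat_lit 1) (nat_lit 503) (nat_lit 1) (nat_lit 313) (nat_lit 358) (nat_lit 349)) (XT.lf (nat_lit 1900) (nat_lit 1784530849) (nat_lit 76) (nat_lit 1878597076) (nat_lit 0) (nat_lit 2318301132) (nat_lit 529) (nat_lit 1) (nat_lit 505) (nat_lit 1) (nat_lit 504) (nat_lit 1) (nat_lit 314) (nat_lit 358) (nat_lit 348))) (XT.nd (nat_lit 78) (nat_lit 0) (nat_lit 76) (XT.lf (nat_lit 1900) (nat_lit 1309326394) (nat_lit 76) (nat_lit 578328059) (nat_lit 0) (nat_lit 4010564629) (nat_lit 530) (nat_lit 1) (nat_lit 506) (nat_lit 1) (nat_lit 505) (nat_lit 1) (nat_lit 315) (nat_lit 358) (nat_lit 347)) (XT.nd (nat_lit 78) (nat_lit 0) (nat_lit 0) (XT.lf (nat_lit 1900) (nat_lit 149097457) (nat_lit 0) (nat_lit 5011174291) (nat_lit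 1824) (nat_lit 656326864) (nat_lit 531) (nat_lit 1) (nat_lit 506) (nat_lit 1) (nat_lit 530) (nat_lit 1) (nat_lit 316) (nat_lit 358) (nat_lit 346)) (XT.lf (nat_lit 1900) (nat_lit 264603050) (nat_lit 76) (nat_lit 3897237479) (nat_lit 0) (nat_lit 1574503221) (nat_lit 531) (nat_lit 1) (nat_lit 507) (nat_lit 1) (nat_lit 506) (nat_lit 1) (nat_lit 317) (nat_lit 358) (nat_lit 345))))))))
noncomputable def ec47 : XT := (XT.nd (nat_lit 1404) (nat_lit 10032) (nat_lit 0) (XT.nd (nat_lit 702) (nat_lit 6384) (nat_lit 0) (XT.nd (nat_lit 312) (nat_lit 3724) (nat_lit 0) (XT.nd (nat_lit 156) (nat_lit 0) (nat_lit 76) (XT.nd (nat_lit 78) (nat_lit 0) (nat_lit 76) (XT.lf (nat_lit 1976) (nat_lit 2391423851) (nat_lit 0) (nat_lit 294546366) (nat_lit 1900) (nat_lit 2971672443) (nat_lit 508) (nat_lit 1) (nat_lit 482) (nat_lit 1) (nat_lit 507) (nat_lit 1) (nat_lit 318) (nat_lit 358) (nat_lit 344)) (XT.lf (nat_lit 1976) (nat_lit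 655935197) (nat_lit 0) (nat_lit 870041975) (nat_lit 1900) (nat_lit 4054503279) (nat_lit 509) (nat_lit 1) (nat_lit 483) (nat_lit 1) (nat_lit 508) (nat_lit 1) (nat_lit 319) (nat_lit 358) (nat_lit 343))) (XT.nd (nat_lit 78) (nat_lit 0) (nat_lit 76) (XT.lf (nat_lit 1976) (nat_lit 4033582433) (nat_lit 76) (nat_lit 410451581) (nat_lit 0) (nat_lit 1060684460) (nat_lit 509) (nat_lit 1) (nat_lit 484) (nat_lit 1) (nat_lit 483) (nat_lit 1) (nat_lit 320) (nat_lit 358) (nat_lit 342)) (XT.lf (nat_lit 76) (nat_lit 2681417460) (nat_lit 0) (nat_lit 2098260859) (nat_lit 1900) (nat_lit 650614071) (nat_lit 485) (nat_lit 1) (nat_lit 484) (nat_lit 1) (nat_lit 509) (nat_lit 1) (nat_lit 321) (nat_lit 358) (nat_lit 341)))) (XT.nd (nat_lit 156) (nat_lit 1824) (nat_lit 0) (XT.nd (nat_lit 78) (nat_lit 912) (nat_lit 0) (XT.lf (nat_lit 76) (nat_lit 954968760) (nat_lit 0) (nat_lit 2744147402) (nat_lit 1216) (nat_lit 1658177345)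 (nat_lit 470) (nat_lit 1) (nat_lit 469) (nat_lit 1) (nat_lit 485) (nat_lit 1) (nat_lit 322) (nat_lit 358) (nat_lit 340)) (XT.lf (nat_lit 988) (nat_lit 1875630384) (nat_lit 0) (nat_lit 2661766352) (nat_lit 912) (nat_lit 748248211) (nat_lit 470) (nat_lit 1) (nat_lit 457) (nat_lit 1) (nat_lit 469) (nat_lit 1) (nat_lit 323) (nat_lit 358) (nat_lit 339))) (XT.nd (nat_lit 78) (nat_lit 912) (nat_lit 0) (XT.lf (nat_lit 988) (nat_lit 1119155452) (nat_lit 0) (nat_lit 1665000589) (nat_lit 912) (nat_lit 2431134252) (nat_lit 458) (nat_lit 1) (nat_lit 445) (nat_lit 1) (nat_lit 457) (nat_lit 1) (nat_lit 324) (nat_lit 358) (nat_lit 338)) (XT.nd (nat_lit 78) (nat_lit 76) (nat_lit 0) (XT.lf (nat_lit 912) (nat_lit 350997401) (nat_lit 0) (nat_lit 713867395) (nat_lit 836) (nat_lit 4081458902) (nat_lit 446) (nat_lit 1) (nat_lit 434) (nat_lit 1) (nat_lit 445) (nat_lit 1) (nat_lit 325) (nat_lit 358) (nat_lit 337)) (XT.lf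 (nat_lit 76) (nat_lit 4453472810) (nat_lit 0) (nat_lit 427761243) (nat_lit 912) (nat_lit 197317484) (nat_lit 434) (nat_lit 1) (nat_lit 433) (nat_lit 1) (nat_lit 445) (nat_lit 1) (nat_lit 326) (nat_lit 358) (nat_lit 336)))))) (XT.nd (nat_lit 312) (nat_lit 3040) (nat_lit 0) (XT.nd (nat_lit 156) (nat_lit 1596) (nat_lit 0) (XT.nd (nat_lit 78) (nat_lit 836) (nat_lit 0) (XT.lf (nat_lit 76) (nat_lit 2722953632) (nat_lit 0) (nat_lit 1223020973) (nat_lit 988) (nat_lit 1065861415) (nat_lit 422) (nat_lit 1) (nat_lit 421) (nat_lit 1) (nat_lit 434) (nat_lit 1) (nat_lit 327) (nat_lit 358) (nat_lit 335)) (XT.lf (nat_lit 76) (nat_lit 1026446273) (nat_lit 0) (nat_lit 2026949020) (nat_lit 912) (nat_lit 1893031754) (nat_lit 411) (nat_lit 1) (nat_lit 410) (nat_lit 1) (nat_lit 422) (nat_lit 1) (nat_lit 328) (nat_lit 358) (nat_lit 334))) (XT.nd (nat_lit 78) (nat_lit 760) (nat_lit 0) (XT.lf (nat_lit 912) (nat_lit 2039198446)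 (nat_lit 0) (nat_lit 2197992676) (nat_lit 836) (nat_lit 645021029) (nat_lit 411) (nat_lit 1) (nat_lit 399) (nat_lit 1) (nat_lit 410) (nat_lit 1) (nat_lit 329) (nat_lit 358) (nat_lit 333)) (XT.lf (nat_lit 836) (nat_lit 1146244320) (nat_lit 0) (nat_lit 1376172634) (nat_lit 760) (nat_lit 2296699386) (nat_lit 400) (nat_lit 1) (nat_lit 389) (nat_lit 1) (nat_lit 399) (nat_lit 1) (nat_lit 330) (nat_lit 358) (nat_lit 332)))) (XT.nd (nat_lit 156) (nat_lit 2204) (nat_lit 0) (XT.nd (nat_lit 78) (nat_lit 76) (nat_lit 0) (XT.lf (nat_lit 836) (nat_lit 248136265) (nat_lit 0) (nat_lit 593652356) (nat_lit 760) (nat_lit 3915458625) (nat_lit 390) (nat_lit 1) (nat_lit 379) (nat_lit 1) (nat_lit 389) (nat_lit 1) (nat_lit 331) (nat_lit 358) (nat_lit 331)) (XT.lf (nat_lit 76) (nat_lit 3885807117) (nat_lit 0) (nat_lit 652246099) (nat_lit 836) (nat_lit 158313660) (nat_lit 379) (nat_lit 1) (nat_lit 378) (nat_lit 1) (nat_lit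 389) (nat_lit 1) (nat_lit 332) (nat_lit 358) (nat_lit 330))) (XT.nd (nat_lit 78) (nat_lit 1444) (nat_lit 0) (XT.lf (nat_lit 76) (nat_lit 2201268719) (nat_lit 0) (nat_lit 1562257417) (nat_lit 836) (nat_lit 872922038) (nat_lit 369) (nat_lit 1) (nat_lit 368) (nat_lit 1) (nat_lit 379) (nat_lit 1) (nat_lit 333) (nat_lit 358) (nat_lit 329)) (XT.nd (nat_lit 78) (nat_lit 684) (nat_lit 0) (XT.lf (nat_lit 76) (nat_lit 550663961) (nat_lit 0) (nat_lit 2475183447) (nat_lit 836) (nat_lit 1551838869) (nat_lit 359) (nat_lit 1) (nat_lit 358) (nat_lit 1) (nat_lit 369) (nat_lit 1) (nat_lit 334) (nat_lit 358) (nat_lit 328)) (XT.lf (nat_lit 760) (nat_lit 1122391356) (nat_lit 0) (nat_lit 2316796865) (nat_lit 684) (nat_lit 1080727571) (nat_lit 359) (nat_lit 1) (nat_lit 349) (nat_lit 1) (nat_lit 358) (nat_lit 1) (nat_lit 335) (nat_lit 358) (nat_lit 327))))))) (XT.nd (nat_lit 702) (nat_lit 4864) (nat_lit 0) (XT.nd (nat_lit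 312) (nat_lit 3040) (nat_lit 0) (XT.nd (nat_lit 156) (nat_lit 684) (nat_lit 0) (XT.nd (nat_lit 78) (nat_lit 760) (nat_lit 0) (XT.lf (nat_lit 760) (nat_lit 138008626) (nat_lit 0) (nat_lit 1639021722) (nat_lit 684) (nat_lit 2686154100) (nat_lit 350) (nat_lit 1) (nat_lit 340) (nat_lit 1) (nat_lit 349) (nat_lit 1) (nat_lit 336) (nat_lit 358) (nat_lit 326)) (XT.lf (nat_lit 76) (nat_lit 154197352) (nat_lit 0) (nat_lit 835402417) (nat_lit 760) (nat_lit 3417831043) (nat_lit 331) (nat_lit 1) (nat_lit 330) (nat_lit 1) (nat_lit 340) (nat_lit 1) (nat_lit 337) (nat_lit 358) (nat_lit 325))) (XT.nd (nat_lit 78) (nat_lit 0) (nat_lit 0) (XT.lf (nat_lit 760) (nat_lit 2536385408) (nat_lit 0) (nat_lit 362614010) (nat_lit 684) (nat_lit 1453535354) (nat_lit 331) (nat_lit 1) (nat_lit 321) (nat_lit 1) (nat_lit 330) (nat_lit 1) (nat_lit 338) (nat_lit 358) (nat_lit 324)) (XT.lf (nat_lit 76) (nat_lit 1270007834) (nat_lit 0)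 (nat_lit 2798516987) (nat_lit 760) (nat_lit 230109100) (nat_lit 322) (nat_lit 1) (nat_lit 321) (nat_lit 1) (nat_lit 331) (nat_lit 1) (nat_lit 339) (nat_lit 358) (nat_lit 323)))) (XT.nd (nat_lit 156) (nat_lit 1748) (nat_lit 0) (XT.nd (nat_lit 78) (nat_lit 684) (nat_lit 0) (XT.lf (nat_lit 684) (nat_lit 461795534) (nat_lit 0) (nat_lit 3456361848) (nat_lit 608) (nat_lit 327513549) (nat_lit 322) (nat_lit 1) (nat_lit 313) (nat_lit 1) (nat_lit 321) (nat_lit 1) (nat_lit 340) (nat_lit 358) (nat_lit 322)) (XT.lf (nat_lit 76) (nat_lit 2288699341) (nat_lit 0) (nat_lit 574344131) (nat_lit 684) (nat_lit 1330431638) (nat_lit 305) (nat_lit 1) (nat_lit 304) (nat_lit 1) (nat_lit 313) (nat_lit 1) (nat_lit 341) (nat_lit 358) (nat_lit 321))) (XT.nd (nat_lit 78) (nat_lit 1140) (nat_lit 0) (XT.lf (nat_lit 76) (nat_lit 695923395) (nat_lit 0) (nat_lit 1601086786) (nat_lit 684) (nat_lit 1845197917) (nat_lit 297) (nat_lit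 1) (nat_lit 296) (nat_lit 1) (nat_lit 305) (nat_lit 1) (nat_lit 342) (nat_lit 358) (nat_lit 320)) (XT.nd (nat_lit 78) (nat_lit 532) (nat_lit 0) (XT.lf (nat_lit 684) (nat_lit 1461917529) (nat_lit 0) (nat_lit 1754649177) (nat_lit 608) (nat_lit 875228525) (nat_lit 297) (nat_lit 1) (nat_lit 288) (nat_lit 1) (nat_lit 296) (nat_lit 1) (nat_lit 343) (nat_lit 358) (nat_lit 319)) (XT.lf (nat_lit 608) (nat_lit 383122503) (nat_lit 0) (nat_lit 1236452872) (nat_lit 532) (nat_lit 2422667005) (nat_lit 289) (nat_lit 1) (nat_lit 281) (nat_lit 1) (nat_lit 288) (nat_lit 1) (nat_lit 344) (nat_lit 358) (nat_lit 318)))))) (XT.nd (nat_lit 390) (nat_lit 2508) (nat_lit 0) (XT.nd (nat_lit 156) (nat_lit 1140) (nat_lit 0) (XT.nd (nat_lit 78) (nat_lit 532) (nat_lit 0) (XT.lf (nat_lit 76) (nat_lit 60386699) (nat_lit 0) (nat_lit 681298992) (nat_lit 684) (nat_lit 3251845681) (nat_lit 273) (nat_lit 1) (nat_lit 272) (nat_lit 1) (nat_lit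 281) (nat_lit 1) (nat_lit 345) (nat_lit 358) (nat_lit 317)) (XT.lf (nat_lit 608) (nat_lit 2200639769) (nat_lit 0) (nat_lit 261785316) (nat_lit 532) (nat_lit 1483065518) (nat_lit 273) (nat_lit 1) (nat_lit 265) (nat_lit 1) (nat_lit 272) (nat_lit 1) (nat_lit 346) (nat_lit 358) (nat_lit 316))) (XT.nd (nat_lit 78) (nat_lit 1140) (nat_lit 0) (XT.lf (nat_lit 76) (nat_lit 904813626) (nat_lit 0) (nat_lit 2804148764) (nat_lit 608) (nat_lit 189352225) (nat_lit 266) (nat_lit 1) (nat_lit 265) (nat_lit 1) (nat_lit 273) (nat_lit 1) (nat_lit 347) (nat_lit 358) (nat_lit 315)) (XT.nd (nat_lit 78) (nat_lit 532) (nat_lit 0) (XT.lf (nat_lit 76) (nat_lit 3225342817) (nat_lit 0) (nat_lit 10903904) (nat_lit 608) (nat_lit 615657310) (nat_lit 258) (nat_lit 1) (nat_lit 257) (nat_lit 1) (nat_lit 265) (nat_lit 1) (nat_lit 348) (nat_lit 358) (nat_lit 314)) (XT.lf (nat_lit 76) (nat_lit 1675902828) (nat_lit 0) (nat_lit 1100195376)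 (nat_lit 608) (nat_lit 1030002257) (nat_lit 251) (nat_lit 1) (nat_lit 250) (nat_lit 1) (nat_lit 258) (nat_lit 1) (nat_lit 349) (nat_lit 358) (nat_lit 313))))) (XT.nd (nat_lit 156) (nat_lit 1520) (nat_lit 0) (XT.nd (nat_lit 78) (nat_lit 456) (nat_lit 0) (XT.lf (nat_lit 76) (nat_lit 159207784) (nat_lit 0) (nat_lit 2181922451) (nat_lit 608) (nat_lit 1420017489) (nat_lit 244) (nat_lit 1) (nat_lit 243) (nat_lit 1) (nat_lit 251) (nat_lit 1) (nat_lit 350) (nat_lit 358) (nat_lit 312)) (XT.lf (nat_lit 532) (nat_lit 452183374) (nat_lit 0) (nat_lit 1921723553) (nat_lit 456) (nat_lit 1342946814) (nat_lit 244) (nat_lit 1) (nat_lit 237) (nat_lit 1) (nat_lit 243) (nat_lit 1) (nat_lit 351) (nat_lit 358) (nat_lit 311))) (XT.nd (nat_lit 78) (nat_lit 912) (nat_lit 0) (XT.lf (nat_lit 76) (nat_lit 862463159) (nat_lit 0) (nat_lit 658327538) (nat_lit 608) (nat_lit 2152481490) (nat_lit 230) (nat_lit 1) (nat_lit 229) (nat_lit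 1) (nat_lit 237) (nat_lit 1) (nat_lit 352) (nat_lit 358) (nat_lit 310)) (XT.nd (nat_lit 78) (nat_lit 456) (nat_lit 0) (XT.lf (nat_lit 532) (nat_lit 1872236102) (nat_lit 0) (nat_lit 1136070304) (nat_lit 456) (nat_lit 622048917) (nat_lit 230) (nat_lit 1) (nat_lit 223) (nat_lit 1) (nat_lit 229) (nat_lit 1) (nat_lit 353) (nat_lit 358) (nat_lit 309)) (XT.lf (nat_lit 532) (nat_lit 733651579) (nat_lit 0) (nat_lit 768426507) (nat_lit 456) (nat_lit 2086038637) (nat_lit 224) (nat_lit 1) (nat_lit 217) (nat_lit 1) (nat_lit 223) (nat_lit 1) (nat_lit 354) (nat_lit 358) (nat_lit 308))))))))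
noncomputable def ec48 : XT := (XT.nd (nat_lit 1404) (nat_lit 2964) (nat_lit 0) (XT.nd (nat_lit 702) (nat_lit 2888) (nat_lit 0) (XT.nd (nat_lit 312) (nat_lit 2052) (nat_lit 0) (XT.nd (nat_lit 156) (nat_lit 456) (nat_lit 0) (XT.nd (nat_lit 78) (nat_lit 456) (nat_lit 0) (XT.lf (nat_lit 76) (nat_lit 30585625) (nat_lit 0) (nat_lit 389784775) (nat_lit 532) (nat_lit 3126231893) (nat_lit 211) (nat_lit 1) (nat_lit 210) (nat_lit 1) (nat_lit 217) (nat_lit 1) (nat_lit 355) (nat_lit 358) (nat_lit 307)) (XT.lf (nat_lit 532) (nat_lit 2002614444) (nat_lit 0) (nat_lit 79655628) (nat_lit 456) (nat_lit 1423298531) (nat_lit 211) (nat_lit 1) (nat_lit 204) (nat_lit 1) (nat_lit 210) (nat_lit 1) (nat_lit 356) (nat_lit 358) (nat_lit 306))) (XT.nd (nat_lit 78) (nat_lit 456) (nat_lit 0) (XT.lf (nat_lit 76) (nat_lit 620587007) (nat_lit 0) (nat_lit 2607752211) (nat_lit 532) (nat_lit 236909830) (nat_lit 205) (nat_lit 1) (nat_lit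 204) (nat_lit 1) (nat_lit 211) (nat_lit 1) (nat_lit 357) (nat_lit 358) (nat_lit 305)) (XT.lf (nat_lit 76) (nat_lit 2607404816) (nat_lit 0) (nat_lit 278840066) (nat_lit 456) (nat_lit 539267811) (nat_lit 199) (nat_lit 1) (nat_lit 198) (nat_lit 1) (nat_lit 204) (nat_lit 1) (nat_lit 358) (nat_lit 358) (nat_lit 304)))) (XT.nd (nat_lit 156) (nat_lit 1216) (nat_lit 0) (XT.nd (nat_lit 78) (nat_lit 380) (nat_lit 0) (XT.lf (nat_lit 76) (nat_lit 1158069471) (nat_lit 0) (nat_lit 1396942523) (nat_lit 532) (nat_lit 831297979) (nat_lit 193) (nat_lit 1) (nat_lit 192) (nat_lit 1) (nat_lit 199) (nat_lit 1) (nat_lit 359) (nat_lit 358) (nat_lit 303)) (XT.lf (nat_lit 456) (nat_lit 842124606) (nat_lit 0) (nat_lit 2242171486) (nat_lit 380) (nat_lit 263489347) (nat_lit 193) (nat_lit 1) (nat_lit 187) (nat_lit 1) (nat_lit 192) (nat_lit 1) (nat_lit 360) (nat_lit 358) (nat_lit 302))) (XT.nd (nat_lit 78) (nat_lit 760) (nat_lit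 0) (XT.lf (nat_lit 76) (nat_lit 1642377147) (nat_lit 0) (nat_lit 296952981) (nat_lit 456) (nat_lit 1370441311) (nat_lit 182) (nat_lit 1) (nat_lit 181) (nat_lit 1) (nat_lit 187) (nat_lit 1) (nat_lit 361) (nat_lit 358) (nat_lit 301)) (XT.nd (nat_lit 78) (nat_lit 380) (nat_lit 0) (XT.lf (nat_lit 76) (nat_lit 237001180) (nat_lit 0) (nat_lit 1413183871) (nat_lit 456) (nat_lit 1622152359) (nat_lit 177) (nat_lit 1) (nat_lit 176) (nat_lit 1) (nat_lit 182) (nat_lit 1) (nat_lit 362) (nat_lit 358) (nat_lit 300)) (XT.lf (nat_lit 456) (nat_lit 710295227) (nat_lit 0) (nat_lit 1372122516) (nat_lit 380) (nat_lit 1153011336) (nat_lit 177) (nat_lit 1) (nat_lit 171) (nat_lit 1) (nat_lit 176) (nat_lit 1) (nat_lit 363) (nat_lit 358) (nat_lit 299)))))) (XT.nd (nat_lit 312) (nat_lit 1368) (nat_lit 0) (XT.nd (nat_lit 156) (nat_lit 760) (nat_lit 0) (XT.nd (nat_lit 78) (nat_lit 380) (nat_lit 0) (XT.lf (nat_lit 76) (nat_lit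 686060740) (nat_lit 0) (nat_lit 421955478) (nat_lit 380) (nat_lit 2091083579) (nat_lit 167) (nat_lit 1) (nat_lit 166) (nat_lit 1) (nat_lit 171) (nat_lit 1) (nat_lit 364) (nat_lit 358) (nat_lit 298)) (XT.lf (nat_lit 456) (nat_lit 1626275625) (nat_lit 0) (nat_lit 852603904) (nat_lit 380) (nat_lit 684363893) (nat_lit 167) (nat_lit 1) (nat_lit 161) (nat_lit 1) (nat_lit 166) (nat_lit 1) (nat_lit 365) (nat_lit 358) (nat_lit 297))) (XT.nd (nat_lit 78) (nat_lit 456) (nat_lit 0) (XT.lf (nat_lit 380) (nat_lit 483947046) (nat_lit 0) (nat_lit 610199246) (nat_lit 304) (nat_lit 2033795305) (nat_lit 162) (nat_lit 1) (nat_lit 157) (nat_lit 1) (nat_lit 161) (nat_lit 1) (nat_lit 366) (nat_lit 358) (nat_lit 296)) (XT.lf (nat_lit 456) (nat_lit 2454612223) (nat_lit 0) (nat_lit 378904133) (nat_lit 380) (nat_lit 259637840) (nat_lit 157) (nat_lit 1) (nat_lit 151) (nat_lit 1) (nat_lit 156) (nat_lit 1) (nat_lit 367) (nat_lit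 358) (nat_lit 295)))) (XT.nd (nat_lit 156) (nat_lit 1064) (nat_lit 0) (XT.nd (nat_lit 78) (nat_lit 0) (nat_lit 0) (XT.lf (nat_lit 380) (nat_lit 1309924740) (nat_lit 0) (nat_lit 153973347) (nat_lit 304) (nat_lit 1594887208) (nat_lit 152) (nat_lit 1) (nat_lit 147) (nat_lit 1) (nat_lit 151) (nat_lit 1) (nat_lit 368) (nat_lit 358) (nat_lit 294)) (XT.lf (nat_lit 76) (nat_lit 124560440) (nat_lit 0) (nat_lit 2846621917) (nat_lit 380) (nat_lit 53839431) (nat_lit 148) (nat_lit 1) (nat_lit 147) (nat_lit 1) (nat_lit 152) (nat_lit 1) (nat_lit 369) (nat_lit 358) (nat_lit 293))) (XT.nd (nat_lit 78) (nat_lit 684) (nat_lit 0) (XT.lf (nat_lit 76) (nat_lit 1797567577) (nat_lit 0) (nat_lit 936127393) (nat_lit 380) (nat_lit 257866676) (nat_lit 143) (nat_lit 1) (nat_lit 142) (nat_lit 1) (nat_lit 147) (nat_lit 1) (nat_lit 370) (nat_lit 358) (nat_lit 292)) (XT.nd (nat_lit 78) (nat_lit 380) (nat_lit 0) (XT.lf (nat_lit 76)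 (nat_lit 474608826) (nat_lit 0) (nat_lit 2035709023) (nat_lit 380) (nat_lit 448339972) (nat_lit 139) (nat_lit 1) (nat_lit 138) (nat_lit 1) (nat_lit 143) (nat_lit 1) (nat_lit 371) (nat_lit 358) (nat_lit 291)) (XT.lf (nat_lit 76) (nat_lit 2097286545) (nat_lit 0) (nat_lit 198494507) (nat_lit 380) (nat_lit 630423214) (nat_lit 134) (nat_lit 1) (nat_lit 133) (nat_lit 1) (nat_lit 138) (nat_lit 1) (nat_lit 372) (nat_lit 358) (nat_lit 290))))))) (XT.nd (nat_lit 702) (nat_lit 304) (nat_lit 0) (XT.nd (nat_lit 312) (nat_lit 1444) (nat_lit 0) (XT.nd (nat_lit 156) (nat_lit 608) (nat_lit 0) (XT.nd (nat_lit 78) (nat_lit 304) (nat_lit 0) (XT.lf (nat_lit 76) (nat_lit 790237682) (nat_lit 0) (nat_lit 1297191334) (nat_lit 380) (nat_lit 806717208) (nat_lit 130) (nat_lit 1) (nat_lit 129) (nat_lit 1) (nat_lit 134) (nat_lit 1) (nat_lit 373) (nat_lit 358) (nat_lit 289)) (XT.lf (nat_lit 380) (nat_lit 477148288) (nat_lit 0)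 (nat_lit 1890860275) (nat_lit 304) (nat_lit 494582243) (nat_lit 130) (nat_lit 1) (nat_lit 125) (nat_lit 1) (nat_lit 129) (nat_lit 1) (nat_lit 374) (nat_lit 358) (nat_lit 288))) (XT.nd (nat_lit 78) (nat_lit 304) (nat_lit 0) (XT.lf (nat_lit 76) (nat_lit 1074228598) (nat_lit 0) (nat_lit 625377728) (nat_lit 304) (nat_lit 1131802217) (nat_lit 122) (nat_lit 1) (nat_lit 121) (nat_lit 1) (nat_lit 125) (nat_lit 1) (nat_lit 375) (nat_lit 358) (nat_lit 287)) (XT.lf (nat_lit 380) (nat_lit 1091750115) (nat_lit 0) (nat_lit 1518412335) (nat_lit 304) (nat_lit 190527416) (nat_lit 122) (nat_lit 1) (nat_lit 117) (nat_lit 1) (nat_lit 121) (nat_lit 1) (nat_lit 376) (nat_lit 358) (nat_lit 286)))) (XT.nd (nat_lit 156) (nat_lit 836) (nat_lit 0) (XT.nd (nat_lit 78) (nat_lit 304) (nat_lit 0) (XT.lf (nat_lit 76) (nat_lit 1329148454) (nat_lit 0) (nat_lit 15012525) (nat_lit 304) (nat_lit 1426210086) (nat_lit 114) (nat_lit 1)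 (nat_lit 113) (nat_lit 1) (nat_lit 117) (nat_lit 1) (nat_lit 377) (nat_lit 358) (nat_lit 285)) (XT.lf (nat_lit 76) (nat_lit 83341886) (nat_lit 0) (nat_lit 1093274781) (nat_lit 380) (nat_lit 1563828294) (nat_lit 110) (nat_lit 1) (nat_lit 109) (nat_lit 1) (nat_lit 114) (nat_lit 1) (nat_lit 378) (nat_lit 358) (nat_lit 284))) (XT.nd (nat_lit 78) (nat_lit 608) (nat_lit 0) (XT.lf (nat_lit 304) (nat_lit 545917418) (nat_lit 0) (nat_lit 1014992827) (nat_lit 228) (nat_lit 1149983348) (nat_lit 110) (nat_lit 1) (nat_lit 106) (nat_lit 1) (nat_lit 109) (nat_lit 1) (nat_lit 379) (nat_lit 358) (nat_lit 283)) (XT.nd (nat_lit 78) (nat_lit 228) (nat_lit 0) (XT.lf (nat_lit 76) (nat_lit 328324507) (nat_lit 0) (nat_lit 534226793) (nat_lit 380) (nat_lit 1819227110) (nat_lit 102) (nat_lit 1) (nat_lit 101) (nat_lit 1) (nat_lit 106) (nat_lit 1) (nat_lit 380) (nat_lit 358) (nat_lit 282)) (XT.lf (nat_lit 304) (nat_lit 1054240844)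 (nat_lit 0) (nat_lit 713669909) (nat_lit 228) (nat_lit 885075932) (nat_lit 102) (nat_lit 1) (nat_lit 98) (nat_lit 1) (nat_lit 101) (nat_lit 1) (nat_lit 381) (nat_lit 358) (nat_lit 281)))))) (XT.nd (nat_lit 47190) (nat_lit 0) (nat_lit 30856) (XT.nd (nat_lit 46956) (nat_lit 0) (nat_lit 30704) (XT.nd (nat_lit 46878) (nat_lit 0) (nat_lit 30628) (XT.lf (nat_lit 76) (nat_lit 549049906) (nat_lit 0) (nat_lit 26199099) (nat_lit 304) (nat_lit 2049402252) (nat_lit 95) (nat_lit 1) (nat_lit 94) (nat_lit 1) (nat_lit 98) (nat_lit 1) (nat_lit 382) (nat_lit 358) (nat_lit 280)) (XT.lf (nat_lit 1900) (nat_lit 1182749096) (nat_lit 0) (nat_lit 1192639629) (nat_lit 1900) (nat_lit 1182749096) (nat_lit 522) (nat_lit 1) (nat_lit 497) (nat_lit 0) (nat_lit 522) (nat_lit 0) (nat_lit 302) (nat_lit 359) (nat_lit 359))) (XT.nd (nat_lit 78) (nat_lit 0) (nat_lit 0) (XT.lf (nat_lit 1900) (nat_lit 546707190) (nat_lit 0) (nat_lit 2373120215)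 (nat_lit 1824) (nat_lit 4092361593) (nat_lit 523) (nat_lit 1) (nat_lit 498) (nat_lit 1) (nat_lit 522) (nat_lit 1) (nat_lit 303) (nat_lit 359) (nat_lit 358)) (XT.nd (nat_lit 78) (nat_lit 0) (nat_lit 76) (XT.lf (nat_lit 1900) (nat_lit 4496103771) (nat_lit 76) (nat_lit 1156014753) (nat_lit 0) (nat_lit 1257962247) (nat_lit 523) (nat_lit 1) (nat_lit 499) (nat_lit 1) (nat_lit 498) (nat_lit 1) (nat_lit 304) (nat_lit 359) (nat_lit 357)) (XT.lf (nat_lit 1900) (nat_lit 3774384442) (nat_lit 0) (nat_lit 2504614514) (nat_lit 1824) (nat_lit 530928200) (nat_lit 524) (nat_lit 1) (nat_lit 499) (nat_lit 1) (nat_lit 523) (nat_lit 1) (nat_lit 305) (nat_lit 359) (nat_lit 356))))) (XT.nd (nat_lit 156) (nat_lit 0) (nat_lit 76) (XT.nd (nat_lit 78) (nat_lit 0) (nat_lit 76) (XT.lf (nat_lit 1900) (nat_lit 1936288868) (nat_lit 0) (nat_lit 2643097252) (nat_lit 1824) (nat_lit 2132294813) (nat_lit 525) (nat_lit 1) (nat_lit 500)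 (nat_lit 1) (nat_lit 524) (nat_lit 1) (nat_lit 306) (nat_lit 359) (nat_lit 355)) (XT.lf (nat_lit 1900) (nat_lit 130041112) (nat_lit 0) (nat_lit 2820110439) (nat_lit 1824) (nat_lit 3665293421) (nat_lit 526) (nat_lit 1) (nat_lit 501) (nat_lit 1) (nat_lit 525) (nat_lit 1) (nat_lit 307) (nat_lit 359) (nat_lit 354))) (XT.nd (nat_lit 78) (nat_lit 0) (nat_lit 76) (XT.lf (nat_lit 1900) (nat_lit 3476228755) (nat_lit 76) (nat_lit 1378221081) (nat_lit 0) (nat_lit 1666506962) (nat_lit 526) (nat_lit 1) (nat_lit 502) (nat_lit 1) (nat_lit 501) (nat_lit 1) (nat_lit 308) (nat_lit 359) (nat_lit 353)) (XT.nd (nat_lit 78) (nat_lit 0) (nat_lit 76) (XT.lf (nat_lit 1900) (nat_lit 2996096824) (nat_lit 0) (nat_lit 3305925981) (nat_lit 1824) (nat_lit 126335450) (nat_lit 527) (nat_lit 1) (nat_lit 502) (nat_lit 1) (nat_lit 526) (nat_lit 1) (nat_lit 309) (nat_lit 359) (nat_lit 352)) (XT.lf (nat_lit 1900) (nat_lit 1179518783)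 (nat_lit 0) (nat_lit 3608922250) (nat_lit 1824) (nat_lit 1549027602) (nat_lit 528) (nat_lit 1) (nat_lit 503) (nat_lit 1) (nat_lit 527) (nat_lit 1) (nat_lit 310) (nat_lit 359) (nat_lit 351))))))))
noncomputable def ec49 : XT := (XT.nd (nat_lit 1404) (nat_lit 10564) (nat_lit 0) (XT.nd (nat_lit 702) (nat_lit 7068) (nat_lit 0) (XT.nd (nat_lit 312) (nat_lit 1596) (nat_lit 0) (XT.nd (nat_lit 156) (nat_lit 0) (nat_lit 152) (XT.nd (nat_lit 78) (nat_lit 0) (nat_lit 76) (XT.lf (nat_lit 1900) (nat_lit 2301152882) (nat_lit 76) (nat_lit 3334581406) (nat_lit 0) (nat_lit 612610037) (nat_lit 528) (nat_lit 1) (nat_lit 504) (nat_lit 1) (nat_lit 503) (nat_lit 1) (nat_lit 311) (nat_lit 359) (nat_lit 350)) (XT.lf (nat_lit 1900) (nat_lit 1838066774) (nat_lit 76) (nat_lit 1934954988) (nat_lit 0) (nat_lit 2387850166) (nat_lit 529) (nat_lit 1) (nat_lit 505) (nat_lit 1) (nat_lit 504) (nat_lit 1) (nat_lit 312) (nat_lit 359)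 (nat_lit 349))) (XT.nd (nat_lit 78) (nat_lit 0) (nat_lit 76) (XT.lf (nat_lit 1900) (nat_lit 1348606186) (nat_lit 76) (nat_lit 595677901) (nat_lit 0) (nat_lit 4130881568) (nat_lit 530) (nat_lit 1) (nat_lit 506) (nat_lit 1) (nat_lit 505) (nat_lit 1) (nat_lit 313) (nat_lit 359) (nat_lit 348)) (XT.lf (nat_lit 1900) (nat_lit 153570380) (nat_lit 0) (nat_lit 5161509519) (nat_lit 1824) (nat_lit 676016670) (nat_lit 531) (nat_lit 1) (nat_lit 506) (nat_lit 1) (nat_lit 530) (nat_lit 1) (nat_lit 314) (nat_lit 359) (nat_lit 347)))) (XT.nd (nat_lit 156) (nat_lit 0) (nat_lit 76) (XT.nd (nat_lit 78) (nat_lit 1824) (nat_lit 0) (XT.lf (nat_lit 1900) (nat_lit 272541141) (nat_lit 76) (nat_lit 4014154603) (nat_lit 0) (nat_lit 1621738318) (nat_lit 531) (nat_lit 1) (nat_lit 507) (nat_lit 1) (nat_lit 506) (nat_lit 1) (nat_lit 315) (nat_lit 359) (nat_lit 346)) (XT.lf (nat_lit 1976) (nat_lit 2463166567) (nat_lit 0) (nat_lit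 303382757) (nat_lit 1900) (nat_lit 3060822616) (nat_lit 508) (nat_lit 1) (nat_lit 482) (nat_lit 1) (nat_lit 507) (nat_lit 1) (nat_lit 316) (nat_lit 359) (nat_lit 345))) (XT.nd (nat_lit 78) (nat_lit 0) (nat_lit 0) (XT.lf (nat_lit 1976) (nat_lit 675613253) (nat_lit 0) (nat_lit 896143234) (nat_lit 1900) (nat_lit 4176138377) (nat_lit 509) (nat_lit 1) (nat_lit 483) (nat_lit 1) (nat_lit 508) (nat_lit 1) (nat_lit 317) (nat_lit 359) (nat_lit 344)) (XT.nd (nat_lit 78) (nat_lit 0) (nat_lit 76) (XT.lf (nat_lit 1976) (nat_lit 4154589906) (nat_lit 76) (nat_lit 422765128) (nat_lit 0) (nat_lit 1092504994) (nat_lit 509) (nat_lit 1) (nat_lit 484) (nat_lit 1) (nat_lit 483) (nat_lit 1) (nat_lit 318) (nat_lit 359) (nat_lit 343)) (XT.lf (nat_lit 76) (nat_lit 2761859984) (nat_lit 0) (nat_lit 2161208685) (nat_lit 1900) (nat_lit 670132493) (nat_lit 485) (nat_lit 1) (nat_lit 484) (nat_lit 1) (nat_lit 509) (nat_lit 1) (nat_lit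 319) (nat_lit 359) (nat_lit 342)))))) (XT.nd (nat_lit 312) (nat_lit 3420) (nat_lit 0) (XT.nd (nat_lit 156) (nat_lit 1748) (nat_lit 0) (XT.nd (nat_lit 78) (nat_lit 912) (nat_lit 0) (XT.lf (nat_lit 76) (nat_lit 983617823) (nat_lit 0) (nat_lit 2826471825) (nat_lit 1216) (nat_lit 1707922665) (nat_lit 470) (nat_lit 1) (nat_lit 469) (nat_lit 1) (nat_lit 485) (nat_lit 1) (nat_lit 320) (nat_lit 359) (nat_lit 341)) (XT.lf (nat_lit 988) (nat_lit 1931899296) (nat_lit 0) (nat_lit 2741619343) (nat_lit 912) (nat_lit 770695657) (nat_lit 470) (nat_lit 1) (nat_lit 457) (nat_lit 1) (nat_lit 469) (nat_lit 1) (nat_lit 321) (nat_lit 359) (nat_lit 340))) (XT.nd (nat_lit 78) (nat_lit 836) (nat_lit 0) (XT.lf (nat_lit 988) (nat_lit 1152730115) (nat_lit 0) (nat_lit 1714950607) (nat_lit 912) (nat_lit 2504068279) (nat_lit 458) (nat_lit 1) (nat_lit 445) (nat_lit 1) (nat_lit 457) (nat_lit 1) (nat_lit 322) (nat_lit 359) (nat_lit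 339)) (XT.lf (nat_lit 912) (nat_lit 361527323) (nat_lit 0) (nat_lit 735283417) (nat_lit 836) (nat_lit 4203902669) (nat_lit 446) (nat_lit 1) (nat_lit 434) (nat_lit 1) (nat_lit 445) (nat_lit 1) (nat_lit 323) (nat_lit 359) (nat_lit 338)))) (XT.nd (nat_lit 156) (nat_lit 2432) (nat_lit 0) (XT.nd (nat_lit 78) (nat_lit 912) (nat_lit 0) (XT.lf (nat_lit 76) (nat_lit 4587076994) (nat_lit 0) (nat_lit 440594080) (nat_lit 912) (nat_lit 203237009) (nat_lit 434) (nat_lit 1) (nat_lit 433) (nat_lit 1) (nat_lit 445) (nat_lit 1) (nat_lit 324) (nat_lit 359) (nat_lit 337)) (XT.lf (nat_lit 76) (nat_lit 2804642241) (nat_lit 0) (nat_lit 1259711602) (nat_lit 988) (nat_lit 1097837257) (nat_lit 422) (nat_lit 1) (nat_lit 421) (nat_lit 1) (nat_lit 434) (nat_lit 1) (nat_lit 325) (nat_lit 359) (nat_lit 336))) (XT.nd (nat_lit 78) (nat_lit 1596) (nat_lit 0) (XT.lf (nat_lit 76) (nat_lit 1057239661) (nat_lit 0) (nat_lit 2087757490)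 (nat_lit 912) (nat_lit 1949822707) (nat_lit 411) (nat_lit 1) (nat_lit 410) (nat_lit 1) (nat_lit 422) (nat_lit 1) (nat_lit 326) (nat_lit 359) (nat_lit 335)) (XT.nd (nat_lit 78) (nat_lit 760) (nat_lit 0) (XT.lf (nat_lit 912) (nat_lit 2100374399) (nat_lit 0) (nat_lit 2263932456) (nat_lit 836) (nat_lit 664371660) (nat_lit 411) (nat_lit 1) (nat_lit 399) (nat_lit 1) (nat_lit 410) (nat_lit 1) (nat_lit 327) (nat_lit 359) (nat_lit 334)) (XT.lf (nat_lit 836) (nat_lit 1180631649) (nat_lit 0) (nat_lit 1417457814) (nat_lit 760) (nat_lit 2365600367) (nat_lit 400) (nat_lit 1) (nat_lit 389) (nat_lit 1) (nat_lit 399) (nat_lit 1) (nat_lit 328) (nat_lit 359) (nat_lit 333))))))) (XT.nd (nat_lit 702) (nat_lit 5396) (nat_lit 0) (XT.nd (nat_lit 312) (nat_lit 2812) (nat_lit 0) (XT.nd (nat_lit 156) (nat_lit 1520) (nat_lit 0) (XT.nd (nat_lit 78) (nat_lit 76) (nat_lit 0) (XT.lf (nat_lit 836) (nat_lit 255580353) (nat_lit 0)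 (nat_lit 611461927) (nat_lit 760) (nat_lit 4032922384) (nat_lit 390) (nat_lit 1) (nat_lit 379) (nat_lit 1) (nat_lit 389) (nat_lit 1) (nat_lit 329) (nat_lit 359) (nat_lit 332)) (XT.lf (nat_lit 76) (nat_lit 4002381331) (nat_lit 0) (nat_lit 671813482) (nat_lit 836) (nat_lit 163063069) (nat_lit 379) (nat_lit 1) (nat_lit 378) (nat_lit 1) (nat_lit 389) (nat_lit 1) (nat_lit 330) (nat_lit 359) (nat_lit 331))) (XT.nd (nat_lit 78) (nat_lit 760) (nat_lit 0) (XT.lf (nat_lit 76) (nat_lit 2267306780) (nat_lit 0) (nat_lit 1609125139) (nat_lit 836) (nat_lit 899109699) (nat_lit 369) (nat_lit 1) (nat_lit 368) (nat_lit 1) (nat_lit 379) (nat_lit 1) (nat_lit 331) (nat_lit 359) (nat_lit 330)) (XT.lf (nat_lit 76) (nat_lit 567183880) (nat_lit 0) (nat_lit 2549438951) (nat_lit 836) (nat_lit 1598394035) (nat_lit 359) (nat_lit 1) (nat_lit 358) (nat_lit 1) (nat_lit 369) (nat_lit 1) (nat_lit 332) (nat_lit 359) (nat_lit 329))))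 (XT.nd (nat_lit 156) (nat_lit 1444) (nat_lit 0) (XT.nd (nat_lit 78) (nat_lit 684) (nat_lit 0) (XT.lf (nat_lit 760) (nat_lit 1156063096) (nat_lit 0) (nat_lit 2386300771) (nat_lit 684) (nat_lit 1113149398) (nat_lit 359) (nat_lit 1) (nat_lit 349) (nat_lit 1) (nat_lit 358) (nat_lit 1) (nat_lit 333) (nat_lit 359) (nat_lit 328)) (XT.lf (nat_lit 760) (nat_lit 142148884) (nat_lit 0) (nat_lit 1688192374) (nat_lit 684) (nat_lit 2766738724) (nat_lit 350) (nat_lit 1) (nat_lit 340) (nat_lit 1) (nat_lit 349) (nat_lit 1) (nat_lit 334) (nat_lit 359) (nat_lit 327))) (XT.nd (nat_lit 78) (nat_lit 684) (nat_lit 0) (XT.lf (nat_lit 76) (nat_lit 158823273) (nat_lit 0) (nat_lit 860464490) (nat_lit 760) (nat_lit 3520365975) (nat_lit 331) (nat_lit 1) (nat_lit 330) (nat_lit 1) (nat_lit 340) (nat_lit 1) (nat_lit 335) (nat_lit 359) (nat_lit 326)) (XT.nd (nat_lit 78) (nat_lit 0) (nat_lit 0) (XT.lf (nat_lit 760) (nat_lit 2612476970)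 (nat_lit 0) (nat_lit 373492430) (nat_lit 684) (nat_lit 1497141415) (nat_lit 331) (nat_lit 1) (nat_lit 321) (nat_lit 1) (nat_lit 330) (nat_lit 1) (nat_lit 336) (nat_lit 359) (nat_lit 325)) (XT.lf (nat_lit 76) (nat_lit 1308108069) (nat_lit 0) (nat_lit 2882472497) (nat_lit 760) (nat_lit 237012373) (nat_lit 322) (nat_lit 1) (nat_lit 321) (nat_lit 1) (nat_lit 331) (nat_lit 1) (nat_lit 337) (nat_lit 359) (nat_lit 324)))))) (XT.nd (nat_lit 390) (nat_lit 2356) (nat_lit 0) (XT.nd (nat_lit 156) (nat_lit 1748) (nat_lit 0) (XT.nd (nat_lit 78) (nat_lit 684) (nat_lit 0) (XT.lf (nat_lit 684) (nat_lit 475649400) (nat_lit 0) (nat_lit 3560052703) (nat_lit 608) (nat_lit 337338955) (nat_lit 322) (nat_lit 1) (nat_lit 313) (nat_lit 1) (nat_lit 321) (nat_lit 1) (nat_lit 338) (nat_lit 359) (nat_lit 323)) (XT.lf (nat_lit 76) (nat_lit 2357360321) (nat_lit 0) (nat_lit 591574455) (nat_lit 684) (nat_lit 1370344587) (nat_lit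 305) (nat_lit 1) (nat_lit 304) (nat_lit 1) (nat_lit 313) (nat_lit 1) (nat_lit 339) (nat_lit 359) (nat_lit 322))) (XT.nd (nat_lit 78) (nat_lit 1140) (nat_lit 0) (XT.lf (nat_lit 76) (nat_lit 716801097) (nat_lit 0) (nat_lit 1649119389) (nat_lit 684) (nat_lit 1900553854) (nat_lit 297) (nat_lit 1) (nat_lit 296) (nat_lit 1) (nat_lit 305) (nat_lit 1) (nat_lit 340) (nat_lit 359) (nat_lit 321)) (XT.nd (nat_lit 78) (nat_lit 532) (nat_lit 0) (XT.lf (nat_lit 684) (nat_lit 1505775055) (nat_lit 0) (nat_lit 1807288652) (nat_lit 608) (nat_lit 901485381) (nat_lit 297) (nat_lit 1) (nat_lit 288) (nat_lit 1) (nat_lit 296) (nat_lit 1) (nat_lit 341) (nat_lit 359) (nat_lit 320)) (XT.lf (nat_lit 608) (nat_lit 394616178) (nat_lit 0) (nat_lit 1273546458) (nat_lit 532) (nat_lit 2495347015) (nat_lit 289) (nat_lit 1) (nat_lit 281) (nat_lit 1) (nat_lit 288) (nat_lit 1) (nat_lit 342) (nat_lit 359) (nat_lit 319))))) (XT.nd (nat_lit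 156) (nat_lit 1140) (nat_lit 0) (XT.nd (nat_lit 78) (nat_lit 532) (nat_lit 0) (XT.lf (nat_lit 76) (nat_lit 62198300) (nat_lit 0) (nat_lit 701737962) (nat_lit 684) (nat_lit 3349401051) (nat_lit 273) (nat_lit 1) (nat_lit 272) (nat_lit 1) (nat_lit 281) (nat_lit 1) (nat_lit 343) (nat_lit 359) (nat_lit 318)) (XT.lf (nat_lit 608) (nat_lit 2266658962) (nat_lit 0) (nat_lit 269638875) (nat_lit 532) (nat_lit 1527557484) (nat_lit 273) (nat_lit 1) (nat_lit 265) (nat_lit 1) (nat_lit 272) (nat_lit 1) (nat_lit 344) (nat_lit 359) (nat_lit 317))) (XT.nd (nat_lit 78) (nat_lit 1140) (nat_lit 0) (XT.lf (nat_lit 76) (nat_lit 931958034) (nat_lit 0) (nat_lit 2888273227) (nat_lit 608) (nat_lit 195032792) (nat_lit 266) (nat_lit 1) (nat_lit 265) (nat_lit 1) (nat_lit 273) (nat_lit 1) (nat_lit 345) (nat_lit 359) (nat_lit 316)) (XT.nd (nat_lit 78) (nat_lit 532) (nat_lit 0) (XT.lf (nat_lit 76) (nat_lit 3322103102) (nat_lit 0)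 (nat_lit 11231021) (nat_lit 608) (nat_lit 634127029) (nat_lit 258) (nat_lit 1) (nat_lit 257) (nat_lit 1) (nat_lit 265) (nat_lit 1) (nat_lit 346) (nat_lit 359) (nat_lit 315)) (XT.lf (nat_lit 76) (nat_lit 1726179912) (nat_lit 0) (nat_lit 1133201237) (nat_lit 608) (nat_lit 1060902324) (nat_lit 251) (nat_lit 1) (nat_lit 250) (nat_lit 1) (nat_lit 258) (nat_lit 1) (nat_lit 347) (nat_lit 359) (nat_lit 314))))))))
noncomputable def ec50 : XT := (XT.nd (nat_lit 1404) (nat_lit 4788) (nat_lit 0) (XT.nd (nat_lit 702) (nat_lit 3572) (nat_lit 0) (XT.nd (nat_lit 312) (nat_lit 1900) (nat_lit 0) (XT.nd (nat_lit 156) (nat_lit 1064) (nat_lit 0) (XT.nd (nat_lit 78) (nat_lit 456) (nat_lit 0) (XT.lf (nat_lit 76) (nat_lit 163984018) (nat_lit 0) (nat_lit 2247380124) (nat_lit 608) (nat_lit 1462618014) (nat_lit 244) (nat_lit 1) (nat_lit 243) (nat_lit 1) (nat_lit 251) (nat_lit 1) (nat_lit 348) (nat_lit 359) (nat_lit 313))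 (XT.lf (nat_lit 532) (nat_lit 465748875) (nat_lit 0) (nat_lit 1979375260) (nat_lit 456) (nat_lit 1383235218) (nat_lit 244) (nat_lit 1) (nat_lit 237) (nat_lit 1) (nat_lit 243) (nat_lit 1) (nat_lit 349) (nat_lit 359) (nat_lit 312))) (XT.nd (nat_lit 78) (nat_lit 456) (nat_lit 0) (XT.lf (nat_lit 76) (nat_lit 888337054) (nat_lit 0) (nat_lit 678077364) (nat_lit 608) (nat_lit 2217055935) (nat_lit 230) (nat_lit 1) (nat_lit 229) (nat_lit 1) (nat_lit 237) (nat_lit 1) (nat_lit 350) (nat_lit 359) (nat_lit 311)) (XT.lf (nat_lit 532) (nat_lit 1928403185) (nat_lit 0) (nat_lit 1170152413) (nat_lit 456) (nat_lit 640710384) (nat_lit 230) (nat_lit 1) (nat_lit 223) (nat_lit 1) (nat_lit 229) (nat_lit 1) (nat_lit 351) (nat_lit 359) (nat_lit 310)))) (XT.nd (nat_lit 156) (nat_lit 912) (nat_lit 0) (XT.nd (nat_lit 78) (nat_lit 532) (nat_lit 0) (XT.lf (nat_lit 532) (nat_lit 755661126) (nat_lit 0) (nat_lit 791479302) (nat_lit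 456) (nat_lit 2148619796) (nat_lit 224) (nat_lit 1) (nat_lit 217) (nat_lit 1) (nat_lit 223) (nat_lit 1) (nat_lit 352) (nat_lit 359) (nat_lit 309)) (XT.lf (nat_lit 76) (nat_lit 31503194) (nat_lit 0) (nat_lit 401478318) (nat_lit 532) (nat_lit 3220018849) (nat_lit 211) (nat_lit 1) (nat_lit 210) (nat_lit 1) (nat_lit 217) (nat_lit 1) (nat_lit 353) (nat_lit 359) (nat_lit 308))) (XT.nd (nat_lit 78) (nat_lit 456) (nat_lit 0) (XT.lf (nat_lit 532) (nat_lit 2062692877) (nat_lit 0) (nat_lit 82045297) (nat_lit 456) (nat_lit 1465997487) (nat_lit 211) (nat_lit 1) (nat_lit 204) (nat_lit 1) (nat_lit 210) (nat_lit 1) (nat_lit 354) (nat_lit 359) (nat_lit 307)) (XT.nd (nat_lit 78) (nat_lit 456) (nat_lit 0) (XT.lf (nat_lit 76) (nat_lit 639204617) (nat_lit 0) (nat_lit 2685984778) (nat_lit 532) (nat_lit 244017125) (nat_lit 205) (nat_lit 1) (nat_lit 204) (nat_lit 1) (nat_lit 211) (nat_lit 1) (nat_lit 355) (nat_lit 359)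 (nat_lit 306)) (XT.lf (nat_lit 76) (nat_lit 2685626960) (nat_lit 0) (nat_lit 287205268) (nat_lit 456) (nat_lit 555445845) (nat_lit 199) (nat_lit 1) (nat_lit 198) (nat_lit 1) (nat_lit 204) (nat_lit 1) (nat_lit 356) (nat_lit 359) (nat_lit 305)))))) (XT.nd (nat_lit 312) (nat_lit 1900) (nat_lit 0) (XT.nd (nat_lit 156) (nat_lit 836) (nat_lit 0) (XT.nd (nat_lit 78) (nat_lit 380) (nat_lit 0) (XT.lf (nat_lit 76) (nat_lit 1192811555) (nat_lit 0) (nat_lit 1438850798) (nat_lit 532) (nat_lit 856236918) (nat_lit 193) (nat_lit 1) (nat_lit 192) (nat_lit 1) (nat_lit 199) (nat_lit 1) (nat_lit 357) (nat_lit 359) (nat_lit 304)) (XT.lf (nat_lit 456) (nat_lit 867388345) (nat_lit 0) (nat_lit 2309436631) (nat_lit 380) (nat_lit 271394028) (nat_lit 193) (nat_lit 1) (nat_lit 187) (nat_lit 1) (nat_lit 192) (nat_lit 1) (nat_lit 358) (nat_lit 359) (nat_lit 303))) (XT.nd (nat_lit 78) (nat_lit 380) (nat_lit 0) (XT.lf (nat_lit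 76) (nat_lit 1691648461) (nat_lit 0) (nat_lit 305861570) (nat_lit 456) (nat_lit 1411554551) (nat_lit 182) (nat_lit 1) (nat_lit 181) (nat_lit 1) (nat_lit 187) (nat_lit 1) (nat_lit 359) (nat_lit 359) (nat_lit 302)) (XT.lf (nat_lit 76) (nat_lit 244111216) (nat_lit 0) (nat_lit 1455579387) (nat_lit 456) (nat_lit 1670816930) (nat_lit 177) (nat_lit 1) (nat_lit 176) (nat_lit 1) (nat_lit 182) (nat_lit 1) (nat_lit 360) (nat_lit 359) (nat_lit 301)))) (XT.nd (nat_lit 156) (nat_lit 1140) (nat_lit 0) (XT.nd (nat_lit 78) (nat_lit 380) (nat_lit 0) (XT.lf (nat_lit 456) (nat_lit 731604083) (nat_lit 0) (nat_lit 1413286191) (nat_lit 380) (nat_lit 1187601676) (nat_lit 177) (nat_lit 1) (nat_lit 171) (nat_lit 1) (nat_lit 176) (nat_lit 1) (nat_lit 361) (nat_lit 359) (nat_lit 300)) (XT.lf (nat_lit 76) (nat_lit 706642563) (nat_lit 0) (nat_lit 434614143) (nat_lit 380) (nat_lit 2153816087) (nat_lit 167) (nat_lit 1) (nat_lit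 166) (nat_lit 1) (nat_lit 171) (nat_lit 1) (nat_lit 362) (nat_lit 359) (nat_lit 299))) (XT.nd (nat_lit 78) (nat_lit 760) (nat_lit 0) (XT.lf (nat_lit 456) (nat_lit 1675063893) (nat_lit 0) (nat_lit 878182021) (nat_lit 380) (nat_lit 704894810) (nat_lit 167) (nat_lit 1) (nat_lit 161) (nat_lit 1) (nat_lit 166) (nat_lit 1) (nat_lit 363) (nat_lit 359) (nat_lit 298)) (XT.nd (nat_lit 78) (nat_lit 456) (nat_lit 0) (XT.lf (nat_lit 380) (nat_lit 498465457) (nat_lit 0) (nat_lit 628505223) (nat_lit 304) (nat_lit 2094809164) (nat_lit 162) (nat_lit 1) (nat_lit 157) (nat_lit 1) (nat_lit 161) (nat_lit 1) (nat_lit 364) (nat_lit 359) (nat_lit 297)) (XT.lf (nat_lit 456) (nat_lit 2528250589) (nat_lit 0) (nat_lit 390271257) (nat_lit 380) (nat_lit 267426975) (nat_lit 157) (nat_lit 1) (nat_lit 151) (nat_lit 1) (nat_lit 156) (nat_lit 1) (nat_lit 365) (nat_lit 359) (nat_lit 296))))))) (XT.nd (nat_lit 702) (nat_lit 2204) (nat_lit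 0) (XT.nd (nat_lit 312) (nat_lit 1596) (nat_lit 0) (XT.nd (nat_lit 156) (nat_lit 684) (nat_lit 0) (XT.nd (nat_lit 78) (nat_lit 0) (nat_lit 0) (XT.lf (nat_lit 380) (nat_lit 1349222483) (nat_lit 0) (nat_lit 158592548) (nat_lit 304) (nat_lit 1642733824) (nat_lit 152) (nat_lit 1) (nat_lit 147) (nat_lit 1) (nat_lit 151) (nat_lit 1) (nat_lit 366) (nat_lit 359) (nat_lit 295)) (XT.lf (nat_lit 76) (nat_lit 128297253) (nat_lit 0) (nat_lit 2932020574) (nat_lit 380) (nat_lit 55454614) (nat_lit 148) (nat_lit 1) (nat_lit 147) (nat_lit 1) (nat_lit 152) (nat_lit 1) (nat_lit 367) (nat_lit 359) (nat_lit 294))) (XT.nd (nat_lit 78) (nat_lit 304) (nat_lit 0) (XT.lf (nat_lit 76) (nat_lit 1851494604) (nat_lit 0) (nat_lit 964211215) (nat_lit 380) (nat_lit 265602676) (nat_lit 143) (nat_lit 1) (nat_lit 142) (nat_lit 1) (nat_lit 147) (nat_lit 1) (nat_lit 368) (nat_lit 359) (nat_lit 293)) (XT.lf (nat_lit 76) (nat_lit 488847091)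 (nat_lit 0) (nat_lit 2096780293) (nat_lit 380) (nat_lit 461790171) (nat_lit 139) (nat_lit 1) (nat_lit 138) (nat_lit 1) (nat_lit 143) (nat_lit 1) (nat_lit 369) (nat_lit 359) (nat_lit 292)))) (XT.nd (nat_lit 156) (nat_lit 912) (nat_lit 0) (XT.nd (nat_lit 78) (nat_lit 304) (nat_lit 0) (XT.lf (nat_lit 76) (nat_lit 2160205141) (nat_lit 0) (nat_lit 204449342) (nat_lit 380) (nat_lit 649335911) (nat_lit 134) (nat_lit 1) (nat_lit 133) (nat_lit 1) (nat_lit 138) (nat_lit 1) (nat_lit 370) (nat_lit 359) (nat_lit 291)) (XT.lf (nat_lit 76) (nat_lit 813944812) (nat_lit 0) (nat_lit 1336107074) (nat_lit 380) (nat_lit 830918724) (nat_lit 130) (nat_lit 1) (nat_lit 129) (nat_lit 1) (nat_lit 134) (nat_lit 1) (nat_lit 371) (nat_lit 359) (nat_lit 290))) (XT.nd (nat_lit 78) (nat_lit 608) (nat_lit 0) (XT.lf (nat_lit 380) (nat_lit 491462737) (nat_lit 0) (nat_lit 1947586083) (nat_lit 304) (nat_lit 509419710) (nat_lit 130) (nat_lit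 1) (nat_lit 125) (nat_lit 1) (nat_lit 129) (nat_lit 1) (nat_lit 372) (nat_lit 359) (nat_lit 289)) (XT.nd (nat_lit 78) (nat_lit 304) (nat_lit 0) (XT.lf (nat_lit 76) (nat_lit 1106455456) (nat_lit 0) (nat_lit 644139060) (nat_lit 304) (nat_lit 1165756284) (nat_lit 122) (nat_lit 1) (nat_lit 121) (nat_lit 1) (nat_lit 125) (nat_lit 1) (nat_lit 373) (nat_lit 359) (nat_lit 288)) (XT.lf (nat_lit 380) (nat_lit 1124502618) (nat_lit 0) (nat_lit 1563964705) (nat_lit 304) (nat_lit 196243239) (nat_lit 122) (nat_lit 1) (nat_lit 117) (nat_lit 1) (nat_lit 121) (nat_lit 1) (nat_lit 374) (nat_lit 359) (nat_lit 287)))))) (XT.nd (nat_lit 390) (nat_lit 760) (nat_lit 0) (XT.nd (nat_lit 156) (nat_lit 836) (nat_lit 0) (XT.nd (nat_lit 78) (nat_lit 304) (nat_lit 0) (XT.lf (nat_lit 76) (nat_lit 1369022908) (nat_lit 0) (nat_lit 15462901) (nat_lit 304) (nat_lit 1468996389) (nat_lit 114) (nat_lit 1) (nat_lit 113) (nat_lit 1) (nat_lit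 117) (nat_lit 1) (nat_lit 375) (nat_lit 359) (nat_lit 286)) (XT.lf (nat_lit 76) (nat_lit 85842142) (nat_lit 0) (nat_lit 1126073025) (nat_lit 380) (nat_lit 1610743143) (nat_lit 110) (nat_lit 1) (nat_lit 109) (nat_lit 1) (nat_lit 114) (nat_lit 1) (nat_lit 376) (nat_lit 359) (nat_lit 285))) (XT.nd (nat_lit 78) (nat_lit 608) (nat_lit 0) (XT.lf (nat_lit 304) (nat_lit 562294941) (nat_lit 0) (nat_lit 1045442612) (nat_lit 228) (nat_lit 1184482849) (nat_lit 110) (nat_lit 1) (nat_lit 106) (nat_lit 1) (nat_lit 109) (nat_lit 1) (nat_lit 377) (nat_lit 359) (nat_lit 284)) (XT.nd (nat_lit 78) (nat_lit 228) (nat_lit 0) (XT.lf (nat_lit 76) (nat_lit 338174243) (nat_lit 0) (nat_lit 550253597) (nat_lit 380) (nat_lit 1873803923) (nat_lit 102) (nat_lit 1) (nat_lit 101) (nat_lit 1) (nat_lit 106) (nat_lit 1) (nat_lit 378) (nat_lit 359) (nat_lit 283)) (XT.lf (nat_lit 304) (nat_lit 1085868069) (nat_lit 0) (nat_lit 735080007)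 (nat_lit 228) (nat_lit 911628210) (nat_lit 102) (nat_lit 1) (nat_lit 98) (nat_lit 1) (nat_lit 101) (nat_lit 1) (nat_lit 379) (nat_lit 359) (nat_lit 282))))) (XT.nd (nat_lit 156) (nat_lit 228) (nat_lit 0) (XT.nd (nat_lit 78) (nat_lit 228) (nat_lit 0) (XT.lf (nat_lit 76) (nat_lit 565521403) (nat_lit 0) (nat_lit 26985072) (nat_lit 304) (nat_lit 2110884320) (nat_lit 95) (nat_lit 1) (nat_lit 94) (nat_lit 1) (nat_lit 98) (nat_lit 1) (nat_lit 380) (nat_lit 359) (nat_lit 281)) (XT.lf (nat_lit 304) (nat_lit 1559369903) (nat_lit 0) (nat_lit 451287454) (nat_lit 228) (nat_lit 663830719) (nat_lit 95) (nat_lit 1) (nat_lit 91) (nat_lit 1) (nat_lit 94) (nat_lit 1) (nat_lit 381) (nat_lit 359) (nat_lit 280))) (XT.nd (nat_lit 46722) (nat_lit 0) (nat_lit 31084) (XT.lf (nat_lit 304) (nat_lit 453831431) (nat_lit 0) (nat_lit 319023925) (nat_lit 228) (nat_lit 1873159324) (nat_lit 92) (nat_lit 1) (nat_lit 88) (nat_lit 1)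 (nat_lit 91) (nat_lit 1) (nat_lit 382) (nat_lit 359) (nat_lit 279)) (XT.nd (nat_lit 78) (nat_lit 0) (nat_lit 76) (XT.lf (nat_lit 1900) (nat_lit 1218231568) (nat_lit 0) (nat_lit 1228418818) (nat_lit 1900) (nat_lit 1218231568) (nat_lit 522) (nat_lit 1) (nat_lit 497) (nat_lit 0) (nat_lit 522) (nat_lit 0) (nat_lit 300) (nat_lit 360) (nat_lit 360)) (XT.lf (nat_lit 1900) (nat_lit 563108406) (nat_lit 0) (nat_lit 2444313821) (nat_lit 1824) (nat_lit 4215132441) (nat_lit 523) (nat_lit 1) (nat_lit 498) (nat_lit 1) (nat_lit 522) (nat_lit 1) (nat_lit 301) (nat_lit 360) (nat_lit 359))))))))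
noncomputable def ec51 : XT := (XT.nd (nat_lit 1404) (nat_lit 12236) (nat_lit 0) (XT.nd (nat_lit 702) (nat_lit 3116) (nat_lit 0) (XT.nd (nat_lit 312) (nat_lit 0) (nat_lit 228) (XT.nd (nat_lit 156) (nat_lit 0) (nat_lit 152) (XT.nd (nat_lit 78) (nat_lit 0) (nat_lit 76) (XT.lf (nat_lit 1900) (nat_lit 4630986885) (nat_lit 76) (nat_lit 1190695196) (nat_lit 0) (nat_lit 1295701115) (nat_lit 523) (nat_lit 1) (nat_lit 499) (nat_lit 1) (nat_lit 498) (nat_lit 1) (nat_lit 302) (nat_lit 360) (nat_lit 358)) (XT.lf (nat_lit 1900) (nat_lit 3887615976) (nat_lit 0) (nat_lit 2579752949) (nat_lit 1824) (nat_lit 546856046) (nat_lit 524) (nat_lit 1) (nat_lit 499) (nat_lit 1) (nat_lit 523) (nat_lit 1) (nat_lit 303) (nat_lit 360) (nat_lit 357))) (XT.nd (nat_lit 78) (nat_lit 0) (nat_lit 76) (XT.lf (nat_lit 1900) (nat_lit 1994377534) (nat_lit 0) (nat_lit 2722390170) (nat_lit 1824) (nat_lit 2196263658) (nat_lit 525) (nat_lit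 1) (nat_lit 500) (nat_lit 1) (nat_lit 524) (nat_lit 1) (nat_lit 304) (nat_lit 360) (nat_lit 356)) (XT.lf (nat_lit 1900) (nat_lit 133942346) (nat_lit 0) (nat_lit 2904713753) (nat_lit 1824) (nat_lit 3775252224) (nat_lit 526) (nat_lit 1) (nat_lit 501) (nat_lit 1) (nat_lit 525) (nat_lit 1) (nat_lit 305) (nat_lit 360) (nat_lit 355)))) (XT.nd (nat_lit 156) (nat_lit 0) (nat_lit 152) (XT.nd (nat_lit 78) (nat_lit 0) (nat_lit 76) (XT.lf (nat_lit 1900) (nat_lit 3580515618) (nat_lit 76) (nat_lit 1419567714) (nat_lit 0) (nat_lit 1716502171) (nat_lit 526) (nat_lit 1) (nat_lit 502) (nat_lit 1) (nat_lit 501) (nat_lit 1) (nat_lit 306) (nat_lit 360) (nat_lit 354)) (XT.lf (nat_lit 1900) (nat_lit 3085979729) (nat_lit 0) (nat_lit 3405103760) (nat_lit 1824) (nat_lit 130125513) (nat_lit 527) (nat_lit 1) (nat_lit 502) (nat_lit 1) (nat_lit 526) (nat_lit 1) (nat_lit 307) (nat_lit 360) (nat_lit 353))) (XT.nd (nat_lit 78) (nat_lit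 0) (nat_lit 0) (XT.lf (nat_lit 1900) (nat_lit 1214904346) (nat_lit 0) (nat_lit 3717189918) (nat_lit 1824) (nat_lit 1595498431) (nat_lit 528) (nat_lit 1) (nat_lit 503) (nat_lit 1) (nat_lit 527) (nat_lit 1) (nat_lit 308) (nat_lit 360) (nat_lit 352)) (XT.nd (nat_lit 78) (nat_lit 0) (nat_lit 76) (XT.lf (nat_lit 1900) (nat_lit 2370187469) (nat_lit 76) (nat_lit 3434618848) (nat_lit 0) (nat_lit 630988338) (nat_lit 528) (nat_lit 1) (nat_lit 504) (nat_lit 1) (nat_lit 503) (nat_lit 1) (nat_lit 309) (nat_lit 360) (nat_lit 351)) (XT.lf (nat_lit 1900) (nat_lit 1893208778) (nat_lit 76) (nat_lit 1993003638) (nat_lit 0) (nat_lit 2459485671) (nat_lit 529) (nat_lit 1) (nat_lit 505) (nat_lit 1) (nat_lit 504) (nat_lit 1) (nat_lit 310) (nat_lit 360) (nat_lit 350)))))) (XT.nd (nat_lit 312) (nat_lit 1900) (nat_lit 0) (XT.nd (nat_lit 156) (nat_lit 1748) (nat_lit 0) (XT.nd (nat_lit 78) (nat_lit 0) (nat_lit 76) (XT.lf (nat_lit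 1900) (nat_lit 1389064372) (nat_lit 76) (nat_lit 613548238) (nat_lit 0) (nat_lit 4254808015) (nat_lit 530) (nat_lit 1) (nat_lit 506) (nat_lit 1) (nat_lit 505) (nat_lit 1) (nat_lit 311) (nat_lit 360) (nat_lit 349)) (XT.lf (nat_lit 1900) (nat_lit 158177492) (nat_lit 0) (nat_lit 5316354805) (nat_lit 1824) (nat_lit 696297170) (nat_lit 531) (nat_lit 1) (nat_lit 506) (nat_lit 1) (nat_lit 530) (nat_lit 1) (nat_lit 312) (nat_lit 360) (nat_lit 348))) (XT.nd (nat_lit 78) (nat_lit 1824) (nat_lit 0) (XT.lf (nat_lit 1900) (nat_lit 280717376) (nat_lit 76) (nat_lit 4134579241) (nat_lit 0) (nat_lit 1670390467) (nat_lit 531) (nat_lit 1) (nat_lit 507) (nat_lit 1) (nat_lit 506) (nat_lit 1) (nat_lit 313) (nat_lit 360) (nat_lit 347)) (XT.lf (nat_lit 1976) (nat_lit 2537061564) (nat_lit 0) (nat_lit 312484240) (nat_lit 1900) (nat_lit 3152647295) (nat_lit 508) (nat_lit 1) (nat_lit 482) (nat_lit 1) (nat_lit 507) (nat_lit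 1) (nat_lit 314) (nat_lit 360) (nat_lit 346)))) (XT.nd (nat_lit 156) (nat_lit 1976) (nat_lit 0) (XT.nd (nat_lit 78) (nat_lit 0) (nat_lit 0) (XT.lf (nat_lit 1976) (nat_lit 695881650) (nat_lit 0) (nat_lit 923027531) (nat_lit 1900) (nat_lit 4301422529) (nat_lit 509) (nat_lit 1) (nat_lit 483) (nat_lit 1) (nat_lit 508) (nat_lit 1) (nat_lit 315) (nat_lit 360) (nat_lit 345)) (XT.lf (nat_lit 1976) (nat_lit 4279227603) (nat_lit 76) (nat_lit 435448082) (nat_lit 0) (nat_lit 1125280144) (nat_lit 509) (nat_lit 1) (nat_lit 484) (nat_lit 1) (nat_lit 483) (nat_lit 1) (nat_lit 316) (nat_lit 360) (nat_lit 344))) (XT.nd (nat_lit 78) (nat_lit 2052) (nat_lit 0) (XT.lf (nat_lit 76) (nat_lit 2844715784) (nat_lit 0) (nat_lit 2226044946) (nat_lit 1900) (nat_lit 690236468) (nat_lit 485) (nat_lit 1) (nat_lit 484) (nat_lit 1) (nat_lit 509) (nat_lit 1) (nat_lit 317) (nat_lit 360) (nat_lit 343)) (XT.nd (nat_lit 78) (nat_lit 912)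 (nat_lit 0) (XT.lf (nat_lit 76) (nat_lit 1013126357) (nat_lit 0) (nat_lit 2911265979) (nat_lit 1216) (nat_lit 1759160345) (nat_lit 470) (nat_lit 1) (nat_lit 469) (nat_lit 1) (nat_lit 485) (nat_lit 1) (nat_lit 318) (nat_lit 360) (nat_lit 342)) (XT.lf (nat_lit 988) (nat_lit 1989856275) (nat_lit 0) (nat_lit 2823867923) (nat_lit 912) (nat_lit 793816527) (nat_lit 470) (nat_lit 1) (nat_lit 457) (nat_lit 1) (nat_lit 469) (nat_lit 1) (nat_lit 319) (nat_lit 360) (nat_lit 341))))))) (XT.nd (nat_lit 702) (nat_lit 6232) (nat_lit 0) (XT.nd (nat_lit 312) (nat_lit 3268) (nat_lit 0) (XT.nd (nat_lit 156) (nat_lit 988) (nat_lit 0) (XT.nd (nat_lit 78) (nat_lit 836) (nat_lit 0) (XT.lf (nat_lit 988) (nat_lit 1187312019) (nat_lit 0) (nat_lit 1766399125) (nat_lit 912) (nat_lit 2579190328) (nat_lit 458) (nat_lit 1) (nat_lit 445) (nat_lit 1) (nat_lit 457) (nat_lit 1) (nat_lit 320) (nat_lit 360) (nat_lit 340)) (XT.lf (nat_lit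 912) (nat_lit 372373143) (nat_lit 0) (nat_lit 757341919) (nat_lit 836) (nat_lit 4330019750) (nat_lit 446) (nat_lit 1) (nat_lit 434) (nat_lit 1) (nat_lit 445) (nat_lit 1) (nat_lit 321) (nat_lit 360) (nat_lit 339))) (XT.nd (nat_lit 78) (nat_lit 912) (nat_lit 0) (XT.lf (nat_lit 76) (nat_lit 4724689304) (nat_lit 0) (nat_lit 453811903) (nat_lit 912) (nat_lit 209334119) (nat_lit 434) (nat_lit 1) (nat_lit 433) (nat_lit 1) (nat_lit 445) (nat_lit 1) (nat_lit 322) (nat_lit 360) (nat_lit 338)) (XT.lf (nat_lit 76) (nat_lit 2888781508) (nat_lit 0) (nat_lit 1297502950) (nat_lit 988) (nat_lit 1130772375) (nat_lit 422) (nat_lit 1) (nat_lit 421) (nat_lit 1) (nat_lit 434) (nat_lit 1) (nat_lit 323) (nat_lit 360) (nat_lit 337)))) (XT.nd (nat_lit 156) (nat_lit 1596) (nat_lit 0) (XT.nd (nat_lit 78) (nat_lit 836) (nat_lit 0) (XT.lf (nat_lit 76) (nat_lit 1088956851) (nat_lit 0) (nat_lit 2150390215) (nat_lit 912) (nat_lit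 2008317388) (nat_lit 411) (nat_lit 1) (nat_lit 410) (nat_lit 1) (nat_lit 422) (nat_lit 1) (nat_lit 324) (nat_lit 360) (nat_lit 336)) (XT.lf (nat_lit 912) (nat_lit 2163385631) (nat_lit 0) (nat_lit 2331850430) (nat_lit 836) (nat_lit 684302809) (nat_lit 411) (nat_lit 1) (nat_lit 399) (nat_lit 1) (nat_lit 410) (nat_lit 1) (nat_lit 325) (nat_lit 360) (nat_lit 335))) (XT.nd (nat_lit 78) (nat_lit 836) (nat_lit 0) (XT.lf (nat_lit 836) (nat_lit 1216050599) (nat_lit 0) (nat_lit 1459981548) (nat_lit 760) (nat_lit 2436568378) (nat_lit 400) (nat_lit 1) (nat_lit 389) (nat_lit 1) (nat_lit 399) (nat_lit 1) (nat_lit 326) (nat_lit 360) (nat_lit 334)) (XT.nd (nat_lit 78) (nat_lit 76) (nat_lit 0) (XT.lf (nat_lit 836) (nat_lit 263247763) (nat_lit 0) (nat_lit 629805785) (nat_lit 760) (nat_lit 4153910055) (nat_lit 390) (nat_lit 1) (nat_lit 379) (nat_lit 1) (nat_lit 389) (nat_lit 1) (nat_lit 327) (nat_lit 360) (nat_lit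 333)) (XT.lf (nat_lit 76) (nat_lit 4122452771) (nat_lit 0) (nat_lit 691967887) (nat_lit 836) (nat_lit 167954961) (nat_lit 379) (nat_lit 1) (nat_lit 378) (nat_lit 1) (nat_lit 389) (nat_lit 1) (nat_lit 328) (nat_lit 360) (nat_lit 332)))))) (XT.nd (nat_lit 390) (nat_lit 2584) (nat_lit 0) (XT.nd (nat_lit 156) (nat_lit 2128) (nat_lit 0) (XT.nd (nat_lit 78) (nat_lit 760) (nat_lit 0) (XT.lf (nat_lit 76) (nat_lit 2335325984) (nat_lit 0) (nat_lit 1657398894) (nat_lit 836) (nat_lit 926082990) (nat_lit 369) (nat_lit 1) (nat_lit 368) (nat_lit 1) (nat_lit 379) (nat_lit 1) (nat_lit 329) (nat_lit 360) (nat_lit 331)) (XT.lf (nat_lit 76) (nat_lit 584199396) (nat_lit 0) (nat_lit 2625922119) (nat_lit 836) (nat_lit 1646345856) (nat_lit 359) (nat_lit 1) (nat_lit 358) (nat_lit 1) (nat_lit 369) (nat_lit 1) (nat_lit 330) (nat_lit 360) (nat_lit 330))) (XT.nd (nat_lit 78) (nat_lit 1444) (nat_lit 0) (XT.lf (nat_lit 760) (nat_lit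 1190744989) (nat_lit 0) (nat_lit 2457889794) (nat_lit 684) (nat_lit 1146543880) (nat_lit 359) (nat_lit 1) (nat_lit 349) (nat_lit 1) (nat_lit 358) (nat_lit 1) (nat_lit 331) (nat_lit 360) (nat_lit 329)) (XT.nd (nat_lit 78) (nat_lit 760) (nat_lit 0) (XT.lf (nat_lit 760) (nat_lit 146413351) (nat_lit 0) (nat_lit 1738838145) (nat_lit 684) (nat_lit 2849740885) (nat_lit 350) (nat_lit 1) (nat_lit 340) (nat_lit 1) (nat_lit 349) (nat_lit 1) (nat_lit 332) (nat_lit 360) (nat_lit 328)) (XT.lf (nat_lit 76) (nat_lit 163587971) (nat_lit 0) (nat_lit 886278425) (nat_lit 760) (nat_lit 3625976954) (nat_lit 331) (nat_lit 1) (nat_lit 330) (nat_lit 1) (nat_lit 340) (nat_lit 1) (nat_lit 333) (nat_lit 360) (nat_lit 327))))) (XT.nd (nat_lit 156) (nat_lit 1900) (nat_lit 0) (XT.nd (nat_lit 78) (nat_lit 0) (nat_lit 0) (XT.lf (nat_lit 760) (nat_lit 2690851279) (nat_lit 0) (nat_lit 384697203) (nat_lit 684) (nat_lit 1542055657)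 (nat_lit 331) (nat_lit 1) (nat_lit 321) (nat_lit 1) (nat_lit 330) (nat_lit 1) (nat_lit 334) (nat_lit 360) (nat_lit 326)) (XT.lf (nat_lit 76) (nat_lit 1347351311) (nat_lit 0) (nat_lit 2968946672) (nat_lit 760) (nat_lit 244122745) (nat_lit 322) (nat_lit 1) (nat_lit 321) (nat_lit 1) (nat_lit 331) (nat_lit 1) (nat_lit 335) (nat_lit 360) (nat_lit 325))) (XT.nd (nat_lit 78) (nat_lit 1292) (nat_lit 0) (XT.lf (nat_lit 684) (nat_lit 489918882) (nat_lit 0) (nat_lit 3666854285) (nat_lit 608) (nat_lit 347459124) (nat_lit 322) (nat_lit 1) (nat_lit 313) (nat_lit 1) (nat_lit 321) (nat_lit 1) (nat_lit 336) (nat_lit 360) (nat_lit 324)) (XT.nd (nat_lit 78) (nat_lit 608) (nat_lit 0) (XT.lf (nat_lit 76) (nat_lit 2428081131) (nat_lit 0) (nat_lit 609321688) (nat_lit 684) (nat_lit 1411454924) (nat_lit 305) (nat_lit 1) (nat_lit 304) (nat_lit 1) (nat_lit 313) (nat_lit 1) (nat_lit 337) (nat_lit 360) (nat_lit 323)) (XT.lf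 (nat_lit 76) (nat_lit 738305130) (nat_lit 0) (nat_lit 1698592971) (nat_lit 684) (nat_lit 1957570470) (nat_lit 297) (nat_lit 1) (nat_lit 296) (nat_lit 1) (nat_lit 305) (nat_lit 1) (nat_lit 338) (nat_lit 360) (nat_lit 322))))))))
noncomputable def ec52 : XT := (XT.nd (nat_lit 1404) (nat_lit 6156) (nat_lit 0) (XT.nd (nat_lit 702) (nat_lit 3800) (nat_lit 0) (XT.nd (nat_lit 312) (nat_lit 2128) (nat_lit 0) (XT.nd (nat_lit 156) (nat_lit 1216) (nat_lit 0) (XT.nd (nat_lit 78) (nat_lit 532) (nat_lit 0) (XT.lf (nat_lit 684) (nat_lit 1550948306) (nat_lit 0) (nat_lit 1861507312) (nat_lit 608) (nat_lit 928529942) (nat_lit 297) (nat_lit 1) (nat_lit 288) (nat_lit 1) (nat_lit 296) (nat_lit 1) (nat_lit 339) (nat_lit 360) (nat_lit 321)) (XT.lf (nat_lit 608) (nat_lit 406454663) (nat_lit 0) (nat_lit 1311752852) (nat_lit 532) (nat_lit 2570207426) (nat_lit 289) (nat_lit 1) (nat_lit 281) (nat_lit 1) (nat_lit 288) (nat_lit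 1) (nat_lit 340) (nat_lit 360) (nat_lit 320))) (XT.nd (nat_lit 78) (nat_lit 532) (nat_lit 0) (XT.lf (nat_lit 76) (nat_lit 64064249) (nat_lit 0) (nat_lit 722790101) (nat_lit 684) (nat_lit 3449883083) (nat_lit 273) (nat_lit 1) (nat_lit 272) (nat_lit 1) (nat_lit 281) (nat_lit 1) (nat_lit 341) (nat_lit 360) (nat_lit 319)) (XT.lf (nat_lit 608) (nat_lit 2334658731) (nat_lit 0) (nat_lit 277728042) (nat_lit 532) (nat_lit 1573384208) (nat_lit 273) (nat_lit 1) (nat_lit 265) (nat_lit 1) (nat_lit 272) (nat_lit 1) (nat_lit 342) (nat_lit 360) (nat_lit 318)))) (XT.nd (nat_lit 156) (nat_lit 1520) (nat_lit 0) (XT.nd (nat_lit 78) (nat_lit 608) (nat_lit 0) (XT.lf (nat_lit 76) (nat_lit 959916775) (nat_lit 0) (nat_lit 2974921424) (nat_lit 608) (nat_lit 200883776) (nat_lit 266) (nat_lit 1) (nat_lit 265) (nat_lit 1) (nat_lit 273) (nat_lit 1) (nat_lit 343) (nat_lit 360) (nat_lit 317)) (XT.lf (nat_lit 76) (nat_lit 3421766195)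 (nat_lit 0) (nat_lit 11567951) (nat_lit 608) (nat_lit 653150840) (nat_lit 258) (nat_lit 1) (nat_lit 257) (nat_lit 1) (nat_lit 265) (nat_lit 1) (nat_lit 344) (nat_lit 360) (nat_lit 316))) (XT.nd (nat_lit 78) (nat_lit 988) (nat_lit 0) (XT.lf (nat_lit 76) (nat_lit 1777965310) (nat_lit 0) (nat_lit 1167197275) (nat_lit 608) (nat_lit 1092729394) (nat_lit 251) (nat_lit 1) (nat_lit 250) (nat_lit 1) (nat_lit 258) (nat_lit 1) (nat_lit 345) (nat_lit 360) (nat_lit 315)) (XT.nd (nat_lit 78) (nat_lit 456) (nat_lit 0) (XT.lf (nat_lit 76) (nat_lit 168903538) (nat_lit 0) (nat_lit 2314801528) (nat_lit 608) (nat_lit 1506496554) (nat_lit 244) (nat_lit 1) (nat_lit 243) (nat_lit 1) (nat_lit 251) (nat_lit 1) (nat_lit 346) (nat_lit 360) (nat_lit 314)) (XT.lf (nat_lit 532) (nat_lit 479721341) (nat_lit 0) (nat_lit 2038756518) (nat_lit 456) (nat_lit 1424732275) (nat_lit 244) (nat_lit 1) (nat_lit 237) (nat_lit 1) (nat_lit 243)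 (nat_lit 1) (nat_lit 347) (nat_lit 360) (nat_lit 313)))))) (XT.nd (nat_lit 312) (nat_lit 1748) (nat_lit 0) (XT.nd (nat_lit 156) (nat_lit 988) (nat_lit 0) (XT.nd (nat_lit 78) (nat_lit 456) (nat_lit 0) (XT.lf (nat_lit 76) (nat_lit 914987166) (nat_lit 0) (nat_lit 698419685) (nat_lit 608) (nat_lit 2283567613) (nat_lit 230) (nat_lit 1) (nat_lit 229) (nat_lit 1) (nat_lit 237) (nat_lit 1) (nat_lit 348) (nat_lit 360) (nat_lit 312)) (XT.lf (nat_lit 532) (nat_lit 1986255281) (nat_lit 0) (nat_lit 1205256985) (nat_lit 456) (nat_lit 659931696) (nat_lit 230) (nat_lit 1) (nat_lit 223) (nat_lit 1) (nat_lit 229) (nat_lit 1) (nat_lit 349) (nat_lit 360) (nat_lit 311))) (XT.nd (nat_lit 78) (nat_lit 532) (nat_lit 0) (XT.lf (nat_lit 532) (nat_lit 778330960) (nat_lit 0) (nat_lit 815223681) (nat_lit 456) (nat_lit 2213078390) (nat_lit 224) (nat_lit 1) (nat_lit 217) (nat_lit 1) (nat_lit 223) (nat_lit 1) (nat_lit 350) (nat_lit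 360) (nat_lit 310)) (XT.lf (nat_lit 76) (nat_lit 32448289) (nat_lit 0) (nat_lit 413522667) (nat_lit 532) (nat_lit 3316619415) (nat_lit 211) (nat_lit 1) (nat_lit 210) (nat_lit 1) (nat_lit 217) (nat_lit 1) (nat_lit 351) (nat_lit 360) (nat_lit 309)))) (XT.nd (nat_lit 156) (nat_lit 1292) (nat_lit 0) (XT.nd (nat_lit 78) (nat_lit 0) (nat_lit 0) (XT.lf (nat_lit 532) (nat_lit 2124573664) (nat_lit 0) (nat_lit 84506656) (nat_lit 456) (nat_lit 1509977412) (nat_lit 211) (nat_lit 1) (nat_lit 204) (nat_lit 1) (nat_lit 210) (nat_lit 1) (nat_lit 352) (nat_lit 360) (nat_lit 308)) (XT.lf (nat_lit 76) (nat_lit 658380756) (nat_lit 0) (nat_lit 2766564321) (nat_lit 532) (nat_lit 251337639) (nat_lit 205) (nat_lit 1) (nat_lit 204) (nat_lit 1) (nat_lit 211) (nat_lit 1) (nat_lit 353) (nat_lit 360) (nat_lit 307))) (XT.nd (nat_lit 78) (nat_lit 836) (nat_lit 0) (XT.lf (nat_lit 76) (nat_lit 2766195769) (nat_lit 0) (nat_lit 295821426)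 (nat_lit 456) (nat_lit 572109220) (nat_lit 199) (nat_lit 1) (nat_lit 198) (nat_lit 1) (nat_lit 204) (nat_lit 1) (nat_lit 354) (nat_lit 360) (nat_lit 306)) (XT.nd (nat_lit 78) (nat_lit 380) (nat_lit 0) (XT.lf (nat_lit 76) (nat_lit 1228595901) (nat_lit 0) (nat_lit 1482016322) (nat_lit 532) (nat_lit 881924026) (nat_lit 193) (nat_lit 1) (nat_lit 192) (nat_lit 1) (nat_lit 199) (nat_lit 1) (nat_lit 355) (nat_lit 360) (nat_lit 305)) (XT.lf (nat_lit 456) (nat_lit 893409995) (nat_lit 0) (nat_lit 2378719730) (nat_lit 380) (nat_lit 279535848) (nat_lit 193) (nat_lit 1) (nat_lit 187) (nat_lit 1) (nat_lit 192) (nat_lit 1) (nat_lit 356) (nat_lit 360) (nat_lit 304))))))) (XT.nd (nat_lit 702) (nat_lit 3116) (nat_lit 0) (XT.nd (nat_lit 312) (nat_lit 1444) (nat_lit 0) (XT.nd (nat_lit 156) (nat_lit 760) (nat_lit 0) (XT.nd (nat_lit 78) (nat_lit 380) (nat_lit 0) (XT.lf (nat_lit 76) (nat_lit 1742397915) (nat_lit 0) (nat_lit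 315037418) (nat_lit 456) (nat_lit 1453901187) (nat_lit 182) (nat_lit 1) (nat_lit 181) (nat_lit 1) (nat_lit 187) (nat_lit 1) (nat_lit 357) (nat_lit 360) (nat_lit 303)) (XT.lf (nat_lit 76) (nat_lit 251434552) (nat_lit 0) (nat_lit 1499246768) (nat_lit 456) (nat_lit 1720941437) (nat_lit 177) (nat_lit 1) (nat_lit 176) (nat_lit 1) (nat_lit 182) (nat_lit 1) (nat_lit 358) (nat_lit 360) (nat_lit 302))) (XT.nd (nat_lit 78) (nat_lit 380) (nat_lit 0) (XT.lf (nat_lit 456) (nat_lit 753552206) (nat_lit 0) (nat_lit 1455684777) (nat_lit 380) (nat_lit 1223229726) (nat_lit 177) (nat_lit 1) (nat_lit 171) (nat_lit 1) (nat_lit 176) (nat_lit 1) (nat_lit 359) (nat_lit 360) (nat_lit 301)) (XT.lf (nat_lit 76) (nat_lit 727841840) (nat_lit 0) (nat_lit 447652567) (nat_lit 380) (nat_lit 2218430569) (nat_lit 167) (nat_lit 1) (nat_lit 166) (nat_lit 1) (nat_lit 171) (nat_lit 1) (nat_lit 360) (nat_lit 360) (nat_lit 300)))) (XT.nd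 (nat_lit 156) (nat_lit 760) (nat_lit 0) (XT.nd (nat_lit 78) (nat_lit 304) (nat_lit 0) (XT.lf (nat_lit 456) (nat_lit 1725315810) (nat_lit 0) (nat_lit 904527482) (nat_lit 380) (nat_lit 726041654) (nat_lit 167) (nat_lit 1) (nat_lit 161) (nat_lit 1) (nat_lit 166) (nat_lit 1) (nat_lit 361) (nat_lit 360) (nat_lit 299)) (XT.lf (nat_lit 380) (nat_lit 513419421) (nat_lit 0) (nat_lit 647360380) (nat_lit 304) (nat_lit 2157653439) (nat_lit 162) (nat_lit 1) (nat_lit 157) (nat_lit 1) (nat_lit 161) (nat_lit 1) (nat_lit 362) (nat_lit 360) (nat_lit 298))) (XT.nd (nat_lit 78) (nat_lit 304) (nat_lit 0) (XT.lf (nat_lit 456) (nat_lit 2604098107) (nat_lit 0) (nat_lit 401979394) (nat_lit 380) (nat_lit 275449784) (nat_lit 157) (nat_lit 1) (nat_lit 151) (nat_lit 1) (nat_lit 156) (nat_lit 1) (nat_lit 363) (nat_lit 360) (nat_lit 297)) (XT.nd (nat_lit 78) (nat_lit 0) (nat_lit 0) (XT.lf (nat_lit 380) (nat_lit 1389699157) (nat_lit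 0) (nat_lit 163350324) (nat_lit 304) (nat_lit 1692015839) (nat_lit 152) (nat_lit 1) (nat_lit 147) (nat_lit 1) (nat_lit 151) (nat_lit 1) (nat_lit 364) (nat_lit 360) (nat_lit 296)) (XT.lf (nat_lit 76) (nat_lit 132146171) (nat_lit 0) (nat_lit 3019981192) (nat_lit 380) (nat_lit 57118253) (nat_lit 148) (nat_lit 1) (nat_lit 147) (nat_lit 1) (nat_lit 152) (nat_lit 1) (nat_lit 365) (nat_lit 360) (nat_lit 295)))))) (XT.nd (nat_lit 390) (nat_lit 1444) (nat_lit 0) (XT.nd (nat_lit 156) (nat_lit 988) (nat_lit 0) (XT.nd (nat_lit 78) (nat_lit 304) (nat_lit 0) (XT.lf (nat_lit 76) (nat_lit 1907039442) (nat_lit 0) (nat_lit 993137551) (nat_lit 380) (nat_lit 273570756) (nat_lit 143) (nat_lit 1) (nat_lit 142) (nat_lit 1) (nat_lit 147) (nat_lit 1) (nat_lit 366) (nat_lit 360) (nat_lit 294)) (XT.lf (nat_lit 76) (nat_lit 503512504) (nat_lit 0) (nat_lit 2159683702) (nat_lit 380) (nat_lit 475643876) (nat_lit 139) (nat_lit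 1) (nat_lit 138) (nat_lit 1) (nat_lit 143) (nat_lit 1) (nat_lit 367) (nat_lit 360) (nat_lit 293))) (XT.nd (nat_lit 78) (nat_lit 608) (nat_lit 0) (XT.lf (nat_lit 76) (nat_lit 2225011296) (nat_lit 0) (nat_lit 210582823) (nat_lit 380) (nat_lit 668815988) (nat_lit 134) (nat_lit 1) (nat_lit 133) (nat_lit 1) (nat_lit 138) (nat_lit 1) (nat_lit 368) (nat_lit 360) (nat_lit 292)) (XT.nd (nat_lit 78) (nat_lit 304) (nat_lit 0) (XT.lf (nat_lit 76) (nat_lit 838363157) (nat_lit 0) (nat_lit 1376190287) (nat_lit 380) (nat_lit 855846286) (nat_lit 130) (nat_lit 1) (nat_lit 129) (nat_lit 1) (nat_lit 134) (nat_lit 1) (nat_lit 369) (nat_lit 360) (nat_lit 291)) (XT.lf (nat_lit 380) (nat_lit 506206619) (nat_lit 0) (nat_lit 2006013666) (nat_lit 304) (nat_lit 524702302) (nat_lit 130) (nat_lit 1) (nat_lit 125) (nat_lit 1) (nat_lit 129) (nat_lit 1) (nat_lit 370) (nat_lit 360) (nat_lit 290))))) (XT.nd (nat_lit 156) (nat_lit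 836) (nat_lit 0) (XT.nd (nat_lit 78) (nat_lit 304) (nat_lit 0) (XT.lf (nat_lit 76) (nat_lit 1139649120) (nat_lit 0) (nat_lit 663463231) (nat_lit 304) (nat_lit 1200728972) (nat_lit 122) (nat_lit 1) (nat_lit 121) (nat_lit 1) (nat_lit 125) (nat_lit 1) (nat_lit 371) (nat_lit 360) (nat_lit 289)) (XT.lf (nat_lit 380) (nat_lit 1158237697) (nat_lit 0) (nat_lit 1610883647) (nat_lit 304) (nat_lit 202130536) (nat_lit 122) (nat_lit 1) (nat_lit 117) (nat_lit 1) (nat_lit 121) (nat_lit 1) (nat_lit 372) (nat_lit 360) (nat_lit 288))) (XT.nd (nat_lit 78) (nat_lit 532) (nat_lit 0) (XT.lf (nat_lit 76) (nat_lit 1410093595) (nat_lit 0) (nat_lit 15926788) (nat_lit 304) (nat_lit 1513066281) (nat_lit 114) (nat_lit 1) (nat_lit 113) (nat_lit 1) (nat_lit 117) (nat_lit 1) (nat_lit 373) (nat_lit 360) (nat_lit 287)) (XT.nd (nat_lit 78) (nat_lit 228) (nat_lit 0) (XT.lf (nat_lit 76) (nat_lit 88417406) (nat_lit 0) (nat_lit 1159855215)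 (nat_lit 380) (nat_lit 1659065437) (nat_lit 110) (nat_lit 1) (nat_lit 109) (nat_lit 1) (nat_lit 114) (nat_lit 1) (nat_lit 374) (nat_lit 360) (nat_lit 286)) (XT.lf (nat_lit 304) (nat_lit 579163789) (nat_lit 0) (nat_lit 1076805890) (nat_lit 228) (nat_lit 1220017334) (nat_lit 110) (nat_lit 1) (nat_lit 106) (nat_lit 1) (nat_lit 109) (nat_lit 1) (nat_lit 375) (nat_lit 360) (nat_lit 285))))))))
noncomputable def ec53 : XT := (XT.nd (nat_lit 47736) (nat_lit 0) (nat_lit 22952) (XT.nd (nat_lit 47034) (nat_lit 0) (nat_lit 31920) (XT.nd (nat_lit 312) (nat_lit 1064) (nat_lit 0) (XT.nd (nat_lit 156) (nat_lit 532) (nat_lit 0) (XT.nd (nat_lit 78) (nat_lit 228) (nat_lit 0) (XT.lf (nat_lit 76) (nat_lit 348319470) (nat_lit 0) (nat_lit 566761205) (nat_lit 380) (nat_lit 1930018041) (nat_lit 102) (nat_lit 1) (nat_lit 101) (nat_lit 1) (nat_lit 106) (nat_lit 1) (nat_lit 376) (nat_lit 360) (nat_lit 284)) (XT.lf (nat_lit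 304) (nat_lit 1118444112) (nat_lit 0) (nat_lit 757132407) (nat_lit 228) (nat_lit 938977056) (nat_lit 102) (nat_lit 1) (nat_lit 98) (nat_lit 1) (nat_lit 101) (nat_lit 1) (nat_lit 377) (nat_lit 360) (nat_lit 283))) (XT.nd (nat_lit 78) (nat_lit 228) (nat_lit 0) (XT.lf (nat_lit 76) (nat_lit 582487045) (nat_lit 0) (nat_lit 27794624) (nat_lit 304) (nat_lit 2174210849) (nat_lit 95) (nat_lit 1) (nat_lit 94) (nat_lit 1) (nat_lit 98) (nat_lit 1) (nat_lit 378) (nat_lit 360) (nat_lit 282)) (XT.lf (nat_lit 304) (nat_lit 1606151000) (nat_lit 0) (nat_lit 464826078) (nat_lit 228) (nat_lit 683745641) (nat_lit 95) (nat_lit 1) (nat_lit 91) (nat_lit 1) (nat_lit 94) (nat_lit 1) (nat_lit 379) (nat_lit 360) (nat_lit 281)))) (XT.nd (nat_lit 156) (nat_lit 532) (nat_lit 0) (XT.nd (nat_lit 78) (nat_lit 304) (nat_lit 0) (XT.lf (nat_lit 304) (nat_lit 467446374) (nat_lit 0) (nat_lit 328594643) (nat_lit 228) (nat_lit 1929354104)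 (nat_lit 92) (nat_lit 1) (nat_lit 88) (nat_lit 1) (nat_lit 91) (nat_lit 1) (nat_lit 380) (nat_lit 360) (nat_lit 280)) (XT.lf (nat_lit 304) (nat_lit 2046391790) (nat_lit 0) (nat_lit 197779259) (nat_lit 228) (nat_lit 452261471) (nat_lit 88) (nat_lit 1) (nat_lit 84) (nat_lit 1) (nat_lit 87) (nat_lit 1) (nat_lit 381) (nat_lit 360) (nat_lit 279))) (XT.nd (nat_lit 78) (nat_lit 304) (nat_lit 0) (XT.lf (nat_lit 304) (nat_lit 916534541) (nat_lit 0) (nat_lit 71217401) (nat_lit 228) (nat_lit 1680057667) (nat_lit 85) (nat_lit 1) (nat_lit 81) (nat_lit 1) (nat_lit 84) (nat_lit 1) (nat_lit 382) (nat_lit 360) (nat_lit 278)) (XT.nd (nat_lit 78) (nat_lit 228) (nat_lit 0) (XT.lf (nat_lit 76) (nat_lit 2397301270) (nat_lit 0) (nat_lit 196964343) (nat_lit 304) (nat_lit 45353009) (nat_lit 81) (nat_lit 1) (nat_lit 80) (nat_lit 1) (nat_lit 84) (nat_lit 1) (nat_lit 383) (nat_lit 360) (nat_lit 277)) (XT.lf (nat_lit 76) (nat_lit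 1160298646) (nat_lit 0) (nat_lit 1289953579) (nat_lit 304) (nat_lit 161409104) (nat_lit 78) (nat_lit 1) (nat_lit 77) (nat_lit 1) (nat_lit 81) (nat_lit 1) (nat_lit 384) (nat_lit 360) (nat_lit 276)))))) (XT.nd (nat_lit 312) (nat_lit 0) (nat_lit 228) (XT.nd (nat_lit 156) (nat_lit 0) (nat_lit 76) (XT.nd (nat_lit 78) (nat_lit 0) (nat_lit 76) (XT.lf (nat_lit 1900) (nat_lit 1254778516) (nat_lit 0) (nat_lit 1265271382) (nat_lit 1900) (nat_lit 1254778516) (nat_lit 522) (nat_lit 1) (nat_lit 497) (nat_lit 0) (nat_lit 522) (nat_lit 0) (nat_lit 298) (nat_lit 361) (nat_lit 361)) (XT.lf (nat_lit 1900) (nat_lit 580001658) (nat_lit 0) (nat_lit 2517643236) (nat_lit 1824) (nat_lit 4341586414) (nat_lit 523) (nat_lit 1) (nat_lit 498) (nat_lit 1) (nat_lit 522) (nat_lit 1) (nat_lit 299) (nat_lit 361) (nat_lit 360))) (XT.nd (nat_lit 78) (nat_lit 0) (nat_lit 76) (XT.lf (nat_lit 1900) (nat_lit 4769916491) (nat_lit 76) (nat_lit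 1226416052) (nat_lit 0) (nat_lit 1334572148) (nat_lit 523) (nat_lit 1) (nat_lit 499) (nat_lit 1) (nat_lit 498) (nat_lit 1) (nat_lit 300) (nat_lit 361) (nat_lit 359)) (XT.lf (nat_lit 1900) (nat_lit 4004244455) (nat_lit 0) (nat_lit 2657145537) (nat_lit 1824) (nat_lit 563261728) (nat_lit 524) (nat_lit 1) (nat_lit 499) (nat_lit 1) (nat_lit 523) (nat_lit 1) (nat_lit 301) (nat_lit 361) (nat_lit 358)))) (XT.nd (nat_lit 156) (nat_lit 0) (nat_lit 76) (XT.nd (nat_lit 78) (nat_lit 0) (nat_lit 76) (XT.lf (nat_lit 1900) (nat_lit 2054208860) (nat_lit 0) (nat_lit 2804061875) (nat_lit 1824) (nat_lit 2262151567) (nat_lit 525) (nat_lit 1) (nat_lit 500) (nat_lit 1) (nat_lit 524) (nat_lit 1) (nat_lit 302) (nat_lit 361) (nat_lit 357)) (XT.lf (nat_lit 1900) (nat_lit 137960616) (nat_lit 0) (nat_lit 2991855165) (nat_lit 1824) (nat_lit 3888509791) (nat_lit 526) (nat_lit 1) (nat_lit 501) (nat_lit 1) (nat_lit 525) (nat_lit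 1) (nat_lit 303) (nat_lit 361) (nat_lit 356))) (XT.nd (nat_lit 78) (nat_lit 0) (nat_lit 76) (XT.lf (nat_lit 1900) (nat_lit 3687931086) (nat_lit 76) (nat_lit 1462154745) (nat_lit 0) (nat_lit 1767997236) (nat_lit 526) (nat_lit 1) (nat_lit 502) (nat_lit 1) (nat_lit 501) (nat_lit 1) (nat_lit 304) (nat_lit 361) (nat_lit 355)) (XT.nd (nat_lit 78) (nat_lit 0) (nat_lit 76) (XT.lf (nat_lit 1900) (nat_lit 3178559121) (nat_lit 0) (nat_lit 3507256873) (nat_lit 1824) (nat_lit 134029278) (nat_lit 527) (nat_lit 1) (nat_lit 502) (nat_lit 1) (nat_lit 526) (nat_lit 1) (nat_lit 305) (nat_lit 361) (nat_lit 354)) (XT.lf (nat_lit 1900) (nat_lit 1251351477) (nat_lit 0) (nat_lit 3828705615) (nat_lit 1824) (nat_lit 1643363383) (nat_lit 528) (nat_lit 1) (nat_lit 503) (nat_lit 1) (nat_lit 527) (nat_lit 1) (nat_lit 306) (nat_lit 361) (nat_lit 353))))))) (XT.nd (nat_lit 702) (nat_lit 7828) (nat_lit 0) (XT.nd (nat_lit 312) (nat_lit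 1596) (nat_lit 0) (XT.nd (nat_lit 156) (nat_lit 0) (nat_lit 152) (XT.nd (nat_lit 78) (nat_lit 0) (nat_lit 76) (XT.lf (nat_lit 1900) (nat_lit 2441293093) (nat_lit 76) (nat_lit 3537657414) (nat_lit 0) (nat_lit 649917988) (nat_lit 528) (nat_lit 1) (nat_lit 504) (nat_lit 1) (nat_lit 503) (nat_lit 1) (nat_lit 307) (nat_lit 361) (nat_lit 352)) (XT.lf (nat_lit 1900) (nat_lit 1950005041) (nat_lit 76) (nat_lit 2052793747) (nat_lit 0) (nat_lit 2533270241) (nat_lit 529) (nat_lit 1) (nat_lit 505) (nat_lit 1) (nat_lit 504) (nat_lit 1) (nat_lit 308) (nat_lit 361) (nat_lit 351))) (XT.nd (nat_lit 78) (nat_lit 0) (nat_lit 76) (XT.lf (nat_lit 1900) (nat_lit 1430736303) (nat_lit 76) (nat_lit 631954685) (nat_lit 0) (nat_lit 4382452256) (nat_lit 530) (nat_lit 1) (nat_lit 506) (nat_lit 1) (nat_lit 505) (nat_lit 1) (nat_lit 309) (nat_lit 361) (nat_lit 350)) (XT.lf (nat_lit 1900) (nat_lit 162922816) (nat_lit 0) (nat_lit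 5475845449) (nat_lit 1824) (nat_lit 717186085) (nat_lit 531) (nat_lit 1) (nat_lit 506) (nat_lit 1) (nat_lit 530) (nat_lit 1) (nat_lit 310) (nat_lit 361) (nat_lit 349)))) (XT.nd (nat_lit 156) (nat_lit 0) (nat_lit 76) (XT.nd (nat_lit 78) (nat_lit 1824) (nat_lit 0) (XT.lf (nat_lit 1900) (nat_lit 289138897) (nat_lit 76) (nat_lit 4258616619) (nat_lit 0) (nat_lit 1720502181) (nat_lit 531) (nat_lit 1) (nat_lit 507) (nat_lit 1) (nat_lit 506) (nat_lit 1) (nat_lit 311) (nat_lit 361) (nat_lit 348)) (XT.lf (nat_lit 1976) (nat_lit 2613173411) (nat_lit 0) (nat_lit 321858767) (nat_lit 1900) (nat_lit 3247226714) (nat_lit 508) (nat_lit 1) (nat_lit 482) (nat_lit 1) (nat_lit 507) (nat_lit 1) (nat_lit 312) (nat_lit 361) (nat_lit 347))) (XT.nd (nat_lit 78) (nat_lit 0) (nat_lit 0) (XT.lf (nat_lit 1976) (nat_lit 716758100) (nat_lit 0) (nat_lit 950718357) (nat_lit 1900) (nat_lit 4430465205) (nat_lit 509) (nat_lit 1) (nat_lit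 483) (nat_lit 1) (nat_lit 508) (nat_lit 1) (nat_lit 313) (nat_lit 361) (nat_lit 346)) (XT.nd (nat_lit 78) (nat_lit 0) (nat_lit 76) (XT.lf (nat_lit 1976) (nat_lit 4407604431) (nat_lit 76) (nat_lit 448511525) (nat_lit 0) (nat_lit 1159038548) (nat_lit 509) (nat_lit 1) (nat_lit 484) (nat_lit 1) (nat_lit 483) (nat_lit 1) (nat_lit 314) (nat_lit 361) (nat_lit 345)) (XT.lf (nat_lit 76) (nat_lit 2930057257) (nat_lit 0) (nat_lit 2292826294) (nat_lit 1900) (nat_lit 710943562) (nat_lit 485) (nat_lit 1) (nat_lit 484) (nat_lit 1) (nat_lit 509) (nat_lit 1) (nat_lit 315) (nat_lit 361) (nat_lit 344)))))) (XT.nd (nat_lit 390) (nat_lit 4104) (nat_lit 0) (XT.nd (nat_lit 156) (nat_lit 1824) (nat_lit 0) (XT.nd (nat_lit 78) (nat_lit 912) (nat_lit 0) (XT.lf (nat_lit 76) (nat_lit 1043520148) (nat_lit 0) (nat_lit 2998603959) (nat_lit 1216) (nat_lit 1811935155) (nat_lit 470) (nat_lit 1) (nat_lit 469) (nat_lit 1) (nat_lit 485)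 (nat_lit 1) (nat_lit 316) (nat_lit 361) (nat_lit 343)) (XT.lf (nat_lit 988) (nat_lit 2049551963) (nat_lit 0) (nat_lit 2908583961) (nat_lit 912) (nat_lit 817631023) (nat_lit 470) (nat_lit 1) (nat_lit 457) (nat_lit 1) (nat_lit 469) (nat_lit 1) (nat_lit 317) (nat_lit 361) (nat_lit 342))) (XT.nd (nat_lit 78) (nat_lit 912) (nat_lit 0) (XT.lf (nat_lit 988) (nat_lit 1222931379) (nat_lit 0) (nat_lit 1819391099) (nat_lit 912) (nat_lit 2656566037) (nat_lit 458) (nat_lit 1) (nat_lit 445) (nat_lit 1) (nat_lit 457) (nat_lit 1) (nat_lit 318) (nat_lit 361) (nat_lit 341)) (XT.nd (nat_lit 78) (nat_lit 76) (nat_lit 0) (XT.lf (nat_lit 912) (nat_lit 383544337) (nat_lit 0) (nat_lit 780062177) (nat_lit 836) (nat_lit 4459920342) (nat_lit 446) (nat_lit 1) (nat_lit 434) (nat_lit 1) (nat_lit 445) (nat_lit 1) (nat_lit 319) (nat_lit 361) (nat_lit 340)) (XT.lf (nat_lit 76) (nat_lit 4866429983) (nat_lit 0) (nat_lit 467426260)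 (nat_lit 912) (nat_lit 215614143) (nat_lit 434) (nat_lit 1) (nat_lit 433) (nat_lit 1) (nat_lit 445) (nat_lit 1) (nat_lit 320) (nat_lit 361) (nat_lit 339))))) (XT.nd (nat_lit 156) (nat_lit 2356) (nat_lit 0) (XT.nd (nat_lit 78) (nat_lit 836) (nat_lit 0) (XT.lf (nat_lit 76) (nat_lit 2975444953) (nat_lit 0) (nat_lit 1336428039) (nat_lit 988) (nat_lit 1164695546) (nat_lit 422) (nat_lit 1) (nat_lit 421) (nat_lit 1) (nat_lit 434) (nat_lit 1) (nat_lit 321) (nat_lit 361) (nat_lit 338)) (XT.lf (nat_lit 76) (nat_lit 1121625557) (nat_lit 0) (nat_lit 2214901922) (nat_lit 912) (nat_lit 2068566909) (nat_lit 411) (nat_lit 1) (nat_lit 410) (nat_lit 1) (nat_lit 422) (nat_lit 1) (nat_lit 322) (nat_lit 361) (nat_lit 337))) (XT.nd (nat_lit 78) (nat_lit 1520) (nat_lit 0) (XT.lf (nat_lit 912) (nat_lit 2228287200) (nat_lit 0) (nat_lit 2401805943) (nat_lit 836) (nat_lit 704831894) (nat_lit 411) (nat_lit 1) (nat_lit 399)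 (nat_lit 1) (nat_lit 410) (nat_lit 1) (nat_lit 323) (nat_lit 361) (nat_lit 336)) (XT.nd (nat_lit 78) (nat_lit 760) (nat_lit 0) (XT.lf (nat_lit 836) (nat_lit 1252532117) (nat_lit 0) (nat_lit 1503780994) (nat_lit 760) (nat_lit 2509665430) (nat_lit 400) (nat_lit 1) (nat_lit 389) (nat_lit 1) (nat_lit 399) (nat_lit 1) (nat_lit 324) (nat_lit 361) (nat_lit 335)) (XT.lf (nat_lit 836) (nat_lit 271145196) (nat_lit 0) (nat_lit 648699958) (nat_lit 760) (nat_lit 4278527357) (nat_lit 390) (nat_lit 1) (nat_lit 379) (nat_lit 1) (nat_lit 389) (nat_lit 1) (nat_lit 325) (nat_lit 361) (nat_lit 334))))))))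
noncomputable def ec54 : XT := (XT.nd (nat_lit 1404) (nat_lit 7828) (nat_lit 0) (XT.nd (nat_lit 702) (nat_lit 4788) (nat_lit 0) (XT.nd (nat_lit 312) (nat_lit 2736) (nat_lit 0) (XT.nd (nat_lit 156) (nat_lit 1444) (nat_lit 0) (XT.nd (nat_lit 78) (nat_lit 760) (nat_lit 0) (XT.lf (nat_lit 76) (nat_lit 4246126354) (nat_lit 0) (nat_lit 712726923) (nat_lit 836) (nat_lit 172993610) (nat_lit 379) (nat_lit 1) (nat_lit 378) (nat_lit 1) (nat_lit 389) (nat_lit 1) (nat_lit 326) (nat_lit 361) (nat_lit 333)) (XT.lf (nat_lit 76) (nat_lit 2405385763) (nat_lit 0) (nat_lit 1707120861) (nat_lit 836) (nat_lit 953865479) (nat_lit 369) (nat_lit 1) (nat_lit 368) (nat_lit 1) (nat_lit 379) (nat_lit 1) (nat_lit 327) (nat_lit 361) (nat_lit 332))) (XT.nd (nat_lit 78) (nat_lit 684) (nat_lit 0) (XT.lf (nat_lit 76) (nat_lit 601725378) (nat_lit 0) (nat_lit 2704699783) (nat_lit 836) (nat_lit 1695736232) (nat_lit 359) (nat_lit 1) (nat_lit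 358) (nat_lit 1) (nat_lit 369) (nat_lit 1) (nat_lit 328) (nat_lit 361) (nat_lit 331)) (XT.lf (nat_lit 760) (nat_lit 1226467339) (nat_lit 0) (nat_lit 2531626488) (nat_lit 684) (nat_lit 1180940197) (nat_lit 359) (nat_lit 1) (nat_lit 349) (nat_lit 1) (nat_lit 358) (nat_lit 1) (nat_lit 329) (nat_lit 361) (nat_lit 330)))) (XT.nd (nat_lit 156) (nat_lit 1292) (nat_lit 0) (XT.nd (nat_lit 78) (nat_lit 760) (nat_lit 0) (XT.lf (nat_lit 760) (nat_lit 150805752) (nat_lit 0) (nat_lit 1791003289) (nat_lit 684) (nat_lit 2935233112) (nat_lit 350) (nat_lit 1) (nat_lit 340) (nat_lit 1) (nat_lit 349) (nat_lit 1) (nat_lit 330) (nat_lit 361) (nat_lit 329)) (XT.lf (nat_lit 76) (nat_lit 168495610) (nat_lit 0) (nat_lit 912866777) (nat_lit 760) (nat_lit 3734756263) (nat_lit 331) (nat_lit 1) (nat_lit 330) (nat_lit 1) (nat_lit 340) (nat_lit 1) (nat_lit 331) (nat_lit 361) (nat_lit 328))) (XT.nd (nat_lit 78) (nat_lit 608) (nat_lit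 0) (XT.lf (nat_lit 760) (nat_lit 2771576817) (nat_lit 0) (nat_lit 396238119) (nat_lit 684) (nat_lit 1588317327) (nat_lit 331) (nat_lit 1) (nat_lit 321) (nat_lit 1) (nat_lit 330) (nat_lit 1) (nat_lit 332) (nat_lit 361) (nat_lit 327)) (XT.nd (nat_lit 78) (nat_lit 608) (nat_lit 0) (XT.lf (nat_lit 76) (nat_lit 1387771851) (nat_lit 0) (nat_lit 3058015072) (nat_lit 760) (nat_lit 251446427) (nat_lit 322) (nat_lit 1) (nat_lit 321) (nat_lit 1) (nat_lit 331) (nat_lit 1) (nat_lit 333) (nat_lit 361) (nat_lit 326)) (XT.lf (nat_lit 684) (nat_lit 504616449) (nat_lit 0) (nat_lit 3776859913) (nat_lit 608) (nat_lit 357882897) (nat_lit 322) (nat_lit 1) (nat_lit 313) (nat_lit 1) (nat_lit 321) (nat_lit 1) (nat_lit 334) (nat_lit 361) (nat_lit 325)))))) (XT.nd (nat_lit 312) (nat_lit 2356) (nat_lit 0) (XT.nd (nat_lit 156) (nat_lit 1140) (nat_lit 0) (XT.nd (nat_lit 78) (nat_lit 608) (nat_lit 0) (XT.lf (nat_lit 76) (nat_lit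 2500923565) (nat_lit 0) (nat_lit 627601339) (nat_lit 684) (nat_lit 1453798572) (nat_lit 305) (nat_lit 1) (nat_lit 304) (nat_lit 1) (nat_lit 313) (nat_lit 1) (nat_lit 335) (nat_lit 361) (nat_lit 324)) (XT.lf (nat_lit 76) (nat_lit 760454284) (nat_lit 0) (nat_lit 1749550760) (nat_lit 684) (nat_lit 2016297584) (nat_lit 297) (nat_lit 1) (nat_lit 296) (nat_lit 1) (nat_lit 305) (nat_lit 1) (nat_lit 336) (nat_lit 361) (nat_lit 323))) (XT.nd (nat_lit 78) (nat_lit 532) (nat_lit 0) (XT.lf (nat_lit 684) (nat_lit 1597476755) (nat_lit 0) (nat_lit 1917352531) (nat_lit 608) (nat_lit 956385841) (nat_lit 297) (nat_lit 1) (nat_lit 288) (nat_lit 1) (nat_lit 296) (nat_lit 1) (nat_lit 337) (nat_lit 361) (nat_lit 322)) (XT.lf (nat_lit 608) (nat_lit 418648303) (nat_lit 0) (nat_lit 1351105437) (nat_lit 532) (nat_lit 2647313649) (nat_lit 289) (nat_lit 1) (nat_lit 281) (nat_lit 1) (nat_lit 288) (nat_lit 1) (nat_lit 338) (nat_lit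 361) (nat_lit 321)))) (XT.nd (nat_lit 156) (nat_lit 1140) (nat_lit 0) (XT.nd (nat_lit 78) (nat_lit 532) (nat_lit 0) (XT.lf (nat_lit 76) (nat_lit 65986176) (nat_lit 0) (nat_lit 744473804) (nat_lit 684) (nat_lit 3553379575) (nat_lit 273) (nat_lit 1) (nat_lit 272) (nat_lit 1) (nat_lit 281) (nat_lit 1) (nat_lit 339) (nat_lit 361) (nat_lit 320)) (XT.lf (nat_lit 608) (nat_lit 2404698493) (nat_lit 0) (nat_lit 286059883) (nat_lit 532) (nat_lit 1620585734) (nat_lit 273) (nat_lit 1) (nat_lit 265) (nat_lit 1) (nat_lit 272) (nat_lit 1) (nat_lit 340) (nat_lit 361) (nat_lit 319))) (XT.nd (nat_lit 78) (nat_lit 1140) (nat_lit 0) (XT.lf (nat_lit 76) (nat_lit 988714279) (nat_lit 0) (nat_lit 3064169066) (nat_lit 608) (nat_lit 206910289) (nat_lit 266) (nat_lit 1) (nat_lit 265) (nat_lit 1) (nat_lit 273) (nat_lit 1) (nat_lit 341) (nat_lit 361) (nat_lit 318)) (XT.nd (nat_lit 78) (nat_lit 532) (nat_lit 0) (XT.lf (nat_lit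 76) (nat_lit 3524419181) (nat_lit 0) (nat_lit 11914990) (nat_lit 608) (nat_lit 672745365) (nat_lit 258) (nat_lit 1) (nat_lit 257) (nat_lit 1) (nat_lit 265) (nat_lit 1) (nat_lit 342) (nat_lit 361) (nat_lit 317)) (XT.lf (nat_lit 76) (nat_lit 1831304269) (nat_lit 0) (nat_lit 1202213193) (nat_lit 608) (nat_lit 1125511276) (nat_lit 251) (nat_lit 1) (nat_lit 250) (nat_lit 1) (nat_lit 258) (nat_lit 1) (nat_lit 343) (nat_lit 361) (nat_lit 316))))))) (XT.nd (nat_lit 702) (nat_lit 3876) (nat_lit 0) (XT.nd (nat_lit 312) (nat_lit 1900) (nat_lit 0) (XT.nd (nat_lit 156) (nat_lit 1064) (nat_lit 0) (XT.nd (nat_lit 78) (nat_lit 456) (nat_lit 0) (XT.lf (nat_lit 76) (nat_lit 173970645) (nat_lit 0) (nat_lit 2384245574) (nat_lit 608) (nat_lit 1551691451) (nat_lit 244) (nat_lit 1) (nat_lit 243) (nat_lit 1) (nat_lit 251) (nat_lit 1) (nat_lit 344) (nat_lit 361) (nat_lit 315)) (XT.lf (nat_lit 532) (nat_lit 494112982) (nat_lit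 0) (nat_lit 2099919213) (nat_lit 456) (nat_lit 1467474243) (nat_lit 244) (nat_lit 1) (nat_lit 237) (nat_lit 1) (nat_lit 243) (nat_lit 1) (nat_lit 345) (nat_lit 361) (nat_lit 314))) (XT.nd (nat_lit 78) (nat_lit 456) (nat_lit 0) (XT.lf (nat_lit 76) (nat_lit 942436781) (nat_lit 0) (nat_lit 719372276) (nat_lit 608) (nat_lit 2352074641) (nat_lit 230) (nat_lit 1) (nat_lit 229) (nat_lit 1) (nat_lit 237) (nat_lit 1) (nat_lit 346) (nat_lit 361) (nat_lit 313)) (XT.lf (nat_lit 532) (nat_lit 2045842939) (nat_lit 0) (nat_lit 1241414695) (nat_lit 456) (nat_lit 679729647) (nat_lit 230) (nat_lit 1) (nat_lit 223) (nat_lit 1) (nat_lit 229) (nat_lit 1) (nat_lit 347) (nat_lit 361) (nat_lit 312)))) (XT.nd (nat_lit 156) (nat_lit 912) (nat_lit 0) (XT.nd (nat_lit 78) (nat_lit 532) (nat_lit 0) (XT.lf (nat_lit 532) (nat_lit 801680889) (nat_lit 0) (nat_lit 839680392) (nat_lit 456) (nat_lit 2279470742) (nat_lit 224) (nat_lit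 1) (nat_lit 217) (nat_lit 1) (nat_lit 223) (nat_lit 1) (nat_lit 348) (nat_lit 361) (nat_lit 311)) (XT.lf (nat_lit 76) (nat_lit 33421738) (nat_lit 0) (nat_lit 425928347) (nat_lit 532) (nat_lit 3416117997) (nat_lit 211) (nat_lit 1) (nat_lit 210) (nat_lit 1) (nat_lit 217) (nat_lit 1) (nat_lit 349) (nat_lit 361) (nat_lit 310))) (XT.nd (nat_lit 78) (nat_lit 456) (nat_lit 0) (XT.lf (nat_lit 532) (nat_lit 2188310874) (nat_lit 0) (nat_lit 87041855) (nat_lit 456) (nat_lit 1555276734) (nat_lit 211) (nat_lit 1) (nat_lit 204) (nat_lit 1) (nat_lit 210) (nat_lit 1) (nat_lit 350) (nat_lit 361) (nat_lit 309)) (XT.nd (nat_lit 78) (nat_lit 456) (nat_lit 0) (XT.lf (nat_lit 76) (nat_lit 678132178) (nat_lit 0) (nat_lit 2849561251) (nat_lit 532) (nat_lit 258877768) (nat_lit 205) (nat_lit 1) (nat_lit 204) (nat_lit 1) (nat_lit 211) (nat_lit 1) (nat_lit 351) (nat_lit 361) (nat_lit 308)) (XT.lf (nat_lit 76) (nat_lit 2849181642)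 (nat_lit 0) (nat_lit 304696069) (nat_lit 456) (nat_lit 589272497) (nat_lit 199) (nat_lit 1) (nat_lit 198) (nat_lit 1) (nat_lit 204) (nat_lit 1) (nat_lit 352) (nat_lit 361) (nat_lit 307)))))) (XT.nd (nat_lit 390) (nat_lit 1824) (nat_lit 0) (XT.nd (nat_lit 156) (nat_lit 1216) (nat_lit 0) (XT.nd (nat_lit 78) (nat_lit 380) (nat_lit 0) (XT.lf (nat_lit 76) (nat_lit 1265453778) (nat_lit 0) (nat_lit 1526476812) (nat_lit 532) (nat_lit 908381746) (nat_lit 193) (nat_lit 1) (nat_lit 192) (nat_lit 1) (nat_lit 199) (nat_lit 1) (nat_lit 353) (nat_lit 361) (nat_lit 306)) (XT.lf (nat_lit 456) (nat_lit 920212295) (nat_lit 0) (nat_lit 2450081322) (nat_lit 380) (nat_lit 287921924) (nat_lit 193) (nat_lit 1) (nat_lit 187) (nat_lit 1) (nat_lit 192) (nat_lit 1) (nat_lit 354) (nat_lit 361) (nat_lit 305))) (XT.nd (nat_lit 78) (nat_lit 760) (nat_lit 0) (XT.lf (nat_lit 76) (nat_lit 1794669852) (nat_lit 0) (nat_lit 324488540)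 (nat_lit 456) (nat_lit 1497518223) (nat_lit 182) (nat_lit 1) (nat_lit 181) (nat_lit 1) (nat_lit 187) (nat_lit 1) (nat_lit 355) (nat_lit 361) (nat_lit 304)) (XT.nd (nat_lit 78) (nat_lit 380) (nat_lit 0) (XT.lf (nat_lit 76) (nat_lit 258977589) (nat_lit 0) (nat_lit 1544224171) (nat_lit 456) (nat_lit 1772569681) (nat_lit 177) (nat_lit 1) (nat_lit 176) (nat_lit 1) (nat_lit 182) (nat_lit 1) (nat_lit 356) (nat_lit 361) (nat_lit 303)) (XT.lf (nat_lit 456) (nat_lit 776158772) (nat_lit 0) (nat_lit 1499355320) (nat_lit 380) (nat_lit 1259926618) (nat_lit 177) (nat_lit 1) (nat_lit 171) (nat_lit 1) (nat_lit 176) (nat_lit 1) (nat_lit 357) (nat_lit 361) (nat_lit 302))))) (XT.nd (nat_lit 156) (nat_lit 1064) (nat_lit 0) (XT.nd (nat_lit 78) (nat_lit 380) (nat_lit 0) (XT.lf (nat_lit 76) (nat_lit 749677095) (nat_lit 0) (nat_lit 461082144) (nat_lit 380) (nat_lit 2284983486) (nat_lit 167) (nat_lit 1) (nat_lit 166) (nat_lit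 1) (nat_lit 171) (nat_lit 1) (nat_lit 358) (nat_lit 361) (nat_lit 301)) (XT.lf (nat_lit 456) (nat_lit 1777075285) (nat_lit 0) (nat_lit 931663307) (nat_lit 380) (nat_lit 747822904) (nat_lit 167) (nat_lit 1) (nat_lit 161) (nat_lit 1) (nat_lit 166) (nat_lit 1) (nat_lit 359) (nat_lit 361) (nat_lit 300))) (XT.nd (nat_lit 78) (nat_lit 760) (nat_lit 0) (XT.lf (nat_lit 380) (nat_lit 528822004) (nat_lit 0) (nat_lit 666781191) (nat_lit 304) (nat_lit 2222383042) (nat_lit 162) (nat_lit 1) (nat_lit 157) (nat_lit 1) (nat_lit 161) (nat_lit 1) (nat_lit 360) (nat_lit 361) (nat_lit 299)) (XT.nd (nat_lit 78) (nat_lit 304) (nat_lit 0) (XT.lf (nat_lit 456) (nat_lit 2682221050) (nat_lit 0) (nat_lit 414038776) (nat_lit 380) (nat_lit 283713278) (nat_lit 157) (nat_lit 1) (nat_lit 151) (nat_lit 1) (nat_lit 156) (nat_lit 1) (nat_lit 361) (nat_lit 361) (nat_lit 298)) (XT.lf (nat_lit 380) (nat_lit 1431390132) (nat_lit 0) (nat_lit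 168250834) (nat_lit 304) (nat_lit 1742776314) (nat_lit 152) (nat_lit 1) (nat_lit 147) (nat_lit 1) (nat_lit 151) (nat_lit 1) (nat_lit 362) (nat_lit 361) (nat_lit 297))))))))
noncomputable def ec55 : XT := (XT.nd (nat_lit 1404) (nat_lit 532) (nat_lit 0) (XT.nd (nat_lit 702) (nat_lit 2432) (nat_lit 0) (XT.nd (nat_lit 312) (nat_lit 1520) (nat_lit 0) (XT.nd (nat_lit 156) (nat_lit 684) (nat_lit 0) (XT.nd (nat_lit 78) (nat_lit 380) (nat_lit 0) (XT.lf (nat_lit 76) (nat_lit 136110556) (nat_lit 0) (nat_lit 3110580627) (nat_lit 380) (nat_lit 58831800) (nat_lit 148) (nat_lit 1) (nat_lit 147) (nat_lit 1) (nat_lit 152) (nat_lit 1) (nat_lit 363) (nat_lit 361) (nat_lit 296)) (XT.lf (nat_lit 76) (nat_lit 1964250626) (nat_lit 0) (nat_lit 1022931678) (nat_lit 380) (nat_lit 281777879) (nat_lit 143) (nat_lit 1) (nat_lit 142) (nat_lit 1) (nat_lit 147) (nat_lit 1) (nat_lit 364) (nat_lit 361) (nat_lit 295))) (XT.nd (nat_lit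 78) (nat_lit 380) (nat_lit 0) (XT.lf (nat_lit 76) (nat_lit 518617879) (nat_lit 0) (nat_lit 2224474213) (nat_lit 380) (nat_lit 489913192) (nat_lit 139) (nat_lit 1) (nat_lit 138) (nat_lit 1) (nat_lit 143) (nat_lit 1) (nat_lit 365) (nat_lit 361) (nat_lit 294)) (XT.lf (nat_lit 76) (nat_lit 2291761635) (nat_lit 0) (nat_lit 216900307) (nat_lit 380) (nat_lit 688880468) (nat_lit 134) (nat_lit 1) (nat_lit 133) (nat_lit 1) (nat_lit 138) (nat_lit 1) (nat_lit 366) (nat_lit 361) (nat_lit 293)))) (XT.nd (nat_lit 156) (nat_lit 912) (nat_lit 0) (XT.nd (nat_lit 78) (nat_lit 304) (nat_lit 0) (XT.lf (nat_lit 76) (nat_lit 863514051) (nat_lit 0) (nat_lit 1417475995) (nat_lit 380) (nat_lit 881521674) (nat_lit 130) (nat_lit 1) (nat_lit 129) (nat_lit 1) (nat_lit 134) (nat_lit 1) (nat_lit 367) (nat_lit 361) (nat_lit 292)) (XT.lf (nat_lit 380) (nat_lit 521392818) (nat_lit 0) (nat_lit 2066194076) (nat_lit 304) (nat_lit 540443371)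 (nat_lit 130) (nat_lit 1) (nat_lit 125) (nat_lit 1) (nat_lit 129) (nat_lit 1) (nat_lit 368) (nat_lit 361) (nat_lit 291))) (XT.nd (nat_lit 78) (nat_lit 608) (nat_lit 0) (XT.lf (nat_lit 76) (nat_lit 1173838593) (nat_lit 0) (nat_lit 683367128) (nat_lit 304) (nat_lit 1236750842) (nat_lit 122) (nat_lit 1) (nat_lit 121) (nat_lit 1) (nat_lit 125) (nat_lit 1) (nat_lit 369) (nat_lit 361) (nat_lit 290)) (XT.nd (nat_lit 78) (nat_lit 304) (nat_lit 0) (XT.lf (nat_lit 380) (nat_lit 1192984828) (nat_lit 0) (nat_lit 1659210156) (nat_lit 304) (nat_lit 208194452) (nat_lit 122) (nat_lit 1) (nat_lit 117) (nat_lit 1) (nat_lit 121) (nat_lit 1) (nat_lit 370) (nat_lit 361) (nat_lit 289)) (XT.lf (nat_lit 76) (nat_lit 1452396403) (nat_lit 0) (nat_lit 16404591) (nat_lit 304) (nat_lit 1558458269) (nat_lit 114) (nat_lit 1) (nat_lit 113) (nat_lit 1) (nat_lit 117) (nat_lit 1) (nat_lit 371) (nat_lit 361) (nat_lit 288)))))) (XT.nd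 (nat_lit 312) (nat_lit 1292) (nat_lit 0) (XT.nd (nat_lit 156) (nat_lit 608) (nat_lit 0) (XT.nd (nat_lit 78) (nat_lit 228) (nat_lit 0) (XT.lf (nat_lit 76) (nat_lit 91069929) (nat_lit 0) (nat_lit 1194650872) (nat_lit 380) (nat_lit 1708837400) (nat_lit 110) (nat_lit 1) (nat_lit 109) (nat_lit 1) (nat_lit 114) (nat_lit 1) (nat_lit 372) (nat_lit 361) (nat_lit 287)) (XT.lf (nat_lit 304) (nat_lit 596538703) (nat_lit 0) (nat_lit 1109110067) (nat_lit 228) (nat_lit 1256617854) (nat_lit 110) (nat_lit 1) (nat_lit 106) (nat_lit 1) (nat_lit 109) (nat_lit 1) (nat_lit 373) (nat_lit 361) (nat_lit 286))) (XT.nd (nat_lit 78) (nat_lit 228) (nat_lit 0) (XT.lf (nat_lit 76) (nat_lit 358769054) (nat_lit 0) (nat_lit 583764041) (nat_lit 380) (nat_lit 1987918582) (nat_lit 102) (nat_lit 1) (nat_lit 101) (nat_lit 1) (nat_lit 106) (nat_lit 1) (nat_lit 374) (nat_lit 361) (nat_lit 285)) (XT.lf (nat_lit 304) (nat_lit 1151997435)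 (nat_lit 0) (nat_lit 779846379) (nat_lit 228) (nat_lit 967146368) (nat_lit 102) (nat_lit 1) (nat_lit 98) (nat_lit 1) (nat_lit 101) (nat_lit 1) (nat_lit 375) (nat_lit 361) (nat_lit 284)))) (XT.nd (nat_lit 156) (nat_lit 760) (nat_lit 0) (XT.nd (nat_lit 78) (nat_lit 228) (nat_lit 0) (XT.lf (nat_lit 76) (nat_lit 599961656) (nat_lit 0) (nat_lit 28628463) (nat_lit 304) (nat_lit 2239437175) (nat_lit 95) (nat_lit 1) (nat_lit 94) (nat_lit 1) (nat_lit 98) (nat_lit 1) (nat_lit 376) (nat_lit 361) (nat_lit 283)) (XT.lf (nat_lit 304) (nat_lit 1654335530) (nat_lit 0) (nat_lit 478770860) (nat_lit 228) (nat_lit 704258010) (nat_lit 95) (nat_lit 1) (nat_lit 91) (nat_lit 1) (nat_lit 94) (nat_lit 1) (nat_lit 377) (nat_lit 361) (nat_lit 282))) (XT.nd (nat_lit 78) (nat_lit 532) (nat_lit 0) (XT.lf (nat_lit 304) (nat_lit 481469765) (nat_lit 0) (nat_lit 338452482) (nat_lit 228) (nat_lit 1987234727) (nat_lit 92) (nat_lit 1)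 (nat_lit 88) (nat_lit 1) (nat_lit 91) (nat_lit 1) (nat_lit 378) (nat_lit 361) (nat_lit 281)) (XT.nd (nat_lit 78) (nat_lit 228) (nat_lit 0) (XT.lf (nat_lit 304) (nat_lit 2107783544) (nat_lit 0) (nat_lit 203712637) (nat_lit 228) (nat_lit 465829315) (nat_lit 88) (nat_lit 1) (nat_lit 84) (nat_lit 1) (nat_lit 87) (nat_lit 1) (nat_lit 379) (nat_lit 361) (nat_lit 280)) (XT.lf (nat_lit 304) (nat_lit 944030578) (nat_lit 0) (nat_lit 73353923) (nat_lit 228) (nat_lit 1730459397) (nat_lit 85) (nat_lit 1) (nat_lit 81) (nat_lit 1) (nat_lit 84) (nat_lit 1) (nat_lit 380) (nat_lit 361) (nat_lit 279))))))) (XT.nd (nat_lit 46956) (nat_lit 0) (nat_lit 31008) (XT.nd (nat_lit 46566) (nat_lit 0) (nat_lit 32224) (XT.nd (nat_lit 156) (nat_lit 228) (nat_lit 0) (XT.nd (nat_lit 78) (nat_lit 228) (nat_lit 0) (XT.lf (nat_lit 76) (nat_lit 2469220308) (nat_lit 0) (nat_lit 202873274) (nat_lit 304) (nat_lit 46713600) (nat_lit 81)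 (nat_lit 1) (nat_lit 80) (nat_lit 1) (nat_lit 84) (nat_lit 1) (nat_lit 381) (nat_lit 361) (nat_lit 278)) (XT.lf (nat_lit 76) (nat_lit 1195107605) (nat_lit 0) (nat_lit 1328652187) (nat_lit 304) (nat_lit 166251377) (nat_lit 78) (nat_lit 1) (nat_lit 77) (nat_lit 1) (nat_lit 81) (nat_lit 1) (nat_lit 382) (nat_lit 361) (nat_lit 277))) (XT.nd (nat_lit 46332) (nat_lit 0) (nat_lit 32148) (XT.lf (nat_lit 304) (nat_lit 222689032) (nat_lit 0) (nat_lit 2387659155) (nat_lit 228) (nat_lit 51358170) (nat_lit 78) (nat_lit 1) (nat_lit 74) (nat_lit 1) (nat_lit 77) (nat_lit 1) (nat_lit 383) (nat_lit 361) (nat_lit 276)) (XT.lf (nat_lit 1900) (nat_lit 1292421871) (nat_lit 0) (nat_lit 1303229524) (nat_lit 1900) (nat_lit 1292421871) (nat_lit 522) (nat_lit 1) (nat_lit 497) (nat_lit 0) (nat_lit 522) (nat_lit 0) (nat_lit 296) (nat_lit 362) (nat_lit 362)))) (XT.nd (nat_lit 156) (nat_lit 0) (nat_lit 76) (XT.nd (nat_lit 78)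 (nat_lit 0) (nat_lit 0) (XT.lf (nat_lit 1900) (nat_lit 597401708) (nat_lit 0) (nat_lit 2593172533) (nat_lit 1824) (nat_lit 4471834006) (nat_lit 523) (nat_lit 1) (nat_lit 498) (nat_lit 1) (nat_lit 522) (nat_lit 1) (nat_lit 297) (nat_lit 362) (nat_lit 361)) (XT.lf (nat_lit 1900) (nat_lit 4913013986) (nat_lit 76) (nat_lit 1263208533) (nat_lit 0) (nat_lit 1374609312) (nat_lit 523) (nat_lit 1) (nat_lit 499) (nat_lit 1) (nat_lit 498) (nat_lit 1) (nat_lit 298) (nat_lit 362) (nat_lit 360))) (XT.nd (nat_lit 78) (nat_lit 0) (nat_lit 76) (XT.lf (nat_lit 1900) (nat_lit 4124371789) (nat_lit 0) (nat_lit 2736859904) (nat_lit 1824) (nat_lit 580159580) (nat_lit 524) (nat_lit 1) (nat_lit 499) (nat_lit 1) (nat_lit 523) (nat_lit 1) (nat_lit 299) (nat_lit 362) (nat_lit 359)) (XT.nd (nat_lit 78) (nat_lit 0) (nat_lit 76) (XT.lf (nat_lit 1900) (nat_lit 2115835126) (nat_lit 0) (nat_lit 2888183731) (nat_lit 1824) (nat_lit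 2330016114) (nat_lit 525) (nat_lit 1) (nat_lit 500) (nat_lit 1) (nat_lit 524) (nat_lit 1) (nat_lit 300) (nat_lit 362) (nat_lit 358)) (XT.lf (nat_lit 1900) (nat_lit 142099434) (nat_lit 0) (nat_lit 3081610820) (nat_lit 1824) (nat_lit 4005165084) (nat_lit 526) (nat_lit 1) (nat_lit 501) (nat_lit 1) (nat_lit 525) (nat_lit 1) (nat_lit 301) (nat_lit 362) (nat_lit 357)))))) (XT.nd (nat_lit 390) (nat_lit 1444) (nat_lit 0) (XT.nd (nat_lit 156) (nat_lit 0) (nat_lit 152) (XT.nd (nat_lit 78) (nat_lit 0) (nat_lit 76) (XT.lf (nat_lit 1900) (nat_lit 3798569019) (nat_lit 76) (nat_lit 1506019388) (nat_lit 0) (nat_lit 1821037153) (nat_lit 526) (nat_lit 1) (nat_lit 502) (nat_lit 1) (nat_lit 501) (nat_lit 1) (nat_lit 302) (nat_lit 362) (nat_lit 356)) (XT.lf (nat_lit 1900) (nat_lit 3273915894) (nat_lit 0) (nat_lit 3612474579) (nat_lit 1824) (nat_lit 138050157) (nat_lit 527) (nat_lit 1) (nat_lit 502) (nat_lit 1) (nat_lit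 526) (nat_lit 1) (nat_lit 303) (nat_lit 362) (nat_lit 355))) (XT.nd (nat_lit 78) (nat_lit 0) (nat_lit 0) (XT.lf (nat_lit 1900) (nat_lit 1288892021) (nat_lit 0) (nat_lit 3943566784) (nat_lit 1824) (nat_lit 1692664285) (nat_lit 528) (nat_lit 1) (nat_lit 503) (nat_lit 1) (nat_lit 527) (nat_lit 1) (nat_lit 304) (nat_lit 362) (nat_lit 354)) (XT.nd (nat_lit 78) (nat_lit 0) (nat_lit 76) (XT.lf (nat_lit 1900) (nat_lit 2514531885) (nat_lit 76) (nat_lit 3643787136) (nat_lit 0) (nat_lit 669415528) (nat_lit 528) (nat_lit 1) (nat_lit 504) (nat_lit 1) (nat_lit 503) (nat_lit 1) (nat_lit 305) (nat_lit 362) (nat_lit 353)) (XT.lf (nat_lit 1900) (nat_lit 2008505192) (nat_lit 76) (nat_lit 2114377559) (nat_lit 0) (nat_lit 2609268348) (nat_lit 529) (nat_lit 1) (nat_lit 505) (nat_lit 1) (nat_lit 504) (nat_lit 1) (nat_lit 306) (nat_lit 362) (nat_lit 352))))) (XT.nd (nat_lit 156) (nat_lit 1748) (nat_lit 0) (XT.nd (nat_lit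 78) (nat_lit 0) (nat_lit 76) (XT.lf (nat_lit 1900) (nat_lit 1473658392) (nat_lit 76) (nat_lit 650913325) (nat_lit 0) (nat_lit 4513925823) (nat_lit 530) (nat_lit 1) (nat_lit 506) (nat_lit 1) (nat_lit 505) (nat_lit 1) (nat_lit 307) (nat_lit 362) (nat_lit 351)) (XT.lf (nat_lit 1900) (nat_lit 167810501) (nat_lit 0) (nat_lit 5640120813) (nat_lit 1824) (nat_lit 738701668) (nat_lit 531) (nat_lit 1) (nat_lit 506) (nat_lit 1) (nat_lit 530) (nat_lit 1) (nat_lit 308) (nat_lit 362) (nat_lit 350))) (XT.nd (nat_lit 78) (nat_lit 1824) (nat_lit 0) (XT.lf (nat_lit 1900) (nat_lit 297813064) (nat_lit 76) (nat_lit 4386375117) (nat_lit 0) (nat_lit 1772117247) (nat_lit 531) (nat_lit 1) (nat_lit 507) (nat_lit 1) (nat_lit 506) (nat_lit 1) (nat_lit 309) (nat_lit 362) (nat_lit 349)) (XT.nd (nat_lit 78) (nat_lit 0) (nat_lit 76) (XT.lf (nat_lit 1976) (nat_lit 2691568613) (nat_lit 0) (nat_lit 331514530) (nat_lit 1900) (nat_lit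 3344643515) (nat_lit 508) (nat_lit 1) (nat_lit 482) (nat_lit 1) (nat_lit 507) (nat_lit 1) (nat_lit 310) (nat_lit 362) (nat_lit 348)) (XT.lf (nat_lit 1976) (nat_lit 738260843) (nat_lit 0) (nat_lit 979239908) (nat_lit 1900) (nat_lit 4563379161) (nat_lit 509) (nat_lit 1) (nat_lit 483) (nat_lit 1) (nat_lit 508) (nat_lit 1) (nat_lit 311) (nat_lit 362) (nat_lit 347))))))))
noncomputable def ec56 : XT := (XT.nd (nat_lit 1404) (nat_lit 9576) (nat_lit 0) (XT.nd (nat_lit 702) (nat_lit 6080) (nat_lit 0) (XT.nd (nat_lit 312) (nat_lit 3572) (nat_lit 0) (XT.nd (nat_lit 156) (nat_lit 1976) (nat_lit 0) (XT.nd (nat_lit 78) (nat_lit 0) (nat_lit 76) (XT.lf (nat_lit 1976) (nat_lit 4539832564) (nat_lit 76) (nat_lit 461966870) (nat_lit 0) (nat_lit 1193809705) (nat_lit 509) (nat_lit 1) (nat_lit 484) (nat_lit 1) (nat_lit 483) (nat_lit 1) (nat_lit 312) (nat_lit 362) (nat_lit 346)) (XT.lf (nat_lit 76) (nat_lit 3017958975)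 (nat_lit 0) (nat_lit 2361611083) (nat_lit 1900) (nat_lit 732271869) (nat_lit 485) (nat_lit 1) (nat_lit 484) (nat_lit 1) (nat_lit 509) (nat_lit 1) (nat_lit 313) (nat_lit 362) (nat_lit 345))) (XT.nd (nat_lit 78) (nat_lit 912) (nat_lit 0) (XT.lf (nat_lit 76) (nat_lit 1074825753) (nat_lit 0) (nat_lit 3088562077) (nat_lit 1216) (nat_lit 1866293210) (nat_lit 470) (nat_lit 1) (nat_lit 469) (nat_lit 1) (nat_lit 485) (nat_lit 1) (nat_lit 314) (nat_lit 362) (nat_lit 344)) (XT.lf (nat_lit 988) (nat_lit 2111038522) (nat_lit 0) (nat_lit 2995841480) (nat_lit 912) (nat_lit 842159954) (nat_lit 470) (nat_lit 1) (nat_lit 457) (nat_lit 1) (nat_lit 469) (nat_lit 1) (nat_lit 315) (nat_lit 362) (nat_lit 343)))) (XT.nd (nat_lit 156) (nat_lit 1824) (nat_lit 0) (XT.nd (nat_lit 78) (nat_lit 836) (nat_lit 0) (XT.lf (nat_lit 988) (nat_lit 1259619321) (nat_lit 0) (nat_lit 1873972832) (nat_lit 912) (nat_lit 2736263018) (nat_lit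 458) (nat_lit 1) (nat_lit 445) (nat_lit 1) (nat_lit 457) (nat_lit 1) (nat_lit 316) (nat_lit 362) (nat_lit 342)) (XT.lf (nat_lit 912) (nat_lit 395050667) (nat_lit 0) (nat_lit 803464042) (nat_lit 836) (nat_lit 4593717952) (nat_lit 446) (nat_lit 1) (nat_lit 434) (nat_lit 1) (nat_lit 445) (nat_lit 1) (nat_lit 317) (nat_lit 362) (nat_lit 341))) (XT.nd (nat_lit 78) (nat_lit 1748) (nat_lit 0) (XT.lf (nat_lit 76) (nat_lit 5012422883) (nat_lit 0) (nat_lit 481449048) (nat_lit 912) (nat_lit 222082567) (nat_lit 434) (nat_lit 1) (nat_lit 433) (nat_lit 1) (nat_lit 445) (nat_lit 1) (nat_lit 318) (nat_lit 362) (nat_lit 340)) (XT.nd (nat_lit 78) (nat_lit 836) (nat_lit 0) (XT.lf (nat_lit 76) (nat_lit 3064708302) (nat_lit 0) (nat_lit 1376520880) (nat_lit 988) (nat_lit 1199636413) (nat_lit 422) (nat_lit 1) (nat_lit 421) (nat_lit 1) (nat_lit 434) (nat_lit 1) (nat_lit 319) (nat_lit 362) (nat_lit 339)) (XT.lf (nat_lit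 76) (nat_lit 1155274324) (nat_lit 0) (nat_lit 2281348979) (nat_lit 912) (nat_lit 2130623917) (nat_lit 411) (nat_lit 1) (nat_lit 410) (nat_lit 1) (nat_lit 422) (nat_lit 1) (nat_lit 320) (nat_lit 362) (nat_lit 338)))))) (XT.nd (nat_lit 312) (nat_lit 3648) (nat_lit 0) (XT.nd (nat_lit 156) (nat_lit 836) (nat_lit 0) (XT.nd (nat_lit 78) (nat_lit 760) (nat_lit 0) (XT.lf (nat_lit 912) (nat_lit 2295135816) (nat_lit 0) (nat_lit 2473860121) (nat_lit 836) (nat_lit 725976850) (nat_lit 411) (nat_lit 1) (nat_lit 399) (nat_lit 1) (nat_lit 410) (nat_lit 1) (nat_lit 321) (nat_lit 362) (nat_lit 337)) (XT.lf (nat_lit 836) (nat_lit 1290108080) (nat_lit 0) (nat_lit 1548894424) (nat_lit 760) (nat_lit 2584955392) (nat_lit 400) (nat_lit 1) (nat_lit 389) (nat_lit 1) (nat_lit 399) (nat_lit 1) (nat_lit 322) (nat_lit 362) (nat_lit 336))) (XT.nd (nat_lit 78) (nat_lit 76) (nat_lit 0) (XT.lf (nat_lit 836) (nat_lit 279279552) (nat_lit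 0) (nat_lit 668160957) (nat_lit 760) (nat_lit 4406883177) (nat_lit 390) (nat_lit 1) (nat_lit 379) (nat_lit 1) (nat_lit 389) (nat_lit 1) (nat_lit 323) (nat_lit 362) (nat_lit 335)) (XT.lf (nat_lit 76) (nat_lit 4373510145) (nat_lit 0) (nat_lit 734108731) (nat_lit 836) (nat_lit 178183419) (nat_lit 379) (nat_lit 1) (nat_lit 378) (nat_lit 1) (nat_lit 389) (nat_lit 1) (nat_lit 324) (nat_lit 362) (nat_lit 334)))) (XT.nd (nat_lit 156) (nat_lit 2128) (nat_lit 0) (XT.nd (nat_lit 78) (nat_lit 760) (nat_lit 0) (XT.lf (nat_lit 76) (nat_lit 2477547336) (nat_lit 0) (nat_lit 1758334486) (nat_lit 836) (nat_lit 982481444) (nat_lit 369) (nat_lit 1) (nat_lit 368) (nat_lit 1) (nat_lit 379) (nat_lit 1) (nat_lit 325) (nat_lit 362) (nat_lit 333)) (XT.lf (nat_lit 76) (nat_lit 619777139) (nat_lit 0) (nat_lit 2785840777) (nat_lit 836) (nat_lit 1746608319) (nat_lit 359) (nat_lit 1) (nat_lit 358) (nat_lit 1) (nat_lit 369) (nat_lit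 1) (nat_lit 326) (nat_lit 362) (nat_lit 332))) (XT.nd (nat_lit 78) (nat_lit 1444) (nat_lit 0) (XT.lf (nat_lit 760) (nat_lit 1263261359) (nat_lit 0) (nat_lit 2607575283) (nat_lit 684) (nat_lit 1216368403) (nat_lit 359) (nat_lit 1) (nat_lit 349) (nat_lit 1) (nat_lit 358) (nat_lit 1) (nat_lit 327) (nat_lit 362) (nat_lit 331)) (XT.nd (nat_lit 78) (nat_lit 760) (nat_lit 0) (XT.lf (nat_lit 760) (nat_lit 155329924) (nat_lit 0) (nat_lit 1844733388) (nat_lit 684) (nat_lit 3023290105) (nat_lit 350) (nat_lit 1) (nat_lit 340) (nat_lit 1) (nat_lit 349) (nat_lit 1) (nat_lit 328) (nat_lit 362) (nat_lit 330)) (XT.lf (nat_lit 76) (nat_lit 173550478) (nat_lit 0) (nat_lit 940252781) (nat_lit 760) (nat_lit 3846798950) (nat_lit 331) (nat_lit 1) (nat_lit 330) (nat_lit 1) (nat_lit 340) (nat_lit 1) (nat_lit 329) (nat_lit 362) (nat_lit 329))))))) (XT.nd (nat_lit 702) (nat_lit 4636) (nat_lit 0) (XT.nd (nat_lit 312) (nat_lit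 2964) (nat_lit 0) (XT.nd (nat_lit 156) (nat_lit 1292) (nat_lit 0) (XT.nd (nat_lit 78) (nat_lit 0) (nat_lit 0) (XT.lf (nat_lit 760) (nat_lit 2854724122) (nat_lit 0) (nat_lit 408125263) (nat_lit 684) (nat_lit 1635966847) (nat_lit 331) (nat_lit 1) (nat_lit 321) (nat_lit 1) (nat_lit 330) (nat_lit 1) (nat_lit 330) (nat_lit 362) (nat_lit 328)) (XT.lf (nat_lit 76) (nat_lit 1429405006) (nat_lit 0) (nat_lit 3149755524) (nat_lit 760) (nat_lit 258989820) (nat_lit 322) (nat_lit 1) (nat_lit 321) (nat_lit 1) (nat_lit 331) (nat_lit 1) (nat_lit 331) (nat_lit 362) (nat_lit 327))) (XT.nd (nat_lit 78) (nat_lit 684) (nat_lit 0) (XT.lf (nat_lit 684) (nat_lit 519754942) (nat_lit 0) (nat_lit 3890165711) (nat_lit 608) (nat_lit 368619384) (nat_lit 322) (nat_lit 1) (nat_lit 313) (nat_lit 1) (nat_lit 321) (nat_lit 1) (nat_lit 332) (nat_lit 362) (nat_lit 326)) (XT.lf (nat_lit 76) (nat_lit 2575951272) (nat_lit 0) (nat_lit 646429379)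 (nat_lit 684) (nat_lit 1497412529) (nat_lit 305) (nat_lit 1) (nat_lit 304) (nat_lit 1) (nat_lit 313) (nat_lit 1) (nat_lit 333) (nat_lit 362) (nat_lit 325)))) (XT.nd (nat_lit 156) (nat_lit 1748) (nat_lit 0) (XT.nd (nat_lit 78) (nat_lit 608) (nat_lit 0) (XT.lf (nat_lit 76) (nat_lit 783267912) (nat_lit 0) (nat_lit 1802037283) (nat_lit 684) (nat_lit 2076786511) (nat_lit 297) (nat_lit 1) (nat_lit 296) (nat_lit 1) (nat_lit 305) (nat_lit 1) (nat_lit 334) (nat_lit 362) (nat_lit 324)) (XT.lf (nat_lit 684) (nat_lit 1645401058) (nat_lit 0) (nat_lit 1974873107) (nat_lit 608) (nat_lit 985077416) (nat_lit 297) (nat_lit 1) (nat_lit 288) (nat_lit 1) (nat_lit 296) (nat_lit 1) (nat_lit 335) (nat_lit 362) (nat_lit 323))) (XT.nd (nat_lit 78) (nat_lit 1216) (nat_lit 0) (XT.lf (nat_lit 608) (nat_lit 431207752) (nat_lit 0) (nat_lit 1391638601) (nat_lit 532) (nat_lit 2726733058) (nat_lit 289) (nat_lit 1) (nat_lit 281) (nat_lit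 1) (nat_lit 288) (nat_lit 1) (nat_lit 336) (nat_lit 362) (nat_lit 322)) (XT.nd (nat_lit 78) (nat_lit 532) (nat_lit 0) (XT.lf (nat_lit 76) (nat_lit 67965761) (nat_lit 0) (nat_lit 766808018) (nat_lit 684) (nat_lit 3659980962) (nat_lit 273) (nat_lit 1) (nat_lit 272) (nat_lit 1) (nat_lit 281) (nat_lit 1) (nat_lit 337) (nat_lit 362) (nat_lit 321)) (XT.lf (nat_lit 608) (nat_lit 2476839448) (nat_lit 0) (nat_lit 294641679) (nat_lit 532) (nat_lit 1669203307) (nat_lit 273) (nat_lit 1) (nat_lit 265) (nat_lit 1) (nat_lit 272) (nat_lit 1) (nat_lit 338) (nat_lit 362) (nat_lit 320)))))) (XT.nd (nat_lit 390) (nat_lit 2508) (nat_lit 0) (XT.nd (nat_lit 156) (nat_lit 1520) (nat_lit 0) (XT.nd (nat_lit 78) (nat_lit 608) (nat_lit 0) (XT.lf (nat_lit 76) (nat_lit 1018375707) (nat_lit 0) (nat_lit 3156094138) (nat_lit 608) (nat_lit 213117598) (nat_lit 266) (nat_lit 1) (nat_lit 265) (nat_lit 1) (nat_lit 273) (nat_lit 1) (nat_lit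 339) (nat_lit 362) (nat_lit 319)) (XT.lf (nat_lit 76) (nat_lit 3630151756) (nat_lit 0) (nat_lit 12272440) (nat_lit 608) (nat_lit 692927726) (nat_lit 258) (nat_lit 1) (nat_lit 257) (nat_lit 1) (nat_lit 265) (nat_lit 1) (nat_lit 340) (nat_lit 362) (nat_lit 318))) (XT.nd (nat_lit 78) (nat_lit 988) (nat_lit 0) (XT.lf (nat_lit 76) (nat_lit 1886243397) (nat_lit 0) (nat_lit 1238279589) (nat_lit 608) (nat_lit 1159276614) (nat_lit 251) (nat_lit 1) (nat_lit 250) (nat_lit 1) (nat_lit 258) (nat_lit 1) (nat_lit 341) (nat_lit 362) (nat_lit 317)) (XT.nd (nat_lit 78) (nat_lit 456) (nat_lit 0) (XT.lf (nat_lit 76) (nat_lit 179189764) (nat_lit 0) (nat_lit 2455772941) (nat_lit 608) (nat_lit 1598242194) (nat_lit 244) (nat_lit 1) (nat_lit 243) (nat_lit 1) (nat_lit 251) (nat_lit 1) (nat_lit 342) (nat_lit 362) (nat_lit 316)) (XT.lf (nat_lit 532) (nat_lit 508936371) (nat_lit 0) (nat_lit 2162916790) (nat_lit 456) (nat_lit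 1511498470) (nat_lit 244) (nat_lit 1) (nat_lit 237) (nat_lit 1) (nat_lit 243) (nat_lit 1) (nat_lit 343) (nat_lit 362) (nat_lit 315))))) (XT.nd (nat_lit 156) (nat_lit 1444) (nat_lit 0) (XT.nd (nat_lit 78) (nat_lit 456) (nat_lit 0) (XT.lf (nat_lit 76) (nat_lit 970709884) (nat_lit 0) (nat_lit 740953444) (nat_lit 608) (nat_lit 2422636880) (nat_lit 230) (nat_lit 1) (nat_lit 229) (nat_lit 1) (nat_lit 237) (nat_lit 1) (nat_lit 344) (nat_lit 362) (nat_lit 314)) (XT.lf (nat_lit 532) (nat_lit 2107218227) (nat_lit 0) (nat_lit 1278657136) (nat_lit 456) (nat_lit 700121536) (nat_lit 230) (nat_lit 1) (nat_lit 223) (nat_lit 1) (nat_lit 229) (nat_lit 1) (nat_lit 345) (nat_lit 362) (nat_lit 313))) (XT.nd (nat_lit 78) (nat_lit 988) (nat_lit 0) (XT.lf (nat_lit 532) (nat_lit 825731316) (nat_lit 0) (nat_lit 864870803) (nat_lit 456) (nat_lit 2347854864) (nat_lit 224) (nat_lit 1) (nat_lit 217) (nat_lit 1) (nat_lit 223)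 (nat_lit 1) (nat_lit 346) (nat_lit 362) (nat_lit 312)) (XT.nd (nat_lit 78) (nat_lit 456) (nat_lit 0) (XT.lf (nat_lit 76) (nat_lit 34424390) (nat_lit 0) (nat_lit 438706198) (nat_lit 532) (nat_lit 3518601537) (nat_lit 211) (nat_lit 1) (nat_lit 210) (nat_lit 1) (nat_lit 217) (nat_lit 1) (nat_lit 347) (nat_lit 362) (nat_lit 311)) (XT.lf (nat_lit 532) (nat_lit 2253960200) (nat_lit 0) (nat_lit 89653111) (nat_lit 456) (nat_lit 1601935036) (nat_lit 211) (nat_lit 1) (nat_lit 204) (nat_lit 1) (nat_lit 210) (nat_lit 1) (nat_lit 348) (nat_lit 362) (nat_lit 310))))))))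
noncomputable def ec57 : XT := (XT.nd (nat_lit 1404) (nat_lit 4332) (nat_lit 0) (XT.nd (nat_lit 702) (nat_lit 2736) (nat_lit 0) (XT.nd (nat_lit 312) (nat_lit 1976) (nat_lit 0) (XT.nd (nat_lit 156) (nat_lit 836) (nat_lit 0) (XT.nd (nat_lit 78) (nat_lit 456) (nat_lit 0) (XT.lf (nat_lit 76) (nat_lit 698476144) (nat_lit 0) (nat_lit 2935048088) (nat_lit 532) (nat_lit 266644101) (nat_lit 205) (nat_lit 1) (nat_lit 204) (nat_lit 1) (nat_lit 211) (nat_lit 1) (nat_lit 349) (nat_lit 362) (nat_lit 309)) (XT.lf (nat_lit 76) (nat_lit 2934657091) (nat_lit 0) (nat_lit 313836951) (nat_lit 456) (nat_lit 606950672) (nat_lit 199) (nat_lit 1) (nat_lit 198) (nat_lit 1) (nat_lit 204) (nat_lit 1) (nat_lit 350) (nat_lit 362) (nat_lit 308))) (XT.nd (nat_lit 78) (nat_lit 380) (nat_lit 0) (XT.lf (nat_lit 76) (nat_lit 1303417392) (nat_lit 0) (nat_lit 1572271117) (nat_lit 532) (nat_lit 935633199) (nat_lit 193) (nat_lit 1) (nat_lit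 192) (nat_lit 1) (nat_lit 199) (nat_lit 1) (nat_lit 351) (nat_lit 362) (nat_lit 307)) (XT.lf (nat_lit 456) (nat_lit 947818664) (nat_lit 0) (nat_lit 2523583761) (nat_lit 380) (nat_lit 296559582) (nat_lit 193) (nat_lit 1) (nat_lit 187) (nat_lit 1) (nat_lit 192) (nat_lit 1) (nat_lit 352) (nat_lit 362) (nat_lit 306)))) (XT.nd (nat_lit 156) (nat_lit 1140) (nat_lit 0) (XT.nd (nat_lit 78) (nat_lit 380) (nat_lit 0) (XT.lf (nat_lit 76) (nat_lit 1848509948) (nat_lit 0) (nat_lit 334223196) (nat_lit 456) (nat_lit 1542443769) (nat_lit 182) (nat_lit 1) (nat_lit 181) (nat_lit 1) (nat_lit 187) (nat_lit 1) (nat_lit 353) (nat_lit 362) (nat_lit 305)) (XT.lf (nat_lit 76) (nat_lit 266746916) (nat_lit 0) (nat_lit 1590550897) (nat_lit 456) (nat_lit 1825746771) (nat_lit 177) (nat_lit 1) (nat_lit 176) (nat_lit 1) (nat_lit 182) (nat_lit 1) (nat_lit 354) (nat_lit 362) (nat_lit 304))) (XT.nd (nat_lit 78) (nat_lit 760) (nat_lit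 0) (XT.lf (nat_lit 456) (nat_lit 799443535) (nat_lit 0) (nat_lit 1544335980) (nat_lit 380) (nat_lit 1297724417) (nat_lit 177) (nat_lit 1) (nat_lit 171) (nat_lit 1) (nat_lit 176) (nat_lit 1) (nat_lit 355) (nat_lit 362) (nat_lit 303)) (XT.nd (nat_lit 78) (nat_lit 380) (nat_lit 0) (XT.lf (nat_lit 76) (nat_lit 772167408) (nat_lit 0) (nat_lit 474914608) (nat_lit 380) (nat_lit 2353532991) (nat_lit 167) (nat_lit 1) (nat_lit 166) (nat_lit 1) (nat_lit 171) (nat_lit 1) (nat_lit 356) (nat_lit 362) (nat_lit 302)) (XT.lf (nat_lit 456) (nat_lit 1830387543) (nat_lit 0) (nat_lit 959613206) (nat_lit 380) (nat_lit 770257591) (nat_lit 167) (nat_lit 1) (nat_lit 161) (nat_lit 1) (nat_lit 166) (nat_lit 1) (nat_lit 357) (nat_lit 362) (nat_lit 301)))))) (XT.nd (nat_lit 312) (nat_lit 1672) (nat_lit 0) (XT.nd (nat_lit 156) (nat_lit 304) (nat_lit 0) (XT.nd (nat_lit 78) (nat_lit 456) (nat_lit 0) (XT.lf (nat_lit 380) (nat_lit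 544686664) (nat_lit 0) (nat_lit 686784627) (nat_lit 304) (nat_lit 2289054533) (nat_lit 162) (nat_lit 1) (nat_lit 157) (nat_lit 1) (nat_lit 161) (nat_lit 1) (nat_lit 358) (nat_lit 362) (nat_lit 300)) (XT.lf (nat_lit 456) (nat_lit 2762687682) (nat_lit 0) (nat_lit 426459940) (nat_lit 380) (nat_lit 292224676) (nat_lit 157) (nat_lit 1) (nat_lit 151) (nat_lit 1) (nat_lit 156) (nat_lit 1) (nat_lit 359) (nat_lit 362) (nat_lit 299))) (XT.nd (nat_lit 78) (nat_lit 0) (nat_lit 0) (XT.lf (nat_lit 380) (nat_lit 1474331836) (nat_lit 0) (nat_lit 173298359) (nat_lit 304) (nat_lit 1795059603) (nat_lit 152) (nat_lit 1) (nat_lit 147) (nat_lit 1) (nat_lit 151) (nat_lit 1) (nat_lit 360) (nat_lit 362) (nat_lit 298)) (XT.lf (nat_lit 76) (nat_lit 140193873) (nat_lit 0) (nat_lit 3203898046) (nat_lit 380) (nat_lit 60596754) (nat_lit 148) (nat_lit 1) (nat_lit 147) (nat_lit 1) (nat_lit 152) (nat_lit 1) (nat_lit 361) (nat_lit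 362) (nat_lit 297)))) (XT.nd (nat_lit 156) (nat_lit 988) (nat_lit 0) (XT.nd (nat_lit 78) (nat_lit 304) (nat_lit 0) (XT.lf (nat_lit 76) (nat_lit 2023178144) (nat_lit 0) (nat_lit 1053619628) (nat_lit 380) (nat_lit 290231215) (nat_lit 143) (nat_lit 1) (nat_lit 142) (nat_lit 1) (nat_lit 147) (nat_lit 1) (nat_lit 362) (nat_lit 362) (nat_lit 296)) (XT.lf (nat_lit 76) (nat_lit 534176415) (nat_lit 0) (nat_lit 2291208440) (nat_lit 380) (nat_lit 504610588) (nat_lit 139) (nat_lit 1) (nat_lit 138) (nat_lit 1) (nat_lit 143) (nat_lit 1) (nat_lit 363) (nat_lit 362) (nat_lit 295))) (XT.nd (nat_lit 78) (nat_lit 608) (nat_lit 0) (XT.lf (nat_lit 76) (nat_lit 2360514484) (nat_lit 0) (nat_lit 223407317) (nat_lit 380) (nat_lit 709546882) (nat_lit 134) (nat_lit 1) (nat_lit 133) (nat_lit 1) (nat_lit 138) (nat_lit 1) (nat_lit 364) (nat_lit 362) (nat_lit 294)) (XT.nd (nat_lit 78) (nat_lit 304) (nat_lit 0) (XT.lf (nat_lit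 76) (nat_lit 889419473) (nat_lit 0) (nat_lit 1460000275) (nat_lit 380) (nat_lit 907967325) (nat_lit 130) (nat_lit 1) (nat_lit 129) (nat_lit 1) (nat_lit 134) (nat_lit 1) (nat_lit 365) (nat_lit 362) (nat_lit 293)) (XT.lf (nat_lit 380) (nat_lit 537034602) (nat_lit 0) (nat_lit 2128179898) (nat_lit 304) (nat_lit 556656672) (nat_lit 130) (nat_lit 1) (nat_lit 125) (nat_lit 1) (nat_lit 129) (nat_lit 1) (nat_lit 366) (nat_lit 362) (nat_lit 292))))))) (XT.nd (nat_lit 702) (nat_lit 1748) (nat_lit 0) (XT.nd (nat_lit 312) (nat_lit 1368) (nat_lit 0) (XT.nd (nat_lit 156) (nat_lit 608) (nat_lit 0) (XT.nd (nat_lit 78) (nat_lit 304) (nat_lit 0) (XT.lf (nat_lit 76) (nat_lit 1209053751) (nat_lit 0) (nat_lit 703868142) (nat_lit 304) (nat_lit 1273853367) (nat_lit 122) (nat_lit 1) (nat_lit 121) (nat_lit 1) (nat_lit 125) (nat_lit 1) (nat_lit 367) (nat_lit 362) (nat_lit 291)) (XT.lf (nat_lit 380) (nat_lit 1228774372) (nat_lit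 0) (nat_lit 1708986461) (nat_lit 304) (nat_lit 214440286) (nat_lit 122) (nat_lit 1) (nat_lit 117) (nat_lit 1) (nat_lit 121) (nat_lit 1) (nat_lit 368) (nat_lit 362) (nat_lit 290))) (XT.nd (nat_lit 78) (nat_lit 304) (nat_lit 0) (XT.lf (nat_lit 76) (nat_lit 1495968295) (nat_lit 0) (nat_lit 16896729) (nat_lit 304) (nat_lit 1605212017) (nat_lit 114) (nat_lit 1) (nat_lit 113) (nat_lit 1) (nat_lit 117) (nat_lit 1) (nat_lit 369) (nat_lit 362) (nat_lit 289)) (XT.lf (nat_lit 76) (nat_lit 93802026) (nat_lit 0) (nat_lit 1230490398) (nat_lit 380) (nat_lit 1760102522) (nat_lit 110) (nat_lit 1) (nat_lit 109) (nat_lit 1) (nat_lit 114) (nat_lit 1) (nat_lit 370) (nat_lit 362) (nat_lit 288)))) (XT.nd (nat_lit 156) (nat_lit 760) (nat_lit 0) (XT.nd (nat_lit 78) (nat_lit 380) (nat_lit 0) (XT.lf (nat_lit 304) (nat_lit 614434864) (nat_lit 0) (nat_lit 1142383369) (nat_lit 228) (nat_lit 1294316390) (nat_lit 110) (nat_lit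 1) (nat_lit 106) (nat_lit 1) (nat_lit 109) (nat_lit 1) (nat_lit 371) (nat_lit 362) (nat_lit 287)) (XT.lf (nat_lit 76) (nat_lit 369532126) (nat_lit 0) (nat_lit 601276962) (nat_lit 380) (nat_lit 2047556140) (nat_lit 102) (nat_lit 1) (nat_lit 101) (nat_lit 1) (nat_lit 106) (nat_lit 1) (nat_lit 372) (nat_lit 362) (nat_lit 286))) (XT.nd (nat_lit 78) (nat_lit 532) (nat_lit 0) (XT.lf (nat_lit 304) (nat_lit 1186557358) (nat_lit 0) (nat_lit 803241770) (nat_lit 228) (nat_lit 996160759) (nat_lit 102) (nat_lit 1) (nat_lit 98) (nat_lit 1) (nat_lit 101) (nat_lit 1) (nat_lit 373) (nat_lit 362) (nat_lit 285)) (XT.nd (nat_lit 78) (nat_lit 228) (nat_lit 0) (XT.lf (nat_lit 76) (nat_lit 617960506) (nat_lit 0) (nat_lit 29487317) (nat_lit 304) (nat_lit 2306620290) (nat_lit 95) (nat_lit 1) (nat_lit 94) (nat_lit 1) (nat_lit 98) (nat_lit 1) (nat_lit 374) (nat_lit 362) (nat_lit 284)) (XT.lf (nat_lit 304) (nat_lit 1703965596)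 (nat_lit 0) (nat_lit 493133986) (nat_lit 228) (nat_lit 725385750) (nat_lit 95) (nat_lit 1) (nat_lit 91) (nat_lit 1) (nat_lit 94) (nat_lit 1) (nat_lit 375) (nat_lit 362) (nat_lit 283)))))) (XT.nd (nat_lit 390) (nat_lit 684) (nat_lit 0) (XT.nd (nat_lit 156) (nat_lit 532) (nat_lit 0) (XT.nd (nat_lit 78) (nat_lit 304) (nat_lit 0) (XT.lf (nat_lit 304) (nat_lit 495913858) (nat_lit 0) (nat_lit 348606057) (nat_lit 228) (nat_lit 2046851768) (nat_lit 92) (nat_lit 1) (nat_lit 88) (nat_lit 1) (nat_lit 91) (nat_lit 1) (nat_lit 376) (nat_lit 362) (nat_lit 282)) (XT.lf (nat_lit 304) (nat_lit 2171017050) (nat_lit 0) (nat_lit 209824016) (nat_lit 228) (nat_lit 479804195) (nat_lit 88) (nat_lit 1) (nat_lit 84) (nat_lit 1) (nat_lit 87) (nat_lit 1) (nat_lit 377) (nat_lit 362) (nat_lit 281))) (XT.nd (nat_lit 78) (nat_lit 304) (nat_lit 0) (XT.lf (nat_lit 304) (nat_lit 972351495) (nat_lit 0) (nat_lit 75554541) (nat_lit 228)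 (nat_lit 1782373179) (nat_lit 85) (nat_lit 1) (nat_lit 81) (nat_lit 1) (nat_lit 84) (nat_lit 1) (nat_lit 378) (nat_lit 362) (nat_lit 280)) (XT.nd (nat_lit 78) (nat_lit 228) (nat_lit 0) (XT.lf (nat_lit 76) (nat_lit 2543296917) (nat_lit 0) (nat_lit 208959472) (nat_lit 304) (nat_lit 48115008) (nat_lit 81) (nat_lit 1) (nat_lit 80) (nat_lit 1) (nat_lit 84) (nat_lit 1) (nat_lit 379) (nat_lit 362) (nat_lit 279)) (XT.lf (nat_lit 76) (nat_lit 1230960833) (nat_lit 0) (nat_lit 1368511752) (nat_lit 304) (nat_lit 171238919) (nat_lit 78) (nat_lit 1) (nat_lit 77) (nat_lit 1) (nat_lit 81) (nat_lit 1) (nat_lit 380) (nat_lit 362) (nat_lit 278))))) (XT.nd (nat_lit 156) (nat_lit 228) (nat_lit 0) (XT.nd (nat_lit 78) (nat_lit 228) (nat_lit 0) (XT.lf (nat_lit 304) (nat_lit 229369703) (nat_lit 0) (nat_lit 2459288929) (nat_lit 228) (nat_lit 52898916) (nat_lit 78) (nat_lit 1) (nat_lit 74) (nat_lit 1) (nat_lit 77) (nat_lit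 1) (nat_lit 381) (nat_lit 362) (nat_lit 277)) (XT.lf (nat_lit 76) (nat_lit 1394666137) (nat_lit 0) (nat_lit 922758067) (nat_lit 228) (nat_lit 395202788) (nat_lit 72) (nat_lit 1) (nat_lit 71) (nat_lit 1) (nat_lit 74) (nat_lit 1) (nat_lit 382) (nat_lit 362) (nat_lit 276))) (XT.nd (nat_lit 46176) (nat_lit 0) (nat_lit 32604) (XT.lf (nat_lit 76) (nat_lit 130935323) (nat_lit 0) (nat_lit 2055620135) (nat_lit 304) (nat_lit 497610457) (nat_lit 69) (nat_lit 1) (nat_lit 68) (nat_lit 1) (nat_lit 72) (nat_lit 1) (nat_lit 383) (nat_lit 362) (nat_lit 275)) (XT.nd (nat_lit 78) (nat_lit 0) (nat_lit 76) (XT.lf (nat_lit 1900) (nat_lit 1331194527) (nat_lit 0) (nat_lit 1342326409) (nat_lit 1900) (nat_lit 1331194527) (nat_lit 522) (nat_lit 1) (nat_lit 497) (nat_lit 0) (nat_lit 522) (nat_lit 0) (nat_lit 294) (nat_lit 363) (nat_lit 363)) (XT.lf (nat_lit 1900) (nat_lit 615323759) (nat_lit 0) (nat_lit 2670967709) (nat_lit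 1824) (nat_lit 4605989027) (nat_lit 523) (nat_lit 1) (nat_lit 498) (nat_lit 1) (nat_lit 522) (nat_lit 1) (nat_lit 295) (nat_lit 363) (nat_lit 362))))))))
noncomputable def ec58 : XT := (XT.nd (nat_lit 1404) (nat_lit 12236) (nat_lit 0) (XT.nd (nat_lit 702) (nat_lit 3116) (nat_lit 0) (XT.nd (nat_lit 312) (nat_lit 0) (nat_lit 228) (XT.nd (nat_lit 156) (nat_lit 0) (nat_lit 152) (XT.nd (nat_lit 78) (nat_lit 0) (nat_lit 76) (XT.lf (nat_lit 1900) (nat_lit 5060404405) (nat_lit 76) (nat_lit 1301104789) (nat_lit 0) (nat_lit 1415847592) (nat_lit 523) (nat_lit 1) (nat_lit 499) (nat_lit 1) (nat_lit 498) (nat_lit 1) (nat_lit 296) (nat_lit 363) (nat_lit 361)) (XT.lf (nat_lit 1900) (nat_lit 4248102942) (nat_lit 0) (nat_lit 2818965701) (nat_lit 1824) (nat_lit 597564367) (nat_lit 524) (nat_lit 1) (nat_lit 499) (nat_lit 1) (nat_lit 523) (nat_lit 1) (nat_lit 297) (nat_lit 363) (nat_lit 360))) (XT.nd (nat_lit 78) (nat_lit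 0) (nat_lit 76) (XT.lf (nat_lit 1900) (nat_lit 2179310180) (nat_lit 0) (nat_lit 2974829243) (nat_lit 1824) (nat_lit 2399916598) (nat_lit 525) (nat_lit 1) (nat_lit 500) (nat_lit 1) (nat_lit 524) (nat_lit 1) (nat_lit 298) (nat_lit 363) (nat_lit 359)) (XT.lf (nat_lit 1900) (nat_lit 146362418) (nat_lit 0) (nat_lit 3174059145) (nat_lit 1824) (nat_lit 4125320037) (nat_lit 526) (nat_lit 1) (nat_lit 501) (nat_lit 1) (nat_lit 525) (nat_lit 1) (nat_lit 299) (nat_lit 363) (nat_lit 358)))) (XT.nd (nat_lit 156) (nat_lit 0) (nat_lit 152) (XT.nd (nat_lit 78) (nat_lit 0) (nat_lit 76) (XT.lf (nat_lit 1900) (nat_lit 3912526089) (nat_lit 76) (nat_lit 1551199969) (nat_lit 0) (nat_lit 1875668268) (nat_lit 526) (nat_lit 1) (nat_lit 502) (nat_lit 1) (nat_lit 501) (nat_lit 1) (nat_lit 300) (nat_lit 363) (nat_lit 357)) (XT.lf (nat_lit 1900) (nat_lit 3372133371) (nat_lit 0) (nat_lit 3720848817) (nat_lit 1824) (nat_lit 142191662)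 (nat_lit 527) (nat_lit 1) (nat_lit 502) (nat_lit 1) (nat_lit 526) (nat_lit 1) (nat_lit 301) (nat_lit 363) (nat_lit 356))) (XT.nd (nat_lit 78) (nat_lit 0) (nat_lit 0) (XT.lf (nat_lit 1900) (nat_lit 1327558782) (nat_lit 0) (nat_lit 4061873787) (nat_lit 1824) (nat_lit 1743444214) (nat_lit 528) (nat_lit 1) (nat_lit 503) (nat_lit 1) (nat_lit 527) (nat_lit 1) (nat_lit 302) (nat_lit 363) (nat_lit 355)) (XT.nd (nat_lit 78) (nat_lit 0) (nat_lit 76) (XT.lf (nat_lit 1900) (nat_lit 2589967842) (nat_lit 76) (nat_lit 3753100750) (nat_lit 0) (nat_lit 689497994) (nat_lit 528) (nat_lit 1) (nat_lit 504) (nat_lit 1) (nat_lit 503) (nat_lit 1) (nat_lit 303) (nat_lit 363) (nat_lit 354)) (XT.lf (nat_lit 1900) (nat_lit 2068760348) (nat_lit 76) (nat_lit 2177808886) (nat_lit 0) (nat_lit 2687546399) (nat_lit 529) (nat_lit 1) (nat_lit 505) (nat_lit 1) (nat_lit 504) (nat_lit 1) (nat_lit 304) (nat_lit 363) (nat_lit 353))))))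 (XT.nd (nat_lit 312) (nat_lit 1900) (nat_lit 0) (XT.nd (nat_lit 156) (nat_lit 1748) (nat_lit 0) (XT.nd (nat_lit 78) (nat_lit 0) (nat_lit 76) (XT.lf (nat_lit 1900) (nat_lit 1517868144) (nat_lit 76) (nat_lit 670440725) (nat_lit 0) (nat_lit 4649343598) (nat_lit 530) (nat_lit 1) (nat_lit 506) (nat_lit 1) (nat_lit 505) (nat_lit 1) (nat_lit 305) (nat_lit 363) (nat_lit 352)) (XT.lf (nat_lit 1900) (nat_lit 172844816) (nat_lit 0) (nat_lit 5809324437) (nat_lit 1824) (nat_lit 760862718) (nat_lit 531) (nat_lit 1) (nat_lit 506) (nat_lit 1) (nat_lit 530) (nat_lit 1) (nat_lit 306) (nat_lit 363) (nat_lit 351))) (XT.nd (nat_lit 78) (nat_lit 1824) (nat_lit 0) (XT.lf (nat_lit 1900) (nat_lit 306747456) (nat_lit 76) (nat_lit 4517966371) (nat_lit 0) (nat_lit 1825280764) (nat_lit 531) (nat_lit 1) (nat_lit 507) (nat_lit 1) (nat_lit 506) (nat_lit 1) (nat_lit 307) (nat_lit 363) (nat_lit 350)) (XT.lf (nat_lit 1976) (nat_lit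 2772315672) (nat_lit 0) (nat_lit 341459966) (nat_lit 1900) (nat_lit 3444982821) (nat_lit 508) (nat_lit 1) (nat_lit 482) (nat_lit 1) (nat_lit 507) (nat_lit 1) (nat_lit 308) (nat_lit 363) (nat_lit 349)))) (XT.nd (nat_lit 156) (nat_lit 1976) (nat_lit 0) (XT.nd (nat_lit 78) (nat_lit 0) (nat_lit 0) (XT.lf (nat_lit 1976) (nat_lit 760408668) (nat_lit 0) (nat_lit 1008617105) (nat_lit 1900) (nat_lit 4700280536) (nat_lit 509) (nat_lit 1) (nat_lit 483) (nat_lit 1) (nat_lit 508) (nat_lit 1) (nat_lit 309) (nat_lit 363) (nat_lit 348)) (XT.lf (nat_lit 1976) (nat_lit 4676027541) (nat_lit 76) (nat_lit 475825877) (nat_lit 0) (nat_lit 1229623996) (nat_lit 509) (nat_lit 1) (nat_lit 484) (nat_lit 1) (nat_lit 483) (nat_lit 1) (nat_lit 310) (nat_lit 363) (nat_lit 347))) (XT.nd (nat_lit 78) (nat_lit 2052) (nat_lit 0) (XT.lf (nat_lit 76) (nat_lit 3108497744) (nat_lit 0) (nat_lit 2432459416) (nat_lit 1900) (nat_lit 754240025)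 (nat_lit 485) (nat_lit 1) (nat_lit 484) (nat_lit 1) (nat_lit 509) (nat_lit 1) (nat_lit 311) (nat_lit 363) (nat_lit 346)) (XT.nd (nat_lit 78) (nat_lit 912) (nat_lit 0) (XT.lf (nat_lit 76) (nat_lit 1107070525) (nat_lit 0) (nat_lit 3181218940) (nat_lit 1216) (nat_lit 1922282006) (nat_lit 470) (nat_lit 1) (nat_lit 469) (nat_lit 1) (nat_lit 485) (nat_lit 1) (nat_lit 312) (nat_lit 363) (nat_lit 345)) (XT.lf (nat_lit 988) (nat_lit 2174369677) (nat_lit 0) (nat_lit 3085716724) (nat_lit 912) (nat_lit 867424752) (nat_lit 470) (nat_lit 1) (nat_lit 457) (nat_lit 1) (nat_lit 469) (nat_lit 1) (nat_lit 313) (nat_lit 363) (nat_lit 344))))))) (XT.nd (nat_lit 702) (nat_lit 6232) (nat_lit 0) (XT.nd (nat_lit 312) (nat_lit 3268) (nat_lit 0) (XT.nd (nat_lit 156) (nat_lit 988) (nat_lit 0) (XT.nd (nat_lit 78) (nat_lit 836) (nat_lit 0) (XT.lf (nat_lit 988) (nat_lit 1297407900) (nat_lit 0) (nat_lit 1930192017) (nat_lit 912)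 (nat_lit 2818350909) (nat_lit 458) (nat_lit 1) (nat_lit 445) (nat_lit 1) (nat_lit 457) (nat_lit 1) (nat_lit 314) (nat_lit 363) (nat_lit 343)) (XT.lf (nat_lit 912) (nat_lit 406902187) (nat_lit 0) (nat_lit 827567963) (nat_lit 836) (nat_lit 4731529491) (nat_lit 446) (nat_lit 1) (nat_lit 434) (nat_lit 1) (nat_lit 445) (nat_lit 1) (nat_lit 315) (nat_lit 363) (nat_lit 342))) (XT.nd (nat_lit 78) (nat_lit 912) (nat_lit 0) (XT.lf (nat_lit 76) (nat_lit 5162795569) (nat_lit 0) (nat_lit 495892519) (nat_lit 912) (nat_lit 228745044) (nat_lit 434) (nat_lit 1) (nat_lit 433) (nat_lit 1) (nat_lit 445) (nat_lit 1) (nat_lit 316) (nat_lit 363) (nat_lit 341)) (XT.lf (nat_lit 76) (nat_lit 3156649551) (nat_lit 0) (nat_lit 1417816506) (nat_lit 988) (nat_lit 1235625505) (nat_lit 422) (nat_lit 1) (nat_lit 421) (nat_lit 1) (nat_lit 434) (nat_lit 1) (nat_lit 317) (nat_lit 363) (nat_lit 340)))) (XT.nd (nat_lit 156) (nat_lit 1596)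 (nat_lit 0) (XT.nd (nat_lit 78) (nat_lit 836) (nat_lit 0) (XT.lf (nat_lit 76) (nat_lit 1189932553) (nat_lit 0) (nat_lit 2349789449) (nat_lit 912) (nat_lit 2194542634) (nat_lit 411) (nat_lit 1) (nat_lit 410) (nat_lit 1) (nat_lit 422) (nat_lit 1) (nat_lit 318) (nat_lit 363) (nat_lit 339)) (XT.lf (nat_lit 912) (nat_lit 2363989890) (nat_lit 0) (nat_lit 2548075925) (nat_lit 836) (nat_lit 747756156) (nat_lit 411) (nat_lit 1) (nat_lit 399) (nat_lit 1) (nat_lit 410) (nat_lit 1) (nat_lit 319) (nat_lit 363) (nat_lit 338))) (XT.nd (nat_lit 78) (nat_lit 836) (nat_lit 0) (XT.lf (nat_lit 836) (nat_lit 1328811323) (nat_lit 0) (nat_lit 1595361257) (nat_lit 760) (nat_lit 2662504054) (nat_lit 400) (nat_lit 1) (nat_lit 389) (nat_lit 1) (nat_lit 399) (nat_lit 1) (nat_lit 320) (nat_lit 363) (nat_lit 337)) (XT.nd (nat_lit 78) (nat_lit 76) (nat_lit 0) (XT.lf (nat_lit 836) (nat_lit 287657939) (nat_lit 0) (nat_lit 688205786)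 (nat_lit 760) (nat_lit 4539089673) (nat_lit 390) (nat_lit 1) (nat_lit 379) (nat_lit 1) (nat_lit 389) (nat_lit 1) (nat_lit 321) (nat_lit 363) (nat_lit 336)) (XT.lf (nat_lit 76) (nat_lit 4504715449) (nat_lit 0) (nat_lit 756131993) (nat_lit 836) (nat_lit 183528921) (nat_lit 379) (nat_lit 1) (nat_lit 378) (nat_lit 1) (nat_lit 389) (nat_lit 1) (nat_lit 322) (nat_lit 363) (nat_lit 335)))))) (XT.nd (nat_lit 390) (nat_lit 2584) (nat_lit 0) (XT.nd (nat_lit 156) (nat_lit 2128) (nat_lit 0) (XT.nd (nat_lit 78) (nat_lit 760) (nat_lit 0) (XT.lf (nat_lit 76) (nat_lit 2551873756) (nat_lit 0) (nat_lit 1811084521) (nat_lit 836) (nat_lit 1011955887) (nat_lit 369) (nat_lit 1) (nat_lit 368) (nat_lit 1) (nat_lit 379) (nat_lit 1) (nat_lit 323) (nat_lit 363) (nat_lit 334)) (XT.lf (nat_lit 76) (nat_lit 638370453) (nat_lit 0) (nat_lit 2869416000) (nat_lit 836) (nat_lit 1799006568) (nat_lit 359) (nat_lit 1) (nat_lit 358) (nat_lit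 1) (nat_lit 369) (nat_lit 1) (nat_lit 324) (nat_lit 363) (nat_lit 333))) (XT.nd (nat_lit 78) (nat_lit 1444) (nat_lit 0) (XT.lf (nat_lit 760) (nat_lit 1301159200) (nat_lit 0) (nat_lit 2685802541) (nat_lit 684) (nat_lit 1252859455) (nat_lit 359) (nat_lit 1) (nat_lit 349) (nat_lit 1) (nat_lit 358) (nat_lit 1) (nat_lit 325) (nat_lit 363) (nat_lit 332)) (XT.nd (nat_lit 78) (nat_lit 760) (nat_lit 0) (XT.lf (nat_lit 760) (nat_lit 159989822) (nat_lit 0) (nat_lit 1900075390) (nat_lit 684) (nat_lit 3113988808) (nat_lit 350) (nat_lit 1) (nat_lit 340) (nat_lit 1) (nat_lit 349) (nat_lit 1) (nat_lit 326) (nat_lit 363) (nat_lit 331)) (XT.lf (nat_lit 76) (nat_lit 178756993) (nat_lit 0) (nat_lit 968460364) (nat_lit 760) (nat_lit 3962202919) (nat_lit 331) (nat_lit 1) (nat_lit 330) (nat_lit 1) (nat_lit 340) (nat_lit 1) (nat_lit 327) (nat_lit 363) (nat_lit 330))))) (XT.nd (nat_lit 156) (nat_lit 1900) (nat_lit 0) (XT.nd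 (nat_lit 78) (nat_lit 0) (nat_lit 0) (XT.lf (nat_lit 760) (nat_lit 2940365846) (nat_lit 0) (nat_lit 420369021) (nat_lit 684) (nat_lit 1685045852) (nat_lit 331) (nat_lit 1) (nat_lit 321) (nat_lit 1) (nat_lit 330) (nat_lit 1) (nat_lit 328) (nat_lit 363) (nat_lit 329)) (XT.lf (nat_lit 76) (nat_lit 1472287156) (nat_lit 0) (nat_lit 3244248190) (nat_lit 760) (nat_lit 266759514) (nat_lit 322) (nat_lit 1) (nat_lit 321) (nat_lit 1) (nat_lit 331) (nat_lit 1) (nat_lit 329) (nat_lit 363) (nat_lit 328))) (XT.nd (nat_lit 78) (nat_lit 1292) (nat_lit 0) (XT.lf (nat_lit 684) (nat_lit 535347590) (nat_lit 0) (nat_lit 4006870682) (nat_lit 608) (nat_lit 379677966) (nat_lit 322) (nat_lit 1) (nat_lit 313) (nat_lit 1) (nat_lit 321) (nat_lit 1) (nat_lit 330) (nat_lit 363) (nat_lit 327)) (XT.nd (nat_lit 78) (nat_lit 608) (nat_lit 0) (XT.lf (nat_lit 76) (nat_lit 2653229810) (nat_lit 0) (nat_lit 665822261) (nat_lit 684) (nat_lit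 1542334905) (nat_lit 305) (nat_lit 1) (nat_lit 304) (nat_lit 1) (nat_lit 313) (nat_lit 1) (nat_lit 331) (nat_lit 363) (nat_lit 326)) (XT.lf (nat_lit 76) (nat_lit 806765950) (nat_lit 0) (nat_lit 1856098401) (nat_lit 684) (nat_lit 2139090107) (nat_lit 297) (nat_lit 1) (nat_lit 296) (nat_lit 1) (nat_lit 305) (nat_lit 1) (nat_lit 332) (nat_lit 363) (nat_lit 325))))))))
noncomputable def ec59 : XT := (XT.nd (nat_lit 1404) (nat_lit 6156) (nat_lit 0) (XT.nd (nat_lit 702) (nat_lit 3800) (nat_lit 0) (XT.nd (nat_lit 312) (nat_lit 2128) (nat_lit 0) (XT.nd (nat_lit 156) (nat_lit 1216) (nat_lit 0) (XT.nd (nat_lit 78) (nat_lit 532) (nat_lit 0) (XT.lf (nat_lit 684) (nat_lit 1694763090) (nat_lit 0) (nat_lit 2034119301) (nat_lit 608) (nat_lit 1014629738) (nat_lit 297) (nat_lit 1) (nat_lit 288) (nat_lit 1) (nat_lit 296) (nat_lit 1) (nat_lit 333) (nat_lit 363) (nat_lit 324)) (XT.lf (nat_lit 608) (nat_lit 444143985)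 (nat_lit 0) (nat_lit 1433387759) (nat_lit 532) (nat_lit 2808535050) (nat_lit 289) (nat_lit 1) (nat_lit 281) (nat_lit 1) (nat_lit 288) (nat_lit 1) (nat_lit 334) (nat_lit 363) (nat_lit 323))) (XT.nd (nat_lit 78) (nat_lit 532) (nat_lit 0) (XT.lf (nat_lit 76) (nat_lit 70004734) (nat_lit 0) (nat_lit 789812258) (nat_lit 684) (nat_lit 3769780391) (nat_lit 273) (nat_lit 1) (nat_lit 272) (nat_lit 1) (nat_lit 281) (nat_lit 1) (nat_lit 335) (nat_lit 363) (nat_lit 322)) (XT.lf (nat_lit 608) (nat_lit 2551144632) (nat_lit 0) (nat_lit 303480930) (nat_lit 532) (nat_lit 1719279406) (nat_lit 273) (nat_lit 1) (nat_lit 265) (nat_lit 1) (nat_lit 272) (nat_lit 1) (nat_lit 336) (nat_lit 363) (nat_lit 321)))) (XT.nd (nat_lit 156) (nat_lit 1520) (nat_lit 0) (XT.nd (nat_lit 78) (nat_lit 608) (nat_lit 0) (XT.lf (nat_lit 76) (nat_lit 1048926978) (nat_lit 0) (nat_lit 3250776962) (nat_lit 608) (nat_lit 219511126) (nat_lit 266)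 (nat_lit 1) (nat_lit 265) (nat_lit 1) (nat_lit 273) (nat_lit 1) (nat_lit 337) (nat_lit 363) (nat_lit 320)) (XT.lf (nat_lit 76) (nat_lit 3739056309) (nat_lit 0) (nat_lit 12640613) (nat_lit 608) (nat_lit 713715558) (nat_lit 258) (nat_lit 1) (nat_lit 257) (nat_lit 1) (nat_lit 265) (nat_lit 1) (nat_lit 338) (nat_lit 363) (nat_lit 319))) (XT.nd (nat_lit 78) (nat_lit 988) (nat_lit 0) (XT.lf (nat_lit 76) (nat_lit 1942830699) (nat_lit 0) (nat_lit 1275427976) (nat_lit 608) (nat_lit 1194054913) (nat_lit 251) (nat_lit 1) (nat_lit 250) (nat_lit 1) (nat_lit 258) (nat_lit 1) (nat_lit 339) (nat_lit 363) (nat_lit 318)) (XT.nd (nat_lit 78) (nat_lit 456) (nat_lit 0) (XT.lf (nat_lit 76) (nat_lit 184565457) (nat_lit 0) (nat_lit 2529446129) (nat_lit 608) (nat_lit 1646189460) (nat_lit 244) (nat_lit 1) (nat_lit 243) (nat_lit 1) (nat_lit 251) (nat_lit 1) (nat_lit 340) (nat_lit 363) (nat_lit 317)) (XT.lf (nat_lit 532) (nat_lit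 524204462) (nat_lit 0) (nat_lit 2227804293) (nat_lit 456) (nat_lit 1556843424) (nat_lit 244) (nat_lit 1) (nat_lit 237) (nat_lit 1) (nat_lit 243) (nat_lit 1) (nat_lit 341) (nat_lit 363) (nat_lit 316)))))) (XT.nd (nat_lit 312) (nat_lit 1748) (nat_lit 0) (XT.nd (nat_lit 156) (nat_lit 988) (nat_lit 0) (XT.nd (nat_lit 78) (nat_lit 456) (nat_lit 0) (XT.lf (nat_lit 76) (nat_lit 999831181) (nat_lit 0) (nat_lit 763182047) (nat_lit 608) (nat_lit 2495315987) (nat_lit 230) (nat_lit 1) (nat_lit 229) (nat_lit 1) (nat_lit 237) (nat_lit 1) (nat_lit 342) (nat_lit 363) (nat_lit 315)) (XT.lf (nat_lit 532) (nat_lit 2170434774) (nat_lit 0) (nat_lit 1317016850) (nat_lit 456) (nat_lit 721125182) (nat_lit 230) (nat_lit 1) (nat_lit 223) (nat_lit 1) (nat_lit 229) (nat_lit 1) (nat_lit 343) (nat_lit 363) (nat_lit 314))) (XT.nd (nat_lit 78) (nat_lit 532) (nat_lit 0) (XT.lf (nat_lit 532) (nat_lit 850503255) (nat_lit 0) (nat_lit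 890816927) (nat_lit 456) (nat_lit 2418290510) (nat_lit 224) (nat_lit 1) (nat_lit 217) (nat_lit 1) (nat_lit 223) (nat_lit 1) (nat_lit 344) (nat_lit 363) (nat_lit 313)) (XT.lf (nat_lit 76) (nat_lit 35457122) (nat_lit 0) (nat_lit 451867384) (nat_lit 532) (nat_lit 3624159583) (nat_lit 211) (nat_lit 1) (nat_lit 210) (nat_lit 1) (nat_lit 217) (nat_lit 1) (nat_lit 345) (nat_lit 363) (nat_lit 312)))) (XT.nd (nat_lit 156) (nat_lit 1292) (nat_lit 0) (XT.nd (nat_lit 78) (nat_lit 0) (nat_lit 0) (XT.lf (nat_lit 532) (nat_lit 2321579006) (nat_lit 0) (nat_lit 92342704) (nat_lit 456) (nat_lit 1649993087) (nat_lit 211) (nat_lit 1) (nat_lit 204) (nat_lit 1) (nat_lit 210) (nat_lit 1) (nat_lit 346) (nat_lit 363) (nat_lit 311)) (XT.lf (nat_lit 76) (nat_lit 719430428) (nat_lit 0) (nat_lit 3023099531) (nat_lit 532) (nat_lit 274643424) (nat_lit 205) (nat_lit 1) (nat_lit 204) (nat_lit 1) (nat_lit 211) (nat_lit 1) (nat_lit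 347) (nat_lit 363) (nat_lit 310))) (XT.nd (nat_lit 78) (nat_lit 836) (nat_lit 0) (XT.lf (nat_lit 76) (nat_lit 3022696804) (nat_lit 0) (nat_lit 323252059) (nat_lit 456) (nat_lit 625159192) (nat_lit 199) (nat_lit 1) (nat_lit 198) (nat_lit 1) (nat_lit 204) (nat_lit 1) (nat_lit 348) (nat_lit 363) (nat_lit 309)) (XT.nd (nat_lit 78) (nat_lit 380) (nat_lit 0) (XT.lf (nat_lit 76) (nat_lit 1342519913) (nat_lit 0) (nat_lit 1619439250) (nat_lit 532) (nat_lit 963702195) (nat_lit 193) (nat_lit 1) (nat_lit 192) (nat_lit 1) (nat_lit 199) (nat_lit 1) (nat_lit 349) (nat_lit 363) (nat_lit 308)) (XT.lf (nat_lit 456) (nat_lit 976253224) (nat_lit 0) (nat_lit 2599291274) (nat_lit 380) (nat_lit 305456369) (nat_lit 193) (nat_lit 1) (nat_lit 187) (nat_lit 1) (nat_lit 192) (nat_lit 1) (nat_lit 350) (nat_lit 363) (nat_lit 307))))))) (XT.nd (nat_lit 702) (nat_lit 3116) (nat_lit 0) (XT.nd (nat_lit 312) (nat_lit 1444) (nat_lit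 0) (XT.nd (nat_lit 156) (nat_lit 760) (nat_lit 0) (XT.nd (nat_lit 78) (nat_lit 380) (nat_lit 0) (XT.lf (nat_lit 76) (nat_lit 1903965246) (nat_lit 0) (nat_lit 344249892) (nat_lit 456) (nat_lit 1588717083) (nat_lit 182) (nat_lit 1) (nat_lit 181) (nat_lit 1) (nat_lit 187) (nat_lit 1) (nat_lit 351) (nat_lit 363) (nat_lit 306)) (XT.lf (nat_lit 76) (nat_lit 274749324) (nat_lit 0) (nat_lit 1638267423) (nat_lit 456) (nat_lit 1880519174) (nat_lit 177) (nat_lit 1) (nat_lit 176) (nat_lit 1) (nat_lit 182) (nat_lit 1) (nat_lit 352) (nat_lit 363) (nat_lit 305))) (XT.nd (nat_lit 78) (nat_lit 380) (nat_lit 0) (XT.lf (nat_lit 456) (nat_lit 823426841) (nat_lit 0) (nat_lit 1590666059) (nat_lit 380) (nat_lit 1336656149) (nat_lit 177) (nat_lit 1) (nat_lit 171) (nat_lit 1) (nat_lit 176) (nat_lit 1) (nat_lit 353) (nat_lit 363) (nat_lit 304)) (XT.lf (nat_lit 76) (nat_lit 795332430) (nat_lit 0) (nat_lit 489162047) (nat_lit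 380) (nat_lit 2424138981) (nat_lit 167) (nat_lit 1) (nat_lit 166) (nat_lit 1) (nat_lit 171) (nat_lit 1) (nat_lit 354) (nat_lit 363) (nat_lit 303)))) (XT.nd (nat_lit 156) (nat_lit 760) (nat_lit 0) (XT.nd (nat_lit 78) (nat_lit 304) (nat_lit 0) (XT.lf (nat_lit 456) (nat_lit 1885299169) (nat_lit 0) (nat_lit 988401602) (nat_lit 380) (nat_lit 793365319) (nat_lit 167) (nat_lit 1) (nat_lit 161) (nat_lit 1) (nat_lit 166) (nat_lit 1) (nat_lit 355) (nat_lit 363) (nat_lit 302)) (XT.lf (nat_lit 380) (nat_lit 561027264) (nat_lit 0) (nat_lit 707388166) (nat_lit 304) (nat_lit 2357726169) (nat_lit 162) (nat_lit 1) (nat_lit 157) (nat_lit 1) (nat_lit 161) (nat_lit 1) (nat_lit 356) (nat_lit 363) (nat_lit 301))) (XT.nd (nat_lit 78) (nat_lit 304) (nat_lit 0) (XT.lf (nat_lit 456) (nat_lit 2845568312) (nat_lit 0) (nat_lit 439253738) (nat_lit 380) (nat_lit 300991417) (nat_lit 157) (nat_lit 1) (nat_lit 151) (nat_lit 1) (nat_lit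 156) (nat_lit 1) (nat_lit 357) (nat_lit 363) (nat_lit 300)) (XT.nd (nat_lit 78) (nat_lit 0) (nat_lit 0) (XT.lf (nat_lit 380) (nat_lit 1518561791) (nat_lit 0) (nat_lit 178497310) (nat_lit 304) (nat_lit 1848911391) (nat_lit 152) (nat_lit 1) (nat_lit 147) (nat_lit 1) (nat_lit 151) (nat_lit 1) (nat_lit 358) (nat_lit 363) (nat_lit 299)) (XT.lf (nat_lit 76) (nat_lit 144399689) (nat_lit 0) (nat_lit 3300014988) (nat_lit 380) (nat_lit 62414657) (nat_lit 148) (nat_lit 1) (nat_lit 147) (nat_lit 1) (nat_lit 152) (nat_lit 1) (nat_lit 359) (nat_lit 363) (nat_lit 298)))))) (XT.nd (nat_lit 390) (nat_lit 1444) (nat_lit 0) (XT.nd (nat_lit 156) (nat_lit 988) (nat_lit 0) (XT.nd (nat_lit 78) (nat_lit 304) (nat_lit 0) (XT.lf (nat_lit 76) (nat_lit 2083873489) (nat_lit 0) (nat_lit 1085228217) (nat_lit 380) (nat_lit 298938152) (nat_lit 143) (nat_lit 1) (nat_lit 142) (nat_lit 1) (nat_lit 147) (nat_lit 1) (nat_lit 360) (nat_lit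 363) (nat_lit 297)) (XT.lf (nat_lit 76) (nat_lit 550201708) (nat_lit 0) (nat_lit 2359944693) (nat_lit 380) (nat_lit 519748906) (nat_lit 139) (nat_lit 1) (nat_lit 138) (nat_lit 1) (nat_lit 143) (nat_lit 1) (nat_lit 361) (nat_lit 363) (nat_lit 296))) (XT.nd (nat_lit 78) (nat_lit 608) (nat_lit 0) (XT.lf (nat_lit 76) (nat_lit 2431329918) (nat_lit 0) (nat_lit 230109536) (nat_lit 380) (nat_lit 730833288) (nat_lit 134) (nat_lit 1) (nat_lit 133) (nat_lit 1) (nat_lit 138) (nat_lit 1) (nat_lit 362) (nat_lit 363) (nat_lit 295)) (XT.nd (nat_lit 78) (nat_lit 304) (nat_lit 0) (XT.lf (nat_lit 76) (nat_lit 916102057) (nat_lit 0) (nat_lit 1503800283) (nat_lit 380) (nat_lit 935206344) (nat_lit 130) (nat_lit 1) (nat_lit 129) (nat_lit 1) (nat_lit 134) (nat_lit 1) (nat_lit 363) (nat_lit 363) (nat_lit 294)) (XT.lf (nat_lit 380) (nat_lit 553145640) (nat_lit 0) (nat_lit 2192025295) (nat_lit 304) (nat_lit 573356372) (nat_lit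 130) (nat_lit 1) (nat_lit 125) (nat_lit 1) (nat_lit 129) (nat_lit 1) (nat_lit 364) (nat_lit 363) (nat_lit 293))))) (XT.nd (nat_lit 156) (nat_lit 836) (nat_lit 0) (XT.nd (nat_lit 78) (nat_lit 304) (nat_lit 0) (XT.lf (nat_lit 76) (nat_lit 1245325364) (nat_lit 0) (nat_lit 724984186) (nat_lit 304) (nat_lit 1312068968) (nat_lit 122) (nat_lit 1) (nat_lit 121) (nat_lit 1) (nat_lit 125) (nat_lit 1) (nat_lit 365) (nat_lit 363) (nat_lit 292)) (XT.lf (nat_lit 380) (nat_lit 1265637604) (nat_lit 0) (nat_lit 1760256055) (nat_lit 304) (nat_lit 220873494) (nat_lit 122) (nat_lit 1) (nat_lit 117) (nat_lit 1) (nat_lit 121) (nat_lit 1) (nat_lit 366) (nat_lit 363) (nat_lit 291))) (XT.nd (nat_lit 78) (nat_lit 532) (nat_lit 0) (XT.lf (nat_lit 76) (nat_lit 1540847344) (nat_lit 0) (nat_lit 17403631) (nat_lit 304) (nat_lit 1653368378) (nat_lit 114) (nat_lit 1) (nat_lit 113) (nat_lit 1) (nat_lit 117) (nat_lit 1) (nat_lit 367)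 (nat_lit 363) (nat_lit 290)) (XT.nd (nat_lit 78) (nat_lit 228) (nat_lit 0) (XT.lf (nat_lit 76) (nat_lit 96616087) (nat_lit 0) (nat_lit 1267405110) (nat_lit 380) (nat_lit 1812905598) (nat_lit 110) (nat_lit 1) (nat_lit 109) (nat_lit 1) (nat_lit 114) (nat_lit 1) (nat_lit 368) (nat_lit 363) (nat_lit 289)) (XT.lf (nat_lit 304) (nat_lit 632867910) (nat_lit 0) (nat_lit 1176654870) (nat_lit 228) (nat_lit 1333145881) (nat_lit 110) (nat_lit 1) (nat_lit 106) (nat_lit 1) (nat_lit 109) (nat_lit 1) (nat_lit 369) (nat_lit 363) (nat_lit 288))))))))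
noncomputable def ec60 : XT := (XT.nd (nat_lit 47346) (nat_lit 0) (nat_lit 28196) (XT.nd (nat_lit 702) (nat_lit 1140) (nat_lit 0) (XT.nd (nat_lit 312) (nat_lit 1064) (nat_lit 0) (XT.nd (nat_lit 156) (nat_lit 532) (nat_lit 0) (XT.nd (nat_lit 78) (nat_lit 228) (nat_lit 0) (XT.lf (nat_lit 76) (nat_lit 380618089) (nat_lit 0) (nat_lit 619315271) (nat_lit 380) (nat_lit 2108982824) (nat_lit 102) (nat_lit 1) (nat_lit 101) (nat_lit 1) (nat_lit 106) (nat_lit 1) (nat_lit 370) (nat_lit 363) (nat_lit 287)) (XT.lf (nat_lit 304) (nat_lit 1222154079) (nat_lit 0) (nat_lit 827339023) (nat_lit 228) (nat_lit 1026045582) (nat_lit 102) (nat_lit 1) (nat_lit 98) (nat_lit 1) (nat_lit 101) (nat_lit 1) (nat_lit 371) (nat_lit 363) (nat_lit 286))) (XT.nd (nat_lit 78) (nat_lit 228) (nat_lit 0) (XT.lf (nat_lit 76) (nat_lit 636499321) (nat_lit 0) (nat_lit 30371937) (nat_lit 304) (nat_lit 2375818899) (nat_lit 95) (nat_lit 1) (nat_lit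 94) (nat_lit 1) (nat_lit 98) (nat_lit 1) (nat_lit 372) (nat_lit 363) (nat_lit 285)) (XT.lf (nat_lit 304) (nat_lit 1755084564) (nat_lit 0) (nat_lit 507928005) (nat_lit 228) (nat_lit 747147323) (nat_lit 95) (nat_lit 1) (nat_lit 91) (nat_lit 1) (nat_lit 94) (nat_lit 1) (nat_lit 373) (nat_lit 363) (nat_lit 284)))) (XT.nd (nat_lit 156) (nat_lit 532) (nat_lit 0) (XT.nd (nat_lit 78) (nat_lit 304) (nat_lit 0) (XT.lf (nat_lit 304) (nat_lit 510791274) (nat_lit 0) (nat_lit 359064239) (nat_lit 228) (nat_lit 2108257322) (nat_lit 92) (nat_lit 1) (nat_lit 88) (nat_lit 1) (nat_lit 91) (nat_lit 1) (nat_lit 374) (nat_lit 363) (nat_lit 283)) (XT.lf (nat_lit 304) (nat_lit 2236147561) (nat_lit 0) (nat_lit 216118736) (nat_lit 228) (nat_lit 494198321) (nat_lit 88) (nat_lit 1) (nat_lit 84) (nat_lit 1) (nat_lit 87) (nat_lit 1) (nat_lit 375) (nat_lit 363) (nat_lit 282))) (XT.nd (nat_lit 78) (nat_lit 304) (nat_lit 0) (XT.lf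 (nat_lit 304) (nat_lit 1001522040) (nat_lit 0) (nat_lit 77821177) (nat_lit 228) (nat_lit 1835844374) (nat_lit 85) (nat_lit 1) (nat_lit 81) (nat_lit 1) (nat_lit 84) (nat_lit 1) (nat_lit 376) (nat_lit 363) (nat_lit 281)) (XT.nd (nat_lit 78) (nat_lit 228) (nat_lit 0) (XT.lf (nat_lit 76) (nat_lit 2619595825) (nat_lit 0) (nat_lit 215228256) (nat_lit 304) (nat_lit 49558458) (nat_lit 81) (nat_lit 1) (nat_lit 80) (nat_lit 1) (nat_lit 84) (nat_lit 1) (nat_lit 377) (nat_lit 363) (nat_lit 280)) (XT.lf (nat_lit 76) (nat_lit 1267889658) (nat_lit 0) (nat_lit 1409567105) (nat_lit 304) (nat_lit 176376086) (nat_lit 78) (nat_lit 1) (nat_lit 77) (nat_lit 1) (nat_lit 81) (nat_lit 1) (nat_lit 378) (nat_lit 363) (nat_lit 279)))))) (XT.nd (nat_lit 312) (nat_lit 228) (nat_lit 0) (XT.nd (nat_lit 156) (nat_lit 456) (nat_lit 0) (XT.nd (nat_lit 78) (nat_lit 228) (nat_lit 0) (XT.lf (nat_lit 304) (nat_lit 236250794) (nat_lit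 0) (nat_lit 2533067597) (nat_lit 228) (nat_lit 54485883) (nat_lit 78) (nat_lit 1) (nat_lit 74) (nat_lit 1) (nat_lit 77) (nat_lit 1) (nat_lit 379) (nat_lit 363) (nat_lit 278)) (XT.lf (nat_lit 76) (nat_lit 1436506121) (nat_lit 0) (nat_lit 950440809) (nat_lit 228) (nat_lit 407058871) (nat_lit 72) (nat_lit 1) (nat_lit 71) (nat_lit 1) (nat_lit 74) (nat_lit 1) (nat_lit 380) (nat_lit 363) (nat_lit 277))) (XT.nd (nat_lit 78) (nat_lit 228) (nat_lit 0) (XT.lf (nat_lit 76) (nat_lit 134863383) (nat_lit 0) (nat_lit 2117288739) (nat_lit 304) (nat_lit 512538771) (nat_lit 69) (nat_lit 1) (nat_lit 68) (nat_lit 1) (nat_lit 72) (nat_lit 1) (nat_lit 381) (nat_lit 363) (nat_lit 276)) (XT.lf (nat_lit 76) (nat_lit 1586372490) (nat_lit 0) (nat_lit 532299405) (nat_lit 228) (nat_lit 616988815) (nat_lit 66) (nat_lit 1) (nat_lit 65) (nat_lit 1) (nat_lit 68) (nat_lit 1) (nat_lit 382) (nat_lit 363) (nat_lit 275)))) (XT.nd (nat_lit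 46098) (nat_lit 0) (nat_lit 33136) (XT.nd (nat_lit 46020) (nat_lit 0) (nat_lit 33060) (XT.lf (nat_lit 76) (nat_lit 304810324) (nat_lit 0) (nat_lit 1687647638) (nat_lit 304) (nat_lit 714571479) (nat_lit 63) (nat_lit 1) (nat_lit 62) (nat_lit 1) (nat_lit 66) (nat_lit 1) (nat_lit 383) (nat_lit 363) (nat_lit 274)) (XT.lf (nat_lit 1900) (nat_lit 1371130363) (nat_lit 0) (nat_lit 1382596202) (nat_lit 1900) (nat_lit 1371130363) (nat_lit 522) (nat_lit 1) (nat_lit 497) (nat_lit 0) (nat_lit 522) (nat_lit 0) (nat_lit 292) (nat_lit 364) (nat_lit 364))) (XT.nd (nat_lit 78) (nat_lit 0) (nat_lit 0) (XT.lf (nat_lit 1900) (nat_lit 633783472) (nat_lit 0) (nat_lit 2751096741) (nat_lit 1824) (nat_lit 4744168697) (nat_lit 523) (nat_lit 1) (nat_lit 498) (nat_lit 1) (nat_lit 522) (nat_lit 1) (nat_lit 293) (nat_lit 364) (nat_lit 363)) (XT.nd (nat_lit 78) (nat_lit 0) (nat_lit 76) (XT.lf (nat_lit 1900) (nat_lit 5212216538)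 (nat_lit 76) (nat_lit 1340137933) (nat_lit 0) (nat_lit 1458323020) (nat_lit 523) (nat_lit 1) (nat_lit 499) (nat_lit 1) (nat_lit 498) (nat_lit 1) (nat_lit 294) (nat_lit 364) (nat_lit 362)) (XT.lf (nat_lit 1900) (nat_lit 4375546031) (nat_lit 0) (nat_lit 2903534672) (nat_lit 1824) (nat_lit 615491298) (nat_lit 524) (nat_lit 1) (nat_lit 499) (nat_lit 1) (nat_lit 523) (nat_lit 1) (nat_lit 295) (nat_lit 364) (nat_lit 361))))))) (XT.nd (nat_lit 702) (nat_lit 5092) (nat_lit 0) (XT.nd (nat_lit 312) (nat_lit 0) (nat_lit 228) (XT.nd (nat_lit 156) (nat_lit 0) (nat_lit 76) (XT.nd (nat_lit 78) (nat_lit 0) (nat_lit 76) (XT.lf (nat_lit 1900) (nat_lit 2244689485) (nat_lit 0) (nat_lit 3064074121) (nat_lit 1824) (nat_lit 2471914096) (nat_lit 525) (nat_lit 1) (nat_lit 500) (nat_lit 1) (nat_lit 524) (nat_lit 1) (nat_lit 296) (nat_lit 364) (nat_lit 360)) (XT.lf (nat_lit 1900) (nat_lit 150753290) (nat_lit 0) (nat_lit 3269280919)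 (nat_lit 1824) (nat_lit 4249079638) (nat_lit 526) (nat_lit 1) (nat_lit 501) (nat_lit 1) (nat_lit 525) (nat_lit 1) (nat_lit 297) (nat_lit 364) (nat_lit 359))) (XT.nd (nat_lit 78) (nat_lit 0) (nat_lit 76) (XT.lf (nat_lit 1900) (nat_lit 4029901872) (nat_lit 76) (nat_lit 1597735968) (nat_lit 0) (nat_lit 1931938316) (nat_lit 526) (nat_lit 1) (nat_lit 502) (nat_lit 1) (nat_lit 501) (nat_lit 1) (nat_lit 298) (nat_lit 364) (nat_lit 358)) (XT.lf (nat_lit 1900) (nat_lit 3473297372) (nat_lit 0) (nat_lit 3832474281) (nat_lit 1824) (nat_lit 146457411) (nat_lit 527) (nat_lit 1) (nat_lit 502) (nat_lit 1) (nat_lit 526) (nat_lit 1) (nat_lit 299) (nat_lit 364) (nat_lit 357)))) (XT.nd (nat_lit 156) (nat_lit 0) (nat_lit 76) (XT.nd (nat_lit 78) (nat_lit 0) (nat_lit 0) (XT.lf (nat_lit 1900) (nat_lit 1367385545) (nat_lit 0) (nat_lit 4183730001) (nat_lit 1824) (nat_lit 1795747540) (nat_lit 528) (nat_lit 1) (nat_lit 503)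 (nat_lit 1) (nat_lit 527) (nat_lit 1) (nat_lit 300) (nat_lit 364) (nat_lit 356)) (XT.lf (nat_lit 1900) (nat_lit 2667666877) (nat_lit 76) (nat_lit 3865693773) (nat_lit 0) (nat_lit 710182934) (nat_lit 528) (nat_lit 1) (nat_lit 504) (nat_lit 1) (nat_lit 503) (nat_lit 1) (nat_lit 301) (nat_lit 364) (nat_lit 355))) (XT.nd (nat_lit 78) (nat_lit 0) (nat_lit 76) (XT.lf (nat_lit 1900) (nat_lit 2130823159) (nat_lit 76) (nat_lit 2243143152) (nat_lit 0) (nat_lit 2768172791) (nat_lit 529) (nat_lit 1) (nat_lit 505) (nat_lit 1) (nat_lit 504) (nat_lit 1) (nat_lit 302) (nat_lit 364) (nat_lit 354)) (XT.nd (nat_lit 78) (nat_lit 0) (nat_lit 76) (XT.lf (nat_lit 1900) (nat_lit 1563404188) (nat_lit 76) (nat_lit 690553947) (nat_lit 0) (nat_lit 4788823906) (nat_lit 530) (nat_lit 1) (nat_lit 506) (nat_lit 1) (nat_lit 505) (nat_lit 1) (nat_lit 303) (nat_lit 364) (nat_lit 353)) (XT.lf (nat_lit 1900) (nat_lit 178030161) (nat_lit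 0) (nat_lit 5983604170) (nat_lit 1824) (nat_lit 783688599) (nat_lit 531) (nat_lit 1) (nat_lit 506) (nat_lit 1) (nat_lit 530) (nat_lit 1) (nat_lit 304) (nat_lit 364) (nat_lit 352)))))) (XT.nd (nat_lit 390) (nat_lit 3724) (nat_lit 0) (XT.nd (nat_lit 156) (nat_lit 0) (nat_lit 76) (XT.nd (nat_lit 78) (nat_lit 1824) (nat_lit 0) (XT.lf (nat_lit 1900) (nat_lit 315949879) (nat_lit 76) (nat_lit 4653505362) (nat_lit 0) (nat_lit 1880039187) (nat_lit 531) (nat_lit 1) (nat_lit 507) (nat_lit 1) (nat_lit 506) (nat_lit 1) (nat_lit 305) (nat_lit 364) (nat_lit 351)) (XT.lf (nat_lit 1976) (nat_lit 2855485142) (nat_lit 0) (nat_lit 351703765) (nat_lit 1900) (nat_lit 3548332305) (nat_lit 508) (nat_lit 1) (nat_lit 482) (nat_lit 1) (nat_lit 507) (nat_lit 1) (nat_lit 306) (nat_lit 364) (nat_lit 350))) (XT.nd (nat_lit 78) (nat_lit 0) (nat_lit 0) (XT.lf (nat_lit 1976) (nat_lit 783220928) (nat_lit 0) (nat_lit 1038875618) (nat_lit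 1900) (nat_lit 4841288952) (nat_lit 509) (nat_lit 1) (nat_lit 483) (nat_lit 1) (nat_lit 508) (nat_lit 1) (nat_lit 307) (nat_lit 364) (nat_lit 349)) (XT.nd (nat_lit 78) (nat_lit 0) (nat_lit 76) (XT.lf (nat_lit 1976) (nat_lit 4816308367) (nat_lit 76) (nat_lit 490100653) (nat_lit 0) (nat_lit 1266512716) (nat_lit 509) (nat_lit 1) (nat_lit 484) (nat_lit 1) (nat_lit 483) (nat_lit 1) (nat_lit 308) (nat_lit 364) (nat_lit 348)) (XT.lf (nat_lit 76) (nat_lit 3201752676) (nat_lit 0) (nat_lit 2505433198) (nat_lit 1900) (nat_lit 776867226) (nat_lit 485) (nat_lit 1) (nat_lit 484) (nat_lit 1) (nat_lit 509) (nat_lit 1) (nat_lit 309) (nat_lit 364) (nat_lit 347))))) (XT.nd (nat_lit 156) (nat_lit 1824) (nat_lit 0) (XT.nd (nat_lit 78) (nat_lit 912) (nat_lit 0) (XT.lf (nat_lit 76) (nat_lit 1140282641) (nat_lit 0) (nat_lit 3276655508) (nat_lit 1216) (nat_lit 1979950466) (nat_lit 470) (nat_lit 1) (nat_lit 469) (nat_lit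 1) (nat_lit 485) (nat_lit 1) (nat_lit 310) (nat_lit 364) (nat_lit 346)) (XT.lf (nat_lit 988) (nat_lit 2239600768) (nat_lit 0) (nat_lit 3178288226) (nat_lit 912) (nat_lit 893447495) (nat_lit 470) (nat_lit 1) (nat_lit 457) (nat_lit 1) (nat_lit 469) (nat_lit 1) (nat_lit 311) (nat_lit 364) (nat_lit 345))) (XT.nd (nat_lit 78) (nat_lit 912) (nat_lit 0) (XT.lf (nat_lit 988) (nat_lit 1336330138) (nat_lit 0) (nat_lit 1988097778) (nat_lit 912) (nat_lit 2902901436) (nat_lit 458) (nat_lit 1) (nat_lit 445) (nat_lit 1) (nat_lit 457) (nat_lit 1) (nat_lit 312) (nat_lit 364) (nat_lit 344)) (XT.nd (nat_lit 78) (nat_lit 76) (nat_lit 0) (XT.lf (nat_lit 912) (nat_lit 419109253) (nat_lit 0) (nat_lit 852395002) (nat_lit 836) (nat_lit 4873475376) (nat_lit 446) (nat_lit 1) (nat_lit 434) (nat_lit 1) (nat_lit 445) (nat_lit 1) (nat_lit 313) (nat_lit 364) (nat_lit 343)) (XT.lf (nat_lit 76) (nat_lit 5317679436) (nat_lit 0) (nat_lit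 510769295) (nat_lit 912) (nat_lit 235607396) (nat_lit 434) (nat_lit 1) (nat_lit 433) (nat_lit 1) (nat_lit 445) (nat_lit 1) (nat_lit 314) (nat_lit 364) (nat_lit 342))))))))
noncomputable def ec61 : XT := (XT.nd (nat_lit 1404) (nat_lit 8360) (nat_lit 0) (XT.nd (nat_lit 702) (nat_lit 5168) (nat_lit 0) (XT.nd (nat_lit 312) (nat_lit 3040) (nat_lit 0) (XT.nd (nat_lit 156) (nat_lit 1596) (nat_lit 0) (XT.nd (nat_lit 78) (nat_lit 836) (nat_lit 0) (XT.lf (nat_lit 76) (nat_lit 3251349037) (nat_lit 0) (nat_lit 1460351001) (nat_lit 988) (nat_lit 1272694270) (nat_lit 422) (nat_lit 1) (nat_lit 421) (nat_lit 1) (nat_lit 434) (nat_lit 1) (nat_lit 315) (nat_lit 364) (nat_lit 341)) (XT.lf (nat_lit 76) (nat_lit 1225630530) (nat_lit 0) (nat_lit 2420283132) (nat_lit 912) (nat_lit 2260378913) (nat_lit 411) (nat_lit 1) (nat_lit 410) (nat_lit 1) (nat_lit 422) (nat_lit 1) (nat_lit 316) (nat_lit 364) (nat_lit 340))) (XT.nd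 (nat_lit 78) (nat_lit 760) (nat_lit 0) (XT.lf (nat_lit 912) (nat_lit 2434909587) (nat_lit 0) (nat_lit 2624518202) (nat_lit 836) (nat_lit 770188841) (nat_lit 411) (nat_lit 1) (nat_lit 399) (nat_lit 1) (nat_lit 410) (nat_lit 1) (nat_lit 317) (nat_lit 364) (nat_lit 339)) (XT.lf (nat_lit 836) (nat_lit 1368675662) (nat_lit 0) (nat_lit 1643222095) (nat_lit 760) (nat_lit 2742379176) (nat_lit 400) (nat_lit 1) (nat_lit 389) (nat_lit 1) (nat_lit 399) (nat_lit 1) (nat_lit 318) (nat_lit 364) (nat_lit 338)))) (XT.nd (nat_lit 156) (nat_lit 2204) (nat_lit 0) (XT.nd (nat_lit 78) (nat_lit 76) (nat_lit 0) (XT.lf (nat_lit 836) (nat_lit 296287677) (nat_lit 0) (nat_lit 708851960) (nat_lit 760) (nat_lit 4675262363) (nat_lit 390) (nat_lit 1) (nat_lit 379) (nat_lit 1) (nat_lit 389) (nat_lit 1) (nat_lit 319) (nat_lit 364) (nat_lit 337)) (XT.lf (nat_lit 76) (nat_lit 4639856912) (nat_lit 0) (nat_lit 778815953) (nat_lit 836)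 (nat_lit 189034789) (nat_lit 379) (nat_lit 1) (nat_lit 378) (nat_lit 1) (nat_lit 389) (nat_lit 1) (nat_lit 320) (nat_lit 364) (nat_lit 336))) (XT.nd (nat_lit 78) (nat_lit 1444) (nat_lit 0) (XT.lf (nat_lit 76) (nat_lit 2628429969) (nat_lit 0) (nat_lit 1865417057) (nat_lit 836) (nat_lit 1042314564) (nat_lit 369) (nat_lit 1) (nat_lit 368) (nat_lit 1) (nat_lit 379) (nat_lit 1) (nat_lit 321) (nat_lit 364) (nat_lit 335)) (XT.nd (nat_lit 78) (nat_lit 684) (nat_lit 0) (XT.lf (nat_lit 76) (nat_lit 657521567) (nat_lit 0) (nat_lit 2955498480) (nat_lit 836) (nat_lit 1852976765) (nat_lit 359) (nat_lit 1) (nat_lit 358) (nat_lit 1) (nat_lit 369) (nat_lit 1) (nat_lit 322) (nat_lit 364) (nat_lit 334)) (XT.lf (nat_lit 760) (nat_lit 1340193976) (nat_lit 0) (nat_lit 2766376617) (nat_lit 684) (nat_lit 1290445238) (nat_lit 359) (nat_lit 1) (nat_lit 349) (nat_lit 1) (nat_lit 358) (nat_lit 1) (nat_lit 323) (nat_lit 364)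 (nat_lit 333)))))) (XT.nd (nat_lit 312) (nat_lit 3040) (nat_lit 0) (XT.nd (nat_lit 156) (nat_lit 684) (nat_lit 0) (XT.nd (nat_lit 78) (nat_lit 760) (nat_lit 0) (XT.lf (nat_lit 760) (nat_lit 164789517) (nat_lit 0) (nat_lit 1957077651) (nat_lit 684) (nat_lit 3207408473) (nat_lit 350) (nat_lit 1) (nat_lit 340) (nat_lit 1) (nat_lit 349) (nat_lit 1) (nat_lit 324) (nat_lit 364) (nat_lit 332)) (XT.lf (nat_lit 76) (nat_lit 184119702) (nat_lit 0) (nat_lit 997514175) (nat_lit 760) (nat_lit 4081069007) (nat_lit 331) (nat_lit 1) (nat_lit 330) (nat_lit 1) (nat_lit 340) (nat_lit 1) (nat_lit 325) (nat_lit 364) (nat_lit 331))) (XT.nd (nat_lit 78) (nat_lit 0) (nat_lit 0) (XT.lf (nat_lit 760) (nat_lit 3028576821) (nat_lit 0) (nat_lit 432980091) (nat_lit 684) (nat_lit 1735597228) (nat_lit 331) (nat_lit 1) (nat_lit 321) (nat_lit 1) (nat_lit 330) (nat_lit 1) (nat_lit 326) (nat_lit 364) (nat_lit 330)) (XT.lf (nat_lit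 76) (nat_lit 1516455771) (nat_lit 0) (nat_lit 3341575636) (nat_lit 760) (nat_lit 274762300) (nat_lit 322) (nat_lit 1) (nat_lit 321) (nat_lit 1) (nat_lit 331) (nat_lit 1) (nat_lit 327) (nat_lit 364) (nat_lit 329)))) (XT.nd (nat_lit 156) (nat_lit 1748) (nat_lit 0) (XT.nd (nat_lit 78) (nat_lit 684) (nat_lit 0) (XT.lf (nat_lit 684) (nat_lit 551408018) (nat_lit 0) (nat_lit 4127076802) (nat_lit 608) (nat_lit 391068305) (nat_lit 322) (nat_lit 1) (nat_lit 313) (nat_lit 1) (nat_lit 321) (nat_lit 1) (nat_lit 328) (nat_lit 364) (nat_lit 328)) (XT.lf (nat_lit 76) (nat_lit 2732826704) (nat_lit 0) (nat_lit 685796929) (nat_lit 684) (nat_lit 1588604952) (nat_lit 305) (nat_lit 1) (nat_lit 304) (nat_lit 1) (nat_lit 313) (nat_lit 1) (nat_lit 329) (nat_lit 364) (nat_lit 327))) (XT.nd (nat_lit 78) (nat_lit 1140) (nat_lit 0) (XT.lf (nat_lit 76) (nat_lit 830968928) (nat_lit 0) (nat_lit 1911781353) (nat_lit 684) (nat_lit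 2203262810) (nat_lit 297) (nat_lit 1) (nat_lit 296) (nat_lit 1) (nat_lit 305) (nat_lit 1) (nat_lit 330) (nat_lit 364) (nat_lit 326)) (XT.nd (nat_lit 78) (nat_lit 532) (nat_lit 0) (XT.lf (nat_lit 684) (nat_lit 1745605983) (nat_lit 0) (nat_lit 2095142880) (nat_lit 608) (nat_lit 1045068631) (nat_lit 297) (nat_lit 1) (nat_lit 288) (nat_lit 1) (nat_lit 296) (nat_lit 1) (nat_lit 331) (nat_lit 364) (nat_lit 325)) (XT.lf (nat_lit 608) (nat_lit 457468304) (nat_lit 0) (nat_lit 1476389391) (nat_lit 532) (nat_lit 2892791101) (nat_lit 289) (nat_lit 1) (nat_lit 281) (nat_lit 1) (nat_lit 288) (nat_lit 1) (nat_lit 332) (nat_lit 364) (nat_lit 324))))))) (XT.nd (nat_lit 702) (nat_lit 3952) (nat_lit 0) (XT.nd (nat_lit 312) (nat_lit 2584) (nat_lit 0) (XT.nd (nat_lit 156) (nat_lit 608) (nat_lit 0) (XT.nd (nat_lit 78) (nat_lit 532) (nat_lit 0) (XT.lf (nat_lit 76) (nat_lit 72104876) (nat_lit 0) (nat_lit 813506626) (nat_lit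 684) (nat_lit 3882873803) (nat_lit 273) (nat_lit 1) (nat_lit 272) (nat_lit 1) (nat_lit 281) (nat_lit 1) (nat_lit 333) (nat_lit 364) (nat_lit 323)) (XT.lf (nat_lit 608) (nat_lit 2627678971) (nat_lit 0) (nat_lit 312585358) (nat_lit 532) (nat_lit 1770857788) (nat_lit 273) (nat_lit 1) (nat_lit 265) (nat_lit 1) (nat_lit 272) (nat_lit 1) (nat_lit 334) (nat_lit 364) (nat_lit 322))) (XT.nd (nat_lit 78) (nat_lit 608) (nat_lit 0) (XT.lf (nat_lit 76) (nat_lit 1080394788) (nat_lit 0) (nat_lit 3348300271) (nat_lit 608) (nat_lit 226096460) (nat_lit 266) (nat_lit 1) (nat_lit 265) (nat_lit 1) (nat_lit 273) (nat_lit 1) (nat_lit 335) (nat_lit 364) (nat_lit 321)) (XT.lf (nat_lit 76) (nat_lit 3851227998) (nat_lit 0) (nat_lit 13019831) (nat_lit 608) (nat_lit 735127025) (nat_lit 258) (nat_lit 1) (nat_lit 257) (nat_lit 1) (nat_lit 265) (nat_lit 1) (nat_lit 336) (nat_lit 364) (nat_lit 320)))) (XT.nd (nat_lit 156) (nat_lit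 1520) (nat_lit 0) (XT.nd (nat_lit 78) (nat_lit 532) (nat_lit 0) (XT.lf (nat_lit 76) (nat_lit 2001115620) (nat_lit 0) (nat_lit 1313690816) (nat_lit 608) (nat_lit 1229876560) (nat_lit 251) (nat_lit 1) (nat_lit 250) (nat_lit 1) (nat_lit 258) (nat_lit 1) (nat_lit 337) (nat_lit 364) (nat_lit 319)) (XT.lf (nat_lit 76) (nat_lit 190102421) (nat_lit 0) (nat_lit 2605329513) (nat_lit 608) (nat_lit 1695575144) (nat_lit 244) (nat_lit 1) (nat_lit 243) (nat_lit 1) (nat_lit 251) (nat_lit 1) (nat_lit 338) (nat_lit 364) (nat_lit 318))) (XT.nd (nat_lit 78) (nat_lit 1064) (nat_lit 0) (XT.lf (nat_lit 532) (nat_lit 539930596) (nat_lit 0) (nat_lit 2294638422) (nat_lit 456) (nat_lit 1603548727) (nat_lit 244) (nat_lit 1) (nat_lit 237) (nat_lit 1) (nat_lit 243) (nat_lit 1) (nat_lit 339) (nat_lit 364) (nat_lit 317)) (XT.nd (nat_lit 78) (nat_lit 456) (nat_lit 0) (XT.lf (nat_lit 76) (nat_lit 1029826116) (nat_lit 0) (nat_lit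 786077509) (nat_lit 608) (nat_lit 2570175466) (nat_lit 230) (nat_lit 1) (nat_lit 229) (nat_lit 1) (nat_lit 237) (nat_lit 1) (nat_lit 340) (nat_lit 364) (nat_lit 316)) (XT.lf (nat_lit 532) (nat_lit 2235547817) (nat_lit 0) (nat_lit 1356527355) (nat_lit 456) (nat_lit 742758938) (nat_lit 230) (nat_lit 1) (nat_lit 223) (nat_lit 1) (nat_lit 229) (nat_lit 1) (nat_lit 341) (nat_lit 364) (nat_lit 315)))))) (XT.nd (nat_lit 390) (nat_lit 2052) (nat_lit 0) (XT.nd (nat_lit 156) (nat_lit 912) (nat_lit 0) (XT.nd (nat_lit 78) (nat_lit 532) (nat_lit 0) (XT.lf (nat_lit 532) (nat_lit 876018353) (nat_lit 0) (nat_lit 917541435) (nat_lit 456) (nat_lit 2490839225) (nat_lit 224) (nat_lit 1) (nat_lit 217) (nat_lit 1) (nat_lit 223) (nat_lit 1) (nat_lit 342) (nat_lit 364) (nat_lit 314)) (XT.lf (nat_lit 76) (nat_lit 36520836) (nat_lit 0) (nat_lit 465423405) (nat_lit 532) (nat_lit 3732884371) (nat_lit 211) (nat_lit 1) (nat_lit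 210) (nat_lit 1) (nat_lit 217) (nat_lit 1) (nat_lit 343) (nat_lit 364) (nat_lit 313))) (XT.nd (nat_lit 78) (nat_lit 456) (nat_lit 0) (XT.lf (nat_lit 532) (nat_lit 2391226376) (nat_lit 0) (nat_lit 95112986) (nat_lit 456) (nat_lit 1699492880) (nat_lit 211) (nat_lit 1) (nat_lit 204) (nat_lit 1) (nat_lit 210) (nat_lit 1) (nat_lit 344) (nat_lit 364) (nat_lit 312)) (XT.nd (nat_lit 78) (nat_lit 456) (nat_lit 0) (XT.lf (nat_lit 76) (nat_lit 741013341) (nat_lit 0) (nat_lit 3113792517) (nat_lit 532) (nat_lit 282882727) (nat_lit 205) (nat_lit 1) (nat_lit 204) (nat_lit 1) (nat_lit 211) (nat_lit 1) (nat_lit 345) (nat_lit 364) (nat_lit 311)) (XT.lf (nat_lit 76) (nat_lit 3113377708) (nat_lit 0) (nat_lit 332949621) (nat_lit 456) (nat_lit 643913968) (nat_lit 199) (nat_lit 1) (nat_lit 198) (nat_lit 1) (nat_lit 204) (nat_lit 1) (nat_lit 346) (nat_lit 364) (nat_lit 310))))) (XT.nd (nat_lit 156) (nat_lit 1216) (nat_lit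 0) (XT.nd (nat_lit 78) (nat_lit 380) (nat_lit 0) (XT.lf (nat_lit 76) (nat_lit 1382795511) (nat_lit 0) (nat_lit 1668022428) (nat_lit 532) (nat_lit 992613261) (nat_lit 193) (nat_lit 1) (nat_lit 192) (nat_lit 1) (nat_lit 199) (nat_lit 1) (nat_lit 347) (nat_lit 364) (nat_lit 309)) (XT.lf (nat_lit 456) (nat_lit 1005540820) (nat_lit 0) (nat_lit 2677270012) (nat_lit 380) (nat_lit 314620060) (nat_lit 193) (nat_lit 1) (nat_lit 187) (nat_lit 1) (nat_lit 192) (nat_lit 1) (nat_lit 348) (nat_lit 364) (nat_lit 308))) (XT.nd (nat_lit 78) (nat_lit 760) (nat_lit 0) (XT.lf (nat_lit 76) (nat_lit 1961084204) (nat_lit 0) (nat_lit 354577389) (nat_lit 456) (nat_lit 1636378595) (nat_lit 182) (nat_lit 1) (nat_lit 181) (nat_lit 1) (nat_lit 187) (nat_lit 1) (nat_lit 349) (nat_lit 364) (nat_lit 307)) (XT.nd (nat_lit 78) (nat_lit 380) (nat_lit 0) (XT.lf (nat_lit 76) (nat_lit 282991804) (nat_lit 0) (nat_lit 1687415446) (nat_lit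 456) (nat_lit 1936934749) (nat_lit 177) (nat_lit 1) (nat_lit 176) (nat_lit 1) (nat_lit 182) (nat_lit 1) (nat_lit 350) (nat_lit 364) (nat_lit 306)) (XT.lf (nat_lit 456) (nat_lit 848129647) (nat_lit 0) (nat_lit 1638386041) (nat_lit 380) (nat_lit 1376755834) (nat_lit 177) (nat_lit 1) (nat_lit 171) (nat_lit 1) (nat_lit 176) (nat_lit 1) (nat_lit 351) (nat_lit 364) (nat_lit 305))))))))
noncomputable def ec62 : XT := (XT.nd (nat_lit 1404) (nat_lit 2964) (nat_lit 0) (XT.nd (nat_lit 702) (nat_lit 2660) (nat_lit 0) (XT.nd (nat_lit 312) (nat_lit 1368) (nat_lit 0) (XT.nd (nat_lit 156) (nat_lit 760) (nat_lit 0) (XT.nd (nat_lit 78) (nat_lit 380) (nat_lit 0) (XT.lf (nat_lit 76) (nat_lit 819192403) (nat_lit 0) (nat_lit 503836908) (nat_lit 380) (nat_lit 2496863150) (nat_lit 167) (nat_lit 1) (nat_lit 166) (nat_lit 1) (nat_lit 171) (nat_lit 1) (nat_lit 352) (nat_lit 364) (nat_lit 304)) (XT.lf (nat_lit 456) (nat_lit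 1941858145) (nat_lit 0) (nat_lit 1018053650) (nat_lit 380) (nat_lit 817166278) (nat_lit 167) (nat_lit 1) (nat_lit 161) (nat_lit 1) (nat_lit 166) (nat_lit 1) (nat_lit 353) (nat_lit 364) (nat_lit 303))) (XT.nd (nat_lit 78) (nat_lit 456) (nat_lit 0) (XT.lf (nat_lit 380) (nat_lit 577858082) (nat_lit 0) (nat_lit 728609811) (nat_lit 304) (nat_lit 2428457955) (nat_lit 162) (nat_lit 1) (nat_lit 157) (nat_lit 1) (nat_lit 161) (nat_lit 1) (nat_lit 354) (nat_lit 364) (nat_lit 302)) (XT.lf (nat_lit 456) (nat_lit 2930935362) (nat_lit 0) (nat_lit 452431350) (nat_lit 380) (nat_lit 310021159) (nat_lit 157) (nat_lit 1) (nat_lit 151) (nat_lit 1) (nat_lit 156) (nat_lit 1) (nat_lit 355) (nat_lit 364) (nat_lit 301)))) (XT.nd (nat_lit 156) (nat_lit 1064) (nat_lit 0) (XT.nd (nat_lit 78) (nat_lit 0) (nat_lit 0) (XT.lf (nat_lit 380) (nat_lit 1564118645) (nat_lit 0) (nat_lit 183852229) (nat_lit 304) (nat_lit 1904378733) (nat_lit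 152) (nat_lit 1) (nat_lit 147) (nat_lit 1) (nat_lit 151) (nat_lit 1) (nat_lit 356) (nat_lit 364) (nat_lit 300)) (XT.lf (nat_lit 76) (nat_lit 148731680) (nat_lit 0) (nat_lit 3399015437) (nat_lit 380) (nat_lit 64287097) (nat_lit 148) (nat_lit 1) (nat_lit 147) (nat_lit 1) (nat_lit 152) (nat_lit 1) (nat_lit 357) (nat_lit 364) (nat_lit 299))) (XT.nd (nat_lit 78) (nat_lit 684) (nat_lit 0) (XT.lf (nat_lit 76) (nat_lit 2146389693) (nat_lit 0) (nat_lit 1117785064) (nat_lit 380) (nat_lit 307906296) (nat_lit 143) (nat_lit 1) (nat_lit 142) (nat_lit 1) (nat_lit 147) (nat_lit 1) (nat_lit 358) (nat_lit 364) (nat_lit 298)) (XT.nd (nat_lit 78) (nat_lit 380) (nat_lit 0) (XT.lf (nat_lit 76) (nat_lit 566707759) (nat_lit 0) (nat_lit 2430743034) (nat_lit 380) (nat_lit 535341373) (nat_lit 139) (nat_lit 1) (nat_lit 138) (nat_lit 1) (nat_lit 143) (nat_lit 1) (nat_lit 359) (nat_lit 364) (nat_lit 297)) (XT.lf (nat_lit 76)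 (nat_lit 2504269816) (nat_lit 0) (nat_lit 237012822) (nat_lit 380) (nat_lit 752758287) (nat_lit 134) (nat_lit 1) (nat_lit 133) (nat_lit 1) (nat_lit 138) (nat_lit 1) (nat_lit 360) (nat_lit 364) (nat_lit 296)))))) (XT.nd (nat_lit 312) (nat_lit 1444) (nat_lit 0) (XT.nd (nat_lit 156) (nat_lit 608) (nat_lit 0) (XT.nd (nat_lit 78) (nat_lit 304) (nat_lit 0) (XT.lf (nat_lit 76) (nat_lit 943585119) (nat_lit 0) (nat_lit 1548914292) (nat_lit 380) (nat_lit 963262535) (nat_lit 130) (nat_lit 1) (nat_lit 129) (nat_lit 1) (nat_lit 134) (nat_lit 1) (nat_lit 361) (nat_lit 364) (nat_lit 295)) (XT.lf (nat_lit 380) (nat_lit 569740009) (nat_lit 0) (nat_lit 2257786054) (nat_lit 304) (nat_lit 590557063) (nat_lit 130) (nat_lit 1) (nat_lit 125) (nat_lit 1) (nat_lit 129) (nat_lit 1) (nat_lit 362) (nat_lit 364) (nat_lit 294))) (XT.nd (nat_lit 78) (nat_lit 304) (nat_lit 0) (XT.lf (nat_lit 76) (nat_lit 1282685125) (nat_lit 0)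 (nat_lit 746733712) (nat_lit 304) (nat_lit 1351431037) (nat_lit 122) (nat_lit 1) (nat_lit 121) (nat_lit 1) (nat_lit 125) (nat_lit 1) (nat_lit 363) (nat_lit 364) (nat_lit 293)) (XT.lf (nat_lit 380) (nat_lit 1303606732) (nat_lit 0) (nat_lit 1813063736) (nat_lit 304) (nat_lit 227499699) (nat_lit 122) (nat_lit 1) (nat_lit 117) (nat_lit 1) (nat_lit 121) (nat_lit 1) (nat_lit 364) (nat_lit 364) (nat_lit 292)))) (XT.nd (nat_lit 156) (nat_lit 836) (nat_lit 0) (XT.nd (nat_lit 78) (nat_lit 304) (nat_lit 0) (XT.lf (nat_lit 76) (nat_lit 1587072764) (nat_lit 0) (nat_lit 17925740) (nat_lit 304) (nat_lit 1702969429) (nat_lit 114) (nat_lit 1) (nat_lit 113) (nat_lit 1) (nat_lit 117) (nat_lit 1) (nat_lit 365) (nat_lit 364) (nat_lit 291)) (XT.lf (nat_lit 76) (nat_lit 99514570) (nat_lit 0) (nat_lit 1305427263) (nat_lit 380) (nat_lit 1867292766) (nat_lit 110) (nat_lit 1) (nat_lit 109) (nat_lit 1) (nat_lit 114) (nat_lit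 1) (nat_lit 366) (nat_lit 364) (nat_lit 290))) (XT.nd (nat_lit 78) (nat_lit 608) (nat_lit 0) (XT.lf (nat_lit 304) (nat_lit 651853947) (nat_lit 0) (nat_lit 1211954516) (nat_lit 228) (nat_lit 1373140258) (nat_lit 110) (nat_lit 1) (nat_lit 106) (nat_lit 1) (nat_lit 109) (nat_lit 1) (nat_lit 367) (nat_lit 364) (nat_lit 289)) (XT.nd (nat_lit 78) (nat_lit 228) (nat_lit 0) (XT.lf (nat_lit 76) (nat_lit 392036632) (nat_lit 0) (nat_lit 637894729) (nat_lit 380) (nat_lit 2172252309) (nat_lit 102) (nat_lit 1) (nat_lit 101) (nat_lit 1) (nat_lit 106) (nat_lit 1) (nat_lit 368) (nat_lit 364) (nat_lit 288)) (XT.lf (nat_lit 304) (nat_lit 1258818701) (nat_lit 0) (nat_lit 852159194) (nat_lit 228) (nat_lit 1056826949) (nat_lit 102) (nat_lit 1) (nat_lit 98) (nat_lit 1) (nat_lit 101) (nat_lit 1) (nat_lit 369) (nat_lit 364) (nat_lit 287))))))) (XT.nd (nat_lit 702) (nat_lit 912) (nat_lit 0) (XT.nd (nat_lit 312) (nat_lit 988)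 (nat_lit 0) (XT.nd (nat_lit 156) (nat_lit 532) (nat_lit 0) (XT.nd (nat_lit 78) (nat_lit 228) (nat_lit 0) (XT.lf (nat_lit 76) (nat_lit 655594301) (nat_lit 0) (nat_lit 31283095) (nat_lit 304) (nat_lit 2447093466) (nat_lit 95) (nat_lit 1) (nat_lit 94) (nat_lit 1) (nat_lit 98) (nat_lit 1) (nat_lit 370) (nat_lit 364) (nat_lit 286)) (XT.lf (nat_lit 304) (nat_lit 1807737101) (nat_lit 0) (nat_lit 523165845) (nat_lit 228) (nat_lit 769561742) (nat_lit 95) (nat_lit 1) (nat_lit 91) (nat_lit 1) (nat_lit 94) (nat_lit 1) (nat_lit 371) (nat_lit 364) (nat_lit 285))) (XT.nd (nat_lit 78) (nat_lit 304) (nat_lit 0) (XT.lf (nat_lit 304) (nat_lit 526115012) (nat_lit 0) (nat_lit 369836166) (nat_lit 228) (nat_lit 2171505041) (nat_lit 92) (nat_lit 1) (nat_lit 88) (nat_lit 1) (nat_lit 91) (nat_lit 1) (nat_lit 372) (nat_lit 364) (nat_lit 284)) (XT.lf (nat_lit 304) (nat_lit 2303231988) (nat_lit 0) (nat_lit 222602298) (nat_lit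 228) (nat_lit 509024270) (nat_lit 88) (nat_lit 1) (nat_lit 84) (nat_lit 1) (nat_lit 87) (nat_lit 1) (nat_lit 373) (nat_lit 364) (nat_lit 283)))) (XT.nd (nat_lit 156) (nat_lit 684) (nat_lit 0) (XT.nd (nat_lit 78) (nat_lit 76) (nat_lit 0) (XT.lf (nat_lit 304) (nat_lit 1031567701) (nat_lit 0) (nat_lit 80155812) (nat_lit 228) (nat_lit 1890919706) (nat_lit 85) (nat_lit 1) (nat_lit 81) (nat_lit 1) (nat_lit 84) (nat_lit 1) (nat_lit 374) (nat_lit 364) (nat_lit 282)) (XT.lf (nat_lit 76) (nat_lit 2698183699) (nat_lit 0) (nat_lit 221685104) (nat_lit 304) (nat_lit 51045212) (nat_lit 81) (nat_lit 1) (nat_lit 80) (nat_lit 1) (nat_lit 84) (nat_lit 1) (nat_lit 375) (nat_lit 364) (nat_lit 281))) (XT.nd (nat_lit 78) (nat_lit 456) (nat_lit 0) (XT.lf (nat_lit 76) (nat_lit 1305926348) (nat_lit 0) (nat_lit 1451854118) (nat_lit 304) (nat_lit 181667369) (nat_lit 78) (nat_lit 1) (nat_lit 77) (nat_lit 1) (nat_lit 81) (nat_lit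 1) (nat_lit 376) (nat_lit 364) (nat_lit 280)) (XT.nd (nat_lit 78) (nat_lit 228) (nat_lit 0) (XT.lf (nat_lit 304) (nat_lit 243338318) (nat_lit 0) (nat_lit 2609059625) (nat_lit 228) (nat_lit 56120460) (nat_lit 78) (nat_lit 1) (nat_lit 74) (nat_lit 1) (nat_lit 77) (nat_lit 1) (nat_lit 377) (nat_lit 364) (nat_lit 279)) (XT.lf (nat_lit 76) (nat_lit 1479601305) (nat_lit 0) (nat_lit 978954033) (nat_lit 228) (nat_lit 419270638) (nat_lit 72) (nat_lit 1) (nat_lit 71) (nat_lit 1) (nat_lit 74) (nat_lit 1) (nat_lit 378) (nat_lit 364) (nat_lit 278)))))) (XT.nd (nat_lit 46254) (nat_lit 0) (nat_lit 33364) (XT.nd (nat_lit 156) (nat_lit 456) (nat_lit 0) (XT.nd (nat_lit 78) (nat_lit 228) (nat_lit 0) (XT.lf (nat_lit 76) (nat_lit 138909284) (nat_lit 0) (nat_lit 2180807402) (nat_lit 304) (nat_lit 527914934) (nat_lit 69) (nat_lit 1) (nat_lit 68) (nat_lit 1) (nat_lit 72) (nat_lit 1) (nat_lit 379) (nat_lit 364) (nat_lit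 277)) (XT.lf (nat_lit 76) (nat_lit 1633963665) (nat_lit 0) (nat_lit 548268387) (nat_lit 228) (nat_lit 635498480) (nat_lit 66) (nat_lit 1) (nat_lit 65) (nat_lit 1) (nat_lit 68) (nat_lit 1) (nat_lit 380) (nat_lit 364) (nat_lit 276))) (XT.nd (nat_lit 78) (nat_lit 228) (nat_lit 0) (XT.lf (nat_lit 76) (nat_lit 313954634) (nat_lit 0) (nat_lit 1738277068) (nat_lit 304) (nat_lit 736008623) (nat_lit 63) (nat_lit 1) (nat_lit 62) (nat_lit 1) (nat_lit 66) (nat_lit 1) (nat_lit 381) (nat_lit 364) (nat_lit 275)) (XT.nd (nat_lit 45942) (nat_lit 0) (nat_lit 33288) (XT.lf (nat_lit 76) (nat_lit 1770614406) (nat_lit 0) (nat_lit 156484764) (nat_lit 228) (nat_lit 832007959) (nat_lit 60) (nat_lit 1) (nat_lit 59) (nat_lit 1) (nat_lit 62) (nat_lit 1) (nat_lit 382) (nat_lit 364) (nat_lit 274)) (XT.lf (nat_lit 1900) (nat_lit 1412264274) (nat_lit 0) (nat_lit 1424074088) (nat_lit 1900) (nat_lit 1412264274) (nat_lit 522) (nat_lit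 1) (nat_lit 497) (nat_lit 0) (nat_lit 522) (nat_lit 0) (nat_lit 290) (nat_lit 365) (nat_lit 365))))) (XT.nd (nat_lit 156) (nat_lit 0) (nat_lit 76) (XT.nd (nat_lit 78) (nat_lit 0) (nat_lit 0) (XT.lf (nat_lit 1900) (nat_lit 652796976) (nat_lit 0) (nat_lit 2833629643) (nat_lit 1824) (nat_lit 4886493758) (nat_lit 523) (nat_lit 1) (nat_lit 498) (nat_lit 1) (nat_lit 522) (nat_lit 1) (nat_lit 291) (nat_lit 365) (nat_lit 364)) (XT.lf (nat_lit 1900) (nat_lit 5368583034) (nat_lit 76) (nat_lit 1380342071) (nat_lit 0) (nat_lit 1502072710) (nat_lit 523) (nat_lit 1) (nat_lit 499) (nat_lit 1) (nat_lit 498) (nat_lit 1) (nat_lit 292) (nat_lit 365) (nat_lit 363))) (XT.nd (nat_lit 78) (nat_lit 0) (nat_lit 76) (XT.lf (nat_lit 1900) (nat_lit 4506812412) (nat_lit 0) (nat_lit 2990640712) (nat_lit 1824) (nat_lit 633956037) (nat_lit 524) (nat_lit 1) (nat_lit 499) (nat_lit 1) (nat_lit 523) (nat_lit 1) (nat_lit 293) (nat_lit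 365) (nat_lit 362)) (XT.nd (nat_lit 78) (nat_lit 0) (nat_lit 76) (XT.lf (nat_lit 1900) (nat_lit 2312030170) (nat_lit 0) (nat_lit 3155996344) (nat_lit 1824) (nat_lit 2546071519) (nat_lit 525) (nat_lit 1) (nat_lit 500) (nat_lit 1) (nat_lit 524) (nat_lit 1) (nat_lit 294) (nat_lit 365) (nat_lit 361)) (XT.lf (nat_lit 1900) (nat_lit 155275889) (nat_lit 0) (nat_lit 3367359347) (nat_lit 1824) (nat_lit 4376552027) (nat_lit 526) (nat_lit 1) (nat_lit 501) (nat_lit 1) (nat_lit 525) (nat_lit 1) (nat_lit 295) (nat_lit 365) (nat_lit 360))))))))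
noncomputable def ec63 : XT := (XT.nd (nat_lit 1404) (nat_lit 11856) (nat_lit 0) (XT.nd (nat_lit 702) (nat_lit 4636) (nat_lit 0) (XT.nd (nat_lit 312) (nat_lit 1444) (nat_lit 0) (XT.nd (nat_lit 156) (nat_lit 0) (nat_lit 152) (XT.nd (nat_lit 78) (nat_lit 0) (nat_lit 76) (XT.lf (nat_lit 1900) (nat_lit 4150798928) (nat_lit 76) (nat_lit 1645668047) (nat_lit 0) (nat_lit 1989896465) (nat_lit 526) (nat_lit 1) (nat_lit 502) (nat_lit 1) (nat_lit 501) (nat_lit 1) (nat_lit 296) (nat_lit 365) (nat_lit 359)) (XT.lf (nat_lit 1900) (nat_lit 3577496294) (nat_lit 0) (nat_lit 3947448510) (nat_lit 1824) (nat_lit 150851134) (nat_lit 527) (nat_lit 1) (nat_lit 502) (nat_lit 1) (nat_lit 526) (nat_lit 1) (nat_lit 297) (nat_lit 365) (nat_lit 358))) (XT.nd (nat_lit 78) (nat_lit 0) (nat_lit 0) (XT.lf (nat_lit 1900) (nat_lit 1408407111) (nat_lit 0) (nat_lit 4309241901) (nat_lit 1824) (nat_lit 1849619966) (nat_lit 528) (nat_lit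 1) (nat_lit 503) (nat_lit 1) (nat_lit 527) (nat_lit 1) (nat_lit 298) (nat_lit 365) (nat_lit 357)) (XT.lf (nat_lit 1900) (nat_lit 2747696884) (nat_lit 76) (nat_lit 3981664586) (nat_lit 0) (nat_lit 731488422) (nat_lit 528) (nat_lit 1) (nat_lit 504) (nat_lit 1) (nat_lit 503) (nat_lit 1) (nat_lit 299) (nat_lit 365) (nat_lit 356)))) (XT.nd (nat_lit 156) (nat_lit 1672) (nat_lit 0) (XT.nd (nat_lit 78) (nat_lit 0) (nat_lit 76) (XT.lf (nat_lit 1900) (nat_lit 2194747853) (nat_lit 76) (nat_lit 2310437447) (nat_lit 0) (nat_lit 2851217975) (nat_lit 529) (nat_lit 1) (nat_lit 505) (nat_lit 1) (nat_lit 504) (nat_lit 1) (nat_lit 300) (nat_lit 365) (nat_lit 355)) (XT.lf (nat_lit 1900) (nat_lit 1610306314) (nat_lit 76) (nat_lit 711270565) (nat_lit 0) (nat_lit 4932488623) (nat_lit 530) (nat_lit 1) (nat_lit 506) (nat_lit 1) (nat_lit 505) (nat_lit 1) (nat_lit 301) (nat_lit 365) (nat_lit 354))) (XT.nd (nat_lit 78) (nat_lit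 1824) (nat_lit 0) (XT.lf (nat_lit 1900) (nat_lit 183371065) (nat_lit 0) (nat_lit 6163112295) (nat_lit 1824) (nat_lit 807199257) (nat_lit 531) (nat_lit 1) (nat_lit 506) (nat_lit 1) (nat_lit 530) (nat_lit 1) (nat_lit 302) (nat_lit 365) (nat_lit 353)) (XT.nd (nat_lit 78) (nat_lit 1824) (nat_lit 0) (XT.lf (nat_lit 1900) (nat_lit 325428376) (nat_lit 76) (nat_lit 4793110523) (nat_lit 0) (nat_lit 1936440363) (nat_lit 531) (nat_lit 1) (nat_lit 507) (nat_lit 1) (nat_lit 506) (nat_lit 1) (nat_lit 303) (nat_lit 365) (nat_lit 352)) (XT.lf (nat_lit 1976) (nat_lit 2941149696) (nat_lit 0) (nat_lit 362254878) (nat_lit 1900) (nat_lit 3654782275) (nat_lit 508) (nat_lit 1) (nat_lit 482) (nat_lit 1) (nat_lit 507) (nat_lit 1) (nat_lit 304) (nat_lit 365) (nat_lit 351)))))) (XT.nd (nat_lit 312) (nat_lit 3648) (nat_lit 0) (XT.nd (nat_lit 156) (nat_lit 1064) (nat_lit 0) (XT.nd (nat_lit 78) (nat_lit 0) (nat_lit 0) (XT.lf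 (nat_lit 1976) (nat_lit 806717556) (nat_lit 0) (nat_lit 1070041886) (nat_lit 1900) (nat_lit 4986527620) (nat_lit 509) (nat_lit 1) (nat_lit 483) (nat_lit 1) (nat_lit 508) (nat_lit 1) (nat_lit 305) (nat_lit 365) (nat_lit 350)) (XT.lf (nat_lit 1976) (nat_lit 4960797619) (nat_lit 76) (nat_lit 504803672) (nat_lit 0) (nat_lit 1304508097) (nat_lit 509) (nat_lit 1) (nat_lit 484) (nat_lit 1) (nat_lit 483) (nat_lit 1) (nat_lit 306) (nat_lit 365) (nat_lit 349))) (XT.nd (nat_lit 78) (nat_lit 1140) (nat_lit 0) (XT.lf (nat_lit 76) (nat_lit 3297805257) (nat_lit 0) (nat_lit 2580596194) (nat_lit 1900) (nat_lit 800173242) (nat_lit 485) (nat_lit 1) (nat_lit 484) (nat_lit 1) (nat_lit 509) (nat_lit 1) (nat_lit 307) (nat_lit 365) (nat_lit 348)) (XT.lf (nat_lit 76) (nat_lit 1174491120) (nat_lit 0) (nat_lit 3374955173) (nat_lit 1216) (nat_lit 2039348980) (nat_lit 470) (nat_lit 1) (nat_lit 469) (nat_lit 1) (nat_lit 485)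 (nat_lit 1) (nat_lit 308) (nat_lit 365) (nat_lit 347)))) (XT.nd (nat_lit 156) (nat_lit 1824) (nat_lit 0) (XT.nd (nat_lit 78) (nat_lit 912) (nat_lit 0) (XT.lf (nat_lit 988) (nat_lit 2306788791) (nat_lit 0) (nat_lit 3273636873) (nat_lit 912) (nat_lit 920250920) (nat_lit 470) (nat_lit 1) (nat_lit 457) (nat_lit 1) (nat_lit 469) (nat_lit 1) (nat_lit 309) (nat_lit 365) (nat_lit 346)) (XT.lf (nat_lit 988) (nat_lit 1376420042) (nat_lit 0) (nat_lit 2047740711) (nat_lit 912) (nat_lit 2989988479) (nat_lit 458) (nat_lit 1) (nat_lit 445) (nat_lit 1) (nat_lit 457) (nat_lit 1) (nat_lit 310) (nat_lit 365) (nat_lit 345))) (XT.nd (nat_lit 78) (nat_lit 988) (nat_lit 0) (XT.lf (nat_lit 912) (nat_lit 431682530) (nat_lit 0) (nat_lit 877966852) (nat_lit 836) (nat_lit 5019679637) (nat_lit 446) (nat_lit 1) (nat_lit 434) (nat_lit 1) (nat_lit 445) (nat_lit 1) (nat_lit 311) (nat_lit 365) (nat_lit 344)) (XT.nd (nat_lit 78) (nat_lit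 912) (nat_lit 0) (XT.lf (nat_lit 76) (nat_lit 5477209820) (nat_lit 0) (nat_lit 526092374) (nat_lit 912) (nat_lit 242675617) (nat_lit 434) (nat_lit 1) (nat_lit 433) (nat_lit 1) (nat_lit 445) (nat_lit 1) (nat_lit 312) (nat_lit 365) (nat_lit 343)) (XT.lf (nat_lit 76) (nat_lit 3348889509) (nat_lit 0) (nat_lit 1504161531) (nat_lit 988) (nat_lit 1310875098) (nat_lit 422) (nat_lit 1) (nat_lit 421) (nat_lit 1) (nat_lit 434) (nat_lit 1) (nat_lit 313) (nat_lit 365) (nat_lit 342))))))) (XT.nd (nat_lit 702) (nat_lit 5700) (nat_lit 0) (XT.nd (nat_lit 312) (nat_lit 2964) (nat_lit 0) (XT.nd (nat_lit 156) (nat_lit 1520) (nat_lit 0) (XT.nd (nat_lit 78) (nat_lit 836) (nat_lit 0) (XT.lf (nat_lit 76) (nat_lit 1262399446) (nat_lit 0) (nat_lit 2492891626) (nat_lit 912) (nat_lit 2328190281) (nat_lit 411) (nat_lit 1) (nat_lit 410) (nat_lit 1) (nat_lit 422) (nat_lit 1) (nat_lit 314) (nat_lit 365) (nat_lit 341)) (XT.lf (nat_lit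 912) (nat_lit 2507956875) (nat_lit 0) (nat_lit 2703253749) (nat_lit 836) (nat_lit 793294506) (nat_lit 411) (nat_lit 1) (nat_lit 399) (nat_lit 1) (nat_lit 410) (nat_lit 1) (nat_lit 315) (nat_lit 365) (nat_lit 340))) (XT.nd (nat_lit 78) (nat_lit 760) (nat_lit 0) (XT.lf (nat_lit 836) (nat_lit 1409735932) (nat_lit 0) (nat_lit 1692518758) (nat_lit 760) (nat_lit 2824650551) (nat_lit 400) (nat_lit 1) (nat_lit 389) (nat_lit 1) (nat_lit 399) (nat_lit 1) (nat_lit 316) (nat_lit 365) (nat_lit 339)) (XT.lf (nat_lit 836) (nat_lit 305176307) (nat_lit 0) (nat_lit 730117518) (nat_lit 760) (nat_lit 4815520234) (nat_lit 390) (nat_lit 1) (nat_lit 379) (nat_lit 1) (nat_lit 389) (nat_lit 1) (nat_lit 317) (nat_lit 365) (nat_lit 338)))) (XT.nd (nat_lit 156) (nat_lit 2128) (nat_lit 0) (XT.nd (nat_lit 78) (nat_lit 760) (nat_lit 0) (XT.lf (nat_lit 76) (nat_lit 4779052620) (nat_lit 0) (nat_lit 802180431) (nat_lit 836) (nat_lit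 194705833) (nat_lit 379) (nat_lit 1) (nat_lit 378) (nat_lit 1) (nat_lit 389) (nat_lit 1) (nat_lit 318) (nat_lit 365) (nat_lit 337)) (XT.lf (nat_lit 76) (nat_lit 2707282868) (nat_lit 0) (nat_lit 1921379568) (nat_lit 836) (nat_lit 1073584001) (nat_lit 369) (nat_lit 1) (nat_lit 368) (nat_lit 1) (nat_lit 379) (nat_lit 1) (nat_lit 319) (nat_lit 365) (nat_lit 336))) (XT.nd (nat_lit 78) (nat_lit 1368) (nat_lit 0) (XT.lf (nat_lit 76) (nat_lit 677247214) (nat_lit 0) (nat_lit 3044163434) (nat_lit 836) (nat_lit 1908566068) (nat_lit 359) (nat_lit 1) (nat_lit 358) (nat_lit 1) (nat_lit 369) (nat_lit 1) (nat_lit 320) (nat_lit 365) (nat_lit 335)) (XT.nd (nat_lit 78) (nat_lit 684) (nat_lit 0) (XT.lf (nat_lit 760) (nat_lit 1380399795) (nat_lit 0) (nat_lit 2849367916) (nat_lit 684) (nat_lit 1329158596) (nat_lit 359) (nat_lit 1) (nat_lit 349) (nat_lit 1) (nat_lit 358) (nat_lit 1) (nat_lit 321) (nat_lit 365) (nat_lit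 334)) (XT.lf (nat_lit 760) (nat_lit 169733202) (nat_lit 0) (nat_lit 2015789981) (nat_lit 684) (nat_lit 3303630727) (nat_lit 350) (nat_lit 1) (nat_lit 340) (nat_lit 1) (nat_lit 349) (nat_lit 1) (nat_lit 322) (nat_lit 365) (nat_lit 333)))))) (XT.nd (nat_lit 390) (nat_lit 2964) (nat_lit 0) (XT.nd (nat_lit 156) (nat_lit 1292) (nat_lit 0) (XT.nd (nat_lit 78) (nat_lit 684) (nat_lit 0) (XT.lf (nat_lit 76) (nat_lit 189643294) (nat_lit 0) (nat_lit 1027439600) (nat_lit 760) (nat_lit 4203501077) (nat_lit 331) (nat_lit 1) (nat_lit 330) (nat_lit 1) (nat_lit 340) (nat_lit 1) (nat_lit 323) (nat_lit 365) (nat_lit 332)) (XT.lf (nat_lit 760) (nat_lit 3119434126) (nat_lit 0) (nat_lit 445969494) (nat_lit 684) (nat_lit 1787665144) (nat_lit 331) (nat_lit 1) (nat_lit 321) (nat_lit 1) (nat_lit 330) (nat_lit 1) (nat_lit 324) (nat_lit 365) (nat_lit 331))) (XT.nd (nat_lit 78) (nat_lit 1292) (nat_lit 0) (XT.lf (nat_lit 76)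 (nat_lit 1561949444) (nat_lit 0) (nat_lit 3441822905) (nat_lit 760) (nat_lit 283005169) (nat_lit 322) (nat_lit 1) (nat_lit 321) (nat_lit 1) (nat_lit 331) (nat_lit 1) (nat_lit 325) (nat_lit 365) (nat_lit 330)) (XT.nd (nat_lit 78) (nat_lit 684) (nat_lit 0) (XT.lf (nat_lit 684) (nat_lit 567950259) (nat_lit 0) (nat_lit 4250889106) (nat_lit 608) (nat_lit 402800354) (nat_lit 322) (nat_lit 1) (nat_lit 313) (nat_lit 1) (nat_lit 321) (nat_lit 1) (nat_lit 326) (nat_lit 365) (nat_lit 329)) (XT.lf (nat_lit 76) (nat_lit 2814811506) (nat_lit 0) (nat_lit 706370836) (nat_lit 684) (nat_lit 1636263101) (nat_lit 305) (nat_lit 1) (nat_lit 304) (nat_lit 1) (nat_lit 313) (nat_lit 1) (nat_lit 327) (nat_lit 365) (nat_lit 328))))) (XT.nd (nat_lit 156) (nat_lit 1748) (nat_lit 0) (XT.nd (nat_lit 78) (nat_lit 608) (nat_lit 0) (XT.lf (nat_lit 76) (nat_lit 855897996) (nat_lit 0) (nat_lit 1969134794) (nat_lit 684) (nat_lit 2269360694)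 (nat_lit 297) (nat_lit 1) (nat_lit 296) (nat_lit 1) (nat_lit 305) (nat_lit 1) (nat_lit 328) (nat_lit 365) (nat_lit 327)) (XT.lf (nat_lit 684) (nat_lit 1797974162) (nat_lit 0) (nat_lit 2157997166) (nat_lit 608) (nat_lit 1076420690) (nat_lit 297) (nat_lit 1) (nat_lit 288) (nat_lit 1) (nat_lit 296) (nat_lit 1) (nat_lit 329) (nat_lit 365) (nat_lit 326))) (XT.nd (nat_lit 78) (nat_lit 1216) (nat_lit 0) (XT.lf (nat_lit 608) (nat_lit 471192353) (nat_lit 0) (nat_lit 1520681073) (nat_lit 532) (nat_lit 2979574835) (nat_lit 289) (nat_lit 1) (nat_lit 281) (nat_lit 1) (nat_lit 288) (nat_lit 1) (nat_lit 330) (nat_lit 365) (nat_lit 325)) (XT.nd (nat_lit 78) (nat_lit 532) (nat_lit 0) (XT.lf (nat_lit 76) (nat_lit 74268023) (nat_lit 0) (nat_lit 837911825) (nat_lit 684) (nat_lit 3999360017) (nat_lit 273) (nat_lit 1) (nat_lit 272) (nat_lit 1) (nat_lit 281) (nat_lit 1) (nat_lit 331) (nat_lit 365) (nat_lit 324)) (XT.lf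 (nat_lit 608) (nat_lit 2706509340) (nat_lit 0) (nat_lit 321962919) (nat_lit 532) (nat_lit 1823983522) (nat_lit 273) (nat_lit 1) (nat_lit 265) (nat_lit 1) (nat_lit 272) (nat_lit 1) (nat_lit 332) (nat_lit 365) (nat_lit 323))))))))
noncomputable def ec64 : XT := (XT.nd (nat_lit 1404) (nat_lit 5472) (nat_lit 0) (XT.nd (nat_lit 702) (nat_lit 3344) (nat_lit 0) (XT.nd (nat_lit 312) (nat_lit 2508) (nat_lit 0) (XT.nd (nat_lit 156) (nat_lit 1064) (nat_lit 0) (XT.nd (nat_lit 78) (nat_lit 608) (nat_lit 0) (XT.lf (nat_lit 76) (nat_lit 1112806631) (nat_lit 0) (nat_lit 3448749279) (nat_lit 608) (nat_lit 232879354) (nat_lit 266) (nat_lit 1) (nat_lit 265) (nat_lit 1) (nat_lit 273) (nat_lit 1) (nat_lit 333) (nat_lit 365) (nat_lit 322)) (XT.lf (nat_lit 76) (nat_lit 3966764838) (nat_lit 0) (nat_lit 13410426) (nat_lit 608) (nat_lit 757180836) (nat_lit 258) (nat_lit 1) (nat_lit 257) (nat_lit 1) (nat_lit 265) (nat_lit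 1) (nat_lit 334) (nat_lit 365) (nat_lit 321))) (XT.nd (nat_lit 78) (nat_lit 532) (nat_lit 0) (XT.lf (nat_lit 76) (nat_lit 2061149089) (nat_lit 0) (nat_lit 1353101540) (nat_lit 608) (nat_lit 1266772857) (nat_lit 251) (nat_lit 1) (nat_lit 250) (nat_lit 1) (nat_lit 258) (nat_lit 1) (nat_lit 335) (nat_lit 365) (nat_lit 320)) (XT.lf (nat_lit 76) (nat_lit 195805493) (nat_lit 0) (nat_lit 2683489398) (nat_lit 608) (nat_lit 1746442398) (nat_lit 244) (nat_lit 1) (nat_lit 243) (nat_lit 1) (nat_lit 251) (nat_lit 1) (nat_lit 336) (nat_lit 365) (nat_lit 319)))) (XT.nd (nat_lit 156) (nat_lit 1444) (nat_lit 0) (XT.nd (nat_lit 78) (nat_lit 608) (nat_lit 0) (XT.lf (nat_lit 532) (nat_lit 556128514) (nat_lit 0) (nat_lit 2363477575) (nat_lit 456) (nat_lit 1651655189) (nat_lit 244) (nat_lit 1) (nat_lit 237) (nat_lit 1) (nat_lit 243) (nat_lit 1) (nat_lit 337) (nat_lit 365) (nat_lit 318)) (XT.lf (nat_lit 76) (nat_lit 1060720899)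 (nat_lit 0) (nat_lit 809659834) (nat_lit 608) (nat_lit 2647280730) (nat_lit 230) (nat_lit 1) (nat_lit 229) (nat_lit 1) (nat_lit 237) (nat_lit 1) (nat_lit 338) (nat_lit 365) (nat_lit 317))) (XT.nd (nat_lit 78) (nat_lit 988) (nat_lit 0) (XT.lf (nat_lit 532) (nat_lit 2302614252) (nat_lit 0) (nat_lit 1397223176) (nat_lit 456) (nat_lit 765041706) (nat_lit 230) (nat_lit 1) (nat_lit 223) (nat_lit 1) (nat_lit 229) (nat_lit 1) (nat_lit 339) (nat_lit 365) (nat_lit 316)) (XT.nd (nat_lit 78) (nat_lit 532) (nat_lit 0) (XT.lf (nat_lit 532) (nat_lit 902298904) (nat_lit 0) (nat_lit 945067678) (nat_lit 456) (nat_lit 2565564402) (nat_lit 224) (nat_lit 1) (nat_lit 217) (nat_lit 1) (nat_lit 223) (nat_lit 1) (nat_lit 340) (nat_lit 365) (nat_lit 315)) (XT.lf (nat_lit 76) (nat_lit 37616461) (nat_lit 0) (nat_lit 479386108) (nat_lit 532) (nat_lit 3844870902) (nat_lit 211) (nat_lit 1) (nat_lit 210) (nat_lit 1) (nat_lit 217)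 (nat_lit 1) (nat_lit 341) (nat_lit 365) (nat_lit 314)))))) (XT.nd (nat_lit 312) (nat_lit 1976) (nat_lit 0) (XT.nd (nat_lit 156) (nat_lit 912) (nat_lit 0) (XT.nd (nat_lit 78) (nat_lit 0) (nat_lit 0) (XT.lf (nat_lit 532) (nat_lit 2462963167) (nat_lit 0) (nat_lit 97966375) (nat_lit 456) (nat_lit 1750477666) (nat_lit 211) (nat_lit 1) (nat_lit 204) (nat_lit 1) (nat_lit 210) (nat_lit 1) (nat_lit 342) (nat_lit 365) (nat_lit 313)) (XT.lf (nat_lit 76) (nat_lit 763243741) (nat_lit 0) (nat_lit 3207206292) (nat_lit 532) (nat_lit 291369209) (nat_lit 205) (nat_lit 1) (nat_lit 204) (nat_lit 1) (nat_lit 211) (nat_lit 1) (nat_lit 343) (nat_lit 365) (nat_lit 312))) (XT.nd (nat_lit 78) (nat_lit 456) (nat_lit 0) (XT.lf (nat_lit 76) (nat_lit 3206779040) (nat_lit 0) (nat_lit 342938110) (nat_lit 456) (nat_lit 663231387) (nat_lit 199) (nat_lit 1) (nat_lit 198) (nat_lit 1) (nat_lit 204) (nat_lit 1) (nat_lit 344) (nat_lit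 365) (nat_lit 311)) (XT.lf (nat_lit 76) (nat_lit 1424279376) (nat_lit 0) (nat_lit 1718063100) (nat_lit 532) (nat_lit 1022391659) (nat_lit 193) (nat_lit 1) (nat_lit 192) (nat_lit 1) (nat_lit 199) (nat_lit 1) (nat_lit 345) (nat_lit 365) (nat_lit 310)))) (XT.nd (nat_lit 156) (nat_lit 1140) (nat_lit 0) (XT.nd (nat_lit 78) (nat_lit 456) (nat_lit 0) (XT.lf (nat_lit 456) (nat_lit 1035707045) (nat_lit 0) (nat_lit 2757588113) (nat_lit 380) (nat_lit 324058662) (nat_lit 193) (nat_lit 1) (nat_lit 187) (nat_lit 1) (nat_lit 192) (nat_lit 1) (nat_lit 346) (nat_lit 365) (nat_lit 309)) (XT.lf (nat_lit 76) (nat_lit 2019916730) (nat_lit 0) (nat_lit 365214711) (nat_lit 456) (nat_lit 1685469953) (nat_lit 182) (nat_lit 1) (nat_lit 181) (nat_lit 1) (nat_lit 187) (nat_lit 1) (nat_lit 347) (nat_lit 365) (nat_lit 308))) (XT.nd (nat_lit 78) (nat_lit 760) (nat_lit 0) (XT.lf (nat_lit 76) (nat_lit 291481558) (nat_lit 0) (nat_lit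 1738037910) (nat_lit 456) (nat_lit 1995042792) (nat_lit 177) (nat_lit 1) (nat_lit 176) (nat_lit 1) (nat_lit 182) (nat_lit 1) (nat_lit 348) (nat_lit 365) (nat_lit 307)) (XT.nd (nat_lit 78) (nat_lit 380) (nat_lit 0) (XT.lf (nat_lit 456) (nat_lit 873573536) (nat_lit 0) (nat_lit 1687537622) (nat_lit 380) (nat_lit 1418058509) (nat_lit 177) (nat_lit 1) (nat_lit 171) (nat_lit 1) (nat_lit 176) (nat_lit 1) (nat_lit 349) (nat_lit 365) (nat_lit 306)) (XT.lf (nat_lit 76) (nat_lit 843768175) (nat_lit 0) (nat_lit 518952015) (nat_lit 380) (nat_lit 2571769045) (nat_lit 167) (nat_lit 1) (nat_lit 166) (nat_lit 1) (nat_lit 171) (nat_lit 1) (nat_lit 350) (nat_lit 365) (nat_lit 305))))))) (XT.nd (nat_lit 702) (nat_lit 2660) (nat_lit 0) (XT.nd (nat_lit 312) (nat_lit 1368) (nat_lit 0) (XT.nd (nat_lit 156) (nat_lit 760) (nat_lit 0) (XT.nd (nat_lit 78) (nat_lit 304) (nat_lit 0) (XT.lf (nat_lit 456) (nat_lit 2000113889) (nat_lit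 0) (nat_lit 1048595260) (nat_lit 380) (nat_lit 841681267) (nat_lit 167) (nat_lit 1) (nat_lit 161) (nat_lit 1) (nat_lit 166) (nat_lit 1) (nat_lit 351) (nat_lit 365) (nat_lit 304)) (XT.lf (nat_lit 380) (nat_lit 595193824) (nat_lit 0) (nat_lit 750468105) (nat_lit 304) (nat_lit 2501311693) (nat_lit 162) (nat_lit 1) (nat_lit 157) (nat_lit 1) (nat_lit 161) (nat_lit 1) (nat_lit 352) (nat_lit 365) (nat_lit 303))) (XT.nd (nat_lit 78) (nat_lit 304) (nat_lit 0) (XT.lf (nat_lit 456) (nat_lit 3018863422) (nat_lit 0) (nat_lit 466004290) (nat_lit 380) (nat_lit 319321794) (nat_lit 157) (nat_lit 1) (nat_lit 151) (nat_lit 1) (nat_lit 156) (nat_lit 1) (nat_lit 353) (nat_lit 365) (nat_lit 302)) (XT.lf (nat_lit 380) (nat_lit 1611042204) (nat_lit 0) (nat_lit 189367796) (nat_lit 304) (nat_lit 1961510095) (nat_lit 152) (nat_lit 1) (nat_lit 147) (nat_lit 1) (nat_lit 151) (nat_lit 1) (nat_lit 354) (nat_lit 365) (nat_lit 301))))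 (XT.nd (nat_lit 156) (nat_lit 988) (nat_lit 0) (XT.nd (nat_lit 78) (nat_lit 380) (nat_lit 0) (XT.lf (nat_lit 76) (nat_lit 153193630) (nat_lit 0) (nat_lit 3500985900) (nat_lit 380) (nat_lit 66215710) (nat_lit 148) (nat_lit 1) (nat_lit 147) (nat_lit 1) (nat_lit 152) (nat_lit 1) (nat_lit 355) (nat_lit 365) (nat_lit 300)) (XT.lf (nat_lit 76) (nat_lit 2210781384) (nat_lit 0) (nat_lit 1151318616) (nat_lit 380) (nat_lit 317143485) (nat_lit 143) (nat_lit 1) (nat_lit 142) (nat_lit 1) (nat_lit 147) (nat_lit 1) (nat_lit 356) (nat_lit 365) (nat_lit 299))) (XT.nd (nat_lit 78) (nat_lit 684) (nat_lit 0) (XT.lf (nat_lit 76) (nat_lit 583708992) (nat_lit 0) (nat_lit 2503665325) (nat_lit 380) (nat_lit 551401614) (nat_lit 139) (nat_lit 1) (nat_lit 138) (nat_lit 1) (nat_lit 143) (nat_lit 1) (nat_lit 357) (nat_lit 365) (nat_lit 298)) (XT.nd (nat_lit 78) (nat_lit 304) (nat_lit 0) (XT.lf (nat_lit 76) (nat_lit 2579397910)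 (nat_lit 0) (nat_lit 244123207) (nat_lit 380) (nat_lit 775341035) (nat_lit 134) (nat_lit 1) (nat_lit 133) (nat_lit 1) (nat_lit 138) (nat_lit 1) (nat_lit 358) (nat_lit 365) (nat_lit 297)) (XT.lf (nat_lit 76) (nat_lit 971892673) (nat_lit 0) (nat_lit 1595381721) (nat_lit 380) (nat_lit 992160411) (nat_lit 130) (nat_lit 1) (nat_lit 129) (nat_lit 1) (nat_lit 134) (nat_lit 1) (nat_lit 359) (nat_lit 365) (nat_lit 296)))))) (XT.nd (nat_lit 312) (nat_lit 1444) (nat_lit 0) (XT.nd (nat_lit 156) (nat_lit 608) (nat_lit 0) (XT.nd (nat_lit 78) (nat_lit 304) (nat_lit 0) (XT.lf (nat_lit 380) (nat_lit 586832210) (nat_lit 0) (nat_lit 2325519636) (nat_lit 304) (nat_lit 608273775) (nat_lit 130) (nat_lit 1) (nat_lit 125) (nat_lit 1) (nat_lit 129) (nat_lit 1) (nat_lit 360) (nat_lit 365) (nat_lit 295)) (XT.lf (nat_lit 76) (nat_lit 1321165679) (nat_lit 0) (nat_lit 769135723) (nat_lit 304) (nat_lit 1391973968) (nat_lit 122)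 (nat_lit 1) (nat_lit 121) (nat_lit 1) (nat_lit 125) (nat_lit 1) (nat_lit 361) (nat_lit 365) (nat_lit 294))) (XT.nd (nat_lit 78) (nat_lit 304) (nat_lit 0) (XT.lf (nat_lit 380) (nat_lit 1342714934) (nat_lit 0) (nat_lit 1867455648) (nat_lit 304) (nat_lit 234324690) (nat_lit 122) (nat_lit 1) (nat_lit 117) (nat_lit 1) (nat_lit 121) (nat_lit 1) (nat_lit 362) (nat_lit 365) (nat_lit 293)) (XT.lf (nat_lit 76) (nat_lit 1634684947) (nat_lit 0) (nat_lit 18463512) (nat_lit 304) (nat_lit 1754058512) (nat_lit 114) (nat_lit 1) (nat_lit 113) (nat_lit 1) (nat_lit 117) (nat_lit 1) (nat_lit 363) (nat_lit 365) (nat_lit 292)))) (XT.nd (nat_lit 156) (nat_lit 912) (nat_lit 0) (XT.nd (nat_lit 78) (nat_lit 228) (nat_lit 0) (XT.lf (nat_lit 76) (nat_lit 102500007) (nat_lit 0) (nat_lit 1344590081) (nat_lit 380) (nat_lit 1923311549) (nat_lit 110) (nat_lit 1) (nat_lit 109) (nat_lit 1) (nat_lit 114) (nat_lit 1) (nat_lit 364) (nat_lit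 365) (nat_lit 291)) (XT.lf (nat_lit 304) (nat_lit 671409566) (nat_lit 0) (nat_lit 1248313152) (nat_lit 228) (nat_lit 1414334466) (nat_lit 110) (nat_lit 1) (nat_lit 106) (nat_lit 1) (nat_lit 109) (nat_lit 1) (nat_lit 365) (nat_lit 365) (nat_lit 290))) (XT.nd (nat_lit 78) (nat_lit 532) (nat_lit 0) (XT.lf (nat_lit 76) (nat_lit 403797731) (nat_lit 0) (nat_lit 657031571) (nat_lit 380) (nat_lit 2237419878) (nat_lit 102) (nat_lit 1) (nat_lit 101) (nat_lit 1) (nat_lit 106) (nat_lit 1) (nat_lit 366) (nat_lit 365) (nat_lit 289)) (XT.nd (nat_lit 78) (nat_lit 304) (nat_lit 0) (XT.lf (nat_lit 304) (nat_lit 1296583262) (nat_lit 0) (nat_lit 877723970) (nat_lit 228) (nat_lit 1088531758) (nat_lit 102) (nat_lit 1) (nat_lit 98) (nat_lit 1) (nat_lit 101) (nat_lit 1) (nat_lit 367) (nat_lit 365) (nat_lit 288)) (XT.lf (nat_lit 76) (nat_lit 675262130) (nat_lit 0) (nat_lit 32221588) (nat_lit 304) (nat_lit 2520506270) (nat_lit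 95) (nat_lit 1) (nat_lit 94) (nat_lit 1) (nat_lit 98) (nat_lit 1) (nat_lit 368) (nat_lit 365) (nat_lit 287))))))))
noncomputable def ec65 : XT := (XT.nd (nat_lit 47112) (nat_lit 0) (nat_lit 28804) (XT.nd (nat_lit 702) (nat_lit 1064) (nat_lit 0) (XT.nd (nat_lit 312) (nat_lit 988) (nat_lit 0) (XT.nd (nat_lit 156) (nat_lit 532) (nat_lit 0) (XT.nd (nat_lit 78) (nat_lit 228) (nat_lit 0) (XT.lf (nat_lit 304) (nat_lit 1861969214) (nat_lit 0) (nat_lit 538860821) (nat_lit 228) (nat_lit 792648595) (nat_lit 95) (nat_lit 1) (nat_lit 91) (nat_lit 1) (nat_lit 94) (nat_lit 1) (nat_lit 369) (nat_lit 365) (nat_lit 286)) (XT.lf (nat_lit 304) (nat_lit 541898463) (nat_lit 0) (nat_lit 380931251) (nat_lit 228) (nat_lit 2236650192) (nat_lit 92) (nat_lit 1) (nat_lit 88) (nat_lit 1) (nat_lit 91) (nat_lit 1) (nat_lit 370) (nat_lit 365) (nat_lit 285))) (XT.nd (nat_lit 78) (nat_lit 228) (nat_lit 0) (XT.lf (nat_lit 304) (nat_lit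 2372328948) (nat_lit 0) (nat_lit 229280367) (nat_lit 228) (nat_lit 524294998) (nat_lit 88) (nat_lit 1) (nat_lit 84) (nat_lit 1) (nat_lit 87) (nat_lit 1) (nat_lit 371) (nat_lit 365) (nat_lit 284)) (XT.lf (nat_lit 304) (nat_lit 1062514732) (nat_lit 0) (nat_lit 82560487) (nat_lit 228) (nat_lit 1947647297) (nat_lit 85) (nat_lit 1) (nat_lit 81) (nat_lit 1) (nat_lit 84) (nat_lit 1) (nat_lit 372) (nat_lit 365) (nat_lit 283)))) (XT.nd (nat_lit 156) (nat_lit 684) (nat_lit 0) (XT.nd (nat_lit 78) (nat_lit 228) (nat_lit 0) (XT.lf (nat_lit 76) (nat_lit 2779129210) (nat_lit 0) (nat_lit 228335657) (nat_lit 304) (nat_lit 52576568) (nat_lit 81) (nat_lit 1) (nat_lit 80) (nat_lit 1) (nat_lit 84) (nat_lit 1) (nat_lit 373) (nat_lit 365) (nat_lit 282)) (XT.lf (nat_lit 76) (nat_lit 1345104138) (nat_lit 0) (nat_lit 1495409742) (nat_lit 304) (nat_lit 187117390) (nat_lit 78) (nat_lit 1) (nat_lit 77) (nat_lit 1) (nat_lit 81)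 (nat_lit 1) (nat_lit 374) (nat_lit 365) (nat_lit 281))) (XT.nd (nat_lit 78) (nat_lit 456) (nat_lit 0) (XT.lf (nat_lit 304) (nat_lit 250638468) (nat_lit 0) (nat_lit 2687331414) (nat_lit 228) (nat_lit 57804073) (nat_lit 78) (nat_lit 1) (nat_lit 74) (nat_lit 1) (nat_lit 77) (nat_lit 1) (nat_lit 375) (nat_lit 365) (nat_lit 280)) (XT.nd (nat_lit 78) (nat_lit 228) (nat_lit 0) (XT.lf (nat_lit 76) (nat_lit 1523989344) (nat_lit 0) (nat_lit 1008322654) (nat_lit 228) (nat_lit 431848757) (nat_lit 72) (nat_lit 1) (nat_lit 71) (nat_lit 1) (nat_lit 74) (nat_lit 1) (nat_lit 376) (nat_lit 365) (nat_lit 279)) (XT.lf (nat_lit 76) (nat_lit 143076563) (nat_lit 0) (nat_lit 2246231624) (nat_lit 304) (nat_lit 543752382) (nat_lit 69) (nat_lit 1) (nat_lit 68) (nat_lit 1) (nat_lit 72) (nat_lit 1) (nat_lit 377) (nat_lit 365) (nat_lit 278)))))) (XT.nd (nat_lit 312) (nat_lit 152) (nat_lit 0) (XT.nd (nat_lit 156) (nat_lit 456)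 (nat_lit 0) (XT.nd (nat_lit 78) (nat_lit 228) (nat_lit 0) (XT.lf (nat_lit 76) (nat_lit 1682982575) (nat_lit 0) (nat_lit 564716439) (nat_lit 228) (nat_lit 654563434) (nat_lit 66) (nat_lit 1) (nat_lit 65) (nat_lit 1) (nat_lit 68) (nat_lit 1) (nat_lit 378) (nat_lit 365) (nat_lit 277)) (XT.lf (nat_lit 76) (nat_lit 323373273) (nat_lit 0) (nat_lit 1790425380) (nat_lit 304) (nat_lit 758088882) (nat_lit 63) (nat_lit 1) (nat_lit 62) (nat_lit 1) (nat_lit 66) (nat_lit 1) (nat_lit 379) (nat_lit 365) (nat_lit 276))) (XT.nd (nat_lit 78) (nat_lit 228) (nat_lit 0) (XT.lf (nat_lit 76) (nat_lit 1823732838) (nat_lit 0) (nat_lit 161179307) (nat_lit 228) (nat_lit 856968198) (nat_lit 60) (nat_lit 1) (nat_lit 59) (nat_lit 1) (nat_lit 62) (nat_lit 1) (nat_lit 380) (nat_lit 365) (nat_lit 275)) (XT.lf (nat_lit 76) (nat_lit 485455103) (nat_lit 0) (nat_lit 1374018976) (nat_lit 304) (nat_lit 952733486) (nat_lit 57) (nat_lit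 1) (nat_lit 56) (nat_lit 1) (nat_lit 60) (nat_lit 1) (nat_lit 381) (nat_lit 365) (nat_lit 274)))) (XT.nd (nat_lit 45864) (nat_lit 0) (nat_lit 33744) (XT.nd (nat_lit 45786) (nat_lit 0) (nat_lit 33668) (XT.lf (nat_lit 228) (nat_lit 208169908) (nat_lit 0) (nat_lit 1740942634) (nat_lit 152) (nat_lit 833821873) (nat_lit 57) (nat_lit 1) (nat_lit 54) (nat_lit 1) (nat_lit 56) (nat_lit 1) (nat_lit 382) (nat_lit 365) (nat_lit 273)) (XT.lf (nat_lit 1900) (nat_lit 1454632202) (nat_lit 0) (nat_lit 1466796310) (nat_lit 1900) (nat_lit 1454632202) (nat_lit 522) (nat_lit 1) (nat_lit 497) (nat_lit 0) (nat_lit 522) (nat_lit 0) (nat_lit 288) (nat_lit 366) (nat_lit 366))) (XT.nd (nat_lit 78) (nat_lit 0) (nat_lit 0) (XT.lf (nat_lit 1900) (nat_lit 672380886) (nat_lit 0) (nat_lit 2918638532) (nat_lit 1824) (nat_lit 5033088571) (nat_lit 523) (nat_lit 1) (nat_lit 498) (nat_lit 1) (nat_lit 522) (nat_lit 1) (nat_lit 289) (nat_lit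 366) (nat_lit 365)) (XT.nd (nat_lit 78) (nat_lit 0) (nat_lit 76) (XT.lf (nat_lit 1900) (nat_lit 5529640525) (nat_lit 76) (nat_lit 1421752333) (nat_lit 0) (nat_lit 1547134892) (nat_lit 523) (nat_lit 1) (nat_lit 499) (nat_lit 1) (nat_lit 498) (nat_lit 1) (nat_lit 290) (nat_lit 366) (nat_lit 364)) (XT.lf (nat_lit 1900) (nat_lit 4642016784) (nat_lit 0) (nat_lit 3080359933) (nat_lit 1824) (nat_lit 652974718) (nat_lit 524) (nat_lit 1) (nat_lit 499) (nat_lit 1) (nat_lit 523) (nat_lit 1) (nat_lit 291) (nat_lit 366) (nat_lit 363))))))) (XT.nd (nat_lit 702) (nat_lit 5092) (nat_lit 0) (XT.nd (nat_lit 312) (nat_lit 0) (nat_lit 228) (XT.nd (nat_lit 156) (nat_lit 0) (nat_lit 76) (XT.nd (nat_lit 78) (nat_lit 0) (nat_lit 76) (XT.lf (nat_lit 1900) (nat_lit 2381391075) (nat_lit 0) (nat_lit 3250676235) (nat_lit 1824) (nat_lit 2622453664) (nat_lit 525) (nat_lit 1) (nat_lit 500) (nat_lit 1) (nat_lit 524) (nat_lit 1)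 (nat_lit 292) (nat_lit 366) (nat_lit 362)) (XT.lf (nat_lit 1900) (nat_lit 159934165) (nat_lit 0) (nat_lit 3468380127) (nat_lit 1824) (nat_lit 4507848588) (nat_lit 526) (nat_lit 1) (nat_lit 501) (nat_lit 1) (nat_lit 525) (nat_lit 1) (nat_lit 293) (nat_lit 366) (nat_lit 361))) (XT.nd (nat_lit 78) (nat_lit 0) (nat_lit 76) (XT.lf (nat_lit 1900) (nat_lit 4275322896) (nat_lit 76) (nat_lit 1695038089) (nat_lit 0) (nat_lit 2049593359) (nat_lit 526) (nat_lit 1) (nat_lit 502) (nat_lit 1) (nat_lit 501) (nat_lit 1) (nat_lit 294) (nat_lit 366) (nat_lit 360)) (XT.lf (nat_lit 1900) (nat_lit 3684821182) (nat_lit 0) (nat_lit 4065871965) (nat_lit 1824) (nat_lit 155376668) (nat_lit 527) (nat_lit 1) (nat_lit 502) (nat_lit 1) (nat_lit 526) (nat_lit 1) (nat_lit 295) (nat_lit 366) (nat_lit 359)))) (XT.nd (nat_lit 156) (nat_lit 0) (nat_lit 76) (XT.nd (nat_lit 78) (nat_lit 0) (nat_lit 0) (XT.lf (nat_lit 1900) (nat_lit 1450659325)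 (nat_lit 0) (nat_lit 4438519158) (nat_lit 1824) (nat_lit 1905108565) (nat_lit 528) (nat_lit 1) (nat_lit 503) (nat_lit 1) (nat_lit 527) (nat_lit 1) (nat_lit 296) (nat_lit 366) (nat_lit 358)) (XT.lf (nat_lit 1900) (nat_lit 2830127790) (nat_lit 76) (nat_lit 4101114524) (nat_lit 0) (nat_lit 753433074) (nat_lit 528) (nat_lit 1) (nat_lit 504) (nat_lit 1) (nat_lit 503) (nat_lit 1) (nat_lit 297) (nat_lit 366) (nat_lit 357))) (XT.nd (nat_lit 78) (nat_lit 0) (nat_lit 76) (XT.lf (nat_lit 1900) (nat_lit 2260590289) (nat_lit 76) (nat_lit 2379750570) (nat_lit 0) (nat_lit 2936754514) (nat_lit 529) (nat_lit 1) (nat_lit 505) (nat_lit 1) (nat_lit 504) (nat_lit 1) (nat_lit 298) (nat_lit 366) (nat_lit 356)) (XT.nd (nat_lit 78) (nat_lit 0) (nat_lit 76) (XT.lf (nat_lit 1900) (nat_lit 1658615503) (nat_lit 76) (nat_lit 732608682) (nat_lit 0) (nat_lit 5080463282) (nat_lit 530) (nat_lit 1) (nat_lit 506) (nat_lit 1) (nat_lit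 505) (nat_lit 1) (nat_lit 299) (nat_lit 366) (nat_lit 355)) (XT.lf (nat_lit 1900) (nat_lit 188872197) (nat_lit 0) (nat_lit 6348005664) (nat_lit 1824) (nat_lit 831415235) (nat_lit 531) (nat_lit 1) (nat_lit 506) (nat_lit 1) (nat_lit 530) (nat_lit 1) (nat_lit 300) (nat_lit 366) (nat_lit 354)))))) (XT.nd (nat_lit 390) (nat_lit 3724) (nat_lit 0) (XT.nd (nat_lit 156) (nat_lit 0) (nat_lit 76) (XT.nd (nat_lit 78) (nat_lit 1824) (nat_lit 0) (XT.lf (nat_lit 1900) (nat_lit 335191227) (nat_lit 76) (nat_lit 4936903838) (nat_lit 0) (nat_lit 1994533574) (nat_lit 531) (nat_lit 1) (nat_lit 507) (nat_lit 1) (nat_lit 506) (nat_lit 1) (nat_lit 301) (nat_lit 366) (nat_lit 353)) (XT.lf (nat_lit 1976) (nat_lit 3029384187) (nat_lit 0) (nat_lit 373122524) (nat_lit 1900) (nat_lit 3764425743) (nat_lit 508) (nat_lit 1) (nat_lit 482) (nat_lit 1) (nat_lit 507) (nat_lit 1) (nat_lit 302) (nat_lit 366) (nat_lit 352))) (XT.nd (nat_lit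 78) (nat_lit 0) (nat_lit 0) (XT.lf (nat_lit 1976) (nat_lit 830919083) (nat_lit 0) (nat_lit 1102143143) (nat_lit 1900) (nat_lit 5136123449) (nat_lit 509) (nat_lit 1) (nat_lit 483) (nat_lit 1) (nat_lit 508) (nat_lit 1) (nat_lit 303) (nat_lit 366) (nat_lit 351)) (XT.nd (nat_lit 78) (nat_lit 0) (nat_lit 76) (XT.lf (nat_lit 1976) (nat_lit 5109621547) (nat_lit 76) (nat_lit 519947783) (nat_lit 0) (nat_lit 1343643340) (nat_lit 509) (nat_lit 1) (nat_lit 484) (nat_lit 1) (nat_lit 483) (nat_lit 1) (nat_lit 304) (nat_lit 366) (nat_lit 350)) (XT.lf (nat_lit 76) (nat_lit 3396739414) (nat_lit 0) (nat_lit 2658014080) (nat_lit 1900) (nat_lit 824178440) (nat_lit 485) (nat_lit 1) (nat_lit 484) (nat_lit 1) (nat_lit 509) (nat_lit 1) (nat_lit 305) (nat_lit 366) (nat_lit 349))))) (XT.nd (nat_lit 156) (nat_lit 1824) (nat_lit 0) (XT.nd (nat_lit 78) (nat_lit 912) (nat_lit 0) (XT.lf (nat_lit 76) (nat_lit 1209725854) (nat_lit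 0) (nat_lit 3476203828) (nat_lit 1216) (nat_lit 2100529450) (nat_lit 470) (nat_lit 1) (nat_lit 469) (nat_lit 1) (nat_lit 485) (nat_lit 1) (nat_lit 306) (nat_lit 366) (nat_lit 348)) (XT.lf (nat_lit 988) (nat_lit 2375992454) (nat_lit 0) (nat_lit 3371845979) (nat_lit 912) (nat_lit 947858447) (nat_lit 470) (nat_lit 1) (nat_lit 457) (nat_lit 1) (nat_lit 469) (nat_lit 1) (nat_lit 307) (nat_lit 366) (nat_lit 347))) (XT.nd (nat_lit 78) (nat_lit 912) (nat_lit 0) (XT.lf (nat_lit 988) (nat_lit 1417712643) (nat_lit 0) (nat_lit 2109172932) (nat_lit 912) (nat_lit 3079688134) (nat_lit 458) (nat_lit 1) (nat_lit 445) (nat_lit 1) (nat_lit 457) (nat_lit 1) (nat_lit 308) (nat_lit 366) (nat_lit 346)) (XT.nd (nat_lit 78) (nat_lit 76) (nat_lit 0) (XT.lf (nat_lit 912) (nat_lit 444633006) (nat_lit 0) (nat_lit 904305858) (nat_lit 836) (nat_lit 5170270026) (nat_lit 446) (nat_lit 1) (nat_lit 434) (nat_lit 1) (nat_lit 445) (nat_lit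 1) (nat_lit 309) (nat_lit 366) (nat_lit 345)) (XT.lf (nat_lit 76) (nat_lit 5641526114) (nat_lit 0) (nat_lit 541875145) (nat_lit 912) (nat_lit 249955886) (nat_lit 434) (nat_lit 1) (nat_lit 433) (nat_lit 1) (nat_lit 445) (nat_lit 1) (nat_lit 310) (nat_lit 366) (nat_lit 344))))))))
noncomputable def ec66 : XT := (XT.nd (nat_lit 1404) (nat_lit 8360) (nat_lit 0) (XT.nd (nat_lit 702) (nat_lit 5168) (nat_lit 0) (XT.nd (nat_lit 312) (nat_lit 3040) (nat_lit 0) (XT.nd (nat_lit 156) (nat_lit 1596) (nat_lit 0) (XT.nd (nat_lit 78) (nat_lit 836) (nat_lit 0) (XT.lf (nat_lit 76) (nat_lit 3449356194) (nat_lit 0) (nat_lit 1549286377) (nat_lit 988) (nat_lit 1350201351) (nat_lit 422) (nat_lit 1) (nat_lit 421) (nat_lit 1) (nat_lit 434) (nat_lit 1) (nat_lit 311) (nat_lit 366) (nat_lit 343)) (XT.lf (nat_lit 76) (nat_lit 1300271429) (nat_lit 0) (nat_lit 2567678375) (nat_lit 912) (nat_lit 2398035989) (nat_lit 411) (nat_lit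 1) (nat_lit 410) (nat_lit 1) (nat_lit 422) (nat_lit 1) (nat_lit 312) (nat_lit 366) (nat_lit 342))) (XT.nd (nat_lit 78) (nat_lit 760) (nat_lit 0) (XT.lf (nat_lit 912) (nat_lit 2583195581) (nat_lit 0) (nat_lit 2784351361) (nat_lit 836) (nat_lit 817093341) (nat_lit 411) (nat_lit 1) (nat_lit 399) (nat_lit 1) (nat_lit 410) (nat_lit 1) (nat_lit 313) (nat_lit 366) (nat_lit 341)) (XT.lf (nat_lit 836) (nat_lit 1452028010) (nat_lit 0) (nat_lit 1743294320) (nat_lit 760) (nat_lit 2909390068) (nat_lit 400) (nat_lit 1) (nat_lit 389) (nat_lit 1) (nat_lit 399) (nat_lit 1) (nat_lit 314) (nat_lit 366) (nat_lit 340)))) (XT.nd (nat_lit 156) (nat_lit 2204) (nat_lit 0) (XT.nd (nat_lit 78) (nat_lit 76) (nat_lit 0) (XT.lf (nat_lit 836) (nat_lit 314331597) (nat_lit 0) (nat_lit 752021044) (nat_lit 760) (nat_lit 4959985841) (nat_lit 390) (nat_lit 1) (nat_lit 379) (nat_lit 1) (nat_lit 389) (nat_lit 1) (nat_lit 315) (nat_lit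 366) (nat_lit 339)) (XT.lf (nat_lit 76) (nat_lit 4922424198) (nat_lit 0) (nat_lit 826245844) (nat_lit 836) (nat_lit 200547008) (nat_lit 379) (nat_lit 1) (nat_lit 378) (nat_lit 1) (nat_lit 389) (nat_lit 1) (nat_lit 316) (nat_lit 366) (nat_lit 338))) (XT.nd (nat_lit 78) (nat_lit 1444) (nat_lit 0) (XT.lf (nat_lit 76) (nat_lit 2788501354) (nat_lit 0) (nat_lit 1979020955) (nat_lit 836) (nat_lit 1105791521) (nat_lit 369) (nat_lit 1) (nat_lit 368) (nat_lit 1) (nat_lit 379) (nat_lit 1) (nat_lit 317) (nat_lit 366) (nat_lit 337)) (XT.nd (nat_lit 78) (nat_lit 684) (nat_lit 0) (XT.lf (nat_lit 76) (nat_lit 697564630) (nat_lit 0) (nat_lit 3135488337) (nat_lit 836) (nat_lit 1965823050) (nat_lit 359) (nat_lit 1) (nat_lit 358) (nat_lit 1) (nat_lit 369) (nat_lit 1) (nat_lit 318) (nat_lit 366) (nat_lit 336)) (XT.lf (nat_lit 760) (nat_lit 1421811789) (nat_lit 0) (nat_lit 2934848953) (nat_lit 684) (nat_lit 1369033353)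 (nat_lit 359) (nat_lit 1) (nat_lit 349) (nat_lit 1) (nat_lit 358) (nat_lit 1) (nat_lit 319) (nat_lit 366) (nat_lit 335)))))) (XT.nd (nat_lit 312) (nat_lit 3040) (nat_lit 0) (XT.nd (nat_lit 156) (nat_lit 684) (nat_lit 0) (XT.nd (nat_lit 78) (nat_lit 760) (nat_lit 0) (XT.lf (nat_lit 760) (nat_lit 174825198) (nat_lit 0) (nat_lit 2076263680) (nat_lit 684) (nat_lit 3402739649) (nat_lit 350) (nat_lit 1) (nat_lit 340) (nat_lit 1) (nat_lit 349) (nat_lit 1) (nat_lit 320) (nat_lit 366) (nat_lit 334)) (XT.lf (nat_lit 76) (nat_lit 195332592) (nat_lit 0) (nat_lit 1058262788) (nat_lit 760) (nat_lit 4329606109) (nat_lit 331) (nat_lit 1) (nat_lit 330) (nat_lit 1) (nat_lit 340) (nat_lit 1) (nat_lit 321) (nat_lit 366) (nat_lit 333))) (XT.nd (nat_lit 78) (nat_lit 0) (nat_lit 0) (XT.lf (nat_lit 760) (nat_lit 3213017150) (nat_lit 0) (nat_lit 459348579) (nat_lit 684) (nat_lit 1841295099) (nat_lit 331) (nat_lit 1) (nat_lit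 321) (nat_lit 1) (nat_lit 330) (nat_lit 1) (nat_lit 322) (nat_lit 366) (nat_lit 332)) (XT.lf (nat_lit 76) (nat_lit 1608807928) (nat_lit 0) (nat_lit 3545077592) (nat_lit 760) (nat_lit 291495324) (nat_lit 322) (nat_lit 1) (nat_lit 321) (nat_lit 1) (nat_lit 331) (nat_lit 1) (nat_lit 323) (nat_lit 366) (nat_lit 331)))) (XT.nd (nat_lit 156) (nat_lit 1748) (nat_lit 0) (XT.nd (nat_lit 78) (nat_lit 684) (nat_lit 0) (XT.lf (nat_lit 684) (nat_lit 584988766) (nat_lit 0) (nat_lit 4378415780) (nat_lit 608) (nat_lit 414884365) (nat_lit 322) (nat_lit 1) (nat_lit 313) (nat_lit 1) (nat_lit 321) (nat_lit 1) (nat_lit 324) (nat_lit 366) (nat_lit 330)) (XT.lf (nat_lit 76) (nat_lit 2899255851) (nat_lit 0) (nat_lit 727561961) (nat_lit 684) (nat_lit 1685350994) (nat_lit 305) (nat_lit 1) (nat_lit 304) (nat_lit 1) (nat_lit 313) (nat_lit 1) (nat_lit 325) (nat_lit 366) (nat_lit 329))) (XT.nd (nat_lit 78) (nat_lit 1140) (nat_lit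 0) (XT.lf (nat_lit 76) (nat_lit 881574936) (nat_lit 0) (nat_lit 2028208838) (nat_lit 684) (nat_lit 2337441515) (nat_lit 297) (nat_lit 1) (nat_lit 296) (nat_lit 1) (nat_lit 305) (nat_lit 1) (nat_lit 326) (nat_lit 366) (nat_lit 328)) (XT.nd (nat_lit 78) (nat_lit 532) (nat_lit 0) (XT.lf (nat_lit 684) (nat_lit 1851913387) (nat_lit 0) (nat_lit 2222737081) (nat_lit 608) (nat_lit 1108713310) (nat_lit 297) (nat_lit 1) (nat_lit 288) (nat_lit 1) (nat_lit 296) (nat_lit 1) (nat_lit 327) (nat_lit 366) (nat_lit 327)) (XT.lf (nat_lit 608) (nat_lit 485328124) (nat_lit 0) (nat_lit 1566301505) (nat_lit 532) (nat_lit 3068962080) (nat_lit 289) (nat_lit 1) (nat_lit 281) (nat_lit 1) (nat_lit 288) (nat_lit 1) (nat_lit 328) (nat_lit 366) (nat_lit 326))))))) (XT.nd (nat_lit 702) (nat_lit 3952) (nat_lit 0) (XT.nd (nat_lit 312) (nat_lit 2584) (nat_lit 0) (XT.nd (nat_lit 156) (nat_lit 608) (nat_lit 0) (XT.nd (nat_lit 78) (nat_lit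 532) (nat_lit 0) (XT.lf (nat_lit 76) (nat_lit 76496063) (nat_lit 0) (nat_lit 863049180) (nat_lit 684) (nat_lit 4119340818) (nat_lit 273) (nat_lit 1) (nat_lit 272) (nat_lit 1) (nat_lit 281) (nat_lit 1) (nat_lit 329) (nat_lit 366) (nat_lit 325)) (XT.lf (nat_lit 608) (nat_lit 2787704620) (nat_lit 0) (nat_lit 331621806) (nat_lit 532) (nat_lit 1878703027) (nat_lit 273) (nat_lit 1) (nat_lit 265) (nat_lit 1) (nat_lit 272) (nat_lit 1) (nat_lit 330) (nat_lit 366) (nat_lit 324))) (XT.nd (nat_lit 78) (nat_lit 608) (nat_lit 0) (XT.lf (nat_lit 76) (nat_lit 1146190830) (nat_lit 0) (nat_lit 3552211758) (nat_lit 608) (nat_lit 239865734) (nat_lit 266) (nat_lit 1) (nat_lit 265) (nat_lit 1) (nat_lit 273) (nat_lit 1) (nat_lit 331) (nat_lit 366) (nat_lit 323)) (XT.lf (nat_lit 76) (nat_lit 4085767783) (nat_lit 0) (nat_lit 13812739) (nat_lit 608) (nat_lit 779896261) (nat_lit 258) (nat_lit 1) (nat_lit 257) (nat_lit 1) (nat_lit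 265) (nat_lit 1) (nat_lit 332) (nat_lit 366) (nat_lit 322)))) (XT.nd (nat_lit 156) (nat_lit 1520) (nat_lit 0) (XT.nd (nat_lit 78) (nat_lit 532) (nat_lit 0) (XT.lf (nat_lit 76) (nat_lit 2122983561) (nat_lit 0) (nat_lit 1393694586) (nat_lit 608) (nat_lit 1304776043) (nat_lit 251) (nat_lit 1) (nat_lit 250) (nat_lit 1) (nat_lit 258) (nat_lit 1) (nat_lit 333) (nat_lit 366) (nat_lit 321)) (XT.lf (nat_lit 76) (nat_lit 201679658) (nat_lit 0) (nat_lit 2763994080) (nat_lit 608) (nat_lit 1798835670) (nat_lit 244) (nat_lit 1) (nat_lit 243) (nat_lit 1) (nat_lit 251) (nat_lit 1) (nat_lit 334) (nat_lit 366) (nat_lit 320))) (XT.nd (nat_lit 78) (nat_lit 1064) (nat_lit 0) (XT.lf (nat_lit 532) (nat_lit 572812370) (nat_lit 0) (nat_lit 2434381902) (nat_lit 456) (nat_lit 1701204845) (nat_lit 244) (nat_lit 1) (nat_lit 237) (nat_lit 1) (nat_lit 243) (nat_lit 1) (nat_lit 335) (nat_lit 366) (nat_lit 319)) (XT.nd (nat_lit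 78) (nat_lit 456) (nat_lit 0) (XT.lf (nat_lit 76) (nat_lit 1092542526) (nat_lit 0) (nat_lit 833949629) (nat_lit 608) (nat_lit 2726699152) (nat_lit 230) (nat_lit 1) (nat_lit 229) (nat_lit 1) (nat_lit 237) (nat_lit 1) (nat_lit 336) (nat_lit 366) (nat_lit 318)) (XT.lf (nat_lit 532) (nat_lit 2371692679) (nat_lit 0) (nat_lit 1439139871) (nat_lit 456) (nat_lit 787992957) (nat_lit 230) (nat_lit 1) (nat_lit 223) (nat_lit 1) (nat_lit 229) (nat_lit 1) (nat_lit 337) (nat_lit 366) (nat_lit 317)))))) (XT.nd (nat_lit 390) (nat_lit 2052) (nat_lit 0) (XT.nd (nat_lit 156) (nat_lit 912) (nat_lit 0) (XT.nd (nat_lit 78) (nat_lit 532) (nat_lit 0) (XT.lf (nat_lit 532) (nat_lit 929367871) (nat_lit 0) (nat_lit 973419709) (nat_lit 456) (nat_lit 2642531334) (nat_lit 224) (nat_lit 1) (nat_lit 217) (nat_lit 1) (nat_lit 223) (nat_lit 1) (nat_lit 338) (nat_lit 366) (nat_lit 316)) (XT.lf (nat_lit 76) (nat_lit 38744955) (nat_lit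 0) (nat_lit 493767691) (nat_lit 532) (nat_lit 3960217029) (nat_lit 211) (nat_lit 1) (nat_lit 210) (nat_lit 1) (nat_lit 217) (nat_lit 1) (nat_lit 339) (nat_lit 366) (nat_lit 315))) (XT.nd (nat_lit 78) (nat_lit 456) (nat_lit 0) (XT.lf (nat_lit 532) (nat_lit 2536852063) (nat_lit 0) (nat_lit 100905366) (nat_lit 456) (nat_lit 1802991996) (nat_lit 211) (nat_lit 1) (nat_lit 204) (nat_lit 1) (nat_lit 210) (nat_lit 1) (nat_lit 340) (nat_lit 366) (nat_lit 314)) (XT.nd (nat_lit 78) (nat_lit 456) (nat_lit 0) (XT.lf (nat_lit 76) (nat_lit 786141053) (nat_lit 0) (nat_lit 3303422481) (nat_lit 532) (nat_lit 300110285) (nat_lit 205) (nat_lit 1) (nat_lit 204) (nat_lit 1) (nat_lit 211) (nat_lit 1) (nat_lit 341) (nat_lit 366) (nat_lit 313)) (XT.lf (nat_lit 76) (nat_lit 3302982411) (nat_lit 0) (nat_lit 353226253) (nat_lit 456) (nat_lit 683128329) (nat_lit 199) (nat_lit 1) (nat_lit 198) (nat_lit 1) (nat_lit 204) (nat_lit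 1) (nat_lit 342) (nat_lit 366) (nat_lit 312))))) (XT.nd (nat_lit 156) (nat_lit 1216) (nat_lit 0) (XT.nd (nat_lit 78) (nat_lit 380) (nat_lit 0) (XT.lf (nat_lit 76) (nat_lit 1467007758) (nat_lit 0) (nat_lit 1769604993) (nat_lit 532) (nat_lit 1053063408) (nat_lit 193) (nat_lit 1) (nat_lit 192) (nat_lit 1) (nat_lit 199) (nat_lit 1) (nat_lit 343) (nat_lit 366) (nat_lit 311)) (XT.lf (nat_lit 456) (nat_lit 1066778256) (nat_lit 0) (nat_lit 2840315756) (nat_lit 380) (nat_lit 333780422) (nat_lit 193) (nat_lit 1) (nat_lit 187) (nat_lit 1) (nat_lit 192) (nat_lit 1) (nat_lit 344) (nat_lit 366) (nat_lit 310))) (XT.nd (nat_lit 78) (nat_lit 760) (nat_lit 0) (XT.lf (nat_lit 76) (nat_lit 2080514232) (nat_lit 0) (nat_lit 376171152) (nat_lit 456) (nat_lit 1736034052) (nat_lit 182) (nat_lit 1) (nat_lit 181) (nat_lit 1) (nat_lit 187) (nat_lit 1) (nat_lit 345) (nat_lit 366) (nat_lit 309)) (XT.nd (nat_lit 78) (nat_lit 380)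 (nat_lit 0) (XT.lf (nat_lit 76) (nat_lit 300226004) (nat_lit 0) (nat_lit 1790179047) (nat_lit 456) (nat_lit 2054894076) (nat_lit 177) (nat_lit 1) (nat_lit 176) (nat_lit 1) (nat_lit 182) (nat_lit 1) (nat_lit 346) (nat_lit 366) (nat_lit 308)) (XT.lf (nat_lit 456) (nat_lit 899780742) (nat_lit 0) (nat_lit 1738163751) (nat_lit 380) (nat_lit 1460600264) (nat_lit 177) (nat_lit 1) (nat_lit 171) (nat_lit 1) (nat_lit 176) (nat_lit 1) (nat_lit 347) (nat_lit 366) (nat_lit 307))))))))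
noncomputable def ec67 : XT := (XT.nd (nat_lit 1404) (nat_lit 3648) (nat_lit 0) (XT.nd (nat_lit 702) (nat_lit 2660) (nat_lit 0) (XT.nd (nat_lit 312) (nat_lit 1368) (nat_lit 0) (XT.nd (nat_lit 156) (nat_lit 760) (nat_lit 0) (XT.nd (nat_lit 78) (nat_lit 380) (nat_lit 0) (XT.lf (nat_lit 76) (nat_lit 869081220) (nat_lit 0) (nat_lit 534520576) (nat_lit 380) (nat_lit 2648922116) (nat_lit 167) (nat_lit 1) (nat_lit 166) (nat_lit 1) (nat_lit 171) (nat_lit 1) (nat_lit 348) (nat_lit 366) (nat_lit 306)) (XT.lf (nat_lit 456) (nat_lit 2060117306) (nat_lit 0) (nat_lit 1080053117) (nat_lit 380) (nat_lit 866931705) (nat_lit 167) (nat_lit 1) (nat_lit 161) (nat_lit 1) (nat_lit 166) (nat_lit 1) (nat_lit 349) (nat_lit 366) (nat_lit 305))) (XT.nd (nat_lit 78) (nat_lit 456) (nat_lit 0) (XT.lf (nat_lit 380) (nat_lit 613049639) (nat_lit 0) (nat_lit 772982148) (nat_lit 304) (nat_lit 2576351044) (nat_lit 162) (nat_lit 1) (nat_lit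 157) (nat_lit 1) (nat_lit 161) (nat_lit 1) (nat_lit 350) (nat_lit 366) (nat_lit 304)) (XT.lf (nat_lit 456) (nat_lit 3109429325) (nat_lit 0) (nat_lit 479984419) (nat_lit 380) (nat_lit 328901448) (nat_lit 157) (nat_lit 1) (nat_lit 151) (nat_lit 1) (nat_lit 156) (nat_lit 1) (nat_lit 351) (nat_lit 366) (nat_lit 303)))) (XT.nd (nat_lit 156) (nat_lit 1064) (nat_lit 0) (XT.nd (nat_lit 78) (nat_lit 0) (nat_lit 0) (XT.lf (nat_lit 380) (nat_lit 1659373470) (nat_lit 0) (nat_lit 195048830) (nat_lit 304) (nat_lit 2020355398) (nat_lit 152) (nat_lit 1) (nat_lit 147) (nat_lit 1) (nat_lit 151) (nat_lit 1) (nat_lit 352) (nat_lit 366) (nat_lit 302)) (XT.lf (nat_lit 76) (nat_lit 157789439) (nat_lit 0) (nat_lit 3606015477) (nat_lit 380) (nat_lit 68202181) (nat_lit 148) (nat_lit 1) (nat_lit 147) (nat_lit 1) (nat_lit 152) (nat_lit 1) (nat_lit 353) (nat_lit 366) (nat_lit 301))) (XT.nd (nat_lit 78) (nat_lit 684) (nat_lit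 0) (XT.lf (nat_lit 76) (nat_lit 2277104826) (nat_lit 0) (nat_lit 1185858174) (nat_lit 380) (nat_lit 326657790) (nat_lit 143) (nat_lit 1) (nat_lit 142) (nat_lit 1) (nat_lit 147) (nat_lit 1) (nat_lit 354) (nat_lit 366) (nat_lit 300)) (XT.nd (nat_lit 78) (nat_lit 380) (nat_lit 0) (XT.lf (nat_lit 76) (nat_lit 601220262) (nat_lit 0) (nat_lit 2578775284) (nat_lit 380) (nat_lit 567943663) (nat_lit 139) (nat_lit 1) (nat_lit 138) (nat_lit 1) (nat_lit 143) (nat_lit 1) (nat_lit 355) (nat_lit 366) (nat_lit 299)) (XT.lf (nat_lit 76) (nat_lit 2656779848) (nat_lit 0) (nat_lit 251446903) (nat_lit 380) (nat_lit 798601266) (nat_lit 134) (nat_lit 1) (nat_lit 133) (nat_lit 1) (nat_lit 138) (nat_lit 1) (nat_lit 356) (nat_lit 366) (nat_lit 298)))))) (XT.nd (nat_lit 312) (nat_lit 1444) (nat_lit 0) (XT.nd (nat_lit 156) (nat_lit 608) (nat_lit 0) (XT.nd (nat_lit 78) (nat_lit 304) (nat_lit 0) (XT.lf (nat_lit 76) (nat_lit 1001049453)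 (nat_lit 0) (nat_lit 1643243172) (nat_lit 380) (nat_lit 1021925223) (nat_lit 130) (nat_lit 1) (nat_lit 129) (nat_lit 1) (nat_lit 134) (nat_lit 1) (nat_lit 357) (nat_lit 366) (nat_lit 297)) (XT.lf (nat_lit 380) (nat_lit 604437176) (nat_lit 0) (nat_lit 2395285225) (nat_lit 304) (nat_lit 626521988) (nat_lit 130) (nat_lit 1) (nat_lit 125) (nat_lit 1) (nat_lit 129) (nat_lit 1) (nat_lit 358) (nat_lit 366) (nat_lit 296))) (XT.nd (nat_lit 78) (nat_lit 304) (nat_lit 0) (XT.lf (nat_lit 76) (nat_lit 1360800649) (nat_lit 0) (nat_lit 792209795) (nat_lit 304) (nat_lit 1433733187) (nat_lit 122) (nat_lit 1) (nat_lit 121) (nat_lit 1) (nat_lit 125) (nat_lit 1) (nat_lit 359) (nat_lit 366) (nat_lit 295)) (XT.lf (nat_lit 380) (nat_lit 1382996382) (nat_lit 0) (nat_lit 1923479318) (nat_lit 304) (nat_lit 241354431) (nat_lit 122) (nat_lit 1) (nat_lit 117) (nat_lit 1) (nat_lit 121) (nat_lit 1) (nat_lit 360) (nat_lit 366)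 (nat_lit 294)))) (XT.nd (nat_lit 156) (nat_lit 836) (nat_lit 0) (XT.nd (nat_lit 78) (nat_lit 304) (nat_lit 0) (XT.lf (nat_lit 76) (nat_lit 1683725496) (nat_lit 0) (nat_lit 19017417) (nat_lit 304) (nat_lit 1806680267) (nat_lit 114) (nat_lit 1) (nat_lit 113) (nat_lit 1) (nat_lit 117) (nat_lit 1) (nat_lit 361) (nat_lit 366) (nat_lit 293)) (XT.lf (nat_lit 76) (nat_lit 105575007) (nat_lit 0) (nat_lit 1384927784) (nat_lit 380) (nat_lit 1981010896) (nat_lit 110) (nat_lit 1) (nat_lit 109) (nat_lit 1) (nat_lit 114) (nat_lit 1) (nat_lit 362) (nat_lit 366) (nat_lit 292))) (XT.nd (nat_lit 78) (nat_lit 608) (nat_lit 0) (XT.lf (nat_lit 304) (nat_lit 691551853) (nat_lit 0) (nat_lit 1285762546) (nat_lit 228) (nat_lit 1456764500) (nat_lit 110) (nat_lit 1) (nat_lit 106) (nat_lit 1) (nat_lit 109) (nat_lit 1) (nat_lit 363) (nat_lit 366) (nat_lit 291)) (XT.nd (nat_lit 78) (nat_lit 228) (nat_lit 0) (XT.lf (nat_lit 76)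 (nat_lit 415911663) (nat_lit 0) (nat_lit 676742518) (nat_lit 380) (nat_lit 2304542474) (nat_lit 102) (nat_lit 1) (nat_lit 101) (nat_lit 1) (nat_lit 106) (nat_lit 1) (nat_lit 364) (nat_lit 366) (nat_lit 290)) (XT.lf (nat_lit 304) (nat_lit 1335480760) (nat_lit 0) (nat_lit 904055689) (nat_lit 228) (nat_lit 1121187711) (nat_lit 102) (nat_lit 1) (nat_lit 98) (nat_lit 1) (nat_lit 101) (nat_lit 1) (nat_lit 365) (nat_lit 366) (nat_lit 289))))))) (XT.nd (nat_lit 702) (nat_lit 1596) (nat_lit 0) (XT.nd (nat_lit 312) (nat_lit 988) (nat_lit 0) (XT.nd (nat_lit 156) (nat_lit 532) (nat_lit 0) (XT.nd (nat_lit 78) (nat_lit 228) (nat_lit 0) (XT.lf (nat_lit 76) (nat_lit 695519994) (nat_lit 0) (nat_lit 33188235) (nat_lit 304) (nat_lit 2596121458) (nat_lit 95) (nat_lit 1) (nat_lit 94) (nat_lit 1) (nat_lit 98) (nat_lit 1) (nat_lit 366) (nat_lit 366) (nat_lit 288)) (XT.lf (nat_lit 304) (nat_lit 1917828290) (nat_lit 0) (nat_lit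 555026646) (nat_lit 228) (nat_lit 816428052) (nat_lit 95) (nat_lit 1) (nat_lit 91) (nat_lit 1) (nat_lit 94) (nat_lit 1) (nat_lit 367) (nat_lit 366) (nat_lit 287))) (XT.nd (nat_lit 78) (nat_lit 304) (nat_lit 0) (XT.lf (nat_lit 304) (nat_lit 558155417) (nat_lit 0) (nat_lit 392359188) (nat_lit 228) (nat_lit 2303749698) (nat_lit 92) (nat_lit 1) (nat_lit 88) (nat_lit 1) (nat_lit 91) (nat_lit 1) (nat_lit 368) (nat_lit 366) (nat_lit 286)) (XT.lf (nat_lit 304) (nat_lit 2443498816) (nat_lit 0) (nat_lit 236158779) (nat_lit 228) (nat_lit 540023848) (nat_lit 88) (nat_lit 1) (nat_lit 84) (nat_lit 1) (nat_lit 87) (nat_lit 1) (nat_lit 369) (nat_lit 366) (nat_lit 285)))) (XT.nd (nat_lit 156) (nat_lit 684) (nat_lit 0) (XT.nd (nat_lit 78) (nat_lit 76) (nat_lit 0) (XT.lf (nat_lit 304) (nat_lit 1094390174) (nat_lit 0) (nat_lit 85037301) (nat_lit 228) (nat_lit 2006076716) (nat_lit 85) (nat_lit 1) (nat_lit 81) (nat_lit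 1) (nat_lit 84) (nat_lit 1) (nat_lit 370) (nat_lit 366) (nat_lit 284)) (XT.lf (nat_lit 76) (nat_lit 2862503087) (nat_lit 0) (nat_lit 235185727) (nat_lit 304) (nat_lit 54153865) (nat_lit 81) (nat_lit 1) (nat_lit 80) (nat_lit 1) (nat_lit 84) (nat_lit 1) (nat_lit 371) (nat_lit 366) (nat_lit 283))) (XT.nd (nat_lit 78) (nat_lit 456) (nat_lit 0) (XT.lf (nat_lit 76) (nat_lit 1385457263) (nat_lit 0) (nat_lit 1540272034) (nat_lit 304) (nat_lit 192730912) (nat_lit 78) (nat_lit 1) (nat_lit 77) (nat_lit 1) (nat_lit 81) (nat_lit 1) (nat_lit 372) (nat_lit 366) (nat_lit 282)) (XT.nd (nat_lit 78) (nat_lit 228) (nat_lit 0) (XT.lf (nat_lit 304) (nat_lit 258157622) (nat_lit 0) (nat_lit 2767951356) (nat_lit 228) (nat_lit 59538196) (nat_lit 78) (nat_lit 1) (nat_lit 74) (nat_lit 1) (nat_lit 77) (nat_lit 1) (nat_lit 373) (nat_lit 366) (nat_lit 281)) (XT.lf (nat_lit 76) (nat_lit 1569709024) (nat_lit 0) (nat_lit 1038572334)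 (nat_lit 228) (nat_lit 444804219) (nat_lit 72) (nat_lit 1) (nat_lit 71) (nat_lit 1) (nat_lit 74) (nat_lit 1) (nat_lit 374) (nat_lit 366) (nat_lit 280)))))) (XT.nd (nat_lit 390) (nat_lit 456) (nat_lit 0) (XT.nd (nat_lit 156) (nat_lit 684) (nat_lit 0) (XT.nd (nat_lit 78) (nat_lit 228) (nat_lit 0) (XT.lf (nat_lit 76) (nat_lit 147368860) (nat_lit 0) (nat_lit 2313618572) (nat_lit 304) (nat_lit 560064953) (nat_lit 69) (nat_lit 1) (nat_lit 68) (nat_lit 1) (nat_lit 72) (nat_lit 1) (nat_lit 375) (nat_lit 366) (nat_lit 279)) (XT.lf (nat_lit 76) (nat_lit 1733472052) (nat_lit 0) (nat_lit 581657932) (nat_lit 228) (nat_lit 674200337) (nat_lit 66) (nat_lit 1) (nat_lit 65) (nat_lit 1) (nat_lit 68) (nat_lit 1) (nat_lit 376) (nat_lit 366) (nat_lit 278))) (XT.nd (nat_lit 78) (nat_lit 456) (nat_lit 0) (XT.lf (nat_lit 76) (nat_lit 333074471) (nat_lit 0) (nat_lit 1844138141) (nat_lit 304) (nat_lit 780831548) (nat_lit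 63) (nat_lit 1) (nat_lit 62) (nat_lit 1) (nat_lit 66) (nat_lit 1) (nat_lit 377) (nat_lit 366) (nat_lit 277)) (XT.nd (nat_lit 78) (nat_lit 228) (nat_lit 0) (XT.lf (nat_lit 76) (nat_lit 1878444823) (nat_lit 0) (nat_lit 166014686) (nat_lit 228) (nat_lit 882677244) (nat_lit 60) (nat_lit 1) (nat_lit 59) (nat_lit 1) (nat_lit 62) (nat_lit 1) (nat_lit 378) (nat_lit 366) (nat_lit 276)) (XT.lf (nat_lit 76) (nat_lit 500018756) (nat_lit 0) (nat_lit 1415239545) (nat_lit 304) (nat_lit 981315490) (nat_lit 57) (nat_lit 1) (nat_lit 56) (nat_lit 1) (nat_lit 60) (nat_lit 1) (nat_lit 379) (nat_lit 366) (nat_lit 275))))) (XT.nd (nat_lit 45786) (nat_lit 0) (nat_lit 33972) (XT.nd (nat_lit 78) (nat_lit 304) (nat_lit 0) (XT.lf (nat_lit 228) (nat_lit 214415005) (nat_lit 0) (nat_lit 1793170913) (nat_lit 152) (nat_lit 858836529) (nat_lit 57) (nat_lit 1) (nat_lit 54) (nat_lit 1) (nat_lit 56) (nat_lit 1) (nat_lit 380) (nat_lit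 366) (nat_lit 274)) (XT.lf (nat_lit 76) (nat_lit 649732607) (nat_lit 0) (nat_lit 1023761643) (nat_lit 304) (nat_lit 1163093614) (nat_lit 51) (nat_lit 1) (nat_lit 50) (nat_lit 1) (nat_lit 54) (nat_lit 1) (nat_lit 381) (nat_lit 366) (nat_lit 273))) (XT.nd (nat_lit 78) (nat_lit 0) (nat_lit 76) (XT.lf (nat_lit 1900) (nat_lit 1498271168) (nat_lit 0) (nat_lit 1510800200) (nat_lit 1900) (nat_lit 1498271168) (nat_lit 522) (nat_lit 1) (nat_lit 497) (nat_lit 0) (nat_lit 522) (nat_lit 0) (nat_lit 286) (nat_lit 367) (nat_lit 367)) (XT.nd (nat_lit 78) (nat_lit 0) (nat_lit 0) (XT.lf (nat_lit 1900) (nat_lit 692552312) (nat_lit 0) (nat_lit 3006197688) (nat_lit 1824) (nat_lit 5184081228) (nat_lit 523) (nat_lit 1) (nat_lit 498) (nat_lit 1) (nat_lit 522) (nat_lit 1) (nat_lit 287) (nat_lit 367) (nat_lit 366)) (XT.lf (nat_lit 1900) (nat_lit 5695529740) (nat_lit 76) (nat_lit 1464404903) (nat_lit 0) (nat_lit 1593548938)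 (nat_lit 523) (nat_lit 1) (nat_lit 499) (nat_lit 1) (nat_lit 498) (nat_lit 1) (nat_lit 288) (nat_lit 367) (nat_lit 365))))))))
noncomputable def ec68 : XT := (XT.nd (nat_lit 1404) (nat_lit 11932) (nat_lit 0) (XT.nd (nat_lit 702) (nat_lit 4104) (nat_lit 0) (XT.nd (nat_lit 312) (nat_lit 0) (nat_lit 228) (XT.nd (nat_lit 156) (nat_lit 0) (nat_lit 152) (XT.nd (nat_lit 78) (nat_lit 0) (nat_lit 76) (XT.lf (nat_lit 1900) (nat_lit 4781277287) (nat_lit 0) (nat_lit 3172770731) (nat_lit 1824) (nat_lit 672563960) (nat_lit 524) (nat_lit 1) (nat_lit 499) (nat_lit 1) (nat_lit 523) (nat_lit 1) (nat_lit 289) (nat_lit 367) (nat_lit 364)) (XT.lf (nat_lit 1900) (nat_lit 2452832807) (nat_lit 0) (nat_lit 3348196522) (nat_lit 1824) (nat_lit 2701127274) (nat_lit 525) (nat_lit 1) (nat_lit 500) (nat_lit 1) (nat_lit 524) (nat_lit 1) (nat_lit 290) (nat_lit 367) (nat_lit 363))) (XT.nd (nat_lit 78) (nat_lit 0) (nat_lit 0) (XT.lf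 (nat_lit 1900) (nat_lit 164732190) (nat_lit 0) (nat_lit 3572431531) (nat_lit 1824) (nat_lit 4643084046) (nat_lit 526) (nat_lit 1) (nat_lit 501) (nat_lit 1) (nat_lit 525) (nat_lit 1) (nat_lit 291) (nat_lit 367) (nat_lit 362)) (XT.lf (nat_lit 1900) (nat_lit 4403582583) (nat_lit 76) (nat_lit 1745889232) (nat_lit 0) (nat_lit 2111081160) (nat_lit 526) (nat_lit 1) (nat_lit 502) (nat_lit 1) (nat_lit 501) (nat_lit 1) (nat_lit 292) (nat_lit 367) (nat_lit 361)))) (XT.nd (nat_lit 156) (nat_lit 0) (nat_lit 76) (XT.nd (nat_lit 78) (nat_lit 0) (nat_lit 76) (XT.lf (nat_lit 1900) (nat_lit 3795365818) (nat_lit 0) (nat_lit 4187848124) (nat_lit 1824) (nat_lit 160037968) (nat_lit 527) (nat_lit 1) (nat_lit 502) (nat_lit 1) (nat_lit 526) (nat_lit 1) (nat_lit 293) (nat_lit 367) (nat_lit 360)) (XT.lf (nat_lit 1900) (nat_lit 1494179104) (nat_lit 0) (nat_lit 4571674733) (nat_lit 1824) (nat_lit 1962261822) (nat_lit 528) (nat_lit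 1) (nat_lit 503) (nat_lit 1) (nat_lit 527) (nat_lit 1) (nat_lit 294) (nat_lit 367) (nat_lit 359))) (XT.nd (nat_lit 78) (nat_lit 0) (nat_lit 76) (XT.lf (nat_lit 1900) (nat_lit 2915031624) (nat_lit 76) (nat_lit 4224147959) (nat_lit 0) (nat_lit 776036067) (nat_lit 528) (nat_lit 1) (nat_lit 504) (nat_lit 1) (nat_lit 503) (nat_lit 1) (nat_lit 295) (nat_lit 367) (nat_lit 358)) (XT.nd (nat_lit 78) (nat_lit 0) (nat_lit 76) (XT.lf (nat_lit 1900) (nat_lit 2328407998) (nat_lit 76) (nat_lit 2451143088) (nat_lit 0) (nat_lit 3024857149) (nat_lit 529) (nat_lit 1) (nat_lit 505) (nat_lit 1) (nat_lit 504) (nat_lit 1) (nat_lit 296) (nat_lit 367) (nat_lit 357)) (XT.lf (nat_lit 1900) (nat_lit 1708373969) (nat_lit 76) (nat_lit 754586943) (nat_lit 0) (nat_lit 5232877181) (nat_lit 530) (nat_lit 1) (nat_lit 506) (nat_lit 1) (nat_lit 505) (nat_lit 1) (nat_lit 297) (nat_lit 367) (nat_lit 356)))))) (XT.nd (nat_lit 312) (nat_lit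 2812) (nat_lit 0) (XT.nd (nat_lit 156) (nat_lit 1824) (nat_lit 0) (XT.nd (nat_lit 78) (nat_lit 0) (nat_lit 0) (XT.lf (nat_lit 1900) (nat_lit 194538363) (nat_lit 0) (nat_lit 6538445834) (nat_lit 1824) (nat_lit 856357692) (nat_lit 531) (nat_lit 1) (nat_lit 506) (nat_lit 1) (nat_lit 530) (nat_lit 1) (nat_lit 298) (nat_lit 367) (nat_lit 355)) (XT.lf (nat_lit 1900) (nat_lit 345246964) (nat_lit 76) (nat_lit 5085010954) (nat_lit 0) (nat_lit 2054369581) (nat_lit 531) (nat_lit 1) (nat_lit 507) (nat_lit 1) (nat_lit 506) (nat_lit 1) (nat_lit 299) (nat_lit 367) (nat_lit 354))) (XT.nd (nat_lit 78) (nat_lit 0) (nat_lit 76) (XT.lf (nat_lit 1976) (nat_lit 3120265713) (nat_lit 0) (nat_lit 384316200) (nat_lit 1900) (nat_lit 3877358515) (nat_lit 508) (nat_lit 1) (nat_lit 482) (nat_lit 1) (nat_lit 507) (nat_lit 1) (nat_lit 300) (nat_lit 367) (nat_lit 353)) (XT.lf (nat_lit 1976) (nat_lit 855846655) (nat_lit 0) (nat_lit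 1135207437) (nat_lit 1900) (nat_lit 5290207152) (nat_lit 509) (nat_lit 1) (nat_lit 483) (nat_lit 1) (nat_lit 508) (nat_lit 1) (nat_lit 301) (nat_lit 367) (nat_lit 352)))) (XT.nd (nat_lit 156) (nat_lit 2888) (nat_lit 0) (XT.nd (nat_lit 78) (nat_lit 0) (nat_lit 76) (XT.lf (nat_lit 1976) (nat_lit 5262910194) (nat_lit 76) (nat_lit 535546216) (nat_lit 0) (nat_lit 1383952641) (nat_lit 509) (nat_lit 1) (nat_lit 484) (nat_lit 1) (nat_lit 483) (nat_lit 1) (nat_lit 302) (nat_lit 367) (nat_lit 351)) (XT.lf (nat_lit 76) (nat_lit 3498641597) (nat_lit 0) (nat_lit 2737754502) (nat_lit 1900) (nat_lit 848903793) (nat_lit 485) (nat_lit 1) (nat_lit 484) (nat_lit 1) (nat_lit 509) (nat_lit 1) (nat_lit 303) (nat_lit 367) (nat_lit 350))) (XT.nd (nat_lit 78) (nat_lit 1824) (nat_lit 0) (XT.lf (nat_lit 76) (nat_lit 1246017629) (nat_lit 0) (nat_lit 3580489943) (nat_lit 1216) (nat_lit 2163545333) (nat_lit 470) (nat_lit 1) (nat_lit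 469) (nat_lit 1) (nat_lit 485) (nat_lit 1) (nat_lit 304) (nat_lit 367) (nat_lit 349)) (XT.nd (nat_lit 78) (nat_lit 912) (nat_lit 0) (XT.lf (nat_lit 988) (nat_lit 2447272228) (nat_lit 0) (nat_lit 3473001358) (nat_lit 912) (nat_lit 976294201) (nat_lit 470) (nat_lit 1) (nat_lit 457) (nat_lit 1) (nat_lit 469) (nat_lit 1) (nat_lit 305) (nat_lit 367) (nat_lit 348)) (XT.lf (nat_lit 988) (nat_lit 1460244022) (nat_lit 0) (nat_lit 2172448120) (nat_lit 912) (nat_lit 3172078778) (nat_lit 458) (nat_lit 1) (nat_lit 445) (nat_lit 1) (nat_lit 457) (nat_lit 1) (nat_lit 306) (nat_lit 367) (nat_lit 347))))))) (XT.nd (nat_lit 702) (nat_lit 6080) (nat_lit 0) (XT.nd (nat_lit 312) (nat_lit 3192) (nat_lit 0) (XT.nd (nat_lit 156) (nat_lit 1748) (nat_lit 0) (XT.nd (nat_lit 78) (nat_lit 76) (nat_lit 0) (XT.lf (nat_lit 912) (nat_lit 457971996) (nat_lit 0) (nat_lit 931435034) (nat_lit 836) (nat_lit 5325378127) (nat_lit 446)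 (nat_lit 1) (nat_lit 434) (nat_lit 1) (nat_lit 445) (nat_lit 1) (nat_lit 307) (nat_lit 367) (nat_lit 346)) (XT.lf (nat_lit 76) (nat_lit 5810771898) (nat_lit 0) (nat_lit 558131399) (nat_lit 912) (nat_lit 257454563) (nat_lit 434) (nat_lit 1) (nat_lit 433) (nat_lit 1) (nat_lit 445) (nat_lit 1) (nat_lit 308) (nat_lit 367) (nat_lit 345))) (XT.nd (nat_lit 78) (nat_lit 836) (nat_lit 0) (XT.lf (nat_lit 76) (nat_lit 3552836880) (nat_lit 0) (nat_lit 1595764969) (nat_lit 988) (nat_lit 1390707392) (nat_lit 422) (nat_lit 1) (nat_lit 421) (nat_lit 1) (nat_lit 434) (nat_lit 1) (nat_lit 309) (nat_lit 367) (nat_lit 344)) (XT.lf (nat_lit 76) (nat_lit 1339279572) (nat_lit 0) (nat_lit 2644708726) (nat_lit 912) (nat_lit 2469977069) (nat_lit 411) (nat_lit 1) (nat_lit 410) (nat_lit 1) (nat_lit 422) (nat_lit 1) (nat_lit 310) (nat_lit 367) (nat_lit 343)))) (XT.nd (nat_lit 156) (nat_lit 1596) (nat_lit 0) (XT.nd (nat_lit 78)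 (nat_lit 760) (nat_lit 0) (XT.lf (nat_lit 912) (nat_lit 2660691448) (nat_lit 0) (nat_lit 2867881902) (nat_lit 836) (nat_lit 841606141) (nat_lit 411) (nat_lit 1) (nat_lit 399) (nat_lit 1) (nat_lit 410) (nat_lit 1) (nat_lit 311) (nat_lit 367) (nat_lit 342)) (XT.lf (nat_lit 836) (nat_lit 1495588851) (nat_lit 0) (nat_lit 1795593150) (nat_lit 760) (nat_lit 2996671770) (nat_lit 400) (nat_lit 1) (nat_lit 389) (nat_lit 1) (nat_lit 399) (nat_lit 1) (nat_lit 312) (nat_lit 367) (nat_lit 341))) (XT.nd (nat_lit 78) (nat_lit 836) (nat_lit 0) (XT.lf (nat_lit 836) (nat_lit 323761544) (nat_lit 0) (nat_lit 774581675) (nat_lit 760) (nat_lit 5108785416) (nat_lit 390) (nat_lit 1) (nat_lit 379) (nat_lit 1) (nat_lit 389) (nat_lit 1) (nat_lit 313) (nat_lit 367) (nat_lit 340)) (XT.nd (nat_lit 78) (nat_lit 760) (nat_lit 0) (XT.lf (nat_lit 76) (nat_lit 5070096924) (nat_lit 0) (nat_lit 851033220) (nat_lit 836) (nat_lit 206563418)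 (nat_lit 379) (nat_lit 1) (nat_lit 378) (nat_lit 1) (nat_lit 389) (nat_lit 1) (nat_lit 314) (nat_lit 367) (nat_lit 339)) (XT.lf (nat_lit 76) (nat_lit 2872156395) (nat_lit 0) (nat_lit 2038391584) (nat_lit 836) (nat_lit 1138965266) (nat_lit 369) (nat_lit 1) (nat_lit 368) (nat_lit 1) (nat_lit 379) (nat_lit 1) (nat_lit 315) (nat_lit 367) (nat_lit 338)))))) (XT.nd (nat_lit 390) (nat_lit 2508) (nat_lit 0) (XT.nd (nat_lit 156) (nat_lit 2128) (nat_lit 0) (XT.nd (nat_lit 78) (nat_lit 684) (nat_lit 0) (XT.lf (nat_lit 76) (nat_lit 718491569) (nat_lit 0) (nat_lit 3229552987) (nat_lit 836) (nat_lit 2024797742) (nat_lit 359) (nat_lit 1) (nat_lit 358) (nat_lit 1) (nat_lit 369) (nat_lit 1) (nat_lit 316) (nat_lit 367) (nat_lit 337)) (XT.lf (nat_lit 760) (nat_lit 1464466143) (nat_lit 0) (nat_lit 3022894422) (nat_lit 684) (nat_lit 1410104354) (nat_lit 359) (nat_lit 1) (nat_lit 349) (nat_lit 1) (nat_lit 358) (nat_lit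 1) (nat_lit 317) (nat_lit 367) (nat_lit 336))) (XT.nd (nat_lit 78) (nat_lit 1444) (nat_lit 0) (XT.lf (nat_lit 760) (nat_lit 180069954) (nat_lit 0) (nat_lit 2138551591) (nat_lit 684) (nat_lit 3504821838) (nat_lit 350) (nat_lit 1) (nat_lit 340) (nat_lit 1) (nat_lit 349) (nat_lit 1) (nat_lit 318) (nat_lit 367) (nat_lit 335)) (XT.nd (nat_lit 78) (nat_lit 684) (nat_lit 0) (XT.lf (nat_lit 76) (nat_lit 201192570) (nat_lit 0) (nat_lit 1090010672) (nat_lit 760) (nat_lit 4459494292) (nat_lit 331) (nat_lit 1) (nat_lit 330) (nat_lit 1) (nat_lit 340) (nat_lit 1) (nat_lit 319) (nat_lit 367) (nat_lit 334)) (XT.lf (nat_lit 760) (nat_lit 3309407664) (nat_lit 0) (nat_lit 473129036) (nat_lit 684) (nat_lit 1896533952) (nat_lit 331) (nat_lit 1) (nat_lit 321) (nat_lit 1) (nat_lit 330) (nat_lit 1) (nat_lit 320) (nat_lit 367) (nat_lit 333))))) (XT.nd (nat_lit 156) (nat_lit 1900) (nat_lit 0) (XT.nd (nat_lit 78) (nat_lit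 608) (nat_lit 0) (XT.lf (nat_lit 76) (nat_lit 1657072165) (nat_lit 0) (nat_lit 3651429920) (nat_lit 760) (nat_lit 300240184) (nat_lit 322) (nat_lit 1) (nat_lit 321) (nat_lit 1) (nat_lit 331) (nat_lit 1) (nat_lit 321) (nat_lit 367) (nat_lit 332)) (XT.lf (nat_lit 684) (nat_lit 602538430) (nat_lit 0) (nat_lit 4509768253) (nat_lit 608) (nat_lit 427330896) (nat_lit 322) (nat_lit 1) (nat_lit 313) (nat_lit 1) (nat_lit 321) (nat_lit 1) (nat_lit 322) (nat_lit 367) (nat_lit 331))) (XT.nd (nat_lit 78) (nat_lit 1216) (nat_lit 0) (XT.lf (nat_lit 76) (nat_lit 2986233526) (nat_lit 0) (nat_lit 749388820) (nat_lit 684) (nat_lit 1735911524) (nat_lit 305) (nat_lit 1) (nat_lit 304) (nat_lit 1) (nat_lit 313) (nat_lit 1) (nat_lit 323) (nat_lit 367) (nat_lit 330)) (XT.nd (nat_lit 78) (nat_lit 608) (nat_lit 0) (XT.lf (nat_lit 76) (nat_lit 908022184) (nat_lit 0) (nat_lit 2089055103) (nat_lit 684) (nat_lit 2407564760) (nat_lit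 297) (nat_lit 1) (nat_lit 296) (nat_lit 1) (nat_lit 305) (nat_lit 1) (nat_lit 324) (nat_lit 367) (nat_lit 329)) (XT.lf (nat_lit 684) (nat_lit 1907470789) (nat_lit 0) (nat_lit 2289419193) (nat_lit 608) (nat_lit 1141974710) (nat_lit 297) (nat_lit 1) (nat_lit 288) (nat_lit 1) (nat_lit 296) (nat_lit 1) (nat_lit 325) (nat_lit 367) (nat_lit 328))))))))
noncomputable def ec69 : XT := (XT.nd (nat_lit 1404) (nat_lit 6080) (nat_lit 0) (XT.nd (nat_lit 702) (nat_lit 3648) (nat_lit 0) (XT.nd (nat_lit 312) (nat_lit 2736) (nat_lit 0) (XT.nd (nat_lit 156) (nat_lit 532) (nat_lit 0) (XT.nd (nat_lit 78) (nat_lit 684) (nat_lit 0) (XT.lf (nat_lit 608) (nat_lit 499887968) (nat_lit 0) (nat_lit 1613290551) (nat_lit 532) (nat_lit 3161030942) (nat_lit 289) (nat_lit 1) (nat_lit 281) (nat_lit 1) (nat_lit 288) (nat_lit 1) (nat_lit 326) (nat_lit 367) (nat_lit 327)) (XT.lf (nat_lit 76) (nat_lit 78790945) (nat_lit 0) (nat_lit 888940655)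 (nat_lit 684) (nat_lit 4242921042) (nat_lit 273) (nat_lit 1) (nat_lit 272) (nat_lit 1) (nat_lit 281) (nat_lit 1) (nat_lit 327) (nat_lit 367) (nat_lit 326))) (XT.nd (nat_lit 78) (nat_lit 0) (nat_lit 0) (XT.lf (nat_lit 608) (nat_lit 2871335758) (nat_lit 0) (nat_lit 341570460) (nat_lit 532) (nat_lit 1935064118) (nat_lit 273) (nat_lit 1) (nat_lit 265) (nat_lit 1) (nat_lit 272) (nat_lit 1) (nat_lit 328) (nat_lit 367) (nat_lit 325)) (XT.lf (nat_lit 76) (nat_lit 1180576555) (nat_lit 0) (nat_lit 3658778111) (nat_lit 608) (nat_lit 247061706) (nat_lit 266) (nat_lit 1) (nat_lit 265) (nat_lit 1) (nat_lit 273) (nat_lit 1) (nat_lit 329) (nat_lit 367) (nat_lit 324)))) (XT.nd (nat_lit 156) (nat_lit 1596) (nat_lit 0) (XT.nd (nat_lit 78) (nat_lit 532) (nat_lit 0) (XT.lf (nat_lit 76) (nat_lit 4208340817) (nat_lit 0) (nat_lit 14227121) (nat_lit 608) (nat_lit 803293149) (nat_lit 258) (nat_lit 1) (nat_lit 257) (nat_lit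 1) (nat_lit 265) (nat_lit 1) (nat_lit 330) (nat_lit 367) (nat_lit 323)) (XT.lf (nat_lit 76) (nat_lit 2186673068) (nat_lit 0) (nat_lit 1435505424) (nat_lit 608) (nat_lit 1343919324) (nat_lit 251) (nat_lit 1) (nat_lit 250) (nat_lit 1) (nat_lit 258) (nat_lit 1) (nat_lit 331) (nat_lit 367) (nat_lit 322))) (XT.nd (nat_lit 78) (nat_lit 1064) (nat_lit 0) (XT.lf (nat_lit 76) (nat_lit 207730048) (nat_lit 0) (nat_lit 2846913903) (nat_lit 608) (nat_lit 1852800740) (nat_lit 244) (nat_lit 1) (nat_lit 243) (nat_lit 1) (nat_lit 251) (nat_lit 1) (nat_lit 332) (nat_lit 367) (nat_lit 321)) (XT.nd (nat_lit 78) (nat_lit 608) (nat_lit 0) (XT.lf (nat_lit 532) (nat_lit 589996741) (nat_lit 0) (nat_lit 2507413359) (nat_lit 456) (nat_lit 1752240990) (nat_lit 244) (nat_lit 1) (nat_lit 237) (nat_lit 1) (nat_lit 243) (nat_lit 1) (nat_lit 333) (nat_lit 367) (nat_lit 320)) (XT.lf (nat_lit 76) (nat_lit 1125318802) (nat_lit 0) (nat_lit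 858968118) (nat_lit 608) (nat_lit 2808500127) (nat_lit 230) (nat_lit 1) (nat_lit 229) (nat_lit 1) (nat_lit 237) (nat_lit 1) (nat_lit 334) (nat_lit 367) (nat_lit 319)))))) (XT.nd (nat_lit 312) (nat_lit 1748) (nat_lit 0) (XT.nd (nat_lit 156) (nat_lit 988) (nat_lit 0) (XT.nd (nat_lit 78) (nat_lit 456) (nat_lit 0) (XT.lf (nat_lit 532) (nat_lit 2442843460) (nat_lit 0) (nat_lit 1482314067) (nat_lit 456) (nat_lit 811632746) (nat_lit 230) (nat_lit 1) (nat_lit 223) (nat_lit 1) (nat_lit 229) (nat_lit 1) (nat_lit 335) (nat_lit 367) (nat_lit 318)) (XT.lf (nat_lit 532) (nat_lit 957248907) (nat_lit 0) (nat_lit 1002622300) (nat_lit 456) (nat_lit 2721807274) (nat_lit 224) (nat_lit 1) (nat_lit 217) (nat_lit 1) (nat_lit 223) (nat_lit 1) (nat_lit 336) (nat_lit 367) (nat_lit 317))) (XT.nd (nat_lit 78) (nat_lit 456) (nat_lit 0) (XT.lf (nat_lit 76) (nat_lit 39907303) (nat_lit 0) (nat_lit 508580722) (nat_lit 532) (nat_lit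 4079023540) (nat_lit 211) (nat_lit 1) (nat_lit 210) (nat_lit 1) (nat_lit 217) (nat_lit 1) (nat_lit 337) (nat_lit 367) (nat_lit 316)) (XT.lf (nat_lit 532) (nat_lit 2612957624) (nat_lit 0) (nat_lit 103932527) (nat_lit 456) (nat_lit 1857081756) (nat_lit 211) (nat_lit 1) (nat_lit 204) (nat_lit 1) (nat_lit 210) (nat_lit 1) (nat_lit 338) (nat_lit 367) (nat_lit 315)))) (XT.nd (nat_lit 156) (nat_lit 1292) (nat_lit 0) (XT.nd (nat_lit 78) (nat_lit 456) (nat_lit 0) (XT.lf (nat_lit 76) (nat_lit 809725285) (nat_lit 0) (nat_lit 3402525156) (nat_lit 532) (nat_lit 309113594) (nat_lit 205) (nat_lit 1) (nat_lit 204) (nat_lit 1) (nat_lit 211) (nat_lit 1) (nat_lit 339) (nat_lit 367) (nat_lit 314)) (XT.lf (nat_lit 76) (nat_lit 3402071883) (nat_lit 0) (nat_lit 363823041) (nat_lit 456) (nat_lit 703622178) (nat_lit 199) (nat_lit 1) (nat_lit 198) (nat_lit 1) (nat_lit 204) (nat_lit 1) (nat_lit 340) (nat_lit 367) (nat_lit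 313))) (XT.nd (nat_lit 78) (nat_lit 836) (nat_lit 0) (XT.lf (nat_lit 76) (nat_lit 1511017990) (nat_lit 0) (nat_lit 1822693143) (nat_lit 532) (nat_lit 1084655311) (nat_lit 193) (nat_lit 1) (nat_lit 192) (nat_lit 1) (nat_lit 199) (nat_lit 1) (nat_lit 341) (nat_lit 367) (nat_lit 312)) (XT.nd (nat_lit 78) (nat_lit 456) (nat_lit 0) (XT.lf (nat_lit 456) (nat_lit 1098781604) (nat_lit 0) (nat_lit 2925525229) (nat_lit 380) (nat_lit 343793835) (nat_lit 193) (nat_lit 1) (nat_lit 187) (nat_lit 1) (nat_lit 192) (nat_lit 1) (nat_lit 342) (nat_lit 367) (nat_lit 311)) (XT.lf (nat_lit 76) (nat_lit 2142929659) (nat_lit 0) (nat_lit 387456287) (nat_lit 456) (nat_lit 1788115073) (nat_lit 182) (nat_lit 1) (nat_lit 181) (nat_lit 1) (nat_lit 187) (nat_lit 1) (nat_lit 343) (nat_lit 367) (nat_lit 310))))))) (XT.nd (nat_lit 702) (nat_lit 3116) (nat_lit 0) (XT.nd (nat_lit 312) (nat_lit 1444) (nat_lit 0) (XT.nd (nat_lit 156)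 (nat_lit 760) (nat_lit 0) (XT.nd (nat_lit 78) (nat_lit 380) (nat_lit 0) (XT.lf (nat_lit 76) (nat_lit 309232785) (nat_lit 0) (nat_lit 1843884418) (nat_lit 456) (nat_lit 2116540898) (nat_lit 177) (nat_lit 1) (nat_lit 176) (nat_lit 1) (nat_lit 182) (nat_lit 1) (nat_lit 344) (nat_lit 367) (nat_lit 309)) (XT.lf (nat_lit 456) (nat_lit 926774164) (nat_lit 0) (nat_lit 1790308664) (nat_lit 380) (nat_lit 1504418272) (nat_lit 177) (nat_lit 1) (nat_lit 171) (nat_lit 1) (nat_lit 176) (nat_lit 1) (nat_lit 345) (nat_lit 367) (nat_lit 308))) (XT.nd (nat_lit 78) (nat_lit 380) (nat_lit 0) (XT.lf (nat_lit 76) (nat_lit 895153657) (nat_lit 0) (nat_lit 550556193) (nat_lit 380) (nat_lit 2728389780) (nat_lit 167) (nat_lit 1) (nat_lit 166) (nat_lit 1) (nat_lit 171) (nat_lit 1) (nat_lit 346) (nat_lit 367) (nat_lit 307)) (XT.lf (nat_lit 456) (nat_lit 2121920825) (nat_lit 0) (nat_lit 1112454711) (nat_lit 380) (nat_lit 892939656)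 (nat_lit 167) (nat_lit 1) (nat_lit 161) (nat_lit 1) (nat_lit 166) (nat_lit 1) (nat_lit 347) (nat_lit 367) (nat_lit 306)))) (XT.nd (nat_lit 156) (nat_lit 684) (nat_lit 0) (XT.nd (nat_lit 78) (nat_lit 456) (nat_lit 0) (XT.lf (nat_lit 380) (nat_lit 631441128) (nat_lit 0) (nat_lit 796171613) (nat_lit 304) (nat_lit 2653641575) (nat_lit 162) (nat_lit 1) (nat_lit 157) (nat_lit 1) (nat_lit 161) (nat_lit 1) (nat_lit 348) (nat_lit 367) (nat_lit 305)) (XT.lf (nat_lit 456) (nat_lit 3202712205) (nat_lit 0) (nat_lit 494383952) (nat_lit 380) (nat_lit 338768491) (nat_lit 157) (nat_lit 1) (nat_lit 151) (nat_lit 1) (nat_lit 156) (nat_lit 1) (nat_lit 349) (nat_lit 367) (nat_lit 304))) (XT.nd (nat_lit 78) (nat_lit 380) (nat_lit 0) (XT.lf (nat_lit 380) (nat_lit 1709154674) (nat_lit 0) (nat_lit 200900295) (nat_lit 304) (nat_lit 2080966060) (nat_lit 152) (nat_lit 1) (nat_lit 147) (nat_lit 1) (nat_lit 151) (nat_lit 1) (nat_lit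 350) (nat_lit 367) (nat_lit 303)) (XT.nd (nat_lit 78) (nat_lit 380) (nat_lit 0) (XT.lf (nat_lit 76) (nat_lit 162523122) (nat_lit 0) (nat_lit 3714195942) (nat_lit 380) (nat_lit 70248246) (nat_lit 148) (nat_lit 1) (nat_lit 147) (nat_lit 1) (nat_lit 152) (nat_lit 1) (nat_lit 351) (nat_lit 367) (nat_lit 302)) (XT.lf (nat_lit 76) (nat_lit 2345417971) (nat_lit 0) (nat_lit 1221433919) (nat_lit 380) (nat_lit 336457523) (nat_lit 143) (nat_lit 1) (nat_lit 142) (nat_lit 1) (nat_lit 147) (nat_lit 1) (nat_lit 352) (nat_lit 367) (nat_lit 301)))))) (XT.nd (nat_lit 390) (nat_lit 1520) (nat_lit 0) (XT.nd (nat_lit 156) (nat_lit 912) (nat_lit 0) (XT.nd (nat_lit 78) (nat_lit 380) (nat_lit 0) (XT.lf (nat_lit 76) (nat_lit 619256869) (nat_lit 0) (nat_lit 2656138543) (nat_lit 380) (nat_lit 584981973) (nat_lit 139) (nat_lit 1) (nat_lit 138) (nat_lit 1) (nat_lit 143) (nat_lit 1) (nat_lit 353) (nat_lit 367) (nat_lit 300))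 (XT.lf (nat_lit 76) (nat_lit 2736483243) (nat_lit 0) (nat_lit 258990310) (nat_lit 380) (nat_lit 822559304) (nat_lit 134) (nat_lit 1) (nat_lit 133) (nat_lit 1) (nat_lit 138) (nat_lit 1) (nat_lit 354) (nat_lit 367) (nat_lit 299))) (XT.nd (nat_lit 78) (nat_lit 608) (nat_lit 0) (XT.lf (nat_lit 76) (nat_lit 1031080936) (nat_lit 0) (nat_lit 1692540468) (nat_lit 380) (nat_lit 1052582980) (nat_lit 130) (nat_lit 1) (nat_lit 129) (nat_lit 1) (nat_lit 134) (nat_lit 1) (nat_lit 355) (nat_lit 367) (nat_lit 298)) (XT.nd (nat_lit 78) (nat_lit 304) (nat_lit 0) (XT.lf (nat_lit 380) (nat_lit 622570291) (nat_lit 0) (nat_lit 2467143782) (nat_lit 304) (nat_lit 645317648) (nat_lit 130) (nat_lit 1) (nat_lit 125) (nat_lit 1) (nat_lit 129) (nat_lit 1) (nat_lit 356) (nat_lit 367) (nat_lit 297)) (XT.lf (nat_lit 76) (nat_lit 1401624668) (nat_lit 0) (nat_lit 815976089) (nat_lit 304) (nat_lit 1476745183) (nat_lit 122) (nat_lit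 1) (nat_lit 121) (nat_lit 1) (nat_lit 125) (nat_lit 1) (nat_lit 357) (nat_lit 367) (nat_lit 296))))) (XT.nd (nat_lit 156) (nat_lit 912) (nat_lit 0) (XT.nd (nat_lit 78) (nat_lit 304) (nat_lit 0) (XT.lf (nat_lit 380) (nat_lit 1424486273) (nat_lit 0) (nat_lit 1981183697) (nat_lit 304) (nat_lit 248595064) (nat_lit 122) (nat_lit 1) (nat_lit 117) (nat_lit 1) (nat_lit 121) (nat_lit 1) (nat_lit 358) (nat_lit 367) (nat_lit 295)) (XT.lf (nat_lit 76) (nat_lit 1734237261) (nat_lit 0) (nat_lit 19587940) (nat_lit 304) (nat_lit 1860880675) (nat_lit 114) (nat_lit 1) (nat_lit 113) (nat_lit 1) (nat_lit 117) (nat_lit 1) (nat_lit 359) (nat_lit 367) (nat_lit 294))) (XT.nd (nat_lit 78) (nat_lit 608) (nat_lit 0) (XT.lf (nat_lit 76) (nat_lit 108742257) (nat_lit 0) (nat_lit 1426475617) (nat_lit 380) (nat_lit 2040441222) (nat_lit 110) (nat_lit 1) (nat_lit 109) (nat_lit 1) (nat_lit 114) (nat_lit 1) (nat_lit 360) (nat_lit 367)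 (nat_lit 293)) (XT.nd (nat_lit 78) (nat_lit 380) (nat_lit 0) (XT.lf (nat_lit 304) (nat_lit 712298408) (nat_lit 0) (nat_lit 1324335423) (nat_lit 228) (nat_lit 1500467435) (nat_lit 110) (nat_lit 1) (nat_lit 106) (nat_lit 1) (nat_lit 109) (nat_lit 1) (nat_lit 361) (nat_lit 367) (nat_lit 292)) (XT.lf (nat_lit 76) (nat_lit 428389013) (nat_lit 0) (nat_lit 697044794) (nat_lit 380) (nat_lit 2373678748) (nat_lit 102) (nat_lit 1) (nat_lit 101) (nat_lit 1) (nat_lit 106) (nat_lit 1) (nat_lit 362) (nat_lit 367) (nat_lit 291))))))))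
noncomputable def ec70 : XT := (XT.nd (nat_lit 46956) (nat_lit 0) (nat_lit 31996) (XT.nd (nat_lit 702) (nat_lit 1976) (nat_lit 0) (XT.nd (nat_lit 312) (nat_lit 1064) (nat_lit 0) (XT.nd (nat_lit 156) (nat_lit 456) (nat_lit 0) (XT.nd (nat_lit 78) (nat_lit 304) (nat_lit 0) (XT.lf (nat_lit 304) (nat_lit 1375545183) (nat_lit 0) (nat_lit 931177360) (nat_lit 228) (nat_lit 1154823342) (nat_lit 102) (nat_lit 1) (nat_lit 98) (nat_lit 1) (nat_lit 101) (nat_lit 1) (nat_lit 363) (nat_lit 367) (nat_lit 290)) (XT.lf (nat_lit 76) (nat_lit 716385594) (nat_lit 0) (nat_lit 34183882) (nat_lit 304) (nat_lit 2674005102) (nat_lit 95) (nat_lit 1) (nat_lit 94) (nat_lit 1) (nat_lit 98) (nat_lit 1) (nat_lit 364) (nat_lit 367) (nat_lit 289))) (XT.nd (nat_lit 78) (nat_lit 228) (nat_lit 0) (XT.lf (nat_lit 304) (nat_lit 1975363139) (nat_lit 0) (nat_lit 571677445) (nat_lit 228) (nat_lit 840920894) (nat_lit 95) (nat_lit 1) (nat_lit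 91) (nat_lit 1) (nat_lit 94) (nat_lit 1) (nat_lit 365) (nat_lit 367) (nat_lit 288)) (XT.lf (nat_lit 304) (nat_lit 574900079) (nat_lit 0) (nat_lit 404129964) (nat_lit 228) (nat_lit 2372862189) (nat_lit 92) (nat_lit 1) (nat_lit 88) (nat_lit 1) (nat_lit 91) (nat_lit 1) (nat_lit 366) (nat_lit 367) (nat_lit 287)))) (XT.nd (nat_lit 156) (nat_lit 532) (nat_lit 0) (XT.nd (nat_lit 78) (nat_lit 228) (nat_lit 0) (XT.lf (nat_lit 304) (nat_lit 2516803781) (nat_lit 0) (nat_lit 243243542) (nat_lit 228) (nat_lit 556224564) (nat_lit 88) (nat_lit 1) (nat_lit 84) (nat_lit 1) (nat_lit 87) (nat_lit 1) (nat_lit 367) (nat_lit 367) (nat_lit 286)) (XT.lf (nat_lit 304) (nat_lit 1127221879) (nat_lit 0) (nat_lit 87588420) (nat_lit 228) (nat_lit 2066259017) (nat_lit 85) (nat_lit 1) (nat_lit 81) (nat_lit 1) (nat_lit 84) (nat_lit 1) (nat_lit 368) (nat_lit 367) (nat_lit 285))) (XT.nd (nat_lit 78) (nat_lit 456) (nat_lit 0) (XT.lf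 (nat_lit 76) (nat_lit 2948378179) (nat_lit 0) (nat_lit 242241299) (nat_lit 304) (nat_lit 55778481) (nat_lit 81) (nat_lit 1) (nat_lit 80) (nat_lit 1) (nat_lit 84) (nat_lit 1) (nat_lit 369) (nat_lit 367) (nat_lit 284)) (XT.nd (nat_lit 78) (nat_lit 228) (nat_lit 0) (XT.lf (nat_lit 76) (nat_lit 1427020980) (nat_lit 0) (nat_lit 1586480195) (nat_lit 304) (nat_lit 198512839) (nat_lit 78) (nat_lit 1) (nat_lit 77) (nat_lit 1) (nat_lit 81) (nat_lit 1) (nat_lit 370) (nat_lit 367) (nat_lit 283)) (XT.lf (nat_lit 304) (nat_lit 265902350) (nat_lit 0) (nat_lit 2850989897) (nat_lit 228) (nat_lit 61324342) (nat_lit 78) (nat_lit 1) (nat_lit 74) (nat_lit 1) (nat_lit 77) (nat_lit 1) (nat_lit 371) (nat_lit 367) (nat_lit 282)))))) (XT.nd (nat_lit 312) (nat_lit 1064) (nat_lit 0) (XT.nd (nat_lit 156) (nat_lit 456) (nat_lit 0) (XT.nd (nat_lit 78) (nat_lit 228) (nat_lit 0) (XT.lf (nat_lit 76) (nat_lit 1616800295) (nat_lit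 0) (nat_lit 1069729504) (nat_lit 228) (nat_lit 458148346) (nat_lit 72) (nat_lit 1) (nat_lit 71) (nat_lit 1) (nat_lit 74) (nat_lit 1) (nat_lit 372) (nat_lit 367) (nat_lit 281)) (XT.lf (nat_lit 76) (nat_lit 151789925) (nat_lit 0) (nat_lit 2383027130) (nat_lit 304) (nat_lit 576866902) (nat_lit 69) (nat_lit 1) (nat_lit 68) (nat_lit 1) (nat_lit 72) (nat_lit 1) (nat_lit 373) (nat_lit 367) (nat_lit 280))) (XT.nd (nat_lit 78) (nat_lit 228) (nat_lit 0) (XT.lf (nat_lit 76) (nat_lit 1785476214) (nat_lit 0) (nat_lit 599107670) (nat_lit 228) (nat_lit 694426347) (nat_lit 66) (nat_lit 1) (nat_lit 65) (nat_lit 1) (nat_lit 68) (nat_lit 1) (nat_lit 374) (nat_lit 367) (nat_lit 279)) (XT.lf (nat_lit 76) (nat_lit 343066705) (nat_lit 0) (nat_lit 1899462285) (nat_lit 304) (nat_lit 804256495) (nat_lit 63) (nat_lit 1) (nat_lit 62) (nat_lit 1) (nat_lit 66) (nat_lit 1) (nat_lit 375) (nat_lit 367) (nat_lit 278)))) (XT.nd (nat_lit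 156) (nat_lit 608) (nat_lit 0) (XT.nd (nat_lit 78) (nat_lit 228) (nat_lit 0) (XT.lf (nat_lit 76) (nat_lit 1934798168) (nat_lit 0) (nat_lit 170995127) (nat_lit 228) (nat_lit 909157561) (nat_lit 60) (nat_lit 1) (nat_lit 59) (nat_lit 1) (nat_lit 62) (nat_lit 1) (nat_lit 376) (nat_lit 367) (nat_lit 277)) (XT.lf (nat_lit 76) (nat_lit 515019319) (nat_lit 0) (nat_lit 1457696731) (nat_lit 304) (nat_lit 1010754955) (nat_lit 57) (nat_lit 1) (nat_lit 56) (nat_lit 1) (nat_lit 60) (nat_lit 1) (nat_lit 377) (nat_lit 367) (nat_lit 276))) (XT.nd (nat_lit 78) (nat_lit 456) (nat_lit 0) (XT.lf (nat_lit 228) (nat_lit 220847455) (nat_lit 0) (nat_lit 1846966041) (nat_lit 152) (nat_lit 884601625) (nat_lit 57) (nat_lit 1) (nat_lit 54) (nat_lit 1) (nat_lit 56) (nat_lit 1) (nat_lit 378) (nat_lit 367) (nat_lit 275)) (XT.nd (nat_lit 78) (nat_lit 152) (nat_lit 0) (XT.lf (nat_lit 76) (nat_lit 669224585) (nat_lit 0) (nat_lit 1054474492)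 (nat_lit 304) (nat_lit 1197986423) (nat_lit 51) (nat_lit 1) (nat_lit 50) (nat_lit 1) (nat_lit 54) (nat_lit 1) (nat_lit 379) (nat_lit 367) (nat_lit 274)) (XT.lf (nat_lit 228) (nat_lit 578403805) (nat_lit 0) (nat_lit 1607059971) (nat_lit 152) (nat_lit 705896940) (nat_lit 51) (nat_lit 1) (nat_lit 48) (nat_lit 1) (nat_lit 50) (nat_lit 1) (nat_lit 380) (nat_lit 367) (nat_lit 273))))))) (XT.nd (nat_lit 702) (nat_lit 2128) (nat_lit 0) (XT.nd (nat_lit 312) (nat_lit 0) (nat_lit 228) (XT.nd (nat_lit 156) (nat_lit 0) (nat_lit 76) (XT.nd (nat_lit 78) (nat_lit 0) (nat_lit 76) (XT.lf (nat_lit 1900) (nat_lit 1543219303) (nat_lit 0) (nat_lit 1556124206) (nat_lit 1900) (nat_lit 1543219303) (nat_lit 522) (nat_lit 1) (nat_lit 497) (nat_lit 0) (nat_lit 522) (nat_lit 0) (nat_lit 284) (nat_lit 368) (nat_lit 368)) (XT.lf (nat_lit 1900) (nat_lit 713328882) (nat_lit 0) (nat_lit 3096383619) (nat_lit 1824) (nat_lit 5339603665)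 (nat_lit 523) (nat_lit 1) (nat_lit 498) (nat_lit 1) (nat_lit 522) (nat_lit 1) (nat_lit 285) (nat_lit 368) (nat_lit 367))) (XT.nd (nat_lit 78) (nat_lit 0) (nat_lit 76) (XT.lf (nat_lit 1900) (nat_lit 5866395633) (nat_lit 76) (nat_lit 1508337050) (nat_lit 0) (nat_lit 1641355406) (nat_lit 523) (nat_lit 1) (nat_lit 499) (nat_lit 1) (nat_lit 498) (nat_lit 1) (nat_lit 286) (nat_lit 368) (nat_lit 366)) (XT.lf (nat_lit 1900) (nat_lit 4924715606) (nat_lit 0) (nat_lit 3267953853) (nat_lit 1824) (nat_lit 692740879) (nat_lit 524) (nat_lit 1) (nat_lit 499) (nat_lit 1) (nat_lit 523) (nat_lit 1) (nat_lit 287) (nat_lit 368) (nat_lit 365)))) (XT.nd (nat_lit 156) (nat_lit 0) (nat_lit 76) (XT.nd (nat_lit 78) (nat_lit 0) (nat_lit 76) (XT.lf (nat_lit 1900) (nat_lit 2526417791) (nat_lit 0) (nat_lit 3448642417) (nat_lit 1824) (nat_lit 2782161092) (nat_lit 525) (nat_lit 1) (nat_lit 500) (nat_lit 1) (nat_lit 524) (nat_lit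 1) (nat_lit 288) (nat_lit 368) (nat_lit 364)) (XT.lf (nat_lit 1900) (nat_lit 169674156) (nat_lit 0) (nat_lit 3679604477) (nat_lit 1824) (nat_lit 4782376567) (nat_lit 526) (nat_lit 1) (nat_lit 501) (nat_lit 1) (nat_lit 525) (nat_lit 1) (nat_lit 289) (nat_lit 368) (nat_lit 363))) (XT.nd (nat_lit 78) (nat_lit 0) (nat_lit 76) (XT.lf (nat_lit 1900) (nat_lit 4535690060) (nat_lit 76) (nat_lit 1798265909) (nat_lit 0) (nat_lit 2174413595) (nat_lit 526) (nat_lit 1) (nat_lit 502) (nat_lit 1) (nat_lit 501) (nat_lit 1) (nat_lit 290) (nat_lit 368) (nat_lit 362)) (XT.nd (nat_lit 78) (nat_lit 0) (nat_lit 76) (XT.lf (nat_lit 1900) (nat_lit 3909226792) (nat_lit 0) (nat_lit 4313483568) (nat_lit 1824) (nat_lit 164839107) (nat_lit 527) (nat_lit 1) (nat_lit 502) (nat_lit 1) (nat_lit 526) (nat_lit 1) (nat_lit 291) (nat_lit 368) (nat_lit 361)) (XT.lf (nat_lit 1900) (nat_lit 1539004478) (nat_lit 0) (nat_lit 4708824975) (nat_lit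 1824) (nat_lit 2021129677) (nat_lit 528) (nat_lit 1) (nat_lit 503) (nat_lit 1) (nat_lit 527) (nat_lit 1) (nat_lit 292) (nat_lit 368) (nat_lit 360)))))) (XT.nd (nat_lit 390) (nat_lit 2584) (nat_lit 0) (XT.nd (nat_lit 156) (nat_lit 0) (nat_lit 152) (XT.nd (nat_lit 78) (nat_lit 0) (nat_lit 76) (XT.lf (nat_lit 1900) (nat_lit 3002482573) (nat_lit 76) (nat_lit 4350872398) (nat_lit 0) (nat_lit 799317149) (nat_lit 528) (nat_lit 1) (nat_lit 504) (nat_lit 1) (nat_lit 503) (nat_lit 1) (nat_lit 293) (nat_lit 368) (nat_lit 359)) (XT.lf (nat_lit 1900) (nat_lit 2398260238) (nat_lit 76) (nat_lit 2524677380) (nat_lit 0) (nat_lit 3115602864) (nat_lit 529) (nat_lit 1) (nat_lit 505) (nat_lit 1) (nat_lit 504) (nat_lit 1) (nat_lit 294) (nat_lit 368) (nat_lit 358))) (XT.nd (nat_lit 78) (nat_lit 0) (nat_lit 76) (XT.lf (nat_lit 1900) (nat_lit 1759625188) (nat_lit 76) (nat_lit 777224551) (nat_lit 0) (nat_lit 5389863496) (nat_lit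 530) (nat_lit 1) (nat_lit 506) (nat_lit 1) (nat_lit 505) (nat_lit 1) (nat_lit 295) (nat_lit 368) (nat_lit 357)) (XT.nd (nat_lit 78) (nat_lit 0) (nat_lit 0) (XT.lf (nat_lit 1900) (nat_lit 200374514) (nat_lit 0) (nat_lit 6734599209) (nat_lit 1824) (nat_lit 882048423) (nat_lit 531) (nat_lit 1) (nat_lit 506) (nat_lit 1) (nat_lit 530) (nat_lit 1) (nat_lit 296) (nat_lit 368) (nat_lit 356)) (XT.lf (nat_lit 1900) (nat_lit 355604373) (nat_lit 76) (nat_lit 5237561282) (nat_lit 0) (nat_lit 2116000668) (nat_lit 531) (nat_lit 1) (nat_lit 507) (nat_lit 1) (nat_lit 506) (nat_lit 1) (nat_lit 297) (nat_lit 368) (nat_lit 355))))) (XT.nd (nat_lit 156) (nat_lit 988) (nat_lit 0) (XT.nd (nat_lit 78) (nat_lit 0) (nat_lit 76) (XT.lf (nat_lit 1976) (nat_lit 3213873684) (nat_lit 0) (nat_lit 395845686) (nat_lit 1900) (nat_lit 3993679271) (nat_lit 508) (nat_lit 1) (nat_lit 482) (nat_lit 1) (nat_lit 507) (nat_lit 1) (nat_lit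 298) (nat_lit 368) (nat_lit 354)) (XT.lf (nat_lit 1976) (nat_lit 881522055) (nat_lit 0) (nat_lit 1169263661) (nat_lit 1900) (nat_lit 5448913367) (nat_lit 509) (nat_lit 1) (nat_lit 483) (nat_lit 1) (nat_lit 508) (nat_lit 1) (nat_lit 299) (nat_lit 368) (nat_lit 353))) (XT.nd (nat_lit 78) (nat_lit 1064) (nat_lit 0) (XT.lf (nat_lit 1976) (nat_lit 5420797499) (nat_lit 76) (nat_lit 551612603) (nat_lit 0) (nat_lit 1425471220) (nat_lit 509) (nat_lit 1) (nat_lit 484) (nat_lit 1) (nat_lit 483) (nat_lit 1) (nat_lit 300) (nat_lit 368) (nat_lit 352)) (XT.nd (nat_lit 78) (nat_lit 1140) (nat_lit 0) (XT.lf (nat_lit 76) (nat_lit 3603600845) (nat_lit 0) (nat_lit 2819887137) (nat_lit 1900) (nat_lit 874370907) (nat_lit 485) (nat_lit 1) (nat_lit 484) (nat_lit 1) (nat_lit 509) (nat_lit 1) (nat_lit 301) (nat_lit 368) (nat_lit 351)) (XT.lf (nat_lit 76) (nat_lit 1283398158) (nat_lit 0) (nat_lit 3687904642) (nat_lit 1216)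 (nat_lit 2228451693) (nat_lit 470) (nat_lit 1) (nat_lit 469) (nat_lit 1) (nat_lit 485) (nat_lit 1) (nat_lit 302) (nat_lit 368) (nat_lit 350))))))))
noncomputable def ec71 : XT := (XT.nd (nat_lit 1404) (nat_lit 9196) (nat_lit 0) (XT.nd (nat_lit 702) (nat_lit 5016) (nat_lit 0) (XT.nd (nat_lit 312) (nat_lit 4104) (nat_lit 0) (XT.nd (nat_lit 156) (nat_lit 912) (nat_lit 0) (XT.nd (nat_lit 78) (nat_lit 912) (nat_lit 0) (XT.lf (nat_lit 988) (nat_lit 2520690395) (nat_lit 0) (nat_lit 3577191399) (nat_lit 912) (nat_lit 1005583027) (nat_lit 470) (nat_lit 1) (nat_lit 457) (nat_lit 1) (nat_lit 469) (nat_lit 1) (nat_lit 303) (nat_lit 368) (nat_lit 349)) (XT.lf (nat_lit 988) (nat_lit 1504051343) (nat_lit 0) (nat_lit 2237621564) (nat_lit 912) (nat_lit 3267241141) (nat_lit 458) (nat_lit 1) (nat_lit 445) (nat_lit 1) (nat_lit 457) (nat_lit 1) (nat_lit 304) (nat_lit 368) (nat_lit 348))) (XT.nd (nat_lit 78) (nat_lit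 76) (nat_lit 0) (XT.lf (nat_lit 912) (nat_lit 471711156) (nat_lit 0) (nat_lit 959378085) (nat_lit 836) (nat_lit 5485139471) (nat_lit 446) (nat_lit 1) (nat_lit 434) (nat_lit 1) (nat_lit 445) (nat_lit 1) (nat_lit 305) (nat_lit 368) (nat_lit 347)) (XT.lf (nat_lit 76) (nat_lit 5985095055) (nat_lit 0) (nat_lit 574875341) (nat_lit 912) (nat_lit 265178200) (nat_lit 434) (nat_lit 1) (nat_lit 433) (nat_lit 1) (nat_lit 445) (nat_lit 1) (nat_lit 306) (nat_lit 368) (nat_lit 346)))) (XT.nd (nat_lit 156) (nat_lit 2356) (nat_lit 0) (XT.nd (nat_lit 78) (nat_lit 836) (nat_lit 0) (XT.lf (nat_lit 76) (nat_lit 3659421986) (nat_lit 0) (nat_lit 1643637918) (nat_lit 988) (nat_lit 1432428614) (nat_lit 422) (nat_lit 1) (nat_lit 421) (nat_lit 1) (nat_lit 434) (nat_lit 1) (nat_lit 307) (nat_lit 368) (nat_lit 345)) (XT.lf (nat_lit 76) (nat_lit 1379457959) (nat_lit 0) (nat_lit 2724049988) (nat_lit 912) (nat_lit 2544076381) (nat_lit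 411) (nat_lit 1) (nat_lit 410) (nat_lit 1) (nat_lit 422) (nat_lit 1) (nat_lit 308) (nat_lit 368) (nat_lit 344))) (XT.nd (nat_lit 78) (nat_lit 1520) (nat_lit 0) (XT.lf (nat_lit 912) (nat_lit 2740512192) (nat_lit 0) (nat_lit 2953918359) (nat_lit 836) (nat_lit 866854326) (nat_lit 411) (nat_lit 1) (nat_lit 399) (nat_lit 1) (nat_lit 410) (nat_lit 1) (nat_lit 309) (nat_lit 368) (nat_lit 343)) (XT.nd (nat_lit 78) (nat_lit 760) (nat_lit 0) (XT.lf (nat_lit 836) (nat_lit 1540456516) (nat_lit 0) (nat_lit 1849460944) (nat_lit 760) (nat_lit 3086571923) (nat_lit 400) (nat_lit 1) (nat_lit 389) (nat_lit 1) (nat_lit 399) (nat_lit 1) (nat_lit 310) (nat_lit 368) (nat_lit 342)) (XT.lf (nat_lit 836) (nat_lit 333474391) (nat_lit 0) (nat_lit 797819126) (nat_lit 760) (nat_lit 5262048979) (nat_lit 390) (nat_lit 1) (nat_lit 379) (nat_lit 1) (nat_lit 389) (nat_lit 1) (nat_lit 311) (nat_lit 368) (nat_lit 341)))))) (XT.nd (nat_lit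 312) (nat_lit 2736) (nat_lit 0) (XT.nd (nat_lit 156) (nat_lit 1444) (nat_lit 0) (XT.nd (nat_lit 78) (nat_lit 760) (nat_lit 0) (XT.lf (nat_lit 76) (nat_lit 5222199832) (nat_lit 0) (nat_lit 876564216) (nat_lit 836) (nat_lit 212760320) (nat_lit 379) (nat_lit 1) (nat_lit 378) (nat_lit 1) (nat_lit 389) (nat_lit 1) (nat_lit 312) (nat_lit 368) (nat_lit 340)) (XT.lf (nat_lit 76) (nat_lit 2958321086) (nat_lit 0) (nat_lit 2099543332) (nat_lit 836) (nat_lit 1173134224) (nat_lit 369) (nat_lit 1) (nat_lit 368) (nat_lit 1) (nat_lit 379) (nat_lit 1) (nat_lit 313) (nat_lit 368) (nat_lit 339))) (XT.nd (nat_lit 78) (nat_lit 684) (nat_lit 0) (XT.lf (nat_lit 76) (nat_lit 740046316) (nat_lit 0) (nat_lit 3326439577) (nat_lit 836) (nat_lit 2085541674) (nat_lit 359) (nat_lit 1) (nat_lit 358) (nat_lit 1) (nat_lit 369) (nat_lit 1) (nat_lit 314) (nat_lit 368) (nat_lit 338)) (XT.lf (nat_lit 760) (nat_lit 1508400127) (nat_lit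 0) (nat_lit 3113581255) (nat_lit 684) (nat_lit 1452407485) (nat_lit 359) (nat_lit 1) (nat_lit 349) (nat_lit 1) (nat_lit 358) (nat_lit 1) (nat_lit 315) (nat_lit 368) (nat_lit 337)))) (XT.nd (nat_lit 156) (nat_lit 1292) (nat_lit 0) (XT.nd (nat_lit 78) (nat_lit 760) (nat_lit 0) (XT.lf (nat_lit 760) (nat_lit 185472053) (nat_lit 0) (nat_lit 2202708138) (nat_lit 684) (nat_lit 3609966493) (nat_lit 350) (nat_lit 1) (nat_lit 340) (nat_lit 1) (nat_lit 349) (nat_lit 1) (nat_lit 316) (nat_lit 368) (nat_lit 336)) (XT.lf (nat_lit 76) (nat_lit 207228347) (nat_lit 0) (nat_lit 1122710992) (nat_lit 760) (nat_lit 4593279121) (nat_lit 331) (nat_lit 1) (nat_lit 330) (nat_lit 1) (nat_lit 340) (nat_lit 1) (nat_lit 317) (nat_lit 368) (nat_lit 335))) (XT.nd (nat_lit 78) (nat_lit 608) (nat_lit 0) (XT.lf (nat_lit 760) (nat_lit 3408689894) (nat_lit 0) (nat_lit 487322907) (nat_lit 684) (nat_lit 1953429970) (nat_lit 331) (nat_lit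 1) (nat_lit 321) (nat_lit 1) (nat_lit 330) (nat_lit 1) (nat_lit 318) (nat_lit 368) (nat_lit 334)) (XT.nd (nat_lit 78) (nat_lit 608) (nat_lit 0) (XT.lf (nat_lit 76) (nat_lit 1706784330) (nat_lit 0) (nat_lit 3760972817) (nat_lit 760) (nat_lit 309247389) (nat_lit 322) (nat_lit 1) (nat_lit 321) (nat_lit 1) (nat_lit 331) (nat_lit 1) (nat_lit 319) (nat_lit 368) (nat_lit 333)) (XT.lf (nat_lit 684) (nat_lit 620614582) (nat_lit 0) (nat_lit 4645061301) (nat_lit 608) (nat_lit 440150823) (nat_lit 322) (nat_lit 1) (nat_lit 313) (nat_lit 1) (nat_lit 321) (nat_lit 1) (nat_lit 320) (nat_lit 368) (nat_lit 332))))))) (XT.nd (nat_lit 702) (nat_lit 4408) (nat_lit 0) (XT.nd (nat_lit 312) (nat_lit 2356) (nat_lit 0) (XT.nd (nat_lit 156) (nat_lit 1140) (nat_lit 0) (XT.nd (nat_lit 78) (nat_lit 608) (nat_lit 0) (XT.lf (nat_lit 76) (nat_lit 3075820532) (nat_lit 0) (nat_lit 771870485) (nat_lit 684) (nat_lit 1787988870) (nat_lit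 305) (nat_lit 1) (nat_lit 304) (nat_lit 1) (nat_lit 313) (nat_lit 1) (nat_lit 321) (nat_lit 368) (nat_lit 331)) (XT.lf (nat_lit 76) (nat_lit 935262850) (nat_lit 0) (nat_lit 2151726756) (nat_lit 684) (nat_lit 2479791703) (nat_lit 297) (nat_lit 1) (nat_lit 296) (nat_lit 1) (nat_lit 305) (nat_lit 1) (nat_lit 322) (nat_lit 368) (nat_lit 330))) (XT.nd (nat_lit 78) (nat_lit 532) (nat_lit 0) (XT.lf (nat_lit 684) (nat_lit 1964694912) (nat_lit 0) (nat_lit 2358101769) (nat_lit 608) (nat_lit 1176233951) (nat_lit 297) (nat_lit 1) (nat_lit 288) (nat_lit 1) (nat_lit 296) (nat_lit 1) (nat_lit 323) (nat_lit 368) (nat_lit 329)) (XT.lf (nat_lit 608) (nat_lit 514884607) (nat_lit 0) (nat_lit 1661689267) (nat_lit 532) (nat_lit 3255861870) (nat_lit 289) (nat_lit 1) (nat_lit 281) (nat_lit 1) (nat_lit 288) (nat_lit 1) (nat_lit 324) (nat_lit 368) (nat_lit 328)))) (XT.nd (nat_lit 156) (nat_lit 1140) (nat_lit 0) (XT.nd (nat_lit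 78) (nat_lit 532) (nat_lit 0) (XT.lf (nat_lit 76) (nat_lit 81154674) (nat_lit 0) (nat_lit 915608875) (nat_lit 684) (nat_lit 4370208673) (nat_lit 273) (nat_lit 1) (nat_lit 272) (nat_lit 1) (nat_lit 281) (nat_lit 1) (nat_lit 325) (nat_lit 368) (nat_lit 327)) (XT.lf (nat_lit 608) (nat_lit 2957475831) (nat_lit 0) (nat_lit 351817574) (nat_lit 532) (nat_lit 1993116042) (nat_lit 273) (nat_lit 1) (nat_lit 265) (nat_lit 1) (nat_lit 272) (nat_lit 1) (nat_lit 326) (nat_lit 368) (nat_lit 326))) (XT.nd (nat_lit 78) (nat_lit 1140) (nat_lit 0) (XT.lf (nat_lit 76) (nat_lit 1215993852) (nat_lit 0) (nat_lit 3768541454) (nat_lit 608) (nat_lit 254473557) (nat_lit 266) (nat_lit 1) (nat_lit 265) (nat_lit 1) (nat_lit 273) (nat_lit 1) (nat_lit 327) (nat_lit 368) (nat_lit 325)) (XT.nd (nat_lit 78) (nat_lit 532) (nat_lit 0) (XT.lf (nat_lit 76) (nat_lit 4334591041) (nat_lit 0) (nat_lit 14653935) (nat_lit 608) (nat_lit 827391943)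 (nat_lit 258) (nat_lit 1) (nat_lit 257) (nat_lit 1) (nat_lit 265) (nat_lit 1) (nat_lit 328) (nat_lit 368) (nat_lit 324)) (XT.lf (nat_lit 76) (nat_lit 2252273260) (nat_lit 0) (nat_lit 1478570587) (nat_lit 608) (nat_lit 1384236904) (nat_lit 251) (nat_lit 1) (nat_lit 250) (nat_lit 1) (nat_lit 258) (nat_lit 1) (nat_lit 329) (nat_lit 368) (nat_lit 323)))))) (XT.nd (nat_lit 390) (nat_lit 1900) (nat_lit 0) (XT.nd (nat_lit 156) (nat_lit 1520) (nat_lit 0) (XT.nd (nat_lit 78) (nat_lit 456) (nat_lit 0) (XT.lf (nat_lit 76) (nat_lit 213961949) (nat_lit 0) (nat_lit 2932321320) (nat_lit 608) (nat_lit 1908384762) (nat_lit 244) (nat_lit 1) (nat_lit 243) (nat_lit 1) (nat_lit 251) (nat_lit 1) (nat_lit 330) (nat_lit 368) (nat_lit 322)) (XT.lf (nat_lit 532) (nat_lit 607696643) (nat_lit 0) (nat_lit 2582635760) (nat_lit 456) (nat_lit 1804808220) (nat_lit 244) (nat_lit 1) (nat_lit 237) (nat_lit 1) (nat_lit 243) (nat_lit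 1) (nat_lit 331) (nat_lit 368) (nat_lit 321))) (XT.nd (nat_lit 78) (nat_lit 912) (nat_lit 0) (XT.lf (nat_lit 76) (nat_lit 1159078366) (nat_lit 0) (nat_lit 884737162) (nat_lit 608) (nat_lit 2892755131) (nat_lit 230) (nat_lit 1) (nat_lit 229) (nat_lit 1) (nat_lit 237) (nat_lit 1) (nat_lit 332) (nat_lit 368) (nat_lit 320)) (XT.nd (nat_lit 78) (nat_lit 456) (nat_lit 0) (XT.lf (nat_lit 532) (nat_lit 2516128764) (nat_lit 0) (nat_lit 1526783489) (nat_lit 456) (nat_lit 835981728) (nat_lit 230) (nat_lit 1) (nat_lit 223) (nat_lit 1) (nat_lit 229) (nat_lit 1) (nat_lit 333) (nat_lit 368) (nat_lit 319)) (XT.lf (nat_lit 532) (nat_lit 985966374) (nat_lit 0) (nat_lit 1032700969) (nat_lit 456) (nat_lit 2803461492) (nat_lit 224) (nat_lit 1) (nat_lit 217) (nat_lit 1) (nat_lit 223) (nat_lit 1) (nat_lit 334) (nat_lit 368) (nat_lit 318))))) (XT.nd (nat_lit 156) (nat_lit 912) (nat_lit 0) (XT.nd (nat_lit 78) (nat_lit 456)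 (nat_lit 0) (XT.lf (nat_lit 76) (nat_lit 41104522) (nat_lit 0) (nat_lit 523838143) (nat_lit 532) (nat_lit 4201394246) (nat_lit 211) (nat_lit 1) (nat_lit 210) (nat_lit 1) (nat_lit 217) (nat_lit 1) (nat_lit 335) (nat_lit 368) (nat_lit 317)) (XT.lf (nat_lit 532) (nat_lit 2691346353) (nat_lit 0) (nat_lit 107050503) (nat_lit 456) (nat_lit 1912794209) (nat_lit 211) (nat_lit 1) (nat_lit 204) (nat_lit 1) (nat_lit 210) (nat_lit 1) (nat_lit 336) (nat_lit 368) (nat_lit 316))) (XT.nd (nat_lit 78) (nat_lit 912) (nat_lit 0) (XT.lf (nat_lit 76) (nat_lit 834017044) (nat_lit 0) (nat_lit 3504600910) (nat_lit 532) (nat_lit 318387002) (nat_lit 205) (nat_lit 1) (nat_lit 204) (nat_lit 1) (nat_lit 211) (nat_lit 1) (nat_lit 337) (nat_lit 368) (nat_lit 315)) (XT.nd (nat_lit 78) (nat_lit 456) (nat_lit 0) (XT.lf (nat_lit 76) (nat_lit 3504134040) (nat_lit 0) (nat_lit 374737732) (nat_lit 456) (nat_lit 724730844) (nat_lit 199)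 (nat_lit 1) (nat_lit 198) (nat_lit 1) (nat_lit 204) (nat_lit 1) (nat_lit 338) (nat_lit 368) (nat_lit 314)) (XT.lf (nat_lit 76) (nat_lit 1556348530) (nat_lit 0) (nat_lit 1877373938) (nat_lit 532) (nat_lit 1117194970) (nat_lit 193) (nat_lit 1) (nat_lit 192) (nat_lit 1) (nat_lit 199) (nat_lit 1) (nat_lit 339) (nat_lit 368) (nat_lit 313))))))))
noncomputable def ec72 : XT := (XT.nd (nat_lit 1404) (nat_lit 4484) (nat_lit 0) (XT.nd (nat_lit 702) (nat_lit 2584) (nat_lit 0) (XT.nd (nat_lit 312) (nat_lit 1824) (nat_lit 0) (XT.nd (nat_lit 156) (nat_lit 760) (nat_lit 0) (XT.nd (nat_lit 78) (nat_lit 456) (nat_lit 0) (XT.lf (nat_lit 456) (nat_lit 1131745052) (nat_lit 0) (nat_lit 3013290986) (nat_lit 380) (nat_lit 354107650) (nat_lit 193) (nat_lit 1) (nat_lit 187) (nat_lit 1) (nat_lit 192) (nat_lit 1) (nat_lit 340) (nat_lit 368) (nat_lit 312)) (XT.lf (nat_lit 76) (nat_lit 2207217549) (nat_lit 0) (nat_lit 399079975)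 (nat_lit 456) (nat_lit 1841758525) (nat_lit 182) (nat_lit 1) (nat_lit 181) (nat_lit 1) (nat_lit 187) (nat_lit 1) (nat_lit 341) (nat_lit 368) (nat_lit 311))) (XT.nd (nat_lit 78) (nat_lit 380) (nat_lit 0) (XT.lf (nat_lit 76) (nat_lit 318509768) (nat_lit 0) (nat_lit 1899200951) (nat_lit 456) (nat_lit 2180037125) (nat_lit 177) (nat_lit 1) (nat_lit 176) (nat_lit 1) (nat_lit 182) (nat_lit 1) (nat_lit 342) (nat_lit 368) (nat_lit 310)) (XT.lf (nat_lit 456) (nat_lit 954577389) (nat_lit 0) (nat_lit 1844017923) (nat_lit 380) (nat_lit 1549550820) (nat_lit 177) (nat_lit 1) (nat_lit 171) (nat_lit 1) (nat_lit 176) (nat_lit 1) (nat_lit 343) (nat_lit 368) (nat_lit 309)))) (XT.nd (nat_lit 156) (nat_lit 1064) (nat_lit 0) (XT.nd (nat_lit 78) (nat_lit 380) (nat_lit 0) (XT.lf (nat_lit 76) (nat_lit 922008266) (nat_lit 0) (nat_lit 567072879) (nat_lit 380) (nat_lit 2810241473) (nat_lit 167) (nat_lit 1) (nat_lit 166) (nat_lit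 1) (nat_lit 171) (nat_lit 1) (nat_lit 344) (nat_lit 368) (nat_lit 308)) (XT.lf (nat_lit 456) (nat_lit 2185578450) (nat_lit 0) (nat_lit 1145828352) (nat_lit 380) (nat_lit 919727846) (nat_lit 167) (nat_lit 1) (nat_lit 161) (nat_lit 1) (nat_lit 166) (nat_lit 1) (nat_lit 345) (nat_lit 368) (nat_lit 307))) (XT.nd (nat_lit 78) (nat_lit 760) (nat_lit 0) (XT.lf (nat_lit 380) (nat_lit 650384362) (nat_lit 0) (nat_lit 820056761) (nat_lit 304) (nat_lit 2733250823) (nat_lit 162) (nat_lit 1) (nat_lit 157) (nat_lit 1) (nat_lit 161) (nat_lit 1) (nat_lit 346) (nat_lit 368) (nat_lit 306)) (XT.nd (nat_lit 78) (nat_lit 304) (nat_lit 0) (XT.lf (nat_lit 456) (nat_lit 3298793571) (nat_lit 0) (nat_lit 509215470) (nat_lit 380) (nat_lit 348931546) (nat_lit 157) (nat_lit 1) (nat_lit 151) (nat_lit 1) (nat_lit 156) (nat_lit 1) (nat_lit 347) (nat_lit 368) (nat_lit 305)) (XT.lf (nat_lit 380) (nat_lit 1760429315) (nat_lit 0) (nat_lit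 206927304) (nat_lit 304) (nat_lit 2143395042) (nat_lit 152) (nat_lit 1) (nat_lit 147) (nat_lit 1) (nat_lit 151) (nat_lit 1) (nat_lit 348) (nat_lit 368) (nat_lit 304)))))) (XT.nd (nat_lit 312) (nat_lit 1520) (nat_lit 0) (XT.nd (nat_lit 156) (nat_lit 684) (nat_lit 0) (XT.nd (nat_lit 78) (nat_lit 380) (nat_lit 0) (XT.lf (nat_lit 76) (nat_lit 167398816) (nat_lit 0) (nat_lit 3825621820) (nat_lit 380) (nat_lit 72355694) (nat_lit 148) (nat_lit 1) (nat_lit 147) (nat_lit 1) (nat_lit 152) (nat_lit 1) (nat_lit 349) (nat_lit 368) (nat_lit 303)) (XT.lf (nat_lit 76) (nat_lit 2415780510) (nat_lit 0) (nat_lit 1258076937) (nat_lit 380) (nat_lit 346551249) (nat_lit 143) (nat_lit 1) (nat_lit 142) (nat_lit 1) (nat_lit 147) (nat_lit 1) (nat_lit 350) (nat_lit 368) (nat_lit 302))) (XT.nd (nat_lit 78) (nat_lit 380) (nat_lit 0) (XT.lf (nat_lit 76) (nat_lit 637834576) (nat_lit 0) (nat_lit 2735822699) (nat_lit 380) (nat_lit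 602531432) (nat_lit 139) (nat_lit 1) (nat_lit 138) (nat_lit 1) (nat_lit 143) (nat_lit 1) (nat_lit 351) (nat_lit 368) (nat_lit 301)) (XT.lf (nat_lit 76) (nat_lit 2818577740) (nat_lit 0) (nat_lit 266760019) (nat_lit 380) (nat_lit 847236084) (nat_lit 134) (nat_lit 1) (nat_lit 133) (nat_lit 1) (nat_lit 138) (nat_lit 1) (nat_lit 352) (nat_lit 368) (nat_lit 300)))) (XT.nd (nat_lit 156) (nat_lit 912) (nat_lit 0) (XT.nd (nat_lit 78) (nat_lit 304) (nat_lit 0) (XT.lf (nat_lit 76) (nat_lit 1062013364) (nat_lit 0) (nat_lit 1743316682) (nat_lit 380) (nat_lit 1084160469) (nat_lit 130) (nat_lit 1) (nat_lit 129) (nat_lit 1) (nat_lit 134) (nat_lit 1) (nat_lit 353) (nat_lit 368) (nat_lit 299)) (XT.lf (nat_lit 380) (nat_lit 641247400) (nat_lit 0) (nat_lit 2541158095) (nat_lit 304) (nat_lit 664677177) (nat_lit 130) (nat_lit 1) (nat_lit 125) (nat_lit 1) (nat_lit 129) (nat_lit 1) (nat_lit 354) (nat_lit 368) (nat_lit 298)))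 (XT.nd (nat_lit 78) (nat_lit 608) (nat_lit 0) (XT.lf (nat_lit 76) (nat_lit 1443673408) (nat_lit 0) (nat_lit 840455372) (nat_lit 304) (nat_lit 1521047538) (nat_lit 122) (nat_lit 1) (nat_lit 121) (nat_lit 1) (nat_lit 125) (nat_lit 1) (nat_lit 355) (nat_lit 368) (nat_lit 297)) (XT.nd (nat_lit 78) (nat_lit 304) (nat_lit 0) (XT.lf (nat_lit 380) (nat_lit 1467220861) (nat_lit 0) (nat_lit 2040619208) (nat_lit 304) (nat_lit 256052916) (nat_lit 122) (nat_lit 1) (nat_lit 117) (nat_lit 1) (nat_lit 121) (nat_lit 1) (nat_lit 356) (nat_lit 368) (nat_lit 296)) (XT.lf (nat_lit 76) (nat_lit 1786264378) (nat_lit 0) (nat_lit 20175578) (nat_lit 304) (nat_lit 1916707096) (nat_lit 114) (nat_lit 1) (nat_lit 113) (nat_lit 1) (nat_lit 117) (nat_lit 1) (nat_lit 357) (nat_lit 368) (nat_lit 295))))))) (XT.nd (nat_lit 702) (nat_lit 2052) (nat_lit 0) (XT.nd (nat_lit 312) (nat_lit 1292) (nat_lit 0) (XT.nd (nat_lit 156) (nat_lit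 608) (nat_lit 0) (XT.nd (nat_lit 78) (nat_lit 228) (nat_lit 0) (XT.lf (nat_lit 76) (nat_lit 112004525) (nat_lit 0) (nat_lit 1469269886) (nat_lit 380) (nat_lit 2101654459) (nat_lit 110) (nat_lit 1) (nat_lit 109) (nat_lit 1) (nat_lit 114) (nat_lit 1) (nat_lit 358) (nat_lit 368) (nat_lit 294)) (XT.lf (nat_lit 304) (nat_lit 733667361) (nat_lit 0) (nat_lit 1364065485) (nat_lit 228) (nat_lit 1545481458) (nat_lit 110) (nat_lit 1) (nat_lit 106) (nat_lit 1) (nat_lit 109) (nat_lit 1) (nat_lit 359) (nat_lit 368) (nat_lit 293))) (XT.nd (nat_lit 78) (nat_lit 228) (nat_lit 0) (XT.lf (nat_lit 76) (nat_lit 441240683) (nat_lit 0) (nat_lit 717956138) (nat_lit 380) (nat_lit 2444889111) (nat_lit 102) (nat_lit 1) (nat_lit 101) (nat_lit 1) (nat_lit 106) (nat_lit 1) (nat_lit 360) (nat_lit 368) (nat_lit 292)) (XT.lf (nat_lit 304) (nat_lit 1416811538) (nat_lit 0) (nat_lit 959112681) (nat_lit 228) (nat_lit 1189468042) (nat_lit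 102) (nat_lit 1) (nat_lit 98) (nat_lit 1) (nat_lit 101) (nat_lit 1) (nat_lit 361) (nat_lit 368) (nat_lit 291)))) (XT.nd (nat_lit 156) (nat_lit 760) (nat_lit 0) (XT.nd (nat_lit 78) (nat_lit 228) (nat_lit 0) (XT.lf (nat_lit 76) (nat_lit 737877162) (nat_lit 0) (nat_lit 35209399) (nat_lit 304) (nat_lit 2754225255) (nat_lit 95) (nat_lit 1) (nat_lit 94) (nat_lit 1) (nat_lit 98) (nat_lit 1) (nat_lit 362) (nat_lit 368) (nat_lit 290)) (XT.lf (nat_lit 304) (nat_lit 2034624033) (nat_lit 0) (nat_lit 588827768) (nat_lit 228) (nat_lit 866148521) (nat_lit 95) (nat_lit 1) (nat_lit 91) (nat_lit 1) (nat_lit 94) (nat_lit 1) (nat_lit 363) (nat_lit 368) (nat_lit 289))) (XT.nd (nat_lit 78) (nat_lit 532) (nat_lit 0) (XT.lf (nat_lit 304) (nat_lit 592147081) (nat_lit 0) (nat_lit 416253863) (nat_lit 228) (nat_lit 2444048055) (nat_lit 92) (nat_lit 1) (nat_lit 88) (nat_lit 1) (nat_lit 91) (nat_lit 1) (nat_lit 364) (nat_lit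 368) (nat_lit 288)) (XT.nd (nat_lit 78) (nat_lit 228) (nat_lit 0) (XT.lf (nat_lit 304) (nat_lit 2592307894) (nat_lit 0) (nat_lit 250540848) (nat_lit 228) (nat_lit 572911301) (nat_lit 88) (nat_lit 1) (nat_lit 84) (nat_lit 1) (nat_lit 87) (nat_lit 1) (nat_lit 365) (nat_lit 368) (nat_lit 287)) (XT.lf (nat_lit 304) (nat_lit 1161038536) (nat_lit 0) (nat_lit 90216073) (nat_lit 228) (nat_lit 2128246788) (nat_lit 85) (nat_lit 1) (nat_lit 81) (nat_lit 1) (nat_lit 84) (nat_lit 1) (nat_lit 366) (nat_lit 368) (nat_lit 286)))))) (XT.nd (nat_lit 390) (nat_lit 1064) (nat_lit 0) (XT.nd (nat_lit 156) (nat_lit 684) (nat_lit 0) (XT.nd (nat_lit 78) (nat_lit 228) (nat_lit 0) (XT.lf (nat_lit 76) (nat_lit 3036829525) (nat_lit 0) (nat_lit 249508538) (nat_lit 304) (nat_lit 57451836) (nat_lit 81) (nat_lit 1) (nat_lit 80) (nat_lit 1) (nat_lit 84) (nat_lit 1) (nat_lit 367) (nat_lit 368) (nat_lit 285)) (XT.lf (nat_lit 76) (nat_lit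 1469831610) (nat_lit 0) (nat_lit 1634074601) (nat_lit 304) (nat_lit 204468224) (nat_lit 78) (nat_lit 1) (nat_lit 77) (nat_lit 1) (nat_lit 81) (nat_lit 1) (nat_lit 368) (nat_lit 368) (nat_lit 284))) (XT.nd (nat_lit 78) (nat_lit 456) (nat_lit 0) (XT.lf (nat_lit 304) (nat_lit 273879421) (nat_lit 0) (nat_lit 2936519594) (nat_lit 228) (nat_lit 63164072) (nat_lit 78) (nat_lit 1) (nat_lit 74) (nat_lit 1) (nat_lit 77) (nat_lit 1) (nat_lit 369) (nat_lit 368) (nat_lit 283)) (XT.nd (nat_lit 78) (nat_lit 228) (nat_lit 0) (XT.lf (nat_lit 76) (nat_lit 1665304304) (nat_lit 0) (nat_lit 1101821389) (nat_lit 228) (nat_lit 471892796) (nat_lit 72) (nat_lit 1) (nat_lit 71) (nat_lit 1) (nat_lit 74) (nat_lit 1) (nat_lit 370) (nat_lit 368) (nat_lit 282)) (XT.lf (nat_lit 76) (nat_lit 156343623) (nat_lit 0) (nat_lit 2454517944) (nat_lit 304) (nat_lit 594172909) (nat_lit 69) (nat_lit 1) (nat_lit 68) (nat_lit 1) (nat_lit 72)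 (nat_lit 1) (nat_lit 371) (nat_lit 368) (nat_lit 281))))) (XT.nd (nat_lit 156) (nat_lit 608) (nat_lit 0) (XT.nd (nat_lit 78) (nat_lit 228) (nat_lit 0) (XT.lf (nat_lit 76) (nat_lit 1839040500) (nat_lit 0) (nat_lit 617080900) (nat_lit 228) (nat_lit 715259138) (nat_lit 66) (nat_lit 1) (nat_lit 65) (nat_lit 1) (nat_lit 68) (nat_lit 1) (nat_lit 372) (nat_lit 368) (nat_lit 280)) (XT.lf (nat_lit 76) (nat_lit 353358706) (nat_lit 0) (nat_lit 1956446154) (nat_lit 304) (nat_lit 828384189) (nat_lit 63) (nat_lit 1) (nat_lit 62) (nat_lit 1) (nat_lit 66) (nat_lit 1) (nat_lit 373) (nat_lit 368) (nat_lit 279))) (XT.nd (nat_lit 78) (nat_lit 380) (nat_lit 0) (XT.lf (nat_lit 76) (nat_lit 1992842113) (nat_lit 0) (nat_lit 176124981) (nat_lit 228) (nat_lit 936432288) (nat_lit 60) (nat_lit 1) (nat_lit 59) (nat_lit 1) (nat_lit 62) (nat_lit 1) (nat_lit 374) (nat_lit 368) (nat_lit 278)) (XT.nd (nat_lit 78) (nat_lit 152) (nat_lit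 0) (XT.lf (nat_lit 76) (nat_lit 530469898) (nat_lit 0) (nat_lit 1501427633) (nat_lit 304) (nat_lit 1041077604) (nat_lit 57) (nat_lit 1) (nat_lit 56) (nat_lit 1) (nat_lit 60) (nat_lit 1) (nat_lit 375) (nat_lit 368) (nat_lit 277)) (XT.lf (nat_lit 228) (nat_lit 227472879) (nat_lit 0) (nat_lit 1902375022) (nat_lit 152) (nat_lit 911139674) (nat_lit 57) (nat_lit 1) (nat_lit 54) (nat_lit 1) (nat_lit 56) (nat_lit 1) (nat_lit 376) (nat_lit 368) (nat_lit 276))))))))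
noncomputable def ec73 : XT := (XT.nd (nat_lit 46800) (nat_lit 0) (nat_lit 22648) (XT.nd (nat_lit 46098) (nat_lit 0) (nat_lit 34884) (XT.nd (nat_lit 45708) (nat_lit 0) (nat_lit 34580) (XT.nd (nat_lit 156) (nat_lit 456) (nat_lit 0) (XT.nd (nat_lit 78) (nat_lit 152) (nat_lit 0) (XT.lf (nat_lit 76) (nat_lit 689301322) (nat_lit 0) (nat_lit 1086108727) (nat_lit 304) (nat_lit 1233926015) (nat_lit 51) (nat_lit 1) (nat_lit 50) (nat_lit 1) (nat_lit 54) (nat_lit 1) (nat_lit 377) (nat_lit 368) (nat_lit 275)) (XT.lf (nat_lit 228) (nat_lit 595755919) (nat_lit 0) (nat_lit 1655271770) (nat_lit 152) (nat_lit 727073848) (nat_lit 51) (nat_lit 1) (nat_lit 48) (nat_lit 1) (nat_lit 50) (nat_lit 1) (nat_lit 378) (nat_lit 368) (nat_lit 274))) (XT.nd (nat_lit 78) (nat_lit 152) (nat_lit 0) (XT.lf (nat_lit 76) (nat_lit 831351303) (nat_lit 0) (nat_lit 707391654) (nat_lit 304) (nat_lit 1408475204) (nat_lit 45) (nat_lit 1) (nat_lit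 44) (nat_lit 1) (nat_lit 48) (nat_lit 1) (nat_lit 379) (nat_lit 368) (nat_lit 273)) (XT.lf (nat_lit 228) (nat_lit 929359076) (nat_lit 0) (nat_lit 1427296027) (nat_lit 152) (nat_lit 560056983) (nat_lit 45) (nat_lit 1) (nat_lit 42) (nat_lit 1) (nat_lit 44) (nat_lit 1) (nat_lit 380) (nat_lit 368) (nat_lit 272)))) (XT.nd (nat_lit 156) (nat_lit 0) (nat_lit 76) (XT.nd (nat_lit 78) (nat_lit 0) (nat_lit 76) (XT.lf (nat_lit 1900) (nat_lit 1589515882) (nat_lit 0) (nat_lit 1602807932) (nat_lit 1900) (nat_lit 1589515882) (nat_lit 522) (nat_lit 1) (nat_lit 497) (nat_lit 0) (nat_lit 522) (nat_lit 0) (nat_lit 282) (nat_lit 369) (nat_lit 369)) (XT.lf (nat_lit 1900) (nat_lit 734728748) (nat_lit 0) (nat_lit 3189275127) (nat_lit 1824) (nat_lit 5499791775) (nat_lit 523) (nat_lit 1) (nat_lit 498) (nat_lit 1) (nat_lit 522) (nat_lit 1) (nat_lit 283) (nat_lit 369) (nat_lit 368))) (XT.nd (nat_lit 78) (nat_lit 0) (nat_lit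 76) (XT.lf (nat_lit 1900) (nat_lit 6042387502) (nat_lit 76) (nat_lit 1553587162) (nat_lit 0) (nat_lit 1690596069) (nat_lit 523) (nat_lit 1) (nat_lit 499) (nat_lit 1) (nat_lit 498) (nat_lit 1) (nat_lit 284) (nat_lit 369) (nat_lit 367)) (XT.nd (nat_lit 78) (nat_lit 0) (nat_lit 76) (XT.lf (nat_lit 1900) (nat_lit 5072457074) (nat_lit 0) (nat_lit 3365992469) (nat_lit 1824) (nat_lit 713523105) (nat_lit 524) (nat_lit 1) (nat_lit 499) (nat_lit 1) (nat_lit 523) (nat_lit 1) (nat_lit 285) (nat_lit 369) (nat_lit 366)) (XT.lf (nat_lit 1900) (nat_lit 2602210325) (nat_lit 0) (nat_lit 3552101690) (nat_lit 1824) (nat_lit 2865625925) (nat_lit 525) (nat_lit 1) (nat_lit 500) (nat_lit 1) (nat_lit 524) (nat_lit 1) (nat_lit 286) (nat_lit 369) (nat_lit 365)))))) (XT.nd (nat_lit 312) (nat_lit 0) (nat_lit 152) (XT.nd (nat_lit 156) (nat_lit 0) (nat_lit 76) (XT.nd (nat_lit 78) (nat_lit 0) (nat_lit 0) (XT.lf (nat_lit 1900) (nat_lit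 174764381) (nat_lit 0) (nat_lit 3789992611) (nat_lit 1824) (nat_lit 4925847864) (nat_lit 526) (nat_lit 1) (nat_lit 501) (nat_lit 1) (nat_lit 525) (nat_lit 1) (nat_lit 287) (nat_lit 369) (nat_lit 364)) (XT.lf (nat_lit 1900) (nat_lit 4671760762) (nat_lit 76) (nat_lit 1852213886) (nat_lit 0) (nat_lit 2239646003) (nat_lit 526) (nat_lit 1) (nat_lit 502) (nat_lit 1) (nat_lit 501) (nat_lit 1) (nat_lit 288) (nat_lit 369) (nat_lit 363))) (XT.nd (nat_lit 78) (nat_lit 0) (nat_lit 76) (XT.lf (nat_lit 1900) (nat_lit 4026503596) (nat_lit 0) (nat_lit 4442888075) (nat_lit 1824) (nat_lit 169784280) (nat_lit 527) (nat_lit 1) (nat_lit 502) (nat_lit 1) (nat_lit 526) (nat_lit 1) (nat_lit 289) (nat_lit 369) (nat_lit 362)) (XT.lf (nat_lit 1900) (nat_lit 1585174612) (nat_lit 0) (nat_lit 4850089724) (nat_lit 1824) (nat_lit 2081763567) (nat_lit 528) (nat_lit 1) (nat_lit 503) (nat_lit 1) (nat_lit 527) (nat_lit 1) (nat_lit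 290) (nat_lit 369) (nat_lit 361)))) (XT.nd (nat_lit 156) (nat_lit 0) (nat_lit 152) (XT.nd (nat_lit 78) (nat_lit 0) (nat_lit 76) (XT.lf (nat_lit 1900) (nat_lit 3092557050) (nat_lit 76) (nat_lit 4481398570) (nat_lit 0) (nat_lit 823296663) (nat_lit 528) (nat_lit 1) (nat_lit 504) (nat_lit 1) (nat_lit 503) (nat_lit 1) (nat_lit 291) (nat_lit 369) (nat_lit 360)) (XT.lf (nat_lit 1900) (nat_lit 2470208045) (nat_lit 76) (nat_lit 2600417702) (nat_lit 0) (nat_lit 3209070950) (nat_lit 529) (nat_lit 1) (nat_lit 505) (nat_lit 1) (nat_lit 504) (nat_lit 1) (nat_lit 292) (nat_lit 369) (nat_lit 359))) (XT.nd (nat_lit 78) (nat_lit 0) (nat_lit 76) (XT.lf (nat_lit 1900) (nat_lit 1812413943) (nat_lit 76) (nat_lit 800541288) (nat_lit 0) (nat_lit 5551559401) (nat_lit 530) (nat_lit 1) (nat_lit 506) (nat_lit 1) (nat_lit 505) (nat_lit 1) (nat_lit 293) (nat_lit 369) (nat_lit 358)) (XT.nd (nat_lit 78) (nat_lit 0) (nat_lit 0)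 (XT.lf (nat_lit 1900) (nat_lit 206385750) (nat_lit 0) (nat_lit 6936637186) (nat_lit 1824) (nat_lit 908509876) (nat_lit 531) (nat_lit 1) (nat_lit 506) (nat_lit 1) (nat_lit 530) (nat_lit 1) (nat_lit 294) (nat_lit 369) (nat_lit 357)) (XT.lf (nat_lit 1900) (nat_lit 366272504) (nat_lit 76) (nat_lit 5394688121) (nat_lit 0) (nat_lit 2179480689) (nat_lit 531) (nat_lit 1) (nat_lit 507) (nat_lit 1) (nat_lit 506) (nat_lit 1) (nat_lit 295) (nat_lit 369) (nat_lit 356))))))) (XT.nd (nat_lit 702) (nat_lit 7068) (nat_lit 0) (XT.nd (nat_lit 312) (nat_lit 3724) (nat_lit 0) (XT.nd (nat_lit 156) (nat_lit 0) (nat_lit 76) (XT.nd (nat_lit 78) (nat_lit 0) (nat_lit 76) (XT.lf (nat_lit 1976) (nat_lit 3310289895) (nat_lit 0) (nat_lit 407721057) (nat_lit 1900) (nat_lit 4113489649) (nat_lit 508) (nat_lit 1) (nat_lit 482) (nat_lit 1) (nat_lit 507) (nat_lit 1) (nat_lit 296) (nat_lit 369) (nat_lit 355)) (XT.lf (nat_lit 1976) (nat_lit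 907967717) (nat_lit 0) (nat_lit 1204341570) (nat_lit 1900) (nat_lit 5612380768) (nat_lit 509) (nat_lit 1) (nat_lit 483) (nat_lit 1) (nat_lit 508) (nat_lit 1) (nat_lit 297) (nat_lit 369) (nat_lit 354))) (XT.nd (nat_lit 78) (nat_lit 0) (nat_lit 76) (XT.lf (nat_lit 1976) (nat_lit 5583421424) (nat_lit 76) (nat_lit 568160981) (nat_lit 0) (nat_lit 1468235356) (nat_lit 509) (nat_lit 1) (nat_lit 484) (nat_lit 1) (nat_lit 483) (nat_lit 1) (nat_lit 298) (nat_lit 369) (nat_lit 353)) (XT.lf (nat_lit 76) (nat_lit 3711708870) (nat_lit 0) (nat_lit 2904483751) (nat_lit 1900) (nat_lit 900602034) (nat_lit 485) (nat_lit 1) (nat_lit 484) (nat_lit 1) (nat_lit 509) (nat_lit 1) (nat_lit 299) (nat_lit 369) (nat_lit 352)))) (XT.nd (nat_lit 156) (nat_lit 1824) (nat_lit 0) (XT.nd (nat_lit 78) (nat_lit 912) (nat_lit 0) (XT.lf (nat_lit 76) (nat_lit 1321900103) (nat_lit 0) (nat_lit 3798541781) (nat_lit 1216) (nat_lit 2295305244)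 (nat_lit 470) (nat_lit 1) (nat_lit 469) (nat_lit 1) (nat_lit 485) (nat_lit 1) (nat_lit 300) (nat_lit 369) (nat_lit 351)) (XT.lf (nat_lit 988) (nat_lit 2596311107) (nat_lit 0) (nat_lit 3684507141) (nat_lit 912) (nat_lit 1035750518) (nat_lit 470) (nat_lit 1) (nat_lit 457) (nat_lit 1) (nat_lit 469) (nat_lit 1) (nat_lit 301) (nat_lit 369) (nat_lit 350))) (XT.nd (nat_lit 78) (nat_lit 912) (nat_lit 0) (XT.lf (nat_lit 988) (nat_lit 1549172883) (nat_lit 0) (nat_lit 2304750211) (nat_lit 912) (nat_lit 3365258375) (nat_lit 458) (nat_lit 1) (nat_lit 445) (nat_lit 1) (nat_lit 457) (nat_lit 1) (nat_lit 302) (nat_lit 369) (nat_lit 349)) (XT.nd (nat_lit 78) (nat_lit 76) (nat_lit 0) (XT.lf (nat_lit 912) (nat_lit 485862491) (nat_lit 0) (nat_lit 988159427) (nat_lit 836) (nat_lit 5649693655) (nat_lit 446) (nat_lit 1) (nat_lit 434) (nat_lit 1) (nat_lit 445) (nat_lit 1) (nat_lit 303) (nat_lit 369) (nat_lit 348)) (XT.lf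 (nat_lit 76) (nat_lit 6164647906) (nat_lit 0) (nat_lit 592121601) (nat_lit 912) (nat_lit 273133546) (nat_lit 434) (nat_lit 1) (nat_lit 433) (nat_lit 1) (nat_lit 445) (nat_lit 1) (nat_lit 304) (nat_lit 369) (nat_lit 347)))))) (XT.nd (nat_lit 390) (nat_lit 2964) (nat_lit 0) (XT.nd (nat_lit 156) (nat_lit 2356) (nat_lit 0) (XT.nd (nat_lit 78) (nat_lit 836) (nat_lit 0) (XT.lf (nat_lit 76) (nat_lit 3769204646) (nat_lit 0) (nat_lit 1692947055) (nat_lit 988) (nat_lit 1475401472) (nat_lit 422) (nat_lit 1) (nat_lit 421) (nat_lit 1) (nat_lit 434) (nat_lit 1) (nat_lit 305) (nat_lit 369) (nat_lit 346)) (XT.lf (nat_lit 76) (nat_lit 1420841698) (nat_lit 0) (nat_lit 2805771488) (nat_lit 912) (nat_lit 2620398672) (nat_lit 411) (nat_lit 1) (nat_lit 410) (nat_lit 1) (nat_lit 422) (nat_lit 1) (nat_lit 306) (nat_lit 369) (nat_lit 345))) (XT.nd (nat_lit 78) (nat_lit 1520) (nat_lit 0) (XT.lf (nat_lit 912) (nat_lit 2822727558)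 (nat_lit 0) (nat_lit 3042535910) (nat_lit 836) (nat_lit 892859955) (nat_lit 411) (nat_lit 1) (nat_lit 399) (nat_lit 1) (nat_lit 410) (nat_lit 1) (nat_lit 307) (nat_lit 369) (nat_lit 344)) (XT.nd (nat_lit 78) (nat_lit 760) (nat_lit 0) (XT.lf (nat_lit 836) (nat_lit 1586670212) (nat_lit 0) (nat_lit 1904944773) (nat_lit 760) (nat_lit 3179169081) (nat_lit 400) (nat_lit 1) (nat_lit 389) (nat_lit 1) (nat_lit 399) (nat_lit 1) (nat_lit 308) (nat_lit 369) (nat_lit 343)) (XT.lf (nat_lit 836) (nat_lit 343478623) (nat_lit 0) (nat_lit 821753699) (nat_lit 760) (nat_lit 5419910448) (nat_lit 390) (nat_lit 1) (nat_lit 379) (nat_lit 1) (nat_lit 389) (nat_lit 1) (nat_lit 309) (nat_lit 369) (nat_lit 342))))) (XT.nd (nat_lit 156) (nat_lit 2128) (nat_lit 0) (XT.nd (nat_lit 78) (nat_lit 760) (nat_lit 0) (XT.lf (nat_lit 76) (nat_lit 5378865827) (nat_lit 0) (nat_lit 902861143) (nat_lit 836) (nat_lit 219143130) (nat_lit 379)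 (nat_lit 1) (nat_lit 378) (nat_lit 1) (nat_lit 389) (nat_lit 1) (nat_lit 310) (nat_lit 369) (nat_lit 341)) (XT.lf (nat_lit 76) (nat_lit 3047070719) (nat_lit 0) (nat_lit 2162529632) (nat_lit 836) (nat_lit 1208328251) (nat_lit 369) (nat_lit 1) (nat_lit 368) (nat_lit 1) (nat_lit 379) (nat_lit 1) (nat_lit 311) (nat_lit 369) (nat_lit 340))) (XT.nd (nat_lit 78) (nat_lit 1368) (nat_lit 0) (XT.lf (nat_lit 76) (nat_lit 762247706) (nat_lit 0) (nat_lit 3426232764) (nat_lit 836) (nat_lit 2148107924) (nat_lit 359) (nat_lit 1) (nat_lit 358) (nat_lit 1) (nat_lit 369) (nat_lit 1) (nat_lit 312) (nat_lit 369) (nat_lit 339)) (XT.nd (nat_lit 78) (nat_lit 684) (nat_lit 0) (XT.lf (nat_lit 760) (nat_lit 1553652131) (nat_lit 0) (nat_lit 3206988692) (nat_lit 684) (nat_lit 1495979709) (nat_lit 359) (nat_lit 1) (nat_lit 349) (nat_lit 1) (nat_lit 358) (nat_lit 1) (nat_lit 313) (nat_lit 369) (nat_lit 338)) (XT.lf (nat_lit 760)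 (nat_lit 191036214) (nat_lit 0) (nat_lit 2268789383) (nat_lit 684) (nat_lit 3718265488) (nat_lit 350) (nat_lit 1) (nat_lit 340) (nat_lit 1) (nat_lit 349) (nat_lit 1) (nat_lit 314) (nat_lit 369) (nat_lit 337))))))))
noncomputable def ec74 : XT := (XT.nd (nat_lit 1404) (nat_lit 6688) (nat_lit 0) (XT.nd (nat_lit 702) (nat_lit 4180) (nat_lit 0) (XT.nd (nat_lit 312) (nat_lit 3116) (nat_lit 0) (XT.nd (nat_lit 156) (nat_lit 608) (nat_lit 0) (XT.nd (nat_lit 78) (nat_lit 684) (nat_lit 0) (XT.lf (nat_lit 76) (nat_lit 213445198) (nat_lit 0) (nat_lit 1156392322) (nat_lit 760) (nat_lit 4731077495) (nat_lit 331) (nat_lit 1) (nat_lit 330) (nat_lit 1) (nat_lit 340) (nat_lit 1) (nat_lit 315) (nat_lit 369) (nat_lit 336)) (XT.lf (nat_lit 760) (nat_lit 3510950591) (nat_lit 0) (nat_lit 501942595) (nat_lit 684) (nat_lit 2012032869) (nat_lit 331) (nat_lit 1) (nat_lit 321) (nat_lit 1) (nat_lit 330) (nat_lit 1) (nat_lit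 316) (nat_lit 369) (nat_lit 335))) (XT.nd (nat_lit 78) (nat_lit 608) (nat_lit 0) (XT.lf (nat_lit 76) (nat_lit 1757987860) (nat_lit 0) (nat_lit 3873802002) (nat_lit 760) (nat_lit 318524811) (nat_lit 322) (nat_lit 1) (nat_lit 321) (nat_lit 1) (nat_lit 331) (nat_lit 1) (nat_lit 317) (nat_lit 369) (nat_lit 334)) (XT.lf (nat_lit 684) (nat_lit 639233020) (nat_lit 0) (nat_lit 4784413140) (nat_lit 608) (nat_lit 453355347) (nat_lit 322) (nat_lit 1) (nat_lit 313) (nat_lit 1) (nat_lit 321) (nat_lit 1) (nat_lit 318) (nat_lit 369) (nat_lit 333)))) (XT.nd (nat_lit 156) (nat_lit 1824) (nat_lit 0) (XT.nd (nat_lit 78) (nat_lit 608) (nat_lit 0) (XT.lf (nat_lit 76) (nat_lit 3168095148) (nat_lit 0) (nat_lit 795026600) (nat_lit 684) (nat_lit 1841628536) (nat_lit 305) (nat_lit 1) (nat_lit 304) (nat_lit 1) (nat_lit 313) (nat_lit 1) (nat_lit 319) (nat_lit 369) (nat_lit 332)) (XT.lf (nat_lit 76) (nat_lit 963320735) (nat_lit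 0) (nat_lit 2216278559) (nat_lit 684) (nat_lit 2554185454) (nat_lit 297) (nat_lit 1) (nat_lit 296) (nat_lit 1) (nat_lit 305) (nat_lit 1) (nat_lit 320) (nat_lit 369) (nat_lit 331))) (XT.nd (nat_lit 78) (nat_lit 1216) (nat_lit 0) (XT.lf (nat_lit 684) (nat_lit 2023635760) (nat_lit 0) (nat_lit 2428844822) (nat_lit 608) (nat_lit 1211520969) (nat_lit 297) (nat_lit 1) (nat_lit 288) (nat_lit 1) (nat_lit 296) (nat_lit 1) (nat_lit 321) (nat_lit 369) (nat_lit 330)) (XT.nd (nat_lit 78) (nat_lit 684) (nat_lit 0) (XT.lf (nat_lit 608) (nat_lit 530331145) (nat_lit 0) (nat_lit 1711539945) (nat_lit 532) (nat_lit 3353537726) (nat_lit 289) (nat_lit 1) (nat_lit 281) (nat_lit 1) (nat_lit 288) (nat_lit 1) (nat_lit 322) (nat_lit 369) (nat_lit 329)) (XT.lf (nat_lit 76) (nat_lit 83589314) (nat_lit 0) (nat_lit 943077141) (nat_lit 684) (nat_lit 4501314934) (nat_lit 273) (nat_lit 1) (nat_lit 272) (nat_lit 1) (nat_lit 281) (nat_lit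 1) (nat_lit 323) (nat_lit 369) (nat_lit 328)))))) (XT.nd (nat_lit 312) (nat_lit 2508) (nat_lit 0) (XT.nd (nat_lit 156) (nat_lit 1140) (nat_lit 0) (XT.nd (nat_lit 78) (nat_lit 0) (nat_lit 0) (XT.lf (nat_lit 608) (nat_lit 3046200106) (nat_lit 0) (nat_lit 362372101) (nat_lit 532) (nat_lit 2052909523) (nat_lit 273) (nat_lit 1) (nat_lit 265) (nat_lit 1) (nat_lit 272) (nat_lit 1) (nat_lit 324) (nat_lit 369) (nat_lit 327)) (XT.lf (nat_lit 76) (nat_lit 1252473667) (nat_lit 0) (nat_lit 3881597698) (nat_lit 608) (nat_lit 262107764) (nat_lit 266) (nat_lit 1) (nat_lit 265) (nat_lit 1) (nat_lit 273) (nat_lit 1) (nat_lit 325) (nat_lit 369) (nat_lit 326))) (XT.nd (nat_lit 78) (nat_lit 532) (nat_lit 0) (XT.lf (nat_lit 76) (nat_lit 4464628773) (nat_lit 0) (nat_lit 15093553) (nat_lit 608) (nat_lit 852213701) (nat_lit 258) (nat_lit 1) (nat_lit 257) (nat_lit 1) (nat_lit 265) (nat_lit 1) (nat_lit 326) (nat_lit 369) (nat_lit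 325)) (XT.lf (nat_lit 76) (nat_lit 2319841458) (nat_lit 0) (nat_lit 1522927704) (nat_lit 608) (nat_lit 1425764011) (nat_lit 251) (nat_lit 1) (nat_lit 250) (nat_lit 1) (nat_lit 258) (nat_lit 1) (nat_lit 327) (nat_lit 369) (nat_lit 324)))) (XT.nd (nat_lit 156) (nat_lit 1520) (nat_lit 0) (XT.nd (nat_lit 78) (nat_lit 456) (nat_lit 0) (XT.lf (nat_lit 76) (nat_lit 220380808) (nat_lit 0) (nat_lit 3020290959) (nat_lit 608) (nat_lit 1965636305) (nat_lit 244) (nat_lit 1) (nat_lit 243) (nat_lit 1) (nat_lit 251) (nat_lit 1) (nat_lit 328) (nat_lit 369) (nat_lit 323)) (XT.lf (nat_lit 532) (nat_lit 625927542) (nat_lit 0) (nat_lit 2660114833) (nat_lit 456) (nat_lit 1858952466) (nat_lit 244) (nat_lit 1) (nat_lit 237) (nat_lit 1) (nat_lit 243) (nat_lit 1) (nat_lit 329) (nat_lit 369) (nat_lit 322))) (XT.nd (nat_lit 78) (nat_lit 912) (nat_lit 0) (XT.lf (nat_lit 76) (nat_lit 1193850717) (nat_lit 0) (nat_lit 911279276)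 (nat_lit 608) (nat_lit 2979537785) (nat_lit 230) (nat_lit 1) (nat_lit 229) (nat_lit 1) (nat_lit 237) (nat_lit 1) (nat_lit 330) (nat_lit 369) (nat_lit 321)) (XT.nd (nat_lit 78) (nat_lit 456) (nat_lit 0) (XT.lf (nat_lit 532) (nat_lit 2591612627) (nat_lit 0) (nat_lit 1572586994) (nat_lit 456) (nat_lit 861061180) (nat_lit 230) (nat_lit 1) (nat_lit 223) (nat_lit 1) (nat_lit 229) (nat_lit 1) (nat_lit 331) (nat_lit 369) (nat_lit 320)) (XT.lf (nat_lit 532) (nat_lit 1015545365) (nat_lit 0) (nat_lit 1063681998) (nat_lit 456) (nat_lit 2887565337) (nat_lit 224) (nat_lit 1) (nat_lit 217) (nat_lit 1) (nat_lit 223) (nat_lit 1) (nat_lit 332) (nat_lit 369) (nat_lit 319))))))) (XT.nd (nat_lit 702) (nat_lit 3192) (nat_lit 0) (XT.nd (nat_lit 312) (nat_lit 2052) (nat_lit 0) (XT.nd (nat_lit 156) (nat_lit 456) (nat_lit 0) (XT.nd (nat_lit 78) (nat_lit 456) (nat_lit 0) (XT.lf (nat_lit 76) (nat_lit 42337658) (nat_lit 0) (nat_lit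 539553287) (nat_lit 532) (nat_lit 4327436074) (nat_lit 211) (nat_lit 1) (nat_lit 210) (nat_lit 1) (nat_lit 217) (nat_lit 1) (nat_lit 333) (nat_lit 369) (nat_lit 318)) (XT.lf (nat_lit 532) (nat_lit 2772086744) (nat_lit 0) (nat_lit 110262018) (nat_lit 456) (nat_lit 1970178035) (nat_lit 211) (nat_lit 1) (nat_lit 204) (nat_lit 1) (nat_lit 210) (nat_lit 1) (nat_lit 334) (nat_lit 369) (nat_lit 317))) (XT.nd (nat_lit 78) (nat_lit 456) (nat_lit 0) (XT.lf (nat_lit 76) (nat_lit 859037555) (nat_lit 0) (nat_lit 3609738938) (nat_lit 532) (nat_lit 327938612) (nat_lit 205) (nat_lit 1) (nat_lit 204) (nat_lit 1) (nat_lit 211) (nat_lit 1) (nat_lit 335) (nat_lit 369) (nat_lit 316)) (XT.lf (nat_lit 76) (nat_lit 3609258061) (nat_lit 0) (nat_lit 385979864) (nat_lit 456) (nat_lit 746472769) (nat_lit 199) (nat_lit 1) (nat_lit 198) (nat_lit 1) (nat_lit 204) (nat_lit 1) (nat_lit 336) (nat_lit 369) (nat_lit 315)))) (XT.nd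 (nat_lit 156) (nat_lit 1216) (nat_lit 0) (XT.nd (nat_lit 78) (nat_lit 380) (nat_lit 0) (XT.lf (nat_lit 76) (nat_lit 1603038986) (nat_lit 0) (nat_lit 1933695156) (nat_lit 532) (nat_lit 1150710819) (nat_lit 193) (nat_lit 1) (nat_lit 192) (nat_lit 1) (nat_lit 199) (nat_lit 1) (nat_lit 337) (nat_lit 369) (nat_lit 314)) (XT.lf (nat_lit 456) (nat_lit 1165697404) (nat_lit 0) (nat_lit 3103689715) (nat_lit 380) (nat_lit 364730879) (nat_lit 193) (nat_lit 1) (nat_lit 187) (nat_lit 1) (nat_lit 192) (nat_lit 1) (nat_lit 338) (nat_lit 369) (nat_lit 313))) (XT.nd (nat_lit 78) (nat_lit 760) (nat_lit 0) (XT.lf (nat_lit 76) (nat_lit 2273434075) (nat_lit 0) (nat_lit 411052374) (nat_lit 456) (nat_lit 1897011281) (nat_lit 182) (nat_lit 1) (nat_lit 181) (nat_lit 1) (nat_lit 187) (nat_lit 1) (nat_lit 339) (nat_lit 369) (nat_lit 312)) (XT.nd (nat_lit 78) (nat_lit 380) (nat_lit 0) (XT.lf (nat_lit 76) (nat_lit 328065061)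 (nat_lit 0) (nat_lit 1956176979) (nat_lit 456) (nat_lit 2245438239) (nat_lit 177) (nat_lit 1) (nat_lit 176) (nat_lit 1) (nat_lit 182) (nat_lit 1) (nat_lit 340) (nat_lit 369) (nat_lit 311)) (XT.lf (nat_lit 456) (nat_lit 983214711) (nat_lit 0) (nat_lit 1899338461) (nat_lit 380) (nat_lit 1596037345) (nat_lit 177) (nat_lit 1) (nat_lit 171) (nat_lit 1) (nat_lit 176) (nat_lit 1) (nat_lit 341) (nat_lit 369) (nat_lit 310)))))) (XT.nd (nat_lit 390) (nat_lit 1368) (nat_lit 0) (XT.nd (nat_lit 156) (nat_lit 1064) (nat_lit 0) (XT.nd (nat_lit 78) (nat_lit 380) (nat_lit 0) (XT.lf (nat_lit 76) (nat_lit 949668514) (nat_lit 0) (nat_lit 584085065) (nat_lit 380) (nat_lit 2894548717) (nat_lit 167) (nat_lit 1) (nat_lit 166) (nat_lit 1) (nat_lit 171) (nat_lit 1) (nat_lit 342) (nat_lit 369) (nat_lit 309)) (XT.lf (nat_lit 456) (nat_lit 2251145803) (nat_lit 0) (nat_lit 1180203203) (nat_lit 380) (nat_lit 947319681) (nat_lit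 167) (nat_lit 1) (nat_lit 161) (nat_lit 1) (nat_lit 166) (nat_lit 1) (nat_lit 343) (nat_lit 369) (nat_lit 308))) (XT.nd (nat_lit 78) (nat_lit 760) (nat_lit 0) (XT.lf (nat_lit 380) (nat_lit 669895893) (nat_lit 0) (nat_lit 844658464) (nat_lit 304) (nat_lit 2815248347) (nat_lit 162) (nat_lit 1) (nat_lit 157) (nat_lit 1) (nat_lit 161) (nat_lit 1) (nat_lit 344) (nat_lit 369) (nat_lit 307)) (XT.nd (nat_lit 78) (nat_lit 304) (nat_lit 0) (XT.lf (nat_lit 456) (nat_lit 3397757378) (nat_lit 0) (nat_lit 524491934) (nat_lit 380) (nat_lit 359399492) (nat_lit 157) (nat_lit 1) (nat_lit 151) (nat_lit 1) (nat_lit 156) (nat_lit 1) (nat_lit 345) (nat_lit 369) (nat_lit 306)) (XT.lf (nat_lit 380) (nat_lit 1813242194) (nat_lit 0) (nat_lit 213135123) (nat_lit 304) (nat_lit 2207696893) (nat_lit 152) (nat_lit 1) (nat_lit 147) (nat_lit 1) (nat_lit 151) (nat_lit 1) (nat_lit 346) (nat_lit 369) (nat_lit 305))))) (XT.nd (nat_lit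 156) (nat_lit 988) (nat_lit 0) (XT.nd (nat_lit 78) (nat_lit 380) (nat_lit 0) (XT.lf (nat_lit 76) (nat_lit 172420781) (nat_lit 0) (nat_lit 3940390475) (nat_lit 380) (nat_lit 74526365) (nat_lit 148) (nat_lit 1) (nat_lit 147) (nat_lit 1) (nat_lit 152) (nat_lit 1) (nat_lit 347) (nat_lit 369) (nat_lit 304)) (XT.lf (nat_lit 76) (nat_lit 2488253925) (nat_lit 0) (nat_lit 1295819245) (nat_lit 380) (nat_lit 356947787) (nat_lit 143) (nat_lit 1) (nat_lit 142) (nat_lit 1) (nat_lit 147) (nat_lit 1) (nat_lit 348) (nat_lit 369) (nat_lit 303))) (XT.nd (nat_lit 78) (nat_lit 684) (nat_lit 0) (XT.lf (nat_lit 76) (nat_lit 656969613) (nat_lit 0) (nat_lit 2817897380) (nat_lit 380) (nat_lit 620607375) (nat_lit 139) (nat_lit 1) (nat_lit 138) (nat_lit 1) (nat_lit 143) (nat_lit 1) (nat_lit 349) (nat_lit 369) (nat_lit 302)) (XT.nd (nat_lit 78) (nat_lit 304) (nat_lit 0) (XT.lf (nat_lit 76) (nat_lit 2903135072) (nat_lit 0) (nat_lit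 274762820) (nat_lit 380) (nat_lit 872653166) (nat_lit 134) (nat_lit 1) (nat_lit 133) (nat_lit 1) (nat_lit 138) (nat_lit 1) (nat_lit 350) (nat_lit 369) (nat_lit 301)) (XT.lf (nat_lit 76) (nat_lit 1093873765) (nat_lit 0) (nat_lit 1795616182) (nat_lit 380) (nat_lit 1116685283) (nat_lit 130) (nat_lit 1) (nat_lit 129) (nat_lit 1) (nat_lit 134) (nat_lit 1) (nat_lit 351) (nat_lit 369) (nat_lit 300))))))))
noncomputable def ec75 : XT := (XT.nd (nat_lit 1404) (nat_lit 2204) (nat_lit 0) (XT.nd (nat_lit 702) (nat_lit 1976) (nat_lit 0) (XT.nd (nat_lit 312) (nat_lit 1444) (nat_lit 0) (XT.nd (nat_lit 156) (nat_lit 608) (nat_lit 0) (XT.nd (nat_lit 78) (nat_lit 304) (nat_lit 0) (XT.lf (nat_lit 380) (nat_lit 660484822) (nat_lit 0) (nat_lit 2617392838) (nat_lit 304) (nat_lit 684617493) (nat_lit 130) (nat_lit 1) (nat_lit 125) (nat_lit 1) (nat_lit 129) (nat_lit 1) (nat_lit 352) (nat_lit 369) (nat_lit 299)) (XT.lf (nat_lit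 76) (nat_lit 1486983611) (nat_lit 0) (nat_lit 865669033) (nat_lit 304) (nat_lit 1566678964) (nat_lit 122) (nat_lit 1) (nat_lit 121) (nat_lit 1) (nat_lit 125) (nat_lit 1) (nat_lit 353) (nat_lit 369) (nat_lit 298))) (XT.nd (nat_lit 78) (nat_lit 304) (nat_lit 0) (XT.lf (nat_lit 380) (nat_lit 1511237487) (nat_lit 0) (nat_lit 2101837785) (nat_lit 304) (nat_lit 263734503) (nat_lit 122) (nat_lit 1) (nat_lit 117) (nat_lit 1) (nat_lit 121) (nat_lit 1) (nat_lit 354) (nat_lit 369) (nat_lit 297)) (XT.lf (nat_lit 76) (nat_lit 1839852310) (nat_lit 0) (nat_lit 20780846) (nat_lit 304) (nat_lit 1974208309) (nat_lit 114) (nat_lit 1) (nat_lit 113) (nat_lit 1) (nat_lit 117) (nat_lit 1) (nat_lit 355) (nat_lit 369) (nat_lit 296)))) (XT.nd (nat_lit 156) (nat_lit 912) (nat_lit 0) (XT.nd (nat_lit 78) (nat_lit 228) (nat_lit 0) (XT.lf (nat_lit 76) (nat_lit 115364661) (nat_lit 0) (nat_lit 1513347982) (nat_lit 380) (nat_lit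 2164704093) (nat_lit 110) (nat_lit 1) (nat_lit 109) (nat_lit 1) (nat_lit 114) (nat_lit 1) (nat_lit 356) (nat_lit 369) (nat_lit 295)) (XT.lf (nat_lit 304) (nat_lit 755677381) (nat_lit 0) (nat_lit 1404987450) (nat_lit 228) (nat_lit 1591845901) (nat_lit 110) (nat_lit 1) (nat_lit 106) (nat_lit 1) (nat_lit 109) (nat_lit 1) (nat_lit 357) (nat_lit 369) (nat_lit 294))) (XT.nd (nat_lit 78) (nat_lit 532) (nat_lit 0) (XT.lf (nat_lit 76) (nat_lit 454477904) (nat_lit 0) (nat_lit 739494822) (nat_lit 380) (nat_lit 2518235784) (nat_lit 102) (nat_lit 1) (nat_lit 101) (nat_lit 1) (nat_lit 106) (nat_lit 1) (nat_lit 358) (nat_lit 369) (nat_lit 293)) (XT.nd (nat_lit 78) (nat_lit 304) (nat_lit 0) (XT.lf (nat_lit 304) (nat_lit 1459315884) (nat_lit 0) (nat_lit 987886061) (nat_lit 228) (nat_lit 1225152084) (nat_lit 102) (nat_lit 1) (nat_lit 98) (nat_lit 1) (nat_lit 101) (nat_lit 1) (nat_lit 359) (nat_lit 369) (nat_lit 292))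 (XT.lf (nat_lit 76) (nat_lit 760013476) (nat_lit 0) (nat_lit 36265681) (nat_lit 304) (nat_lit 2836852012) (nat_lit 95) (nat_lit 1) (nat_lit 94) (nat_lit 1) (nat_lit 98) (nat_lit 1) (nat_lit 360) (nat_lit 369) (nat_lit 291)))))) (XT.nd (nat_lit 312) (nat_lit 988) (nat_lit 0) (XT.nd (nat_lit 156) (nat_lit 532) (nat_lit 0) (XT.nd (nat_lit 78) (nat_lit 228) (nat_lit 0) (XT.lf (nat_lit 304) (nat_lit 2095662754) (nat_lit 0) (nat_lit 606492601) (nat_lit 228) (nat_lit 892132976) (nat_lit 95) (nat_lit 1) (nat_lit 91) (nat_lit 1) (nat_lit 94) (nat_lit 1) (nat_lit 361) (nat_lit 369) (nat_lit 290)) (XT.lf (nat_lit 304) (nat_lit 609911494) (nat_lit 0) (nat_lit 428741479) (nat_lit 228) (nat_lit 2517369497) (nat_lit 92) (nat_lit 1) (nat_lit 88) (nat_lit 1) (nat_lit 91) (nat_lit 1) (nat_lit 362) (nat_lit 369) (nat_lit 289))) (XT.nd (nat_lit 78) (nat_lit 228) (nat_lit 0) (XT.lf (nat_lit 304) (nat_lit 2670077131)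 (nat_lit 0) (nat_lit 258057074) (nat_lit 228) (nat_lit 590098640) (nat_lit 88) (nat_lit 1) (nat_lit 84) (nat_lit 1) (nat_lit 87) (nat_lit 1) (nat_lit 363) (nat_lit 369) (nat_lit 288)) (XT.lf (nat_lit 304) (nat_lit 1195869692) (nat_lit 0) (nat_lit 92922555) (nat_lit 228) (nat_lit 2192094191) (nat_lit 85) (nat_lit 1) (nat_lit 81) (nat_lit 1) (nat_lit 84) (nat_lit 1) (nat_lit 364) (nat_lit 369) (nat_lit 287)))) (XT.nd (nat_lit 156) (nat_lit 684) (nat_lit 0) (XT.nd (nat_lit 78) (nat_lit 228) (nat_lit 0) (XT.lf (nat_lit 76) (nat_lit 3127934410) (nat_lit 0) (nat_lit 256993794) (nat_lit 304) (nat_lit 59175391) (nat_lit 81) (nat_lit 1) (nat_lit 80) (nat_lit 1) (nat_lit 84) (nat_lit 1) (nat_lit 365) (nat_lit 369) (nat_lit 286)) (XT.lf (nat_lit 76) (nat_lit 1513926558) (nat_lit 0) (nat_lit 1683096839) (nat_lit 304) (nat_lit 210602271) (nat_lit 78) (nat_lit 1) (nat_lit 77) (nat_lit 1) (nat_lit 81) (nat_lit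 1) (nat_lit 366) (nat_lit 369) (nat_lit 285))) (XT.nd (nat_lit 78) (nat_lit 456) (nat_lit 0) (XT.lf (nat_lit 304) (nat_lit 282095804) (nat_lit 0) (nat_lit 3024615182) (nat_lit 228) (nat_lit 65058994) (nat_lit 78) (nat_lit 1) (nat_lit 74) (nat_lit 1) (nat_lit 77) (nat_lit 1) (nat_lit 367) (nat_lit 369) (nat_lit 284)) (XT.nd (nat_lit 78) (nat_lit 228) (nat_lit 0) (XT.lf (nat_lit 76) (nat_lit 1715263433) (nat_lit 0) (nat_lit 1134876031) (nat_lit 228) (nat_lit 486049580) (nat_lit 72) (nat_lit 1) (nat_lit 71) (nat_lit 1) (nat_lit 74) (nat_lit 1) (nat_lit 368) (nat_lit 369) (nat_lit 283)) (XT.lf (nat_lit 76) (nat_lit 161033932) (nat_lit 0) (nat_lit 2528153482) (nat_lit 304) (nat_lit 611998096) (nat_lit 69) (nat_lit 1) (nat_lit 68) (nat_lit 1) (nat_lit 72) (nat_lit 1) (nat_lit 369) (nat_lit 369) (nat_lit 282))))))) (XT.nd (nat_lit 702) (nat_lit 228) (nat_lit 0) (XT.nd (nat_lit 312) (nat_lit 1064) (nat_lit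 0) (XT.nd (nat_lit 156) (nat_lit 456) (nat_lit 0) (XT.nd (nat_lit 78) (nat_lit 228) (nat_lit 0) (XT.lf (nat_lit 76) (nat_lit 1894211715) (nat_lit 0) (nat_lit 635593327) (nat_lit 228) (nat_lit 736716912) (nat_lit 66) (nat_lit 1) (nat_lit 65) (nat_lit 1) (nat_lit 68) (nat_lit 1) (nat_lit 370) (nat_lit 369) (nat_lit 281)) (XT.lf (nat_lit 76) (nat_lit 363959468) (nat_lit 0) (nat_lit 2015139539) (nat_lit 304) (nat_lit 853235715) (nat_lit 63) (nat_lit 1) (nat_lit 62) (nat_lit 1) (nat_lit 66) (nat_lit 1) (nat_lit 371) (nat_lit 369) (nat_lit 280))) (XT.nd (nat_lit 78) (nat_lit 228) (nat_lit 0) (XT.lf (nat_lit 76) (nat_lit 2052627376) (nat_lit 0) (nat_lit 181408730) (nat_lit 228) (nat_lit 964525256) (nat_lit 60) (nat_lit 1) (nat_lit 59) (nat_lit 1) (nat_lit 62) (nat_lit 1) (nat_lit 372) (nat_lit 369) (nat_lit 279)) (XT.lf (nat_lit 76) (nat_lit 546383995) (nat_lit 0) (nat_lit 1546470462) (nat_lit 304) (nat_lit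 1072309932) (nat_lit 57) (nat_lit 1) (nat_lit 56) (nat_lit 1) (nat_lit 60) (nat_lit 1) (nat_lit 373) (nat_lit 369) (nat_lit 278)))) (XT.nd (nat_lit 156) (nat_lit 608) (nat_lit 0) (XT.nd (nat_lit 78) (nat_lit 304) (nat_lit 0) (XT.lf (nat_lit 228) (nat_lit 234297066) (nat_lit 0) (nat_lit 1959446273) (nat_lit 152) (nat_lit 938473864) (nat_lit 57) (nat_lit 1) (nat_lit 54) (nat_lit 1) (nat_lit 56) (nat_lit 1) (nat_lit 374) (nat_lit 369) (nat_lit 277)) (XT.lf (nat_lit 76) (nat_lit 709980362) (nat_lit 0) (nat_lit 1118691989) (nat_lit 304) (nat_lit 1270943796) (nat_lit 51) (nat_lit 1) (nat_lit 50) (nat_lit 1) (nat_lit 54) (nat_lit 1) (nat_lit 375) (nat_lit 369) (nat_lit 276))) (XT.nd (nat_lit 78) (nat_lit 456) (nat_lit 0) (XT.lf (nat_lit 228) (nat_lit 613628596) (nat_lit 0) (nat_lit 1704929924) (nat_lit 152) (nat_lit 748886064) (nat_lit 51) (nat_lit 1) (nat_lit 48) (nat_lit 1) (nat_lit 50) (nat_lit 1) (nat_lit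 376) (nat_lit 369) (nat_lit 275)) (XT.nd (nat_lit 78) (nat_lit 152) (nat_lit 0) (XT.lf (nat_lit 76) (nat_lit 856291842) (nat_lit 0) (nat_lit 728613404) (nat_lit 304) (nat_lit 1450729460) (nat_lit 45) (nat_lit 1) (nat_lit 44) (nat_lit 1) (nat_lit 48) (nat_lit 1) (nat_lit 377) (nat_lit 369) (nat_lit 274)) (XT.lf (nat_lit 228) (nat_lit 957239848) (nat_lit 0) (nat_lit 1470114908) (nat_lit 152) (nat_lit 576858692) (nat_lit 45) (nat_lit 1) (nat_lit 42) (nat_lit 1) (nat_lit 44) (nat_lit 1) (nat_lit 378) (nat_lit 369) (nat_lit 273)))))) (XT.nd (nat_lit 45708) (nat_lit 0) (nat_lit 35036) (XT.nd (nat_lit 45474) (nat_lit 0) (nat_lit 34884) (XT.nd (nat_lit 45396) (nat_lit 0) (nat_lit 34808) (XT.lf (nat_lit 76) (nat_lit 986742029) (nat_lit 0) (nat_lit 373287519) (nat_lit 228) (nat_lit 1613138104) (nat_lit 40) (nat_lit 1) (nat_lit 39) (nat_lit 1) (nat_lit 42) (nat_lit 1) (nat_lit 379) (nat_lit 369) (nat_lit 272))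 (XT.lf (nat_lit 1900) (nat_lit 1637201359) (nat_lit 0) (nat_lit 1650892170) (nat_lit 1900) (nat_lit 1637201359) (nat_lit 522) (nat_lit 1) (nat_lit 497) (nat_lit 0) (nat_lit 522) (nat_lit 0) (nat_lit 280) (nat_lit 370) (nat_lit 370))) (XT.nd (nat_lit 78) (nat_lit 0) (nat_lit 0) (XT.lf (nat_lit 1900) (nat_lit 756770610) (nat_lit 0) (nat_lit 3284953381) (nat_lit 1824) (nat_lit 5664785528) (nat_lit 523) (nat_lit 1) (nat_lit 498) (nat_lit 1) (nat_lit 522) (nat_lit 1) (nat_lit 281) (nat_lit 370) (nat_lit 369)) (XT.nd (nat_lit 78) (nat_lit 0) (nat_lit 76) (XT.lf (nat_lit 1900) (nat_lit 6223659127) (nat_lit 76) (nat_lit 1600194777) (nat_lit 0) (nat_lit 1741313951) (nat_lit 523) (nat_lit 1) (nat_lit 499) (nat_lit 1) (nat_lit 498) (nat_lit 1) (nat_lit 282) (nat_lit 370) (nat_lit 368)) (XT.lf (nat_lit 1900) (nat_lit 5224630787) (nat_lit 0) (nat_lit 3466972243) (nat_lit 1824) (nat_lit 734928798) (nat_lit 524)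 (nat_lit 1) (nat_lit 499) (nat_lit 1) (nat_lit 523) (nat_lit 1) (nat_lit 283) (nat_lit 370) (nat_lit 367))))) (XT.nd (nat_lit 156) (nat_lit 0) (nat_lit 76) (XT.nd (nat_lit 78) (nat_lit 0) (nat_lit 76) (XT.lf (nat_lit 1900) (nat_lit 2680276635) (nat_lit 0) (nat_lit 3658664740) (nat_lit 1824) (nat_lit 2951594703) (nat_lit 525) (nat_lit 1) (nat_lit 500) (nat_lit 1) (nat_lit 524) (nat_lit 1) (nat_lit 284) (nat_lit 370) (nat_lit 366)) (XT.lf (nat_lit 1900) (nat_lit 180007312) (nat_lit 0) (nat_lit 3903692389) (nat_lit 1824) (nat_lit 5073623300) (nat_lit 526) (nat_lit 1) (nat_lit 501) (nat_lit 1) (nat_lit 525) (nat_lit 1) (nat_lit 285) (nat_lit 370) (nat_lit 365))) (XT.nd (nat_lit 78) (nat_lit 0) (nat_lit 76) (XT.lf (nat_lit 1900) (nat_lit 4811913585) (nat_lit 76) (nat_lit 1907780302) (nat_lit 0) (nat_lit 2306835383) (nat_lit 526) (nat_lit 1) (nat_lit 502) (nat_lit 1) (nat_lit 501) (nat_lit 1) (nat_lit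 286) (nat_lit 370) (nat_lit 364)) (XT.nd (nat_lit 78) (nat_lit 0) (nat_lit 76) (XT.lf (nat_lit 1900) (nat_lit 4147298704) (nat_lit 0) (nat_lit 4576174717) (nat_lit 1824) (nat_lit 174877809) (nat_lit 527) (nat_lit 1) (nat_lit 502) (nat_lit 1) (nat_lit 526) (nat_lit 1) (nat_lit 287) (nat_lit 370) (nat_lit 363)) (XT.lf (nat_lit 1900) (nat_lit 1632729850) (nat_lit 0) (nat_lit 4995592416) (nat_lit 1824) (nat_lit 2144216474) (nat_lit 528) (nat_lit 1) (nat_lit 503) (nat_lit 1) (nat_lit 527) (nat_lit 1) (nat_lit 288) (nat_lit 370) (nat_lit 362))))))))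
noncomputable def ec76 : XT := (XT.nd (nat_lit 1404) (nat_lit 10564) (nat_lit 0) (XT.nd (nat_lit 702) (nat_lit 7068) (nat_lit 0) (XT.nd (nat_lit 312) (nat_lit 1596) (nat_lit 0) (XT.nd (nat_lit 156) (nat_lit 0) (nat_lit 152) (XT.nd (nat_lit 78) (nat_lit 0) (nat_lit 76) (XT.lf (nat_lit 1900) (nat_lit 3185333761) (nat_lit 76) (nat_lit 4615840527) (nat_lit 0) (nat_lit 847995563) (nat_lit 528) (nat_lit 1) (nat_lit 504) (nat_lit 1) (nat_lit 503) (nat_lit 1) (nat_lit 289) (nat_lit 370) (nat_lit 361)) (XT.lf (nat_lit 1900) (nat_lit 2544314286) (nat_lit 76) (nat_lit 2678430233) (nat_lit 0) (nat_lit 3305343078) (nat_lit 529) (nat_lit 1) (nat_lit 505) (nat_lit 1) (nat_lit 504) (nat_lit 1) (nat_lit 290) (nat_lit 370) (nat_lit 360))) (XT.nd (nat_lit 78) (nat_lit 0) (nat_lit 76) (XT.lf (nat_lit 1900) (nat_lit 1866786362) (nat_lit 76) (nat_lit 824557526) (nat_lit 0) (nat_lit 5718106183) (nat_lit 530) (nat_lit 1)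 (nat_lit 506) (nat_lit 1) (nat_lit 505) (nat_lit 1) (nat_lit 291) (nat_lit 370) (nat_lit 359)) (XT.lf (nat_lit 1900) (nat_lit 212577322) (nat_lit 0) (nat_lit 7144736301) (nat_lit 1824) (nat_lit 935765172) (nat_lit 531) (nat_lit 1) (nat_lit 506) (nat_lit 1) (nat_lit 530) (nat_lit 1) (nat_lit 292) (nat_lit 370) (nat_lit 358)))) (XT.nd (nat_lit 156) (nat_lit 0) (nat_lit 76) (XT.nd (nat_lit 78) (nat_lit 1824) (nat_lit 0) (XT.lf (nat_lit 1900) (nat_lit 377260679) (nat_lit 76) (nat_lit 5556528764) (nat_lit 0) (nat_lit 2244865109) (nat_lit 531) (nat_lit 1) (nat_lit 507) (nat_lit 1) (nat_lit 506) (nat_lit 1) (nat_lit 293) (nat_lit 370) (nat_lit 357)) (XT.lf (nat_lit 1976) (nat_lit 3409598591) (nat_lit 0) (nat_lit 419952688) (nat_lit 1900) (nat_lit 4236894338) (nat_lit 508) (nat_lit 1) (nat_lit 482) (nat_lit 1) (nat_lit 507) (nat_lit 1) (nat_lit 294) (nat_lit 370) (nat_lit 356))) (XT.nd (nat_lit 78) (nat_lit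 0) (nat_lit 0) (XT.lf (nat_lit 1976) (nat_lit 935206748) (nat_lit 0) (nat_lit 1240471818) (nat_lit 1900) (nat_lit 5780752191) (nat_lit 509) (nat_lit 1) (nat_lit 483) (nat_lit 1) (nat_lit 508) (nat_lit 1) (nat_lit 295) (nat_lit 370) (nat_lit 355)) (XT.nd (nat_lit 78) (nat_lit 0) (nat_lit 76) (XT.lf (nat_lit 1976) (nat_lit 5750924067) (nat_lit 76) (nat_lit 585205810) (nat_lit 0) (nat_lit 1512282417) (nat_lit 509) (nat_lit 1) (nat_lit 484) (nat_lit 1) (nat_lit 483) (nat_lit 1) (nat_lit 296) (nat_lit 370) (nat_lit 354)) (XT.lf (nat_lit 76) (nat_lit 3823060136) (nat_lit 0) (nat_lit 2991618264) (nat_lit 1900) (nat_lit 927620095) (nat_lit 485) (nat_lit 1) (nat_lit 484) (nat_lit 1) (nat_lit 509) (nat_lit 1) (nat_lit 297) (nat_lit 370) (nat_lit 353)))))) (XT.nd (nat_lit 312) (nat_lit 3420) (nat_lit 0) (XT.nd (nat_lit 156) (nat_lit 1748) (nat_lit 0) (XT.nd (nat_lit 78) (nat_lit 912) (nat_lit 0) (XT.lf (nat_lit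 76) (nat_lit 1361557106) (nat_lit 0) (nat_lit 3912498034) (nat_lit 1216) (nat_lit 2364164402) (nat_lit 470) (nat_lit 1) (nat_lit 469) (nat_lit 1) (nat_lit 485) (nat_lit 1) (nat_lit 298) (nat_lit 370) (nat_lit 352)) (XT.lf (nat_lit 988) (nat_lit 2674200440) (nat_lit 0) (nat_lit 3795042355) (nat_lit 912) (nat_lit 1066823033) (nat_lit 470) (nat_lit 1) (nat_lit 457) (nat_lit 1) (nat_lit 469) (nat_lit 1) (nat_lit 299) (nat_lit 370) (nat_lit 351))) (XT.nd (nat_lit 78) (nat_lit 836) (nat_lit 0) (XT.lf (nat_lit 988) (nat_lit 1595648070) (nat_lit 0) (nat_lit 2373892717) (nat_lit 912) (nat_lit 3466216127) (nat_lit 458) (nat_lit 1) (nat_lit 445) (nat_lit 1) (nat_lit 457) (nat_lit 1) (nat_lit 300) (nat_lit 370) (nat_lit 350)) (XT.lf (nat_lit 912) (nat_lit 500438366) (nat_lit 0) (nat_lit 1017804210) (nat_lit 836) (nat_lit 5819184464) (nat_lit 446) (nat_lit 1) (nat_lit 434) (nat_lit 1) (nat_lit 445) (nat_lit 1)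 (nat_lit 301) (nat_lit 370) (nat_lit 349)))) (XT.nd (nat_lit 156) (nat_lit 2432) (nat_lit 0) (XT.nd (nat_lit 78) (nat_lit 912) (nat_lit 0) (XT.lf (nat_lit 76) (nat_lit 6349587343) (nat_lit 0) (nat_lit 609885250) (nat_lit 912) (nat_lit 281327552) (nat_lit 434) (nat_lit 1) (nat_lit 433) (nat_lit 1) (nat_lit 445) (nat_lit 1) (nat_lit 302) (nat_lit 370) (nat_lit 348)) (XT.lf (nat_lit 76) (nat_lit 3882280785) (nat_lit 0) (nat_lit 1743735467) (nat_lit 988) (nat_lit 1519663516) (nat_lit 422) (nat_lit 1) (nat_lit 421) (nat_lit 1) (nat_lit 434) (nat_lit 1) (nat_lit 303) (nat_lit 370) (nat_lit 347))) (XT.nd (nat_lit 78) (nat_lit 1596) (nat_lit 0) (XT.lf (nat_lit 76) (nat_lit 1463466949) (nat_lit 0) (nat_lit 2889944632) (nat_lit 912) (nat_lit 2699010633) (nat_lit 411) (nat_lit 1) (nat_lit 410) (nat_lit 1) (nat_lit 422) (nat_lit 1) (nat_lit 304) (nat_lit 370) (nat_lit 346)) (XT.nd (nat_lit 78) (nat_lit 760)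 (nat_lit 0) (XT.lf (nat_lit 912) (nat_lit 2907409384) (nat_lit 0) (nat_lit 3133811987) (nat_lit 836) (nat_lit 919645754) (nat_lit 411) (nat_lit 1) (nat_lit 399) (nat_lit 1) (nat_lit 410) (nat_lit 1) (nat_lit 305) (nat_lit 370) (nat_lit 345)) (XT.lf (nat_lit 836) (nat_lit 1634270318) (nat_lit 0) (nat_lit 1962093116) (nat_lit 760) (nat_lit 3274544153) (nat_lit 400) (nat_lit 1) (nat_lit 389) (nat_lit 1) (nat_lit 399) (nat_lit 1) (nat_lit 306) (nat_lit 370) (nat_lit 344))))))) (XT.nd (nat_lit 702) (nat_lit 5396) (nat_lit 0) (XT.nd (nat_lit 312) (nat_lit 2812) (nat_lit 0) (XT.nd (nat_lit 156) (nat_lit 1520) (nat_lit 0) (XT.nd (nat_lit 78) (nat_lit 76) (nat_lit 0) (XT.lf (nat_lit 836) (nat_lit 353782981) (nat_lit 0) (nat_lit 846406310) (nat_lit 760) (nat_lit 5582507762) (nat_lit 390) (nat_lit 1) (nat_lit 379) (nat_lit 1) (nat_lit 389) (nat_lit 1) (nat_lit 307) (nat_lit 370) (nat_lit 343)) (XT.lf (nat_lit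 76) (nat_lit 5540231802) (nat_lit 0) (nat_lit 929946977) (nat_lit 836) (nat_lit 225717424) (nat_lit 379) (nat_lit 1) (nat_lit 378) (nat_lit 1) (nat_lit 389) (nat_lit 1) (nat_lit 308) (nat_lit 370) (nat_lit 342))) (XT.nd (nat_lit 78) (nat_lit 760) (nat_lit 0) (XT.lf (nat_lit 76) (nat_lit 3138482841) (nat_lit 0) (nat_lit 2227405521) (nat_lit 836) (nat_lit 1244578099) (nat_lit 369) (nat_lit 1) (nat_lit 368) (nat_lit 1) (nat_lit 379) (nat_lit 1) (nat_lit 309) (nat_lit 370) (nat_lit 341)) (XT.lf (nat_lit 76) (nat_lit 785115137) (nat_lit 0) (nat_lit 3529019747) (nat_lit 836) (nat_lit 2212551162) (nat_lit 359) (nat_lit 1) (nat_lit 358) (nat_lit 1) (nat_lit 369) (nat_lit 1) (nat_lit 310) (nat_lit 370) (nat_lit 340)))) (XT.nd (nat_lit 156) (nat_lit 1444) (nat_lit 0) (XT.nd (nat_lit 78) (nat_lit 684) (nat_lit 0) (XT.lf (nat_lit 760) (nat_lit 1600261695) (nat_lit 0) (nat_lit 3303198353) (nat_lit 684) (nat_lit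 1540859101) (nat_lit 359) (nat_lit 1) (nat_lit 349) (nat_lit 1) (nat_lit 358) (nat_lit 1) (nat_lit 311) (nat_lit 370) (nat_lit 339)) (XT.lf (nat_lit 760) (nat_lit 196767301) (nat_lit 0) (nat_lit 2336853064) (nat_lit 684) (nat_lit 3829813453) (nat_lit 350) (nat_lit 1) (nat_lit 340) (nat_lit 1) (nat_lit 349) (nat_lit 1) (nat_lit 312) (nat_lit 370) (nat_lit 338))) (XT.nd (nat_lit 78) (nat_lit 684) (nat_lit 0) (XT.lf (nat_lit 76) (nat_lit 219848554) (nat_lit 0) (nat_lit 1191084092) (nat_lit 760) (nat_lit 4873009820) (nat_lit 331) (nat_lit 1) (nat_lit 330) (nat_lit 1) (nat_lit 340) (nat_lit 1) (nat_lit 313) (nat_lit 370) (nat_lit 337)) (XT.nd (nat_lit 78) (nat_lit 0) (nat_lit 0) (XT.lf (nat_lit 760) (nat_lit 3616279109) (nat_lit 0) (nat_lit 517000873) (nat_lit 684) (nat_lit 2072393856) (nat_lit 331) (nat_lit 1) (nat_lit 321) (nat_lit 1) (nat_lit 330) (nat_lit 1) (nat_lit 314) (nat_lit 370) (nat_lit 336))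 (XT.lf (nat_lit 76) (nat_lit 1810727496) (nat_lit 0) (nat_lit 3990016062) (nat_lit 760) (nat_lit 328080555) (nat_lit 322) (nat_lit 1) (nat_lit 321) (nat_lit 1) (nat_lit 331) (nat_lit 1) (nat_lit 315) (nat_lit 370) (nat_lit 335)))))) (XT.nd (nat_lit 390) (nat_lit 2356) (nat_lit 0) (XT.nd (nat_lit 156) (nat_lit 1748) (nat_lit 0) (XT.nd (nat_lit 78) (nat_lit 684) (nat_lit 0) (XT.lf (nat_lit 684) (nat_lit 658410011) (nat_lit 0) (nat_lit 4927945534) (nat_lit 608) (nat_lit 466956008) (nat_lit 322) (nat_lit 1) (nat_lit 313) (nat_lit 1) (nat_lit 321) (nat_lit 1) (nat_lit 316) (nat_lit 370) (nat_lit 334)) (XT.lf (nat_lit 76) (nat_lit 3263138002) (nat_lit 0) (nat_lit 818877398) (nat_lit 684) (nat_lit 1896877392) (nat_lit 305) (nat_lit 1) (nat_lit 304) (nat_lit 1) (nat_lit 313) (nat_lit 1) (nat_lit 317) (nat_lit 370) (nat_lit 333))) (XT.nd (nat_lit 78) (nat_lit 1140) (nat_lit 0) (XT.lf (nat_lit 76) (nat_lit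 992220357) (nat_lit 0) (nat_lit 2282766915) (nat_lit 684) (nat_lit 2630811018) (nat_lit 297) (nat_lit 1) (nat_lit 296) (nat_lit 1) (nat_lit 305) (nat_lit 1) (nat_lit 318) (nat_lit 370) (nat_lit 332)) (XT.nd (nat_lit 78) (nat_lit 532) (nat_lit 0) (XT.lf (nat_lit 684) (nat_lit 2084344832) (nat_lit 0) (nat_lit 2501710167) (nat_lit 608) (nat_lit 1247866598) (nat_lit 297) (nat_lit 1) (nat_lit 288) (nat_lit 1) (nat_lit 296) (nat_lit 1) (nat_lit 319) (nat_lit 370) (nat_lit 331)) (XT.lf (nat_lit 608) (nat_lit 546241079) (nat_lit 0) (nat_lit 1762886144) (nat_lit 532) (nat_lit 3454143858) (nat_lit 289) (nat_lit 1) (nat_lit 281) (nat_lit 1) (nat_lit 288) (nat_lit 1) (nat_lit 320) (nat_lit 370) (nat_lit 330))))) (XT.nd (nat_lit 156) (nat_lit 1140) (nat_lit 0) (XT.nd (nat_lit 78) (nat_lit 532) (nat_lit 0) (XT.lf (nat_lit 76) (nat_lit 86096993) (nat_lit 0) (nat_lit 971369455) (nat_lit 684) (nat_lit 4636354382)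 (nat_lit 273) (nat_lit 1) (nat_lit 272) (nat_lit 1) (nat_lit 281) (nat_lit 1) (nat_lit 321) (nat_lit 370) (nat_lit 329)) (XT.lf (nat_lit 608) (nat_lit 3137586109) (nat_lit 0) (nat_lit 373243264) (nat_lit 532) (nat_lit 2114496809) (nat_lit 273) (nat_lit 1) (nat_lit 265) (nat_lit 1) (nat_lit 272) (nat_lit 1) (nat_lit 322) (nat_lit 370) (nat_lit 328))) (XT.nd (nat_lit 78) (nat_lit 1140) (nat_lit 0) (XT.lf (nat_lit 76) (nat_lit 1290047878) (nat_lit 0) (nat_lit 3998045629) (nat_lit 608) (nat_lit 269970997) (nat_lit 266) (nat_lit 1) (nat_lit 265) (nat_lit 1) (nat_lit 273) (nat_lit 1) (nat_lit 323) (nat_lit 370) (nat_lit 327)) (XT.nd (nat_lit 78) (nat_lit 532) (nat_lit 0) (XT.lf (nat_lit 76) (nat_lit 4598567636) (nat_lit 0) (nat_lit 15546360) (nat_lit 608) (nat_lit 877780112) (nat_lit 258) (nat_lit 1) (nat_lit 257) (nat_lit 1) (nat_lit 265) (nat_lit 1) (nat_lit 324) (nat_lit 370) (nat_lit 326)) (XT.lf (nat_lit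 76) (nat_lit 2389436702) (nat_lit 0) (nat_lit 1568615535) (nat_lit 608) (nat_lit 1468536931) (nat_lit 251) (nat_lit 1) (nat_lit 250) (nat_lit 1) (nat_lit 258) (nat_lit 1) (nat_lit 325) (nat_lit 370) (nat_lit 325))))))))
noncomputable def ec77 : XT := (XT.nd (nat_lit 1404) (nat_lit 5320) (nat_lit 0) (XT.nd (nat_lit 702) (nat_lit 3572) (nat_lit 0) (XT.nd (nat_lit 312) (nat_lit 1900) (nat_lit 0) (XT.nd (nat_lit 156) (nat_lit 1064) (nat_lit 0) (XT.nd (nat_lit 78) (nat_lit 456) (nat_lit 0) (XT.lf (nat_lit 76) (nat_lit 226992232) (nat_lit 0) (nat_lit 3110899688) (nat_lit 608) (nat_lit 2024605395) (nat_lit 244) (nat_lit 1) (nat_lit 243) (nat_lit 1) (nat_lit 251) (nat_lit 1) (nat_lit 326) (nat_lit 370) (nat_lit 324)) (XT.lf (nat_lit 532) (nat_lit 644705368) (nat_lit 0) (nat_lit 2739918278) (nat_lit 456) (nat_lit 1914721040) (nat_lit 244) (nat_lit 1) (nat_lit 237) (nat_lit 1) (nat_lit 243) (nat_lit 1) (nat_lit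 327) (nat_lit 370) (nat_lit 323))) (XT.nd (nat_lit 78) (nat_lit 456) (nat_lit 0) (XT.lf (nat_lit 76) (nat_lit 1229666239) (nat_lit 0) (nat_lit 938617655) (nat_lit 608) (nat_lit 3068923918) (nat_lit 230) (nat_lit 1) (nat_lit 229) (nat_lit 1) (nat_lit 237) (nat_lit 1) (nat_lit 328) (nat_lit 370) (nat_lit 322)) (XT.lf (nat_lit 532) (nat_lit 2669361005) (nat_lit 0) (nat_lit 1619764604) (nat_lit 456) (nat_lit 886893015) (nat_lit 230) (nat_lit 1) (nat_lit 223) (nat_lit 1) (nat_lit 229) (nat_lit 1) (nat_lit 329) (nat_lit 370) (nat_lit 321)))) (XT.nd (nat_lit 156) (nat_lit 912) (nat_lit 0) (XT.nd (nat_lit 78) (nat_lit 532) (nat_lit 0) (XT.lf (nat_lit 532) (nat_lit 1046011726) (nat_lit 0) (nat_lit 1095592458) (nat_lit 456) (nat_lit 2974192297) (nat_lit 224) (nat_lit 1) (nat_lit 217) (nat_lit 1) (nat_lit 223) (nat_lit 1) (nat_lit 330) (nat_lit 370) (nat_lit 320)) (XT.lf (nat_lit 76) (nat_lit 43607788) (nat_lit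 0) (nat_lit 555739886) (nat_lit 532) (nat_lit 4457259156) (nat_lit 211) (nat_lit 1) (nat_lit 210) (nat_lit 1) (nat_lit 217) (nat_lit 1) (nat_lit 331) (nat_lit 370) (nat_lit 319))) (XT.nd (nat_lit 78) (nat_lit 456) (nat_lit 0) (XT.lf (nat_lit 532) (nat_lit 2855249346) (nat_lit 0) (nat_lit 113569879) (nat_lit 456) (nat_lit 2029283376) (nat_lit 211) (nat_lit 1) (nat_lit 204) (nat_lit 1) (nat_lit 210) (nat_lit 1) (nat_lit 332) (nat_lit 370) (nat_lit 318)) (XT.nd (nat_lit 78) (nat_lit 456) (nat_lit 0) (XT.lf (nat_lit 76) (nat_lit 884808682) (nat_lit 0) (nat_lit 3718031106) (nat_lit 532) (nat_lit 337776770) (nat_lit 205) (nat_lit 1) (nat_lit 204) (nat_lit 1) (nat_lit 211) (nat_lit 1) (nat_lit 333) (nat_lit 370) (nat_lit 317)) (XT.lf (nat_lit 76) (nat_lit 3717535803) (nat_lit 0) (nat_lit 397559260) (nat_lit 456) (nat_lit 768866952) (nat_lit 199) (nat_lit 1) (nat_lit 198) (nat_lit 1) (nat_lit 204) (nat_lit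 1) (nat_lit 334) (nat_lit 370) (nat_lit 316)))))) (XT.nd (nat_lit 312) (nat_lit 1900) (nat_lit 0) (XT.nd (nat_lit 156) (nat_lit 836) (nat_lit 0) (XT.nd (nat_lit 78) (nat_lit 380) (nat_lit 0) (XT.lf (nat_lit 76) (nat_lit 1651130156) (nat_lit 0) (nat_lit 1991706010) (nat_lit 532) (nat_lit 1185232144) (nat_lit 193) (nat_lit 1) (nat_lit 192) (nat_lit 1) (nat_lit 199) (nat_lit 1) (nat_lit 335) (nat_lit 370) (nat_lit 315)) (XT.lf (nat_lit 456) (nat_lit 1200668326) (nat_lit 0) (nat_lit 3196800407) (nat_lit 380) (nat_lit 375672805) (nat_lit 193) (nat_lit 1) (nat_lit 187) (nat_lit 1) (nat_lit 192) (nat_lit 1) (nat_lit 336) (nat_lit 370) (nat_lit 314))) (XT.nd (nat_lit 78) (nat_lit 380) (nat_lit 0) (XT.lf (nat_lit 76) (nat_lit 2341637097) (nat_lit 0) (nat_lit 423383946) (nat_lit 456) (nat_lit 1953921620) (nat_lit 182) (nat_lit 1) (nat_lit 181) (nat_lit 1) (nat_lit 187) (nat_lit 1) (nat_lit 337) (nat_lit 370)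 (nat_lit 313)) (XT.lf (nat_lit 76) (nat_lit 337907013) (nat_lit 0) (nat_lit 2014862289) (nat_lit 456) (nat_lit 2312801386) (nat_lit 177) (nat_lit 1) (nat_lit 176) (nat_lit 1) (nat_lit 182) (nat_lit 1) (nat_lit 338) (nat_lit 370) (nat_lit 312)))) (XT.nd (nat_lit 156) (nat_lit 1140) (nat_lit 0) (XT.nd (nat_lit 78) (nat_lit 380) (nat_lit 0) (XT.lf (nat_lit 456) (nat_lit 1012711152) (nat_lit 0) (nat_lit 1956318615) (nat_lit 380) (nat_lit 1643918465) (nat_lit 177) (nat_lit 1) (nat_lit 171) (nat_lit 1) (nat_lit 176) (nat_lit 1) (nat_lit 339) (nat_lit 370) (nat_lit 311)) (XT.lf (nat_lit 76) (nat_lit 978158570) (nat_lit 0) (nat_lit 601607617) (nat_lit 380) (nat_lit 2981385179) (nat_lit 167) (nat_lit 1) (nat_lit 166) (nat_lit 1) (nat_lit 171) (nat_lit 1) (nat_lit 340) (nat_lit 370) (nat_lit 310))) (XT.nd (nat_lit 78) (nat_lit 760) (nat_lit 0) (XT.lf (nat_lit 456) (nat_lit 2318680177) (nat_lit 0) (nat_lit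 1215609299) (nat_lit 380) (nat_lit 975739271) (nat_lit 167) (nat_lit 1) (nat_lit 161) (nat_lit 1) (nat_lit 166) (nat_lit 1) (nat_lit 341) (nat_lit 370) (nat_lit 309)) (XT.nd (nat_lit 78) (nat_lit 456) (nat_lit 0) (XT.lf (nat_lit 380) (nat_lit 689992770) (nat_lit 0) (nat_lit 869998218) (nat_lit 304) (nat_lit 2899705798) (nat_lit 162) (nat_lit 1) (nat_lit 157) (nat_lit 1) (nat_lit 161) (nat_lit 1) (nat_lit 342) (nat_lit 370) (nat_lit 308)) (XT.lf (nat_lit 456) (nat_lit 3499690100) (nat_lit 0) (nat_lit 540226692) (nat_lit 380) (nat_lit 370181477) (nat_lit 157) (nat_lit 1) (nat_lit 151) (nat_lit 1) (nat_lit 156) (nat_lit 1) (nat_lit 343) (nat_lit 370) (nat_lit 307))))))) (XT.nd (nat_lit 702) (nat_lit 2736) (nat_lit 0) (XT.nd (nat_lit 312) (nat_lit 1596) (nat_lit 0) (XT.nd (nat_lit 156) (nat_lit 684) (nat_lit 0) (XT.nd (nat_lit 78) (nat_lit 0) (nat_lit 0) (XT.lf (nat_lit 380) (nat_lit 1867639460) (nat_lit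 0) (nat_lit 219529177) (nat_lit 304) (nat_lit 2273927800) (nat_lit 152) (nat_lit 1) (nat_lit 147) (nat_lit 1) (nat_lit 151) (nat_lit 1) (nat_lit 344) (nat_lit 370) (nat_lit 306)) (XT.lf (nat_lit 76) (nat_lit 177593404) (nat_lit 0) (nat_lit 4058602189) (nat_lit 380) (nat_lit 76762156) (nat_lit 148) (nat_lit 1) (nat_lit 147) (nat_lit 1) (nat_lit 152) (nat_lit 1) (nat_lit 345) (nat_lit 370) (nat_lit 305))) (XT.nd (nat_lit 78) (nat_lit 304) (nat_lit 0) (XT.lf (nat_lit 76) (nat_lit 2562901543) (nat_lit 0) (nat_lit 1334693822) (nat_lit 380) (nat_lit 367656220) (nat_lit 143) (nat_lit 1) (nat_lit 142) (nat_lit 1) (nat_lit 147) (nat_lit 1) (nat_lit 346) (nat_lit 370) (nat_lit 304)) (XT.lf (nat_lit 76) (nat_lit 676678701) (nat_lit 0) (nat_lit 2902434302) (nat_lit 380) (nat_lit 639225596) (nat_lit 139) (nat_lit 1) (nat_lit 138) (nat_lit 1) (nat_lit 143) (nat_lit 1) (nat_lit 347) (nat_lit 370) (nat_lit 303))))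 (XT.nd (nat_lit 156) (nat_lit 912) (nat_lit 0) (XT.nd (nat_lit 78) (nat_lit 304) (nat_lit 0) (XT.lf (nat_lit 76) (nat_lit 2990229125) (nat_lit 0) (nat_lit 283005705) (nat_lit 380) (nat_lit 898832761) (nat_lit 134) (nat_lit 1) (nat_lit 133) (nat_lit 1) (nat_lit 138) (nat_lit 1) (nat_lit 348) (nat_lit 370) (nat_lit 302)) (XT.lf (nat_lit 76) (nat_lit 1126689978) (nat_lit 0) (nat_lit 1849484667) (nat_lit 380) (nat_lit 1150185842) (nat_lit 130) (nat_lit 1) (nat_lit 129) (nat_lit 1) (nat_lit 134) (nat_lit 1) (nat_lit 349) (nat_lit 370) (nat_lit 301))) (XT.nd (nat_lit 78) (nat_lit 608) (nat_lit 0) (XT.lf (nat_lit 380) (nat_lit 680299367) (nat_lit 0) (nat_lit 2695914623) (nat_lit 304) (nat_lit 705156017) (nat_lit 130) (nat_lit 1) (nat_lit 125) (nat_lit 1) (nat_lit 129) (nat_lit 1) (nat_lit 350) (nat_lit 370) (nat_lit 300)) (XT.nd (nat_lit 78) (nat_lit 304) (nat_lit 0) (XT.lf (nat_lit 76) (nat_lit 1531593119)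 (nat_lit 0) (nat_lit 891639104) (nat_lit 304) (nat_lit 1613679333) (nat_lit 122) (nat_lit 1) (nat_lit 121) (nat_lit 1) (nat_lit 125) (nat_lit 1) (nat_lit 351) (nat_lit 370) (nat_lit 299)) (XT.lf (nat_lit 380) (nat_lit 1556574612) (nat_lit 0) (nat_lit 2164892918) (nat_lit 304) (nat_lit 271646538) (nat_lit 122) (nat_lit 1) (nat_lit 117) (nat_lit 1) (nat_lit 121) (nat_lit 1) (nat_lit 352) (nat_lit 370) (nat_lit 298)))))) (XT.nd (nat_lit 390) (nat_lit 1292) (nat_lit 0) (XT.nd (nat_lit 156) (nat_lit 836) (nat_lit 0) (XT.nd (nat_lit 78) (nat_lit 304) (nat_lit 0) (XT.lf (nat_lit 76) (nat_lit 1895047879) (nat_lit 0) (nat_lit 21404271) (nat_lit 304) (nat_lit 2033434558) (nat_lit 114) (nat_lit 1) (nat_lit 113) (nat_lit 1) (nat_lit 117) (nat_lit 1) (nat_lit 353) (nat_lit 370) (nat_lit 297)) (XT.lf (nat_lit 76) (nat_lit 118825601) (nat_lit 0) (nat_lit 1558748422) (nat_lit 380) (nat_lit 2229645216) (nat_lit 110)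 (nat_lit 1) (nat_lit 109) (nat_lit 1) (nat_lit 114) (nat_lit 1) (nat_lit 354) (nat_lit 370) (nat_lit 296))) (XT.nd (nat_lit 78) (nat_lit 608) (nat_lit 0) (XT.lf (nat_lit 304) (nat_lit 778347703) (nat_lit 0) (nat_lit 1447137073) (nat_lit 228) (nat_lit 1639601279) (nat_lit 110) (nat_lit 1) (nat_lit 106) (nat_lit 1) (nat_lit 109) (nat_lit 1) (nat_lit 355) (nat_lit 370) (nat_lit 295)) (XT.nd (nat_lit 78) (nat_lit 228) (nat_lit 0) (XT.lf (nat_lit 76) (nat_lit 468112241) (nat_lit 0) (nat_lit 761679667) (nat_lit 380) (nat_lit 2593782858) (nat_lit 102) (nat_lit 1) (nat_lit 101) (nat_lit 1) (nat_lit 106) (nat_lit 1) (nat_lit 356) (nat_lit 370) (nat_lit 294)) (XT.lf (nat_lit 304) (nat_lit 1503095361) (nat_lit 0) (nat_lit 1017522643) (nat_lit 228) (nat_lit 1261906646) (nat_lit 102) (nat_lit 1) (nat_lit 98) (nat_lit 1) (nat_lit 101) (nat_lit 1) (nat_lit 357) (nat_lit 370) (nat_lit 293))))) (XT.nd (nat_lit 156)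 (nat_lit 760) (nat_lit 0) (XT.nd (nat_lit 78) (nat_lit 228) (nat_lit 0) (XT.lf (nat_lit 76) (nat_lit 782813881) (nat_lit 0) (nat_lit 37353651) (nat_lit 304) (nat_lit 2921957573) (nat_lit 95) (nat_lit 1) (nat_lit 94) (nat_lit 1) (nat_lit 98) (nat_lit 1) (nat_lit 358) (nat_lit 370) (nat_lit 292)) (XT.lf (nat_lit 304) (nat_lit 2158532637) (nat_lit 0) (nat_lit 624687379) (nat_lit 228) (nat_lit 918896966) (nat_lit 95) (nat_lit 1) (nat_lit 91) (nat_lit 1) (nat_lit 94) (nat_lit 1) (nat_lit 359) (nat_lit 370) (nat_lit 291))) (XT.nd (nat_lit 78) (nat_lit 532) (nat_lit 0) (XT.lf (nat_lit 304) (nat_lit 628208839) (nat_lit 0) (nat_lit 441603723) (nat_lit 228) (nat_lit 2592890581) (nat_lit 92) (nat_lit 1) (nat_lit 88) (nat_lit 1) (nat_lit 91) (nat_lit 1) (nat_lit 360) (nat_lit 370) (nat_lit 290)) (XT.nd (nat_lit 78) (nat_lit 228) (nat_lit 0) (XT.lf (nat_lit 304) (nat_lit 2750179445) (nat_lit 0) (nat_lit 265798786)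 (nat_lit 228) (nat_lit 607801599) (nat_lit 88) (nat_lit 1) (nat_lit 84) (nat_lit 1) (nat_lit 87) (nat_lit 1) (nat_lit 361) (nat_lit 370) (nat_lit 289)) (XT.lf (nat_lit 304) (nat_lit 1231745783) (nat_lit 0) (nat_lit 95710232) (nat_lit 228) (nat_lit 2257857017) (nat_lit 85) (nat_lit 1) (nat_lit 81) (nat_lit 1) (nat_lit 84) (nat_lit 1) (nat_lit 362) (nat_lit 370) (nat_lit 288))))))))
noncomputable def ec78 : XT := (XT.nd (nat_lit 46566) (nat_lit 0) (nat_lit 32148) (XT.nd (nat_lit 702) (nat_lit 1672) (nat_lit 0) (XT.nd (nat_lit 312) (nat_lit 1140) (nat_lit 0) (XT.nd (nat_lit 156) (nat_lit 456) (nat_lit 0) (XT.nd (nat_lit 78) (nat_lit 228) (nat_lit 0) (XT.lf (nat_lit 76) (nat_lit 3221772443) (nat_lit 0) (nat_lit 264703607) (nat_lit 304) (nat_lit 60950652) (nat_lit 81) (nat_lit 1) (nat_lit 80) (nat_lit 1) (nat_lit 84) (nat_lit 1) (nat_lit 363) (nat_lit 370) (nat_lit 287)) (XT.lf (nat_lit 76) (nat_lit 1559344355)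 (nat_lit 0) (nat_lit 1733589744) (nat_lit 304) (nat_lit 216920339) (nat_lit 78) (nat_lit 1) (nat_lit 77) (nat_lit 1) (nat_lit 81) (nat_lit 1) (nat_lit 364) (nat_lit 370) (nat_lit 286))) (XT.nd (nat_lit 78) (nat_lit 228) (nat_lit 0) (XT.lf (nat_lit 304) (nat_lit 290558678) (nat_lit 0) (nat_lit 3115353637) (nat_lit 228) (nat_lit 67010764) (nat_lit 78) (nat_lit 1) (nat_lit 74) (nat_lit 1) (nat_lit 77) (nat_lit 1) (nat_lit 365) (nat_lit 370) (nat_lit 285)) (XT.lf (nat_lit 76) (nat_lit 1766721336) (nat_lit 0) (nat_lit 1168922312) (nat_lit 228) (nat_lit 500631068) (nat_lit 72) (nat_lit 1) (nat_lit 71) (nat_lit 1) (nat_lit 74) (nat_lit 1) (nat_lit 366) (nat_lit 370) (nat_lit 284)))) (XT.nd (nat_lit 156) (nat_lit 684) (nat_lit 0) (XT.nd (nat_lit 78) (nat_lit 228) (nat_lit 0) (XT.lf (nat_lit 76) (nat_lit 165864950) (nat_lit 0) (nat_lit 2603998086) (nat_lit 304) (nat_lit 630358039) (nat_lit 69) (nat_lit 1)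 (nat_lit 68) (nat_lit 1) (nat_lit 72) (nat_lit 1) (nat_lit 367) (nat_lit 370) (nat_lit 283)) (XT.lf (nat_lit 76) (nat_lit 1951038067) (nat_lit 0) (nat_lit 654661127) (nat_lit 228) (nat_lit 758818419) (nat_lit 66) (nat_lit 1) (nat_lit 65) (nat_lit 1) (nat_lit 68) (nat_lit 1) (nat_lit 368) (nat_lit 370) (nat_lit 282))) (XT.nd (nat_lit 78) (nat_lit 456) (nat_lit 0) (XT.lf (nat_lit 76) (nat_lit 374878252) (nat_lit 0) (nat_lit 2075593725) (nat_lit 304) (nat_lit 878832787) (nat_lit 63) (nat_lit 1) (nat_lit 62) (nat_lit 1) (nat_lit 66) (nat_lit 1) (nat_lit 369) (nat_lit 370) (nat_lit 281)) (XT.nd (nat_lit 78) (nat_lit 228) (nat_lit 0) (XT.lf (nat_lit 76) (nat_lit 2114206198) (nat_lit 0) (nat_lit 186850992) (nat_lit 228) (nat_lit 993461014) (nat_lit 60) (nat_lit 1) (nat_lit 59) (nat_lit 1) (nat_lit 62) (nat_lit 1) (nat_lit 370) (nat_lit 370) (nat_lit 280)) (XT.lf (nat_lit 76) (nat_lit 562775515) (nat_lit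 0) (nat_lit 1592864576) (nat_lit 304) (nat_lit 1104479230) (nat_lit 57) (nat_lit 1) (nat_lit 56) (nat_lit 1) (nat_lit 60) (nat_lit 1) (nat_lit 371) (nat_lit 370) (nat_lit 279)))))) (XT.nd (nat_lit 312) (nat_lit 760) (nat_lit 0) (XT.nd (nat_lit 156) (nat_lit 456) (nat_lit 0) (XT.nd (nat_lit 78) (nat_lit 304) (nat_lit 0) (XT.lf (nat_lit 228) (nat_lit 241325978) (nat_lit 0) (nat_lit 2018229661) (nat_lit 152) (nat_lit 966628080) (nat_lit 57) (nat_lit 1) (nat_lit 54) (nat_lit 1) (nat_lit 56) (nat_lit 1) (nat_lit 372) (nat_lit 370) (nat_lit 278)) (XT.lf (nat_lit 76) (nat_lit 731279773) (nat_lit 0) (nat_lit 1152252749) (nat_lit 304) (nat_lit 1309072110) (nat_lit 51) (nat_lit 1) (nat_lit 50) (nat_lit 1) (nat_lit 54) (nat_lit 1) (nat_lit 373) (nat_lit 370) (nat_lit 277))) (XT.nd (nat_lit 78) (nat_lit 304) (nat_lit 0) (XT.lf (nat_lit 228) (nat_lit 632037454) (nat_lit 0) (nat_lit 1756077821) (nat_lit 152) (nat_lit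 771352646) (nat_lit 51) (nat_lit 1) (nat_lit 48) (nat_lit 1) (nat_lit 50) (nat_lit 1) (nat_lit 374) (nat_lit 370) (nat_lit 276)) (XT.lf (nat_lit 76) (nat_lit 881980598) (nat_lit 0) (nat_lit 750471806) (nat_lit 304) (nat_lit 1494251344) (nat_lit 45) (nat_lit 1) (nat_lit 44) (nat_lit 1) (nat_lit 48) (nat_lit 1) (nat_lit 375) (nat_lit 370) (nat_lit 275)))) (XT.nd (nat_lit 156) (nat_lit 380) (nat_lit 0) (XT.nd (nat_lit 78) (nat_lit 228) (nat_lit 0) (XT.lf (nat_lit 228) (nat_lit 985957044) (nat_lit 0) (nat_lit 1514218355) (nat_lit 152) (nat_lit 594164453) (nat_lit 45) (nat_lit 1) (nat_lit 42) (nat_lit 1) (nat_lit 44) (nat_lit 1) (nat_lit 376) (nat_lit 370) (nat_lit 274)) (XT.lf (nat_lit 76) (nat_lit 1016344290) (nat_lit 0) (nat_lit 384486145) (nat_lit 228) (nat_lit 1661532247) (nat_lit 40) (nat_lit 1) (nat_lit 39) (nat_lit 1) (nat_lit 42) (nat_lit 1) (nat_lit 377) (nat_lit 370) (nat_lit 273))) (XT.nd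 (nat_lit 78) (nat_lit 228) (nat_lit 0) (XT.lf (nat_lit 228) (nat_lit 1305999828) (nat_lit 0) (nat_lit 1291137126) (nat_lit 152) (nat_lit 433609875) (nat_lit 40) (nat_lit 1) (nat_lit 37) (nat_lit 1) (nat_lit 39) (nat_lit 1) (nat_lit 378) (nat_lit 370) (nat_lit 272)) (XT.nd (nat_lit 45240) (nat_lit 0) (nat_lit 35188) (XT.lf (nat_lit 76) (nat_lit 1135723292) (nat_lit 0) (nat_lit 51491939) (nat_lit 228) (nat_lit 1812314977) (nat_lit 35) (nat_lit 1) (nat_lit 34) (nat_lit 1) (nat_lit 37) (nat_lit 1) (nat_lit 379) (nat_lit 370) (nat_lit 271)) (XT.lf (nat_lit 1900) (nat_lit 1686317400) (nat_lit 0) (nat_lit 1700418935) (nat_lit 1900) (nat_lit 1686317400) (nat_lit 522) (nat_lit 1) (nat_lit 497) (nat_lit 0) (nat_lit 522) (nat_lit 0) (nat_lit 278) (nat_lit 371) (nat_lit 371))))))) (XT.nd (nat_lit 702) (nat_lit 3116) (nat_lit 0) (XT.nd (nat_lit 312) (nat_lit 0) (nat_lit 228) (XT.nd (nat_lit 156) (nat_lit 0) (nat_lit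 76) (XT.nd (nat_lit 78) (nat_lit 0) (nat_lit 0) (XT.lf (nat_lit 1900) (nat_lit 779473729) (nat_lit 0) (nat_lit 3383501983) (nat_lit 1824) (nat_lit 5834729094) (nat_lit 523) (nat_lit 1) (nat_lit 498) (nat_lit 1) (nat_lit 522) (nat_lit 1) (nat_lit 279) (nat_lit 371) (nat_lit 370)) (XT.lf (nat_lit 1900) (nat_lit 6410368901) (nat_lit 76) (nat_lit 1648200620) (nat_lit 0) (nat_lit 1793553369) (nat_lit 523) (nat_lit 1) (nat_lit 499) (nat_lit 1) (nat_lit 498) (nat_lit 1) (nat_lit 280) (nat_lit 371) (nat_lit 369))) (XT.nd (nat_lit 78) (nat_lit 0) (nat_lit 76) (XT.lf (nat_lit 1900) (nat_lit 5381369710) (nat_lit 0) (nat_lit 3570981410) (nat_lit 1824) (nat_lit 756976662) (nat_lit 524) (nat_lit 1) (nat_lit 499) (nat_lit 1) (nat_lit 523) (nat_lit 1) (nat_lit 281) (nat_lit 371) (nat_lit 368)) (XT.lf (nat_lit 1900) (nat_lit 2760684934) (nat_lit 0) (nat_lit 3768424683) (nat_lit 1824) (nat_lit 3040142544) (nat_lit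 525) (nat_lit 1) (nat_lit 500) (nat_lit 1) (nat_lit 524) (nat_lit 1) (nat_lit 282) (nat_lit 371) (nat_lit 367)))) (XT.nd (nat_lit 156) (nat_lit 0) (nat_lit 76) (XT.nd (nat_lit 78) (nat_lit 0) (nat_lit 0) (XT.lf (nat_lit 1900) (nat_lit 185407532) (nat_lit 0) (nat_lit 4020803161) (nat_lit 1824) (nat_lit 5225831999) (nat_lit 526) (nat_lit 1) (nat_lit 501) (nat_lit 1) (nat_lit 525) (nat_lit 1) (nat_lit 283) (nat_lit 371) (nat_lit 366)) (XT.lf (nat_lit 1900) (nat_lit 4956270993) (nat_lit 76) (nat_lit 1965013711) (nat_lit 0) (nat_lit 2376040444) (nat_lit 526) (nat_lit 1) (nat_lit 502) (nat_lit 1) (nat_lit 501) (nat_lit 1) (nat_lit 284) (nat_lit 371) (nat_lit 365))) (XT.nd (nat_lit 78) (nat_lit 0) (nat_lit 76) (XT.lf (nat_lit 1900) (nat_lit 4271717665) (nat_lit 0) (nat_lit 4713459959) (nat_lit 1824) (nat_lit 180124143) (nat_lit 527) (nat_lit 1) (nat_lit 502) (nat_lit 1) (nat_lit 526) (nat_lit 1) (nat_lit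 285) (nat_lit 371) (nat_lit 364)) (XT.nd (nat_lit 78) (nat_lit 0) (nat_lit 0) (XT.lf (nat_lit 1900) (nat_lit 1681711746) (nat_lit 0) (nat_lit 5145460188) (nat_lit 1824) (nat_lit 2208542968) (nat_lit 528) (nat_lit 1) (nat_lit 503) (nat_lit 1) (nat_lit 527) (nat_lit 1) (nat_lit 286) (nat_lit 371) (nat_lit 363)) (XT.lf (nat_lit 1900) (nat_lit 3280893774) (nat_lit 76) (nat_lit 4754315743) (nat_lit 0) (nat_lit 873435430) (nat_lit 528) (nat_lit 1) (nat_lit 504) (nat_lit 1) (nat_lit 503) (nat_lit 1) (nat_lit 287) (nat_lit 371) (nat_lit 362)))))) (XT.nd (nat_lit 390) (nat_lit 1900) (nat_lit 0) (XT.nd (nat_lit 156) (nat_lit 1672) (nat_lit 0) (XT.nd (nat_lit 78) (nat_lit 0) (nat_lit 76) (XT.lf (nat_lit 1900) (nat_lit 2620643715) (nat_lit 76) (nat_lit 2758783140) (nat_lit 0) (nat_lit 3404503371) (nat_lit 529) (nat_lit 1) (nat_lit 505) (nat_lit 1) (nat_lit 504) (nat_lit 1) (nat_lit 288) (nat_lit 371) (nat_lit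 361)) (XT.lf (nat_lit 1900) (nat_lit 1922789952) (nat_lit 76) (nat_lit 849294252) (nat_lit 0) (nat_lit 5889649368) (nat_lit 530) (nat_lit 1) (nat_lit 506) (nat_lit 1) (nat_lit 505) (nat_lit 1) (nat_lit 289) (nat_lit 371) (nat_lit 360))) (XT.nd (nat_lit 78) (nat_lit 1824) (nat_lit 0) (XT.lf (nat_lit 1900) (nat_lit 218954642) (nat_lit 0) (nat_lit 7359078390) (nat_lit 1824) (nat_lit 963838127) (nat_lit 531) (nat_lit 1) (nat_lit 506) (nat_lit 1) (nat_lit 530) (nat_lit 1) (nat_lit 290) (nat_lit 371) (nat_lit 359)) (XT.nd (nat_lit 78) (nat_lit 1824) (nat_lit 0) (XT.lf (nat_lit 1900) (nat_lit 388578499) (nat_lit 76) (nat_lit 5723224627) (nat_lit 0) (nat_lit 2312211062) (nat_lit 531) (nat_lit 1) (nat_lit 507) (nat_lit 1) (nat_lit 506) (nat_lit 1) (nat_lit 291) (nat_lit 371) (nat_lit 358)) (XT.lf (nat_lit 1976) (nat_lit 3511886549) (nat_lit 0) (nat_lit 432551269) (nat_lit 1900) (nat_lit 4364001168) (nat_lit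 508) (nat_lit 1) (nat_lit 482) (nat_lit 1) (nat_lit 507) (nat_lit 1) (nat_lit 292) (nat_lit 371) (nat_lit 357))))) (XT.nd (nat_lit 156) (nat_lit 1976) (nat_lit 0) (XT.nd (nat_lit 78) (nat_lit 0) (nat_lit 0) (XT.lf (nat_lit 1976) (nat_lit 963262951) (nat_lit 0) (nat_lit 1277685972) (nat_lit 1900) (nat_lit 5954174757) (nat_lit 509) (nat_lit 1) (nat_lit 483) (nat_lit 1) (nat_lit 508) (nat_lit 1) (nat_lit 293) (nat_lit 371) (nat_lit 356)) (XT.lf (nat_lit 1976) (nat_lit 5923451789) (nat_lit 76) (nat_lit 602761984) (nat_lit 0) (nat_lit 1557650890) (nat_lit 509) (nat_lit 1) (nat_lit 484) (nat_lit 1) (nat_lit 483) (nat_lit 1) (nat_lit 294) (nat_lit 371) (nat_lit 355))) (XT.nd (nat_lit 78) (nat_lit 2052) (nat_lit 0) (XT.lf (nat_lit 76) (nat_lit 3937751940) (nat_lit 0) (nat_lit 3081366812) (nat_lit 1900) (nat_lit 955448698) (nat_lit 485) (nat_lit 1) (nat_lit 484) (nat_lit 1) (nat_lit 509) (nat_lit 1) (nat_lit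 295) (nat_lit 371) (nat_lit 354)) (XT.nd (nat_lit 78) (nat_lit 912) (nat_lit 0) (XT.lf (nat_lit 76) (nat_lit 1402403819) (nat_lit 0) (nat_lit 4029872975) (nat_lit 1216) (nat_lit 2435089334) (nat_lit 470) (nat_lit 1) (nat_lit 469) (nat_lit 1) (nat_lit 485) (nat_lit 1) (nat_lit 296) (nat_lit 371) (nat_lit 353)) (XT.lf (nat_lit 988) (nat_lit 2754426453) (nat_lit 0) (nat_lit 3908893626) (nat_lit 912) (nat_lit 1098827724) (nat_lit 470) (nat_lit 1) (nat_lit 457) (nat_lit 1) (nat_lit 469) (nat_lit 1) (nat_lit 297) (nat_lit 371) (nat_lit 352))))))))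
noncomputable def ec79 : XT := (XT.nd (nat_lit 1404) (nat_lit 8892) (nat_lit 0) (XT.nd (nat_lit 702) (nat_lit 5624) (nat_lit 0) (XT.nd (nat_lit 312) (nat_lit 3268) (nat_lit 0) (XT.nd (nat_lit 156) (nat_lit 988) (nat_lit 0) (XT.nd (nat_lit 78) (nat_lit 836) (nat_lit 0) (XT.lf (nat_lit 988) (nat_lit 1643517512) (nat_lit 0) (nat_lit 2445109499) (nat_lit 912) (nat_lit 3570202611) (nat_lit 458) (nat_lit 1) (nat_lit 445) (nat_lit 1) (nat_lit 457) (nat_lit 1) (nat_lit 298) (nat_lit 371) (nat_lit 351)) (XT.lf (nat_lit 912) (nat_lit 515451517) (nat_lit 0) (nat_lit 1048338336) (nat_lit 836) (nat_lit 5993759998) (nat_lit 446) (nat_lit 1) (nat_lit 434) (nat_lit 1) (nat_lit 445) (nat_lit 1) (nat_lit 299) (nat_lit 371) (nat_lit 350))) (XT.nd (nat_lit 78) (nat_lit 912) (nat_lit 0) (XT.lf (nat_lit 76) (nat_lit 6540074964) (nat_lit 0) (nat_lit 628181807) (nat_lit 912) (nat_lit 289767378) (nat_lit 434) (nat_lit 1)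 (nat_lit 433) (nat_lit 1) (nat_lit 445) (nat_lit 1) (nat_lit 300) (nat_lit 371) (nat_lit 349)) (XT.lf (nat_lit 76) (nat_lit 3998749209) (nat_lit 0) (nat_lit 1796047531) (nat_lit 988) (nat_lit 1565253422) (nat_lit 422) (nat_lit 1) (nat_lit 421) (nat_lit 1) (nat_lit 434) (nat_lit 1) (nat_lit 301) (nat_lit 371) (nat_lit 348)))) (XT.nd (nat_lit 156) (nat_lit 1596) (nat_lit 0) (XT.nd (nat_lit 78) (nat_lit 836) (nat_lit 0) (XT.lf (nat_lit 76) (nat_lit 1507370958) (nat_lit 0) (nat_lit 2976642971) (nat_lit 912) (nat_lit 2779980952) (nat_lit 411) (nat_lit 1) (nat_lit 410) (nat_lit 1) (nat_lit 422) (nat_lit 1) (nat_lit 302) (nat_lit 371) (nat_lit 347)) (XT.lf (nat_lit 912) (nat_lit 2994631666) (nat_lit 0) (nat_lit 3227826347) (nat_lit 836) (nat_lit 947235127) (nat_lit 411) (nat_lit 1) (nat_lit 399) (nat_lit 1) (nat_lit 410) (nat_lit 1) (nat_lit 303) (nat_lit 371) (nat_lit 346))) (XT.nd (nat_lit 78) (nat_lit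 836) (nat_lit 0) (XT.lf (nat_lit 836) (nat_lit 1683298428) (nat_lit 0) (nat_lit 2020955909) (nat_lit 760) (nat_lit 3372780478) (nat_lit 400) (nat_lit 1) (nat_lit 389) (nat_lit 1) (nat_lit 399) (nat_lit 1) (nat_lit 304) (nat_lit 371) (nat_lit 345)) (XT.nd (nat_lit 78) (nat_lit 76) (nat_lit 0) (XT.lf (nat_lit 836) (nat_lit 364396471) (nat_lit 0) (nat_lit 871798500) (nat_lit 760) (nat_lit 5749982994) (nat_lit 390) (nat_lit 1) (nat_lit 379) (nat_lit 1) (nat_lit 389) (nat_lit 1) (nat_lit 305) (nat_lit 371) (nat_lit 344)) (XT.lf (nat_lit 76) (nat_lit 5706438756) (nat_lit 0) (nat_lit 957845386) (nat_lit 836) (nat_lit 232488947) (nat_lit 379) (nat_lit 1) (nat_lit 378) (nat_lit 1) (nat_lit 389) (nat_lit 1) (nat_lit 306) (nat_lit 371) (nat_lit 343)))))) (XT.nd (nat_lit 312) (nat_lit 2736) (nat_lit 0) (XT.nd (nat_lit 156) (nat_lit 1368) (nat_lit 0) (XT.nd (nat_lit 78) (nat_lit 760) (nat_lit 0) (XT.lf (nat_lit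 76) (nat_lit 3232637326) (nat_lit 0) (nat_lit 2294227686) (nat_lit 836) (nat_lit 1281915442) (nat_lit 369) (nat_lit 1) (nat_lit 368) (nat_lit 1) (nat_lit 379) (nat_lit 1) (nat_lit 307) (nat_lit 371) (nat_lit 342)) (XT.lf (nat_lit 76) (nat_lit 808668591) (nat_lit 0) (nat_lit 3634890340) (nat_lit 836) (nat_lit 2278927697) (nat_lit 359) (nat_lit 1) (nat_lit 358) (nat_lit 1) (nat_lit 369) (nat_lit 1) (nat_lit 308) (nat_lit 371) (nat_lit 341))) (XT.nd (nat_lit 78) (nat_lit 684) (nat_lit 0) (XT.lf (nat_lit 760) (nat_lit 1648269546) (nat_lit 0) (nat_lit 3402294304) (nat_lit 684) (nat_lit 1587084874) (nat_lit 359) (nat_lit 1) (nat_lit 349) (nat_lit 1) (nat_lit 358) (nat_lit 1) (nat_lit 309) (nat_lit 371) (nat_lit 340)) (XT.lf (nat_lit 760) (nat_lit 202670320) (nat_lit 0) (nat_lit 2406958656) (nat_lit 684) (nat_lit 3944707856) (nat_lit 350) (nat_lit 1) (nat_lit 340) (nat_lit 1) (nat_lit 349) (nat_lit 1) (nat_lit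 310) (nat_lit 371) (nat_lit 339)))) (XT.nd (nat_lit 156) (nat_lit 1292) (nat_lit 0) (XT.nd (nat_lit 78) (nat_lit 684) (nat_lit 0) (XT.lf (nat_lit 76) (nat_lit 226444010) (nat_lit 0) (nat_lit 1226816615) (nat_lit 760) (nat_lit 5019200114) (nat_lit 331) (nat_lit 1) (nat_lit 330) (nat_lit 1) (nat_lit 340) (nat_lit 1) (nat_lit 311) (nat_lit 371) (nat_lit 338)) (XT.lf (nat_lit 760) (nat_lit 3724767482) (nat_lit 0) (nat_lit 532510899) (nat_lit 684) (nat_lit 2134565671) (nat_lit 331) (nat_lit 1) (nat_lit 321) (nat_lit 1) (nat_lit 330) (nat_lit 1) (nat_lit 312) (nat_lit 371) (nat_lit 337))) (XT.nd (nat_lit 78) (nat_lit 1292) (nat_lit 0) (XT.lf (nat_lit 76) (nat_lit 1865049321) (nat_lit 0) (nat_lit 4109716544) (nat_lit 760) (nat_lit 337922972) (nat_lit 322) (nat_lit 1) (nat_lit 321) (nat_lit 1) (nat_lit 331) (nat_lit 1) (nat_lit 313) (nat_lit 371) (nat_lit 336)) (XT.nd (nat_lit 78) (nat_lit 684) (nat_lit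 0) (XT.lf (nat_lit 684) (nat_lit 678162311) (nat_lit 0) (nat_lit 5075783900) (nat_lit 608) (nat_lit 480964688) (nat_lit 322) (nat_lit 1) (nat_lit 313) (nat_lit 1) (nat_lit 321) (nat_lit 1) (nat_lit 314) (nat_lit 371) (nat_lit 335)) (XT.lf (nat_lit 76) (nat_lit 3361032143) (nat_lit 0) (nat_lit 843443719) (nat_lit 684) (nat_lit 1953783714) (nat_lit 305) (nat_lit 1) (nat_lit 304) (nat_lit 1) (nat_lit 313) (nat_lit 1) (nat_lit 315) (nat_lit 371) (nat_lit 334))))))) (XT.nd (nat_lit 702) (nat_lit 4256) (nat_lit 0) (XT.nd (nat_lit 312) (nat_lit 2204) (nat_lit 0) (XT.nd (nat_lit 156) (nat_lit 1216) (nat_lit 0) (XT.nd (nat_lit 78) (nat_lit 608) (nat_lit 0) (XT.lf (nat_lit 76) (nat_lit 1021986968) (nat_lit 0) (nat_lit 2351249923) (nat_lit 684) (nat_lit 2709735349) (nat_lit 297) (nat_lit 1) (nat_lit 296) (nat_lit 1) (nat_lit 305) (nat_lit 1) (nat_lit 316) (nat_lit 371) (nat_lit 333)) (XT.lf (nat_lit 684) (nat_lit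 2146875177) (nat_lit 0) (nat_lit 2576761472) (nat_lit 608) (nat_lit 1285302596) (nat_lit 297) (nat_lit 1) (nat_lit 288) (nat_lit 1) (nat_lit 296) (nat_lit 1) (nat_lit 317) (nat_lit 371) (nat_lit 332))) (XT.nd (nat_lit 78) (nat_lit 684) (nat_lit 0) (XT.lf (nat_lit 608) (nat_lit 562628312) (nat_lit 0) (nat_lit 1815772728) (nat_lit 532) (nat_lit 3557768174) (nat_lit 289) (nat_lit 1) (nat_lit 281) (nat_lit 1) (nat_lit 288) (nat_lit 1) (nat_lit 318) (nat_lit 371) (nat_lit 331)) (XT.lf (nat_lit 76) (nat_lit 88679903) (nat_lit 0) (nat_lit 1000510539) (nat_lit 684) (nat_lit 4775445013) (nat_lit 273) (nat_lit 1) (nat_lit 272) (nat_lit 1) (nat_lit 281) (nat_lit 1) (nat_lit 319) (nat_lit 371) (nat_lit 330)))) (XT.nd (nat_lit 156) (nat_lit 1672) (nat_lit 0) (XT.nd (nat_lit 78) (nat_lit 0) (nat_lit 0) (XT.lf (nat_lit 608) (nat_lit 3231713693) (nat_lit 0) (nat_lit 384440562) (nat_lit 532) (nat_lit 2177931713)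 (nat_lit 273) (nat_lit 1) (nat_lit 265) (nat_lit 1) (nat_lit 272) (nat_lit 1) (nat_lit 320) (nat_lit 371) (nat_lit 329)) (XT.lf (nat_lit 76) (nat_lit 1328749314) (nat_lit 0) (nat_lit 4117986997) (nat_lit 608) (nat_lit 278070127) (nat_lit 266) (nat_lit 1) (nat_lit 265) (nat_lit 1) (nat_lit 273) (nat_lit 1) (nat_lit 321) (nat_lit 371) (nat_lit 328))) (XT.nd (nat_lit 78) (nat_lit 1064) (nat_lit 0) (XT.lf (nat_lit 76) (nat_lit 4736524665) (nat_lit 0) (nat_lit 16012750) (nat_lit 608) (nat_lit 904113516) (nat_lit 258) (nat_lit 1) (nat_lit 257) (nat_lit 1) (nat_lit 265) (nat_lit 1) (nat_lit 322) (nat_lit 371) (nat_lit 327)) (XT.nd (nat_lit 78) (nat_lit 532) (nat_lit 0) (XT.lf (nat_lit 76) (nat_lit 2461119803) (nat_lit 0) (nat_lit 1615674002) (nat_lit 608) (nat_lit 1512593039) (nat_lit 251) (nat_lit 1) (nat_lit 250) (nat_lit 1) (nat_lit 258) (nat_lit 1) (nat_lit 323) (nat_lit 371) (nat_lit 326)) (XT.lf (nat_lit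 76) (nat_lit 233801999) (nat_lit 0) (nat_lit 3204226679) (nat_lit 608) (nat_lit 2085343556) (nat_lit 244) (nat_lit 1) (nat_lit 243) (nat_lit 1) (nat_lit 251) (nat_lit 1) (nat_lit 324) (nat_lit 371) (nat_lit 325)))))) (XT.nd (nat_lit 390) (nat_lit 1748) (nat_lit 0) (XT.nd (nat_lit 156) (nat_lit 1444) (nat_lit 0) (XT.nd (nat_lit 78) (nat_lit 608) (nat_lit 0) (XT.lf (nat_lit 532) (nat_lit 664046530) (nat_lit 0) (nat_lit 2822115826) (nat_lit 456) (nat_lit 1972162671) (nat_lit 244) (nat_lit 1) (nat_lit 237) (nat_lit 1) (nat_lit 243) (nat_lit 1) (nat_lit 325) (nat_lit 371) (nat_lit 324)) (XT.lf (nat_lit 76) (nat_lit 1266556226) (nat_lit 0) (nat_lit 966776184) (nat_lit 608) (nat_lit 3160991636) (nat_lit 230) (nat_lit 1) (nat_lit 229) (nat_lit 1) (nat_lit 237) (nat_lit 1) (nat_lit 326) (nat_lit 371) (nat_lit 323))) (XT.nd (nat_lit 78) (nat_lit 988) (nat_lit 0) (XT.lf (nat_lit 532) (nat_lit 2749441836) (nat_lit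 0) (nat_lit 1668357542) (nat_lit 456) (nat_lit 913499806) (nat_lit 230) (nat_lit 1) (nat_lit 223) (nat_lit 1) (nat_lit 229) (nat_lit 1) (nat_lit 327) (nat_lit 371) (nat_lit 322)) (XT.nd (nat_lit 78) (nat_lit 532) (nat_lit 0) (XT.lf (nat_lit 532) (nat_lit 1077392078) (nat_lit 0) (nat_lit 1128460232) (nat_lit 456) (nat_lit 3063418066) (nat_lit 224) (nat_lit 1) (nat_lit 217) (nat_lit 1) (nat_lit 223) (nat_lit 1) (nat_lit 328) (nat_lit 371) (nat_lit 321)) (XT.lf (nat_lit 76) (nat_lit 44916021) (nat_lit 0) (nat_lit 572412083) (nat_lit 532) (nat_lit 4590976931) (nat_lit 211) (nat_lit 1) (nat_lit 210) (nat_lit 1) (nat_lit 217) (nat_lit 1) (nat_lit 329) (nat_lit 371) (nat_lit 320))))) (XT.nd (nat_lit 156) (nat_lit 1292) (nat_lit 0) (XT.nd (nat_lit 78) (nat_lit 0) (nat_lit 0) (XT.lf (nat_lit 532) (nat_lit 2940906826) (nat_lit 0) (nat_lit 116976975) (nat_lit 456) (nat_lit 2090161877) (nat_lit 211) (nat_lit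 1) (nat_lit 204) (nat_lit 1) (nat_lit 210) (nat_lit 1) (nat_lit 330) (nat_lit 371) (nat_lit 319)) (XT.lf (nat_lit 76) (nat_lit 911352942) (nat_lit 0) (nat_lit 3829572039) (nat_lit 532) (nat_lit 347910073) (nat_lit 205) (nat_lit 1) (nat_lit 204) (nat_lit 1) (nat_lit 211) (nat_lit 1) (nat_lit 331) (nat_lit 371) (nat_lit 318))) (XT.nd (nat_lit 78) (nat_lit 836) (nat_lit 0) (XT.lf (nat_lit 76) (nat_lit 3829061877) (nat_lit 0) (nat_lit 409486038) (nat_lit 456) (nat_lit 791932961) (nat_lit 199) (nat_lit 1) (nat_lit 198) (nat_lit 1) (nat_lit 204) (nat_lit 1) (nat_lit 332) (nat_lit 371) (nat_lit 317)) (XT.nd (nat_lit 78) (nat_lit 380) (nat_lit 0) (XT.lf (nat_lit 76) (nat_lit 1700664060) (nat_lit 0) (nat_lit 2051457191) (nat_lit 532) (nat_lit 1220789108) (nat_lit 193) (nat_lit 1) (nat_lit 192) (nat_lit 1) (nat_lit 199) (nat_lit 1) (nat_lit 333) (nat_lit 371) (nat_lit 316)) (XT.lf (nat_lit 456) (nat_lit 1236688376)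 (nat_lit 0) (nat_lit 3292704419) (nat_lit 380) (nat_lit 386942990) (nat_lit 193) (nat_lit 1) (nat_lit 187) (nat_lit 1) (nat_lit 192) (nat_lit 1) (nat_lit 334) (nat_lit 371) (nat_lit 315))))))))
noncomputable def ec80 : XT := (XT.nd (nat_lit 1404) (nat_lit 4484) (nat_lit 0) (XT.nd (nat_lit 702) (nat_lit 2888) (nat_lit 0) (XT.nd (nat_lit 312) (nat_lit 1444) (nat_lit 0) (XT.nd (nat_lit 156) (nat_lit 760) (nat_lit 0) (XT.nd (nat_lit 78) (nat_lit 380) (nat_lit 0) (XT.lf (nat_lit 76) (nat_lit 2411886210) (nat_lit 0) (nat_lit 436085464) (nat_lit 456) (nat_lit 2012539268) (nat_lit 182) (nat_lit 1) (nat_lit 181) (nat_lit 1) (nat_lit 187) (nat_lit 1) (nat_lit 335) (nat_lit 371) (nat_lit 314)) (XT.lf (nat_lit 76) (nat_lit 348044223) (nat_lit 0) (nat_lit 2075308158) (nat_lit 456) (nat_lit 2382185427) (nat_lit 177) (nat_lit 1) (nat_lit 176) (nat_lit 1) (nat_lit 182) (nat_lit 1) (nat_lit 336) (nat_lit 371) (nat_lit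 313))) (XT.nd (nat_lit 78) (nat_lit 380) (nat_lit 0) (XT.lf (nat_lit 456) (nat_lit 1043092487) (nat_lit 0) (nat_lit 2015008174) (nat_lit 380) (nat_lit 1693236019) (nat_lit 177) (nat_lit 1) (nat_lit 171) (nat_lit 1) (nat_lit 176) (nat_lit 1) (nat_lit 337) (nat_lit 371) (nat_lit 312)) (XT.lf (nat_lit 76) (nat_lit 1007503327) (nat_lit 0) (nat_lit 619655846) (nat_lit 380) (nat_lit 3070826734) (nat_lit 167) (nat_lit 1) (nat_lit 166) (nat_lit 1) (nat_lit 171) (nat_lit 1) (nat_lit 338) (nat_lit 371) (nat_lit 311)))) (XT.nd (nat_lit 156) (nat_lit 760) (nat_lit 0) (XT.nd (nat_lit 78) (nat_lit 304) (nat_lit 0) (XT.lf (nat_lit 456) (nat_lit 2388240583) (nat_lit 0) (nat_lit 1252077578) (nat_lit 380) (nat_lit 1005011450) (nat_lit 167) (nat_lit 1) (nat_lit 161) (nat_lit 1) (nat_lit 166) (nat_lit 1) (nat_lit 339) (nat_lit 371) (nat_lit 310)) (XT.lf (nat_lit 380) (nat_lit 710692553) (nat_lit 0) (nat_lit 896098164)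 (nat_lit 304) (nat_lit 2986696972) (nat_lit 162) (nat_lit 1) (nat_lit 157) (nat_lit 1) (nat_lit 161) (nat_lit 1) (nat_lit 340) (nat_lit 371) (nat_lit 309))) (XT.nd (nat_lit 78) (nat_lit 304) (nat_lit 0) (XT.lf (nat_lit 456) (nat_lit 3604680803) (nat_lit 0) (nat_lit 556433493) (nat_lit 380) (nat_lit 381286922) (nat_lit 157) (nat_lit 1) (nat_lit 151) (nat_lit 1) (nat_lit 156) (nat_lit 1) (nat_lit 341) (nat_lit 371) (nat_lit 308)) (XT.nd (nat_lit 78) (nat_lit 0) (nat_lit 0) (XT.lf (nat_lit 380) (nat_lit 1923668644) (nat_lit 0) (nat_lit 226115052) (nat_lit 304) (nat_lit 2342145634) (nat_lit 152) (nat_lit 1) (nat_lit 147) (nat_lit 1) (nat_lit 151) (nat_lit 1) (nat_lit 342) (nat_lit 371) (nat_lit 307)) (XT.lf (nat_lit 76) (nat_lit 182921206) (nat_lit 0) (nat_lit 4180360254) (nat_lit 380) (nat_lit 79065020) (nat_lit 148) (nat_lit 1) (nat_lit 147) (nat_lit 1) (nat_lit 152) (nat_lit 1) (nat_lit 343) (nat_lit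 371) (nat_lit 306)))))) (XT.nd (nat_lit 312) (nat_lit 1520) (nat_lit 0) (XT.nd (nat_lit 156) (nat_lit 684) (nat_lit 0) (XT.nd (nat_lit 78) (nat_lit 304) (nat_lit 0) (XT.lf (nat_lit 76) (nat_lit 2639788589) (nat_lit 0) (nat_lit 1374734637) (nat_lit 380) (nat_lit 378685907) (nat_lit 143) (nat_lit 1) (nat_lit 142) (nat_lit 1) (nat_lit 147) (nat_lit 1) (nat_lit 344) (nat_lit 371) (nat_lit 305)) (XT.lf (nat_lit 76) (nat_lit 696979062) (nat_lit 0) (nat_lit 2989507331) (nat_lit 380) (nat_lit 658402364) (nat_lit 139) (nat_lit 1) (nat_lit 138) (nat_lit 1) (nat_lit 143) (nat_lit 1) (nat_lit 345) (nat_lit 371) (nat_lit 304))) (XT.nd (nat_lit 78) (nat_lit 304) (nat_lit 0) (XT.lf (nat_lit 76) (nat_lit 3079935998) (nat_lit 0) (nat_lit 291495876) (nat_lit 380) (nat_lit 925797744) (nat_lit 134) (nat_lit 1) (nat_lit 133) (nat_lit 1) (nat_lit 138) (nat_lit 1) (nat_lit 346) (nat_lit 371) (nat_lit 303)) (XT.lf (nat_lit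 76) (nat_lit 1160490678) (nat_lit 0) (nat_lit 1904969208) (nat_lit 380) (nat_lit 1184691417) (nat_lit 130) (nat_lit 1) (nat_lit 129) (nat_lit 1) (nat_lit 134) (nat_lit 1) (nat_lit 347) (nat_lit 371) (nat_lit 302)))) (XT.nd (nat_lit 156) (nat_lit 912) (nat_lit 0) (XT.nd (nat_lit 78) (nat_lit 304) (nat_lit 0) (XT.lf (nat_lit 380) (nat_lit 700708348) (nat_lit 0) (nat_lit 2776792062) (nat_lit 304) (nat_lit 726310698) (nat_lit 130) (nat_lit 1) (nat_lit 125) (nat_lit 1) (nat_lit 129) (nat_lit 1) (nat_lit 348) (nat_lit 371) (nat_lit 301)) (XT.lf (nat_lit 76) (nat_lit 1577540913) (nat_lit 0) (nat_lit 918388277) (nat_lit 304) (nat_lit 1662089713) (nat_lit 122) (nat_lit 1) (nat_lit 121) (nat_lit 1) (nat_lit 125) (nat_lit 1) (nat_lit 349) (nat_lit 371) (nat_lit 300))) (XT.nd (nat_lit 78) (nat_lit 608) (nat_lit 0) (XT.lf (nat_lit 380) (nat_lit 1603271850) (nat_lit 0) (nat_lit 2229839706) (nat_lit 304) (nat_lit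 279795934) (nat_lit 122) (nat_lit 1) (nat_lit 117) (nat_lit 1) (nat_lit 121) (nat_lit 1) (nat_lit 350) (nat_lit 371) (nat_lit 299)) (XT.nd (nat_lit 78) (nat_lit 304) (nat_lit 0) (XT.lf (nat_lit 76) (nat_lit 1951899315) (nat_lit 0) (nat_lit 22046399) (nat_lit 304) (nat_lit 2094437595) (nat_lit 114) (nat_lit 1) (nat_lit 113) (nat_lit 1) (nat_lit 117) (nat_lit 1) (nat_lit 351) (nat_lit 371) (nat_lit 298)) (XT.lf (nat_lit 76) (nat_lit 122390369) (nat_lit 0) (nat_lit 1605510874) (nat_lit 380) (nat_lit 2296534572) (nat_lit 110) (nat_lit 1) (nat_lit 109) (nat_lit 1) (nat_lit 114) (nat_lit 1) (nat_lit 352) (nat_lit 371) (nat_lit 297))))))) (XT.nd (nat_lit 702) (nat_lit 2280) (nat_lit 0) (XT.nd (nat_lit 312) (nat_lit 1064) (nat_lit 0) (XT.nd (nat_lit 156) (nat_lit 532) (nat_lit 0) (XT.nd (nat_lit 78) (nat_lit 380) (nat_lit 0) (XT.lf (nat_lit 304) (nat_lit 801698134) (nat_lit 0) (nat_lit 1490551186) (nat_lit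 228) (nat_lit 1688789317) (nat_lit 110) (nat_lit 1) (nat_lit 106) (nat_lit 1) (nat_lit 109) (nat_lit 1) (nat_lit 353) (nat_lit 371) (nat_lit 296)) (XT.lf (nat_lit 76) (nat_lit 482155608) (nat_lit 0) (nat_lit 784530057) (nat_lit 380) (nat_lit 2671596343) (nat_lit 102) (nat_lit 1) (nat_lit 101) (nat_lit 1) (nat_lit 106) (nat_lit 1) (nat_lit 354) (nat_lit 371) (nat_lit 295))) (XT.nd (nat_lit 78) (nat_lit 304) (nat_lit 0) (XT.lf (nat_lit 304) (nat_lit 1548188222) (nat_lit 0) (nat_lit 1048048322) (nat_lit 228) (nat_lit 1299763846) (nat_lit 102) (nat_lit 1) (nat_lit 98) (nat_lit 1) (nat_lit 101) (nat_lit 1) (nat_lit 355) (nat_lit 371) (nat_lit 294)) (XT.lf (nat_lit 76) (nat_lit 806298297) (nat_lit 0) (nat_lit 38474261) (nat_lit 304) (nat_lit 3009616300) (nat_lit 95) (nat_lit 1) (nat_lit 94) (nat_lit 1) (nat_lit 98) (nat_lit 1) (nat_lit 356) (nat_lit 371) (nat_lit 293)))) (XT.nd (nat_lit 156) (nat_lit 608)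 (nat_lit 0) (XT.nd (nat_lit 78) (nat_lit 228) (nat_lit 0) (XT.lf (nat_lit 304) (nat_lit 2223288616) (nat_lit 0) (nat_lit 643428001) (nat_lit 228) (nat_lit 946463875) (nat_lit 95) (nat_lit 1) (nat_lit 91) (nat_lit 1) (nat_lit 94) (nat_lit 1) (nat_lit 357) (nat_lit 371) (nat_lit 292)) (XT.lf (nat_lit 304) (nat_lit 647055104) (nat_lit 0) (nat_lit 454851835) (nat_lit 228) (nat_lit 2670677299) (nat_lit 92) (nat_lit 1) (nat_lit 88) (nat_lit 1) (nat_lit 91) (nat_lit 1) (nat_lit 358) (nat_lit 371) (nat_lit 291))) (XT.nd (nat_lit 78) (nat_lit 304) (nat_lit 0) (XT.lf (nat_lit 304) (nat_lit 2832684829) (nat_lit 0) (nat_lit 273772749) (nat_lit 228) (nat_lit 626035647) (nat_lit 88) (nat_lit 1) (nat_lit 84) (nat_lit 1) (nat_lit 87) (nat_lit 1) (nat_lit 359) (nat_lit 371) (nat_lit 290)) (XT.nd (nat_lit 78) (nat_lit 76) (nat_lit 0) (XT.lf (nat_lit 304) (nat_lit 1268698156) (nat_lit 0) (nat_lit 98581539) (nat_lit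 228) (nat_lit 2325592728) (nat_lit 85) (nat_lit 1) (nat_lit 81) (nat_lit 1) (nat_lit 84) (nat_lit 1) (nat_lit 360) (nat_lit 371) (nat_lit 289)) (XT.lf (nat_lit 76) (nat_lit 3318425616) (nat_lit 0) (nat_lit 272644716) (nat_lit 304) (nat_lit 62779172) (nat_lit 81) (nat_lit 1) (nat_lit 80) (nat_lit 1) (nat_lit 84) (nat_lit 1) (nat_lit 361) (nat_lit 371) (nat_lit 288)))))) (XT.nd (nat_lit 390) (nat_lit 1140) (nat_lit 0) (XT.nd (nat_lit 156) (nat_lit 684) (nat_lit 0) (XT.nd (nat_lit 78) (nat_lit 228) (nat_lit 0) (XT.lf (nat_lit 76) (nat_lit 1606124686) (nat_lit 0) (nat_lit 1785597436) (nat_lit 304) (nat_lit 223427949) (nat_lit 78) (nat_lit 1) (nat_lit 77) (nat_lit 1) (nat_lit 81) (nat_lit 1) (nat_lit 362) (nat_lit 371) (nat_lit 287)) (XT.lf (nat_lit 304) (nat_lit 299275438) (nat_lit 0) (nat_lit 3208814246) (nat_lit 228) (nat_lit 69021087) (nat_lit 78) (nat_lit 1) (nat_lit 74) (nat_lit 1) (nat_lit 77)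 (nat_lit 1) (nat_lit 363) (nat_lit 371) (nat_lit 286))) (XT.nd (nat_lit 78) (nat_lit 456) (nat_lit 0) (XT.lf (nat_lit 76) (nat_lit 1819722976) (nat_lit 0) (nat_lit 1203989981) (nat_lit 228) (nat_lit 515650000) (nat_lit 72) (nat_lit 1) (nat_lit 71) (nat_lit 1) (nat_lit 74) (nat_lit 1) (nat_lit 364) (nat_lit 371) (nat_lit 285)) (XT.nd (nat_lit 78) (nat_lit 228) (nat_lit 0) (XT.lf (nat_lit 76) (nat_lit 170840898) (nat_lit 0) (nat_lit 2682118029) (nat_lit 304) (nat_lit 649268781) (nat_lit 69) (nat_lit 1) (nat_lit 68) (nat_lit 1) (nat_lit 72) (nat_lit 1) (nat_lit 365) (nat_lit 371) (nat_lit 284)) (XT.lf (nat_lit 76) (nat_lit 2009569209) (nat_lit 0) (nat_lit 674300961) (nat_lit 228) (nat_lit 781582972) (nat_lit 66) (nat_lit 1) (nat_lit 65) (nat_lit 1) (nat_lit 68) (nat_lit 1) (nat_lit 366) (nat_lit 371) (nat_lit 283))))) (XT.nd (nat_lit 156) (nat_lit 684) (nat_lit 0) (XT.nd (nat_lit 78) (nat_lit 228) (nat_lit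 0) (XT.lf (nat_lit 76) (nat_lit 386124599) (nat_lit 0) (nat_lit 2137861536) (nat_lit 304) (nat_lit 905197770) (nat_lit 63) (nat_lit 1) (nat_lit 62) (nat_lit 1) (nat_lit 66) (nat_lit 1) (nat_lit 367) (nat_lit 371) (nat_lit 282)) (XT.lf (nat_lit 76) (nat_lit 2177632384) (nat_lit 0) (nat_lit 192456522) (nat_lit 228) (nat_lit 1023264845) (nat_lit 60) (nat_lit 1) (nat_lit 59) (nat_lit 1) (nat_lit 62) (nat_lit 1) (nat_lit 368) (nat_lit 371) (nat_lit 281))) (XT.nd (nat_lit 78) (nat_lit 456) (nat_lit 0) (XT.lf (nat_lit 76) (nat_lit 579658781) (nat_lit 0) (nat_lit 1640650513) (nat_lit 304) (nat_lit 1137613607) (nat_lit 57) (nat_lit 1) (nat_lit 56) (nat_lit 1) (nat_lit 60) (nat_lit 1) (nat_lit 369) (nat_lit 371) (nat_lit 280)) (XT.nd (nat_lit 78) (nat_lit 304) (nat_lit 0) (XT.lf (nat_lit 228) (nat_lit 248565757) (nat_lit 0) (nat_lit 2078776551) (nat_lit 152) (nat_lit 995626923) (nat_lit 57) (nat_lit 1) (nat_lit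 54) (nat_lit 1) (nat_lit 56) (nat_lit 1) (nat_lit 370) (nat_lit 371) (nat_lit 279)) (XT.lf (nat_lit 76) (nat_lit 753218166) (nat_lit 0) (nat_lit 1186820331) (nat_lit 304) (nat_lit 1348344273) (nat_lit 51) (nat_lit 1) (nat_lit 50) (nat_lit 1) (nat_lit 54) (nat_lit 1) (nat_lit 371) (nat_lit 371) (nat_lit 278))))))))
noncomputable def ec81 : XT := (XT.nd (nat_lit 46488) (nat_lit 0) (nat_lit 25536) (XT.nd (nat_lit 45786) (nat_lit 0) (nat_lit 35416) (XT.nd (nat_lit 312) (nat_lit 532) (nat_lit 0) (XT.nd (nat_lit 156) (nat_lit 380) (nat_lit 0) (XT.nd (nat_lit 78) (nat_lit 304) (nat_lit 0) (XT.lf (nat_lit 228) (nat_lit 650998578) (nat_lit 0) (nat_lit 1808760156) (nat_lit 152) (nat_lit 794493225) (nat_lit 51) (nat_lit 1) (nat_lit 48) (nat_lit 1) (nat_lit 50) (nat_lit 1) (nat_lit 372) (nat_lit 371) (nat_lit 277)) (XT.lf (nat_lit 76) (nat_lit 908440016) (nat_lit 0) (nat_lit 772985960) (nat_lit 304) (nat_lit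 1539078884) (nat_lit 45) (nat_lit 1) (nat_lit 44) (nat_lit 1) (nat_lit 48) (nat_lit 1) (nat_lit 373) (nat_lit 371) (nat_lit 276))) (XT.nd (nat_lit 78) (nat_lit 228) (nat_lit 0) (XT.lf (nat_lit 228) (nat_lit 1015535755) (nat_lit 0) (nat_lit 1559644906) (nat_lit 152) (nat_lit 611989386) (nat_lit 45) (nat_lit 1) (nat_lit 42) (nat_lit 1) (nat_lit 44) (nat_lit 1) (nat_lit 374) (nat_lit 371) (nat_lit 275)) (XT.lf (nat_lit 76) (nat_lit 1046834619) (nat_lit 0) (nat_lit 396020729) (nat_lit 228) (nat_lit 1711378215) (nat_lit 40) (nat_lit 1) (nat_lit 39) (nat_lit 1) (nat_lit 42) (nat_lit 1) (nat_lit 375) (nat_lit 371) (nat_lit 274)))) (XT.nd (nat_lit 156) (nat_lit 152) (nat_lit 0) (XT.nd (nat_lit 78) (nat_lit 228) (nat_lit 0) (XT.lf (nat_lit 228) (nat_lit 1345179823) (nat_lit 0) (nat_lit 1329871240) (nat_lit 152) (nat_lit 446618171) (nat_lit 40) (nat_lit 1) (nat_lit 37) (nat_lit 1) (nat_lit 39) (nat_lit 1)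 (nat_lit 376) (nat_lit 371) (nat_lit 273)) (XT.lf (nat_lit 76) (nat_lit 1169794991) (nat_lit 0) (nat_lit 53036697) (nat_lit 228) (nat_lit 1866684427) (nat_lit 35) (nat_lit 1) (nat_lit 34) (nat_lit 1) (nat_lit 37) (nat_lit 1) (nat_lit 377) (nat_lit 371) (nat_lit 272))) (XT.nd (nat_lit 45162) (nat_lit 0) (nat_lit 35340) (XT.lf (nat_lit 228) (nat_lit 1642703318) (nat_lit 0) (nat_lit 1117996758) (nat_lit 152) (nat_lit 296997938) (nat_lit 35) (nat_lit 1) (nat_lit 32) (nat_lit 1) (nat_lit 34) (nat_lit 1) (nat_lit 378) (nat_lit 371) (nat_lit 271)) (XT.nd (nat_lit 78) (nat_lit 0) (nat_lit 76) (XT.lf (nat_lit 1900) (nat_lit 1736906922) (nat_lit 0) (nat_lit 1751431503) (nat_lit 1900) (nat_lit 1736906922) (nat_lit 522) (nat_lit 1) (nat_lit 497) (nat_lit 0) (nat_lit 522) (nat_lit 0) (nat_lit 276) (nat_lit 372) (nat_lit 372)) (XT.lf (nat_lit 1900) (nat_lit 802857941) (nat_lit 0) (nat_lit 3485007042) (nat_lit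 1824) (nat_lit 6009770967) (nat_lit 523) (nat_lit 1) (nat_lit 498) (nat_lit 1) (nat_lit 522) (nat_lit 1) (nat_lit 277) (nat_lit 372) (nat_lit 371)))))) (XT.nd (nat_lit 312) (nat_lit 0) (nat_lit 228) (XT.nd (nat_lit 156) (nat_lit 0) (nat_lit 152) (XT.nd (nat_lit 78) (nat_lit 0) (nat_lit 76) (XT.lf (nat_lit 1900) (nat_lit 6602679968) (nat_lit 76) (nat_lit 1697646638) (nat_lit 0) (nat_lit 1847359970) (nat_lit 523) (nat_lit 1) (nat_lit 499) (nat_lit 1) (nat_lit 498) (nat_lit 1) (nat_lit 278) (nat_lit 372) (nat_lit 370)) (XT.lf (nat_lit 1900) (nat_lit 5542810801) (nat_lit 0) (nat_lit 3678110853) (nat_lit 1824) (nat_lit 779685962) (nat_lit 524) (nat_lit 1) (nat_lit 499) (nat_lit 1) (nat_lit 523) (nat_lit 1) (nat_lit 279) (nat_lit 372) (nat_lit 369))) (XT.nd (nat_lit 78) (nat_lit 0) (nat_lit 76) (XT.lf (nat_lit 1900) (nat_lit 2843505482) (nat_lit 0) (nat_lit 3881477423) (nat_lit 1824) (nat_lit 3131346820)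 (nat_lit 525) (nat_lit 1) (nat_lit 500) (nat_lit 1) (nat_lit 524) (nat_lit 1) (nat_lit 280) (nat_lit 372) (nat_lit 368)) (XT.lf (nat_lit 1900) (nat_lit 190969758) (nat_lit 0) (nat_lit 4141427256) (nat_lit 1824) (nat_lit 5382606959) (nat_lit 526) (nat_lit 1) (nat_lit 501) (nat_lit 1) (nat_lit 525) (nat_lit 1) (nat_lit 281) (nat_lit 372) (nat_lit 367)))) (XT.nd (nat_lit 156) (nat_lit 0) (nat_lit 152) (XT.nd (nat_lit 78) (nat_lit 0) (nat_lit 76) (XT.lf (nat_lit 1900) (nat_lit 5104959123) (nat_lit 76) (nat_lit 2023964123) (nat_lit 0) (nat_lit 2447321658) (nat_lit 526) (nat_lit 1) (nat_lit 502) (nat_lit 1) (nat_lit 501) (nat_lit 1) (nat_lit 282) (nat_lit 372) (nat_lit 366)) (XT.lf (nat_lit 1900) (nat_lit 4399869195) (nat_lit 0) (nat_lit 4854863757) (nat_lit 1824) (nat_lit 185527867) (nat_lit 527) (nat_lit 1) (nat_lit 502) (nat_lit 1) (nat_lit 526) (nat_lit 1) (nat_lit 283) (nat_lit 372) (nat_lit 365)))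 (XT.nd (nat_lit 78) (nat_lit 0) (nat_lit 0) (XT.lf (nat_lit 1900) (nat_lit 1732163098) (nat_lit 0) (nat_lit 5299823994) (nat_lit 1824) (nat_lit 2274799258) (nat_lit 528) (nat_lit 1) (nat_lit 503) (nat_lit 1) (nat_lit 527) (nat_lit 1) (nat_lit 284) (nat_lit 372) (nat_lit 364)) (XT.nd (nat_lit 78) (nat_lit 0) (nat_lit 76) (XT.lf (nat_lit 1900) (nat_lit 3379320587) (nat_lit 76) (nat_lit 4896945215) (nat_lit 0) (nat_lit 899638493) (nat_lit 528) (nat_lit 1) (nat_lit 504) (nat_lit 1) (nat_lit 503) (nat_lit 1) (nat_lit 285) (nat_lit 372) (nat_lit 363)) (XT.lf (nat_lit 1900) (nat_lit 2699263026) (nat_lit 76) (nat_lit 2841546634) (nat_lit 0) (nat_lit 3506638472) (nat_lit 529) (nat_lit 1) (nat_lit 505) (nat_lit 1) (nat_lit 504) (nat_lit 1) (nat_lit 286) (nat_lit 372) (nat_lit 362))))))) (XT.nd (nat_lit 702) (nat_lit 6764) (nat_lit 0) (XT.nd (nat_lit 312) (nat_lit 1900) (nat_lit 0) (XT.nd (nat_lit 156) (nat_lit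 1748) (nat_lit 0) (XT.nd (nat_lit 78) (nat_lit 0) (nat_lit 76) (XT.lf (nat_lit 1900) (nat_lit 1980473651) (nat_lit 76) (nat_lit 874773080) (nat_lit 0) (nat_lit 6066338849) (nat_lit 530) (nat_lit 1) (nat_lit 506) (nat_lit 1) (nat_lit 505) (nat_lit 1) (nat_lit 287) (nat_lit 372) (nat_lit 361)) (XT.lf (nat_lit 1900) (nat_lit 225523281) (nat_lit 0) (nat_lit 7579850742) (nat_lit 1824) (nat_lit 992753271) (nat_lit 531) (nat_lit 1) (nat_lit 506) (nat_lit 1) (nat_lit 530) (nat_lit 1) (nat_lit 288) (nat_lit 372) (nat_lit 360))) (XT.nd (nat_lit 78) (nat_lit 1824) (nat_lit 0) (XT.lf (nat_lit 1900) (nat_lit 400235854) (nat_lit 76) (nat_lit 5894921366) (nat_lit 0) (nat_lit 2381577394) (nat_lit 531) (nat_lit 1) (nat_lit 507) (nat_lit 1) (nat_lit 506) (nat_lit 1) (nat_lit 289) (nat_lit 372) (nat_lit 359)) (XT.lf (nat_lit 1976) (nat_lit 3617243146) (nat_lit 0) (nat_lit 445527807) (nat_lit 1900) (nat_lit 4494921203)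 (nat_lit 508) (nat_lit 1) (nat_lit 482) (nat_lit 1) (nat_lit 507) (nat_lit 1) (nat_lit 290) (nat_lit 372) (nat_lit 358)))) (XT.nd (nat_lit 156) (nat_lit 1976) (nat_lit 0) (XT.nd (nat_lit 78) (nat_lit 0) (nat_lit 0) (XT.lf (nat_lit 1976) (nat_lit 992160839) (nat_lit 0) (nat_lit 1316016551) (nat_lit 1900) (nat_lit 6132800000) (nat_lit 509) (nat_lit 1) (nat_lit 483) (nat_lit 1) (nat_lit 508) (nat_lit 1) (nat_lit 291) (nat_lit 372) (nat_lit 357)) (XT.lf (nat_lit 1976) (nat_lit 6101155343) (nat_lit 76) (nat_lit 620844844) (nat_lit 0) (nat_lit 1604380416) (nat_lit 509) (nat_lit 1) (nat_lit 484) (nat_lit 1) (nat_lit 483) (nat_lit 1) (nat_lit 292) (nat_lit 372) (nat_lit 356))) (XT.nd (nat_lit 78) (nat_lit 2052) (nat_lit 0) (XT.lf (nat_lit 76) (nat_lit 4055884499) (nat_lit 0) (nat_lit 3173807816) (nat_lit 1900) (nat_lit 984112159) (nat_lit 485) (nat_lit 1) (nat_lit 484) (nat_lit 1) (nat_lit 509) (nat_lit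 1) (nat_lit 293) (nat_lit 372) (nat_lit 355)) (XT.nd (nat_lit 78) (nat_lit 912) (nat_lit 0) (XT.lf (nat_lit 76) (nat_lit 1444475934) (nat_lit 0) (nat_lit 4150769165) (nat_lit 1216) (nat_lit 2508142014) (nat_lit 470) (nat_lit 1) (nat_lit 469) (nat_lit 1) (nat_lit 485) (nat_lit 1) (nat_lit 294) (nat_lit 372) (nat_lit 354)) (XT.lf (nat_lit 988) (nat_lit 2837059247) (nat_lit 0) (nat_lit 4026160434) (nat_lit 912) (nat_lit 1131792556) (nat_lit 470) (nat_lit 1) (nat_lit 457) (nat_lit 1) (nat_lit 469) (nat_lit 1) (nat_lit 295) (nat_lit 372) (nat_lit 353)))))) (XT.nd (nat_lit 390) (nat_lit 3192) (nat_lit 0) (XT.nd (nat_lit 156) (nat_lit 1824) (nat_lit 0) (XT.nd (nat_lit 78) (nat_lit 836) (nat_lit 0) (XT.lf (nat_lit 988) (nat_lit 1692823037) (nat_lit 0) (nat_lit 2518462784) (nat_lit 912) (nat_lit 3677308689) (nat_lit 458) (nat_lit 1) (nat_lit 445) (nat_lit 1) (nat_lit 457) (nat_lit 1) (nat_lit 296) (nat_lit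 372) (nat_lit 352)) (XT.lf (nat_lit 912) (nat_lit 530915062) (nat_lit 0) (nat_lit 1079788486) (nat_lit 836) (nat_lit 6173572798) (nat_lit 446) (nat_lit 1) (nat_lit 434) (nat_lit 1) (nat_lit 445) (nat_lit 1) (nat_lit 297) (nat_lit 372) (nat_lit 351))) (XT.nd (nat_lit 78) (nat_lit 1748) (nat_lit 0) (XT.lf (nat_lit 76) (nat_lit 6736277213) (nat_lit 0) (nat_lit 647027261) (nat_lit 912) (nat_lit 298460400) (nat_lit 434) (nat_lit 1) (nat_lit 433) (nat_lit 1) (nat_lit 445) (nat_lit 1) (nat_lit 298) (nat_lit 372) (nat_lit 350)) (XT.nd (nat_lit 78) (nat_lit 836) (nat_lit 0) (XT.lf (nat_lit 76) (nat_lit 4118711685) (nat_lit 0) (nat_lit 1849928957) (nat_lit 988) (nat_lit 1612211024) (nat_lit 422) (nat_lit 1) (nat_lit 421) (nat_lit 1) (nat_lit 434) (nat_lit 1) (nat_lit 299) (nat_lit 372) (nat_lit 349)) (XT.lf (nat_lit 76) (nat_lit 1552592086) (nat_lit 0) (nat_lit 3065942260) (nat_lit 912) (nat_lit 2863380380)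 (nat_lit 411) (nat_lit 1) (nat_lit 410) (nat_lit 1) (nat_lit 422) (nat_lit 1) (nat_lit 300) (nat_lit 372) (nat_lit 348))))) (XT.nd (nat_lit 156) (nat_lit 1596) (nat_lit 0) (XT.nd (nat_lit 78) (nat_lit 760) (nat_lit 0) (XT.lf (nat_lit 912) (nat_lit 3084470616) (nat_lit 0) (nat_lit 3324661137) (nat_lit 836) (nat_lit 975652180) (nat_lit 411) (nat_lit 1) (nat_lit 399) (nat_lit 1) (nat_lit 410) (nat_lit 1) (nat_lit 301) (nat_lit 372) (nat_lit 347)) (XT.lf (nat_lit 836) (nat_lit 1733797380) (nat_lit 0) (nat_lit 2081584587) (nat_lit 760) (nat_lit 3473963892) (nat_lit 400) (nat_lit 1) (nat_lit 389) (nat_lit 1) (nat_lit 399) (nat_lit 1) (nat_lit 302) (nat_lit 372) (nat_lit 346))) (XT.nd (nat_lit 78) (nat_lit 836) (nat_lit 0) (XT.lf (nat_lit 836) (nat_lit 375328365) (nat_lit 0) (nat_lit 897952455) (nat_lit 760) (nat_lit 5922482484) (nat_lit 390) (nat_lit 1) (nat_lit 379) (nat_lit 1) (nat_lit 389) (nat_lit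 1) (nat_lit 303) (nat_lit 372) (nat_lit 345)) (XT.nd (nat_lit 78) (nat_lit 760) (nat_lit 0) (XT.lf (nat_lit 76) (nat_lit 5877631919) (nat_lit 0) (nat_lit 986580748) (nat_lit 836) (nat_lit 239463615) (nat_lit 379) (nat_lit 1) (nat_lit 378) (nat_lit 1) (nat_lit 389) (nat_lit 1) (nat_lit 304) (nat_lit 372) (nat_lit 344)) (XT.lf (nat_lit 76) (nat_lit 3329616446) (nat_lit 0) (nat_lit 2363054517) (nat_lit 836) (nat_lit 1320372905) (nat_lit 369) (nat_lit 1) (nat_lit 368) (nat_lit 1) (nat_lit 379) (nat_lit 1) (nat_lit 305) (nat_lit 372) (nat_lit 343))))))))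
noncomputable def ec82 : XT := (XT.nd (nat_lit 1404) (nat_lit 7220) (nat_lit 0) (XT.nd (nat_lit 702) (nat_lit 4484) (nat_lit 0) (XT.nd (nat_lit 312) (nat_lit 2584) (nat_lit 0) (XT.nd (nat_lit 156) (nat_lit 1444) (nat_lit 0) (XT.nd (nat_lit 78) (nat_lit 684) (nat_lit 0) (XT.lf (nat_lit 76) (nat_lit 832928649) (nat_lit 0) (nat_lit 3743937050) (nat_lit 836) (nat_lit 2347295528) (nat_lit 359) (nat_lit 1) (nat_lit 358) (nat_lit 1) (nat_lit 369) (nat_lit 1) (nat_lit 306) (nat_lit 372) (nat_lit 342)) (XT.lf (nat_lit 760) (nat_lit 1697717632) (nat_lit 0) (nat_lit 3504363133) (nat_lit 684) (nat_lit 1634697420) (nat_lit 359) (nat_lit 1) (nat_lit 349) (nat_lit 1) (nat_lit 358) (nat_lit 1) (nat_lit 307) (nat_lit 372) (nat_lit 341))) (XT.nd (nat_lit 78) (nat_lit 760) (nat_lit 0) (XT.lf (nat_lit 760) (nat_lit 208750429) (nat_lit 0) (nat_lit 2479167416) (nat_lit 684) (nat_lit 4063049092) (nat_lit 350) (nat_lit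 1) (nat_lit 340) (nat_lit 1) (nat_lit 349) (nat_lit 1) (nat_lit 308) (nat_lit 372) (nat_lit 340)) (XT.lf (nat_lit 76) (nat_lit 233237331) (nat_lit 0) (nat_lit 1263621113) (nat_lit 760) (nat_lit 5169776118) (nat_lit 331) (nat_lit 1) (nat_lit 330) (nat_lit 1) (nat_lit 340) (nat_lit 1) (nat_lit 309) (nat_lit 372) (nat_lit 339)))) (XT.nd (nat_lit 156) (nat_lit 1900) (nat_lit 0) (XT.nd (nat_lit 78) (nat_lit 0) (nat_lit 0) (XT.lf (nat_lit 760) (nat_lit 3836510506) (nat_lit 0) (nat_lit 548486226) (nat_lit 684) (nat_lit 2198602641) (nat_lit 331) (nat_lit 1) (nat_lit 321) (nat_lit 1) (nat_lit 330) (nat_lit 1) (nat_lit 310) (nat_lit 372) (nat_lit 338)) (XT.lf (nat_lit 76) (nat_lit 1921000801) (nat_lit 0) (nat_lit 4233008040) (nat_lit 760) (nat_lit 348060661) (nat_lit 322) (nat_lit 1) (nat_lit 321) (nat_lit 1) (nat_lit 331) (nat_lit 1) (nat_lit 311) (nat_lit 372) (nat_lit 337))) (XT.nd (nat_lit 78) (nat_lit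 1292) (nat_lit 0) (XT.lf (nat_lit 684) (nat_lit 698507180) (nat_lit 0) (nat_lit 5228057417) (nat_lit 608) (nat_lit 495393629) (nat_lit 322) (nat_lit 1) (nat_lit 313) (nat_lit 1) (nat_lit 321) (nat_lit 1) (nat_lit 312) (nat_lit 372) (nat_lit 336)) (XT.nd (nat_lit 78) (nat_lit 608) (nat_lit 0) (XT.lf (nat_lit 76) (nat_lit 3461863107) (nat_lit 0) (nat_lit 868747031) (nat_lit 684) (nat_lit 2012397225) (nat_lit 305) (nat_lit 1) (nat_lit 304) (nat_lit 1) (nat_lit 313) (nat_lit 1) (nat_lit 313) (nat_lit 372) (nat_lit 335)) (XT.lf (nat_lit 76) (nat_lit 1052646577) (nat_lit 0) (nat_lit 2421787421) (nat_lit 684) (nat_lit 2791027409) (nat_lit 297) (nat_lit 1) (nat_lit 296) (nat_lit 1) (nat_lit 305) (nat_lit 1) (nat_lit 314) (nat_lit 372) (nat_lit 334)))))) (XT.nd (nat_lit 312) (nat_lit 2128) (nat_lit 0) (XT.nd (nat_lit 156) (nat_lit 1216) (nat_lit 0) (XT.nd (nat_lit 78) (nat_lit 532) (nat_lit 0) (XT.lf (nat_lit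 684) (nat_lit 2211281433) (nat_lit 0) (nat_lit 2654064316) (nat_lit 608) (nat_lit 1323861674) (nat_lit 297) (nat_lit 1) (nat_lit 288) (nat_lit 1) (nat_lit 296) (nat_lit 1) (nat_lit 315) (nat_lit 372) (nat_lit 333)) (XT.lf (nat_lit 608) (nat_lit 579507161) (nat_lit 0) (nat_lit 1870245910) (nat_lit 532) (nat_lit 3664501219) (nat_lit 289) (nat_lit 1) (nat_lit 281) (nat_lit 1) (nat_lit 288) (nat_lit 1) (nat_lit 316) (nat_lit 372) (nat_lit 332))) (XT.nd (nat_lit 78) (nat_lit 532) (nat_lit 0) (XT.lf (nat_lit 76) (nat_lit 91340300) (nat_lit 0) (nat_lit 1030525855) (nat_lit 684) (nat_lit 4918708364) (nat_lit 273) (nat_lit 1) (nat_lit 272) (nat_lit 1) (nat_lit 281) (nat_lit 1) (nat_lit 317) (nat_lit 372) (nat_lit 331)) (XT.lf (nat_lit 608) (nat_lit 3328665103) (nat_lit 0) (nat_lit 395973779) (nat_lit 532) (nat_lit 2243269664) (nat_lit 273) (nat_lit 1) (nat_lit 265) (nat_lit 1) (nat_lit 272) (nat_lit 1) (nat_lit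 318) (nat_lit 372) (nat_lit 330)))) (XT.nd (nat_lit 156) (nat_lit 1520) (nat_lit 0) (XT.nd (nat_lit 78) (nat_lit 608) (nat_lit 0) (XT.lf (nat_lit 76) (nat_lit 1368611793) (nat_lit 0) (nat_lit 4241526607) (nat_lit 608) (nat_lit 286412231) (nat_lit 266) (nat_lit 1) (nat_lit 265) (nat_lit 1) (nat_lit 273) (nat_lit 1) (nat_lit 319) (nat_lit 372) (nat_lit 329)) (XT.lf (nat_lit 76) (nat_lit 4878620405) (nat_lit 0) (nat_lit 16493133) (nat_lit 608) (nat_lit 931236921) (nat_lit 258) (nat_lit 1) (nat_lit 257) (nat_lit 1) (nat_lit 265) (nat_lit 1) (nat_lit 320) (nat_lit 372) (nat_lit 328))) (XT.nd (nat_lit 78) (nat_lit 988) (nat_lit 0) (XT.lf (nat_lit 76) (nat_lit 2534953397) (nat_lit 0) (nat_lit 1664144222) (nat_lit 608) (nat_lit 1557970830) (nat_lit 251) (nat_lit 1) (nat_lit 250) (nat_lit 1) (nat_lit 258) (nat_lit 1) (nat_lit 321) (nat_lit 372) (nat_lit 327)) (XT.nd (nat_lit 78) (nat_lit 456) (nat_lit 0)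 (XT.lf (nat_lit 76) (nat_lit 240816059) (nat_lit 0) (nat_lit 3300353479) (nat_lit 608) (nat_lit 2147903863) (nat_lit 244) (nat_lit 1) (nat_lit 243) (nat_lit 1) (nat_lit 251) (nat_lit 1) (nat_lit 322) (nat_lit 372) (nat_lit 326)) (XT.lf (nat_lit 532) (nat_lit 683967925) (nat_lit 0) (nat_lit 2906779301) (nat_lit 456) (nat_lit 2031327552) (nat_lit 244) (nat_lit 1) (nat_lit 237) (nat_lit 1) (nat_lit 243) (nat_lit 1) (nat_lit 323) (nat_lit 372) (nat_lit 325))))))) (XT.nd (nat_lit 702) (nat_lit 3420) (nat_lit 0) (XT.nd (nat_lit 312) (nat_lit 1748) (nat_lit 0) (XT.nd (nat_lit 156) (nat_lit 988) (nat_lit 0) (XT.nd (nat_lit 78) (nat_lit 456) (nat_lit 0) (XT.lf (nat_lit 76) (nat_lit 1304552913) (nat_lit 0) (nat_lit 995779470) (nat_lit 608) (nat_lit 3255821385) (nat_lit 230) (nat_lit 1) (nat_lit 229) (nat_lit 1) (nat_lit 237) (nat_lit 1) (nat_lit 324) (nat_lit 372) (nat_lit 324)) (XT.lf (nat_lit 532) (nat_lit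 2831925091) (nat_lit 0) (nat_lit 1718408268) (nat_lit 456) (nat_lit 940904800) (nat_lit 230) (nat_lit 1) (nat_lit 223) (nat_lit 1) (nat_lit 229) (nat_lit 1) (nat_lit 325) (nat_lit 372) (nat_lit 323))) (XT.nd (nat_lit 78) (nat_lit 532) (nat_lit 0) (XT.lf (nat_lit 532) (nat_lit 1109713840) (nat_lit 0) (nat_lit 1162314039) (nat_lit 456) (nat_lit 3155320608) (nat_lit 224) (nat_lit 1) (nat_lit 217) (nat_lit 1) (nat_lit 223) (nat_lit 1) (nat_lit 326) (nat_lit 372) (nat_lit 322)) (XT.lf (nat_lit 76) (nat_lit 46263502) (nat_lit 0) (nat_lit 589584445) (nat_lit 532) (nat_lit 4728706239) (nat_lit 211) (nat_lit 1) (nat_lit 210) (nat_lit 1) (nat_lit 217) (nat_lit 1) (nat_lit 327) (nat_lit 372) (nat_lit 321)))) (XT.nd (nat_lit 156) (nat_lit 1292) (nat_lit 0) (XT.nd (nat_lit 78) (nat_lit 0) (nat_lit 0) (XT.lf (nat_lit 532) (nat_lit 3029134031) (nat_lit 0) (nat_lit 120486285) (nat_lit 456) (nat_lit 2152866734) (nat_lit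 211) (nat_lit 1) (nat_lit 204) (nat_lit 1) (nat_lit 210) (nat_lit 1) (nat_lit 328) (nat_lit 372) (nat_lit 320)) (XT.lf (nat_lit 76) (nat_lit 938693530) (nat_lit 0) (nat_lit 3944459200) (nat_lit 532) (nat_lit 358347375) (nat_lit 205) (nat_lit 1) (nat_lit 204) (nat_lit 1) (nat_lit 211) (nat_lit 1) (nat_lit 329) (nat_lit 372) (nat_lit 319))) (XT.nd (nat_lit 78) (nat_lit 836) (nat_lit 0) (XT.lf (nat_lit 76) (nat_lit 3943933733) (nat_lit 0) (nat_lit 421770619) (nat_lit 456) (nat_lit 815690950) (nat_lit 199) (nat_lit 1) (nat_lit 198) (nat_lit 1) (nat_lit 204) (nat_lit 1) (nat_lit 330) (nat_lit 372) (nat_lit 318)) (XT.nd (nat_lit 78) (nat_lit 380) (nat_lit 0) (XT.lf (nat_lit 76) (nat_lit 1751683982) (nat_lit 0) (nat_lit 2113000906) (nat_lit 532) (nat_lit 1257412781) (nat_lit 193) (nat_lit 1) (nat_lit 192) (nat_lit 1) (nat_lit 199) (nat_lit 1) (nat_lit 331) (nat_lit 372) (nat_lit 317)) (XT.lf (nat_lit 456)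 (nat_lit 1273789027) (nat_lit 0) (nat_lit 3391485551) (nat_lit 380) (nat_lit 398551279) (nat_lit 193) (nat_lit 1) (nat_lit 187) (nat_lit 1) (nat_lit 192) (nat_lit 1) (nat_lit 332) (nat_lit 372) (nat_lit 316)))))) (XT.nd (nat_lit 390) (nat_lit 1444) (nat_lit 0) (XT.nd (nat_lit 156) (nat_lit 1140) (nat_lit 0) (XT.nd (nat_lit 78) (nat_lit 380) (nat_lit 0) (XT.lf (nat_lit 76) (nat_lit 2484242797) (nat_lit 0) (nat_lit 449168028) (nat_lit 456) (nat_lit 2072915446) (nat_lit 182) (nat_lit 1) (nat_lit 181) (nat_lit 1) (nat_lit 187) (nat_lit 1) (nat_lit 333) (nat_lit 372) (nat_lit 315)) (XT.lf (nat_lit 76) (nat_lit 358485550) (nat_lit 0) (nat_lit 2137567402) (nat_lit 456) (nat_lit 2453650990) (nat_lit 177) (nat_lit 1) (nat_lit 176) (nat_lit 1) (nat_lit 182) (nat_lit 1) (nat_lit 334) (nat_lit 372) (nat_lit 314))) (XT.nd (nat_lit 78) (nat_lit 760) (nat_lit 0) (XT.lf (nat_lit 456) (nat_lit 1074385262) (nat_lit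 0) (nat_lit 2075458419) (nat_lit 380) (nat_lit 1744033100) (nat_lit 177) (nat_lit 1) (nat_lit 171) (nat_lit 1) (nat_lit 176) (nat_lit 1) (nat_lit 335) (nat_lit 372) (nat_lit 313)) (XT.nd (nat_lit 78) (nat_lit 380) (nat_lit 0) (XT.lf (nat_lit 76) (nat_lit 1037728427) (nat_lit 0) (nat_lit 638245521) (nat_lit 380) (nat_lit 3162951536) (nat_lit 167) (nat_lit 1) (nat_lit 166) (nat_lit 1) (nat_lit 171) (nat_lit 1) (nat_lit 336) (nat_lit 372) (nat_lit 312)) (XT.lf (nat_lit 456) (nat_lit 2459887800) (nat_lit 0) (nat_lit 1289639905) (nat_lit 380) (nat_lit 1035161793) (nat_lit 167) (nat_lit 1) (nat_lit 161) (nat_lit 1) (nat_lit 166) (nat_lit 1) (nat_lit 337) (nat_lit 372) (nat_lit 311))))) (XT.nd (nat_lit 156) (nat_lit 684) (nat_lit 0) (XT.nd (nat_lit 78) (nat_lit 456) (nat_lit 0) (XT.lf (nat_lit 380) (nat_lit 732013329) (nat_lit 0) (nat_lit 922981109) (nat_lit 304) (nat_lit 3076297881) (nat_lit 162) (nat_lit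 1) (nat_lit 157) (nat_lit 1) (nat_lit 161) (nat_lit 1) (nat_lit 338) (nat_lit 372) (nat_lit 310)) (XT.lf (nat_lit 456) (nat_lit 3712821227) (nat_lit 0) (nat_lit 573126498) (nat_lit 380) (nat_lit 392725529) (nat_lit 157) (nat_lit 1) (nat_lit 151) (nat_lit 1) (nat_lit 156) (nat_lit 1) (nat_lit 339) (nat_lit 372) (nat_lit 309))) (XT.nd (nat_lit 78) (nat_lit 380) (nat_lit 0) (XT.lf (nat_lit 380) (nat_lit 1981378703) (nat_lit 0) (nat_lit 232898503) (nat_lit 304) (nat_lit 2412410003) (nat_lit 152) (nat_lit 1) (nat_lit 147) (nat_lit 1) (nat_lit 151) (nat_lit 1) (nat_lit 340) (nat_lit 372) (nat_lit 308)) (XT.nd (nat_lit 78) (nat_lit 380) (nat_lit 0) (XT.lf (nat_lit 76) (nat_lit 188408842) (nat_lit 0) (nat_lit 4305771062) (nat_lit 380) (nat_lit 81436971) (nat_lit 148) (nat_lit 1) (nat_lit 147) (nat_lit 1) (nat_lit 152) (nat_lit 1) (nat_lit 341) (nat_lit 372) (nat_lit 307)) (XT.lf (nat_lit 76) (nat_lit 2718982247)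 (nat_lit 0) (nat_lit 1415976676) (nat_lit 380) (nat_lit 390046484) (nat_lit 143) (nat_lit 1) (nat_lit 142) (nat_lit 1) (nat_lit 147) (nat_lit 1) (nat_lit 342) (nat_lit 372) (nat_lit 306))))))))
noncomputable def ec83 : XT := (XT.nd (nat_lit 1404) (nat_lit 3572) (nat_lit 0) (XT.nd (nat_lit 702) (nat_lit 2204) (nat_lit 0) (XT.nd (nat_lit 312) (nat_lit 1444) (nat_lit 0) (XT.nd (nat_lit 156) (nat_lit 608) (nat_lit 0) (XT.nd (nat_lit 78) (nat_lit 380) (nat_lit 0) (XT.lf (nat_lit 76) (nat_lit 717888434) (nat_lit 0) (nat_lit 3079192551) (nat_lit 380) (nat_lit 678154435) (nat_lit 139) (nat_lit 1) (nat_lit 138) (nat_lit 1) (nat_lit 143) (nat_lit 1) (nat_lit 343) (nat_lit 372) (nat_lit 305)) (XT.lf (nat_lit 76) (nat_lit 3172334078) (nat_lit 0) (nat_lit 300240752) (nat_lit 380) (nat_lit 953571676) (nat_lit 134) (nat_lit 1) (nat_lit 133) (nat_lit 1) (nat_lit 138) (nat_lit 1) (nat_lit 344) (nat_lit 372) (nat_lit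 304))) (XT.nd (nat_lit 78) (nat_lit 304) (nat_lit 0) (XT.lf (nat_lit 76) (nat_lit 1195305398) (nat_lit 0) (nat_lit 1962118284) (nat_lit 380) (nat_lit 1220232160) (nat_lit 130) (nat_lit 1) (nat_lit 129) (nat_lit 1) (nat_lit 134) (nat_lit 1) (nat_lit 345) (nat_lit 372) (nat_lit 303)) (XT.lf (nat_lit 380) (nat_lit 721729598) (nat_lit 0) (nat_lit 2860095824) (nat_lit 304) (nat_lit 748100019) (nat_lit 130) (nat_lit 1) (nat_lit 125) (nat_lit 1) (nat_lit 129) (nat_lit 1) (nat_lit 346) (nat_lit 372) (nat_lit 302)))) (XT.nd (nat_lit 156) (nat_lit 836) (nat_lit 0) (XT.nd (nat_lit 78) (nat_lit 304) (nat_lit 0) (XT.lf (nat_lit 76) (nat_lit 1624867140) (nat_lit 0) (nat_lit 945939925) (nat_lit 304) (nat_lit 1711952405) (nat_lit 122) (nat_lit 1) (nat_lit 121) (nat_lit 1) (nat_lit 125) (nat_lit 1) (nat_lit 347) (nat_lit 372) (nat_lit 301)) (XT.lf (nat_lit 380) (nat_lit 1651370006) (nat_lit 0) (nat_lit 2296734897)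 (nat_lit 304) (nat_lit 288189812) (nat_lit 122) (nat_lit 1) (nat_lit 117) (nat_lit 1) (nat_lit 121) (nat_lit 1) (nat_lit 348) (nat_lit 372) (nat_lit 300))) (XT.nd (nat_lit 78) (nat_lit 532) (nat_lit 0) (XT.lf (nat_lit 76) (nat_lit 2010456295) (nat_lit 0) (nat_lit 22707791) (nat_lit 304) (nat_lit 2157270722) (nat_lit 114) (nat_lit 1) (nat_lit 113) (nat_lit 1) (nat_lit 117) (nat_lit 1) (nat_lit 349) (nat_lit 372) (nat_lit 299)) (XT.nd (nat_lit 78) (nat_lit 228) (nat_lit 0) (XT.lf (nat_lit 76) (nat_lit 126062080) (nat_lit 0) (nat_lit 1653676201) (nat_lit 380) (nat_lit 2365430609) (nat_lit 110) (nat_lit 1) (nat_lit 109) (nat_lit 1) (nat_lit 114) (nat_lit 1) (nat_lit 350) (nat_lit 372) (nat_lit 298)) (XT.lf (nat_lit 304) (nat_lit 825749078) (nat_lit 0) (nat_lit 1535267721) (nat_lit 228) (nat_lit 1739452996) (nat_lit 110) (nat_lit 1) (nat_lit 106) (nat_lit 1) (nat_lit 109) (nat_lit 1) (nat_lit 351) (nat_lit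 372) (nat_lit 297)))))) (XT.nd (nat_lit 312) (nat_lit 1064) (nat_lit 0) (XT.nd (nat_lit 156) (nat_lit 532) (nat_lit 0) (XT.nd (nat_lit 78) (nat_lit 228) (nat_lit 0) (XT.lf (nat_lit 76) (nat_lit 496620276) (nat_lit 0) (nat_lit 808065958) (nat_lit 380) (nat_lit 2751744234) (nat_lit 102) (nat_lit 1) (nat_lit 101) (nat_lit 1) (nat_lit 106) (nat_lit 1) (nat_lit 352) (nat_lit 372) (nat_lit 296)) (XT.lf (nat_lit 304) (nat_lit 1594633869) (nat_lit 0) (nat_lit 1079489772) (nat_lit 228) (nat_lit 1338756761) (nat_lit 102) (nat_lit 1) (nat_lit 98) (nat_lit 1) (nat_lit 101) (nat_lit 1) (nat_lit 353) (nat_lit 372) (nat_lit 295))) (XT.nd (nat_lit 78) (nat_lit 228) (nat_lit 0) (XT.lf (nat_lit 76) (nat_lit 830487246) (nat_lit 0) (nat_lit 39628489) (nat_lit 304) (nat_lit 3099904789) (nat_lit 95) (nat_lit 1) (nat_lit 94) (nat_lit 1) (nat_lit 98) (nat_lit 1) (nat_lit 354) (nat_lit 372) (nat_lit 294)) (XT.lf (nat_lit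 304) (nat_lit 2289987275) (nat_lit 0) (nat_lit 662730841) (nat_lit 228) (nat_lit 974857791) (nat_lit 95) (nat_lit 1) (nat_lit 91) (nat_lit 1) (nat_lit 94) (nat_lit 1) (nat_lit 355) (nat_lit 372) (nat_lit 293)))) (XT.nd (nat_lit 156) (nat_lit 532) (nat_lit 0) (XT.nd (nat_lit 78) (nat_lit 304) (nat_lit 0) (XT.lf (nat_lit 304) (nat_lit 666466757) (nat_lit 0) (nat_lit 468497390) (nat_lit 228) (nat_lit 2750797618) (nat_lit 92) (nat_lit 1) (nat_lit 88) (nat_lit 1) (nat_lit 91) (nat_lit 1) (nat_lit 356) (nat_lit 372) (nat_lit 292)) (XT.lf (nat_lit 304) (nat_lit 2917665373) (nat_lit 0) (nat_lit 281985932) (nat_lit 228) (nat_lit 644816716) (nat_lit 88) (nat_lit 1) (nat_lit 84) (nat_lit 1) (nat_lit 87) (nat_lit 1) (nat_lit 357) (nat_lit 372) (nat_lit 291))) (XT.nd (nat_lit 78) (nat_lit 304) (nat_lit 0) (XT.lf (nat_lit 304) (nat_lit 1306759101) (nat_lit 0) (nat_lit 101538985) (nat_lit 228) (nat_lit 2395360509)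 (nat_lit 85) (nat_lit 1) (nat_lit 81) (nat_lit 1) (nat_lit 84) (nat_lit 1) (nat_lit 358) (nat_lit 372) (nat_lit 290)) (XT.nd (nat_lit 78) (nat_lit 228) (nat_lit 0) (XT.lf (nat_lit 76) (nat_lit 3417978385) (nat_lit 0) (nat_lit 280824057) (nat_lit 304) (nat_lit 64662547) (nat_lit 81) (nat_lit 1) (nat_lit 80) (nat_lit 1) (nat_lit 84) (nat_lit 1) (nat_lit 359) (nat_lit 372) (nat_lit 289)) (XT.lf (nat_lit 76) (nat_lit 1654308426) (nat_lit 0) (nat_lit 1839165359) (nat_lit 304) (nat_lit 230130788) (nat_lit 78) (nat_lit 1) (nat_lit 77) (nat_lit 1) (nat_lit 81) (nat_lit 1) (nat_lit 360) (nat_lit 372) (nat_lit 288))))))) (XT.nd (nat_lit 702) (nat_lit 1520) (nat_lit 0) (XT.nd (nat_lit 312) (nat_lit 1140) (nat_lit 0) (XT.nd (nat_lit 156) (nat_lit 456) (nat_lit 0) (XT.nd (nat_lit 78) (nat_lit 228) (nat_lit 0) (XT.lf (nat_lit 304) (nat_lit 308253701) (nat_lit 0) (nat_lit 3305078674) (nat_lit 228) (nat_lit 71091719)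 (nat_lit 78) (nat_lit 1) (nat_lit 74) (nat_lit 1) (nat_lit 77) (nat_lit 1) (nat_lit 361) (nat_lit 372) (nat_lit 287)) (XT.lf (nat_lit 76) (nat_lit 1874314665) (nat_lit 0) (nat_lit 1240109681) (nat_lit 228) (nat_lit 531119500) (nat_lit 72) (nat_lit 1) (nat_lit 71) (nat_lit 1) (nat_lit 74) (nat_lit 1) (nat_lit 362) (nat_lit 372) (nat_lit 286))) (XT.nd (nat_lit 78) (nat_lit 228) (nat_lit 0) (XT.lf (nat_lit 76) (nat_lit 175966125) (nat_lit 0) (nat_lit 2762581570) (nat_lit 304) (nat_lit 668746844) (nat_lit 69) (nat_lit 1) (nat_lit 68) (nat_lit 1) (nat_lit 72) (nat_lit 1) (nat_lit 363) (nat_lit 372) (nat_lit 285)) (XT.lf (nat_lit 76) (nat_lit 2069856285) (nat_lit 0) (nat_lit 694529990) (nat_lit 228) (nat_lit 805030461) (nat_lit 66) (nat_lit 1) (nat_lit 65) (nat_lit 1) (nat_lit 68) (nat_lit 1) (nat_lit 364) (nat_lit 372) (nat_lit 284)))) (XT.nd (nat_lit 156) (nat_lit 684) (nat_lit 0) (XT.nd (nat_lit 78)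 (nat_lit 228) (nat_lit 0) (XT.lf (nat_lit 76) (nat_lit 397708337) (nat_lit 0) (nat_lit 2201997383) (nat_lit 304) (nat_lit 932353703) (nat_lit 63) (nat_lit 1) (nat_lit 62) (nat_lit 1) (nat_lit 66) (nat_lit 1) (nat_lit 365) (nat_lit 372) (nat_lit 283)) (XT.lf (nat_lit 76) (nat_lit 2242961355) (nat_lit 0) (nat_lit 198230218) (nat_lit 228) (nat_lit 1053962790) (nat_lit 60) (nat_lit 1) (nat_lit 59) (nat_lit 1) (nat_lit 62) (nat_lit 1) (nat_lit 366) (nat_lit 372) (nat_lit 282))) (XT.nd (nat_lit 78) (nat_lit 456) (nat_lit 0) (XT.lf (nat_lit 76) (nat_lit 597048544) (nat_lit 0) (nat_lit 1689870029) (nat_lit 304) (nat_lit 1171742015) (nat_lit 57) (nat_lit 1) (nat_lit 56) (nat_lit 1) (nat_lit 60) (nat_lit 1) (nat_lit 367) (nat_lit 372) (nat_lit 281)) (XT.nd (nat_lit 78) (nat_lit 304) (nat_lit 0) (XT.lf (nat_lit 228) (nat_lit 256022730) (nat_lit 0) (nat_lit 2141139847) (nat_lit 152) (nat_lit 1025495730) (nat_lit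 57) (nat_lit 1) (nat_lit 54) (nat_lit 1) (nat_lit 56) (nat_lit 1) (nat_lit 368) (nat_lit 372) (nat_lit 280)) (XT.lf (nat_lit 76) (nat_lit 775814711) (nat_lit 0) (nat_lit 1222424941) (nat_lit 304) (nat_lit 1388794601) (nat_lit 51) (nat_lit 1) (nat_lit 50) (nat_lit 1) (nat_lit 54) (nat_lit 1) (nat_lit 369) (nat_lit 372) (nat_lit 279)))))) (XT.nd (nat_lit 390) (nat_lit 532) (nat_lit 0) (XT.nd (nat_lit 156) (nat_lit 532) (nat_lit 0) (XT.nd (nat_lit 78) (nat_lit 304) (nat_lit 0) (XT.lf (nat_lit 228) (nat_lit 670528535) (nat_lit 0) (nat_lit 1863022961) (nat_lit 152) (nat_lit 818328022) (nat_lit 51) (nat_lit 1) (nat_lit 48) (nat_lit 1) (nat_lit 50) (nat_lit 1) (nat_lit 370) (nat_lit 372) (nat_lit 278)) (XT.lf (nat_lit 76) (nat_lit 935693216) (nat_lit 0) (nat_lit 796175539) (nat_lit 304) (nat_lit 1585251251) (nat_lit 45) (nat_lit 1) (nat_lit 44) (nat_lit 1) (nat_lit 48) (nat_lit 1) (nat_lit 371) (nat_lit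 372) (nat_lit 277))) (XT.nd (nat_lit 78) (nat_lit 380) (nat_lit 0) (XT.lf (nat_lit 228) (nat_lit 1046001828) (nat_lit 0) (nat_lit 1606434253) (nat_lit 152) (nat_lit 630349068) (nat_lit 45) (nat_lit 1) (nat_lit 42) (nat_lit 1) (nat_lit 44) (nat_lit 1) (nat_lit 372) (nat_lit 372) (nat_lit 276)) (XT.nd (nat_lit 78) (nat_lit 152) (nat_lit 0) (XT.lf (nat_lit 76) (nat_lit 1078239657) (nat_lit 0) (nat_lit 407901351) (nat_lit 228) (nat_lit 1762719561) (nat_lit 40) (nat_lit 1) (nat_lit 39) (nat_lit 1) (nat_lit 42) (nat_lit 1) (nat_lit 373) (nat_lit 372) (nat_lit 275)) (XT.lf (nat_lit 228) (nat_lit 1385535218) (nat_lit 0) (nat_lit 1369767377) (nat_lit 152) (nat_lit 460016716) (nat_lit 40) (nat_lit 1) (nat_lit 37) (nat_lit 1) (nat_lit 39) (nat_lit 1) (nat_lit 374) (nat_lit 372) (nat_lit 274))))) (XT.nd (nat_lit 156) (nat_lit 152) (nat_lit 0) (XT.nd (nat_lit 78) (nat_lit 152) (nat_lit 0) (XT.lf (nat_lit 76)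 (nat_lit 1204888841) (nat_lit 0) (nat_lit 54627798) (nat_lit 228) (nat_lit 1922684960) (nat_lit 35) (nat_lit 1) (nat_lit 34) (nat_lit 1) (nat_lit 37) (nat_lit 1) (nat_lit 375) (nat_lit 372) (nat_lit 273)) (XT.lf (nat_lit 228) (nat_lit 1691984417) (nat_lit 0) (nat_lit 1151536660) (nat_lit 152) (nat_lit 305907876) (nat_lit 35) (nat_lit 1) (nat_lit 32) (nat_lit 1) (nat_lit 34) (nat_lit 1) (nat_lit 376) (nat_lit 372) (nat_lit 272))) (XT.nd (nat_lit 45084) (nat_lit 0) (nat_lit 35492) (XT.lf (nat_lit 228) (nat_lit 269932705) (nat_lit 0) (nat_lit 1048783883) (nat_lit 152) (nat_lit 1798339841) (nat_lit 33) (nat_lit 1) (nat_lit 30) (nat_lit 1) (nat_lit 32) (nat_lit 1) (nat_lit 377) (nat_lit 372) (nat_lit 271)) (XT.nd (nat_lit 78) (nat_lit 0) (nat_lit 76) (XT.lf (nat_lit 1900) (nat_lit 1789014129) (nat_lit 0) (nat_lit 1803974448) (nat_lit 1900) (nat_lit 1789014129) (nat_lit 522) (nat_lit 1) (nat_lit 497) (nat_lit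 0) (nat_lit 522) (nat_lit 0) (nat_lit 274) (nat_lit 373) (nat_lit 373)) (XT.lf (nat_lit 1900) (nat_lit 826943679) (nat_lit 0) (nat_lit 3589557253) (nat_lit 1824) (nat_lit 6190064096) (nat_lit 523) (nat_lit 1) (nat_lit 498) (nat_lit 1) (nat_lit 522) (nat_lit 1) (nat_lit 275) (nat_lit 373) (nat_lit 372))))))))
noncomputable def ec84 : XT := (XT.nd (nat_lit 1404) (nat_lit 12236) (nat_lit 0) (XT.nd (nat_lit 702) (nat_lit 3116) (nat_lit 0) (XT.nd (nat_lit 312) (nat_lit 0) (nat_lit 228) (XT.nd (nat_lit 156) (nat_lit 0) (nat_lit 152) (XT.nd (nat_lit 78) (nat_lit 0) (nat_lit 76) (XT.lf (nat_lit 1900) (nat_lit 6800760367) (nat_lit 76) (nat_lit 1748576038) (nat_lit 0) (nat_lit 1902780770) (nat_lit 523) (nat_lit 1) (nat_lit 499) (nat_lit 1) (nat_lit 498) (nat_lit 1) (nat_lit 276) (nat_lit 373) (nat_lit 371)) (XT.lf (nat_lit 1900) (nat_lit 5709095125) (nat_lit 0) (nat_lit 3788454178) (nat_lit 1824) (nat_lit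 803076541) (nat_lit 524) (nat_lit 1) (nat_lit 499) (nat_lit 1) (nat_lit 523) (nat_lit 1) (nat_lit 277) (nat_lit 373) (nat_lit 370))) (XT.nd (nat_lit 78) (nat_lit 0) (nat_lit 76) (XT.lf (nat_lit 1900) (nat_lit 2928810646) (nat_lit 0) (nat_lit 3997921746) (nat_lit 1824) (nat_lit 3225287225) (nat_lit 525) (nat_lit 1) (nat_lit 500) (nat_lit 1) (nat_lit 524) (nat_lit 1) (nat_lit 278) (nat_lit 373) (nat_lit 369)) (XT.lf (nat_lit 1900) (nat_lit 196698850) (nat_lit 0) (nat_lit 4265670074) (nat_lit 1824) (nat_lit 5544085168) (nat_lit 526) (nat_lit 1) (nat_lit 501) (nat_lit 1) (nat_lit 525) (nat_lit 1) (nat_lit 279) (nat_lit 373) (nat_lit 368)))) (XT.nd (nat_lit 156) (nat_lit 0) (nat_lit 152) (XT.nd (nat_lit 78) (nat_lit 0) (nat_lit 76) (XT.lf (nat_lit 1900) (nat_lit 5258107896) (nat_lit 76) (nat_lit 2084683047) (nat_lit 0) (nat_lit 2520741307) (nat_lit 526) (nat_lit 1) (nat_lit 502) (nat_lit 1) (nat_lit 501)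 (nat_lit 1) (nat_lit 280) (nat_lit 373) (nat_lit 367)) (XT.lf (nat_lit 1900) (nat_lit 4531865271) (nat_lit 0) (nat_lit 5000509670) (nat_lit 1824) (nat_lit 191093703) (nat_lit 527) (nat_lit 1) (nat_lit 502) (nat_lit 1) (nat_lit 526) (nat_lit 1) (nat_lit 281) (nat_lit 373) (nat_lit 366))) (XT.nd (nat_lit 78) (nat_lit 0) (nat_lit 0) (XT.lf (nat_lit 1900) (nat_lit 1784127991) (nat_lit 0) (nat_lit 5458818714) (nat_lit 1824) (nat_lit 2343043235) (nat_lit 528) (nat_lit 1) (nat_lit 503) (nat_lit 1) (nat_lit 527) (nat_lit 1) (nat_lit 282) (nat_lit 373) (nat_lit 365)) (XT.nd (nat_lit 78) (nat_lit 0) (nat_lit 76) (XT.lf (nat_lit 1900) (nat_lit 3480700205) (nat_lit 76) (nat_lit 5043853572) (nat_lit 0) (nat_lit 926627648) (nat_lit 528) (nat_lit 1) (nat_lit 504) (nat_lit 1) (nat_lit 503) (nat_lit 1) (nat_lit 283) (nat_lit 373) (nat_lit 364)) (XT.lf (nat_lit 1900) (nat_lit 2780240917) (nat_lit 76) (nat_lit 2926793033)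 (nat_lit 0) (nat_lit 3611837626) (nat_lit 529) (nat_lit 1) (nat_lit 505) (nat_lit 1) (nat_lit 504) (nat_lit 1) (nat_lit 284) (nat_lit 373) (nat_lit 363)))))) (XT.nd (nat_lit 312) (nat_lit 1900) (nat_lit 0) (XT.nd (nat_lit 156) (nat_lit 1748) (nat_lit 0) (XT.nd (nat_lit 78) (nat_lit 0) (nat_lit 76) (XT.lf (nat_lit 1900) (nat_lit 2039887861) (nat_lit 76) (nat_lit 901016272) (nat_lit 0) (nat_lit 6248329015) (nat_lit 530) (nat_lit 1) (nat_lit 506) (nat_lit 1) (nat_lit 505) (nat_lit 1) (nat_lit 285) (nat_lit 373) (nat_lit 362)) (XT.lf (nat_lit 1900) (nat_lit 232288980) (nat_lit 0) (nat_lit 7807246264) (nat_lit 1824) (nat_lit 1022535869) (nat_lit 531) (nat_lit 1) (nat_lit 506) (nat_lit 1) (nat_lit 530) (nat_lit 1) (nat_lit 286) (nat_lit 373) (nat_lit 361))) (XT.nd (nat_lit 78) (nat_lit 1824) (nat_lit 0) (XT.lf (nat_lit 1900) (nat_lit 412242930) (nat_lit 76) (nat_lit 6071769007) (nat_lit 0) (nat_lit 2453024716)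 (nat_lit 531) (nat_lit 1) (nat_lit 507) (nat_lit 1) (nat_lit 506) (nat_lit 1) (nat_lit 287) (nat_lit 373) (nat_lit 360)) (XT.lf (nat_lit 1976) (nat_lit 3725760440) (nat_lit 0) (nat_lit 458893641) (nat_lit 1900) (nat_lit 4629768840) (nat_lit 508) (nat_lit 1) (nat_lit 482) (nat_lit 1) (nat_lit 507) (nat_lit 1) (nat_lit 288) (nat_lit 373) (nat_lit 359)))) (XT.nd (nat_lit 156) (nat_lit 1976) (nat_lit 0) (XT.nd (nat_lit 78) (nat_lit 0) (nat_lit 0) (XT.lf (nat_lit 1976) (nat_lit 1021925664) (nat_lit 0) (nat_lit 1355497048) (nat_lit 1900) (nat_lit 6316784000) (nat_lit 509) (nat_lit 1) (nat_lit 483) (nat_lit 1) (nat_lit 508) (nat_lit 1) (nat_lit 289) (nat_lit 373) (nat_lit 358)) (XT.lf (nat_lit 1976) (nat_lit 6284190003) (nat_lit 76) (nat_lit 639470189) (nat_lit 0) (nat_lit 1652511829) (nat_lit 509) (nat_lit 1) (nat_lit 484) (nat_lit 1) (nat_lit 483) (nat_lit 1) (nat_lit 290) (nat_lit 373) (nat_lit 357)))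 (XT.nd (nat_lit 78) (nat_lit 2052) (nat_lit 0) (XT.lf (nat_lit 76) (nat_lit 4177561034) (nat_lit 0) (nat_lit 3269022051) (nat_lit 1900) (nat_lit 1013635523) (nat_lit 485) (nat_lit 1) (nat_lit 484) (nat_lit 1) (nat_lit 509) (nat_lit 1) (nat_lit 291) (nat_lit 373) (nat_lit 356)) (XT.nd (nat_lit 78) (nat_lit 912) (nat_lit 0) (XT.lf (nat_lit 76) (nat_lit 1487810212) (nat_lit 0) (nat_lit 4275292240) (nat_lit 1216) (nat_lit 2583386274) (nat_lit 470) (nat_lit 1) (nat_lit 469) (nat_lit 1) (nat_lit 485) (nat_lit 1) (nat_lit 292) (nat_lit 373) (nat_lit 355)) (XT.lf (nat_lit 988) (nat_lit 2922171024) (nat_lit 0) (nat_lit 4146945248) (nat_lit 912) (nat_lit 1165746333) (nat_lit 470) (nat_lit 1) (nat_lit 457) (nat_lit 1) (nat_lit 469) (nat_lit 1) (nat_lit 293) (nat_lit 373) (nat_lit 354))))))) (XT.nd (nat_lit 702) (nat_lit 6232) (nat_lit 0) (XT.nd (nat_lit 312) (nat_lit 3268) (nat_lit 0) (XT.nd (nat_lit 156) (nat_lit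 988) (nat_lit 0) (XT.nd (nat_lit 78) (nat_lit 836) (nat_lit 0) (XT.lf (nat_lit 988) (nat_lit 1743607728) (nat_lit 0) (nat_lit 2594016667) (nat_lit 912) (nat_lit 3787627950) (nat_lit 458) (nat_lit 1) (nat_lit 445) (nat_lit 1) (nat_lit 457) (nat_lit 1) (nat_lit 294) (nat_lit 373) (nat_lit 353)) (XT.lf (nat_lit 912) (nat_lit 546842514) (nat_lit 0) (nat_lit 1112182141) (nat_lit 836) (nat_lit 6358779982) (nat_lit 446) (nat_lit 1) (nat_lit 434) (nat_lit 1) (nat_lit 445) (nat_lit 1) (nat_lit 295) (nat_lit 373) (nat_lit 352))) (XT.nd (nat_lit 78) (nat_lit 912) (nat_lit 0) (XT.lf (nat_lit 76) (nat_lit 6938365529) (nat_lit 0) (nat_lit 666438079) (nat_lit 912) (nat_lit 307414212) (nat_lit 434) (nat_lit 1) (nat_lit 433) (nat_lit 1) (nat_lit 445) (nat_lit 1) (nat_lit 296) (nat_lit 373) (nat_lit 351)) (XT.lf (nat_lit 76) (nat_lit 4242273035) (nat_lit 0) (nat_lit 1905426826) (nat_lit 988) (nat_lit 1660577355) (nat_lit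 422) (nat_lit 1) (nat_lit 421) (nat_lit 1) (nat_lit 434) (nat_lit 1) (nat_lit 297) (nat_lit 373) (nat_lit 350)))) (XT.nd (nat_lit 156) (nat_lit 1596) (nat_lit 0) (XT.nd (nat_lit 78) (nat_lit 836) (nat_lit 0) (XT.lf (nat_lit 76) (nat_lit 1599169849) (nat_lit 0) (nat_lit 3157920528) (nat_lit 912) (nat_lit 2949281792) (nat_lit 411) (nat_lit 1) (nat_lit 410) (nat_lit 1) (nat_lit 422) (nat_lit 1) (nat_lit 298) (nat_lit 373) (nat_lit 349)) (XT.lf (nat_lit 912) (nat_lit 3177004734) (nat_lit 0) (nat_lit 3424400971) (nat_lit 836) (nat_lit 1004921746) (nat_lit 411) (nat_lit 1) (nat_lit 399) (nat_lit 1) (nat_lit 410) (nat_lit 1) (nat_lit 299) (nat_lit 373) (nat_lit 348))) (XT.nd (nat_lit 78) (nat_lit 836) (nat_lit 0) (XT.lf (nat_lit 836) (nat_lit 1785811302) (nat_lit 0) (nat_lit 2144032124) (nat_lit 760) (nat_lit 3578182809) (nat_lit 400) (nat_lit 1) (nat_lit 389) (nat_lit 1) (nat_lit 399) (nat_lit 1) (nat_lit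 300) (nat_lit 373) (nat_lit 347)) (XT.nd (nat_lit 78) (nat_lit 76) (nat_lit 0) (XT.lf (nat_lit 836) (nat_lit 386588216) (nat_lit 0) (nat_lit 924891028) (nat_lit 760) (nat_lit 6100156959) (nat_lit 390) (nat_lit 1) (nat_lit 379) (nat_lit 1) (nat_lit 389) (nat_lit 1) (nat_lit 301) (nat_lit 373) (nat_lit 346)) (XT.lf (nat_lit 76) (nat_lit 6053960876) (nat_lit 0) (nat_lit 1016178171) (nat_lit 836) (nat_lit 246647523) (nat_lit 379) (nat_lit 1) (nat_lit 378) (nat_lit 1) (nat_lit 389) (nat_lit 1) (nat_lit 302) (nat_lit 373) (nat_lit 345)))))) (XT.nd (nat_lit 390) (nat_lit 2584) (nat_lit 0) (XT.nd (nat_lit 156) (nat_lit 2128) (nat_lit 0) (XT.nd (nat_lit 78) (nat_lit 760) (nat_lit 0) (XT.lf (nat_lit 76) (nat_lit 3429504939) (nat_lit 0) (nat_lit 2433946152) (nat_lit 836) (nat_lit 1359984092) (nat_lit 369) (nat_lit 1) (nat_lit 368) (nat_lit 1) (nat_lit 379) (nat_lit 1) (nat_lit 303) (nat_lit 373) (nat_lit 344))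 (XT.lf (nat_lit 76) (nat_lit 857916509) (nat_lit 0) (nat_lit 3856255162) (nat_lit 836) (nat_lit 2417714394) (nat_lit 359) (nat_lit 1) (nat_lit 358) (nat_lit 1) (nat_lit 369) (nat_lit 1) (nat_lit 304) (nat_lit 373) (nat_lit 343))) (XT.nd (nat_lit 78) (nat_lit 1444) (nat_lit 0) (XT.lf (nat_lit 760) (nat_lit 1748649161) (nat_lit 0) (nat_lit 3609494027) (nat_lit 684) (nat_lit 1683738342) (nat_lit 359) (nat_lit 1) (nat_lit 349) (nat_lit 1) (nat_lit 358) (nat_lit 1) (nat_lit 305) (nat_lit 373) (nat_lit 342)) (XT.nd (nat_lit 78) (nat_lit 760) (nat_lit 0) (XT.lf (nat_lit 760) (nat_lit 215012942) (nat_lit 0) (nat_lit 2553542438) (nat_lit 684) (nat_lit 4184940565) (nat_lit 350) (nat_lit 1) (nat_lit 340) (nat_lit 1) (nat_lit 349) (nat_lit 1) (nat_lit 306) (nat_lit 373) (nat_lit 341)) (XT.lf (nat_lit 76) (nat_lit 240234451) (nat_lit 0) (nat_lit 1301529746) (nat_lit 760) (nat_lit 5324869401) (nat_lit 331) (nat_lit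 1) (nat_lit 330) (nat_lit 1) (nat_lit 340) (nat_lit 1) (nat_lit 307) (nat_lit 373) (nat_lit 340))))) (XT.nd (nat_lit 156) (nat_lit 1900) (nat_lit 0) (XT.nd (nat_lit 78) (nat_lit 0) (nat_lit 0) (XT.lf (nat_lit 760) (nat_lit 3951605821) (nat_lit 0) (nat_lit 564940812) (nat_lit 684) (nat_lit 2264560721) (nat_lit 331) (nat_lit 1) (nat_lit 321) (nat_lit 1) (nat_lit 330) (nat_lit 1) (nat_lit 308) (nat_lit 373) (nat_lit 339)) (XT.lf (nat_lit 76) (nat_lit 1978630825) (nat_lit 0) (nat_lit 4359998281) (nat_lit 760) (nat_lit 358502481) (nat_lit 322) (nat_lit 1) (nat_lit 321) (nat_lit 1) (nat_lit 331) (nat_lit 1) (nat_lit 309) (nat_lit 373) (nat_lit 338))) (XT.nd (nat_lit 78) (nat_lit 1292) (nat_lit 0) (XT.lf (nat_lit 684) (nat_lit 719462396) (nat_lit 0) (nat_lit 5384899139) (nat_lit 608) (nat_lit 510255437) (nat_lit 322) (nat_lit 1) (nat_lit 313) (nat_lit 1) (nat_lit 321) (nat_lit 1) (nat_lit 310) (nat_lit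 373) (nat_lit 337)) (XT.nd (nat_lit 78) (nat_lit 608) (nat_lit 0) (XT.lf (nat_lit 76) (nat_lit 3565719000) (nat_lit 0) (nat_lit 894809442) (nat_lit 684) (nat_lit 2072769142) (nat_lit 305) (nat_lit 1) (nat_lit 304) (nat_lit 1) (nat_lit 313) (nat_lit 1) (nat_lit 311) (nat_lit 373) (nat_lit 336)) (XT.lf (nat_lit 76) (nat_lit 1084225974) (nat_lit 0) (nat_lit 2494441043) (nat_lit 684) (nat_lit 2874758231) (nat_lit 297) (nat_lit 1) (nat_lit 296) (nat_lit 1) (nat_lit 305) (nat_lit 1) (nat_lit 312) (nat_lit 373) (nat_lit 335))))))))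
noncomputable def ec85 : XT := (XT.nd (nat_lit 1404) (nat_lit 6156) (nat_lit 0) (XT.nd (nat_lit 702) (nat_lit 3800) (nat_lit 0) (XT.nd (nat_lit 312) (nat_lit 2128) (nat_lit 0) (XT.nd (nat_lit 156) (nat_lit 1216) (nat_lit 0) (XT.nd (nat_lit 78) (nat_lit 532) (nat_lit 0) (XT.lf (nat_lit 684) (nat_lit 2277619876) (nat_lit 0) (nat_lit 2733686246) (nat_lit 608) (nat_lit 1363577525) (nat_lit 297) (nat_lit 1) (nat_lit 288) (nat_lit 1) (nat_lit 296) (nat_lit 1) (nat_lit 313) (nat_lit 373) (nat_lit 334)) (XT.lf (nat_lit 608) (nat_lit 596892376) (nat_lit 0) (nat_lit 1926353287) (nat_lit 532) (nat_lit 3774436256) (nat_lit 289) (nat_lit 1) (nat_lit 281) (nat_lit 1) (nat_lit 288) (nat_lit 1) (nat_lit 314) (nat_lit 373) (nat_lit 333))) (XT.nd (nat_lit 78) (nat_lit 532) (nat_lit 0) (XT.lf (nat_lit 76) (nat_lit 94080509) (nat_lit 0) (nat_lit 1061441631) (nat_lit 684) (nat_lit 5066269614) (nat_lit 273) (nat_lit 1)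 (nat_lit 272) (nat_lit 1) (nat_lit 281) (nat_lit 1) (nat_lit 315) (nat_lit 373) (nat_lit 332)) (XT.lf (nat_lit 608) (nat_lit 3428525057) (nat_lit 0) (nat_lit 407852993) (nat_lit 532) (nat_lit 2310567754) (nat_lit 273) (nat_lit 1) (nat_lit 265) (nat_lit 1) (nat_lit 272) (nat_lit 1) (nat_lit 316) (nat_lit 373) (nat_lit 331)))) (XT.nd (nat_lit 156) (nat_lit 1520) (nat_lit 0) (XT.nd (nat_lit 78) (nat_lit 608) (nat_lit 0) (XT.lf (nat_lit 76) (nat_lit 1409670147) (nat_lit 0) (nat_lit 4368772406) (nat_lit 608) (nat_lit 295004598) (nat_lit 266) (nat_lit 1) (nat_lit 265) (nat_lit 1) (nat_lit 273) (nat_lit 1) (nat_lit 317) (nat_lit 373) (nat_lit 330)) (XT.lf (nat_lit 76) (nat_lit 5024979017) (nat_lit 0) (nat_lit 16987927) (nat_lit 608) (nat_lit 959174029) (nat_lit 258) (nat_lit 1) (nat_lit 257) (nat_lit 1) (nat_lit 265) (nat_lit 1) (nat_lit 318) (nat_lit 373) (nat_lit 329))) (XT.nd (nat_lit 78) (nat_lit 988)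 (nat_lit 0) (XT.lf (nat_lit 76) (nat_lit 2611001999) (nat_lit 0) (nat_lit 1714068548) (nat_lit 608) (nat_lit 1604709955) (nat_lit 251) (nat_lit 1) (nat_lit 250) (nat_lit 1) (nat_lit 258) (nat_lit 1) (nat_lit 319) (nat_lit 373) (nat_lit 328)) (XT.nd (nat_lit 78) (nat_lit 456) (nat_lit 0) (XT.lf (nat_lit 76) (nat_lit 248040541) (nat_lit 0) (nat_lit 3399364084) (nat_lit 608) (nat_lit 2212340979) (nat_lit 244) (nat_lit 1) (nat_lit 243) (nat_lit 1) (nat_lit 251) (nat_lit 1) (nat_lit 320) (nat_lit 373) (nat_lit 327)) (XT.lf (nat_lit 532) (nat_lit 704486963) (nat_lit 0) (nat_lit 2993982680) (nat_lit 456) (nat_lit 2092267378) (nat_lit 244) (nat_lit 1) (nat_lit 237) (nat_lit 1) (nat_lit 243) (nat_lit 1) (nat_lit 321) (nat_lit 373) (nat_lit 326)))))) (XT.nd (nat_lit 312) (nat_lit 1748) (nat_lit 0) (XT.nd (nat_lit 156) (nat_lit 988) (nat_lit 0) (XT.nd (nat_lit 78) (nat_lit 456) (nat_lit 0) (XT.lf (nat_lit 76)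 (nat_lit 1343689500) (nat_lit 0) (nat_lit 1025652854) (nat_lit 608) (nat_lit 3353496026) (nat_lit 230) (nat_lit 1) (nat_lit 229) (nat_lit 1) (nat_lit 237) (nat_lit 1) (nat_lit 322) (nat_lit 373) (nat_lit 325)) (XT.lf (nat_lit 532) (nat_lit 2916882843) (nat_lit 0) (nat_lit 1769960516) (nat_lit 456) (nat_lit 969131944) (nat_lit 230) (nat_lit 1) (nat_lit 223) (nat_lit 1) (nat_lit 229) (nat_lit 1) (nat_lit 323) (nat_lit 373) (nat_lit 324))) (XT.nd (nat_lit 78) (nat_lit 532) (nat_lit 0) (XT.lf (nat_lit 532) (nat_lit 1143005256) (nat_lit 0) (nat_lit 1197183460) (nat_lit 456) (nat_lit 3249980227) (nat_lit 224) (nat_lit 1) (nat_lit 217) (nat_lit 1) (nat_lit 223) (nat_lit 1) (nat_lit 324) (nat_lit 373) (nat_lit 323)) (XT.lf (nat_lit 76) (nat_lit 47651407) (nat_lit 0) (nat_lit 607271979) (nat_lit 532) (nat_lit 4870567426) (nat_lit 211) (nat_lit 1) (nat_lit 210) (nat_lit 1) (nat_lit 217) (nat_lit 1) (nat_lit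 325) (nat_lit 373) (nat_lit 322)))) (XT.nd (nat_lit 156) (nat_lit 1292) (nat_lit 0) (XT.nd (nat_lit 78) (nat_lit 0) (nat_lit 0) (XT.lf (nat_lit 532) (nat_lit 3120008052) (nat_lit 0) (nat_lit 124100873) (nat_lit 456) (nat_lit 2217452736) (nat_lit 211) (nat_lit 1) (nat_lit 204) (nat_lit 1) (nat_lit 210) (nat_lit 1) (nat_lit 326) (nat_lit 373) (nat_lit 321)) (XT.lf (nat_lit 76) (nat_lit 966854336) (nat_lit 0) (nat_lit 4062792976) (nat_lit 532) (nat_lit 369097797) (nat_lit 205) (nat_lit 1) (nat_lit 204) (nat_lit 1) (nat_lit 211) (nat_lit 1) (nat_lit 327) (nat_lit 373) (nat_lit 320))) (XT.nd (nat_lit 78) (nat_lit 836) (nat_lit 0) (XT.lf (nat_lit 76) (nat_lit 4062251745) (nat_lit 0) (nat_lit 434423737) (nat_lit 456) (nat_lit 840161678) (nat_lit 199) (nat_lit 1) (nat_lit 198) (nat_lit 1) (nat_lit 204) (nat_lit 1) (nat_lit 328) (nat_lit 373) (nat_lit 319)) (XT.nd (nat_lit 78) (nat_lit 380) (nat_lit 0) (XT.lf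 (nat_lit 76) (nat_lit 1804234501) (nat_lit 0) (nat_lit 2176390934) (nat_lit 532) (nat_lit 1295135165) (nat_lit 193) (nat_lit 1) (nat_lit 192) (nat_lit 1) (nat_lit 199) (nat_lit 1) (nat_lit 329) (nat_lit 373) (nat_lit 318)) (XT.lf (nat_lit 456) (nat_lit 1312002698) (nat_lit 0) (nat_lit 3493230118) (nat_lit 380) (nat_lit 410507818) (nat_lit 193) (nat_lit 1) (nat_lit 187) (nat_lit 1) (nat_lit 192) (nat_lit 1) (nat_lit 330) (nat_lit 373) (nat_lit 317))))))) (XT.nd (nat_lit 702) (nat_lit 3116) (nat_lit 0) (XT.nd (nat_lit 312) (nat_lit 1444) (nat_lit 0) (XT.nd (nat_lit 156) (nat_lit 760) (nat_lit 0) (XT.nd (nat_lit 78) (nat_lit 380) (nat_lit 0) (XT.lf (nat_lit 76) (nat_lit 2558770080) (nat_lit 0) (nat_lit 462643069) (nat_lit 456) (nat_lit 2135102910) (nat_lit 182) (nat_lit 1) (nat_lit 181) (nat_lit 1) (nat_lit 187) (nat_lit 1) (nat_lit 331) (nat_lit 373) (nat_lit 316)) (XT.lf (nat_lit 76) (nat_lit 369240117)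 (nat_lit 0) (nat_lit 2201694424) (nat_lit 456) (nat_lit 2527260520) (nat_lit 177) (nat_lit 1) (nat_lit 176) (nat_lit 1) (nat_lit 182) (nat_lit 1) (nat_lit 332) (nat_lit 373) (nat_lit 315))) (XT.nd (nat_lit 78) (nat_lit 380) (nat_lit 0) (XT.lf (nat_lit 456) (nat_lit 1106616819) (nat_lit 0) (nat_lit 2137722171) (nat_lit 380) (nat_lit 1796354093) (nat_lit 177) (nat_lit 1) (nat_lit 171) (nat_lit 1) (nat_lit 176) (nat_lit 1) (nat_lit 333) (nat_lit 373) (nat_lit 314)) (XT.lf (nat_lit 76) (nat_lit 1068860280) (nat_lit 0) (nat_lit 657392887) (nat_lit 380) (nat_lit 3257840082) (nat_lit 167) (nat_lit 1) (nat_lit 166) (nat_lit 1) (nat_lit 171) (nat_lit 1) (nat_lit 334) (nat_lit 373) (nat_lit 313)))) (XT.nd (nat_lit 156) (nat_lit 760) (nat_lit 0) (XT.nd (nat_lit 78) (nat_lit 304) (nat_lit 0) (XT.lf (nat_lit 456) (nat_lit 2533684434) (nat_lit 0) (nat_lit 1328329102) (nat_lit 380) (nat_lit 1066216647) (nat_lit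 167) (nat_lit 1) (nat_lit 161) (nat_lit 1) (nat_lit 166) (nat_lit 1) (nat_lit 335) (nat_lit 373) (nat_lit 312)) (XT.lf (nat_lit 380) (nat_lit 753973729) (nat_lit 0) (nat_lit 950670543) (nat_lit 304) (nat_lit 3168586817) (nat_lit 162) (nat_lit 1) (nat_lit 157) (nat_lit 1) (nat_lit 161) (nat_lit 1) (nat_lit 336) (nat_lit 373) (nat_lit 311))) (XT.nd (nat_lit 78) (nat_lit 304) (nat_lit 0) (XT.lf (nat_lit 456) (nat_lit 3824205863) (nat_lit 0) (nat_lit 590320293) (nat_lit 380) (nat_lit 404507295) (nat_lit 157) (nat_lit 1) (nat_lit 151) (nat_lit 1) (nat_lit 156) (nat_lit 1) (nat_lit 337) (nat_lit 373) (nat_lit 310)) (XT.nd (nat_lit 78) (nat_lit 0) (nat_lit 0) (XT.lf (nat_lit 380) (nat_lit 2040820064) (nat_lit 0) (nat_lit 239885459) (nat_lit 304) (nat_lit 2484782303) (nat_lit 152) (nat_lit 1) (nat_lit 147) (nat_lit 1) (nat_lit 151) (nat_lit 1) (nat_lit 338) (nat_lit 373) (nat_lit 309)) (XT.lf (nat_lit 76)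 (nat_lit 194061108) (nat_lit 0) (nat_lit 4434944194) (nat_lit 380) (nat_lit 83880080) (nat_lit 148) (nat_lit 1) (nat_lit 147) (nat_lit 1) (nat_lit 152) (nat_lit 1) (nat_lit 339) (nat_lit 373) (nat_lit 308)))))) (XT.nd (nat_lit 390) (nat_lit 1444) (nat_lit 0) (XT.nd (nat_lit 156) (nat_lit 988) (nat_lit 0) (XT.nd (nat_lit 78) (nat_lit 304) (nat_lit 0) (XT.lf (nat_lit 76) (nat_lit 2800551714) (nat_lit 0) (nat_lit 1458455977) (nat_lit 380) (nat_lit 401747879) (nat_lit 143) (nat_lit 1) (nat_lit 142) (nat_lit 1) (nat_lit 147) (nat_lit 1) (nat_lit 340) (nat_lit 373) (nat_lit 307)) (XT.lf (nat_lit 76) (nat_lit 739425087) (nat_lit 0) (nat_lit 3171568327) (nat_lit 380) (nat_lit 698499068) (nat_lit 139) (nat_lit 1) (nat_lit 138) (nat_lit 1) (nat_lit 143) (nat_lit 1) (nat_lit 341) (nat_lit 373) (nat_lit 306))) (XT.nd (nat_lit 78) (nat_lit 608) (nat_lit 0) (XT.lf (nat_lit 76) (nat_lit 3267504101) (nat_lit 0)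 (nat_lit 309247975) (nat_lit 380) (nat_lit 982178827) (nat_lit 134) (nat_lit 1) (nat_lit 133) (nat_lit 1) (nat_lit 138) (nat_lit 1) (nat_lit 342) (nat_lit 373) (nat_lit 305)) (XT.nd (nat_lit 78) (nat_lit 304) (nat_lit 0) (XT.lf (nat_lit 76) (nat_lit 1231164560) (nat_lit 0) (nat_lit 2020981832) (nat_lit 380) (nat_lit 1256839124) (nat_lit 130) (nat_lit 1) (nat_lit 129) (nat_lit 1) (nat_lit 134) (nat_lit 1) (nat_lit 343) (nat_lit 373) (nat_lit 304)) (XT.lf (nat_lit 380) (nat_lit 743381486) (nat_lit 0) (nat_lit 2945898698) (nat_lit 304) (nat_lit 770543020) (nat_lit 130) (nat_lit 1) (nat_lit 125) (nat_lit 1) (nat_lit 129) (nat_lit 1) (nat_lit 344) (nat_lit 373) (nat_lit 303))))) (XT.nd (nat_lit 156) (nat_lit 836) (nat_lit 0) (XT.nd (nat_lit 78) (nat_lit 304) (nat_lit 0) (XT.lf (nat_lit 76) (nat_lit 1673613154) (nat_lit 0) (nat_lit 974318123) (nat_lit 304) (nat_lit 1763310977) (nat_lit 122) (nat_lit 1)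 (nat_lit 121) (nat_lit 1) (nat_lit 125) (nat_lit 1) (nat_lit 345) (nat_lit 373) (nat_lit 302)) (XT.lf (nat_lit 380) (nat_lit 1700911106) (nat_lit 0) (nat_lit 2365636944) (nat_lit 304) (nat_lit 296835507) (nat_lit 122) (nat_lit 1) (nat_lit 117) (nat_lit 1) (nat_lit 121) (nat_lit 1) (nat_lit 346) (nat_lit 373) (nat_lit 301))) (XT.nd (nat_lit 78) (nat_lit 532) (nat_lit 0) (XT.lf (nat_lit 76) (nat_lit 2070769984) (nat_lit 0) (nat_lit 23389025) (nat_lit 304) (nat_lit 2221988844) (nat_lit 114) (nat_lit 1) (nat_lit 113) (nat_lit 1) (nat_lit 117) (nat_lit 1) (nat_lit 347) (nat_lit 373) (nat_lit 300)) (XT.nd (nat_lit 78) (nat_lit 228) (nat_lit 0) (XT.lf (nat_lit 76) (nat_lit 129843942) (nat_lit 0) (nat_lit 1703286487) (nat_lit 380) (nat_lit 2436393528) (nat_lit 110) (nat_lit 1) (nat_lit 109) (nat_lit 1) (nat_lit 114) (nat_lit 1) (nat_lit 348) (nat_lit 373) (nat_lit 299)) (XT.lf (nat_lit 304) (nat_lit 850521550)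 (nat_lit 0) (nat_lit 1581325753) (nat_lit 228) (nat_lit 1791636586) (nat_lit 110) (nat_lit 1) (nat_lit 106) (nat_lit 1) (nat_lit 109) (nat_lit 1) (nat_lit 349) (nat_lit 373) (nat_lit 298))))))))
noncomputable def ec86 : XT := (XT.nd (nat_lit 1404) (nat_lit 1748) (nat_lit 0) (XT.nd (nat_lit 702) (nat_lit 2052) (nat_lit 0) (XT.nd (nat_lit 312) (nat_lit 1064) (nat_lit 0) (XT.nd (nat_lit 156) (nat_lit 532) (nat_lit 0) (XT.nd (nat_lit 78) (nat_lit 228) (nat_lit 0) (XT.lf (nat_lit 76) (nat_lit 511518885) (nat_lit 0) (nat_lit 832307937) (nat_lit 380) (nat_lit 2834296561) (nat_lit 102) (nat_lit 1) (nat_lit 101) (nat_lit 1) (nat_lit 106) (nat_lit 1) (nat_lit 350) (nat_lit 373) (nat_lit 297)) (XT.lf (nat_lit 304) (nat_lit 1642472885) (nat_lit 0) (nat_lit 1111874465) (nat_lit 228) (nat_lit 1378919464) (nat_lit 102) (nat_lit 1) (nat_lit 98) (nat_lit 1) (nat_lit 101) (nat_lit 1) (nat_lit 351) (nat_lit 373) (nat_lit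 296))) (XT.nd (nat_lit 78) (nat_lit 228) (nat_lit 0) (XT.lf (nat_lit 76) (nat_lit 855401863) (nat_lit 0) (nat_lit 40817343) (nat_lit 304) (nat_lit 3192901933) (nat_lit 95) (nat_lit 1) (nat_lit 94) (nat_lit 1) (nat_lit 98) (nat_lit 1) (nat_lit 352) (nat_lit 373) (nat_lit 295)) (XT.lf (nat_lit 304) (nat_lit 2358686893) (nat_lit 0) (nat_lit 682612766) (nat_lit 228) (nat_lit 1004103525) (nat_lit 95) (nat_lit 1) (nat_lit 91) (nat_lit 1) (nat_lit 94) (nat_lit 1) (nat_lit 353) (nat_lit 373) (nat_lit 294)))) (XT.nd (nat_lit 156) (nat_lit 532) (nat_lit 0) (XT.nd (nat_lit 78) (nat_lit 304) (nat_lit 0) (XT.lf (nat_lit 304) (nat_lit 686460760) (nat_lit 0) (nat_lit 482552312) (nat_lit 228) (nat_lit 2833321546) (nat_lit 92) (nat_lit 1) (nat_lit 88) (nat_lit 1) (nat_lit 91) (nat_lit 1) (nat_lit 354) (nat_lit 373) (nat_lit 293)) (XT.lf (nat_lit 304) (nat_lit 3005195335) (nat_lit 0) (nat_lit 290445510) (nat_lit 228)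 (nat_lit 664161218) (nat_lit 88) (nat_lit 1) (nat_lit 84) (nat_lit 1) (nat_lit 87) (nat_lit 1) (nat_lit 355) (nat_lit 373) (nat_lit 292))) (XT.nd (nat_lit 78) (nat_lit 304) (nat_lit 0) (XT.lf (nat_lit 304) (nat_lit 1345961874) (nat_lit 0) (nat_lit 104585154) (nat_lit 228) (nat_lit 2467221325) (nat_lit 85) (nat_lit 1) (nat_lit 81) (nat_lit 1) (nat_lit 84) (nat_lit 1) (nat_lit 356) (nat_lit 373) (nat_lit 291)) (XT.nd (nat_lit 78) (nat_lit 228) (nat_lit 0) (XT.lf (nat_lit 76) (nat_lit 3520517736) (nat_lit 0) (nat_lit 289248779) (nat_lit 304) (nat_lit 66602424) (nat_lit 81) (nat_lit 1) (nat_lit 80) (nat_lit 1) (nat_lit 84) (nat_lit 1) (nat_lit 357) (nat_lit 373) (nat_lit 290)) (XT.lf (nat_lit 76) (nat_lit 1703937679) (nat_lit 0) (nat_lit 1894340320) (nat_lit 304) (nat_lit 237034711) (nat_lit 78) (nat_lit 1) (nat_lit 77) (nat_lit 1) (nat_lit 81) (nat_lit 1) (nat_lit 358) (nat_lit 373) (nat_lit 289))))))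 (XT.nd (nat_lit 312) (nat_lit 1140) (nat_lit 0) (XT.nd (nat_lit 156) (nat_lit 456) (nat_lit 0) (XT.nd (nat_lit 78) (nat_lit 228) (nat_lit 0) (XT.lf (nat_lit 304) (nat_lit 317501312) (nat_lit 0) (nat_lit 3404231034) (nat_lit 228) (nat_lit 73224471) (nat_lit 78) (nat_lit 1) (nat_lit 74) (nat_lit 1) (nat_lit 77) (nat_lit 1) (nat_lit 359) (nat_lit 373) (nat_lit 288)) (XT.lf (nat_lit 76) (nat_lit 1930544105) (nat_lit 0) (nat_lit 1277312971) (nat_lit 228) (nat_lit 547053085) (nat_lit 72) (nat_lit 1) (nat_lit 71) (nat_lit 1) (nat_lit 74) (nat_lit 1) (nat_lit 360) (nat_lit 373) (nat_lit 287))) (XT.nd (nat_lit 78) (nat_lit 228) (nat_lit 0) (XT.lf (nat_lit 76) (nat_lit 181245109) (nat_lit 0) (nat_lit 2845459017) (nat_lit 304) (nat_lit 688809249) (nat_lit 69) (nat_lit 1) (nat_lit 68) (nat_lit 1) (nat_lit 72) (nat_lit 1) (nat_lit 361) (nat_lit 373) (nat_lit 286)) (XT.lf (nat_lit 76) (nat_lit 2131951974) (nat_lit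 0) (nat_lit 715365890) (nat_lit 228) (nat_lit 829181375) (nat_lit 66) (nat_lit 1) (nat_lit 65) (nat_lit 1) (nat_lit 68) (nat_lit 1) (nat_lit 362) (nat_lit 373) (nat_lit 285)))) (XT.nd (nat_lit 156) (nat_lit 684) (nat_lit 0) (XT.nd (nat_lit 78) (nat_lit 228) (nat_lit 0) (XT.lf (nat_lit 76) (nat_lit 409639587) (nat_lit 0) (nat_lit 2268057304) (nat_lit 304) (nat_lit 960324314) (nat_lit 63) (nat_lit 1) (nat_lit 62) (nat_lit 1) (nat_lit 66) (nat_lit 1) (nat_lit 363) (nat_lit 373) (nat_lit 284)) (XT.lf (nat_lit 76) (nat_lit 2310250196) (nat_lit 0) (nat_lit 204177124) (nat_lit 228) (nat_lit 1085581674) (nat_lit 60) (nat_lit 1) (nat_lit 59) (nat_lit 1) (nat_lit 62) (nat_lit 1) (nat_lit 364) (nat_lit 373) (nat_lit 283))) (XT.nd (nat_lit 78) (nat_lit 456) (nat_lit 0) (XT.lf (nat_lit 76) (nat_lit 614960001) (nat_lit 0) (nat_lit 1740566130) (nat_lit 304) (nat_lit 1206894275) (nat_lit 57) (nat_lit 1) (nat_lit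 56) (nat_lit 1) (nat_lit 60) (nat_lit 1) (nat_lit 365) (nat_lit 373) (nat_lit 282)) (XT.nd (nat_lit 78) (nat_lit 304) (nat_lit 0) (XT.lf (nat_lit 228) (nat_lit 263703411) (nat_lit 0) (nat_lit 2205374042) (nat_lit 152) (nat_lit 1056260602) (nat_lit 57) (nat_lit 1) (nat_lit 54) (nat_lit 1) (nat_lit 56) (nat_lit 1) (nat_lit 366) (nat_lit 373) (nat_lit 281)) (XT.lf (nat_lit 76) (nat_lit 799089153) (nat_lit 0) (nat_lit 1259097689) (nat_lit 304) (nat_lit 1430458439) (nat_lit 51) (nat_lit 1) (nat_lit 50) (nat_lit 1) (nat_lit 54) (nat_lit 1) (nat_lit 367) (nat_lit 373) (nat_lit 280))))))) (XT.nd (nat_lit 45630) (nat_lit 0) (nat_lit 35720) (XT.nd (nat_lit 312) (nat_lit 912) (nat_lit 0) (XT.nd (nat_lit 156) (nat_lit 380) (nat_lit 0) (XT.nd (nat_lit 78) (nat_lit 304) (nat_lit 0) (XT.lf (nat_lit 228) (nat_lit 690644391) (nat_lit 0) (nat_lit 1918913649) (nat_lit 152) (nat_lit 842877863) (nat_lit 51) (nat_lit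 1) (nat_lit 48) (nat_lit 1) (nat_lit 50) (nat_lit 1) (nat_lit 368) (nat_lit 373) (nat_lit 279)) (XT.lf (nat_lit 76) (nat_lit 963764013) (nat_lit 0) (nat_lit 820060805) (nat_lit 304) (nat_lit 1632808788) (nat_lit 45) (nat_lit 1) (nat_lit 44) (nat_lit 1) (nat_lit 48) (nat_lit 1) (nat_lit 369) (nat_lit 373) (nat_lit 278))) (XT.nd (nat_lit 78) (nat_lit 228) (nat_lit 0) (XT.lf (nat_lit 228) (nat_lit 1077381882) (nat_lit 0) (nat_lit 1654627281) (nat_lit 152) (nat_lit 649259540) (nat_lit 45) (nat_lit 1) (nat_lit 42) (nat_lit 1) (nat_lit 44) (nat_lit 1) (nat_lit 370) (nat_lit 373) (nat_lit 277)) (XT.lf (nat_lit 76) (nat_lit 1110586847) (nat_lit 0) (nat_lit 420138392) (nat_lit 228) (nat_lit 1815601148) (nat_lit 40) (nat_lit 1) (nat_lit 39) (nat_lit 1) (nat_lit 42) (nat_lit 1) (nat_lit 371) (nat_lit 373) (nat_lit 276)))) (XT.nd (nat_lit 156) (nat_lit 532) (nat_lit 0) (XT.nd (nat_lit 78) (nat_lit 228) (nat_lit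 0) (XT.lf (nat_lit 228) (nat_lit 1427101274) (nat_lit 0) (nat_lit 1410860398) (nat_lit 152) (nat_lit 473817218) (nat_lit 40) (nat_lit 1) (nat_lit 37) (nat_lit 1) (nat_lit 39) (nat_lit 1) (nat_lit 372) (nat_lit 373) (nat_lit 275)) (XT.lf (nat_lit 76) (nat_lit 1241035506) (nat_lit 0) (nat_lit 56266632) (nat_lit 228) (nat_lit 1980365508) (nat_lit 35) (nat_lit 1) (nat_lit 34) (nat_lit 1) (nat_lit 37) (nat_lit 1) (nat_lit 373) (nat_lit 373) (nat_lit 274))) (XT.nd (nat_lit 78) (nat_lit 380) (nat_lit 0) (XT.lf (nat_lit 228) (nat_lit 1742743950) (nat_lit 0) (nat_lit 1186082760) (nat_lit 152) (nat_lit 315085113) (nat_lit 35) (nat_lit 1) (nat_lit 32) (nat_lit 1) (nat_lit 34) (nat_lit 1) (nat_lit 374) (nat_lit 373) (nat_lit 273)) (XT.nd (nat_lit 78) (nat_lit 228) (nat_lit 0) (XT.lf (nat_lit 228) (nat_lit 278030686) (nat_lit 0) (nat_lit 1080247399) (nat_lit 152) (nat_lit 1852290036) (nat_lit 33) (nat_lit 1)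 (nat_lit 30) (nat_lit 1) (nat_lit 32) (nat_lit 1) (nat_lit 375) (nat_lit 373) (nat_lit 272)) (XT.lf (nat_lit 228) (nat_lit 2027025839) (nat_lit 0) (nat_lit 978879025) (nat_lit 152) (nat_lit 171710721) (nat_lit 30) (nat_lit 1) (nat_lit 27) (nat_lit 1) (nat_lit 29) (nat_lit 1) (nat_lit 376) (nat_lit 373) (nat_lit 271)))))) (XT.nd (nat_lit 390) (nat_lit 0) (nat_lit 304) (XT.nd (nat_lit 156) (nat_lit 0) (nat_lit 76) (XT.nd (nat_lit 78) (nat_lit 0) (nat_lit 76) (XT.lf (nat_lit 1900) (nat_lit 1842684553) (nat_lit 0) (nat_lit 1858093682) (nat_lit 1900) (nat_lit 1842684553) (nat_lit 522) (nat_lit 1) (nat_lit 497) (nat_lit 0) (nat_lit 522) (nat_lit 0) (nat_lit 272) (nat_lit 374) (nat_lit 374)) (XT.lf (nat_lit 1900) (nat_lit 851751989) (nat_lit 0) (nat_lit 3697243971) (nat_lit 1824) (nat_lit 6375766019) (nat_lit 523) (nat_lit 1) (nat_lit 498) (nat_lit 1) (nat_lit 522) (nat_lit 1) (nat_lit 273) (nat_lit 374)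 (nat_lit 373))) (XT.nd (nat_lit 78) (nat_lit 0) (nat_lit 76) (XT.lf (nat_lit 1900) (nat_lit 7004783178) (nat_lit 76) (nat_lit 1801033319) (nat_lit 0) (nat_lit 1959864193) (nat_lit 523) (nat_lit 1) (nat_lit 499) (nat_lit 1) (nat_lit 498) (nat_lit 1) (nat_lit 274) (nat_lit 374) (nat_lit 372)) (XT.nd (nat_lit 78) (nat_lit 0) (nat_lit 76) (XT.lf (nat_lit 1900) (nat_lit 5880367979) (nat_lit 0) (nat_lit 3902107804) (nat_lit 1824) (nat_lit 827168837) (nat_lit 524) (nat_lit 1) (nat_lit 499) (nat_lit 1) (nat_lit 523) (nat_lit 1) (nat_lit 275) (nat_lit 374) (nat_lit 371)) (XT.lf (nat_lit 1900) (nat_lit 3016674966) (nat_lit 0) (nat_lit 4117859398) (nat_lit 1824) (nat_lit 3322045842) (nat_lit 525) (nat_lit 1) (nat_lit 500) (nat_lit 1) (nat_lit 524) (nat_lit 1) (nat_lit 276) (nat_lit 374) (nat_lit 370))))) (XT.nd (nat_lit 156) (nat_lit 0) (nat_lit 76) (XT.nd (nat_lit 78) (nat_lit 0) (nat_lit 0) (XT.lf (nat_lit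 1900) (nat_lit 202599816) (nat_lit 0) (nat_lit 4393640176) (nat_lit 1824) (nat_lit 5710407723) (nat_lit 526) (nat_lit 1) (nat_lit 501) (nat_lit 1) (nat_lit 525) (nat_lit 1) (nat_lit 277) (nat_lit 374) (nat_lit 369)) (XT.lf (nat_lit 1900) (nat_lit 5415851133) (nat_lit 76) (nat_lit 2147223538) (nat_lit 0) (nat_lit 2596363547) (nat_lit 526) (nat_lit 1) (nat_lit 502) (nat_lit 1) (nat_lit 501) (nat_lit 1) (nat_lit 278) (nat_lit 374) (nat_lit 368))) (XT.nd (nat_lit 78) (nat_lit 0) (nat_lit 76) (XT.lf (nat_lit 1900) (nat_lit 4667821229) (nat_lit 0) (nat_lit 5150524960) (nat_lit 1824) (nat_lit 196826514) (nat_lit 527) (nat_lit 1) (nat_lit 502) (nat_lit 1) (nat_lit 526) (nat_lit 1) (nat_lit 279) (nat_lit 374) (nat_lit 367)) (XT.nd (nat_lit 78) (nat_lit 0) (nat_lit 0) (XT.lf (nat_lit 1900) (nat_lit 1837651831) (nat_lit 0) (nat_lit 5622583275) (nat_lit 1824) (nat_lit 2413334532) (nat_lit 528) (nat_lit 1) (nat_lit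 503) (nat_lit 1) (nat_lit 527) (nat_lit 1) (nat_lit 280) (nat_lit 374) (nat_lit 366)) (XT.lf (nat_lit 1900) (nat_lit 3585121211) (nat_lit 76) (nat_lit 5195169179) (nat_lit 0) (nat_lit 954426477) (nat_lit 528) (nat_lit 1) (nat_lit 504) (nat_lit 1) (nat_lit 503) (nat_lit 1) (nat_lit 281) (nat_lit 374) (nat_lit 365))))))))
noncomputable def ec87 : XT := (XT.nd (nat_lit 1404) (nat_lit 10336) (nat_lit 0) (XT.nd (nat_lit 702) (nat_lit 6840) (nat_lit 0) (XT.nd (nat_lit 312) (nat_lit 2660) (nat_lit 0) (XT.nd (nat_lit 156) (nat_lit 0) (nat_lit 152) (XT.nd (nat_lit 78) (nat_lit 0) (nat_lit 76) (XT.lf (nat_lit 1900) (nat_lit 2863648144) (nat_lit 76) (nat_lit 3014596824) (nat_lit 0) (nat_lit 3720192755) (nat_lit 529) (nat_lit 1) (nat_lit 505) (nat_lit 1) (nat_lit 504) (nat_lit 1) (nat_lit 282) (nat_lit 374) (nat_lit 364)) (XT.lf (nat_lit 1900) (nat_lit 2101084496) (nat_lit 76) (nat_lit 928046760) (nat_lit 0)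 (nat_lit 6435778885) (nat_lit 530) (nat_lit 1) (nat_lit 506) (nat_lit 1) (nat_lit 505) (nat_lit 1) (nat_lit 283) (nat_lit 374) (nat_lit 363))) (XT.nd (nat_lit 78) (nat_lit 0) (nat_lit 0) (XT.lf (nat_lit 1900) (nat_lit 239257649) (nat_lit 0) (nat_lit 8041463652) (nat_lit 1824) (nat_lit 1053211945) (nat_lit 531) (nat_lit 1) (nat_lit 506) (nat_lit 1) (nat_lit 530) (nat_lit 1) (nat_lit 284) (nat_lit 374) (nat_lit 362)) (XT.lf (nat_lit 1900) (nat_lit 424610218) (nat_lit 76) (nat_lit 6253922077) (nat_lit 0) (nat_lit 2526615458) (nat_lit 531) (nat_lit 1) (nat_lit 507) (nat_lit 1) (nat_lit 506) (nat_lit 1) (nat_lit 285) (nat_lit 374) (nat_lit 361)))) (XT.nd (nat_lit 156) (nat_lit 988) (nat_lit 0) (XT.nd (nat_lit 78) (nat_lit 0) (nat_lit 76) (XT.lf (nat_lit 1976) (nat_lit 3837533253) (nat_lit 0) (nat_lit 472660451) (nat_lit 1900) (nat_lit 4768661905) (nat_lit 508) (nat_lit 1) (nat_lit 482) (nat_lit 1) (nat_lit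 507) (nat_lit 1) (nat_lit 286) (nat_lit 374) (nat_lit 360)) (XT.lf (nat_lit 1976) (nat_lit 1052583434) (nat_lit 0) (nat_lit 1396161959) (nat_lit 1900) (nat_lit 6506287520) (nat_lit 509) (nat_lit 1) (nat_lit 483) (nat_lit 1) (nat_lit 508) (nat_lit 1) (nat_lit 287) (nat_lit 374) (nat_lit 359))) (XT.nd (nat_lit 78) (nat_lit 1064) (nat_lit 0) (XT.lf (nat_lit 1976) (nat_lit 6472715703) (nat_lit 76) (nat_lit 658654295) (nat_lit 0) (nat_lit 1702087184) (nat_lit 509) (nat_lit 1) (nat_lit 484) (nat_lit 1) (nat_lit 483) (nat_lit 1) (nat_lit 288) (nat_lit 374) (nat_lit 358)) (XT.nd (nat_lit 78) (nat_lit 1140) (nat_lit 0) (XT.lf (nat_lit 76) (nat_lit 4302887865) (nat_lit 0) (nat_lit 3367092712) (nat_lit 1900) (nat_lit 1044044589) (nat_lit 485) (nat_lit 1) (nat_lit 484) (nat_lit 1) (nat_lit 509) (nat_lit 1) (nat_lit 289) (nat_lit 374) (nat_lit 357)) (XT.lf (nat_lit 76) (nat_lit 1532444518) (nat_lit 0) (nat_lit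 4403551007) (nat_lit 1216) (nat_lit 2660887862) (nat_lit 470) (nat_lit 1) (nat_lit 469) (nat_lit 1) (nat_lit 485) (nat_lit 1) (nat_lit 290) (nat_lit 374) (nat_lit 356)))))) (XT.nd (nat_lit 312) (nat_lit 4104) (nat_lit 0) (XT.nd (nat_lit 156) (nat_lit 912) (nat_lit 0) (XT.nd (nat_lit 78) (nat_lit 912) (nat_lit 0) (XT.lf (nat_lit 988) (nat_lit 3009836155) (nat_lit 0) (nat_lit 4271353605) (nat_lit 912) (nat_lit 1200718723) (nat_lit 470) (nat_lit 1) (nat_lit 457) (nat_lit 1) (nat_lit 469) (nat_lit 1) (nat_lit 291) (nat_lit 374) (nat_lit 355)) (XT.lf (nat_lit 988) (nat_lit 1795915960) (nat_lit 0) (nat_lit 2671837167) (nat_lit 912) (nat_lit 3901256788) (nat_lit 458) (nat_lit 1) (nat_lit 445) (nat_lit 1) (nat_lit 457) (nat_lit 1) (nat_lit 292) (nat_lit 374) (nat_lit 354))) (XT.nd (nat_lit 78) (nat_lit 76) (nat_lit 0) (XT.lf (nat_lit 912) (nat_lit 563247790) (nat_lit 0) (nat_lit 1145547605) (nat_lit 836)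 (nat_lit 6549543382) (nat_lit 446) (nat_lit 1) (nat_lit 434) (nat_lit 1) (nat_lit 445) (nat_lit 1) (nat_lit 293) (nat_lit 374) (nat_lit 353)) (XT.lf (nat_lit 76) (nat_lit 7146516495) (nat_lit 0) (nat_lit 686431221) (nat_lit 912) (nat_lit 316636638) (nat_lit 434) (nat_lit 1) (nat_lit 433) (nat_lit 1) (nat_lit 445) (nat_lit 1) (nat_lit 294) (nat_lit 374) (nat_lit 352)))) (XT.nd (nat_lit 156) (nat_lit 2356) (nat_lit 0) (XT.nd (nat_lit 78) (nat_lit 836) (nat_lit 0) (XT.lf (nat_lit 76) (nat_lit 4369541227) (nat_lit 0) (nat_lit 1962589630) (nat_lit 988) (nat_lit 1710394676) (nat_lit 422) (nat_lit 1) (nat_lit 421) (nat_lit 1) (nat_lit 434) (nat_lit 1) (nat_lit 295) (nat_lit 374) (nat_lit 351)) (XT.lf (nat_lit 76) (nat_lit 1647144944) (nat_lit 0) (nat_lit 3252658144) (nat_lit 912) (nat_lit 3037760245) (nat_lit 411) (nat_lit 1) (nat_lit 410) (nat_lit 1) (nat_lit 422) (nat_lit 1) (nat_lit 296) (nat_lit 374)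 (nat_lit 350))) (XT.nd (nat_lit 78) (nat_lit 1520) (nat_lit 0) (XT.lf (nat_lit 912) (nat_lit 3272314876) (nat_lit 0) (nat_lit 3527133000) (nat_lit 836) (nat_lit 1035069398) (nat_lit 411) (nat_lit 1) (nat_lit 399) (nat_lit 1) (nat_lit 410) (nat_lit 1) (nat_lit 297) (nat_lit 374) (nat_lit 349)) (XT.nd (nat_lit 78) (nat_lit 760) (nat_lit 0) (XT.lf (nat_lit 836) (nat_lit 1839385641) (nat_lit 0) (nat_lit 2208353088) (nat_lit 760) (nat_lit 3685528293) (nat_lit 400) (nat_lit 1) (nat_lit 389) (nat_lit 1) (nat_lit 399) (nat_lit 1) (nat_lit 298) (nat_lit 374) (nat_lit 348)) (XT.lf (nat_lit 836) (nat_lit 398185862) (nat_lit 0) (nat_lit 952637759) (nat_lit 760) (nat_lit 6283161668) (nat_lit 390) (nat_lit 1) (nat_lit 379) (nat_lit 1) (nat_lit 389) (nat_lit 1) (nat_lit 299) (nat_lit 374) (nat_lit 347))))))) (XT.nd (nat_lit 702) (nat_lit 5320) (nat_lit 0) (XT.nd (nat_lit 312) (nat_lit 2736) (nat_lit 0) (XT.nd (nat_lit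 156) (nat_lit 1444) (nat_lit 0) (XT.nd (nat_lit 78) (nat_lit 760) (nat_lit 0) (XT.lf (nat_lit 76) (nat_lit 6235579703) (nat_lit 0) (nat_lit 1046663516) (nat_lit 836) (nat_lit 254046949) (nat_lit 379) (nat_lit 1) (nat_lit 378) (nat_lit 1) (nat_lit 389) (nat_lit 1) (nat_lit 300) (nat_lit 374) (nat_lit 346)) (XT.lf (nat_lit 76) (nat_lit 3532390087) (nat_lit 0) (nat_lit 2506964537) (nat_lit 836) (nat_lit 1400783615) (nat_lit 369) (nat_lit 1) (nat_lit 368) (nat_lit 1) (nat_lit 379) (nat_lit 1) (nat_lit 301) (nat_lit 374) (nat_lit 345))) (XT.nd (nat_lit 78) (nat_lit 684) (nat_lit 0) (XT.lf (nat_lit 76) (nat_lit 883654004) (nat_lit 0) (nat_lit 3971942816) (nat_lit 836) (nat_lit 2490245826) (nat_lit 359) (nat_lit 1) (nat_lit 358) (nat_lit 1) (nat_lit 369) (nat_lit 1) (nat_lit 302) (nat_lit 374) (nat_lit 344)) (XT.lf (nat_lit 760) (nat_lit 1801108636) (nat_lit 0) (nat_lit 3717778848) (nat_lit 684) (nat_lit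 1734250493) (nat_lit 359) (nat_lit 1) (nat_lit 349) (nat_lit 1) (nat_lit 358) (nat_lit 1) (nat_lit 303) (nat_lit 374) (nat_lit 343)))) (XT.nd (nat_lit 156) (nat_lit 1292) (nat_lit 0) (XT.nd (nat_lit 78) (nat_lit 760) (nat_lit 0) (XT.lf (nat_lit 760) (nat_lit 221463331) (nat_lit 0) (nat_lit 2630148711) (nat_lit 684) (nat_lit 4310488782) (nat_lit 350) (nat_lit 1) (nat_lit 340) (nat_lit 1) (nat_lit 349) (nat_lit 1) (nat_lit 304) (nat_lit 374) (nat_lit 342)) (XT.lf (nat_lit 76) (nat_lit 247441484) (nat_lit 0) (nat_lit 1340575639) (nat_lit 760) (nat_lit 5484615483) (nat_lit 331) (nat_lit 1) (nat_lit 330) (nat_lit 1) (nat_lit 340) (nat_lit 1) (nat_lit 305) (nat_lit 374) (nat_lit 341))) (XT.nd (nat_lit 78) (nat_lit 608) (nat_lit 0) (XT.lf (nat_lit 760) (nat_lit 4070153996) (nat_lit 0) (nat_lit 581889037) (nat_lit 684) (nat_lit 2332497542) (nat_lit 331) (nat_lit 1) (nat_lit 321) (nat_lit 1) (nat_lit 330)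 (nat_lit 1) (nat_lit 306) (nat_lit 374) (nat_lit 340)) (XT.nd (nat_lit 78) (nat_lit 608) (nat_lit 0) (XT.lf (nat_lit 76) (nat_lit 2037989749) (nat_lit 0) (nat_lit 4490798230) (nat_lit 760) (nat_lit 369257555) (nat_lit 322) (nat_lit 1) (nat_lit 321) (nat_lit 1) (nat_lit 331) (nat_lit 1) (nat_lit 307) (nat_lit 374) (nat_lit 339)) (XT.lf (nat_lit 684) (nat_lit 741046267) (nat_lit 0) (nat_lit 5546446114) (nat_lit 608) (nat_lit 525563101) (nat_lit 322) (nat_lit 1) (nat_lit 313) (nat_lit 1) (nat_lit 321) (nat_lit 1) (nat_lit 308) (nat_lit 374) (nat_lit 338)))))) (XT.nd (nat_lit 390) (nat_lit 2204) (nat_lit 0) (XT.nd (nat_lit 156) (nat_lit 1824) (nat_lit 0) (XT.nd (nat_lit 78) (nat_lit 608) (nat_lit 0) (XT.lf (nat_lit 76) (nat_lit 3672690570) (nat_lit 0) (nat_lit 921653725) (nat_lit 684) (nat_lit 2134952216) (nat_lit 305) (nat_lit 1) (nat_lit 304) (nat_lit 1) (nat_lit 313) (nat_lit 1) (nat_lit 309) (nat_lit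 374) (nat_lit 337)) (XT.lf (nat_lit 76) (nat_lit 1116752754) (nat_lit 0) (nat_lit 2569274275) (nat_lit 684) (nat_lit 2961000978) (nat_lit 297) (nat_lit 1) (nat_lit 296) (nat_lit 1) (nat_lit 305) (nat_lit 1) (nat_lit 310) (nat_lit 374) (nat_lit 336))) (XT.nd (nat_lit 78) (nat_lit 1216) (nat_lit 0) (XT.lf (nat_lit 684) (nat_lit 2345948472) (nat_lit 0) (nat_lit 2815696833) (nat_lit 608) (nat_lit 1404484850) (nat_lit 297) (nat_lit 1) (nat_lit 288) (nat_lit 1) (nat_lit 296) (nat_lit 1) (nat_lit 311) (nat_lit 374) (nat_lit 335)) (XT.nd (nat_lit 78) (nat_lit 684) (nat_lit 0) (XT.lf (nat_lit 608) (nat_lit 614799147) (nat_lit 0) (nat_lit 1984143886) (nat_lit 532) (nat_lit 3887669343) (nat_lit 289) (nat_lit 1) (nat_lit 281) (nat_lit 1) (nat_lit 288) (nat_lit 1) (nat_lit 312) (nat_lit 374) (nat_lit 334)) (XT.lf (nat_lit 76) (nat_lit 96902924) (nat_lit 0) (nat_lit 1093284880) (nat_lit 684) (nat_lit 5218257703)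 (nat_lit 273) (nat_lit 1) (nat_lit 272) (nat_lit 1) (nat_lit 281) (nat_lit 1) (nat_lit 313) (nat_lit 374) (nat_lit 333))))) (XT.nd (nat_lit 156) (nat_lit 1672) (nat_lit 0) (XT.nd (nat_lit 78) (nat_lit 0) (nat_lit 0) (XT.lf (nat_lit 608) (nat_lit 3531380808) (nat_lit 0) (nat_lit 420088582) (nat_lit 532) (nat_lit 2379884787) (nat_lit 273) (nat_lit 1) (nat_lit 265) (nat_lit 1) (nat_lit 272) (nat_lit 1) (nat_lit 314) (nat_lit 374) (nat_lit 332)) (XT.lf (nat_lit 76) (nat_lit 1451960252) (nat_lit 0) (nat_lit 4499835578) (nat_lit 608) (nat_lit 303854736) (nat_lit 266) (nat_lit 1) (nat_lit 265) (nat_lit 1) (nat_lit 273) (nat_lit 1) (nat_lit 315) (nat_lit 374) (nat_lit 331))) (XT.nd (nat_lit 78) (nat_lit 1064) (nat_lit 0) (XT.lf (nat_lit 76) (nat_lit 5175728388) (nat_lit 0) (nat_lit 17497565) (nat_lit 608) (nat_lit 987949250) (nat_lit 258) (nat_lit 1) (nat_lit 257) (nat_lit 1) (nat_lit 265) (nat_lit 1) (nat_lit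 316) (nat_lit 374) (nat_lit 330)) (XT.nd (nat_lit 78) (nat_lit 532) (nat_lit 0) (XT.lf (nat_lit 76) (nat_lit 2689332059) (nat_lit 0) (nat_lit 1765490605) (nat_lit 608) (nat_lit 1652851254) (nat_lit 251) (nat_lit 1) (nat_lit 250) (nat_lit 1) (nat_lit 258) (nat_lit 1) (nat_lit 317) (nat_lit 374) (nat_lit 329)) (XT.lf (nat_lit 76) (nat_lit 255481757) (nat_lit 0) (nat_lit 3501345006) (nat_lit 608) (nat_lit 2278711208) (nat_lit 244) (nat_lit 1) (nat_lit 243) (nat_lit 1) (nat_lit 251) (nat_lit 1) (nat_lit 318) (nat_lit 374) (nat_lit 328))))))))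
noncomputable def ec88 : XT := (XT.nd (nat_lit 1404) (nat_lit 5092) (nat_lit 0) (XT.nd (nat_lit 702) (nat_lit 3420) (nat_lit 0) (XT.nd (nat_lit 312) (nat_lit 1900) (nat_lit 0) (XT.nd (nat_lit 156) (nat_lit 912) (nat_lit 0) (XT.nd (nat_lit 78) (nat_lit 608) (nat_lit 0) (XT.lf (nat_lit 532) (nat_lit 725621572) (nat_lit 0) (nat_lit 3083802160) (nat_lit 456) (nat_lit 2155035400) (nat_lit 244) (nat_lit 1) (nat_lit 237) (nat_lit 1) (nat_lit 243) (nat_lit 1) (nat_lit 319) (nat_lit 374) (nat_lit 327)) (XT.lf (nat_lit 76) (nat_lit 1384000185) (nat_lit 0) (nat_lit 1056422440) (nat_lit 608) (nat_lit 3454100907) (nat_lit 230) (nat_lit 1) (nat_lit 229) (nat_lit 1) (nat_lit 237) (nat_lit 1) (nat_lit 320) (nat_lit 374) (nat_lit 326))) (XT.nd (nat_lit 78) (nat_lit 456) (nat_lit 0) (XT.lf (nat_lit 532) (nat_lit 3004389329) (nat_lit 0) (nat_lit 1823059332) (nat_lit 456) (nat_lit 998205902) (nat_lit 230) (nat_lit 1)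 (nat_lit 223) (nat_lit 1) (nat_lit 229) (nat_lit 1) (nat_lit 321) (nat_lit 374) (nat_lit 325)) (XT.lf (nat_lit 532) (nat_lit 1177295413) (nat_lit 0) (nat_lit 1233098964) (nat_lit 456) (nat_lit 3347479633) (nat_lit 224) (nat_lit 1) (nat_lit 217) (nat_lit 1) (nat_lit 223) (nat_lit 1) (nat_lit 322) (nat_lit 374) (nat_lit 324)))) (XT.nd (nat_lit 156) (nat_lit 912) (nat_lit 0) (XT.nd (nat_lit 78) (nat_lit 456) (nat_lit 0) (XT.lf (nat_lit 76) (nat_lit 49080949) (nat_lit 0) (nat_lit 625490138) (nat_lit 532) (nat_lit 5016684449) (nat_lit 211) (nat_lit 1) (nat_lit 210) (nat_lit 1) (nat_lit 217) (nat_lit 1) (nat_lit 323) (nat_lit 374) (nat_lit 323)) (XT.lf (nat_lit 532) (nat_lit 3213608294) (nat_lit 0) (nat_lit 127823899) (nat_lit 456) (nat_lit 2283976318) (nat_lit 211) (nat_lit 1) (nat_lit 204) (nat_lit 1) (nat_lit 210) (nat_lit 1) (nat_lit 324) (nat_lit 374) (nat_lit 322))) (XT.nd (nat_lit 78) (nat_lit 912)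 (nat_lit 0) (XT.lf (nat_lit 76) (nat_lit 995859966) (nat_lit 0) (nat_lit 4184676765) (nat_lit 532) (nat_lit 380170730) (nat_lit 205) (nat_lit 1) (nat_lit 204) (nat_lit 1) (nat_lit 211) (nat_lit 1) (nat_lit 325) (nat_lit 374) (nat_lit 321)) (XT.nd (nat_lit 78) (nat_lit 456) (nat_lit 0) (XT.lf (nat_lit 76) (nat_lit 4184119298) (nat_lit 0) (nat_lit 447456450) (nat_lit 456) (nat_lit 865366528) (nat_lit 199) (nat_lit 1) (nat_lit 198) (nat_lit 1) (nat_lit 204) (nat_lit 1) (nat_lit 326) (nat_lit 374) (nat_lit 320)) (XT.lf (nat_lit 76) (nat_lit 1858361537) (nat_lit 0) (nat_lit 2241682662) (nat_lit 532) (nat_lit 1333989220) (nat_lit 193) (nat_lit 1) (nat_lit 192) (nat_lit 1) (nat_lit 199) (nat_lit 1) (nat_lit 327) (nat_lit 374) (nat_lit 319)))))) (XT.nd (nat_lit 312) (nat_lit 1824) (nat_lit 0) (XT.nd (nat_lit 156) (nat_lit 760) (nat_lit 0) (XT.nd (nat_lit 78) (nat_lit 456) (nat_lit 0) (XT.lf (nat_lit 456)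 (nat_lit 1351362779) (nat_lit 0) (nat_lit 3598027022) (nat_lit 380) (nat_lit 422823052) (nat_lit 193) (nat_lit 1) (nat_lit 187) (nat_lit 1) (nat_lit 192) (nat_lit 1) (nat_lit 328) (nat_lit 374) (nat_lit 318)) (XT.lf (nat_lit 76) (nat_lit 2635533183) (nat_lit 0) (nat_lit 476522361) (nat_lit 456) (nat_lit 2199155997) (nat_lit 182) (nat_lit 1) (nat_lit 181) (nat_lit 1) (nat_lit 187) (nat_lit 1) (nat_lit 329) (nat_lit 374) (nat_lit 317))) (XT.nd (nat_lit 78) (nat_lit 380) (nat_lit 0) (XT.lf (nat_lit 76) (nat_lit 380317320) (nat_lit 0) (nat_lit 2267745257) (nat_lit 456) (nat_lit 2603078336) (nat_lit 177) (nat_lit 1) (nat_lit 176) (nat_lit 1) (nat_lit 182) (nat_lit 1) (nat_lit 330) (nat_lit 374) (nat_lit 316)) (XT.lf (nat_lit 456) (nat_lit 1139815324) (nat_lit 0) (nat_lit 2201853836) (nat_lit 380) (nat_lit 1850244715) (nat_lit 177) (nat_lit 1) (nat_lit 171) (nat_lit 1) (nat_lit 176) (nat_lit 1) (nat_lit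 331) (nat_lit 374) (nat_lit 315)))) (XT.nd (nat_lit 156) (nat_lit 1064) (nat_lit 0) (XT.nd (nat_lit 78) (nat_lit 380) (nat_lit 0) (XT.lf (nat_lit 76) (nat_lit 1100926088) (nat_lit 0) (nat_lit 677114673) (nat_lit 380) (nat_lit 3355575285) (nat_lit 167) (nat_lit 1) (nat_lit 166) (nat_lit 1) (nat_lit 171) (nat_lit 1) (nat_lit 332) (nat_lit 374) (nat_lit 314)) (XT.lf (nat_lit 456) (nat_lit 2609694967) (nat_lit 0) (nat_lit 1368178976) (nat_lit 380) (nat_lit 1098203146) (nat_lit 167) (nat_lit 1) (nat_lit 161) (nat_lit 1) (nat_lit 166) (nat_lit 1) (nat_lit 333) (nat_lit 374) (nat_lit 313))) (XT.nd (nat_lit 78) (nat_lit 760) (nat_lit 0) (XT.lf (nat_lit 380) (nat_lit 776592941) (nat_lit 0) (nat_lit 979190659) (nat_lit 304) (nat_lit 3263644422) (nat_lit 162) (nat_lit 1) (nat_lit 157) (nat_lit 1) (nat_lit 161) (nat_lit 1) (nat_lit 334) (nat_lit 374) (nat_lit 312)) (XT.nd (nat_lit 78) (nat_lit 304) (nat_lit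 0) (XT.lf (nat_lit 456) (nat_lit 3938932039) (nat_lit 0) (nat_lit 608029902) (nat_lit 380) (nat_lit 416642514) (nat_lit 157) (nat_lit 1) (nat_lit 151) (nat_lit 1) (nat_lit 156) (nat_lit 1) (nat_lit 335) (nat_lit 374) (nat_lit 311)) (XT.lf (nat_lit 380) (nat_lit 2102044666) (nat_lit 0) (nat_lit 247082022) (nat_lit 304) (nat_lit 2559325772) (nat_lit 152) (nat_lit 1) (nat_lit 147) (nat_lit 1) (nat_lit 151) (nat_lit 1) (nat_lit 336) (nat_lit 374) (nat_lit 310))))))) (XT.nd (nat_lit 702) (nat_lit 2508) (nat_lit 0) (XT.nd (nat_lit 312) (nat_lit 1520) (nat_lit 0) (XT.nd (nat_lit 156) (nat_lit 684) (nat_lit 0) (XT.nd (nat_lit 78) (nat_lit 380) (nat_lit 0) (XT.lf (nat_lit 76) (nat_lit 199882941) (nat_lit 0) (nat_lit 4567992520) (nat_lit 380) (nat_lit 86396482) (nat_lit 148) (nat_lit 1) (nat_lit 147) (nat_lit 1) (nat_lit 152) (nat_lit 1) (nat_lit 337) (nat_lit 374) (nat_lit 309)) (XT.lf (nat_lit 76) (nat_lit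 2884568266) (nat_lit 0) (nat_lit 1502209656) (nat_lit 380) (nat_lit 413800315) (nat_lit 143) (nat_lit 1) (nat_lit 142) (nat_lit 1) (nat_lit 147) (nat_lit 1) (nat_lit 338) (nat_lit 374) (nat_lit 308))) (XT.nd (nat_lit 78) (nat_lit 380) (nat_lit 0) (XT.lf (nat_lit 76) (nat_lit 761607840) (nat_lit 0) (nat_lit 3266715377) (nat_lit 380) (nat_lit 719454040) (nat_lit 139) (nat_lit 1) (nat_lit 138) (nat_lit 1) (nat_lit 143) (nat_lit 1) (nat_lit 339) (nat_lit 374) (nat_lit 307)) (XT.lf (nat_lit 76) (nat_lit 3365529224) (nat_lit 0) (nat_lit 318525414) (nat_lit 380) (nat_lit 1011644191) (nat_lit 134) (nat_lit 1) (nat_lit 133) (nat_lit 1) (nat_lit 138) (nat_lit 1) (nat_lit 340) (nat_lit 374) (nat_lit 306)))) (XT.nd (nat_lit 156) (nat_lit 912) (nat_lit 0) (XT.nd (nat_lit 78) (nat_lit 304) (nat_lit 0) (XT.lf (nat_lit 76) (nat_lit 1268099497) (nat_lit 0) (nat_lit 2081611287) (nat_lit 380) (nat_lit 1294544298) (nat_lit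 130) (nat_lit 1) (nat_lit 129) (nat_lit 1) (nat_lit 134) (nat_lit 1) (nat_lit 341) (nat_lit 374) (nat_lit 305)) (XT.lf (nat_lit 380) (nat_lit 765682931) (nat_lit 0) (nat_lit 3034275659) (nat_lit 304) (nat_lit 793659310) (nat_lit 130) (nat_lit 1) (nat_lit 125) (nat_lit 1) (nat_lit 129) (nat_lit 1) (nat_lit 342) (nat_lit 374) (nat_lit 304))) (XT.nd (nat_lit 78) (nat_lit 608) (nat_lit 0) (XT.lf (nat_lit 76) (nat_lit 1723821549) (nat_lit 0) (nat_lit 1003547667) (nat_lit 304) (nat_lit 1816210306) (nat_lit 122) (nat_lit 1) (nat_lit 121) (nat_lit 1) (nat_lit 125) (nat_lit 1) (nat_lit 343) (nat_lit 374) (nat_lit 303)) (XT.nd (nat_lit 78) (nat_lit 304) (nat_lit 0) (XT.lf (nat_lit 380) (nat_lit 1751938439) (nat_lit 0) (nat_lit 2436606052) (nat_lit 304) (nat_lit 305740572) (nat_lit 122) (nat_lit 1) (nat_lit 117) (nat_lit 1) (nat_lit 121) (nat_lit 1) (nat_lit 344) (nat_lit 374) (nat_lit 302)) (XT.lf (nat_lit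 76) (nat_lit 2132893083) (nat_lit 0) (nat_lit 24090696) (nat_lit 304) (nat_lit 2288648510) (nat_lit 114) (nat_lit 1) (nat_lit 113) (nat_lit 1) (nat_lit 117) (nat_lit 1) (nat_lit 345) (nat_lit 374) (nat_lit 301)))))) (XT.nd (nat_lit 390) (nat_lit 1064) (nat_lit 0) (XT.nd (nat_lit 156) (nat_lit 912) (nat_lit 0) (XT.nd (nat_lit 78) (nat_lit 228) (nat_lit 0) (XT.lf (nat_lit 76) (nat_lit 133739261) (nat_lit 0) (nat_lit 1754385081) (nat_lit 380) (nat_lit 2509485334) (nat_lit 110) (nat_lit 1) (nat_lit 109) (nat_lit 1) (nat_lit 114) (nat_lit 1) (nat_lit 346) (nat_lit 374) (nat_lit 300)) (XT.lf (nat_lit 304) (nat_lit 876037197) (nat_lit 0) (nat_lit 1628765525) (nat_lit 228) (nat_lit 1845385684) (nat_lit 110) (nat_lit 1) (nat_lit 106) (nat_lit 1) (nat_lit 109) (nat_lit 1) (nat_lit 347) (nat_lit 374) (nat_lit 299))) (XT.nd (nat_lit 78) (nat_lit 532) (nat_lit 0) (XT.lf (nat_lit 76) (nat_lit 526864451) (nat_lit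 0) (nat_lit 857277175) (nat_lit 380) (nat_lit 2919325458) (nat_lit 102) (nat_lit 1) (nat_lit 101) (nat_lit 1) (nat_lit 106) (nat_lit 1) (nat_lit 348) (nat_lit 374) (nat_lit 298)) (XT.nd (nat_lit 78) (nat_lit 304) (nat_lit 0) (XT.lf (nat_lit 304) (nat_lit 1691747071) (nat_lit 0) (nat_lit 1145230699) (nat_lit 228) (nat_lit 1420287048) (nat_lit 102) (nat_lit 1) (nat_lit 98) (nat_lit 1) (nat_lit 101) (nat_lit 1) (nat_lit 349) (nat_lit 374) (nat_lit 297)) (XT.lf (nat_lit 76) (nat_lit 881063919) (nat_lit 0) (nat_lit 42041864) (nat_lit 304) (nat_lit 3288688991) (nat_lit 95) (nat_lit 1) (nat_lit 94) (nat_lit 1) (nat_lit 98) (nat_lit 1) (nat_lit 350) (nat_lit 374) (nat_lit 296))))) (XT.nd (nat_lit 156) (nat_lit 608) (nat_lit 0) (XT.nd (nat_lit 78) (nat_lit 228) (nat_lit 0) (XT.lf (nat_lit 304) (nat_lit 2429447500) (nat_lit 0) (nat_lit 703091149) (nat_lit 228) (nat_lit 1034226631) (nat_lit 95) (nat_lit 1)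 (nat_lit 91) (nat_lit 1) (nat_lit 94) (nat_lit 1) (nat_lit 351) (nat_lit 374) (nat_lit 295)) (XT.lf (nat_lit 304) (nat_lit 707054583) (nat_lit 0) (nat_lit 497028881) (nat_lit 228) (nat_lit 2918321193) (nat_lit 92) (nat_lit 1) (nat_lit 88) (nat_lit 1) (nat_lit 91) (nat_lit 1) (nat_lit 352) (nat_lit 374) (nat_lit 294))) (XT.nd (nat_lit 78) (nat_lit 304) (nat_lit 0) (XT.lf (nat_lit 304) (nat_lit 3095351195) (nat_lit 0) (nat_lit 299158875) (nat_lit 228) (nat_lit 684086054) (nat_lit 88) (nat_lit 1) (nat_lit 84) (nat_lit 1) (nat_lit 87) (nat_lit 1) (nat_lit 353) (nat_lit 374) (nat_lit 293)) (XT.nd (nat_lit 78) (nat_lit 76) (nat_lit 0) (XT.lf (nat_lit 304) (nat_lit 1386340730) (nat_lit 0) (nat_lit 107722709) (nat_lit 228) (nat_lit 2541237964) (nat_lit 85) (nat_lit 1) (nat_lit 81) (nat_lit 1) (nat_lit 84) (nat_lit 1) (nat_lit 354) (nat_lit 374) (nat_lit 292)) (XT.lf (nat_lit 76) (nat_lit 3626133268) (nat_lit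 0) (nat_lit 297926242) (nat_lit 304) (nat_lit 68600496) (nat_lit 81) (nat_lit 1) (nat_lit 80) (nat_lit 1) (nat_lit 84) (nat_lit 1) (nat_lit 355) (nat_lit 374) (nat_lit 291))))))))
noncomputable def ec89 : XT := (XT.nd (nat_lit 1404) (nat_lit 380) (nat_lit 0) (XT.nd (nat_lit 702) (nat_lit 1824) (nat_lit 0) (XT.nd (nat_lit 312) (nat_lit 1064) (nat_lit 0) (XT.nd (nat_lit 156) (nat_lit 456) (nat_lit 0) (XT.nd (nat_lit 78) (nat_lit 228) (nat_lit 0) (XT.lf (nat_lit 76) (nat_lit 1755055809) (nat_lit 0) (nat_lit 1951170530) (nat_lit 304) (nat_lit 244145753) (nat_lit 78) (nat_lit 1) (nat_lit 77) (nat_lit 1) (nat_lit 81) (nat_lit 1) (nat_lit 356) (nat_lit 374) (nat_lit 290)) (XT.lf (nat_lit 304) (nat_lit 327026352) (nat_lit 0) (nat_lit 3506357965) (nat_lit 228) (nat_lit 75421205) (nat_lit 78) (nat_lit 1) (nat_lit 74) (nat_lit 1) (nat_lit 77) (nat_lit 1) (nat_lit 357) (nat_lit 374) (nat_lit 289))) (XT.nd (nat_lit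 78) (nat_lit 228) (nat_lit 0) (XT.lf (nat_lit 76) (nat_lit 1988460428) (nat_lit 0) (nat_lit 1315632360) (nat_lit 228) (nat_lit 563464677) (nat_lit 72) (nat_lit 1) (nat_lit 71) (nat_lit 1) (nat_lit 74) (nat_lit 1) (nat_lit 358) (nat_lit 374) (nat_lit 288)) (XT.lf (nat_lit 76) (nat_lit 186682462) (nat_lit 0) (nat_lit 2930822787) (nat_lit 304) (nat_lit 709473527) (nat_lit 69) (nat_lit 1) (nat_lit 68) (nat_lit 1) (nat_lit 72) (nat_lit 1) (nat_lit 359) (nat_lit 374) (nat_lit 287)))) (XT.nd (nat_lit 156) (nat_lit 608) (nat_lit 0) (XT.nd (nat_lit 78) (nat_lit 228) (nat_lit 0) (XT.lf (nat_lit 76) (nat_lit 2195910533) (nat_lit 0) (nat_lit 736826866) (nat_lit 228) (nat_lit 854056816) (nat_lit 66) (nat_lit 1) (nat_lit 65) (nat_lit 1) (nat_lit 68) (nat_lit 1) (nat_lit 360) (nat_lit 374) (nat_lit 286)) (XT.lf (nat_lit 76) (nat_lit 421928775) (nat_lit 0) (nat_lit 2336099023) (nat_lit 304) (nat_lit 989134044) (nat_lit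 63) (nat_lit 1) (nat_lit 62) (nat_lit 1) (nat_lit 66) (nat_lit 1) (nat_lit 361) (nat_lit 374) (nat_lit 285))) (XT.nd (nat_lit 78) (nat_lit 380) (nat_lit 0) (XT.lf (nat_lit 76) (nat_lit 2379557702) (nat_lit 0) (nat_lit 210302438) (nat_lit 228) (nat_lit 1118149124) (nat_lit 60) (nat_lit 1) (nat_lit 59) (nat_lit 1) (nat_lit 62) (nat_lit 1) (nat_lit 362) (nat_lit 374) (nat_lit 284)) (XT.nd (nat_lit 78) (nat_lit 152) (nat_lit 0) (XT.lf (nat_lit 76) (nat_lit 633408801) (nat_lit 0) (nat_lit 1792783114) (nat_lit 304) (nat_lit 1243101104) (nat_lit 57) (nat_lit 1) (nat_lit 56) (nat_lit 1) (nat_lit 60) (nat_lit 1) (nat_lit 363) (nat_lit 374) (nat_lit 283)) (XT.lf (nat_lit 228) (nat_lit 271614514) (nat_lit 0) (nat_lit 2271535264) (nat_lit 152) (nat_lit 1087948420) (nat_lit 57) (nat_lit 1) (nat_lit 54) (nat_lit 1) (nat_lit 56) (nat_lit 1) (nat_lit 364) (nat_lit 374) (nat_lit 282)))))) (XT.nd (nat_lit 312) (nat_lit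 912) (nat_lit 0) (XT.nd (nat_lit 156) (nat_lit 456) (nat_lit 0) (XT.nd (nat_lit 78) (nat_lit 152) (nat_lit 0) (XT.lf (nat_lit 76) (nat_lit 823061827) (nat_lit 0) (nat_lit 1296870620) (nat_lit 304) (nat_lit 1473372192) (nat_lit 51) (nat_lit 1) (nat_lit 50) (nat_lit 1) (nat_lit 54) (nat_lit 1) (nat_lit 365) (nat_lit 374) (nat_lit 281)) (XT.lf (nat_lit 228) (nat_lit 711363723) (nat_lit 0) (nat_lit 1976481059) (nat_lit 152) (nat_lit 868164198) (nat_lit 51) (nat_lit 1) (nat_lit 48) (nat_lit 1) (nat_lit 50) (nat_lit 1) (nat_lit 366) (nat_lit 374) (nat_lit 280))) (XT.nd (nat_lit 78) (nat_lit 152) (nat_lit 0) (XT.lf (nat_lit 76) (nat_lit 992676933) (nat_lit 0) (nat_lit 844662629) (nat_lit 304) (nat_lit 1681793052) (nat_lit 45) (nat_lit 1) (nat_lit 44) (nat_lit 1) (nat_lit 48) (nat_lit 1) (nat_lit 367) (nat_lit 374) (nat_lit 279)) (XT.lf (nat_lit 228) (nat_lit 1109703339) (nat_lit 0) (nat_lit 1704266099)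 (nat_lit 152) (nat_lit 668737326) (nat_lit 45) (nat_lit 1) (nat_lit 42) (nat_lit 1) (nat_lit 44) (nat_lit 1) (nat_lit 368) (nat_lit 374) (nat_lit 278)))) (XT.nd (nat_lit 156) (nat_lit 532) (nat_lit 0) (XT.nd (nat_lit 78) (nat_lit 152) (nat_lit 0) (XT.lf (nat_lit 76) (nat_lit 1143904453) (nat_lit 0) (nat_lit 432742543) (nat_lit 228) (nat_lit 1870069183) (nat_lit 40) (nat_lit 1) (nat_lit 39) (nat_lit 1) (nat_lit 42) (nat_lit 1) (nat_lit 369) (nat_lit 374) (nat_lit 277)) (XT.lf (nat_lit 228) (nat_lit 1469914313) (nat_lit 0) (nat_lit 1453186210) (nat_lit 152) (nat_lit 488031734) (nat_lit 40) (nat_lit 1) (nat_lit 37) (nat_lit 1) (nat_lit 39) (nat_lit 1) (nat_lit 370) (nat_lit 374) (nat_lit 276))) (XT.nd (nat_lit 78) (nat_lit 304) (nat_lit 0) (XT.lf (nat_lit 76) (nat_lit 1278266571) (nat_lit 0) (nat_lit 57954631) (nat_lit 228) (nat_lit 2039776474) (nat_lit 35) (nat_lit 1) (nat_lit 34) (nat_lit 1) (nat_lit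 37) (nat_lit 1) (nat_lit 371) (nat_lit 374) (nat_lit 275)) (XT.nd (nat_lit 78) (nat_lit 152) (nat_lit 0) (XT.lf (nat_lit 228) (nat_lit 1795026268) (nat_lit 0) (nat_lit 1221665243) (nat_lit 152) (nat_lit 324537666) (nat_lit 35) (nat_lit 1) (nat_lit 32) (nat_lit 1) (nat_lit 34) (nat_lit 1) (nat_lit 372) (nat_lit 374) (nat_lit 274)) (XT.lf (nat_lit 228) (nat_lit 286371607) (nat_lit 0) (nat_lit 1112654821) (nat_lit 152) (nat_lit 1907858737) (nat_lit 33) (nat_lit 1) (nat_lit 30) (nat_lit 1) (nat_lit 32) (nat_lit 1) (nat_lit 373) (nat_lit 374) (nat_lit 273))))))) (XT.nd (nat_lit 45552) (nat_lit 0) (nat_lit 34732) (XT.nd (nat_lit 45162) (nat_lit 0) (nat_lit 35948) (XT.nd (nat_lit 45006) (nat_lit 0) (nat_lit 35872) (XT.nd (nat_lit 78) (nat_lit 152) (nat_lit 0) (XT.lf (nat_lit 228) (nat_lit 2087836614) (nat_lit 0) (nat_lit 1008245396) (nat_lit 152) (nat_lit 176862043) (nat_lit 30) (nat_lit 1) (nat_lit 27)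 (nat_lit 1) (nat_lit 29) (nat_lit 1) (nat_lit 374) (nat_lit 374) (nat_lit 272)) (XT.lf (nat_lit 228) (nat_lit 599523540) (nat_lit 0) (nat_lit 906269554) (nat_lit 152) (nat_lit 1733567214) (nat_lit 28) (nat_lit 1) (nat_lit 25) (nat_lit 1) (nat_lit 27) (nat_lit 1) (nat_lit 375) (nat_lit 374) (nat_lit 271))) (XT.nd (nat_lit 78) (nat_lit 0) (nat_lit 76) (XT.lf (nat_lit 1900) (nat_lit 1897965090) (nat_lit 0) (nat_lit 1913836492) (nat_lit 1900) (nat_lit 1897965090) (nat_lit 522) (nat_lit 1) (nat_lit 497) (nat_lit 0) (nat_lit 522) (nat_lit 0) (nat_lit 270) (nat_lit 375) (nat_lit 375)) (XT.lf (nat_lit 1900) (nat_lit 877304549) (nat_lit 0) (nat_lit 3808161290) (nat_lit 1824) (nat_lit 6567039000) (nat_lit 523) (nat_lit 1) (nat_lit 498) (nat_lit 1) (nat_lit 522) (nat_lit 1) (nat_lit 271) (nat_lit 375) (nat_lit 374)))) (XT.nd (nat_lit 156) (nat_lit 0) (nat_lit 152) (XT.nd (nat_lit 78) (nat_lit 0) (nat_lit 76)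 (XT.lf (nat_lit 1900) (nat_lit 7214926673) (nat_lit 76) (nat_lit 1855064318) (nat_lit 0) (nat_lit 2018660118) (nat_lit 523) (nat_lit 1) (nat_lit 499) (nat_lit 1) (nat_lit 498) (nat_lit 1) (nat_lit 272) (nat_lit 375) (nat_lit 373)) (XT.lf (nat_lit 1900) (nat_lit 6056779019) (nat_lit 0) (nat_lit 4019171038) (nat_lit 1824) (nat_lit 851983902) (nat_lit 524) (nat_lit 1) (nat_lit 499) (nat_lit 1) (nat_lit 523) (nat_lit 1) (nat_lit 273) (nat_lit 375) (nat_lit 372))) (XT.nd (nat_lit 78) (nat_lit 0) (nat_lit 76) (XT.lf (nat_lit 1900) (nat_lit 3107175215) (nat_lit 0) (nat_lit 4241395180) (nat_lit 1824) (nat_lit 3421707217) (nat_lit 525) (nat_lit 1) (nat_lit 500) (nat_lit 1) (nat_lit 524) (nat_lit 1) (nat_lit 274) (nat_lit 375) (nat_lit 371)) (XT.nd (nat_lit 78) (nat_lit 0) (nat_lit 0) (XT.lf (nat_lit 1900) (nat_lit 208677810) (nat_lit 0) (nat_lit 4525449381) (nat_lit 1824) (nat_lit 5881719955) (nat_lit 526)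 (nat_lit 1) (nat_lit 501) (nat_lit 1) (nat_lit 525) (nat_lit 1) (nat_lit 275) (nat_lit 375) (nat_lit 370)) (XT.lf (nat_lit 1900) (nat_lit 5578326667) (nat_lit 76) (nat_lit 2211640244) (nat_lit 0) (nat_lit 2674254453) (nat_lit 526) (nat_lit 1) (nat_lit 502) (nat_lit 1) (nat_lit 501) (nat_lit 1) (nat_lit 276) (nat_lit 375) (nat_lit 369)))))) (XT.nd (nat_lit 390) (nat_lit 1520) (nat_lit 0) (XT.nd (nat_lit 156) (nat_lit 0) (nat_lit 76) (XT.nd (nat_lit 78) (nat_lit 0) (nat_lit 76) (XT.lf (nat_lit 1900) (nat_lit 4807855866) (nat_lit 0) (nat_lit 5305040709) (nat_lit 1824) (nat_lit 202731310) (nat_lit 527) (nat_lit 1) (nat_lit 502) (nat_lit 1) (nat_lit 526) (nat_lit 1) (nat_lit 277) (nat_lit 375) (nat_lit 368)) (XT.lf (nat_lit 1900) (nat_lit 1892781386) (nat_lit 0) (nat_lit 5791260773) (nat_lit 1824) (nat_lit 2485734568) (nat_lit 528) (nat_lit 1) (nat_lit 503) (nat_lit 1) (nat_lit 527) (nat_lit 1) (nat_lit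 278) (nat_lit 375) (nat_lit 367))) (XT.nd (nat_lit 78) (nat_lit 0) (nat_lit 76) (XT.lf (nat_lit 1900) (nat_lit 3692674847) (nat_lit 76) (nat_lit 5351024254) (nat_lit 0) (nat_lit 983059271) (nat_lit 528) (nat_lit 1) (nat_lit 504) (nat_lit 1) (nat_lit 503) (nat_lit 1) (nat_lit 279) (nat_lit 375) (nat_lit 366)) (XT.nd (nat_lit 78) (nat_lit 0) (nat_lit 76) (XT.lf (nat_lit 1900) (nat_lit 2949557589) (nat_lit 76) (nat_lit 3105034729) (nat_lit 0) (nat_lit 3831798537) (nat_lit 529) (nat_lit 1) (nat_lit 505) (nat_lit 1) (nat_lit 504) (nat_lit 1) (nat_lit 280) (nat_lit 375) (nat_lit 365)) (XT.lf (nat_lit 1900) (nat_lit 2164117031) (nat_lit 76) (nat_lit 955888163) (nat_lit 0) (nat_lit 6628852252) (nat_lit 530) (nat_lit 1) (nat_lit 506) (nat_lit 1) (nat_lit 505) (nat_lit 1) (nat_lit 281) (nat_lit 375) (nat_lit 364))))) (XT.nd (nat_lit 156) (nat_lit 1824) (nat_lit 0) (XT.nd (nat_lit 78) (nat_lit 0) (nat_lit 0)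 (XT.lf (nat_lit 1900) (nat_lit 246435378) (nat_lit 0) (nat_lit 8282707562) (nat_lit 1824) (nat_lit 1084808303) (nat_lit 531) (nat_lit 1) (nat_lit 506) (nat_lit 1) (nat_lit 530) (nat_lit 1) (nat_lit 282) (nat_lit 375) (nat_lit 363)) (XT.lf (nat_lit 1900) (nat_lit 437348525) (nat_lit 76) (nat_lit 6441539740) (nat_lit 0) (nat_lit 2602413921) (nat_lit 531) (nat_lit 1) (nat_lit 507) (nat_lit 1) (nat_lit 506) (nat_lit 1) (nat_lit 283) (nat_lit 375) (nat_lit 362))) (XT.nd (nat_lit 78) (nat_lit 0) (nat_lit 76) (XT.lf (nat_lit 1976) (nat_lit 3952659251) (nat_lit 0) (nat_lit 486840264) (nat_lit 1900) (nat_lit 4911721762) (nat_lit 508) (nat_lit 1) (nat_lit 482) (nat_lit 1) (nat_lit 507) (nat_lit 1) (nat_lit 284) (nat_lit 375) (nat_lit 361)) (XT.nd (nat_lit 78) (nat_lit 0) (nat_lit 0) (XT.lf (nat_lit 1976) (nat_lit 1084160937) (nat_lit 0) (nat_lit 1438046818) (nat_lit 1900) (nat_lit 6701476145) (nat_lit 509)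 (nat_lit 1) (nat_lit 483) (nat_lit 1) (nat_lit 508) (nat_lit 1) (nat_lit 285) (nat_lit 375) (nat_lit 360)) (XT.lf (nat_lit 1976) (nat_lit 6666897174) (nat_lit 76) (nat_lit 678413924) (nat_lit 0) (nat_lit 1753149799) (nat_lit 509) (nat_lit 1) (nat_lit 484) (nat_lit 1) (nat_lit 483) (nat_lit 1) (nat_lit 286) (nat_lit 375) (nat_lit 359))))))))
noncomputable def ec90 : XT := (XT.nd (nat_lit 1404) (nat_lit 8892) (nat_lit 0) (XT.nd (nat_lit 702) (nat_lit 5928) (nat_lit 0) (XT.nd (nat_lit 312) (nat_lit 3496) (nat_lit 0) (XT.nd (nat_lit 156) (nat_lit 1824) (nat_lit 0) (XT.nd (nat_lit 78) (nat_lit 1140) (nat_lit 0) (XT.lf (nat_lit 76) (nat_lit 4431974501) (nat_lit 0) (nat_lit 3468105494) (nat_lit 1900) (nat_lit 1075365927) (nat_lit 485) (nat_lit 1) (nat_lit 484) (nat_lit 1) (nat_lit 509) (nat_lit 1) (nat_lit 287) (nat_lit 375) (nat_lit 358)) (XT.lf (nat_lit 76) (nat_lit 1578417854) (nat_lit 0) (nat_lit 4535657537)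 (nat_lit 1216) (nat_lit 2740714498) (nat_lit 470) (nat_lit 1) (nat_lit 469) (nat_lit 1) (nat_lit 485) (nat_lit 1) (nat_lit 288) (nat_lit 375) (nat_lit 357))) (XT.nd (nat_lit 78) (nat_lit 912) (nat_lit 0) (XT.lf (nat_lit 988) (nat_lit 3100131240) (nat_lit 0) (nat_lit 4399494213) (nat_lit 912) (nat_lit 1236740284) (nat_lit 470) (nat_lit 1) (nat_lit 457) (nat_lit 1) (nat_lit 469) (nat_lit 1) (nat_lit 289) (nat_lit 375) (nat_lit 356)) (XT.lf (nat_lit 988) (nat_lit 1849793439) (nat_lit 0) (nat_lit 2751992282) (nat_lit 912) (nat_lit 4018294492) (nat_lit 458) (nat_lit 1) (nat_lit 445) (nat_lit 1) (nat_lit 457) (nat_lit 1) (nat_lit 290) (nat_lit 375) (nat_lit 355)))) (XT.nd (nat_lit 156) (nat_lit 2584) (nat_lit 0) (XT.nd (nat_lit 78) (nat_lit 76) (nat_lit 0) (XT.lf (nat_lit 912) (nat_lit 580145223) (nat_lit 0) (nat_lit 1179914033) (nat_lit 836) (nat_lit 6746029683) (nat_lit 446) (nat_lit 1) (nat_lit 434)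 (nat_lit 1) (nat_lit 445) (nat_lit 1) (nat_lit 291) (nat_lit 375) (nat_lit 354)) (XT.lf (nat_lit 76) (nat_lit 7360911990) (nat_lit 0) (nat_lit 707024158) (nat_lit 912) (nat_lit 326135737) (nat_lit 434) (nat_lit 1) (nat_lit 433) (nat_lit 1) (nat_lit 445) (nat_lit 1) (nat_lit 292) (nat_lit 375) (nat_lit 353))) (XT.nd (nat_lit 78) (nat_lit 1672) (nat_lit 0) (XT.lf (nat_lit 76) (nat_lit 4500627463) (nat_lit 0) (nat_lit 2021467319) (nat_lit 988) (nat_lit 1761706516) (nat_lit 422) (nat_lit 1) (nat_lit 421) (nat_lit 1) (nat_lit 434) (nat_lit 1) (nat_lit 293) (nat_lit 375) (nat_lit 352)) (XT.nd (nat_lit 78) (nat_lit 836) (nat_lit 0) (XT.lf (nat_lit 76) (nat_lit 1696559293) (nat_lit 0) (nat_lit 3350237888) (nat_lit 912) (nat_lit 3128893053) (nat_lit 411) (nat_lit 1) (nat_lit 410) (nat_lit 1) (nat_lit 422) (nat_lit 1) (nat_lit 294) (nat_lit 375) (nat_lit 351)) (XT.lf (nat_lit 912) (nat_lit 3370484323) (nat_lit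 0) (nat_lit 3632946990) (nat_lit 836) (nat_lit 1066121480) (nat_lit 411) (nat_lit 1) (nat_lit 399) (nat_lit 1) (nat_lit 410) (nat_lit 1) (nat_lit 295) (nat_lit 375) (nat_lit 350)))))) (XT.nd (nat_lit 312) (nat_lit 3572) (nat_lit 0) (XT.nd (nat_lit 156) (nat_lit 836) (nat_lit 0) (XT.nd (nat_lit 78) (nat_lit 760) (nat_lit 0) (XT.lf (nat_lit 836) (nat_lit 1894567210) (nat_lit 0) (nat_lit 2274603681) (nat_lit 760) (nat_lit 3796094142) (nat_lit 400) (nat_lit 1) (nat_lit 389) (nat_lit 1) (nat_lit 399) (nat_lit 1) (nat_lit 296) (nat_lit 375) (nat_lit 349)) (XT.lf (nat_lit 836) (nat_lit 410131438) (nat_lit 0) (nat_lit 981216892) (nat_lit 760) (nat_lit 6471656518) (nat_lit 390) (nat_lit 1) (nat_lit 379) (nat_lit 1) (nat_lit 389) (nat_lit 1) (nat_lit 297) (nat_lit 375) (nat_lit 348))) (XT.nd (nat_lit 78) (nat_lit 760) (nat_lit 0) (XT.lf (nat_lit 76) (nat_lit 6422647094) (nat_lit 0) (nat_lit 1078063421) (nat_lit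 836) (nat_lit 261668358) (nat_lit 379) (nat_lit 1) (nat_lit 378) (nat_lit 1) (nat_lit 389) (nat_lit 1) (nat_lit 298) (nat_lit 375) (nat_lit 347)) (XT.lf (nat_lit 76) (nat_lit 3638361790) (nat_lit 0) (nat_lit 2582173473) (nat_lit 836) (nat_lit 1442807123) (nat_lit 369) (nat_lit 1) (nat_lit 368) (nat_lit 1) (nat_lit 379) (nat_lit 1) (nat_lit 299) (nat_lit 375) (nat_lit 346)))) (XT.nd (nat_lit 156) (nat_lit 2128) (nat_lit 0) (XT.nd (nat_lit 78) (nat_lit 684) (nat_lit 0) (XT.lf (nat_lit 76) (nat_lit 910163624) (nat_lit 0) (nat_lit 4091101101) (nat_lit 836) (nat_lit 2564953200) (nat_lit 359) (nat_lit 1) (nat_lit 358) (nat_lit 1) (nat_lit 369) (nat_lit 1) (nat_lit 300) (nat_lit 375) (nat_lit 345)) (XT.lf (nat_lit 760) (nat_lit 1855141895) (nat_lit 0) (nat_lit 3829312213) (nat_lit 684) (nat_lit 1786278008) (nat_lit 359) (nat_lit 1) (nat_lit 349) (nat_lit 1) (nat_lit 358) (nat_lit 1) (nat_lit 301) (nat_lit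 375) (nat_lit 344))) (XT.nd (nat_lit 78) (nat_lit 1444) (nat_lit 0) (XT.lf (nat_lit 760) (nat_lit 228107231) (nat_lit 0) (nat_lit 2709053173) (nat_lit 684) (nat_lit 4439803445) (nat_lit 350) (nat_lit 1) (nat_lit 340) (nat_lit 1) (nat_lit 349) (nat_lit 1) (nat_lit 302) (nat_lit 375) (nat_lit 343)) (XT.nd (nat_lit 78) (nat_lit 684) (nat_lit 0) (XT.lf (nat_lit 76) (nat_lit 254864729) (nat_lit 0) (nat_lit 1380792908) (nat_lit 760) (nat_lit 5649153948) (nat_lit 331) (nat_lit 1) (nat_lit 330) (nat_lit 1) (nat_lit 340) (nat_lit 1) (nat_lit 303) (nat_lit 375) (nat_lit 342)) (XT.lf (nat_lit 760) (nat_lit 4192258616) (nat_lit 0) (nat_lit 599345708) (nat_lit 684) (nat_lit 2402472469) (nat_lit 331) (nat_lit 1) (nat_lit 321) (nat_lit 1) (nat_lit 330) (nat_lit 1) (nat_lit 304) (nat_lit 375) (nat_lit 341))))))) (XT.nd (nat_lit 702) (nat_lit 4636) (nat_lit 0) (XT.nd (nat_lit 312) (nat_lit 2356) (nat_lit 0) (XT.nd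 (nat_lit 156) (nat_lit 1292) (nat_lit 0) (XT.nd (nat_lit 78) (nat_lit 608) (nat_lit 0) (XT.lf (nat_lit 76) (nat_lit 2099129442) (nat_lit 0) (nat_lit 4625522177) (nat_lit 760) (nat_lit 380335282) (nat_lit 322) (nat_lit 1) (nat_lit 321) (nat_lit 1) (nat_lit 331) (nat_lit 1) (nat_lit 305) (nat_lit 375) (nat_lit 340)) (XT.lf (nat_lit 684) (nat_lit 763277656) (nat_lit 0) (nat_lit 5712839497) (nat_lit 608) (nat_lit 541329994) (nat_lit 322) (nat_lit 1) (nat_lit 313) (nat_lit 1) (nat_lit 321) (nat_lit 1) (nat_lit 306) (nat_lit 375) (nat_lit 339))) (XT.nd (nat_lit 78) (nat_lit 608) (nat_lit 0) (XT.lf (nat_lit 76) (nat_lit 3782871287) (nat_lit 0) (nat_lit 949303337) (nat_lit 684) (nat_lit 2199000783) (nat_lit 305) (nat_lit 1) (nat_lit 304) (nat_lit 1) (nat_lit 313) (nat_lit 1) (nat_lit 307) (nat_lit 375) (nat_lit 338)) (XT.lf (nat_lit 76) (nat_lit 1150255336) (nat_lit 0) (nat_lit 2646352503) (nat_lit 684)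 (nat_lit 3049831008) (nat_lit 297) (nat_lit 1) (nat_lit 296) (nat_lit 1) (nat_lit 305) (nat_lit 1) (nat_lit 308) (nat_lit 375) (nat_lit 337)))) (XT.nd (nat_lit 156) (nat_lit 1216) (nat_lit 0) (XT.nd (nat_lit 78) (nat_lit 532) (nat_lit 0) (XT.lf (nat_lit 684) (nat_lit 2416326926) (nat_lit 0) (nat_lit 2900167738) (nat_lit 608) (nat_lit 1446619396) (nat_lit 297) (nat_lit 1) (nat_lit 288) (nat_lit 1) (nat_lit 296) (nat_lit 1) (nat_lit 309) (nat_lit 375) (nat_lit 336)) (XT.lf (nat_lit 608) (nat_lit 633243122) (nat_lit 0) (nat_lit 2043668202) (nat_lit 532) (nat_lit 4004299424) (nat_lit 289) (nat_lit 1) (nat_lit 281) (nat_lit 1) (nat_lit 288) (nat_lit 1) (nat_lit 310) (nat_lit 375) (nat_lit 335))) (XT.nd (nat_lit 78) (nat_lit 532) (nat_lit 0) (XT.lf (nat_lit 76) (nat_lit 99810012) (nat_lit 0) (nat_lit 1126083426) (nat_lit 684) (nat_lit 5374805434) (nat_lit 273) (nat_lit 1) (nat_lit 272) (nat_lit 1) (nat_lit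 281) (nat_lit 1) (nat_lit 311) (nat_lit 375) (nat_lit 334)) (XT.nd (nat_lit 78) (nat_lit 0) (nat_lit 0) (XT.lf (nat_lit 608) (nat_lit 3637322233) (nat_lit 0) (nat_lit 432691240) (nat_lit 532) (nat_lit 2451281330) (nat_lit 273) (nat_lit 1) (nat_lit 265) (nat_lit 1) (nat_lit 272) (nat_lit 1) (nat_lit 312) (nat_lit 375) (nat_lit 333)) (XT.lf (nat_lit 76) (nat_lit 1495519059) (nat_lit 0) (nat_lit 4634830645) (nat_lit 608) (nat_lit 312970378) (nat_lit 266) (nat_lit 1) (nat_lit 265) (nat_lit 1) (nat_lit 273) (nat_lit 1) (nat_lit 313) (nat_lit 375) (nat_lit 332)))))) (XT.nd (nat_lit 390) (nat_lit 1900) (nat_lit 0) (XT.nd (nat_lit 156) (nat_lit 1596) (nat_lit 0) (XT.nd (nat_lit 78) (nat_lit 532) (nat_lit 0) (XT.lf (nat_lit 76) (nat_lit 5331000239) (nat_lit 0) (nat_lit 18022492) (nat_lit 608) (nat_lit 1017587727) (nat_lit 258) (nat_lit 1) (nat_lit 257) (nat_lit 1) (nat_lit 265) (nat_lit 1) (nat_lit 314) (nat_lit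 375) (nat_lit 331)) (XT.lf (nat_lit 76) (nat_lit 2770012021) (nat_lit 0) (nat_lit 1818455323) (nat_lit 608) (nat_lit 1702436792) (nat_lit 251) (nat_lit 1) (nat_lit 250) (nat_lit 1) (nat_lit 258) (nat_lit 1) (nat_lit 315) (nat_lit 375) (nat_lit 330))) (XT.nd (nat_lit 78) (nat_lit 1064) (nat_lit 0) (XT.lf (nat_lit 76) (nat_lit 263146210) (nat_lit 0) (nat_lit 3606385356) (nat_lit 608) (nat_lit 2347072545) (nat_lit 244) (nat_lit 1) (nat_lit 243) (nat_lit 1) (nat_lit 251) (nat_lit 1) (nat_lit 316) (nat_lit 375) (nat_lit 329)) (XT.nd (nat_lit 78) (nat_lit 608) (nat_lit 0) (XT.lf (nat_lit 532) (nat_lit 747390219) (nat_lit 0) (nat_lit 3176316225) (nat_lit 456) (nat_lit 2219686462) (nat_lit 244) (nat_lit 1) (nat_lit 237) (nat_lit 1) (nat_lit 243) (nat_lit 1) (nat_lit 317) (nat_lit 375) (nat_lit 328)) (XT.lf (nat_lit 76) (nat_lit 1425520191) (nat_lit 0) (nat_lit 1088115113) (nat_lit 608) (nat_lit 3557723934)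 (nat_lit 230) (nat_lit 1) (nat_lit 229) (nat_lit 1) (nat_lit 237) (nat_lit 1) (nat_lit 318) (nat_lit 375) (nat_lit 327))))) (XT.nd (nat_lit 156) (nat_lit 988) (nat_lit 0) (XT.nd (nat_lit 78) (nat_lit 456) (nat_lit 0) (XT.lf (nat_lit 532) (nat_lit 3094521009) (nat_lit 0) (nat_lit 1877751112) (nat_lit 456) (nat_lit 1028152079) (nat_lit 230) (nat_lit 1) (nat_lit 223) (nat_lit 1) (nat_lit 229) (nat_lit 1) (nat_lit 319) (nat_lit 375) (nat_lit 326)) (XT.lf (nat_lit 532) (nat_lit 1212614276) (nat_lit 0) (nat_lit 1270091933) (nat_lit 456) (nat_lit 3447904022) (nat_lit 224) (nat_lit 1) (nat_lit 217) (nat_lit 1) (nat_lit 223) (nat_lit 1) (nat_lit 320) (nat_lit 375) (nat_lit 325))) (XT.nd (nat_lit 78) (nat_lit 456) (nat_lit 0) (XT.lf (nat_lit 76) (nat_lit 50553378) (nat_lit 0) (nat_lit 644254842) (nat_lit 532) (nat_lit 5167184982) (nat_lit 211) (nat_lit 1) (nat_lit 210) (nat_lit 1) (nat_lit 217) (nat_lit 1)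 (nat_lit 321) (nat_lit 375) (nat_lit 324)) (XT.nd (nat_lit 78) (nat_lit 0) (nat_lit 0) (XT.lf (nat_lit 532) (nat_lit 3310016543) (nat_lit 0) (nat_lit 131658616) (nat_lit 456) (nat_lit 2352495607) (nat_lit 211) (nat_lit 1) (nat_lit 204) (nat_lit 1) (nat_lit 210) (nat_lit 1) (nat_lit 322) (nat_lit 375) (nat_lit 323)) (XT.lf (nat_lit 76) (nat_lit 1025735765) (nat_lit 0) (nat_lit 4310217068) (nat_lit 532) (nat_lit 391575852) (nat_lit 205) (nat_lit 1) (nat_lit 204) (nat_lit 1) (nat_lit 211) (nat_lit 1) (nat_lit 323) (nat_lit 375) (nat_lit 322))))))))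
noncomputable def ec91 : XT := (XT.nd (nat_lit 1404) (nat_lit 4712) (nat_lit 0) (XT.nd (nat_lit 702) (nat_lit 2736) (nat_lit 0) (XT.nd (nat_lit 312) (nat_lit 1824) (nat_lit 0) (XT.nd (nat_lit 156) (nat_lit 836) (nat_lit 0) (XT.nd (nat_lit 78) (nat_lit 456) (nat_lit 0) (XT.lf (nat_lit 76) (nat_lit 4309642876) (nat_lit 0) (nat_lit 460880143) (nat_lit 456) (nat_lit 891327524) (nat_lit 199) (nat_lit 1) (nat_lit 198) (nat_lit 1) (nat_lit 204) (nat_lit 1) (nat_lit 324) (nat_lit 375) (nat_lit 321)) (XT.lf (nat_lit 76) (nat_lit 1914112383) (nat_lit 0) (nat_lit 2308933142) (nat_lit 532) (nat_lit 1374008896) (nat_lit 193) (nat_lit 1) (nat_lit 192) (nat_lit 1) (nat_lit 199) (nat_lit 1) (nat_lit 325) (nat_lit 375) (nat_lit 320))) (XT.nd (nat_lit 78) (nat_lit 456) (nat_lit 0) (XT.lf (nat_lit 456) (nat_lit 1391903662) (nat_lit 0) (nat_lit 3705967832) (nat_lit 380) (nat_lit 435507744) (nat_lit 193) (nat_lit 1)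 (nat_lit 187) (nat_lit 1) (nat_lit 192) (nat_lit 1) (nat_lit 326) (nat_lit 375) (nat_lit 319)) (XT.lf (nat_lit 76) (nat_lit 2714599178) (nat_lit 0) (nat_lit 490818032) (nat_lit 456) (nat_lit 2265130677) (nat_lit 182) (nat_lit 1) (nat_lit 181) (nat_lit 1) (nat_lit 187) (nat_lit 1) (nat_lit 327) (nat_lit 375) (nat_lit 318)))) (XT.nd (nat_lit 156) (nat_lit 1064) (nat_lit 0) (XT.nd (nat_lit 78) (nat_lit 380) (nat_lit 0) (XT.lf (nat_lit 76) (nat_lit 391726840) (nat_lit 0) (nat_lit 2335777615) (nat_lit 456) (nat_lit 2681170686) (nat_lit 177) (nat_lit 1) (nat_lit 176) (nat_lit 1) (nat_lit 182) (nat_lit 1) (nat_lit 328) (nat_lit 375) (nat_lit 317)) (XT.lf (nat_lit 456) (nat_lit 1174009784) (nat_lit 0) (nat_lit 2267909452) (nat_lit 380) (nat_lit 1905752057) (nat_lit 177) (nat_lit 1) (nat_lit 171) (nat_lit 1) (nat_lit 176) (nat_lit 1) (nat_lit 329) (nat_lit 375) (nat_lit 316))) (XT.nd (nat_lit 78) (nat_lit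 684) (nat_lit 0) (XT.lf (nat_lit 76) (nat_lit 1133953871) (nat_lit 0) (nat_lit 697428113) (nat_lit 380) (nat_lit 3456242543) (nat_lit 167) (nat_lit 1) (nat_lit 166) (nat_lit 1) (nat_lit 171) (nat_lit 1) (nat_lit 330) (nat_lit 375) (nat_lit 315)) (XT.nd (nat_lit 78) (nat_lit 304) (nat_lit 0) (XT.lf (nat_lit 456) (nat_lit 2687985816) (nat_lit 0) (nat_lit 1409224345) (nat_lit 380) (nat_lit 1131149241) (nat_lit 167) (nat_lit 1) (nat_lit 161) (nat_lit 1) (nat_lit 166) (nat_lit 1) (nat_lit 331) (nat_lit 375) (nat_lit 314)) (XT.lf (nat_lit 380) (nat_lit 799890729) (nat_lit 0) (nat_lit 1008566379) (nat_lit 304) (nat_lit 3361553755) (nat_lit 162) (nat_lit 1) (nat_lit 157) (nat_lit 1) (nat_lit 161) (nat_lit 1) (nat_lit 332) (nat_lit 375) (nat_lit 313)))))) (XT.nd (nat_lit 312) (nat_lit 1596) (nat_lit 0) (XT.nd (nat_lit 156) (nat_lit 380) (nat_lit 0) (XT.nd (nat_lit 78) (nat_lit 304) (nat_lit 0) (XT.lf (nat_lit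 456) (nat_lit 4057100001) (nat_lit 0) (nat_lit 626270799) (nat_lit 380) (nat_lit 429141789) (nat_lit 157) (nat_lit 1) (nat_lit 151) (nat_lit 1) (nat_lit 156) (nat_lit 1) (nat_lit 333) (nat_lit 375) (nat_lit 312)) (XT.lf (nat_lit 380) (nat_lit 2165106006) (nat_lit 0) (nat_lit 254494483) (nat_lit 304) (nat_lit 2636105545) (nat_lit 152) (nat_lit 1) (nat_lit 147) (nat_lit 1) (nat_lit 151) (nat_lit 1) (nat_lit 334) (nat_lit 375) (nat_lit 311))) (XT.nd (nat_lit 78) (nat_lit 380) (nat_lit 0) (XT.lf (nat_lit 76) (nat_lit 205879429) (nat_lit 0) (nat_lit 4705032295) (nat_lit 380) (nat_lit 88988377) (nat_lit 148) (nat_lit 1) (nat_lit 147) (nat_lit 1) (nat_lit 152) (nat_lit 1) (nat_lit 335) (nat_lit 375) (nat_lit 310)) (XT.lf (nat_lit 76) (nat_lit 2971105314) (nat_lit 0) (nat_lit 1547275946) (nat_lit 380) (nat_lit 426214324) (nat_lit 143) (nat_lit 1) (nat_lit 142) (nat_lit 1) (nat_lit 147) (nat_lit 1) (nat_lit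 336) (nat_lit 375) (nat_lit 309)))) (XT.nd (nat_lit 156) (nat_lit 912) (nat_lit 0) (XT.nd (nat_lit 78) (nat_lit 380) (nat_lit 0) (XT.lf (nat_lit 76) (nat_lit 784456075) (nat_lit 0) (nat_lit 3364716838) (nat_lit 380) (nat_lit 741037661) (nat_lit 139) (nat_lit 1) (nat_lit 138) (nat_lit 1) (nat_lit 143) (nat_lit 1) (nat_lit 337) (nat_lit 375) (nat_lit 308)) (XT.lf (nat_lit 76) (nat_lit 3466495101) (nat_lit 0) (nat_lit 328081176) (nat_lit 380) (nat_lit 1041993517) (nat_lit 134) (nat_lit 1) (nat_lit 133) (nat_lit 1) (nat_lit 138) (nat_lit 1) (nat_lit 338) (nat_lit 375) (nat_lit 307))) (XT.nd (nat_lit 78) (nat_lit 608) (nat_lit 0) (XT.lf (nat_lit 76) (nat_lit 1306142482) (nat_lit 0) (nat_lit 2144059626) (nat_lit 380) (nat_lit 1333380627) (nat_lit 130) (nat_lit 1) (nat_lit 129) (nat_lit 1) (nat_lit 134) (nat_lit 1) (nat_lit 339) (nat_lit 375) (nat_lit 306)) (XT.nd (nat_lit 78) (nat_lit 304) (nat_lit 0)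 (XT.lf (nat_lit 380) (nat_lit 788653419) (nat_lit 0) (nat_lit 3125303929) (nat_lit 304) (nat_lit 817469089) (nat_lit 130) (nat_lit 1) (nat_lit 125) (nat_lit 1) (nat_lit 129) (nat_lit 1) (nat_lit 340) (nat_lit 375) (nat_lit 305)) (XT.lf (nat_lit 76) (nat_lit 1775536195) (nat_lit 0) (nat_lit 1033654097) (nat_lit 304) (nat_lit 1870696616) (nat_lit 122) (nat_lit 1) (nat_lit 121) (nat_lit 1) (nat_lit 125) (nat_lit 1) (nat_lit 341) (nat_lit 375) (nat_lit 304))))))) (XT.nd (nat_lit 702) (nat_lit 2204) (nat_lit 0) (XT.nd (nat_lit 312) (nat_lit 1368) (nat_lit 0) (XT.nd (nat_lit 156) (nat_lit 532) (nat_lit 0) (XT.nd (nat_lit 78) (nat_lit 304) (nat_lit 0) (XT.lf (nat_lit 380) (nat_lit 1804496592) (nat_lit 0) (nat_lit 2509704234) (nat_lit 304) (nat_lit 314912789) (nat_lit 122) (nat_lit 1) (nat_lit 117) (nat_lit 1) (nat_lit 121) (nat_lit 1) (nat_lit 342) (nat_lit 375) (nat_lit 303)) (XT.lf (nat_lit 76) (nat_lit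 2196879876) (nat_lit 0) (nat_lit 24813416) (nat_lit 304) (nat_lit 2357307965) (nat_lit 114) (nat_lit 1) (nat_lit 113) (nat_lit 1) (nat_lit 117) (nat_lit 1) (nat_lit 343) (nat_lit 375) (nat_lit 302))) (XT.nd (nat_lit 78) (nat_lit 228) (nat_lit 0) (XT.lf (nat_lit 76) (nat_lit 137751438) (nat_lit 0) (nat_lit 1807016634) (nat_lit 380) (nat_lit 2584769894) (nat_lit 110) (nat_lit 1) (nat_lit 109) (nat_lit 1) (nat_lit 114) (nat_lit 1) (nat_lit 344) (nat_lit 375) (nat_lit 301)) (XT.lf (nat_lit 304) (nat_lit 902318313) (nat_lit 0) (nat_lit 1677628491) (nat_lit 228) (nat_lit 1900747254) (nat_lit 110) (nat_lit 1) (nat_lit 106) (nat_lit 1) (nat_lit 109) (nat_lit 1) (nat_lit 345) (nat_lit 375) (nat_lit 300)))) (XT.nd (nat_lit 156) (nat_lit 760) (nat_lit 0) (XT.nd (nat_lit 78) (nat_lit 228) (nat_lit 0) (XT.lf (nat_lit 76) (nat_lit 542670385) (nat_lit 0) (nat_lit 882995491) (nat_lit 380) (nat_lit 3006905221) (nat_lit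 102) (nat_lit 1) (nat_lit 101) (nat_lit 1) (nat_lit 106) (nat_lit 1) (nat_lit 346) (nat_lit 375) (nat_lit 299)) (XT.lf (nat_lit 304) (nat_lit 1742499483) (nat_lit 0) (nat_lit 1179587620) (nat_lit 228) (nat_lit 1462895659) (nat_lit 102) (nat_lit 1) (nat_lit 98) (nat_lit 1) (nat_lit 101) (nat_lit 1) (nat_lit 347) (nat_lit 375) (nat_lit 298))) (XT.nd (nat_lit 78) (nat_lit 456) (nat_lit 0) (XT.lf (nat_lit 76) (nat_lit 907495837) (nat_lit 0) (nat_lit 43303120) (nat_lit 304) (nat_lit 3387349661) (nat_lit 95) (nat_lit 1) (nat_lit 94) (nat_lit 1) (nat_lit 98) (nat_lit 1) (nat_lit 348) (nat_lit 375) (nat_lit 297)) (XT.nd (nat_lit 78) (nat_lit 228) (nat_lit 0) (XT.lf (nat_lit 304) (nat_lit 2502330925) (nat_lit 0) (nat_lit 724183884) (nat_lit 228) (nat_lit 1065253429) (nat_lit 95) (nat_lit 1) (nat_lit 91) (nat_lit 1) (nat_lit 94) (nat_lit 1) (nat_lit 349) (nat_lit 375) (nat_lit 296)) (XT.lf (nat_lit 304) (nat_lit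 728266220) (nat_lit 0) (nat_lit 511939747) (nat_lit 228) (nat_lit 3005870829) (nat_lit 92) (nat_lit 1) (nat_lit 88) (nat_lit 1) (nat_lit 91) (nat_lit 1) (nat_lit 350) (nat_lit 375) (nat_lit 295)))))) (XT.nd (nat_lit 390) (nat_lit 1140) (nat_lit 0) (XT.nd (nat_lit 156) (nat_lit 532) (nat_lit 0) (XT.nd (nat_lit 78) (nat_lit 228) (nat_lit 0) (XT.lf (nat_lit 304) (nat_lit 3188211731) (nat_lit 0) (nat_lit 308133641) (nat_lit 228) (nat_lit 704608636) (nat_lit 88) (nat_lit 1) (nat_lit 84) (nat_lit 1) (nat_lit 87) (nat_lit 1) (nat_lit 351) (nat_lit 375) (nat_lit 294)) (XT.lf (nat_lit 304) (nat_lit 1427930952) (nat_lit 0) (nat_lit 110954390) (nat_lit 228) (nat_lit 2617475103) (nat_lit 85) (nat_lit 1) (nat_lit 81) (nat_lit 1) (nat_lit 84) (nat_lit 1) (nat_lit 352) (nat_lit 375) (nat_lit 293))) (XT.nd (nat_lit 78) (nat_lit 456) (nat_lit 0) (XT.lf (nat_lit 76) (nat_lit 3734917266) (nat_lit 0) (nat_lit 306864030)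 (nat_lit 304) (nat_lit 70658511) (nat_lit 81) (nat_lit 1) (nat_lit 80) (nat_lit 1) (nat_lit 84) (nat_lit 1) (nat_lit 353) (nat_lit 375) (nat_lit 292)) (XT.nd (nat_lit 78) (nat_lit 228) (nat_lit 0) (XT.lf (nat_lit 76) (nat_lit 1807707484) (nat_lit 0) (nat_lit 2009705646) (nat_lit 304) (nat_lit 251470125) (nat_lit 78) (nat_lit 1) (nat_lit 77) (nat_lit 1) (nat_lit 81) (nat_lit 1) (nat_lit 354) (nat_lit 375) (nat_lit 291)) (XT.lf (nat_lit 304) (nat_lit 336837142) (nat_lit 0) (nat_lit 3611548704) (nat_lit 228) (nat_lit 77683841) (nat_lit 78) (nat_lit 1) (nat_lit 74) (nat_lit 1) (nat_lit 77) (nat_lit 1) (nat_lit 355) (nat_lit 375) (nat_lit 290))))) (XT.nd (nat_lit 156) (nat_lit 684) (nat_lit 0) (XT.nd (nat_lit 78) (nat_lit 228) (nat_lit 0) (XT.lf (nat_lit 76) (nat_lit 2048114241) (nat_lit 0) (nat_lit 1355101331) (nat_lit 228) (nat_lit 580368618) (nat_lit 72) (nat_lit 1) (nat_lit 71) (nat_lit 1) (nat_lit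 74) (nat_lit 1) (nat_lit 356) (nat_lit 375) (nat_lit 289)) (XT.lf (nat_lit 76) (nat_lit 192282936) (nat_lit 0) (nat_lit 3018747471) (nat_lit 304) (nat_lit 730757733) (nat_lit 69) (nat_lit 1) (nat_lit 68) (nat_lit 1) (nat_lit 72) (nat_lit 1) (nat_lit 357) (nat_lit 375) (nat_lit 288))) (XT.nd (nat_lit 78) (nat_lit 456) (nat_lit 0) (XT.lf (nat_lit 76) (nat_lit 2261787849) (nat_lit 0) (nat_lit 758931672) (nat_lit 228) (nat_lit 879678521) (nat_lit 66) (nat_lit 1) (nat_lit 65) (nat_lit 1) (nat_lit 68) (nat_lit 1) (nat_lit 358) (nat_lit 375) (nat_lit 287)) (XT.nd (nat_lit 78) (nat_lit 228) (nat_lit 0) (XT.lf (nat_lit 76) (nat_lit 434586638) (nat_lit 0) (nat_lit 2406181994) (nat_lit 304) (nat_lit 1018808065) (nat_lit 63) (nat_lit 1) (nat_lit 62) (nat_lit 1) (nat_lit 66) (nat_lit 1) (nat_lit 359) (nat_lit 375) (nat_lit 286)) (XT.lf (nat_lit 76) (nat_lit 2450944433) (nat_lit 0) (nat_lit 216611511) (nat_lit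 228) (nat_lit 1151693598) (nat_lit 60) (nat_lit 1) (nat_lit 59) (nat_lit 1) (nat_lit 62) (nat_lit 1) (nat_lit 360) (nat_lit 375) (nat_lit 285))))))))
noncomputable def ec92 : XT := (XT.nd (nat_lit 46332) (nat_lit 0) (nat_lit 29640) (XT.nd (nat_lit 702) (nat_lit 1064) (nat_lit 0) (XT.nd (nat_lit 312) (nat_lit 1064) (nat_lit 0) (XT.nd (nat_lit 156) (nat_lit 456) (nat_lit 0) (XT.nd (nat_lit 78) (nat_lit 152) (nat_lit 0) (XT.lf (nat_lit 76) (nat_lit 652411065) (nat_lit 0) (nat_lit 1846566607) (nat_lit 304) (nat_lit 1280394137) (nat_lit 57) (nat_lit 1) (nat_lit 56) (nat_lit 1) (nat_lit 60) (nat_lit 1) (nat_lit 361) (nat_lit 375) (nat_lit 284)) (XT.lf (nat_lit 228) (nat_lit 279762949) (nat_lit 0) (nat_lit 2339681322) (nat_lit 152) (nat_lit 1120586873) (nat_lit 57) (nat_lit 1) (nat_lit 54) (nat_lit 1) (nat_lit 56) (nat_lit 1) (nat_lit 362) (nat_lit 375) (nat_lit 283))) (XT.nd (nat_lit 78) (nat_lit 152)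 (nat_lit 0) (XT.lf (nat_lit 76) (nat_lit 847753682) (nat_lit 0) (nat_lit 1335776739) (nat_lit 304) (nat_lit 1517573358) (nat_lit 51) (nat_lit 1) (nat_lit 50) (nat_lit 1) (nat_lit 54) (nat_lit 1) (nat_lit 363) (nat_lit 375) (nat_lit 282)) (XT.lf (nat_lit 228) (nat_lit 732704635) (nat_lit 0) (nat_lit 2035775491) (nat_lit 152) (nat_lit 894209124) (nat_lit 51) (nat_lit 1) (nat_lit 48) (nat_lit 1) (nat_lit 50) (nat_lit 1) (nat_lit 364) (nat_lit 375) (nat_lit 281)))) (XT.nd (nat_lit 156) (nat_lit 608) (nat_lit 0) (XT.nd (nat_lit 78) (nat_lit 152) (nat_lit 0) (XT.lf (nat_lit 76) (nat_lit 1022457241) (nat_lit 0) (nat_lit 870002508) (nat_lit 304) (nat_lit 1732246844) (nat_lit 45) (nat_lit 1) (nat_lit 44) (nat_lit 1) (nat_lit 48) (nat_lit 1) (nat_lit 365) (nat_lit 375) (nat_lit 280)) (XT.lf (nat_lit 228) (nat_lit 1142994439) (nat_lit 0) (nat_lit 1755394082) (nat_lit 152) (nat_lit 688799446) (nat_lit 45) (nat_lit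 1) (nat_lit 42) (nat_lit 1) (nat_lit 44) (nat_lit 1) (nat_lit 366) (nat_lit 375) (nat_lit 279))) (XT.nd (nat_lit 78) (nat_lit 380) (nat_lit 0) (XT.lf (nat_lit 76) (nat_lit 1178221586) (nat_lit 0) (nat_lit 445724820) (nat_lit 228) (nat_lit 1926171258) (nat_lit 40) (nat_lit 1) (nat_lit 39) (nat_lit 1) (nat_lit 42) (nat_lit 1) (nat_lit 367) (nat_lit 375) (nat_lit 278)) (XT.nd (nat_lit 78) (nat_lit 228) (nat_lit 0) (XT.lf (nat_lit 228) (nat_lit 1514011742) (nat_lit 0) (nat_lit 1496781796) (nat_lit 152) (nat_lit 502672687) (nat_lit 40) (nat_lit 1) (nat_lit 37) (nat_lit 1) (nat_lit 39) (nat_lit 1) (nat_lit 368) (nat_lit 375) (nat_lit 277)) (XT.lf (nat_lit 76) (nat_lit 1316614568) (nat_lit 0) (nat_lit 59693270) (nat_lit 228) (nat_lit 2100969768) (nat_lit 35) (nat_lit 1) (nat_lit 34) (nat_lit 1) (nat_lit 37) (nat_lit 1) (nat_lit 369) (nat_lit 375) (nat_lit 276)))))) (XT.nd (nat_lit 312) (nat_lit 380) (nat_lit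 0) (XT.nd (nat_lit 156) (nat_lit 380) (nat_lit 0) (XT.nd (nat_lit 78) (nat_lit 152) (nat_lit 0) (XT.lf (nat_lit 228) (nat_lit 1848877056) (nat_lit 0) (nat_lit 1258315200) (nat_lit 152) (nat_lit 334273796) (nat_lit 35) (nat_lit 1) (nat_lit 32) (nat_lit 1) (nat_lit 34) (nat_lit 1) (nat_lit 370) (nat_lit 375) (nat_lit 275)) (XT.lf (nat_lit 228) (nat_lit 294962755) (nat_lit 0) (nat_lit 1146034466) (nat_lit 152) (nat_lit 1965094499) (nat_lit 33) (nat_lit 1) (nat_lit 30) (nat_lit 1) (nat_lit 32) (nat_lit 1) (nat_lit 371) (nat_lit 375) (nat_lit 274))) (XT.nd (nat_lit 78) (nat_lit 152) (nat_lit 0) (XT.lf (nat_lit 228) (nat_lit 2150471713) (nat_lit 0) (nat_lit 1038492758) (nat_lit 152) (nat_lit 182167904) (nat_lit 30) (nat_lit 1) (nat_lit 27) (nat_lit 1) (nat_lit 29) (nat_lit 1) (nat_lit 372) (nat_lit 375) (nat_lit 273)) (XT.lf (nat_lit 228) (nat_lit 617509247) (nat_lit 0) (nat_lit 933457641) (nat_lit 152)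 (nat_lit 1785574230) (nat_lit 28) (nat_lit 1) (nat_lit 25) (nat_lit 1) (nat_lit 27) (nat_lit 1) (nat_lit 373) (nat_lit 375) (nat_lit 272)))) (XT.nd (nat_lit 45084) (nat_lit 0) (nat_lit 36404) (XT.nd (nat_lit 78) (nat_lit 152) (nat_lit 0) (XT.lf (nat_lit 228) (nat_lit 2421456051) (nat_lit 0) (nat_lit 835925622) (nat_lit 152) (nat_lit 45031149) (nat_lit 25) (nat_lit 1) (nat_lit 22) (nat_lit 1) (nat_lit 24) (nat_lit 1) (nat_lit 374) (nat_lit 375) (nat_lit 271)) (XT.lf (nat_lit 228) (nat_lit 909747677) (nat_lit 0) (nat_lit 737629376) (nat_lit 152) (nat_lit 1621205264) (nat_lit 23) (nat_lit 1) (nat_lit 20) (nat_lit 1) (nat_lit 22) (nat_lit 1) (nat_lit 375) (nat_lit 375) (nat_lit 270))) (XT.nd (nat_lit 78) (nat_lit 0) (nat_lit 76) (XT.lf (nat_lit 1900) (nat_lit 6238482389) (nat_lit 0) (nat_lit 4139746169) (nat_lit 1824) (nat_lit 877543419) (nat_lit 524) (nat_lit 1) (nat_lit 499) (nat_lit 1) (nat_lit 523)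 (nat_lit 1) (nat_lit 271) (nat_lit 376) (nat_lit 373)) (XT.nd (nat_lit 78) (nat_lit 0) (nat_lit 76) (XT.lf (nat_lit 1900) (nat_lit 3200390471) (nat_lit 0) (nat_lit 4368637036) (nat_lit 1824) (nat_lit 3524358434) (nat_lit 525) (nat_lit 1) (nat_lit 500) (nat_lit 1) (nat_lit 524) (nat_lit 1) (nat_lit 272) (nat_lit 376) (nat_lit 372)) (XT.lf (nat_lit 1900) (nat_lit 214938145) (nat_lit 0) (nat_lit 4661212863) (nat_lit 1824) (nat_lit 6058171553) (nat_lit 526) (nat_lit 1) (nat_lit 501) (nat_lit 1) (nat_lit 525) (nat_lit 1) (nat_lit 273) (nat_lit 376) (nat_lit 371))))))) (XT.nd (nat_lit 702) (nat_lit 5472) (nat_lit 0) (XT.nd (nat_lit 312) (nat_lit 1444) (nat_lit 0) (XT.nd (nat_lit 156) (nat_lit 0) (nat_lit 152) (XT.nd (nat_lit 78) (nat_lit 0) (nat_lit 76) (XT.lf (nat_lit 1900) (nat_lit 5745676467) (nat_lit 76) (nat_lit 2277989451) (nat_lit 0) (nat_lit 2754482087) (nat_lit 526) (nat_lit 1) (nat_lit 502) (nat_lit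 1) (nat_lit 501) (nat_lit 1) (nat_lit 274) (nat_lit 376) (nat_lit 370)) (XT.lf (nat_lit 1900) (nat_lit 4952091542) (nat_lit 0) (nat_lit 5464191930) (nat_lit 1824) (nat_lit 208813249) (nat_lit 527) (nat_lit 1) (nat_lit 502) (nat_lit 1) (nat_lit 526) (nat_lit 1) (nat_lit 275) (nat_lit 376) (nat_lit 369))) (XT.nd (nat_lit 78) (nat_lit 0) (nat_lit 0) (XT.lf (nat_lit 1900) (nat_lit 1949564827) (nat_lit 0) (nat_lit 5964998596) (nat_lit 1824) (nat_lit 2560306605) (nat_lit 528) (nat_lit 1) (nat_lit 503) (nat_lit 1) (nat_lit 527) (nat_lit 1) (nat_lit 276) (nat_lit 376) (nat_lit 368)) (XT.lf (nat_lit 1900) (nat_lit 3803455093) (nat_lit 76) (nat_lit 5511554982) (nat_lit 0) (nat_lit 1012551050) (nat_lit 528) (nat_lit 1) (nat_lit 504) (nat_lit 1) (nat_lit 503) (nat_lit 1) (nat_lit 277) (nat_lit 376) (nat_lit 367)))) (XT.nd (nat_lit 156) (nat_lit 1672) (nat_lit 0) (XT.nd (nat_lit 78) (nat_lit 0) (nat_lit 76) (XT.lf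 (nat_lit 1900) (nat_lit 3038044316) (nat_lit 76) (nat_lit 3198185771) (nat_lit 0) (nat_lit 3946752494) (nat_lit 529) (nat_lit 1) (nat_lit 505) (nat_lit 1) (nat_lit 504) (nat_lit 1) (nat_lit 278) (nat_lit 376) (nat_lit 366)) (XT.lf (nat_lit 1900) (nat_lit 2229040542) (nat_lit 76) (nat_lit 984564808) (nat_lit 0) (nat_lit 6827717820) (nat_lit 530) (nat_lit 1) (nat_lit 506) (nat_lit 1) (nat_lit 505) (nat_lit 1) (nat_lit 279) (nat_lit 376) (nat_lit 365))) (XT.nd (nat_lit 78) (nat_lit 1824) (nat_lit 0) (XT.lf (nat_lit 1900) (nat_lit 253828440) (nat_lit 0) (nat_lit 8531188789) (nat_lit 1824) (nat_lit 1117352553) (nat_lit 531) (nat_lit 1) (nat_lit 506) (nat_lit 1) (nat_lit 530) (nat_lit 1) (nat_lit 280) (nat_lit 376) (nat_lit 364)) (XT.nd (nat_lit 78) (nat_lit 1824) (nat_lit 0) (XT.lf (nat_lit 1900) (nat_lit 450468980) (nat_lit 76) (nat_lit 6634785932) (nat_lit 0) (nat_lit 2680486339) (nat_lit 531) (nat_lit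 1) (nat_lit 507) (nat_lit 1) (nat_lit 506) (nat_lit 1) (nat_lit 281) (nat_lit 376) (nat_lit 363)) (XT.lf (nat_lit 1976) (nat_lit 4071239028) (nat_lit 0) (nat_lit 501445472) (nat_lit 1900) (nat_lit 5059073415) (nat_lit 508) (nat_lit 1) (nat_lit 482) (nat_lit 1) (nat_lit 507) (nat_lit 1) (nat_lit 282) (nat_lit 376) (nat_lit 362)))))) (XT.nd (nat_lit 390) (nat_lit 3572) (nat_lit 0) (XT.nd (nat_lit 156) (nat_lit 1976) (nat_lit 0) (XT.nd (nat_lit 78) (nat_lit 0) (nat_lit 0) (XT.lf (nat_lit 1976) (nat_lit 1116685766) (nat_lit 0) (nat_lit 1481188223) (nat_lit 1900) (nat_lit 6902520430) (nat_lit 509) (nat_lit 1) (nat_lit 483) (nat_lit 1) (nat_lit 508) (nat_lit 1) (nat_lit 283) (nat_lit 376) (nat_lit 361)) (XT.lf (nat_lit 1976) (nat_lit 6866904090) (nat_lit 76) (nat_lit 698766342) (nat_lit 0) (nat_lit 1805744293) (nat_lit 509) (nat_lit 1) (nat_lit 484) (nat_lit 1) (nat_lit 483) (nat_lit 1) (nat_lit 284) (nat_lit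 376) (nat_lit 360))) (XT.nd (nat_lit 78) (nat_lit 2052) (nat_lit 0) (XT.lf (nat_lit 76) (nat_lit 4564933736) (nat_lit 0) (nat_lit 3572148659) (nat_lit 1900) (nat_lit 1107626905) (nat_lit 485) (nat_lit 1) (nat_lit 484) (nat_lit 1) (nat_lit 509) (nat_lit 1) (nat_lit 285) (nat_lit 376) (nat_lit 359)) (XT.nd (nat_lit 78) (nat_lit 912) (nat_lit 0) (XT.lf (nat_lit 76) (nat_lit 1625770390) (nat_lit 0) (nat_lit 4671727263) (nat_lit 1216) (nat_lit 2822935933) (nat_lit 470) (nat_lit 1) (nat_lit 469) (nat_lit 1) (nat_lit 485) (nat_lit 1) (nat_lit 286) (nat_lit 376) (nat_lit 358)) (XT.lf (nat_lit 988) (nat_lit 3193135177) (nat_lit 0) (nat_lit 4531479040) (nat_lit 912) (nat_lit 1273842493) (nat_lit 470) (nat_lit 1) (nat_lit 457) (nat_lit 1) (nat_lit 469) (nat_lit 1) (nat_lit 287) (nat_lit 376) (nat_lit 357))))) (XT.nd (nat_lit 156) (nat_lit 1824) (nat_lit 0) (XT.nd (nat_lit 78) (nat_lit 836) (nat_lit 0) (XT.lf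 (nat_lit 988) (nat_lit 1905287242) (nat_lit 0) (nat_lit 2834552051) (nat_lit 912) (nat_lit 4138843327) (nat_lit 458) (nat_lit 1) (nat_lit 445) (nat_lit 1) (nat_lit 457) (nat_lit 1) (nat_lit 288) (nat_lit 376) (nat_lit 356)) (XT.lf (nat_lit 912) (nat_lit 597549580) (nat_lit 0) (nat_lit 1215311454) (nat_lit 836) (nat_lit 6948410574) (nat_lit 446) (nat_lit 1) (nat_lit 434) (nat_lit 1) (nat_lit 445) (nat_lit 1) (nat_lit 289) (nat_lit 376) (nat_lit 355))) (XT.nd (nat_lit 78) (nat_lit 1748) (nat_lit 0) (XT.lf (nat_lit 76) (nat_lit 7581739349) (nat_lit 0) (nat_lit 728234883) (nat_lit 912) (nat_lit 335919810) (nat_lit 434) (nat_lit 1) (nat_lit 433) (nat_lit 1) (nat_lit 445) (nat_lit 1) (nat_lit 290) (nat_lit 376) (nat_lit 354)) (XT.nd (nat_lit 78) (nat_lit 836) (nat_lit 0) (XT.lf (nat_lit 76) (nat_lit 4635646287) (nat_lit 0) (nat_lit 2082111339) (nat_lit 988) (nat_lit 1814557712) (nat_lit 422) (nat_lit 1)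 (nat_lit 421) (nat_lit 1) (nat_lit 434) (nat_lit 1) (nat_lit 291) (nat_lit 376) (nat_lit 353)) (XT.lf (nat_lit 76) (nat_lit 1747456071) (nat_lit 0) (nat_lit 3450745025) (nat_lit 912) (nat_lit 3222759844) (nat_lit 411) (nat_lit 1) (nat_lit 410) (nat_lit 1) (nat_lit 422) (nat_lit 1) (nat_lit 292) (nat_lit 376) (nat_lit 352))))))))
noncomputable def ec93 : XT := (XT.nd (nat_lit 1404) (nat_lit 7904) (nat_lit 0) (XT.nd (nat_lit 702) (nat_lit 4940) (nat_lit 0) (XT.nd (nat_lit 312) (nat_lit 3648) (nat_lit 0) (XT.nd (nat_lit 156) (nat_lit 836) (nat_lit 0) (XT.nd (nat_lit 78) (nat_lit 760) (nat_lit 0) (XT.lf (nat_lit 912) (nat_lit 3471598852) (nat_lit 0) (nat_lit 3741935400) (nat_lit 836) (nat_lit 1098105125) (nat_lit 411) (nat_lit 1) (nat_lit 399) (nat_lit 1) (nat_lit 410) (nat_lit 1) (nat_lit 293) (nat_lit 376) (nat_lit 351)) (XT.lf (nat_lit 836) (nat_lit 1951404226) (nat_lit 0) (nat_lit 2342841791) (nat_lit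 760) (nat_lit 3909976966) (nat_lit 400) (nat_lit 1) (nat_lit 389) (nat_lit 1) (nat_lit 399) (nat_lit 1) (nat_lit 294) (nat_lit 376) (nat_lit 350))) (XT.nd (nat_lit 78) (nat_lit 76) (nat_lit 0) (XT.lf (nat_lit 836) (nat_lit 422435381) (nat_lit 0) (nat_lit 1010653399) (nat_lit 760) (nat_lit 6665806213) (nat_lit 390) (nat_lit 1) (nat_lit 379) (nat_lit 1) (nat_lit 389) (nat_lit 1) (nat_lit 295) (nat_lit 376) (nat_lit 349)) (XT.lf (nat_lit 76) (nat_lit 6615326506) (nat_lit 0) (nat_lit 1110405324) (nat_lit 836) (nat_lit 269518408) (nat_lit 379) (nat_lit 1) (nat_lit 378) (nat_lit 1) (nat_lit 389) (nat_lit 1) (nat_lit 296) (nat_lit 376) (nat_lit 348)))) (XT.nd (nat_lit 156) (nat_lit 2128) (nat_lit 0) (XT.nd (nat_lit 78) (nat_lit 760) (nat_lit 0) (XT.lf (nat_lit 76) (nat_lit 3747512644) (nat_lit 0) (nat_lit 2659638677) (nat_lit 836) (nat_lit 1486091337) (nat_lit 369) (nat_lit 1) (nat_lit 368) (nat_lit 1)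 (nat_lit 379) (nat_lit 1) (nat_lit 297) (nat_lit 376) (nat_lit 347)) (XT.lf (nat_lit 76) (nat_lit 937468533) (nat_lit 0) (nat_lit 4213834134) (nat_lit 836) (nat_lit 2641901796) (nat_lit 359) (nat_lit 1) (nat_lit 358) (nat_lit 1) (nat_lit 369) (nat_lit 1) (nat_lit 298) (nat_lit 376) (nat_lit 346))) (XT.nd (nat_lit 78) (nat_lit 1444) (nat_lit 0) (XT.lf (nat_lit 760) (nat_lit 1910796152) (nat_lit 0) (nat_lit 3944191579) (nat_lit 684) (nat_lit 1839866348) (nat_lit 359) (nat_lit 1) (nat_lit 349) (nat_lit 1) (nat_lit 358) (nat_lit 1) (nat_lit 299) (nat_lit 376) (nat_lit 345)) (XT.nd (nat_lit 78) (nat_lit 760) (nat_lit 0) (XT.lf (nat_lit 760) (nat_lit 234950448) (nat_lit 0) (nat_lit 2790324768) (nat_lit 684) (nat_lit 4572997549) (nat_lit 350) (nat_lit 1) (nat_lit 340) (nat_lit 1) (nat_lit 349) (nat_lit 1) (nat_lit 300) (nat_lit 376) (nat_lit 344)) (XT.lf (nat_lit 76) (nat_lit 262510671) (nat_lit 0) (nat_lit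 1422216695) (nat_lit 760) (nat_lit 5818628566) (nat_lit 331) (nat_lit 1) (nat_lit 330) (nat_lit 1) (nat_lit 340) (nat_lit 1) (nat_lit 301) (nat_lit 376) (nat_lit 343)))))) (XT.nd (nat_lit 312) (nat_lit 2964) (nat_lit 0) (XT.nd (nat_lit 156) (nat_lit 1292) (nat_lit 0) (XT.nd (nat_lit 78) (nat_lit 0) (nat_lit 0) (XT.lf (nat_lit 760) (nat_lit 4318026375) (nat_lit 0) (nat_lit 617326079) (nat_lit 684) (nat_lit 2474546643) (nat_lit 331) (nat_lit 1) (nat_lit 321) (nat_lit 1) (nat_lit 330) (nat_lit 1) (nat_lit 302) (nat_lit 376) (nat_lit 342)) (XT.lf (nat_lit 76) (nat_lit 2162103325) (nat_lit 0) (nat_lit 4764287842) (nat_lit 760) (nat_lit 391745340) (nat_lit 322) (nat_lit 1) (nat_lit 321) (nat_lit 1) (nat_lit 331) (nat_lit 1) (nat_lit 303) (nat_lit 376) (nat_lit 341))) (XT.nd (nat_lit 78) (nat_lit 684) (nat_lit 0) (XT.lf (nat_lit 684) (nat_lit 786175985) (nat_lit 0) (nat_lit 5884224682) (nat_lit 608) (nat_lit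 557569893) (nat_lit 322) (nat_lit 1) (nat_lit 313) (nat_lit 1) (nat_lit 321) (nat_lit 1) (nat_lit 304) (nat_lit 376) (nat_lit 340)) (XT.lf (nat_lit 76) (nat_lit 3896357426) (nat_lit 0) (nat_lit 977782437) (nat_lit 684) (nat_lit 2264970806) (nat_lit 305) (nat_lit 1) (nat_lit 304) (nat_lit 1) (nat_lit 313) (nat_lit 1) (nat_lit 305) (nat_lit 376) (nat_lit 339)))) (XT.nd (nat_lit 156) (nat_lit 1748) (nat_lit 0) (XT.nd (nat_lit 78) (nat_lit 608) (nat_lit 0) (XT.lf (nat_lit 76) (nat_lit 1184762996) (nat_lit 0) (nat_lit 2725743078) (nat_lit 684) (nat_lit 3141325938) (nat_lit 297) (nat_lit 1) (nat_lit 296) (nat_lit 1) (nat_lit 305) (nat_lit 1) (nat_lit 306) (nat_lit 376) (nat_lit 338)) (XT.lf (nat_lit 684) (nat_lit 2488816734) (nat_lit 0) (nat_lit 2987172770) (nat_lit 608) (nat_lit 1490017978) (nat_lit 297) (nat_lit 1) (nat_lit 288) (nat_lit 1) (nat_lit 296) (nat_lit 1) (nat_lit 307) (nat_lit 376) (nat_lit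 337))) (XT.nd (nat_lit 78) (nat_lit 1216) (nat_lit 0) (XT.lf (nat_lit 608) (nat_lit 652240415) (nat_lit 0) (nat_lit 2104978248) (nat_lit 532) (nat_lit 4124428406) (nat_lit 289) (nat_lit 1) (nat_lit 281) (nat_lit 1) (nat_lit 288) (nat_lit 1) (nat_lit 308) (nat_lit 376) (nat_lit 336)) (XT.nd (nat_lit 78) (nat_lit 532) (nat_lit 0) (XT.lf (nat_lit 76) (nat_lit 102804313) (nat_lit 0) (nat_lit 1159865929) (nat_lit 684) (nat_lit 5536049597) (nat_lit 273) (nat_lit 1) (nat_lit 272) (nat_lit 1) (nat_lit 281) (nat_lit 1) (nat_lit 309) (nat_lit 376) (nat_lit 335)) (XT.lf (nat_lit 608) (nat_lit 3746441900) (nat_lit 0) (nat_lit 445671977) (nat_lit 532) (nat_lit 2524819770) (nat_lit 273) (nat_lit 1) (nat_lit 265) (nat_lit 1) (nat_lit 272) (nat_lit 1) (nat_lit 310) (nat_lit 376) (nat_lit 334))))))) (XT.nd (nat_lit 702) (nat_lit 3724) (nat_lit 0) (XT.nd (nat_lit 312) (nat_lit 2508) (nat_lit 0) (XT.nd (nat_lit 156)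 (nat_lit 1064) (nat_lit 0) (XT.nd (nat_lit 78) (nat_lit 608) (nat_lit 0) (XT.lf (nat_lit 76) (nat_lit 1540384631) (nat_lit 0) (nat_lit 4773875565) (nat_lit 608) (nat_lit 322359489) (nat_lit 266) (nat_lit 1) (nat_lit 265) (nat_lit 1) (nat_lit 273) (nat_lit 1) (nat_lit 311) (nat_lit 376) (nat_lit 333)) (XT.lf (nat_lit 76) (nat_lit 5490930246) (nat_lit 0) (nat_lit 18563167) (nat_lit 608) (nat_lit 1048115359) (nat_lit 258) (nat_lit 1) (nat_lit 257) (nat_lit 1) (nat_lit 265) (nat_lit 1) (nat_lit 312) (nat_lit 376) (nat_lit 332))) (XT.nd (nat_lit 78) (nat_lit 532) (nat_lit 0) (XT.lf (nat_lit 76) (nat_lit 2853112381) (nat_lit 0) (nat_lit 1873008983) (nat_lit 608) (nat_lit 1753509895) (nat_lit 251) (nat_lit 1) (nat_lit 250) (nat_lit 1) (nat_lit 258) (nat_lit 1) (nat_lit 313) (nat_lit 376) (nat_lit 331)) (XT.lf (nat_lit 76) (nat_lit 271040596) (nat_lit 0) (nat_lit 3714576917) (nat_lit 608) (nat_lit 2417484721)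 (nat_lit 244) (nat_lit 1) (nat_lit 243) (nat_lit 1) (nat_lit 251) (nat_lit 1) (nat_lit 314) (nat_lit 376) (nat_lit 330)))) (XT.nd (nat_lit 156) (nat_lit 1444) (nat_lit 0) (XT.nd (nat_lit 78) (nat_lit 608) (nat_lit 0) (XT.lf (nat_lit 532) (nat_lit 769811926) (nat_lit 0) (nat_lit 3271605712) (nat_lit 456) (nat_lit 2286277055) (nat_lit 244) (nat_lit 1) (nat_lit 237) (nat_lit 1) (nat_lit 243) (nat_lit 1) (nat_lit 315) (nat_lit 376) (nat_lit 329)) (XT.lf (nat_lit 76) (nat_lit 1468285797) (nat_lit 0) (nat_lit 1120758566) (nat_lit 608) (nat_lit 3664455653) (nat_lit 230) (nat_lit 1) (nat_lit 229) (nat_lit 1) (nat_lit 237) (nat_lit 1) (nat_lit 316) (nat_lit 376) (nat_lit 328))) (XT.nd (nat_lit 78) (nat_lit 988) (nat_lit 0) (XT.lf (nat_lit 532) (nat_lit 3187356639) (nat_lit 0) (nat_lit 1934083645) (nat_lit 456) (nat_lit 1058996642) (nat_lit 230) (nat_lit 1) (nat_lit 223) (nat_lit 1) (nat_lit 229) (nat_lit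 1) (nat_lit 317) (nat_lit 376) (nat_lit 327)) (XT.nd (nat_lit 78) (nat_lit 532) (nat_lit 0) (XT.lf (nat_lit 532) (nat_lit 1248992704) (nat_lit 0) (nat_lit 1308194691) (nat_lit 456) (nat_lit 3551341143) (nat_lit 224) (nat_lit 1) (nat_lit 217) (nat_lit 1) (nat_lit 223) (nat_lit 1) (nat_lit 318) (nat_lit 376) (nat_lit 326)) (XT.lf (nat_lit 76) (nat_lit 52069979) (nat_lit 0) (nat_lit 663582487) (nat_lit 532) (nat_lit 5322200531) (nat_lit 211) (nat_lit 1) (nat_lit 210) (nat_lit 1) (nat_lit 217) (nat_lit 1) (nat_lit 319) (nat_lit 376) (nat_lit 325)))))) (XT.nd (nat_lit 390) (nat_lit 1976) (nat_lit 0) (XT.nd (nat_lit 156) (nat_lit 1292) (nat_lit 0) (XT.nd (nat_lit 78) (nat_lit 0) (nat_lit 0) (XT.lf (nat_lit 532) (nat_lit 3409317039) (nat_lit 0) (nat_lit 135608375) (nat_lit 456) (nat_lit 2423070476) (nat_lit 211) (nat_lit 1) (nat_lit 204) (nat_lit 1) (nat_lit 210) (nat_lit 1) (nat_lit 320) (nat_lit 376)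 (nat_lit 324)) (XT.lf (nat_lit 76) (nat_lit 1056507838) (nat_lit 0) (nat_lit 4439523580) (nat_lit 532) (nat_lit 403323128) (nat_lit 205) (nat_lit 1) (nat_lit 204) (nat_lit 1) (nat_lit 211) (nat_lit 1) (nat_lit 321) (nat_lit 376) (nat_lit 323))) (XT.nd (nat_lit 78) (nat_lit 836) (nat_lit 0) (XT.lf (nat_lit 76) (nat_lit 4438932163) (nat_lit 0) (nat_lit 474706547) (nat_lit 456) (nat_lit 918067350) (nat_lit 199) (nat_lit 1) (nat_lit 198) (nat_lit 1) (nat_lit 204) (nat_lit 1) (nat_lit 322) (nat_lit 376) (nat_lit 322)) (XT.nd (nat_lit 78) (nat_lit 380) (nat_lit 0) (XT.lf (nat_lit 76) (nat_lit 1971535754) (nat_lit 0) (nat_lit 2378201136) (nat_lit 532) (nat_lit 1415229163) (nat_lit 193) (nat_lit 1) (nat_lit 192) (nat_lit 1) (nat_lit 199) (nat_lit 1) (nat_lit 323) (nat_lit 376) (nat_lit 321)) (XT.lf (nat_lit 456) (nat_lit 1433660772) (nat_lit 0) (nat_lit 3817146867) (nat_lit 380) (nat_lit 448572976) (nat_lit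 193) (nat_lit 1) (nat_lit 187) (nat_lit 1) (nat_lit 192) (nat_lit 1) (nat_lit 324) (nat_lit 376) (nat_lit 320))))) (XT.nd (nat_lit 156) (nat_lit 1140) (nat_lit 0) (XT.nd (nat_lit 78) (nat_lit 380) (nat_lit 0) (XT.lf (nat_lit 76) (nat_lit 2796037154) (nat_lit 0) (nat_lit 505542573) (nat_lit 456) (nat_lit 2333084597) (nat_lit 182) (nat_lit 1) (nat_lit 181) (nat_lit 1) (nat_lit 187) (nat_lit 1) (nat_lit 325) (nat_lit 376) (nat_lit 319)) (XT.lf (nat_lit 76) (nat_lit 403478645) (nat_lit 0) (nat_lit 2405850943) (nat_lit 456) (nat_lit 2761605806) (nat_lit 177) (nat_lit 1) (nat_lit 176) (nat_lit 1) (nat_lit 182) (nat_lit 1) (nat_lit 326) (nat_lit 376) (nat_lit 318))) (XT.nd (nat_lit 78) (nat_lit 760) (nat_lit 0) (XT.lf (nat_lit 456) (nat_lit 1209230077) (nat_lit 0) (nat_lit 2335946735) (nat_lit 380) (nat_lit 1962924619) (nat_lit 177) (nat_lit 1) (nat_lit 171) (nat_lit 1) (nat_lit 176) (nat_lit 1) (nat_lit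 327) (nat_lit 376) (nat_lit 317)) (XT.nd (nat_lit 78) (nat_lit 380) (nat_lit 0) (XT.lf (nat_lit 76) (nat_lit 1167972487) (nat_lit 0) (nat_lit 718350957) (nat_lit 380) (nat_lit 3559929820) (nat_lit 167) (nat_lit 1) (nat_lit 166) (nat_lit 1) (nat_lit 171) (nat_lit 1) (nat_lit 328) (nat_lit 376) (nat_lit 316)) (XT.lf (nat_lit 456) (nat_lit 2768625391) (nat_lit 0) (nat_lit 1451501075) (nat_lit 380) (nat_lit 1165083718) (nat_lit 167) (nat_lit 1) (nat_lit 161) (nat_lit 1) (nat_lit 166) (nat_lit 1) (nat_lit 329) (nat_lit 376) (nat_lit 315))))))))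
noncomputable def ec94 : XT := (XT.nd (nat_lit 1404) (nat_lit 4104) (nat_lit 0) (XT.nd (nat_lit 702) (nat_lit 2584) (nat_lit 0) (XT.nd (nat_lit 312) (nat_lit 1672) (nat_lit 0) (XT.nd (nat_lit 156) (nat_lit 304) (nat_lit 0) (XT.nd (nat_lit 78) (nat_lit 456) (nat_lit 0) (XT.lf (nat_lit 380) (nat_lit 823887451) (nat_lit 0) (nat_lit 1038823370) (nat_lit 304) (nat_lit 3462400367) (nat_lit 162) (nat_lit 1) (nat_lit 157) (nat_lit 1) (nat_lit 161) (nat_lit 1) (nat_lit 330) (nat_lit 376) (nat_lit 314)) (XT.lf (nat_lit 456) (nat_lit 4178813001) (nat_lit 0) (nat_lit 645058923) (nat_lit 380) (nat_lit 442016043) (nat_lit 157) (nat_lit 1) (nat_lit 151) (nat_lit 1) (nat_lit 156) (nat_lit 1) (nat_lit 331) (nat_lit 376) (nat_lit 313))) (XT.nd (nat_lit 78) (nat_lit 0) (nat_lit 0) (XT.lf (nat_lit 380) (nat_lit 2230059186) (nat_lit 0) (nat_lit 262129317) (nat_lit 304) (nat_lit 2715188711) (nat_lit 152) (nat_lit 1) (nat_lit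 147) (nat_lit 1) (nat_lit 151) (nat_lit 1) (nat_lit 332) (nat_lit 376) (nat_lit 312)) (XT.lf (nat_lit 76) (nat_lit 212055812) (nat_lit 0) (nat_lit 4846183264) (nat_lit 380) (nat_lit 91658028) (nat_lit 148) (nat_lit 1) (nat_lit 147) (nat_lit 1) (nat_lit 152) (nat_lit 1) (nat_lit 333) (nat_lit 376) (nat_lit 311)))) (XT.nd (nat_lit 156) (nat_lit 988) (nat_lit 0) (XT.nd (nat_lit 78) (nat_lit 304) (nat_lit 0) (XT.lf (nat_lit 76) (nat_lit 3060238473) (nat_lit 0) (nat_lit 1593694224) (nat_lit 380) (nat_lit 439000754) (nat_lit 143) (nat_lit 1) (nat_lit 142) (nat_lit 1) (nat_lit 147) (nat_lit 1) (nat_lit 334) (nat_lit 376) (nat_lit 310)) (XT.lf (nat_lit 76) (nat_lit 807989757) (nat_lit 0) (nat_lit 3465658343) (nat_lit 380) (nat_lit 763268791) (nat_lit 139) (nat_lit 1) (nat_lit 138) (nat_lit 1) (nat_lit 143) (nat_lit 1) (nat_lit 335) (nat_lit 376) (nat_lit 309))) (XT.nd (nat_lit 78) (nat_lit 608) (nat_lit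 0) (XT.lf (nat_lit 76) (nat_lit 3570489954) (nat_lit 0) (nat_lit 337923612) (nat_lit 380) (nat_lit 1073253323) (nat_lit 134) (nat_lit 1) (nat_lit 133) (nat_lit 1) (nat_lit 138) (nat_lit 1) (nat_lit 336) (nat_lit 376) (nat_lit 308)) (XT.nd (nat_lit 78) (nat_lit 304) (nat_lit 0) (XT.lf (nat_lit 76) (nat_lit 1345326756) (nat_lit 0) (nat_lit 2208381415) (nat_lit 380) (nat_lit 1373382046) (nat_lit 130) (nat_lit 1) (nat_lit 129) (nat_lit 1) (nat_lit 134) (nat_lit 1) (nat_lit 337) (nat_lit 376) (nat_lit 307)) (XT.lf (nat_lit 380) (nat_lit 812313021) (nat_lit 0) (nat_lit 3219063047) (nat_lit 304) (nat_lit 841993162) (nat_lit 130) (nat_lit 1) (nat_lit 125) (nat_lit 1) (nat_lit 129) (nat_lit 1) (nat_lit 338) (nat_lit 376) (nat_lit 306)))))) (XT.nd (nat_lit 312) (nat_lit 1368) (nat_lit 0) (XT.nd (nat_lit 156) (nat_lit 608) (nat_lit 0) (XT.nd (nat_lit 78) (nat_lit 304) (nat_lit 0) (XT.lf (nat_lit 76) (nat_lit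 1828802281) (nat_lit 0) (nat_lit 1064663720) (nat_lit 304) (nat_lit 1926817514) (nat_lit 122) (nat_lit 1) (nat_lit 121) (nat_lit 1) (nat_lit 125) (nat_lit 1) (nat_lit 339) (nat_lit 376) (nat_lit 305)) (XT.lf (nat_lit 380) (nat_lit 1858631490) (nat_lit 0) (nat_lit 2584995361) (nat_lit 304) (nat_lit 324360173) (nat_lit 122) (nat_lit 1) (nat_lit 117) (nat_lit 1) (nat_lit 121) (nat_lit 1) (nat_lit 340) (nat_lit 376) (nat_lit 304))) (XT.nd (nat_lit 78) (nat_lit 304) (nat_lit 0) (XT.lf (nat_lit 76) (nat_lit 2262786272) (nat_lit 0) (nat_lit 25557819) (nat_lit 304) (nat_lit 2428027204) (nat_lit 114) (nat_lit 1) (nat_lit 113) (nat_lit 1) (nat_lit 117) (nat_lit 1) (nat_lit 341) (nat_lit 376) (nat_lit 303)) (XT.lf (nat_lit 76) (nat_lit 141883982) (nat_lit 0) (nat_lit 1861227133) (nat_lit 380) (nat_lit 2662312990) (nat_lit 110) (nat_lit 1) (nat_lit 109) (nat_lit 1) (nat_lit 114) (nat_lit 1) (nat_lit 342) (nat_lit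 376) (nat_lit 302)))) (XT.nd (nat_lit 156) (nat_lit 760) (nat_lit 0) (XT.nd (nat_lit 78) (nat_lit 380) (nat_lit 0) (XT.lf (nat_lit 304) (nat_lit 929387862) (nat_lit 0) (nat_lit 1727957346) (nat_lit 228) (nat_lit 1957769672) (nat_lit 110) (nat_lit 1) (nat_lit 106) (nat_lit 1) (nat_lit 109) (nat_lit 1) (nat_lit 343) (nat_lit 376) (nat_lit 301)) (XT.lf (nat_lit 76) (nat_lit 558950496) (nat_lit 0) (nat_lit 909485355) (nat_lit 380) (nat_lit 3097112378) (nat_lit 102) (nat_lit 1) (nat_lit 101) (nat_lit 1) (nat_lit 106) (nat_lit 1) (nat_lit 344) (nat_lit 376) (nat_lit 300))) (XT.nd (nat_lit 78) (nat_lit 532) (nat_lit 0) (XT.lf (nat_lit 304) (nat_lit 1794774468) (nat_lit 0) (nat_lit 1214975249) (nat_lit 228) (nat_lit 1506782529) (nat_lit 102) (nat_lit 1) (nat_lit 98) (nat_lit 1) (nat_lit 101) (nat_lit 1) (nat_lit 345) (nat_lit 376) (nat_lit 299)) (XT.nd (nat_lit 78) (nat_lit 228) (nat_lit 0) (XT.lf (nat_lit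 76) (nat_lit 934720712) (nat_lit 0) (nat_lit 44602213) (nat_lit 304) (nat_lit 3488970150) (nat_lit 95) (nat_lit 1) (nat_lit 94) (nat_lit 1) (nat_lit 98) (nat_lit 1) (nat_lit 346) (nat_lit 376) (nat_lit 298)) (XT.lf (nat_lit 304) (nat_lit 2577400852) (nat_lit 0) (nat_lit 745909400) (nat_lit 228) (nat_lit 1097211032) (nat_lit 95) (nat_lit 1) (nat_lit 91) (nat_lit 1) (nat_lit 94) (nat_lit 1) (nat_lit 347) (nat_lit 376) (nat_lit 297))))))) (XT.nd (nat_lit 702) (nat_lit 2128) (nat_lit 0) (XT.nd (nat_lit 312) (nat_lit 1140) (nat_lit 0) (XT.nd (nat_lit 156) (nat_lit 304) (nat_lit 0) (XT.nd (nat_lit 78) (nat_lit 304) (nat_lit 0) (XT.lf (nat_lit 304) (nat_lit 750114207) (nat_lit 0) (nat_lit 527297940) (nat_lit 228) (nat_lit 3096046954) (nat_lit 92) (nat_lit 1) (nat_lit 88) (nat_lit 1) (nat_lit 91) (nat_lit 1) (nat_lit 348) (nat_lit 376) (nat_lit 296)) (XT.lf (nat_lit 304) (nat_lit 3283858082) (nat_lit 0)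 (nat_lit 317377651) (nat_lit 228) (nat_lit 725746895) (nat_lit 88) (nat_lit 1) (nat_lit 84) (nat_lit 1) (nat_lit 87) (nat_lit 1) (nat_lit 349) (nat_lit 376) (nat_lit 295))) (XT.nd (nat_lit 78) (nat_lit 76) (nat_lit 0) (XT.lf (nat_lit 304) (nat_lit 1470768880) (nat_lit 0) (nat_lit 114283022) (nat_lit 228) (nat_lit 2695999356) (nat_lit 85) (nat_lit 1) (nat_lit 81) (nat_lit 1) (nat_lit 84) (nat_lit 1) (nat_lit 350) (nat_lit 376) (nat_lit 294)) (XT.lf (nat_lit 76) (nat_lit 3846964784) (nat_lit 0) (nat_lit 316069950) (nat_lit 304) (nat_lit 72778267) (nat_lit 81) (nat_lit 1) (nat_lit 80) (nat_lit 1) (nat_lit 84) (nat_lit 1) (nat_lit 351) (nat_lit 376) (nat_lit 293)))) (XT.nd (nat_lit 156) (nat_lit 684) (nat_lit 0) (XT.nd (nat_lit 78) (nat_lit 228) (nat_lit 0) (XT.lf (nat_lit 76) (nat_lit 1861938708) (nat_lit 0) (nat_lit 2069996815) (nat_lit 304) (nat_lit 259014229) (nat_lit 78) (nat_lit 1) (nat_lit 77)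 (nat_lit 1) (nat_lit 81) (nat_lit 1) (nat_lit 352) (nat_lit 376) (nat_lit 292)) (XT.lf (nat_lit 304) (nat_lit 346942257) (nat_lit 0) (nat_lit 3719895165) (nat_lit 228) (nat_lit 80014356) (nat_lit 78) (nat_lit 1) (nat_lit 74) (nat_lit 1) (nat_lit 77) (nat_lit 1) (nat_lit 353) (nat_lit 376) (nat_lit 291))) (XT.nd (nat_lit 78) (nat_lit 456) (nat_lit 0) (XT.lf (nat_lit 76) (nat_lit 2109557668) (nat_lit 0) (nat_lit 1395754371) (nat_lit 228) (nat_lit 597779676) (nat_lit 72) (nat_lit 1) (nat_lit 71) (nat_lit 1) (nat_lit 74) (nat_lit 1) (nat_lit 354) (nat_lit 376) (nat_lit 290)) (XT.nd (nat_lit 78) (nat_lit 228) (nat_lit 0) (XT.lf (nat_lit 76) (nat_lit 198051424) (nat_lit 0) (nat_lit 3109309895) (nat_lit 304) (nat_lit 752680465) (nat_lit 69) (nat_lit 1) (nat_lit 68) (nat_lit 1) (nat_lit 72) (nat_lit 1) (nat_lit 355) (nat_lit 376) (nat_lit 289)) (XT.lf (nat_lit 76) (nat_lit 2329641484) (nat_lit 0) (nat_lit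 781699622) (nat_lit 228) (nat_lit 906068876) (nat_lit 66) (nat_lit 1) (nat_lit 65) (nat_lit 1) (nat_lit 68) (nat_lit 1) (nat_lit 356) (nat_lit 376) (nat_lit 288)))))) (XT.nd (nat_lit 390) (nat_lit 988) (nat_lit 0) (XT.nd (nat_lit 156) (nat_lit 684) (nat_lit 0) (XT.nd (nat_lit 78) (nat_lit 228) (nat_lit 0) (XT.lf (nat_lit 76) (nat_lit 447624237) (nat_lit 0) (nat_lit 2478367454) (nat_lit 304) (nat_lit 1049372307) (nat_lit 63) (nat_lit 1) (nat_lit 62) (nat_lit 1) (nat_lit 66) (nat_lit 1) (nat_lit 357) (nat_lit 376) (nat_lit 287)) (XT.lf (nat_lit 76) (nat_lit 2524472766) (nat_lit 0) (nat_lit 223109856) (nat_lit 228) (nat_lit 1186244406) (nat_lit 60) (nat_lit 1) (nat_lit 59) (nat_lit 1) (nat_lit 62) (nat_lit 1) (nat_lit 358) (nat_lit 376) (nat_lit 286))) (XT.nd (nat_lit 78) (nat_lit 456) (nat_lit 0) (XT.lf (nat_lit 76) (nat_lit 671983397) (nat_lit 0) (nat_lit 1901963605) (nat_lit 304) (nat_lit 1318805961)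 (nat_lit 57) (nat_lit 1) (nat_lit 56) (nat_lit 1) (nat_lit 60) (nat_lit 1) (nat_lit 359) (nat_lit 376) (nat_lit 285)) (XT.nd (nat_lit 78) (nat_lit 304) (nat_lit 0) (XT.lf (nat_lit 228) (nat_lit 288155838) (nat_lit 0) (nat_lit 2409871761) (nat_lit 152) (nat_lit 1154204479) (nat_lit 57) (nat_lit 1) (nat_lit 54) (nat_lit 1) (nat_lit 56) (nat_lit 1) (nat_lit 360) (nat_lit 376) (nat_lit 284)) (XT.lf (nat_lit 76) (nat_lit 873186293) (nat_lit 0) (nat_lit 1375850041) (nat_lit 304) (nat_lit 1563100559) (nat_lit 51) (nat_lit 1) (nat_lit 50) (nat_lit 1) (nat_lit 54) (nat_lit 1) (nat_lit 361) (nat_lit 376) (nat_lit 283))))) (XT.nd (nat_lit 156) (nat_lit 532) (nat_lit 0) (XT.nd (nat_lit 78) (nat_lit 304) (nat_lit 0) (XT.lf (nat_lit 228) (nat_lit 754685774) (nat_lit 0) (nat_lit 2096848755) (nat_lit 152) (nat_lit 921035398) (nat_lit 51) (nat_lit 1) (nat_lit 48) (nat_lit 1) (nat_lit 50) (nat_lit 1) (nat_lit 362)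 (nat_lit 376) (nat_lit 282)) (XT.lf (nat_lit 76) (nat_lit 1053130958) (nat_lit 0) (nat_lit 896102583) (nat_lit 304) (nat_lit 1784214249) (nat_lit 45) (nat_lit 1) (nat_lit 44) (nat_lit 1) (nat_lit 48) (nat_lit 1) (nat_lit 363) (nat_lit 376) (nat_lit 281))) (XT.nd (nat_lit 78) (nat_lit 380) (nat_lit 0) (XT.lf (nat_lit 228) (nat_lit 1177284272) (nat_lit 0) (nat_lit 1808055904) (nat_lit 152) (nat_lit 709463430) (nat_lit 45) (nat_lit 1) (nat_lit 42) (nat_lit 1) (nat_lit 44) (nat_lit 1) (nat_lit 364) (nat_lit 376) (nat_lit 280)) (XT.nd (nat_lit 78) (nat_lit 152) (nat_lit 0) (XT.lf (nat_lit 76) (nat_lit 1213568234) (nat_lit 0) (nat_lit 459096564) (nat_lit 228) (nat_lit 1983956396) (nat_lit 40) (nat_lit 1) (nat_lit 39) (nat_lit 1) (nat_lit 42) (nat_lit 1) (nat_lit 365) (nat_lit 376) (nat_lit 279)) (XT.lf (nat_lit 228) (nat_lit 1559432094) (nat_lit 0) (nat_lit 1541685250) (nat_lit 152) (nat_lit 517752867)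 (nat_lit 40) (nat_lit 1) (nat_lit 37) (nat_lit 1) (nat_lit 39) (nat_lit 1) (nat_lit 366) (nat_lit 376) (nat_lit 278))))))))
noncomputable def ec95 : XT := (XT.nd (nat_lit 46488) (nat_lit 0) (nat_lit 22876) (XT.nd (nat_lit 45786) (nat_lit 0) (nat_lit 35112) (XT.nd (nat_lit 312) (nat_lit 532) (nat_lit 0) (XT.nd (nat_lit 156) (nat_lit 380) (nat_lit 0) (XT.nd (nat_lit 78) (nat_lit 152) (nat_lit 0) (XT.lf (nat_lit 76) (nat_lit 1356113005) (nat_lit 0) (nat_lit 61484068) (nat_lit 228) (nat_lit 2163998861) (nat_lit 35) (nat_lit 1) (nat_lit 34) (nat_lit 1) (nat_lit 37) (nat_lit 1) (nat_lit 367) (nat_lit 376) (nat_lit 277)) (XT.lf (nat_lit 228) (nat_lit 1904343368) (nat_lit 0) (nat_lit 1296064656) (nat_lit 152) (nat_lit 344302010) (nat_lit 35) (nat_lit 1) (nat_lit 32) (nat_lit 1) (nat_lit 34) (nat_lit 1) (nat_lit 368) (nat_lit 376) (nat_lit 276))) (XT.nd (nat_lit 78) (nat_lit 228) (nat_lit 0) (XT.lf (nat_lit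 228) (nat_lit 303811638) (nat_lit 0) (nat_lit 1180415500) (nat_lit 152) (nat_lit 2024047334) (nat_lit 33) (nat_lit 1) (nat_lit 30) (nat_lit 1) (nat_lit 32) (nat_lit 1) (nat_lit 369) (nat_lit 376) (nat_lit 275)) (XT.lf (nat_lit 228) (nat_lit 2214985864) (nat_lit 0) (nat_lit 1069647541) (nat_lit 152) (nat_lit 187632941) (nat_lit 30) (nat_lit 1) (nat_lit 27) (nat_lit 1) (nat_lit 29) (nat_lit 1) (nat_lit 370) (nat_lit 376) (nat_lit 274)))) (XT.nd (nat_lit 156) (nat_lit 152) (nat_lit 0) (XT.nd (nat_lit 78) (nat_lit 228) (nat_lit 0) (XT.lf (nat_lit 228) (nat_lit 636034524) (nat_lit 0) (nat_lit 961461370) (nat_lit 152) (nat_lit 1839141457) (nat_lit 28) (nat_lit 1) (nat_lit 25) (nat_lit 1) (nat_lit 27) (nat_lit 1) (nat_lit 371) (nat_lit 376) (nat_lit 273)) (XT.lf (nat_lit 228) (nat_lit 2494099733) (nat_lit 0) (nat_lit 861003391) (nat_lit 152) (nat_lit 46382083) (nat_lit 25) (nat_lit 1) (nat_lit 22) (nat_lit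 1) (nat_lit 24) (nat_lit 1) (nat_lit 372) (nat_lit 376) (nat_lit 272))) (XT.nd (nat_lit 45162) (nat_lit 0) (nat_lit 36556) (XT.lf (nat_lit 228) (nat_lit 937040107) (nat_lit 0) (nat_lit 759758258) (nat_lit 152) (nat_lit 1669841422) (nat_lit 23) (nat_lit 1) (nat_lit 20) (nat_lit 1) (nat_lit 22) (nat_lit 1) (nat_lit 373) (nat_lit 376) (nat_lit 271)) (XT.nd (nat_lit 78) (nat_lit 0) (nat_lit 0) (XT.lf (nat_lit 1900) (nat_lit 221386289) (nat_lit 0) (nat_lit 4801049249) (nat_lit 1824) (nat_lit 6239916700) (nat_lit 526) (nat_lit 1) (nat_lit 501) (nat_lit 1) (nat_lit 525) (nat_lit 1) (nat_lit 271) (nat_lit 377) (nat_lit 372)) (XT.lf (nat_lit 1900) (nat_lit 5918046761) (nat_lit 76) (nat_lit 2346329135) (nat_lit 0) (nat_lit 2837116549) (nat_lit 526) (nat_lit 1) (nat_lit 502) (nat_lit 1) (nat_lit 501) (nat_lit 1) (nat_lit 272) (nat_lit 377) (nat_lit 371)))))) (XT.nd (nat_lit 312) (nat_lit 1520) (nat_lit 0) (XT.nd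 (nat_lit 156) (nat_lit 0) (nat_lit 76) (XT.nd (nat_lit 78) (nat_lit 0) (nat_lit 76) (XT.lf (nat_lit 1900) (nat_lit 5100654288) (nat_lit 0) (nat_lit 5628117688) (nat_lit 1824) (nat_lit 215077647) (nat_lit 527) (nat_lit 1) (nat_lit 502) (nat_lit 1) (nat_lit 526) (nat_lit 1) (nat_lit 273) (nat_lit 377) (nat_lit 370)) (XT.lf (nat_lit 1900) (nat_lit 2008051772) (nat_lit 0) (nat_lit 6143948554) (nat_lit 1824) (nat_lit 2637115804) (nat_lit 528) (nat_lit 1) (nat_lit 503) (nat_lit 1) (nat_lit 527) (nat_lit 1) (nat_lit 274) (nat_lit 377) (nat_lit 369))) (XT.nd (nat_lit 78) (nat_lit 0) (nat_lit 76) (XT.lf (nat_lit 1900) (nat_lit 3917558746) (nat_lit 76) (nat_lit 5676901631) (nat_lit 0) (nat_lit 1042927581) (nat_lit 528) (nat_lit 1) (nat_lit 504) (nat_lit 1) (nat_lit 503) (nat_lit 1) (nat_lit 275) (nat_lit 377) (nat_lit 368)) (XT.lf (nat_lit 1900) (nat_lit 3129185646) (nat_lit 76) (nat_lit 3294131344) (nat_lit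 0) (nat_lit 4065155068) (nat_lit 529) (nat_lit 1) (nat_lit 505) (nat_lit 1) (nat_lit 504) (nat_lit 1) (nat_lit 276) (nat_lit 377) (nat_lit 367)))) (XT.nd (nat_lit 156) (nat_lit 1748) (nat_lit 0) (XT.nd (nat_lit 78) (nat_lit 0) (nat_lit 76) (XT.lf (nat_lit 1900) (nat_lit 2295911759) (nat_lit 76) (nat_lit 1014101752) (nat_lit 0) (nat_lit 7032549354) (nat_lit 530) (nat_lit 1) (nat_lit 506) (nat_lit 1) (nat_lit 505) (nat_lit 1) (nat_lit 277) (nat_lit 377) (nat_lit 366)) (XT.lf (nat_lit 1900) (nat_lit 261443293) (nat_lit 0) (nat_lit 8787124452) (nat_lit 1824) (nat_lit 1150873129) (nat_lit 531) (nat_lit 1) (nat_lit 506) (nat_lit 1) (nat_lit 530) (nat_lit 1) (nat_lit 278) (nat_lit 377) (nat_lit 365))) (XT.nd (nat_lit 78) (nat_lit 1824) (nat_lit 0) (XT.lf (nat_lit 1900) (nat_lit 463983050) (nat_lit 76) (nat_lit 6833829510) (nat_lit 0) (nat_lit 2760900929) (nat_lit 531) (nat_lit 1) (nat_lit 507) (nat_lit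 1) (nat_lit 506) (nat_lit 1) (nat_lit 279) (nat_lit 377) (nat_lit 364)) (XT.nd (nat_lit 78) (nat_lit 0) (nat_lit 76) (XT.lf (nat_lit 1976) (nat_lit 4193376199) (nat_lit 0) (nat_lit 516488836) (nat_lit 1900) (nat_lit 5210845617) (nat_lit 508) (nat_lit 1) (nat_lit 482) (nat_lit 1) (nat_lit 507) (nat_lit 1) (nat_lit 280) (nat_lit 377) (nat_lit 363)) (XT.lf (nat_lit 1976) (nat_lit 1150186338) (nat_lit 0) (nat_lit 1525623869) (nat_lit 1900) (nat_lit 7109596043) (nat_lit 509) (nat_lit 1) (nat_lit 483) (nat_lit 1) (nat_lit 508) (nat_lit 1) (nat_lit 281) (nat_lit 377) (nat_lit 362))))))) (XT.nd (nat_lit 702) (nat_lit 6764) (nat_lit 0) (XT.nd (nat_lit 312) (nat_lit 3572) (nat_lit 0) (XT.nd (nat_lit 156) (nat_lit 1976) (nat_lit 0) (XT.nd (nat_lit 78) (nat_lit 0) (nat_lit 76) (XT.lf (nat_lit 1976) (nat_lit 7072911212) (nat_lit 76) (nat_lit 719729332) (nat_lit 0) (nat_lit 1859916622) (nat_lit 509) (nat_lit 1)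 (nat_lit 484) (nat_lit 1) (nat_lit 483) (nat_lit 1) (nat_lit 282) (nat_lit 377) (nat_lit 361)) (XT.lf (nat_lit 76) (nat_lit 4701881748) (nat_lit 0) (nat_lit 3679313118) (nat_lit 1900) (nat_lit 1140855712) (nat_lit 485) (nat_lit 1) (nat_lit 484) (nat_lit 1) (nat_lit 509) (nat_lit 1) (nat_lit 283) (nat_lit 377) (nat_lit 360))) (XT.nd (nat_lit 78) (nat_lit 912) (nat_lit 0) (XT.lf (nat_lit 76) (nat_lit 1674543501) (nat_lit 0) (nat_lit 4811879081) (nat_lit 1216) (nat_lit 2907624011) (nat_lit 470) (nat_lit 1) (nat_lit 469) (nat_lit 1) (nat_lit 485) (nat_lit 1) (nat_lit 284) (nat_lit 377) (nat_lit 359)) (XT.lf (nat_lit 988) (nat_lit 3288929232) (nat_lit 0) (nat_lit 4667423411) (nat_lit 912) (nat_lit 1312057768) (nat_lit 470) (nat_lit 1) (nat_lit 457) (nat_lit 1) (nat_lit 469) (nat_lit 1) (nat_lit 285) (nat_lit 377) (nat_lit 358)))) (XT.nd (nat_lit 156) (nat_lit 1824) (nat_lit 0) (XT.nd (nat_lit 78) (nat_lit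 836) (nat_lit 0) (XT.lf (nat_lit 988) (nat_lit 1962445859) (nat_lit 0) (nat_lit 2919588612) (nat_lit 912) (nat_lit 4263008626) (nat_lit 458) (nat_lit 1) (nat_lit 445) (nat_lit 1) (nat_lit 457) (nat_lit 1) (nat_lit 286) (nat_lit 377) (nat_lit 357)) (XT.lf (nat_lit 912) (nat_lit 615476067) (nat_lit 0) (nat_lit 1251770798) (nat_lit 836) (nat_lit 7156862891) (nat_lit 446) (nat_lit 1) (nat_lit 434) (nat_lit 1) (nat_lit 445) (nat_lit 1) (nat_lit 287) (nat_lit 377) (nat_lit 356))) (XT.nd (nat_lit 78) (nat_lit 1748) (nat_lit 0) (XT.lf (nat_lit 76) (nat_lit 7809191530) (nat_lit 0) (nat_lit 750081929) (nat_lit 912) (nat_lit 345997404) (nat_lit 434) (nat_lit 1) (nat_lit 433) (nat_lit 1) (nat_lit 445) (nat_lit 1) (nat_lit 288) (nat_lit 377) (nat_lit 355)) (XT.nd (nat_lit 78) (nat_lit 836) (nat_lit 0) (XT.lf (nat_lit 76) (nat_lit 4774715676) (nat_lit 0) (nat_lit 2144574679) (nat_lit 988) (nat_lit 1868994443)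 (nat_lit 422) (nat_lit 1) (nat_lit 421) (nat_lit 1) (nat_lit 434) (nat_lit 1) (nat_lit 289) (nat_lit 377) (nat_lit 354)) (XT.lf (nat_lit 76) (nat_lit 1799879754) (nat_lit 0) (nat_lit 3554267376) (nat_lit 912) (nat_lit 3319442640) (nat_lit 411) (nat_lit 1) (nat_lit 410) (nat_lit 1) (nat_lit 422) (nat_lit 1) (nat_lit 290) (nat_lit 377) (nat_lit 353)))))) (XT.nd (nat_lit 390) (nat_lit 3572) (nat_lit 0) (XT.nd (nat_lit 156) (nat_lit 1596) (nat_lit 0) (XT.nd (nat_lit 78) (nat_lit 760) (nat_lit 0) (XT.lf (nat_lit 912) (nat_lit 3575746818) (nat_lit 0) (nat_lit 3854193462) (nat_lit 836) (nat_lit 1131048278) (nat_lit 411) (nat_lit 1) (nat_lit 399) (nat_lit 1) (nat_lit 410) (nat_lit 1) (nat_lit 291) (nat_lit 377) (nat_lit 352)) (XT.lf (nat_lit 836) (nat_lit 2009946353) (nat_lit 0) (nat_lit 2413127045) (nat_lit 760) (nat_lit 4027276275) (nat_lit 400) (nat_lit 1) (nat_lit 389) (nat_lit 1) (nat_lit 399) (nat_lit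 1) (nat_lit 292) (nat_lit 377) (nat_lit 351))) (XT.nd (nat_lit 78) (nat_lit 836) (nat_lit 0) (XT.lf (nat_lit 836) (nat_lit 435108443) (nat_lit 0) (nat_lit 1040973001) (nat_lit 760) (nat_lit 6865780400) (nat_lit 390) (nat_lit 1) (nat_lit 379) (nat_lit 1) (nat_lit 389) (nat_lit 1) (nat_lit 293) (nat_lit 377) (nat_lit 350)) (XT.nd (nat_lit 78) (nat_lit 760) (nat_lit 0) (XT.lf (nat_lit 76) (nat_lit 6813786302) (nat_lit 0) (nat_lit 1143717484) (nat_lit 836) (nat_lit 277603961) (nat_lit 379) (nat_lit 1) (nat_lit 378) (nat_lit 1) (nat_lit 389) (nat_lit 1) (nat_lit 294) (nat_lit 377) (nat_lit 349)) (XT.lf (nat_lit 76) (nat_lit 3859938023) (nat_lit 0) (nat_lit 2739427838) (nat_lit 836) (nat_lit 1530674077) (nat_lit 369) (nat_lit 1) (nat_lit 368) (nat_lit 1) (nat_lit 379) (nat_lit 1) (nat_lit 295) (nat_lit 377) (nat_lit 348))))) (XT.nd (nat_lit 156) (nat_lit 2128) (nat_lit 0) (XT.nd (nat_lit 78) (nat_lit 684)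 (nat_lit 0) (XT.lf (nat_lit 76) (nat_lit 965592589) (nat_lit 0) (nat_lit 4340249158) (nat_lit 836) (nat_lit 2721158850) (nat_lit 359) (nat_lit 1) (nat_lit 358) (nat_lit 1) (nat_lit 369) (nat_lit 1) (nat_lit 296) (nat_lit 377) (nat_lit 347)) (XT.lf (nat_lit 760) (nat_lit 1968120037) (nat_lit 0) (nat_lit 4062517327) (nat_lit 684) (nat_lit 1895062338) (nat_lit 359) (nat_lit 1) (nat_lit 349) (nat_lit 1) (nat_lit 358) (nat_lit 1) (nat_lit 297) (nat_lit 377) (nat_lit 346))) (XT.nd (nat_lit 78) (nat_lit 1444) (nat_lit 0) (XT.lf (nat_lit 760) (nat_lit 241998961) (nat_lit 0) (nat_lit 2874034511) (nat_lit 684) (nat_lit 4710187475) (nat_lit 350) (nat_lit 1) (nat_lit 340) (nat_lit 1) (nat_lit 349) (nat_lit 1) (nat_lit 298) (nat_lit 377) (nat_lit 345)) (XT.nd (nat_lit 78) (nat_lit 684) (nat_lit 0) (XT.lf (nat_lit 76) (nat_lit 270385991) (nat_lit 0) (nat_lit 1464883196) (nat_lit 760) (nat_lit 5993187423) (nat_lit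 331) (nat_lit 1) (nat_lit 330) (nat_lit 1) (nat_lit 340) (nat_lit 1) (nat_lit 299) (nat_lit 377) (nat_lit 344)) (XT.lf (nat_lit 760) (nat_lit 4447567166) (nat_lit 0) (nat_lit 635845862) (nat_lit 684) (nat_lit 2548783042) (nat_lit 331) (nat_lit 1) (nat_lit 321) (nat_lit 1) (nat_lit 330) (nat_lit 1) (nat_lit 300) (nat_lit 377) (nat_lit 343))))))))
noncomputable def ec96 : XT := (XT.nd (nat_lit 1404) (nat_lit 6308) (nat_lit 0) (XT.nd (nat_lit 702) (nat_lit 4636) (nat_lit 0) (XT.nd (nat_lit 312) (nat_lit 2356) (nat_lit 0) (XT.nd (nat_lit 156) (nat_lit 1292) (nat_lit 0) (XT.nd (nat_lit 78) (nat_lit 608) (nat_lit 0) (XT.lf (nat_lit 76) (nat_lit 2226966425) (nat_lit 0) (nat_lit 4907216477) (nat_lit 760) (nat_lit 403497701) (nat_lit 322) (nat_lit 1) (nat_lit 321) (nat_lit 1) (nat_lit 331) (nat_lit 1) (nat_lit 301) (nat_lit 377) (nat_lit 342)) (XT.lf (nat_lit 684) (nat_lit 809761265) (nat_lit 0) (nat_lit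 6060751422) (nat_lit 608) (nat_lit 574296990) (nat_lit 322) (nat_lit 1) (nat_lit 313) (nat_lit 1) (nat_lit 321) (nat_lit 1) (nat_lit 302) (nat_lit 377) (nat_lit 341))) (XT.nd (nat_lit 78) (nat_lit 608) (nat_lit 0) (XT.lf (nat_lit 76) (nat_lit 4013248149) (nat_lit 0) (nat_lit 1007115910) (nat_lit 684) (nat_lit 2332919930) (nat_lit 305) (nat_lit 1) (nat_lit 304) (nat_lit 1) (nat_lit 313) (nat_lit 1) (nat_lit 303) (nat_lit 377) (nat_lit 340)) (XT.lf (nat_lit 76) (nat_lit 1220305886) (nat_lit 0) (nat_lit 2807515370) (nat_lit 684) (nat_lit 3235565716) (nat_lit 297) (nat_lit 1) (nat_lit 296) (nat_lit 1) (nat_lit 305) (nat_lit 1) (nat_lit 304) (nat_lit 377) (nat_lit 339)))) (XT.nd (nat_lit 156) (nat_lit 1216) (nat_lit 0) (XT.nd (nat_lit 78) (nat_lit 532) (nat_lit 0) (XT.lf (nat_lit 684) (nat_lit 2563481236) (nat_lit 0) (nat_lit 3076787953) (nat_lit 608) (nat_lit 1534718517) (nat_lit 297) (nat_lit 1) (nat_lit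 288) (nat_lit 1) (nat_lit 296) (nat_lit 1) (nat_lit 305) (nat_lit 377) (nat_lit 338)) (XT.lf (nat_lit 608) (nat_lit 671807628) (nat_lit 0) (nat_lit 2168127596) (nat_lit 532) (nat_lit 4248161259) (nat_lit 289) (nat_lit 1) (nat_lit 281) (nat_lit 1) (nat_lit 288) (nat_lit 1) (nat_lit 306) (nat_lit 377) (nat_lit 337))) (XT.nd (nat_lit 78) (nat_lit 532) (nat_lit 0) (XT.lf (nat_lit 76) (nat_lit 105888442) (nat_lit 0) (nat_lit 1194661907) (nat_lit 684) (nat_lit 5702131085) (nat_lit 273) (nat_lit 1) (nat_lit 272) (nat_lit 1) (nat_lit 281) (nat_lit 1) (nat_lit 307) (nat_lit 377) (nat_lit 336)) (XT.nd (nat_lit 78) (nat_lit 0) (nat_lit 0) (XT.lf (nat_lit 608) (nat_lit 3858835157) (nat_lit 0) (nat_lit 459042136) (nat_lit 532) (nat_lit 2600564364) (nat_lit 273) (nat_lit 1) (nat_lit 265) (nat_lit 1) (nat_lit 272) (nat_lit 1) (nat_lit 308) (nat_lit 377) (nat_lit 335)) (XT.lf (nat_lit 76) (nat_lit 1586596170) (nat_lit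 0) (nat_lit 4917091831) (nat_lit 608) (nat_lit 332030274) (nat_lit 266) (nat_lit 1) (nat_lit 265) (nat_lit 1) (nat_lit 273) (nat_lit 1) (nat_lit 309) (nat_lit 377) (nat_lit 334)))))) (XT.nd (nat_lit 312) (nat_lit 2508) (nat_lit 0) (XT.nd (nat_lit 156) (nat_lit 988) (nat_lit 0) (XT.nd (nat_lit 78) (nat_lit 532) (nat_lit 0) (XT.lf (nat_lit 76) (nat_lit 5655658154) (nat_lit 0) (nat_lit 19120062) (nat_lit 608) (nat_lit 1079558820) (nat_lit 258) (nat_lit 1) (nat_lit 257) (nat_lit 1) (nat_lit 265) (nat_lit 1) (nat_lit 310) (nat_lit 377) (nat_lit 333)) (XT.lf (nat_lit 76) (nat_lit 2938705753) (nat_lit 0) (nat_lit 1929199252) (nat_lit 608) (nat_lit 1806115192) (nat_lit 251) (nat_lit 1) (nat_lit 250) (nat_lit 1) (nat_lit 258) (nat_lit 1) (nat_lit 311) (nat_lit 377) (nat_lit 332))) (XT.nd (nat_lit 78) (nat_lit 456) (nat_lit 0) (XT.lf (nat_lit 76) (nat_lit 279171814) (nat_lit 0) (nat_lit 3826014225) (nat_lit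 608) (nat_lit 2490009263) (nat_lit 244) (nat_lit 1) (nat_lit 243) (nat_lit 1) (nat_lit 251) (nat_lit 1) (nat_lit 312) (nat_lit 377) (nat_lit 331)) (XT.lf (nat_lit 532) (nat_lit 792906284) (nat_lit 0) (nat_lit 3369753883) (nat_lit 456) (nat_lit 2354865367) (nat_lit 244) (nat_lit 1) (nat_lit 237) (nat_lit 1) (nat_lit 243) (nat_lit 1) (nat_lit 313) (nat_lit 377) (nat_lit 330)))) (XT.nd (nat_lit 156) (nat_lit 1444) (nat_lit 0) (XT.nd (nat_lit 78) (nat_lit 456) (nat_lit 0) (XT.lf (nat_lit 76) (nat_lit 1512334371) (nat_lit 0) (nat_lit 1154381323) (nat_lit 608) (nat_lit 3774389322) (nat_lit 230) (nat_lit 1) (nat_lit 229) (nat_lit 1) (nat_lit 237) (nat_lit 1) (nat_lit 314) (nat_lit 377) (nat_lit 329)) (XT.lf (nat_lit 532) (nat_lit 3282977338) (nat_lit 0) (nat_lit 1992106154) (nat_lit 456) (nat_lit 1090766541) (nat_lit 230) (nat_lit 1) (nat_lit 223) (nat_lit 1) (nat_lit 229) (nat_lit 1) (nat_lit 315) (nat_lit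 377) (nat_lit 328))) (XT.nd (nat_lit 78) (nat_lit 988) (nat_lit 0) (XT.lf (nat_lit 532) (nat_lit 1286462485) (nat_lit 0) (nat_lit 1347440531) (nat_lit 456) (nat_lit 3657881377) (nat_lit 224) (nat_lit 1) (nat_lit 217) (nat_lit 1) (nat_lit 223) (nat_lit 1) (nat_lit 316) (nat_lit 377) (nat_lit 327)) (XT.nd (nat_lit 78) (nat_lit 456) (nat_lit 0) (XT.lf (nat_lit 76) (nat_lit 53632079) (nat_lit 0) (nat_lit 683489962) (nat_lit 532) (nat_lit 5481866547) (nat_lit 211) (nat_lit 1) (nat_lit 210) (nat_lit 1) (nat_lit 217) (nat_lit 1) (nat_lit 317) (nat_lit 377) (nat_lit 326)) (XT.lf (nat_lit 532) (nat_lit 3511596550) (nat_lit 0) (nat_lit 139676626) (nat_lit 456) (nat_lit 2495762590) (nat_lit 211) (nat_lit 1) (nat_lit 204) (nat_lit 1) (nat_lit 210) (nat_lit 1) (nat_lit 318) (nat_lit 377) (nat_lit 325))))))) (XT.nd (nat_lit 702) (nat_lit 3040) (nat_lit 0) (XT.nd (nat_lit 312) (nat_lit 1976) (nat_lit 0) (XT.nd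 (nat_lit 156) (nat_lit 836) (nat_lit 0) (XT.nd (nat_lit 78) (nat_lit 456) (nat_lit 0) (XT.lf (nat_lit 76) (nat_lit 1088203074) (nat_lit 0) (nat_lit 4572709288) (nat_lit 532) (nat_lit 415422822) (nat_lit 205) (nat_lit 1) (nat_lit 204) (nat_lit 1) (nat_lit 211) (nat_lit 1) (nat_lit 319) (nat_lit 377) (nat_lit 324)) (XT.lf (nat_lit 76) (nat_lit 4572100128) (nat_lit 0) (nat_lit 488947744) (nat_lit 456) (nat_lit 945609371) (nat_lit 199) (nat_lit 1) (nat_lit 198) (nat_lit 1) (nat_lit 204) (nat_lit 1) (nat_lit 320) (nat_lit 377) (nat_lit 323))) (XT.nd (nat_lit 78) (nat_lit 380) (nat_lit 0) (XT.lf (nat_lit 76) (nat_lit 2030681827) (nat_lit 0) (nat_lit 2449547170) (nat_lit 532) (nat_lit 1457686038) (nat_lit 193) (nat_lit 1) (nat_lit 192) (nat_lit 1) (nat_lit 199) (nat_lit 1) (nat_lit 321) (nat_lit 377) (nat_lit 322)) (XT.lf (nat_lit 456) (nat_lit 1476670595) (nat_lit 0) (nat_lit 3931661273) (nat_lit 380)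 (nat_lit 462030166) (nat_lit 193) (nat_lit 1) (nat_lit 187) (nat_lit 1) (nat_lit 192) (nat_lit 1) (nat_lit 322) (nat_lit 377) (nat_lit 321)))) (XT.nd (nat_lit 156) (nat_lit 1140) (nat_lit 0) (XT.nd (nat_lit 78) (nat_lit 380) (nat_lit 0) (XT.lf (nat_lit 76) (nat_lit 2879918268) (nat_lit 0) (nat_lit 520708850) (nat_lit 456) (nat_lit 2403077135) (nat_lit 182) (nat_lit 1) (nat_lit 181) (nat_lit 1) (nat_lit 187) (nat_lit 1) (nat_lit 323) (nat_lit 377) (nat_lit 320)) (XT.lf (nat_lit 76) (nat_lit 415583004) (nat_lit 0) (nat_lit 2478026472) (nat_lit 456) (nat_lit 2844453980) (nat_lit 177) (nat_lit 1) (nat_lit 176) (nat_lit 1) (nat_lit 182) (nat_lit 1) (nat_lit 324) (nat_lit 377) (nat_lit 319))) (XT.nd (nat_lit 78) (nat_lit 760) (nat_lit 0) (XT.lf (nat_lit 456) (nat_lit 1245506980) (nat_lit 0) (nat_lit 2406025137) (nat_lit 380) (nat_lit 2021812357) (nat_lit 177) (nat_lit 1) (nat_lit 171) (nat_lit 1) (nat_lit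 176) (nat_lit 1) (nat_lit 325) (nat_lit 377) (nat_lit 318)) (XT.nd (nat_lit 78) (nat_lit 380) (nat_lit 0) (XT.lf (nat_lit 76) (nat_lit 1203011661) (nat_lit 0) (nat_lit 739901486) (nat_lit 380) (nat_lit 3666727714) (nat_lit 167) (nat_lit 1) (nat_lit 166) (nat_lit 1) (nat_lit 171) (nat_lit 1) (nat_lit 326) (nat_lit 377) (nat_lit 317)) (XT.lf (nat_lit 456) (nat_lit 2851684152) (nat_lit 0) (nat_lit 1495046107) (nat_lit 380) (nat_lit 1200036230) (nat_lit 167) (nat_lit 1) (nat_lit 161) (nat_lit 1) (nat_lit 166) (nat_lit 1) (nat_lit 327) (nat_lit 377) (nat_lit 316)))))) (XT.nd (nat_lit 390) (nat_lit 1596) (nat_lit 0) (XT.nd (nat_lit 156) (nat_lit 684) (nat_lit 0) (XT.nd (nat_lit 78) (nat_lit 456) (nat_lit 0) (XT.lf (nat_lit 380) (nat_lit 848604075) (nat_lit 0) (nat_lit 1069988071) (nat_lit 304) (nat_lit 3566272378) (nat_lit 162) (nat_lit 1) (nat_lit 157) (nat_lit 1) (nat_lit 161) (nat_lit 1) (nat_lit 328)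 (nat_lit 377) (nat_lit 315)) (XT.lf (nat_lit 456) (nat_lit 4304177391) (nat_lit 0) (nat_lit 664410691) (nat_lit 380) (nat_lit 455276524) (nat_lit 157) (nat_lit 1) (nat_lit 151) (nat_lit 1) (nat_lit 156) (nat_lit 1) (nat_lit 329) (nat_lit 377) (nat_lit 314))) (XT.nd (nat_lit 78) (nat_lit 380) (nat_lit 0) (XT.lf (nat_lit 380) (nat_lit 2296960962) (nat_lit 0) (nat_lit 269993197) (nat_lit 304) (nat_lit 2796644373) (nat_lit 152) (nat_lit 1) (nat_lit 147) (nat_lit 1) (nat_lit 151) (nat_lit 1) (nat_lit 330) (nat_lit 377) (nat_lit 313)) (XT.nd (nat_lit 78) (nat_lit 380) (nat_lit 0) (XT.lf (nat_lit 76) (nat_lit 218417486) (nat_lit 0) (nat_lit 4991568762) (nat_lit 380) (nat_lit 94407769) (nat_lit 148) (nat_lit 1) (nat_lit 147) (nat_lit 1) (nat_lit 152) (nat_lit 1) (nat_lit 331) (nat_lit 377) (nat_lit 312)) (XT.lf (nat_lit 76) (nat_lit 3152045627) (nat_lit 0) (nat_lit 1641505051) (nat_lit 380) (nat_lit 452170777)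 (nat_lit 143) (nat_lit 1) (nat_lit 142) (nat_lit 1) (nat_lit 147) (nat_lit 1) (nat_lit 332) (nat_lit 377) (nat_lit 311))))) (XT.nd (nat_lit 156) (nat_lit 912) (nat_lit 0) (XT.nd (nat_lit 78) (nat_lit 380) (nat_lit 0) (XT.lf (nat_lit 76) (nat_lit 832229450) (nat_lit 0) (nat_lit 3569628094) (nat_lit 380) (nat_lit 786166855) (nat_lit 139) (nat_lit 1) (nat_lit 138) (nat_lit 1) (nat_lit 143) (nat_lit 1) (nat_lit 333) (nat_lit 377) (nat_lit 310)) (XT.lf (nat_lit 76) (nat_lit 3677604652) (nat_lit 0) (nat_lit 348061320) (nat_lit 380) (nat_lit 1105450922) (nat_lit 134) (nat_lit 1) (nat_lit 133) (nat_lit 1) (nat_lit 138) (nat_lit 1) (nat_lit 334) (nat_lit 377) (nat_lit 309))) (XT.nd (nat_lit 78) (nat_lit 608) (nat_lit 0) (XT.lf (nat_lit 76) (nat_lit 1385686559) (nat_lit 0) (nat_lit 2274632857) (nat_lit 380) (nat_lit 1414583507) (nat_lit 130) (nat_lit 1) (nat_lit 129) (nat_lit 1) (nat_lit 134) (nat_lit 1) (nat_lit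 335) (nat_lit 377) (nat_lit 308)) (XT.nd (nat_lit 78) (nat_lit 304) (nat_lit 0) (XT.lf (nat_lit 380) (nat_lit 836682412) (nat_lit 0) (nat_lit 3315634938) (nat_lit 304) (nat_lit 867252957) (nat_lit 130) (nat_lit 1) (nat_lit 125) (nat_lit 1) (nat_lit 129) (nat_lit 1) (nat_lit 336) (nat_lit 377) (nat_lit 307)) (XT.lf (nat_lit 76) (nat_lit 1883666350) (nat_lit 0) (nat_lit 1096603631) (nat_lit 304) (nat_lit 1984622039) (nat_lit 122) (nat_lit 1) (nat_lit 121) (nat_lit 1) (nat_lit 125) (nat_lit 1) (nat_lit 337) (nat_lit 377) (nat_lit 306))))))))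
noncomputable def ec97 : XT := (XT.nd (nat_lit 1404) (nat_lit 3344) (nat_lit 0) (XT.nd (nat_lit 702) (nat_lit 1976) (nat_lit 0) (XT.nd (nat_lit 312) (nat_lit 1368) (nat_lit 0) (XT.nd (nat_lit 156) (nat_lit 532) (nat_lit 0) (XT.nd (nat_lit 78) (nat_lit 304) (nat_lit 0) (XT.lf (nat_lit 380) (nat_lit 1914390435) (nat_lit 0) (nat_lit 2662545222) (nat_lit 304) (nat_lit 334090978) (nat_lit 122) (nat_lit 1) (nat_lit 117) (nat_lit 1) (nat_lit 121) (nat_lit 1) (nat_lit 338) (nat_lit 377) (nat_lit 305)) (XT.lf (nat_lit 76) (nat_lit 2330669860) (nat_lit 0) (nat_lit 26324554) (nat_lit 304) (nat_lit 2500868020) (nat_lit 114) (nat_lit 1) (nat_lit 113) (nat_lit 1) (nat_lit 117) (nat_lit 1) (nat_lit 339) (nat_lit 377) (nat_lit 304))) (XT.nd (nat_lit 78) (nat_lit 228) (nat_lit 0) (XT.lf (nat_lit 76) (nat_lit 146140501) (nat_lit 0) (nat_lit 1917063947) (nat_lit 380) (nat_lit 2742182380) (nat_lit 110) (nat_lit 1) (nat_lit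 109) (nat_lit 1) (nat_lit 114) (nat_lit 1) (nat_lit 340) (nat_lit 377) (nat_lit 303)) (XT.lf (nat_lit 304) (nat_lit 957269498) (nat_lit 0) (nat_lit 1779796066) (nat_lit 228) (nat_lit 2016502762) (nat_lit 110) (nat_lit 1) (nat_lit 106) (nat_lit 1) (nat_lit 109) (nat_lit 1) (nat_lit 341) (nat_lit 377) (nat_lit 302)))) (XT.nd (nat_lit 156) (nat_lit 760) (nat_lit 0) (XT.nd (nat_lit 78) (nat_lit 228) (nat_lit 0) (XT.lf (nat_lit 76) (nat_lit 575719011) (nat_lit 0) (nat_lit 936769916) (nat_lit 380) (nat_lit 3190025749) (nat_lit 102) (nat_lit 1) (nat_lit 101) (nat_lit 1) (nat_lit 106) (nat_lit 1) (nat_lit 342) (nat_lit 377) (nat_lit 301)) (XT.lf (nat_lit 304) (nat_lit 1848617702) (nat_lit 0) (nat_lit 1251424506) (nat_lit 228) (nat_lit 1551986005) (nat_lit 102) (nat_lit 1) (nat_lit 98) (nat_lit 1) (nat_lit 101) (nat_lit 1) (nat_lit 343) (nat_lit 377) (nat_lit 300))) (XT.nd (nat_lit 78) (nat_lit 456) (nat_lit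 0) (XT.lf (nat_lit 76) (nat_lit 962762333) (nat_lit 0) (nat_lit 45940280) (nat_lit 304) (nat_lit 3593639255) (nat_lit 95) (nat_lit 1) (nat_lit 94) (nat_lit 1) (nat_lit 98) (nat_lit 1) (nat_lit 344) (nat_lit 377) (nat_lit 299)) (XT.nd (nat_lit 78) (nat_lit 228) (nat_lit 0) (XT.lf (nat_lit 304) (nat_lit 2654722878) (nat_lit 0) (nat_lit 768286682) (nat_lit 228) (nat_lit 1130127363) (nat_lit 95) (nat_lit 1) (nat_lit 91) (nat_lit 1) (nat_lit 94) (nat_lit 1) (nat_lit 345) (nat_lit 377) (nat_lit 298)) (XT.lf (nat_lit 304) (nat_lit 772617633) (nat_lit 0) (nat_lit 543116878) (nat_lit 228) (nat_lit 3188928362) (nat_lit 92) (nat_lit 1) (nat_lit 88) (nat_lit 1) (nat_lit 91) (nat_lit 1) (nat_lit 346) (nat_lit 377) (nat_lit 297)))))) (XT.nd (nat_lit 312) (nat_lit 1140) (nat_lit 0) (XT.nd (nat_lit 156) (nat_lit 304) (nat_lit 0) (XT.nd (nat_lit 78) (nat_lit 228) (nat_lit 0) (XT.lf (nat_lit 304) (nat_lit 3382373825)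 (nat_lit 0) (nat_lit 326898980) (nat_lit 228) (nat_lit 747519302) (nat_lit 88) (nat_lit 1) (nat_lit 84) (nat_lit 1) (nat_lit 87) (nat_lit 1) (nat_lit 347) (nat_lit 377) (nat_lit 296)) (XT.lf (nat_lit 304) (nat_lit 1514891947) (nat_lit 0) (nat_lit 117711513) (nat_lit 228) (nat_lit 2776879337) (nat_lit 85) (nat_lit 1) (nat_lit 81) (nat_lit 1) (nat_lit 84) (nat_lit 1) (nat_lit 348) (nat_lit 377) (nat_lit 295))) (XT.nd (nat_lit 78) (nat_lit 228) (nat_lit 0) (XT.lf (nat_lit 76) (nat_lit 3962373728) (nat_lit 0) (nat_lit 325552049) (nat_lit 304) (nat_lit 74961615) (nat_lit 81) (nat_lit 1) (nat_lit 80) (nat_lit 1) (nat_lit 84) (nat_lit 1) (nat_lit 349) (nat_lit 377) (nat_lit 294)) (XT.lf (nat_lit 76) (nat_lit 1917796869) (nat_lit 0) (nat_lit 2132096720) (nat_lit 304) (nat_lit 266784656) (nat_lit 78) (nat_lit 1) (nat_lit 77) (nat_lit 1) (nat_lit 81) (nat_lit 1) (nat_lit 350) (nat_lit 377) (nat_lit 293))))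 (XT.nd (nat_lit 156) (nat_lit 684) (nat_lit 0) (XT.nd (nat_lit 78) (nat_lit 228) (nat_lit 0) (XT.lf (nat_lit 304) (nat_lit 357350524) (nat_lit 0) (nat_lit 3831492020) (nat_lit 228) (nat_lit 82414787) (nat_lit 78) (nat_lit 1) (nat_lit 74) (nat_lit 1) (nat_lit 77) (nat_lit 1) (nat_lit 351) (nat_lit 377) (nat_lit 292)) (XT.lf (nat_lit 76) (nat_lit 2172844398) (nat_lit 0) (nat_lit 1437627002) (nat_lit 228) (nat_lit 615713066) (nat_lit 72) (nat_lit 1) (nat_lit 71) (nat_lit 1) (nat_lit 74) (nat_lit 1) (nat_lit 352) (nat_lit 377) (nat_lit 291))) (XT.nd (nat_lit 78) (nat_lit 456) (nat_lit 0) (XT.lf (nat_lit 76) (nat_lit 203992967) (nat_lit 0) (nat_lit 3202589192) (nat_lit 304) (nat_lit 775260879) (nat_lit 69) (nat_lit 1) (nat_lit 68) (nat_lit 1) (nat_lit 72) (nat_lit 1) (nat_lit 353) (nat_lit 377) (nat_lit 290)) (XT.nd (nat_lit 78) (nat_lit 228) (nat_lit 0) (XT.lf (nat_lit 76) (nat_lit 2399530729) (nat_lit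 0) (nat_lit 805150611) (nat_lit 228) (nat_lit 933250943) (nat_lit 66) (nat_lit 1) (nat_lit 65) (nat_lit 1) (nat_lit 68) (nat_lit 1) (nat_lit 354) (nat_lit 377) (nat_lit 289)) (XT.lf (nat_lit 76) (nat_lit 461052965) (nat_lit 0) (nat_lit 2552718477) (nat_lit 304) (nat_lit 1080853476) (nat_lit 63) (nat_lit 1) (nat_lit 62) (nat_lit 1) (nat_lit 66) (nat_lit 1) (nat_lit 355) (nat_lit 377) (nat_lit 288))))))) (XT.nd (nat_lit 702) (nat_lit 1444) (nat_lit 0) (XT.nd (nat_lit 312) (nat_lit 988) (nat_lit 0) (XT.nd (nat_lit 156) (nat_lit 456) (nat_lit 0) (XT.nd (nat_lit 78) (nat_lit 228) (nat_lit 0) (XT.lf (nat_lit 76) (nat_lit 2600206949) (nat_lit 0) (nat_lit 229803152) (nat_lit 228) (nat_lit 1221831738) (nat_lit 60) (nat_lit 1) (nat_lit 59) (nat_lit 1) (nat_lit 62) (nat_lit 1) (nat_lit 356) (nat_lit 377) (nat_lit 287)) (XT.lf (nat_lit 76) (nat_lit 692142899) (nat_lit 0) (nat_lit 1959022513) (nat_lit 304) (nat_lit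 1358370140) (nat_lit 57) (nat_lit 1) (nat_lit 56) (nat_lit 1) (nat_lit 60) (nat_lit 1) (nat_lit 357) (nat_lit 377) (nat_lit 286))) (XT.nd (nat_lit 78) (nat_lit 304) (nat_lit 0) (XT.lf (nat_lit 228) (nat_lit 296800513) (nat_lit 0) (nat_lit 2482167914) (nat_lit 152) (nat_lit 1188830614) (nat_lit 57) (nat_lit 1) (nat_lit 54) (nat_lit 1) (nat_lit 56) (nat_lit 1) (nat_lit 358) (nat_lit 377) (nat_lit 285)) (XT.lf (nat_lit 76) (nat_lit 899381881) (nat_lit 0) (nat_lit 1417125542) (nat_lit 304) (nat_lit 1609993576) (nat_lit 51) (nat_lit 1) (nat_lit 50) (nat_lit 1) (nat_lit 54) (nat_lit 1) (nat_lit 359) (nat_lit 377) (nat_lit 284)))) (XT.nd (nat_lit 156) (nat_lit 532) (nat_lit 0) (XT.nd (nat_lit 78) (nat_lit 304) (nat_lit 0) (XT.lf (nat_lit 228) (nat_lit 777326347) (nat_lit 0) (nat_lit 2159754218) (nat_lit 152) (nat_lit 948666460) (nat_lit 51) (nat_lit 1) (nat_lit 48) (nat_lit 1) (nat_lit 50) (nat_lit 1) (nat_lit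 360) (nat_lit 377) (nat_lit 283)) (XT.lf (nat_lit 76) (nat_lit 1084724887) (nat_lit 0) (nat_lit 922985661) (nat_lit 304) (nat_lit 1837740676) (nat_lit 45) (nat_lit 1) (nat_lit 44) (nat_lit 1) (nat_lit 48) (nat_lit 1) (nat_lit 361) (nat_lit 377) (nat_lit 282))) (XT.nd (nat_lit 78) (nat_lit 380) (nat_lit 0) (XT.lf (nat_lit 228) (nat_lit 1212602800) (nat_lit 0) (nat_lit 1862297582) (nat_lit 152) (nat_lit 730747332) (nat_lit 45) (nat_lit 1) (nat_lit 42) (nat_lit 1) (nat_lit 44) (nat_lit 1) (nat_lit 362) (nat_lit 377) (nat_lit 281)) (XT.nd (nat_lit 78) (nat_lit 152) (nat_lit 0) (XT.lf (nat_lit 76) (nat_lit 1249975281) (nat_lit 0) (nat_lit 472869461) (nat_lit 228) (nat_lit 2043475088) (nat_lit 40) (nat_lit 1) (nat_lit 39) (nat_lit 1) (nat_lit 42) (nat_lit 1) (nat_lit 363) (nat_lit 377) (nat_lit 280)) (XT.lf (nat_lit 228) (nat_lit 1606215057) (nat_lit 0) (nat_lit 1587935808) (nat_lit 152) (nat_lit 533285453)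 (nat_lit 40) (nat_lit 1) (nat_lit 37) (nat_lit 1) (nat_lit 39) (nat_lit 1) (nat_lit 364) (nat_lit 377) (nat_lit 279)))))) (XT.nd (nat_lit 390) (nat_lit 532) (nat_lit 0) (XT.nd (nat_lit 156) (nat_lit 532) (nat_lit 0) (XT.nd (nat_lit 78) (nat_lit 152) (nat_lit 0) (XT.lf (nat_lit 76) (nat_lit 1396796396) (nat_lit 0) (nat_lit 63328590) (nat_lit 228) (nat_lit 2228918827) (nat_lit 35) (nat_lit 1) (nat_lit 34) (nat_lit 1) (nat_lit 37) (nat_lit 1) (nat_lit 365) (nat_lit 377) (nat_lit 278)) (XT.lf (nat_lit 228) (nat_lit 1961473669) (nat_lit 0) (nat_lit 1334946596) (nat_lit 152) (nat_lit 354631070) (nat_lit 35) (nat_lit 1) (nat_lit 32) (nat_lit 1) (nat_lit 34) (nat_lit 1) (nat_lit 366) (nat_lit 377) (nat_lit 277))) (XT.nd (nat_lit 78) (nat_lit 380) (nat_lit 0) (XT.lf (nat_lit 228) (nat_lit 312925987) (nat_lit 0) (nat_lit 1215827965) (nat_lit 152) (nat_lit 2084768754) (nat_lit 33) (nat_lit 1) (nat_lit 30) (nat_lit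 1) (nat_lit 32) (nat_lit 1) (nat_lit 367) (nat_lit 377) (nat_lit 276)) (XT.nd (nat_lit 78) (nat_lit 152) (nat_lit 0) (XT.lf (nat_lit 228) (nat_lit 2281435440) (nat_lit 0) (nat_lit 1101736967) (nat_lit 152) (nat_lit 193261930) (nat_lit 30) (nat_lit 1) (nat_lit 27) (nat_lit 1) (nat_lit 29) (nat_lit 1) (nat_lit 368) (nat_lit 377) (nat_lit 275)) (XT.lf (nat_lit 228) (nat_lit 655115560) (nat_lit 0) (nat_lit 990305211) (nat_lit 152) (nat_lit 1894315701) (nat_lit 28) (nat_lit 1) (nat_lit 25) (nat_lit 1) (nat_lit 27) (nat_lit 1) (nat_lit 369) (nat_lit 377) (nat_lit 274))))) (XT.nd (nat_lit 156) (nat_lit 152) (nat_lit 0) (XT.nd (nat_lit 78) (nat_lit 152) (nat_lit 0) (XT.lf (nat_lit 228) (nat_lit 2568922725) (nat_lit 0) (nat_lit 886833492) (nat_lit 152) (nat_lit 47773546) (nat_lit 25) (nat_lit 1) (nat_lit 22) (nat_lit 1) (nat_lit 24) (nat_lit 1) (nat_lit 370) (nat_lit 377) (nat_lit 273)) (XT.lf (nat_lit 228)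 (nat_lit 965151310) (nat_lit 0) (nat_lit 782551005) (nat_lit 152) (nat_lit 1719936665) (nat_lit 23) (nat_lit 1) (nat_lit 20) (nat_lit 1) (nat_lit 22) (nat_lit 1) (nat_lit 371) (nat_lit 377) (nat_lit 272))) (XT.nd (nat_lit 45240) (nat_lit 0) (nat_lit 36784) (XT.lf (nat_lit 76) (nat_lit 82039523) (nat_lit 0) (nat_lit 606283212) (nat_lit 152) (nat_lit 2743951206) (nat_lit 19) (nat_lit 1) (nat_lit 18) (nat_lit 1) (nat_lit 20) (nat_lit 1) (nat_lit 372) (nat_lit 377) (nat_lit 271)) (XT.nd (nat_lit 78) (nat_lit 0) (nat_lit 76) (XT.lf (nat_lit 1900) (nat_lit 5253673917) (nat_lit 0) (nat_lit 5796961219) (nat_lit 1824) (nat_lit 221529976) (nat_lit 527) (nat_lit 1) (nat_lit 502) (nat_lit 1) (nat_lit 526) (nat_lit 1) (nat_lit 271) (nat_lit 378) (nat_lit 371)) (XT.lf (nat_lit 1900) (nat_lit 2068293325) (nat_lit 0) (nat_lit 6328267011) (nat_lit 1824) (nat_lit 2716229278) (nat_lit 528) (nat_lit 1) (nat_lit 503)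 (nat_lit 1) (nat_lit 527) (nat_lit 1) (nat_lit 272) (nat_lit 378) (nat_lit 370))))))))
noncomputable def ec98 : XT := (XT.nd (nat_lit 1404) (nat_lit 10564) (nat_lit 0) (XT.nd (nat_lit 702) (nat_lit 7068) (nat_lit 0) (XT.nd (nat_lit 312) (nat_lit 1596) (nat_lit 0) (XT.nd (nat_lit 156) (nat_lit 0) (nat_lit 152) (XT.nd (nat_lit 78) (nat_lit 0) (nat_lit 76) (XT.lf (nat_lit 1900) (nat_lit 4035085508) (nat_lit 76) (nat_lit 5847208680) (nat_lit 0) (nat_lit 1074215409) (nat_lit 528) (nat_lit 1) (nat_lit 504) (nat_lit 1) (nat_lit 503) (nat_lit 1) (nat_lit 273) (nat_lit 378) (nat_lit 369)) (XT.lf (nat_lit 1900) (nat_lit 3223061215) (nat_lit 76) (nat_lit 3392955284) (nat_lit 0) (nat_lit 4187109720) (nat_lit 529) (nat_lit 1) (nat_lit 505) (nat_lit 1) (nat_lit 504) (nat_lit 1) (nat_lit 274) (nat_lit 378) (nat_lit 368))) (XT.nd (nat_lit 78) (nat_lit 0) (nat_lit 76) (XT.lf (nat_lit 1900) (nat_lit 2364789111) (nat_lit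 76) (nat_lit 1044524805) (nat_lit 0) (nat_lit 7243525835) (nat_lit 530) (nat_lit 1) (nat_lit 506) (nat_lit 1) (nat_lit 505) (nat_lit 1) (nat_lit 275) (nat_lit 378) (nat_lit 367)) (XT.lf (nat_lit 1900) (nat_lit 269286592) (nat_lit 0) (nat_lit 9050738186) (nat_lit 1824) (nat_lit 1185399323) (nat_lit 531) (nat_lit 1) (nat_lit 506) (nat_lit 1) (nat_lit 530) (nat_lit 1) (nat_lit 276) (nat_lit 378) (nat_lit 366)))) (XT.nd (nat_lit 156) (nat_lit 0) (nat_lit 76) (XT.nd (nat_lit 78) (nat_lit 1824) (nat_lit 0) (XT.lf (nat_lit 1900) (nat_lit 477902541) (nat_lit 76) (nat_lit 7038844395) (nat_lit 0) (nat_lit 2843727957) (nat_lit 531) (nat_lit 1) (nat_lit 507) (nat_lit 1) (nat_lit 506) (nat_lit 1) (nat_lit 277) (nat_lit 378) (nat_lit 365)) (XT.lf (nat_lit 1976) (nat_lit 4319177485) (nat_lit 0) (nat_lit 531983501) (nat_lit 1900) (nat_lit 5367170986) (nat_lit 508) (nat_lit 1) (nat_lit 482) (nat_lit 1) (nat_lit 507)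 (nat_lit 1) (nat_lit 278) (nat_lit 378) (nat_lit 364))) (XT.nd (nat_lit 78) (nat_lit 0) (nat_lit 0) (XT.lf (nat_lit 1976) (nat_lit 1184691929) (nat_lit 0) (nat_lit 1571392585) (nat_lit 1900) (nat_lit 7322883924) (nat_lit 509) (nat_lit 1) (nat_lit 483) (nat_lit 1) (nat_lit 508) (nat_lit 1) (nat_lit 279) (nat_lit 378) (nat_lit 363)) (XT.nd (nat_lit 78) (nat_lit 0) (nat_lit 76) (XT.lf (nat_lit 1976) (nat_lit 7285098549) (nat_lit 76) (nat_lit 741321212) (nat_lit 0) (nat_lit 1915714121) (nat_lit 509) (nat_lit 1) (nat_lit 484) (nat_lit 1) (nat_lit 483) (nat_lit 1) (nat_lit 280) (nat_lit 378) (nat_lit 362)) (XT.lf (nat_lit 76) (nat_lit 4842938200) (nat_lit 0) (nat_lit 3789692512) (nat_lit 1900) (nat_lit 1175081383) (nat_lit 485) (nat_lit 1) (nat_lit 484) (nat_lit 1) (nat_lit 509) (nat_lit 1) (nat_lit 281) (nat_lit 378) (nat_lit 361)))))) (XT.nd (nat_lit 312) (nat_lit 3420) (nat_lit 0) (XT.nd (nat_lit 156)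 (nat_lit 1748) (nat_lit 0) (XT.nd (nat_lit 78) (nat_lit 912) (nat_lit 0) (XT.lf (nat_lit 76) (nat_lit 1724779806) (nat_lit 0) (nat_lit 4956235454) (nat_lit 1216) (nat_lit 2994852731) (nat_lit 470) (nat_lit 1) (nat_lit 469) (nat_lit 1) (nat_lit 485) (nat_lit 1) (nat_lit 282) (nat_lit 378) (nat_lit 360)) (XT.lf (nat_lit 988) (nat_lit 3387597109) (nat_lit 0) (nat_lit 4807446113) (nat_lit 912) (nat_lit 1351419501) (nat_lit 470) (nat_lit 1) (nat_lit 457) (nat_lit 1) (nat_lit 469) (nat_lit 1) (nat_lit 283) (nat_lit 378) (nat_lit 359))) (XT.nd (nat_lit 78) (nat_lit 836) (nat_lit 0) (XT.lf (nat_lit 988) (nat_lit 2021319235) (nat_lit 0) (nat_lit 3007176271) (nat_lit 912) (nat_lit 4390898885) (nat_lit 458) (nat_lit 1) (nat_lit 445) (nat_lit 1) (nat_lit 457) (nat_lit 1) (nat_lit 284) (nat_lit 378) (nat_lit 358)) (XT.lf (nat_lit 912) (nat_lit 633940349) (nat_lit 0) (nat_lit 1289323922) (nat_lit 836) (nat_lit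 7371568778) (nat_lit 446) (nat_lit 1) (nat_lit 434) (nat_lit 1) (nat_lit 445) (nat_lit 1) (nat_lit 285) (nat_lit 378) (nat_lit 357)))) (XT.nd (nat_lit 156) (nat_lit 2432) (nat_lit 0) (XT.nd (nat_lit 78) (nat_lit 912) (nat_lit 0) (XT.lf (nat_lit 76) (nat_lit 8043467276) (nat_lit 0) (nat_lit 772584387) (nat_lit 912) (nat_lit 356377326) (nat_lit 434) (nat_lit 1) (nat_lit 433) (nat_lit 1) (nat_lit 445) (nat_lit 1) (nat_lit 286) (nat_lit 378) (nat_lit 356)) (XT.lf (nat_lit 76) (nat_lit 4917957146) (nat_lit 0) (nat_lit 2208911920) (nat_lit 988) (nat_lit 1925064276) (nat_lit 422) (nat_lit 1) (nat_lit 421) (nat_lit 1) (nat_lit 434) (nat_lit 1) (nat_lit 287) (nat_lit 378) (nat_lit 355))) (XT.nd (nat_lit 78) (nat_lit 1596) (nat_lit 0) (XT.lf (nat_lit 76) (nat_lit 1853876146) (nat_lit 0) (nat_lit 3660895397) (nat_lit 912) (nat_lit 3419025919) (nat_lit 411) (nat_lit 1) (nat_lit 410) (nat_lit 1) (nat_lit 422)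 (nat_lit 1) (nat_lit 288) (nat_lit 378) (nat_lit 354)) (XT.nd (nat_lit 78) (nat_lit 760) (nat_lit 0) (XT.lf (nat_lit 912) (nat_lit 3683019223) (nat_lit 0) (nat_lit 3969819266) (nat_lit 836) (nat_lit 1164979727) (nat_lit 411) (nat_lit 1) (nat_lit 399) (nat_lit 1) (nat_lit 410) (nat_lit 1) (nat_lit 289) (nat_lit 378) (nat_lit 353)) (XT.lf (nat_lit 836) (nat_lit 2070244744) (nat_lit 0) (nat_lit 2485520856) (nat_lit 760) (nat_lit 4148094563) (nat_lit 400) (nat_lit 1) (nat_lit 389) (nat_lit 1) (nat_lit 399) (nat_lit 1) (nat_lit 290) (nat_lit 378) (nat_lit 352))))))) (XT.nd (nat_lit 702) (nat_lit 5396) (nat_lit 0) (XT.nd (nat_lit 312) (nat_lit 2812) (nat_lit 0) (XT.nd (nat_lit 156) (nat_lit 1520) (nat_lit 0) (XT.nd (nat_lit 78) (nat_lit 76) (nat_lit 0) (XT.lf (nat_lit 836) (nat_lit 448161696) (nat_lit 0) (nat_lit 1072202191) (nat_lit 760) (nat_lit 7071753812) (nat_lit 390) (nat_lit 1) (nat_lit 379) (nat_lit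 1) (nat_lit 389) (nat_lit 1) (nat_lit 291) (nat_lit 378) (nat_lit 351)) (XT.lf (nat_lit 76) (nat_lit 7018199891) (nat_lit 0) (nat_lit 1178029008) (nat_lit 836) (nat_lit 285932080) (nat_lit 379) (nat_lit 1) (nat_lit 378) (nat_lit 1) (nat_lit 389) (nat_lit 1) (nat_lit 292) (nat_lit 378) (nat_lit 350))) (XT.nd (nat_lit 78) (nat_lit 760) (nat_lit 0) (XT.lf (nat_lit 76) (nat_lit 3975736164) (nat_lit 0) (nat_lit 2821610673) (nat_lit 836) (nat_lit 1576594299) (nat_lit 369) (nat_lit 1) (nat_lit 368) (nat_lit 1) (nat_lit 379) (nat_lit 1) (nat_lit 293) (nat_lit 378) (nat_lit 349)) (XT.lf (nat_lit 76) (nat_lit 994560366) (nat_lit 0) (nat_lit 4470456633) (nat_lit 836) (nat_lit 2802793616) (nat_lit 359) (nat_lit 1) (nat_lit 358) (nat_lit 1) (nat_lit 369) (nat_lit 1) (nat_lit 294) (nat_lit 378) (nat_lit 348)))) (XT.nd (nat_lit 156) (nat_lit 1444) (nat_lit 0) (XT.nd (nat_lit 78) (nat_lit 684) (nat_lit 0) (XT.lf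 (nat_lit 760) (nat_lit 2027163638) (nat_lit 0) (nat_lit 4184392847) (nat_lit 684) (nat_lit 1951914208) (nat_lit 359) (nat_lit 1) (nat_lit 349) (nat_lit 1) (nat_lit 358) (nat_lit 1) (nat_lit 295) (nat_lit 378) (nat_lit 347)) (XT.lf (nat_lit 760) (nat_lit 249258930) (nat_lit 0) (nat_lit 2960255546) (nat_lit 684) (nat_lit 4851493099) (nat_lit 350) (nat_lit 1) (nat_lit 340) (nat_lit 1) (nat_lit 349) (nat_lit 1) (nat_lit 296) (nat_lit 378) (nat_lit 346))) (XT.nd (nat_lit 78) (nat_lit 684) (nat_lit 0) (XT.lf (nat_lit 76) (nat_lit 278497570) (nat_lit 0) (nat_lit 1508829692) (nat_lit 760) (nat_lit 6172983046) (nat_lit 331) (nat_lit 1) (nat_lit 330) (nat_lit 1) (nat_lit 340) (nat_lit 1) (nat_lit 297) (nat_lit 378) (nat_lit 345)) (XT.nd (nat_lit 78) (nat_lit 0) (nat_lit 0) (XT.lf (nat_lit 760) (nat_lit 4580994181) (nat_lit 0) (nat_lit 654921238) (nat_lit 684) (nat_lit 2625246533) (nat_lit 331) (nat_lit 1)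 (nat_lit 321) (nat_lit 1) (nat_lit 330) (nat_lit 1) (nat_lit 298) (nat_lit 378) (nat_lit 344)) (XT.lf (nat_lit 76) (nat_lit 2293775418) (nat_lit 0) (nat_lit 5054432972) (nat_lit 760) (nat_lit 415602632) (nat_lit 322) (nat_lit 1) (nat_lit 321) (nat_lit 1) (nat_lit 331) (nat_lit 1) (nat_lit 299) (nat_lit 378) (nat_lit 343)))))) (XT.nd (nat_lit 390) (nat_lit 2356) (nat_lit 0) (XT.nd (nat_lit 156) (nat_lit 1748) (nat_lit 0) (XT.nd (nat_lit 78) (nat_lit 684) (nat_lit 0) (XT.lf (nat_lit 684) (nat_lit 834054103) (nat_lit 0) (nat_lit 6242573965) (nat_lit 608) (nat_lit 591525900) (nat_lit 322) (nat_lit 1) (nat_lit 313) (nat_lit 1) (nat_lit 321) (nat_lit 1) (nat_lit 300) (nat_lit 378) (nat_lit 342)) (XT.lf (nat_lit 76) (nat_lit 4133645593) (nat_lit 0) (nat_lit 1037329388) (nat_lit 684) (nat_lit 2402907528) (nat_lit 305) (nat_lit 1) (nat_lit 304) (nat_lit 1) (nat_lit 313) (nat_lit 1) (nat_lit 301) (nat_lit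 378) (nat_lit 341))) (XT.nd (nat_lit 78) (nat_lit 1140) (nat_lit 0) (XT.lf (nat_lit 76) (nat_lit 1256915063) (nat_lit 0) (nat_lit 2891740831) (nat_lit 684) (nat_lit 3332632688) (nat_lit 297) (nat_lit 1) (nat_lit 296) (nat_lit 1) (nat_lit 305) (nat_lit 1) (nat_lit 302) (nat_lit 378) (nat_lit 340)) (XT.nd (nat_lit 78) (nat_lit 532) (nat_lit 0) (XT.lf (nat_lit 684) (nat_lit 2640385673) (nat_lit 0) (nat_lit 3169091592) (nat_lit 608) (nat_lit 1580760073) (nat_lit 297) (nat_lit 1) (nat_lit 288) (nat_lit 1) (nat_lit 296) (nat_lit 1) (nat_lit 303) (nat_lit 378) (nat_lit 339)) (XT.lf (nat_lit 608) (nat_lit 691961856) (nat_lit 0) (nat_lit 2233171424) (nat_lit 532) (nat_lit 4375606096) (nat_lit 289) (nat_lit 1) (nat_lit 281) (nat_lit 1) (nat_lit 288) (nat_lit 1) (nat_lit 304) (nat_lit 378) (nat_lit 338))))) (XT.nd (nat_lit 156) (nat_lit 1140) (nat_lit 0) (XT.nd (nat_lit 78) (nat_lit 532) (nat_lit 0) (XT.lf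 (nat_lit 76) (nat_lit 109065095) (nat_lit 0) (nat_lit 1230501764) (nat_lit 684) (nat_lit 5873195018) (nat_lit 273) (nat_lit 1) (nat_lit 272) (nat_lit 1) (nat_lit 281) (nat_lit 1) (nat_lit 305) (nat_lit 378) (nat_lit 337)) (XT.lf (nat_lit 608) (nat_lit 3974600211) (nat_lit 0) (nat_lit 472813401) (nat_lit 532) (nat_lit 2678581294) (nat_lit 273) (nat_lit 1) (nat_lit 265) (nat_lit 1) (nat_lit 272) (nat_lit 1) (nat_lit 306) (nat_lit 378) (nat_lit 336))) (XT.nd (nat_lit 78) (nat_lit 1140) (nat_lit 0) (XT.lf (nat_lit 76) (nat_lit 1634194055) (nat_lit 0) (nat_lit 5064604586) (nat_lit 608) (nat_lit 341991182) (nat_lit 266) (nat_lit 1) (nat_lit 265) (nat_lit 1) (nat_lit 273) (nat_lit 1) (nat_lit 307) (nat_lit 378) (nat_lit 335)) (XT.nd (nat_lit 78) (nat_lit 532) (nat_lit 0) (XT.lf (nat_lit 76) (nat_lit 5825327899) (nat_lit 0) (nat_lit 19693663) (nat_lit 608) (nat_lit 1111945585) (nat_lit 258) (nat_lit 1) (nat_lit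 257) (nat_lit 1) (nat_lit 265) (nat_lit 1) (nat_lit 308) (nat_lit 378) (nat_lit 334)) (XT.lf (nat_lit 76) (nat_lit 3026866925) (nat_lit 0) (nat_lit 1987075230) (nat_lit 608) (nat_lit 1860298648) (nat_lit 251) (nat_lit 1) (nat_lit 250) (nat_lit 1) (nat_lit 258) (nat_lit 1) (nat_lit 309) (nat_lit 378) (nat_lit 333))))))))
noncomputable def ec99 : XT := (XT.nd (nat_lit 1404) (nat_lit 5320) (nat_lit 0) (XT.nd (nat_lit 702) (nat_lit 3572) (nat_lit 0) (XT.nd (nat_lit 312) (nat_lit 1900) (nat_lit 0) (XT.nd (nat_lit 156) (nat_lit 1064) (nat_lit 0) (XT.nd (nat_lit 78) (nat_lit 456) (nat_lit 0) (XT.lf (nat_lit 76) (nat_lit 287546968) (nat_lit 0) (nat_lit 3940794651) (nat_lit 608) (nat_lit 2564709541) (nat_lit 244) (nat_lit 1) (nat_lit 243) (nat_lit 1) (nat_lit 251) (nat_lit 1) (nat_lit 310) (nat_lit 378) (nat_lit 332)) (XT.lf (nat_lit 532) (nat_lit 816693472) (nat_lit 0) (nat_lit 3470846500) (nat_lit 456)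 (nat_lit 2425511328) (nat_lit 244) (nat_lit 1) (nat_lit 237) (nat_lit 1) (nat_lit 243) (nat_lit 1) (nat_lit 311) (nat_lit 378) (nat_lit 331))) (XT.nd (nat_lit 78) (nat_lit 456) (nat_lit 0) (XT.lf (nat_lit 76) (nat_lit 1557704402) (nat_lit 0) (nat_lit 1189012763) (nat_lit 608) (nat_lit 3887621002) (nat_lit 230) (nat_lit 1) (nat_lit 229) (nat_lit 1) (nat_lit 237) (nat_lit 1) (nat_lit 312) (nat_lit 378) (nat_lit 330)) (XT.lf (nat_lit 532) (nat_lit 3381466658) (nat_lit 0) (nat_lit 2051869339) (nat_lit 456) (nat_lit 1123489537) (nat_lit 230) (nat_lit 1) (nat_lit 223) (nat_lit 1) (nat_lit 229) (nat_lit 1) (nat_lit 313) (nat_lit 378) (nat_lit 329)))) (XT.nd (nat_lit 156) (nat_lit 912) (nat_lit 0) (XT.nd (nat_lit 78) (nat_lit 532) (nat_lit 0) (XT.lf (nat_lit 532) (nat_lit 1325056360) (nat_lit 0) (nat_lit 1387863747) (nat_lit 456) (nat_lit 3767617819) (nat_lit 224) (nat_lit 1) (nat_lit 217) (nat_lit 1) (nat_lit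 223) (nat_lit 1) (nat_lit 314) (nat_lit 378) (nat_lit 328)) (XT.lf (nat_lit 76) (nat_lit 55241041) (nat_lit 0) (nat_lit 703994661) (nat_lit 532) (nat_lit 5646322544) (nat_lit 211) (nat_lit 1) (nat_lit 210) (nat_lit 1) (nat_lit 217) (nat_lit 1) (nat_lit 315) (nat_lit 378) (nat_lit 327))) (XT.nd (nat_lit 78) (nat_lit 456) (nat_lit 0) (XT.lf (nat_lit 532) (nat_lit 3616944447) (nat_lit 0) (nat_lit 143866925) (nat_lit 456) (nat_lit 2570635468) (nat_lit 211) (nat_lit 1) (nat_lit 204) (nat_lit 1) (nat_lit 210) (nat_lit 1) (nat_lit 316) (nat_lit 378) (nat_lit 326)) (XT.nd (nat_lit 78) (nat_lit 456) (nat_lit 0) (XT.lf (nat_lit 76) (nat_lit 1120849166) (nat_lit 0) (nat_lit 4709890566) (nat_lit 532) (nat_lit 427885507) (nat_lit 205) (nat_lit 1) (nat_lit 204) (nat_lit 1) (nat_lit 211) (nat_lit 1) (nat_lit 317) (nat_lit 378) (nat_lit 325)) (XT.lf (nat_lit 76) (nat_lit 4709263132) (nat_lit 0) (nat_lit 503616176)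 (nat_lit 456) (nat_lit 973977652) (nat_lit 199) (nat_lit 1) (nat_lit 198) (nat_lit 1) (nat_lit 204) (nat_lit 1) (nat_lit 318) (nat_lit 378) (nat_lit 324)))))) (XT.nd (nat_lit 312) (nat_lit 1900) (nat_lit 0) (XT.nd (nat_lit 156) (nat_lit 836) (nat_lit 0) (XT.nd (nat_lit 78) (nat_lit 380) (nat_lit 0) (XT.lf (nat_lit 76) (nat_lit 2091602282) (nat_lit 0) (nat_lit 2523033585) (nat_lit 532) (nat_lit 1501416619) (nat_lit 193) (nat_lit 1) (nat_lit 192) (nat_lit 1) (nat_lit 199) (nat_lit 1) (nat_lit 319) (nat_lit 378) (nat_lit 323)) (XT.lf (nat_lit 456) (nat_lit 1520970713) (nat_lit 0) (nat_lit 4049611111) (nat_lit 380) (nat_lit 475891071) (nat_lit 193) (nat_lit 1) (nat_lit 187) (nat_lit 1) (nat_lit 192) (nat_lit 1) (nat_lit 320) (nat_lit 378) (nat_lit 322))) (XT.nd (nat_lit 78) (nat_lit 380) (nat_lit 0) (XT.lf (nat_lit 76) (nat_lit 2966315816) (nat_lit 0) (nat_lit 536330115) (nat_lit 456) (nat_lit 2475169449)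 (nat_lit 182) (nat_lit 1) (nat_lit 181) (nat_lit 1) (nat_lit 187) (nat_lit 1) (nat_lit 321) (nat_lit 378) (nat_lit 321)) (XT.lf (nat_lit 76) (nat_lit 428050494) (nat_lit 0) (nat_lit 2552367266) (nat_lit 456) (nat_lit 2929787600) (nat_lit 177) (nat_lit 1) (nat_lit 176) (nat_lit 1) (nat_lit 182) (nat_lit 1) (nat_lit 322) (nat_lit 378) (nat_lit 320)))) (XT.nd (nat_lit 156) (nat_lit 1140) (nat_lit 0) (XT.nd (nat_lit 78) (nat_lit 380) (nat_lit 0) (XT.lf (nat_lit 456) (nat_lit 1282872189) (nat_lit 0) (nat_lit 2478205891) (nat_lit 380) (nat_lit 2082466728) (nat_lit 177) (nat_lit 1) (nat_lit 171) (nat_lit 1) (nat_lit 176) (nat_lit 1) (nat_lit 323) (nat_lit 378) (nat_lit 319)) (XT.lf (nat_lit 76) (nat_lit 1239102011) (nat_lit 0) (nat_lit 762098530) (nat_lit 380) (nat_lit 3776729546) (nat_lit 167) (nat_lit 1) (nat_lit 166) (nat_lit 1) (nat_lit 171) (nat_lit 1) (nat_lit 324) (nat_lit 378) (nat_lit 318))) (XT.nd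 (nat_lit 78) (nat_lit 760) (nat_lit 0) (XT.lf (nat_lit 456) (nat_lit 2937234677) (nat_lit 0) (nat_lit 1539897491) (nat_lit 380) (nat_lit 1236037316) (nat_lit 167) (nat_lit 1) (nat_lit 161) (nat_lit 1) (nat_lit 166) (nat_lit 1) (nat_lit 325) (nat_lit 378) (nat_lit 317)) (XT.nd (nat_lit 78) (nat_lit 456) (nat_lit 0) (XT.lf (nat_lit 380) (nat_lit 874062197) (nat_lit 0) (nat_lit 1102087713) (nat_lit 304) (nat_lit 3673260550) (nat_lit 162) (nat_lit 1) (nat_lit 157) (nat_lit 1) (nat_lit 161) (nat_lit 1) (nat_lit 326) (nat_lit 378) (nat_lit 316)) (XT.lf (nat_lit 456) (nat_lit 4433302712) (nat_lit 0) (nat_lit 684343011) (nat_lit 380) (nat_lit 468934820) (nat_lit 157) (nat_lit 1) (nat_lit 151) (nat_lit 1) (nat_lit 156) (nat_lit 1) (nat_lit 327) (nat_lit 378) (nat_lit 315))))))) (XT.nd (nat_lit 702) (nat_lit 2736) (nat_lit 0) (XT.nd (nat_lit 312) (nat_lit 1596) (nat_lit 0) (XT.nd (nat_lit 156) (nat_lit 684)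 (nat_lit 0) (XT.nd (nat_lit 78) (nat_lit 0) (nat_lit 0) (XT.lf (nat_lit 380) (nat_lit 2365869791) (nat_lit 0) (nat_lit 278092993) (nat_lit 304) (nat_lit 2880543704) (nat_lit 152) (nat_lit 1) (nat_lit 147) (nat_lit 1) (nat_lit 151) (nat_lit 1) (nat_lit 328) (nat_lit 378) (nat_lit 314)) (XT.lf (nat_lit 76) (nat_lit 224970011) (nat_lit 0) (nat_lit 5141315825) (nat_lit 380) (nat_lit 97240002) (nat_lit 148) (nat_lit 1) (nat_lit 147) (nat_lit 1) (nat_lit 152) (nat_lit 1) (nat_lit 329) (nat_lit 378) (nat_lit 313))) (XT.nd (nat_lit 78) (nat_lit 304) (nat_lit 0) (XT.lf (nat_lit 76) (nat_lit 3246606996) (nat_lit 0) (nat_lit 1690750202) (nat_lit 380) (nat_lit 465735900) (nat_lit 143) (nat_lit 1) (nat_lit 142) (nat_lit 1) (nat_lit 147) (nat_lit 1) (nat_lit 330) (nat_lit 378) (nat_lit 312)) (XT.lf (nat_lit 76) (nat_lit 857196334) (nat_lit 0) (nat_lit 3676716937) (nat_lit 380) (nat_lit 809751860) (nat_lit 139)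 (nat_lit 1) (nat_lit 138) (nat_lit 1) (nat_lit 143) (nat_lit 1) (nat_lit 331) (nat_lit 378) (nat_lit 311)))) (XT.nd (nat_lit 156) (nat_lit 912) (nat_lit 0) (XT.nd (nat_lit 78) (nat_lit 304) (nat_lit 0) (XT.lf (nat_lit 76) (nat_lit 3787932792) (nat_lit 0) (nat_lit 358503160) (nat_lit 380) (nat_lit 1138614450) (nat_lit 134) (nat_lit 1) (nat_lit 133) (nat_lit 1) (nat_lit 138) (nat_lit 1) (nat_lit 332) (nat_lit 378) (nat_lit 310)) (XT.lf (nat_lit 76) (nat_lit 1427257156) (nat_lit 0) (nat_lit 2342871843) (nat_lit 380) (nat_lit 1457021012) (nat_lit 130) (nat_lit 1) (nat_lit 129) (nat_lit 1) (nat_lit 134) (nat_lit 1) (nat_lit 333) (nat_lit 378) (nat_lit 309))) (XT.nd (nat_lit 78) (nat_lit 608) (nat_lit 0) (XT.lf (nat_lit 380) (nat_lit 861782884) (nat_lit 0) (nat_lit 3415103987) (nat_lit 304) (nat_lit 893270546) (nat_lit 130) (nat_lit 1) (nat_lit 125) (nat_lit 1) (nat_lit 129) (nat_lit 1) (nat_lit 334) (nat_lit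 378) (nat_lit 308)) (XT.nd (nat_lit 78) (nat_lit 304) (nat_lit 0) (XT.lf (nat_lit 76) (nat_lit 1940176340) (nat_lit 0) (nat_lit 1129501740) (nat_lit 304) (nat_lit 2044160701) (nat_lit 122) (nat_lit 1) (nat_lit 121) (nat_lit 1) (nat_lit 125) (nat_lit 1) (nat_lit 335) (nat_lit 378) (nat_lit 307)) (XT.lf (nat_lit 380) (nat_lit 1971822148) (nat_lit 0) (nat_lit 2742421578) (nat_lit 304) (nat_lit 344113707) (nat_lit 122) (nat_lit 1) (nat_lit 117) (nat_lit 1) (nat_lit 121) (nat_lit 1) (nat_lit 336) (nat_lit 378) (nat_lit 306)))))) (XT.nd (nat_lit 390) (nat_lit 1292) (nat_lit 0) (XT.nd (nat_lit 156) (nat_lit 836) (nat_lit 0) (XT.nd (nat_lit 78) (nat_lit 304) (nat_lit 0) (XT.lf (nat_lit 76) (nat_lit 2400589956) (nat_lit 0) (nat_lit 27114290) (nat_lit 304) (nat_lit 2575894061) (nat_lit 114) (nat_lit 1) (nat_lit 113) (nat_lit 1) (nat_lit 117) (nat_lit 1) (nat_lit 337) (nat_lit 378) (nat_lit 305)) (XT.lf (nat_lit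 76) (nat_lit 150524716) (nat_lit 0) (nat_lit 1974575865) (nat_lit 380) (nat_lit 2824447852) (nat_lit 110) (nat_lit 1) (nat_lit 109) (nat_lit 1) (nat_lit 114) (nat_lit 1) (nat_lit 338) (nat_lit 378) (nat_lit 304))) (XT.nd (nat_lit 78) (nat_lit 608) (nat_lit 0) (XT.lf (nat_lit 304) (nat_lit 985987583) (nat_lit 0) (nat_lit 1833189948) (nat_lit 228) (nat_lit 2076997845) (nat_lit 110) (nat_lit 1) (nat_lit 106) (nat_lit 1) (nat_lit 109) (nat_lit 1) (nat_lit 339) (nat_lit 378) (nat_lit 303)) (XT.nd (nat_lit 78) (nat_lit 228) (nat_lit 0) (XT.lf (nat_lit 76) (nat_lit 592990582) (nat_lit 0) (nat_lit 964873013) (nat_lit 380) (nat_lit 3285726522) (nat_lit 102) (nat_lit 1) (nat_lit 101) (nat_lit 1) (nat_lit 106) (nat_lit 1) (nat_lit 340) (nat_lit 378) (nat_lit 302)) (XT.lf (nat_lit 304) (nat_lit 1904076233) (nat_lit 0) (nat_lit 1288967241) (nat_lit 228) (nat_lit 1598545585) (nat_lit 102) (nat_lit 1) (nat_lit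 98) (nat_lit 1) (nat_lit 101) (nat_lit 1) (nat_lit 341) (nat_lit 378) (nat_lit 301))))) (XT.nd (nat_lit 156) (nat_lit 760) (nat_lit 0) (XT.nd (nat_lit 78) (nat_lit 228) (nat_lit 0) (XT.lf (nat_lit 76) (nat_lit 991645204) (nat_lit 0) (nat_lit 47318488) (nat_lit 304) (nat_lit 3701448433) (nat_lit 95) (nat_lit 1) (nat_lit 94) (nat_lit 1) (nat_lit 98) (nat_lit 1) (nat_lit 342) (nat_lit 378) (nat_lit 300)) (XT.lf (nat_lit 304) (nat_lit 2734364564) (nat_lit 0) (nat_lit 791335283) (nat_lit 228) (nat_lit 1164031184) (nat_lit 95) (nat_lit 1) (nat_lit 91) (nat_lit 1) (nat_lit 94) (nat_lit 1) (nat_lit 343) (nat_lit 378) (nat_lit 299))) (XT.nd (nat_lit 78) (nat_lit 532) (nat_lit 0) (XT.lf (nat_lit 304) (nat_lit 795796162) (nat_lit 0) (nat_lit 559410384) (nat_lit 228) (nat_lit 3284596213) (nat_lit 92) (nat_lit 1) (nat_lit 88) (nat_lit 1) (nat_lit 91) (nat_lit 1) (nat_lit 344) (nat_lit 378) (nat_lit 298)) (XT.nd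 (nat_lit 78) (nat_lit 228) (nat_lit 0) (XT.lf (nat_lit 304) (nat_lit 3483845040) (nat_lit 0) (nat_lit 336705950) (nat_lit 228) (nat_lit 769944881) (nat_lit 88) (nat_lit 1) (nat_lit 84) (nat_lit 1) (nat_lit 87) (nat_lit 1) (nat_lit 345) (nat_lit 378) (nat_lit 297)) (XT.lf (nat_lit 304) (nat_lit 1560338705) (nat_lit 0) (nat_lit 121242858) (nat_lit 228) (nat_lit 2860185717) (nat_lit 85) (nat_lit 1) (nat_lit 81) (nat_lit 1) (nat_lit 84) (nat_lit 1) (nat_lit 346) (nat_lit 378) (nat_lit 296))))))))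
noncomputable def ec100 : XT := (XT.nd (nat_lit 1404) (nat_lit 1216) (nat_lit 0) (XT.nd (nat_lit 702) (nat_lit 1824) (nat_lit 0) (XT.nd (nat_lit 312) (nat_lit 1140) (nat_lit 0) (XT.nd (nat_lit 156) (nat_lit 456) (nat_lit 0) (XT.nd (nat_lit 78) (nat_lit 228) (nat_lit 0) (XT.lf (nat_lit 76) (nat_lit 4081244940) (nat_lit 0) (nat_lit 335318611) (nat_lit 304) (nat_lit 77210463) (nat_lit 81) (nat_lit 1) (nat_lit 80) (nat_lit 1) (nat_lit 84) (nat_lit 1) (nat_lit 347) (nat_lit 378) (nat_lit 295)) (XT.lf (nat_lit 76) (nat_lit 1975330776) (nat_lit 0) (nat_lit 2196059621) (nat_lit 304) (nat_lit 274788196) (nat_lit 78) (nat_lit 1) (nat_lit 77) (nat_lit 1) (nat_lit 81) (nat_lit 1) (nat_lit 348) (nat_lit 378) (nat_lit 294))) (XT.nd (nat_lit 78) (nat_lit 228) (nat_lit 0) (XT.lf (nat_lit 304) (nat_lit 368071040) (nat_lit 0) (nat_lit 3946436781) (nat_lit 228) (nat_lit 84887231) (nat_lit 78) (nat_lit 1) (nat_lit 74)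 (nat_lit 1) (nat_lit 77) (nat_lit 1) (nat_lit 349) (nat_lit 378) (nat_lit 293)) (XT.lf (nat_lit 76) (nat_lit 2238029730) (nat_lit 0) (nat_lit 1480755812) (nat_lit 228) (nat_lit 634184458) (nat_lit 72) (nat_lit 1) (nat_lit 71) (nat_lit 1) (nat_lit 74) (nat_lit 1) (nat_lit 350) (nat_lit 378) (nat_lit 292)))) (XT.nd (nat_lit 156) (nat_lit 684) (nat_lit 0) (XT.nd (nat_lit 78) (nat_lit 228) (nat_lit 0) (XT.lf (nat_lit 76) (nat_lit 210112756) (nat_lit 0) (nat_lit 3298666868) (nat_lit 304) (nat_lit 798518705) (nat_lit 69) (nat_lit 1) (nat_lit 68) (nat_lit 1) (nat_lit 72) (nat_lit 1) (nat_lit 351) (nat_lit 378) (nat_lit 291)) (XT.lf (nat_lit 76) (nat_lit 2471516651) (nat_lit 0) (nat_lit 829305129) (nat_lit 228) (nat_lit 961248471) (nat_lit 66) (nat_lit 1) (nat_lit 65) (nat_lit 1) (nat_lit 68) (nat_lit 1) (nat_lit 352) (nat_lit 378) (nat_lit 290))) (XT.nd (nat_lit 78) (nat_lit 456) (nat_lit 0) (XT.lf (nat_lit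 76) (nat_lit 474884553) (nat_lit 0) (nat_lit 2629300032) (nat_lit 304) (nat_lit 1113279081) (nat_lit 63) (nat_lit 1) (nat_lit 62) (nat_lit 1) (nat_lit 66) (nat_lit 1) (nat_lit 353) (nat_lit 378) (nat_lit 289)) (XT.nd (nat_lit 78) (nat_lit 228) (nat_lit 0) (XT.lf (nat_lit 76) (nat_lit 2678213157) (nat_lit 0) (nat_lit 236697247) (nat_lit 228) (nat_lit 1258486690) (nat_lit 60) (nat_lit 1) (nat_lit 59) (nat_lit 1) (nat_lit 62) (nat_lit 1) (nat_lit 354) (nat_lit 378) (nat_lit 288)) (XT.lf (nat_lit 76) (nat_lit 712907185) (nat_lit 0) (nat_lit 2017793189) (nat_lit 304) (nat_lit 1399121244) (nat_lit 57) (nat_lit 1) (nat_lit 56) (nat_lit 1) (nat_lit 60) (nat_lit 1) (nat_lit 355) (nat_lit 378) (nat_lit 287)))))) (XT.nd (nat_lit 312) (nat_lit 912) (nat_lit 0) (XT.nd (nat_lit 156) (nat_lit 456) (nat_lit 0) (XT.nd (nat_lit 78) (nat_lit 304) (nat_lit 0) (XT.lf (nat_lit 228) (nat_lit 305704528) (nat_lit 0) (nat_lit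 2556632952) (nat_lit 152) (nat_lit 1224495532) (nat_lit 57) (nat_lit 1) (nat_lit 54) (nat_lit 1) (nat_lit 56) (nat_lit 1) (nat_lit 356) (nat_lit 378) (nat_lit 286)) (XT.lf (nat_lit 76) (nat_lit 926363338) (nat_lit 0) (nat_lit 1459639308) (nat_lit 304) (nat_lit 1658293383) (nat_lit 51) (nat_lit 1) (nat_lit 50) (nat_lit 1) (nat_lit 54) (nat_lit 1) (nat_lit 357) (nat_lit 378) (nat_lit 285))) (XT.nd (nat_lit 78) (nat_lit 304) (nat_lit 0) (XT.lf (nat_lit 228) (nat_lit 800646137) (nat_lit 0) (nat_lit 2224546845) (nat_lit 152) (nat_lit 977126454) (nat_lit 51) (nat_lit 1) (nat_lit 48) (nat_lit 1) (nat_lit 50) (nat_lit 1) (nat_lit 358) (nat_lit 378) (nat_lit 284)) (XT.lf (nat_lit 76) (nat_lit 1117266634) (nat_lit 0) (nat_lit 950675231) (nat_lit 304) (nat_lit 1892872897) (nat_lit 45) (nat_lit 1) (nat_lit 44) (nat_lit 1) (nat_lit 48) (nat_lit 1) (nat_lit 359) (nat_lit 378) (nat_lit 283)))) (XT.nd (nat_lit 156)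 (nat_lit 532) (nat_lit 0) (XT.nd (nat_lit 78) (nat_lit 228) (nat_lit 0) (XT.lf (nat_lit 228) (nat_lit 1248980885) (nat_lit 0) (nat_lit 1918166509) (nat_lit 152) (nat_lit 752669752) (nat_lit 45) (nat_lit 1) (nat_lit 42) (nat_lit 1) (nat_lit 44) (nat_lit 1) (nat_lit 360) (nat_lit 378) (nat_lit 282)) (XT.lf (nat_lit 76) (nat_lit 1287474539) (nat_lit 0) (nat_lit 487055545) (nat_lit 228) (nat_lit 2104779340) (nat_lit 40) (nat_lit 1) (nat_lit 39) (nat_lit 1) (nat_lit 42) (nat_lit 1) (nat_lit 361) (nat_lit 378) (nat_lit 281))) (XT.nd (nat_lit 78) (nat_lit 380) (nat_lit 0) (XT.lf (nat_lit 228) (nat_lit 1654401509) (nat_lit 0) (nat_lit 1635573882) (nat_lit 152) (nat_lit 549284017) (nat_lit 40) (nat_lit 1) (nat_lit 37) (nat_lit 1) (nat_lit 39) (nat_lit 1) (nat_lit 362) (nat_lit 378) (nat_lit 280)) (XT.nd (nat_lit 78) (nat_lit 152) (nat_lit 0) (XT.lf (nat_lit 76) (nat_lit 1438700288) (nat_lit 0) (nat_lit 65228448)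 (nat_lit 228) (nat_lit 2295786392) (nat_lit 35) (nat_lit 1) (nat_lit 34) (nat_lit 1) (nat_lit 37) (nat_lit 1) (nat_lit 363) (nat_lit 378) (nat_lit 279)) (XT.lf (nat_lit 228) (nat_lit 2020317879) (nat_lit 0) (nat_lit 1374994994) (nat_lit 152) (nat_lit 365270003) (nat_lit 35) (nat_lit 1) (nat_lit 32) (nat_lit 1) (nat_lit 34) (nat_lit 1) (nat_lit 364) (nat_lit 378) (nat_lit 278))))))) (XT.nd (nat_lit 45942) (nat_lit 0) (nat_lit 32604) (XT.nd (nat_lit 312) (nat_lit 456) (nat_lit 0) (XT.nd (nat_lit 156) (nat_lit 380) (nat_lit 0) (XT.nd (nat_lit 78) (nat_lit 228) (nat_lit 0) (XT.lf (nat_lit 228) (nat_lit 322313766) (nat_lit 0) (nat_lit 1252302804) (nat_lit 152) (nat_lit 2147311817) (nat_lit 33) (nat_lit 1) (nat_lit 30) (nat_lit 1) (nat_lit 32) (nat_lit 1) (nat_lit 365) (nat_lit 378) (nat_lit 277)) (XT.lf (nat_lit 228) (nat_lit 2349878503) (nat_lit 0) (nat_lit 1134789076) (nat_lit 152) (nat_lit 199059788)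 (nat_lit 30) (nat_lit 1) (nat_lit 27) (nat_lit 1) (nat_lit 29) (nat_lit 1) (nat_lit 366) (nat_lit 378) (nat_lit 276))) (XT.nd (nat_lit 78) (nat_lit 228) (nat_lit 0) (XT.lf (nat_lit 228) (nat_lit 674769027) (nat_lit 0) (nat_lit 1020014368) (nat_lit 152) (nat_lit 1951145172) (nat_lit 28) (nat_lit 1) (nat_lit 25) (nat_lit 1) (nat_lit 27) (nat_lit 1) (nat_lit 367) (nat_lit 378) (nat_lit 275)) (XT.lf (nat_lit 228) (nat_lit 2645990406) (nat_lit 0) (nat_lit 913438497) (nat_lit 152) (nat_lit 49206752) (nat_lit 25) (nat_lit 1) (nat_lit 22) (nat_lit 1) (nat_lit 24) (nat_lit 1) (nat_lit 368) (nat_lit 378) (nat_lit 274)))) (XT.nd (nat_lit 156) (nat_lit 152) (nat_lit 0) (XT.nd (nat_lit 78) (nat_lit 152) (nat_lit 0) (XT.lf (nat_lit 228) (nat_lit 994105849) (nat_lit 0) (nat_lit 806027536) (nat_lit 152) (nat_lit 1771534765) (nat_lit 23) (nat_lit 1) (nat_lit 20) (nat_lit 1) (nat_lit 22) (nat_lit 1) (nat_lit 369)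 (nat_lit 378) (nat_lit 273)) (XT.lf (nat_lit 76) (nat_lit 84500708) (nat_lit 0) (nat_lit 624471709) (nat_lit 152) (nat_lit 2826269742) (nat_lit 19) (nat_lit 1) (nat_lit 18) (nat_lit 1) (nat_lit 20) (nat_lit 1) (nat_lit 370) (nat_lit 378) (nat_lit 272))) (XT.nd (nat_lit 45318) (nat_lit 0) (nat_lit 37012) (XT.lf (nat_lit 228) (nat_lit 1282942729) (nat_lit 0) (nat_lit 608979227) (nat_lit 152) (nat_lit 1607171778) (nat_lit 19) (nat_lit 1) (nat_lit 16) (nat_lit 1) (nat_lit 18) (nat_lit 1) (nat_lit 371) (nat_lit 378) (nat_lit 271)) (XT.nd (nat_lit 78) (nat_lit 0) (nat_lit 76) (XT.lf (nat_lit 1900) (nat_lit 4156138073) (nat_lit 76) (nat_lit 6022624941) (nat_lit 0) (nat_lit 1106441871) (nat_lit 528) (nat_lit 1) (nat_lit 504) (nat_lit 1) (nat_lit 503) (nat_lit 1) (nat_lit 271) (nat_lit 379) (nat_lit 370)) (XT.lf (nat_lit 1900) (nat_lit 3319753052) (nat_lit 76) (nat_lit 3494743943) (nat_lit 0) (nat_lit 4312723012)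 (nat_lit 529) (nat_lit 1) (nat_lit 505) (nat_lit 1) (nat_lit 504) (nat_lit 1) (nat_lit 272) (nat_lit 379) (nat_lit 369)))))) (XT.nd (nat_lit 390) (nat_lit 2812) (nat_lit 0) (XT.nd (nat_lit 156) (nat_lit 1748) (nat_lit 0) (XT.nd (nat_lit 78) (nat_lit 0) (nat_lit 76) (XT.lf (nat_lit 1900) (nat_lit 2435732785) (nat_lit 76) (nat_lit 1075860549) (nat_lit 0) (nat_lit 7460831610) (nat_lit 530) (nat_lit 1) (nat_lit 506) (nat_lit 1) (nat_lit 505) (nat_lit 1) (nat_lit 273) (nat_lit 379) (nat_lit 368)) (XT.lf (nat_lit 1900) (nat_lit 277365190) (nat_lit 0) (nat_lit 9322260331) (nat_lit 1824) (nat_lit 1220961303) (nat_lit 531) (nat_lit 1) (nat_lit 506) (nat_lit 1) (nat_lit 530) (nat_lit 1) (nat_lit 274) (nat_lit 379) (nat_lit 367))) (XT.nd (nat_lit 78) (nat_lit 1824) (nat_lit 0) (XT.lf (nat_lit 1900) (nat_lit 492239618) (nat_lit 76) (nat_lit 7250009727) (nat_lit 0) (nat_lit 2929039796) (nat_lit 531) (nat_lit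 1) (nat_lit 507) (nat_lit 1) (nat_lit 506) (nat_lit 1) (nat_lit 275) (nat_lit 379) (nat_lit 366)) (XT.nd (nat_lit 78) (nat_lit 0) (nat_lit 76) (XT.lf (nat_lit 1976) (nat_lit 4448752810) (nat_lit 0) (nat_lit 547943006) (nat_lit 1900) (nat_lit 5528186115) (nat_lit 508) (nat_lit 1) (nat_lit 482) (nat_lit 1) (nat_lit 507) (nat_lit 1) (nat_lit 276) (nat_lit 379) (nat_lit 365)) (XT.lf (nat_lit 1976) (nat_lit 1220232687) (nat_lit 0) (nat_lit 1618534363) (nat_lit 1900) (nat_lit 7542570442) (nat_lit 509) (nat_lit 1) (nat_lit 483) (nat_lit 1) (nat_lit 508) (nat_lit 1) (nat_lit 277) (nat_lit 379) (nat_lit 364))))) (XT.nd (nat_lit 156) (nat_lit 2888) (nat_lit 0) (XT.nd (nat_lit 78) (nat_lit 0) (nat_lit 76) (XT.lf (nat_lit 1976) (nat_lit 7503651505) (nat_lit 76) (nat_lit 763560848) (nat_lit 0) (nat_lit 1973185544) (nat_lit 509) (nat_lit 1) (nat_lit 484) (nat_lit 1) (nat_lit 483) (nat_lit 1) (nat_lit 278) (nat_lit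 379) (nat_lit 363)) (XT.lf (nat_lit 76) (nat_lit 4988226346) (nat_lit 0) (nat_lit 3903383287) (nat_lit 1900) (nat_lit 1210333825) (nat_lit 485) (nat_lit 1) (nat_lit 484) (nat_lit 1) (nat_lit 509) (nat_lit 1) (nat_lit 279) (nat_lit 379) (nat_lit 362))) (XT.nd (nat_lit 78) (nat_lit 1824) (nat_lit 0) (XT.lf (nat_lit 76) (nat_lit 1776523201) (nat_lit 0) (nat_lit 5104922517) (nat_lit 1216) (nat_lit 3084698313) (nat_lit 470) (nat_lit 1) (nat_lit 469) (nat_lit 1) (nat_lit 485) (nat_lit 1) (nat_lit 280) (nat_lit 379) (nat_lit 361)) (XT.nd (nat_lit 78) (nat_lit 912) (nat_lit 0) (XT.lf (nat_lit 988) (nat_lit 3489225023) (nat_lit 0) (nat_lit 4951669497) (nat_lit 912) (nat_lit 1391962086) (nat_lit 470) (nat_lit 1) (nat_lit 457) (nat_lit 1) (nat_lit 469) (nat_lit 1) (nat_lit 281) (nat_lit 379) (nat_lit 360)) (XT.lf (nat_lit 988) (nat_lit 2081958812) (nat_lit 0) (nat_lit 3097391559) (nat_lit 912) (nat_lit 4522625852)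 (nat_lit 458) (nat_lit 1) (nat_lit 445) (nat_lit 1) (nat_lit 457) (nat_lit 1) (nat_lit 282) (nat_lit 379) (nat_lit 359))))))))
noncomputable def ec101 : XT := (XT.nd (nat_lit 1404) (nat_lit 8740) (nat_lit 0) (XT.nd (nat_lit 702) (nat_lit 5472) (nat_lit 0) (XT.nd (nat_lit 312) (nat_lit 3192) (nat_lit 0) (XT.nd (nat_lit 156) (nat_lit 1748) (nat_lit 0) (XT.nd (nat_lit 78) (nat_lit 76) (nat_lit 0) (XT.lf (nat_lit 912) (nat_lit 652958560) (nat_lit 0) (nat_lit 1328003640) (nat_lit 836) (nat_lit 7592715841) (nat_lit 446) (nat_lit 1) (nat_lit 434) (nat_lit 1) (nat_lit 445) (nat_lit 1) (nat_lit 283) (nat_lit 379) (nat_lit 358)) (XT.lf (nat_lit 76) (nat_lit 8284771294) (nat_lit 0) (nat_lit 795761919) (nat_lit 912) (nat_lit 367068646) (nat_lit 434) (nat_lit 1) (nat_lit 433) (nat_lit 1) (nat_lit 445) (nat_lit 1) (nat_lit 284) (nat_lit 379) (nat_lit 357))) (XT.nd (nat_lit 78) (nat_lit 836) (nat_lit 0) (XT.lf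 (nat_lit 76) (nat_lit 5065495861) (nat_lit 0) (nat_lit 2275179277) (nat_lit 988) (nat_lit 1982816205) (nat_lit 422) (nat_lit 1) (nat_lit 421) (nat_lit 1) (nat_lit 434) (nat_lit 1) (nat_lit 285) (nat_lit 379) (nat_lit 356)) (XT.lf (nat_lit 76) (nat_lit 1909492431) (nat_lit 0) (nat_lit 3770722259) (nat_lit 912) (nat_lit 3521596696) (nat_lit 411) (nat_lit 1) (nat_lit 410) (nat_lit 1) (nat_lit 422) (nat_lit 1) (nat_lit 286) (nat_lit 379) (nat_lit 355)))) (XT.nd (nat_lit 156) (nat_lit 1596) (nat_lit 0) (XT.nd (nat_lit 78) (nat_lit 760) (nat_lit 0) (XT.lf (nat_lit 912) (nat_lit 3793509799) (nat_lit 0) (nat_lit 4088913844) (nat_lit 836) (nat_lit 1199929119) (nat_lit 411) (nat_lit 1) (nat_lit 399) (nat_lit 1) (nat_lit 410) (nat_lit 1) (nat_lit 287) (nat_lit 379) (nat_lit 354)) (XT.lf (nat_lit 836) (nat_lit 2132352086) (nat_lit 0) (nat_lit 2560086482) (nat_lit 760) (nat_lit 4272537400) (nat_lit 400) (nat_lit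 1) (nat_lit 389) (nat_lit 1) (nat_lit 399) (nat_lit 1) (nat_lit 288) (nat_lit 379) (nat_lit 353))) (XT.nd (nat_lit 78) (nat_lit 836) (nat_lit 0) (XT.lf (nat_lit 836) (nat_lit 461606547) (nat_lit 0) (nat_lit 1104368256) (nat_lit 760) (nat_lit 7283906426) (nat_lit 390) (nat_lit 1) (nat_lit 379) (nat_lit 1) (nat_lit 389) (nat_lit 1) (nat_lit 289) (nat_lit 379) (nat_lit 352)) (XT.nd (nat_lit 78) (nat_lit 760) (nat_lit 0) (XT.lf (nat_lit 76) (nat_lit 7228745887) (nat_lit 0) (nat_lit 1213369878) (nat_lit 836) (nat_lit 294510042) (nat_lit 379) (nat_lit 1) (nat_lit 378) (nat_lit 1) (nat_lit 389) (nat_lit 1) (nat_lit 290) (nat_lit 379) (nat_lit 351)) (XT.lf (nat_lit 76) (nat_lit 4095008248) (nat_lit 0) (nat_lit 2906258993) (nat_lit 836) (nat_lit 1623892128) (nat_lit 369) (nat_lit 1) (nat_lit 368) (nat_lit 1) (nat_lit 379) (nat_lit 1) (nat_lit 291) (nat_lit 379) (nat_lit 350)))))) (XT.nd (nat_lit 312) (nat_lit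 2584) (nat_lit 0) (XT.nd (nat_lit 156) (nat_lit 1444) (nat_lit 0) (XT.nd (nat_lit 78) (nat_lit 684) (nat_lit 0) (XT.lf (nat_lit 76) (nat_lit 1024397177) (nat_lit 0) (nat_lit 4604570332) (nat_lit 836) (nat_lit 2886877424) (nat_lit 359) (nat_lit 1) (nat_lit 358) (nat_lit 1) (nat_lit 369) (nat_lit 1) (nat_lit 292) (nat_lit 379) (nat_lit 349)) (XT.lf (nat_lit 760) (nat_lit 2087978547) (nat_lit 0) (nat_lit 4309924632) (nat_lit 684) (nat_lit 2010471635) (nat_lit 359) (nat_lit 1) (nat_lit 349) (nat_lit 1) (nat_lit 358) (nat_lit 1) (nat_lit 293) (nat_lit 379) (nat_lit 348))) (XT.nd (nat_lit 78) (nat_lit 760) (nat_lit 0) (XT.lf (nat_lit 760) (nat_lit 256736698) (nat_lit 0) (nat_lit 3049063213) (nat_lit 684) (nat_lit 4997037892) (nat_lit 350) (nat_lit 1) (nat_lit 340) (nat_lit 1) (nat_lit 349) (nat_lit 1) (nat_lit 294) (nat_lit 379) (nat_lit 347)) (XT.lf (nat_lit 76) (nat_lit 286852497) (nat_lit 0) (nat_lit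 1554094583) (nat_lit 760) (nat_lit 6358172537) (nat_lit 331) (nat_lit 1) (nat_lit 330) (nat_lit 1) (nat_lit 340) (nat_lit 1) (nat_lit 295) (nat_lit 379) (nat_lit 346)))) (XT.nd (nat_lit 156) (nat_lit 1900) (nat_lit 0) (XT.nd (nat_lit 78) (nat_lit 0) (nat_lit 0) (XT.lf (nat_lit 760) (nat_lit 4718424006) (nat_lit 0) (nat_lit 674568875) (nat_lit 684) (nat_lit 2704003929) (nat_lit 331) (nat_lit 1) (nat_lit 321) (nat_lit 1) (nat_lit 330) (nat_lit 1) (nat_lit 296) (nat_lit 379) (nat_lit 345)) (XT.lf (nat_lit 76) (nat_lit 2362588680) (nat_lit 0) (nat_lit 5206065961) (nat_lit 760) (nat_lit 428070711) (nat_lit 322) (nat_lit 1) (nat_lit 321) (nat_lit 1) (nat_lit 331) (nat_lit 1) (nat_lit 297) (nat_lit 379) (nat_lit 344))) (XT.nd (nat_lit 78) (nat_lit 1292) (nat_lit 0) (XT.lf (nat_lit 684) (nat_lit 859075726) (nat_lit 0) (nat_lit 6429851184) (nat_lit 608) (nat_lit 609271677) (nat_lit 322) (nat_lit 1) (nat_lit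 313) (nat_lit 1) (nat_lit 321) (nat_lit 1) (nat_lit 298) (nat_lit 379) (nat_lit 343)) (XT.nd (nat_lit 78) (nat_lit 608) (nat_lit 0) (XT.lf (nat_lit 76) (nat_lit 4257654961) (nat_lit 0) (nat_lit 1068449269) (nat_lit 684) (nat_lit 2474994754) (nat_lit 305) (nat_lit 1) (nat_lit 304) (nat_lit 1) (nat_lit 313) (nat_lit 1) (nat_lit 299) (nat_lit 379) (nat_lit 342)) (XT.lf (nat_lit 76) (nat_lit 1294622515) (nat_lit 0) (nat_lit 2978493056) (nat_lit 684) (nat_lit 3432611668) (nat_lit 297) (nat_lit 1) (nat_lit 296) (nat_lit 1) (nat_lit 305) (nat_lit 1) (nat_lit 300) (nat_lit 379) (nat_lit 341))))))) (XT.nd (nat_lit 702) (nat_lit 4256) (nat_lit 0) (XT.nd (nat_lit 312) (nat_lit 2128) (nat_lit 0) (XT.nd (nat_lit 156) (nat_lit 1216) (nat_lit 0) (XT.nd (nat_lit 78) (nat_lit 532) (nat_lit 0) (XT.lf (nat_lit 684) (nat_lit 2719597243) (nat_lit 0) (nat_lit 3264164340) (nat_lit 608) (nat_lit 1628182875) (nat_lit 297)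 (nat_lit 1) (nat_lit 288) (nat_lit 1) (nat_lit 296) (nat_lit 1) (nat_lit 301) (nat_lit 379) (nat_lit 340)) (XT.lf (nat_lit 608) (nat_lit 712720712) (nat_lit 0) (nat_lit 2300166566) (nat_lit 532) (nat_lit 4506874279) (nat_lit 289) (nat_lit 1) (nat_lit 281) (nat_lit 1) (nat_lit 288) (nat_lit 1) (nat_lit 302) (nat_lit 379) (nat_lit 339))) (XT.nd (nat_lit 78) (nat_lit 532) (nat_lit 0) (XT.lf (nat_lit 76) (nat_lit 112337048) (nat_lit 0) (nat_lit 1267416817) (nat_lit 684) (nat_lit 6049390868) (nat_lit 273) (nat_lit 1) (nat_lit 272) (nat_lit 1) (nat_lit 281) (nat_lit 1) (nat_lit 303) (nat_lit 379) (nat_lit 338)) (XT.lf (nat_lit 608) (nat_lit 4093838218) (nat_lit 0) (nat_lit 486997803) (nat_lit 532) (nat_lit 2758938733) (nat_lit 273) (nat_lit 1) (nat_lit 265) (nat_lit 1) (nat_lit 272) (nat_lit 1) (nat_lit 304) (nat_lit 379) (nat_lit 337)))) (XT.nd (nat_lit 156) (nat_lit 1520) (nat_lit 0) (XT.nd (nat_lit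 78) (nat_lit 608) (nat_lit 0) (XT.lf (nat_lit 76) (nat_lit 1683219877) (nat_lit 0) (nat_lit 5216542724) (nat_lit 608) (nat_lit 352250917) (nat_lit 266) (nat_lit 1) (nat_lit 265) (nat_lit 1) (nat_lit 273) (nat_lit 1) (nat_lit 305) (nat_lit 379) (nat_lit 336)) (XT.lf (nat_lit 76) (nat_lit 6000087736) (nat_lit 0) (nat_lit 20284473) (nat_lit 608) (nat_lit 1145303952) (nat_lit 258) (nat_lit 1) (nat_lit 257) (nat_lit 1) (nat_lit 265) (nat_lit 1) (nat_lit 306) (nat_lit 379) (nat_lit 335))) (XT.nd (nat_lit 78) (nat_lit 988) (nat_lit 0) (XT.lf (nat_lit 76) (nat_lit 3117672933) (nat_lit 0) (nat_lit 2046687487) (nat_lit 608) (nat_lit 1916107607) (nat_lit 251) (nat_lit 1) (nat_lit 250) (nat_lit 1) (nat_lit 258) (nat_lit 1) (nat_lit 307) (nat_lit 379) (nat_lit 334)) (XT.nd (nat_lit 78) (nat_lit 456) (nat_lit 0) (XT.lf (nat_lit 76) (nat_lit 296173377) (nat_lit 0) (nat_lit 4059018491) (nat_lit 608) (nat_lit 2641650827)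 (nat_lit 244) (nat_lit 1) (nat_lit 243) (nat_lit 1) (nat_lit 251) (nat_lit 1) (nat_lit 308) (nat_lit 379) (nat_lit 333)) (XT.lf (nat_lit 532) (nat_lit 841194276) (nat_lit 0) (nat_lit 3574971895) (nat_lit 456) (nat_lit 2498276668) (nat_lit 244) (nat_lit 1) (nat_lit 237) (nat_lit 1) (nat_lit 243) (nat_lit 1) (nat_lit 309) (nat_lit 379) (nat_lit 332)))))) (XT.nd (nat_lit 390) (nat_lit 1748) (nat_lit 0) (XT.nd (nat_lit 156) (nat_lit 1444) (nat_lit 0) (XT.nd (nat_lit 78) (nat_lit 456) (nat_lit 0) (XT.lf (nat_lit 76) (nat_lit 1604435534) (nat_lit 0) (nat_lit 1224683146) (nat_lit 608) (nat_lit 4004249632) (nat_lit 230) (nat_lit 1) (nat_lit 229) (nat_lit 1) (nat_lit 237) (nat_lit 1) (nat_lit 310) (nat_lit 379) (nat_lit 331)) (XT.lf (nat_lit 532) (nat_lit 3482910658) (nat_lit 0) (nat_lit 2113425419) (nat_lit 456) (nat_lit 1157194223) (nat_lit 230) (nat_lit 1) (nat_lit 223) (nat_lit 1) (nat_lit 229) (nat_lit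 1) (nat_lit 311) (nat_lit 379) (nat_lit 330))) (XT.nd (nat_lit 78) (nat_lit 988) (nat_lit 0) (XT.lf (nat_lit 532) (nat_lit 1364808050) (nat_lit 0) (nat_lit 1429499660) (nat_lit 456) (nat_lit 3880646353) (nat_lit 224) (nat_lit 1) (nat_lit 217) (nat_lit 1) (nat_lit 223) (nat_lit 1) (nat_lit 312) (nat_lit 379) (nat_lit 329)) (XT.nd (nat_lit 78) (nat_lit 456) (nat_lit 0) (XT.lf (nat_lit 76) (nat_lit 56898272) (nat_lit 0) (nat_lit 725114501) (nat_lit 532) (nat_lit 5815712220) (nat_lit 211) (nat_lit 1) (nat_lit 210) (nat_lit 1) (nat_lit 217) (nat_lit 1) (nat_lit 313) (nat_lit 379) (nat_lit 328)) (XT.lf (nat_lit 532) (nat_lit 3725452780) (nat_lit 0) (nat_lit 148182933) (nat_lit 456) (nat_lit 2647754532) (nat_lit 211) (nat_lit 1) (nat_lit 204) (nat_lit 1) (nat_lit 210) (nat_lit 1) (nat_lit 314) (nat_lit 379) (nat_lit 327))))) (XT.nd (nat_lit 156) (nat_lit 1292) (nat_lit 0) (XT.nd (nat_lit 78) (nat_lit 456)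 (nat_lit 0) (XT.lf (nat_lit 76) (nat_lit 1154474641) (nat_lit 0) (nat_lit 4851187283) (nat_lit 532) (nat_lit 440722072) (nat_lit 205) (nat_lit 1) (nat_lit 204) (nat_lit 1) (nat_lit 211) (nat_lit 1) (nat_lit 315) (nat_lit 379) (nat_lit 326)) (XT.lf (nat_lit 76) (nat_lit 4850541026) (nat_lit 0) (nat_lit 518724661) (nat_lit 456) (nat_lit 1003196981) (nat_lit 199) (nat_lit 1) (nat_lit 198) (nat_lit 1) (nat_lit 204) (nat_lit 1) (nat_lit 316) (nat_lit 379) (nat_lit 325))) (XT.nd (nat_lit 78) (nat_lit 836) (nat_lit 0) (XT.lf (nat_lit 76) (nat_lit 2154350350) (nat_lit 0) (nat_lit 2598724593) (nat_lit 532) (nat_lit 1546459118) (nat_lit 193) (nat_lit 1) (nat_lit 192) (nat_lit 1) (nat_lit 199) (nat_lit 1) (nat_lit 317) (nat_lit 379) (nat_lit 324)) (XT.nd (nat_lit 78) (nat_lit 456) (nat_lit 0) (XT.lf (nat_lit 456) (nat_lit 1566599834) (nat_lit 0) (nat_lit 4171099445) (nat_lit 380) (nat_lit 490167803) (nat_lit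 193) (nat_lit 1) (nat_lit 187) (nat_lit 1) (nat_lit 192) (nat_lit 1) (nat_lit 318) (nat_lit 379) (nat_lit 323)) (XT.lf (nat_lit 76) (nat_lit 3055305291) (nat_lit 0) (nat_lit 552420019) (nat_lit 456) (nat_lit 2549424533) (nat_lit 182) (nat_lit 1) (nat_lit 181) (nat_lit 1) (nat_lit 187) (nat_lit 1) (nat_lit 319) (nat_lit 379) (nat_lit 322))))))))
noncomputable def ec102 : XT := (XT.nd (nat_lit 1404) (nat_lit 4408) (nat_lit 0) (XT.nd (nat_lit 702) (nat_lit 2736) (nat_lit 0) (XT.nd (nat_lit 312) (nat_lit 1444) (nat_lit 0) (XT.nd (nat_lit 156) (nat_lit 760) (nat_lit 0) (XT.nd (nat_lit 78) (nat_lit 380) (nat_lit 0) (XT.lf (nat_lit 76) (nat_lit 440892009) (nat_lit 0) (nat_lit 2628938284) (nat_lit 456) (nat_lit 3017681228) (nat_lit 177) (nat_lit 1) (nat_lit 176) (nat_lit 1) (nat_lit 182) (nat_lit 1) (nat_lit 320) (nat_lit 379) (nat_lit 321)) (XT.lf (nat_lit 456) (nat_lit 1321358355) (nat_lit 0) (nat_lit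 2552552068) (nat_lit 380) (nat_lit 2144940730) (nat_lit 177) (nat_lit 1) (nat_lit 171) (nat_lit 1) (nat_lit 176) (nat_lit 1) (nat_lit 321) (nat_lit 379) (nat_lit 320))) (XT.nd (nat_lit 78) (nat_lit 380) (nat_lit 0) (XT.lf (nat_lit 76) (nat_lit 1276275072) (nat_lit 0) (nat_lit 784961486) (nat_lit 380) (nat_lit 3890031432) (nat_lit 167) (nat_lit 1) (nat_lit 166) (nat_lit 1) (nat_lit 171) (nat_lit 1) (nat_lit 322) (nat_lit 379) (nat_lit 319)) (XT.lf (nat_lit 456) (nat_lit 3025351717) (nat_lit 0) (nat_lit 1586094415) (nat_lit 380) (nat_lit 1273118436) (nat_lit 167) (nat_lit 1) (nat_lit 161) (nat_lit 1) (nat_lit 166) (nat_lit 1) (nat_lit 323) (nat_lit 379) (nat_lit 318)))) (XT.nd (nat_lit 156) (nat_lit 684) (nat_lit 0) (XT.nd (nat_lit 78) (nat_lit 456) (nat_lit 0) (XT.lf (nat_lit 380) (nat_lit 900284063) (nat_lit 0) (nat_lit 1135150345) (nat_lit 304) (nat_lit 3783458366) (nat_lit 162) (nat_lit 1) (nat_lit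 157) (nat_lit 1) (nat_lit 161) (nat_lit 1) (nat_lit 324) (nat_lit 379) (nat_lit 317)) (XT.lf (nat_lit 456) (nat_lit 4566301794) (nat_lit 0) (nat_lit 704873302) (nat_lit 380) (nat_lit 483002865) (nat_lit 157) (nat_lit 1) (nat_lit 151) (nat_lit 1) (nat_lit 156) (nat_lit 1) (nat_lit 325) (nat_lit 379) (nat_lit 316))) (XT.nd (nat_lit 78) (nat_lit 380) (nat_lit 0) (XT.lf (nat_lit 380) (nat_lit 2436845884) (nat_lit 0) (nat_lit 286435783) (nat_lit 304) (nat_lit 2966960015) (nat_lit 152) (nat_lit 1) (nat_lit 147) (nat_lit 1) (nat_lit 151) (nat_lit 1) (nat_lit 326) (nat_lit 379) (nat_lit 315)) (XT.nd (nat_lit 78) (nat_lit 380) (nat_lit 0) (XT.lf (nat_lit 76) (nat_lit 231719111) (nat_lit 0) (nat_lit 5295555300) (nat_lit 380) (nat_lit 100157202) (nat_lit 148) (nat_lit 1) (nat_lit 147) (nat_lit 1) (nat_lit 152) (nat_lit 1) (nat_lit 327) (nat_lit 379) (nat_lit 314)) (XT.lf (nat_lit 76) (nat_lit 3344005206) (nat_lit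 0) (nat_lit 1741472708) (nat_lit 380) (nat_lit 479707977) (nat_lit 143) (nat_lit 1) (nat_lit 142) (nat_lit 1) (nat_lit 147) (nat_lit 1) (nat_lit 328) (nat_lit 379) (nat_lit 313)))))) (XT.nd (nat_lit 312) (nat_lit 1444) (nat_lit 0) (XT.nd (nat_lit 156) (nat_lit 608) (nat_lit 0) (XT.nd (nat_lit 78) (nat_lit 380) (nat_lit 0) (XT.lf (nat_lit 76) (nat_lit 882912224) (nat_lit 0) (nat_lit 3787018445) (nat_lit 380) (nat_lit 834044416) (nat_lit 139) (nat_lit 1) (nat_lit 138) (nat_lit 1) (nat_lit 143) (nat_lit 1) (nat_lit 329) (nat_lit 379) (nat_lit 312)) (XT.lf (nat_lit 76) (nat_lit 3901570776) (nat_lit 0) (nat_lit 369258255) (nat_lit 380) (nat_lit 1172772884) (nat_lit 134) (nat_lit 1) (nat_lit 133) (nat_lit 1) (nat_lit 138) (nat_lit 1) (nat_lit 330) (nat_lit 379) (nat_lit 311))) (XT.nd (nat_lit 78) (nat_lit 304) (nat_lit 0) (XT.lf (nat_lit 76) (nat_lit 1470074870) (nat_lit 0) (nat_lit 2413157998) (nat_lit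 380) (nat_lit 1500731643) (nat_lit 130) (nat_lit 1) (nat_lit 129) (nat_lit 1) (nat_lit 134) (nat_lit 1) (nat_lit 331) (nat_lit 379) (nat_lit 310)) (XT.lf (nat_lit 380) (nat_lit 887636371) (nat_lit 0) (nat_lit 3517557106) (nat_lit 304) (nat_lit 920068662) (nat_lit 130) (nat_lit 1) (nat_lit 125) (nat_lit 1) (nat_lit 129) (nat_lit 1) (nat_lit 332) (nat_lit 379) (nat_lit 309)))) (XT.nd (nat_lit 156) (nat_lit 836) (nat_lit 0) (XT.nd (nat_lit 78) (nat_lit 304) (nat_lit 0) (XT.lf (nat_lit 76) (nat_lit 1998381630) (nat_lit 0) (nat_lit 1163386793) (nat_lit 304) (nat_lit 2105485522) (nat_lit 122) (nat_lit 1) (nat_lit 121) (nat_lit 1) (nat_lit 125) (nat_lit 1) (nat_lit 333) (nat_lit 379) (nat_lit 308)) (XT.lf (nat_lit 380) (nat_lit 2030976812) (nat_lit 0) (nat_lit 2824694226) (nat_lit 304) (nat_lit 354437119) (nat_lit 122) (nat_lit 1) (nat_lit 117) (nat_lit 1) (nat_lit 121) (nat_lit 1) (nat_lit 334) (nat_lit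 379) (nat_lit 307))) (XT.nd (nat_lit 78) (nat_lit 532) (nat_lit 0) (XT.lf (nat_lit 76) (nat_lit 2472607655) (nat_lit 0) (nat_lit 27927719) (nat_lit 304) (nat_lit 2653170882) (nat_lit 114) (nat_lit 1) (nat_lit 113) (nat_lit 1) (nat_lit 117) (nat_lit 1) (nat_lit 335) (nat_lit 379) (nat_lit 306)) (XT.nd (nat_lit 78) (nat_lit 228) (nat_lit 0) (XT.lf (nat_lit 76) (nat_lit 155040458) (nat_lit 0) (nat_lit 2033813141) (nat_lit 380) (nat_lit 2909181287) (nat_lit 110) (nat_lit 1) (nat_lit 109) (nat_lit 1) (nat_lit 114) (nat_lit 1) (nat_lit 336) (nat_lit 379) (nat_lit 305)) (XT.lf (nat_lit 304) (nat_lit 1015567211) (nat_lit 0) (nat_lit 1888185647) (nat_lit 228) (nat_lit 2139307781) (nat_lit 110) (nat_lit 1) (nat_lit 106) (nat_lit 1) (nat_lit 109) (nat_lit 1) (nat_lit 337) (nat_lit 379) (nat_lit 304))))))) (XT.nd (nat_lit 702) (nat_lit 2204) (nat_lit 0) (XT.nd (nat_lit 312) (nat_lit 1064) (nat_lit 0) (XT.nd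 (nat_lit 156) (nat_lit 532) (nat_lit 0) (XT.nd (nat_lit 78) (nat_lit 228) (nat_lit 0) (XT.lf (nat_lit 76) (nat_lit 610780299) (nat_lit 0) (nat_lit 993819204) (nat_lit 380) (nat_lit 3384298318) (nat_lit 102) (nat_lit 1) (nat_lit 101) (nat_lit 1) (nat_lit 106) (nat_lit 1) (nat_lit 338) (nat_lit 379) (nat_lit 303)) (XT.lf (nat_lit 304) (nat_lit 1961198520) (nat_lit 0) (nat_lit 1327636259) (nat_lit 228) (nat_lit 1646501952) (nat_lit 102) (nat_lit 1) (nat_lit 98) (nat_lit 1) (nat_lit 101) (nat_lit 1) (nat_lit 339) (nat_lit 379) (nat_lit 302))) (XT.nd (nat_lit 78) (nat_lit 228) (nat_lit 0) (XT.lf (nat_lit 76) (nat_lit 1021394560) (nat_lit 0) (nat_lit 48738043) (nat_lit 304) (nat_lit 3812491886) (nat_lit 95) (nat_lit 1) (nat_lit 94) (nat_lit 1) (nat_lit 98) (nat_lit 1) (nat_lit 340) (nat_lit 379) (nat_lit 301)) (XT.lf (nat_lit 304) (nat_lit 2816395501) (nat_lit 0) (nat_lit 815075341) (nat_lit 228) (nat_lit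 1198952120) (nat_lit 95) (nat_lit 1) (nat_lit 91) (nat_lit 1) (nat_lit 94) (nat_lit 1) (nat_lit 341) (nat_lit 379) (nat_lit 300)))) (XT.nd (nat_lit 156) (nat_lit 532) (nat_lit 0) (XT.nd (nat_lit 78) (nat_lit 304) (nat_lit 0) (XT.lf (nat_lit 304) (nat_lit 819670047) (nat_lit 0) (nat_lit 576192696) (nat_lit 228) (nat_lit 3383134099) (nat_lit 92) (nat_lit 1) (nat_lit 88) (nat_lit 1) (nat_lit 91) (nat_lit 1) (nat_lit 342) (nat_lit 379) (nat_lit 299)) (XT.lf (nat_lit 304) (nat_lit 3588360391) (nat_lit 0) (nat_lit 346807128) (nat_lit 228) (nat_lit 793043228) (nat_lit 88) (nat_lit 1) (nat_lit 84) (nat_lit 1) (nat_lit 87) (nat_lit 1) (nat_lit 343) (nat_lit 379) (nat_lit 298))) (XT.nd (nat_lit 78) (nat_lit 304) (nat_lit 0) (XT.lf (nat_lit 304) (nat_lit 1607148867) (nat_lit 0) (nat_lit 124880144) (nat_lit 228) (nat_lit 2945991289) (nat_lit 85) (nat_lit 1) (nat_lit 81) (nat_lit 1) (nat_lit 84) (nat_lit 1) (nat_lit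 344) (nat_lit 379) (nat_lit 297)) (XT.nd (nat_lit 78) (nat_lit 228) (nat_lit 0) (XT.lf (nat_lit 76) (nat_lit 4203682288) (nat_lit 0) (nat_lit 345378169) (nat_lit 304) (nat_lit 79526777) (nat_lit 81) (nat_lit 1) (nat_lit 80) (nat_lit 1) (nat_lit 84) (nat_lit 1) (nat_lit 345) (nat_lit 379) (nat_lit 296)) (XT.lf (nat_lit 76) (nat_lit 2034590699) (nat_lit 0) (nat_lit 2261941410) (nat_lit 304) (nat_lit 283031841) (nat_lit 78) (nat_lit 1) (nat_lit 77) (nat_lit 1) (nat_lit 81) (nat_lit 1) (nat_lit 346) (nat_lit 379) (nat_lit 295)))))) (XT.nd (nat_lit 390) (nat_lit 1064) (nat_lit 0) (XT.nd (nat_lit 156) (nat_lit 684) (nat_lit 0) (XT.nd (nat_lit 78) (nat_lit 228) (nat_lit 0) (XT.lf (nat_lit 304) (nat_lit 379113171) (nat_lit 0) (nat_lit 4064829884) (nat_lit 228) (nat_lit 87433848) (nat_lit 78) (nat_lit 1) (nat_lit 74) (nat_lit 1) (nat_lit 77) (nat_lit 1) (nat_lit 347) (nat_lit 379) (nat_lit 294)) (XT.lf (nat_lit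 76) (nat_lit 2305170622) (nat_lit 0) (nat_lit 1525178487) (nat_lit 228) (nat_lit 653209992) (nat_lit 72) (nat_lit 1) (nat_lit 71) (nat_lit 1) (nat_lit 74) (nat_lit 1) (nat_lit 348) (nat_lit 379) (nat_lit 293))) (XT.nd (nat_lit 78) (nat_lit 456) (nat_lit 0) (XT.lf (nat_lit 76) (nat_lit 216416139) (nat_lit 0) (nat_lit 3397626874) (nat_lit 304) (nat_lit 822474266) (nat_lit 69) (nat_lit 1) (nat_lit 68) (nat_lit 1) (nat_lit 72) (nat_lit 1) (nat_lit 349) (nat_lit 379) (nat_lit 292)) (XT.nd (nat_lit 78) (nat_lit 228) (nat_lit 0) (XT.lf (nat_lit 76) (nat_lit 2545662150) (nat_lit 0) (nat_lit 854184283) (nat_lit 228) (nat_lit 990085925) (nat_lit 66) (nat_lit 1) (nat_lit 65) (nat_lit 1) (nat_lit 68) (nat_lit 1) (nat_lit 350) (nat_lit 379) (nat_lit 291)) (XT.lf (nat_lit 76) (nat_lit 489131090) (nat_lit 0) (nat_lit 2708179033) (nat_lit 304) (nat_lit 1146677453) (nat_lit 63) (nat_lit 1) (nat_lit 62) (nat_lit 1)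 (nat_lit 66) (nat_lit 1) (nat_lit 351) (nat_lit 379) (nat_lit 290))))) (XT.nd (nat_lit 156) (nat_lit 608) (nat_lit 0) (XT.nd (nat_lit 78) (nat_lit 228) (nat_lit 0) (XT.lf (nat_lit 76) (nat_lit 2758559552) (nat_lit 0) (nat_lit 243798164) (nat_lit 228) (nat_lit 1296241291) (nat_lit 60) (nat_lit 1) (nat_lit 59) (nat_lit 1) (nat_lit 62) (nat_lit 1) (nat_lit 352) (nat_lit 379) (nat_lit 289)) (XT.lf (nat_lit 76) (nat_lit 734294401) (nat_lit 0) (nat_lit 2078326984) (nat_lit 304) (nat_lit 1441094881) (nat_lit 57) (nat_lit 1) (nat_lit 56) (nat_lit 1) (nat_lit 60) (nat_lit 1) (nat_lit 353) (nat_lit 379) (nat_lit 288))) (XT.nd (nat_lit 78) (nat_lit 456) (nat_lit 0) (XT.lf (nat_lit 228) (nat_lit 314875664) (nat_lit 0) (nat_lit 2633331940) (nat_lit 152) (nat_lit 1261230398) (nat_lit 57) (nat_lit 1) (nat_lit 54) (nat_lit 1) (nat_lit 56) (nat_lit 1) (nat_lit 354) (nat_lit 379) (nat_lit 287)) (XT.nd (nat_lit 78)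 (nat_lit 152) (nat_lit 0) (XT.lf (nat_lit 76) (nat_lit 954154238) (nat_lit 0) (nat_lit 1503428487) (nat_lit 304) (nat_lit 1708042185) (nat_lit 51) (nat_lit 1) (nat_lit 50) (nat_lit 1) (nat_lit 54) (nat_lit 1) (nat_lit 355) (nat_lit 379) (nat_lit 286)) (XT.lf (nat_lit 228) (nat_lit 824665522) (nat_lit 0) (nat_lit 2291283250) (nat_lit 152) (nat_lit 1006440248) (nat_lit 51) (nat_lit 1) (nat_lit 48) (nat_lit 1) (nat_lit 50) (nat_lit 1) (nat_lit 356) (nat_lit 379) (nat_lit 285))))))))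
noncomputable def ec103 : XT := (XT.nd (nat_lit 46800) (nat_lit 0) (nat_lit 23332) (XT.nd (nat_lit 702) (nat_lit 836) (nat_lit 0) (XT.nd (nat_lit 312) (nat_lit 912) (nat_lit 0) (XT.nd (nat_lit 156) (nat_lit 380) (nat_lit 0) (XT.nd (nat_lit 78) (nat_lit 152) (nat_lit 0) (XT.lf (nat_lit 76) (nat_lit 1150784633) (nat_lit 0) (nat_lit 979195488) (nat_lit 304) (nat_lit 1949659084) (nat_lit 45) (nat_lit 1) (nat_lit 44) (nat_lit 1) (nat_lit 48) (nat_lit 1) (nat_lit 357) (nat_lit 379) (nat_lit 284)) (XT.lf (nat_lit 228) (nat_lit 1286450311) (nat_lit 0) (nat_lit 1975711504) (nat_lit 152) (nat_lit 775249845) (nat_lit 45) (nat_lit 1) (nat_lit 42) (nat_lit 1) (nat_lit 44) (nat_lit 1) (nat_lit 358) (nat_lit 379) (nat_lit 283))) (XT.nd (nat_lit 78) (nat_lit 152) (nat_lit 0) (XT.lf (nat_lit 76) (nat_lit 1326098775) (nat_lit 0) (nat_lit 501667212) (nat_lit 228) (nat_lit 2167922721) (nat_lit 40) (nat_lit 1) (nat_lit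 39) (nat_lit 1) (nat_lit 42) (nat_lit 1) (nat_lit 359) (nat_lit 379) (nat_lit 282)) (XT.lf (nat_lit 228) (nat_lit 1704033554) (nat_lit 0) (nat_lit 1684641099) (nat_lit 152) (nat_lit 565762537) (nat_lit 40) (nat_lit 1) (nat_lit 37) (nat_lit 1) (nat_lit 39) (nat_lit 1) (nat_lit 360) (nat_lit 379) (nat_lit 281)))) (XT.nd (nat_lit 156) (nat_lit 532) (nat_lit 0) (XT.nd (nat_lit 78) (nat_lit 152) (nat_lit 0) (XT.lf (nat_lit 76) (nat_lit 1481861296) (nat_lit 0) (nat_lit 67185301) (nat_lit 228) (nat_lit 2364659983) (nat_lit 35) (nat_lit 1) (nat_lit 34) (nat_lit 1) (nat_lit 37) (nat_lit 1) (nat_lit 361) (nat_lit 379) (nat_lit 280)) (XT.lf (nat_lit 228) (nat_lit 2080927415) (nat_lit 0) (nat_lit 1416244844) (nat_lit 152) (nat_lit 376228103) (nat_lit 35) (nat_lit 1) (nat_lit 32) (nat_lit 1) (nat_lit 34) (nat_lit 1) (nat_lit 362) (nat_lit 379) (nat_lit 279))) (XT.nd (nat_lit 78) (nat_lit 380) (nat_lit 0) (XT.lf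 (nat_lit 228) (nat_lit 331983179) (nat_lit 0) (nat_lit 1289871888) (nat_lit 152) (nat_lit 2211731171) (nat_lit 33) (nat_lit 1) (nat_lit 30) (nat_lit 1) (nat_lit 32) (nat_lit 1) (nat_lit 363) (nat_lit 379) (nat_lit 278)) (XT.nd (nat_lit 78) (nat_lit 152) (nat_lit 0) (XT.lf (nat_lit 228) (nat_lit 2420374859) (nat_lit 0) (nat_lit 1168832748) (nat_lit 152) (nat_lit 205031581) (nat_lit 30) (nat_lit 1) (nat_lit 27) (nat_lit 1) (nat_lit 29) (nat_lit 1) (nat_lit 364) (nat_lit 379) (nat_lit 277)) (XT.lf (nat_lit 228) (nat_lit 695012097) (nat_lit 0) (nat_lit 1050614799) (nat_lit 152) (nat_lit 2009679527) (nat_lit 28) (nat_lit 1) (nat_lit 25) (nat_lit 1) (nat_lit 27) (nat_lit 1) (nat_lit 365) (nat_lit 379) (nat_lit 276)))))) (XT.nd (nat_lit 312) (nat_lit 152) (nat_lit 0) (XT.nd (nat_lit 156) (nat_lit 304) (nat_lit 0) (XT.nd (nat_lit 78) (nat_lit 152) (nat_lit 0) (XT.lf (nat_lit 228) (nat_lit 2725370118) (nat_lit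 0) (nat_lit 940841652) (nat_lit 152) (nat_lit 50682955) (nat_lit 25) (nat_lit 1) (nat_lit 22) (nat_lit 1) (nat_lit 24) (nat_lit 1) (nat_lit 366) (nat_lit 379) (nat_lit 275)) (XT.lf (nat_lit 228) (nat_lit 1023929025) (nat_lit 0) (nat_lit 830208362) (nat_lit 152) (nat_lit 1824680808) (nat_lit 23) (nat_lit 1) (nat_lit 20) (nat_lit 1) (nat_lit 22) (nat_lit 1) (nat_lit 367) (nat_lit 379) (nat_lit 274))) (XT.nd (nat_lit 78) (nat_lit 152) (nat_lit 0) (XT.lf (nat_lit 76) (nat_lit 87035730) (nat_lit 0) (nat_lit 643205860) (nat_lit 152) (nat_lit 2911057835) (nat_lit 19) (nat_lit 1) (nat_lit 18) (nat_lit 1) (nat_lit 20) (nat_lit 1) (nat_lit 368) (nat_lit 379) (nat_lit 273)) (XT.lf (nat_lit 228) (nat_lit 1321431011) (nat_lit 0) (nat_lit 627248604) (nat_lit 152) (nat_lit 1655386931) (nat_lit 19) (nat_lit 1) (nat_lit 16) (nat_lit 1) (nat_lit 18) (nat_lit 1) (nat_lit 369) (nat_lit 379) (nat_lit 272)))) (XT.nd (nat_lit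 45552) (nat_lit 0) (nat_lit 35568) (XT.nd (nat_lit 45474) (nat_lit 0) (nat_lit 37392) (XT.lf (nat_lit 76) (nat_lit 210070741) (nat_lit 0) (nat_lit 325966788) (nat_lit 152) (nat_lit 3031369036) (nat_lit 15) (nat_lit 1) (nat_lit 14) (nat_lit 1) (nat_lit 16) (nat_lit 1) (nat_lit 370) (nat_lit 379) (nat_lit 271)) (XT.lf (nat_lit 1900) (nat_lit 285686145) (nat_lit 0) (nat_lit 9601928141) (nat_lit 1824) (nat_lit 1257590142) (nat_lit 531) (nat_lit 1) (nat_lit 506) (nat_lit 1) (nat_lit 530) (nat_lit 1) (nat_lit 272) (nat_lit 380) (nat_lit 368))) (XT.nd (nat_lit 78) (nat_lit 1824) (nat_lit 0) (XT.lf (nat_lit 1900) (nat_lit 507006806) (nat_lit 76) (nat_lit 7467510019) (nat_lit 0) (nat_lit 3016910990) (nat_lit 531) (nat_lit 1) (nat_lit 507) (nat_lit 1) (nat_lit 506) (nat_lit 1) (nat_lit 273) (nat_lit 380) (nat_lit 367)) (XT.nd (nat_lit 78) (nat_lit 0) (nat_lit 76) (XT.lf (nat_lit 1976) (nat_lit 4582215394)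 (nat_lit 0) (nat_lit 564381297) (nat_lit 1900) (nat_lit 5694031699) (nat_lit 508) (nat_lit 1) (nat_lit 482) (nat_lit 1) (nat_lit 507) (nat_lit 1) (nat_lit 274) (nat_lit 380) (nat_lit 366)) (XT.lf (nat_lit 1976) (nat_lit 1256839667) (nat_lit 0) (nat_lit 1667090394) (nat_lit 1900) (nat_lit 7768847555) (nat_lit 509) (nat_lit 1) (nat_lit 483) (nat_lit 1) (nat_lit 508) (nat_lit 1) (nat_lit 275) (nat_lit 380) (nat_lit 365))))))) (XT.nd (nat_lit 702) (nat_lit 6764) (nat_lit 0) (XT.nd (nat_lit 312) (nat_lit 3572) (nat_lit 0) (XT.nd (nat_lit 156) (nat_lit 1976) (nat_lit 0) (XT.nd (nat_lit 78) (nat_lit 0) (nat_lit 76) (XT.lf (nat_lit 1976) (nat_lit 7728761050) (nat_lit 76) (nat_lit 786467674) (nat_lit 0) (nat_lit 2032381111) (nat_lit 509) (nat_lit 1) (nat_lit 484) (nat_lit 1) (nat_lit 483) (nat_lit 1) (nat_lit 276) (nat_lit 380) (nat_lit 364)) (XT.lf (nat_lit 76) (nat_lit 5137873137) (nat_lit 0) (nat_lit 4020484786)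 (nat_lit 1900) (nat_lit 1246643839) (nat_lit 485) (nat_lit 1) (nat_lit 484) (nat_lit 1) (nat_lit 509) (nat_lit 1) (nat_lit 277) (nat_lit 380) (nat_lit 363))) (XT.nd (nat_lit 78) (nat_lit 912) (nat_lit 0) (XT.lf (nat_lit 76) (nat_lit 1829818897) (nat_lit 0) (nat_lit 5258070193) (nat_lit 1216) (nat_lit 3177239263) (nat_lit 470) (nat_lit 1) (nat_lit 469) (nat_lit 1) (nat_lit 485) (nat_lit 1) (nat_lit 278) (nat_lit 380) (nat_lit 362)) (XT.lf (nat_lit 988) (nat_lit 3593901773) (nat_lit 0) (nat_lit 5100219581) (nat_lit 912) (nat_lit 1433720948) (nat_lit 470) (nat_lit 1) (nat_lit 457) (nat_lit 1) (nat_lit 469) (nat_lit 1) (nat_lit 279) (nat_lit 380) (nat_lit 361)))) (XT.nd (nat_lit 156) (nat_lit 1824) (nat_lit 0) (XT.nd (nat_lit 78) (nat_lit 836) (nat_lit 0) (XT.lf (nat_lit 988) (nat_lit 2144417577) (nat_lit 0) (nat_lit 3190313306) (nat_lit 912) (nat_lit 4658304627) (nat_lit 458) (nat_lit 1) (nat_lit 445)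 (nat_lit 1) (nat_lit 457) (nat_lit 1) (nat_lit 280) (nat_lit 380) (nat_lit 360)) (XT.lf (nat_lit 912) (nat_lit 672547317) (nat_lit 0) (nat_lit 1367843749) (nat_lit 836) (nat_lit 7820497316) (nat_lit 446) (nat_lit 1) (nat_lit 434) (nat_lit 1) (nat_lit 445) (nat_lit 1) (nat_lit 281) (nat_lit 380) (nat_lit 359))) (XT.nd (nat_lit 78) (nat_lit 1748) (nat_lit 0) (XT.lf (nat_lit 76) (nat_lit 8533314433) (nat_lit 0) (nat_lit 819634777) (nat_lit 912) (nat_lit 378080705) (nat_lit 434) (nat_lit 1) (nat_lit 433) (nat_lit 1) (nat_lit 445) (nat_lit 1) (nat_lit 282) (nat_lit 380) (nat_lit 358)) (XT.nd (nat_lit 78) (nat_lit 836) (nat_lit 0) (XT.lf (nat_lit 76) (nat_lit 5217460736) (nat_lit 0) (nat_lit 2343434655) (nat_lit 988) (nat_lit 2042300691) (nat_lit 422) (nat_lit 1) (nat_lit 421) (nat_lit 1) (nat_lit 434) (nat_lit 1) (nat_lit 283) (nat_lit 380) (nat_lit 357)) (XT.lf (nat_lit 76) (nat_lit 1966777204) (nat_lit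 0) (nat_lit 3883843927) (nat_lit 912) (nat_lit 3627244597) (nat_lit 411) (nat_lit 1) (nat_lit 410) (nat_lit 1) (nat_lit 422) (nat_lit 1) (nat_lit 284) (nat_lit 380) (nat_lit 356)))))) (XT.nd (nat_lit 390) (nat_lit 3572) (nat_lit 0) (XT.nd (nat_lit 156) (nat_lit 1596) (nat_lit 0) (XT.nd (nat_lit 78) (nat_lit 760) (nat_lit 0) (XT.lf (nat_lit 912) (nat_lit 3907315093) (nat_lit 0) (nat_lit 4211581259) (nat_lit 836) (nat_lit 1235926992) (nat_lit 411) (nat_lit 1) (nat_lit 399) (nat_lit 1) (nat_lit 410) (nat_lit 1) (nat_lit 285) (nat_lit 380) (nat_lit 355)) (XT.lf (nat_lit 836) (nat_lit 2196322649) (nat_lit 0) (nat_lit 2636889077) (nat_lit 760) (nat_lit 4400713522) (nat_lit 400) (nat_lit 1) (nat_lit 389) (nat_lit 1) (nat_lit 399) (nat_lit 1) (nat_lit 286) (nat_lit 380) (nat_lit 354))) (XT.nd (nat_lit 78) (nat_lit 836) (nat_lit 0) (XT.lf (nat_lit 836) (nat_lit 475454743) (nat_lit 0) (nat_lit 1137499304)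 (nat_lit 760) (nat_lit 7502423619) (nat_lit 390) (nat_lit 1) (nat_lit 379) (nat_lit 1) (nat_lit 389) (nat_lit 1) (nat_lit 287) (nat_lit 380) (nat_lit 353)) (XT.nd (nat_lit 78) (nat_lit 760) (nat_lit 0) (XT.lf (nat_lit 76) (nat_lit 7445608264) (nat_lit 0) (nat_lit 1249770975) (nat_lit 836) (nat_lit 303345343) (nat_lit 379) (nat_lit 1) (nat_lit 378) (nat_lit 1) (nat_lit 389) (nat_lit 1) (nat_lit 288) (nat_lit 380) (nat_lit 352)) (XT.lf (nat_lit 76) (nat_lit 4217858496) (nat_lit 0) (nat_lit 2993446763) (nat_lit 836) (nat_lit 1672608892) (nat_lit 369) (nat_lit 1) (nat_lit 368) (nat_lit 1) (nat_lit 379) (nat_lit 1) (nat_lit 289) (nat_lit 380) (nat_lit 351))))) (XT.nd (nat_lit 156) (nat_lit 2128) (nat_lit 0) (XT.nd (nat_lit 78) (nat_lit 684) (nat_lit 0) (XT.lf (nat_lit 76) (nat_lit 1055129093) (nat_lit 0) (nat_lit 4742707442) (nat_lit 836) (nat_lit 2973483747) (nat_lit 359) (nat_lit 1) (nat_lit 358) (nat_lit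 1) (nat_lit 369) (nat_lit 1) (nat_lit 290) (nat_lit 380) (nat_lit 350)) (XT.lf (nat_lit 760) (nat_lit 2150617903) (nat_lit 0) (nat_lit 4439222371) (nat_lit 684) (nat_lit 2070785784) (nat_lit 359) (nat_lit 1) (nat_lit 349) (nat_lit 1) (nat_lit 358) (nat_lit 1) (nat_lit 291) (nat_lit 380) (nat_lit 349))) (XT.nd (nat_lit 78) (nat_lit 1444) (nat_lit 0) (XT.lf (nat_lit 760) (nat_lit 264438799) (nat_lit 0) (nat_lit 3140535109) (nat_lit 684) (nat_lit 5146949029) (nat_lit 350) (nat_lit 1) (nat_lit 340) (nat_lit 1) (nat_lit 349) (nat_lit 1) (nat_lit 292) (nat_lit 380) (nat_lit 348)) (XT.nd (nat_lit 78) (nat_lit 684) (nat_lit 0) (XT.lf (nat_lit 76) (nat_lit 295458072) (nat_lit 0) (nat_lit 1600717420) (nat_lit 760) (nat_lit 6548917714) (nat_lit 331) (nat_lit 1) (nat_lit 330) (nat_lit 1) (nat_lit 340) (nat_lit 1) (nat_lit 293) (nat_lit 380) (nat_lit 347)) (XT.lf (nat_lit 760) (nat_lit 4859976726) (nat_lit 0)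 (nat_lit 694805941) (nat_lit 684) (nat_lit 2785124047) (nat_lit 331) (nat_lit 1) (nat_lit 321) (nat_lit 1) (nat_lit 330) (nat_lit 1) (nat_lit 294) (nat_lit 380) (nat_lit 346))))))))
noncomputable def ec104 : XT := (XT.nd (nat_lit 1404) (nat_lit 6308) (nat_lit 0) (XT.nd (nat_lit 702) (nat_lit 4636) (nat_lit 0) (XT.nd (nat_lit 312) (nat_lit 2356) (nat_lit 0) (XT.nd (nat_lit 156) (nat_lit 1292) (nat_lit 0) (XT.nd (nat_lit 78) (nat_lit 608) (nat_lit 0) (XT.lf (nat_lit 76) (nat_lit 2433466341) (nat_lit 0) (nat_lit 5362247940) (nat_lit 760) (nat_lit 440912832) (nat_lit 322) (nat_lit 1) (nat_lit 321) (nat_lit 1) (nat_lit 331) (nat_lit 1) (nat_lit 295) (nat_lit 380) (nat_lit 345)) (XT.lf (nat_lit 684) (nat_lit 884847998) (nat_lit 0) (nat_lit 6622746720) (nat_lit 608) (nat_lit 627549827) (nat_lit 322) (nat_lit 1) (nat_lit 313) (nat_lit 1) (nat_lit 321) (nat_lit 1) (nat_lit 296) (nat_lit 380) (nat_lit 344)))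 (XT.nd (nat_lit 78) (nat_lit 608) (nat_lit 0) (XT.lf (nat_lit 76) (nat_lit 4385384610) (nat_lit 0) (nat_lit 1100502747) (nat_lit 684) (nat_lit 2549244597) (nat_lit 305) (nat_lit 1) (nat_lit 304) (nat_lit 1) (nat_lit 313) (nat_lit 1) (nat_lit 297) (nat_lit 380) (nat_lit 343)) (XT.lf (nat_lit 76) (nat_lit 1333461190) (nat_lit 0) (nat_lit 3067847848) (nat_lit 684) (nat_lit 3535590018) (nat_lit 297) (nat_lit 1) (nat_lit 296) (nat_lit 1) (nat_lit 305) (nat_lit 1) (nat_lit 298) (nat_lit 380) (nat_lit 342)))) (XT.nd (nat_lit 156) (nat_lit 1216) (nat_lit 0) (XT.nd (nat_lit 78) (nat_lit 532) (nat_lit 0) (XT.lf (nat_lit 684) (nat_lit 2801185161) (nat_lit 0) (nat_lit 3362089270) (nat_lit 608) (nat_lit 1677028361) (nat_lit 297) (nat_lit 1) (nat_lit 288) (nat_lit 1) (nat_lit 296) (nat_lit 1) (nat_lit 299) (nat_lit 380) (nat_lit 341)) (XT.lf (nat_lit 608) (nat_lit 734102334) (nat_lit 0) (nat_lit 2369171563) (nat_lit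 532) (nat_lit 4642080508) (nat_lit 289) (nat_lit 1) (nat_lit 281) (nat_lit 1) (nat_lit 288) (nat_lit 1) (nat_lit 300) (nat_lit 380) (nat_lit 340))) (XT.nd (nat_lit 78) (nat_lit 532) (nat_lit 0) (XT.lf (nat_lit 76) (nat_lit 115707160) (nat_lit 0) (nat_lit 1305439321) (nat_lit 684) (nat_lit 6230872594) (nat_lit 273) (nat_lit 1) (nat_lit 272) (nat_lit 1) (nat_lit 281) (nat_lit 1) (nat_lit 301) (nat_lit 380) (nat_lit 339)) (XT.nd (nat_lit 78) (nat_lit 0) (nat_lit 0) (XT.lf (nat_lit 608) (nat_lit 4216653364) (nat_lit 0) (nat_lit 501607737) (nat_lit 532) (nat_lit 2841706895) (nat_lit 273) (nat_lit 1) (nat_lit 265) (nat_lit 1) (nat_lit 272) (nat_lit 1) (nat_lit 302) (nat_lit 380) (nat_lit 338)) (XT.lf (nat_lit 76) (nat_lit 1733716473) (nat_lit 0) (nat_lit 5373039006) (nat_lit 608) (nat_lit 362818445) (nat_lit 266) (nat_lit 1) (nat_lit 265) (nat_lit 1) (nat_lit 273) (nat_lit 1) (nat_lit 303) (nat_lit 380)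 (nat_lit 337)))))) (XT.nd (nat_lit 312) (nat_lit 2508) (nat_lit 0) (XT.nd (nat_lit 156) (nat_lit 988) (nat_lit 0) (XT.nd (nat_lit 78) (nat_lit 532) (nat_lit 0) (XT.lf (nat_lit 76) (nat_lit 6180090368) (nat_lit 0) (nat_lit 20893008) (nat_lit 608) (nat_lit 1179663071) (nat_lit 258) (nat_lit 1) (nat_lit 257) (nat_lit 1) (nat_lit 265) (nat_lit 1) (nat_lit 304) (nat_lit 380) (nat_lit 336)) (XT.lf (nat_lit 76) (nat_lit 3211203121) (nat_lit 0) (nat_lit 2108088111) (nat_lit 608) (nat_lit 1973590836) (nat_lit 251) (nat_lit 1) (nat_lit 250) (nat_lit 1) (nat_lit 258) (nat_lit 1) (nat_lit 305) (nat_lit 380) (nat_lit 335))) (XT.nd (nat_lit 78) (nat_lit 456) (nat_lit 0) (XT.lf (nat_lit 76) (nat_lit 305058579) (nat_lit 0) (nat_lit 4180789046) (nat_lit 608) (nat_lit 2720900352) (nat_lit 244) (nat_lit 1) (nat_lit 243) (nat_lit 1) (nat_lit 251) (nat_lit 1) (nat_lit 306) (nat_lit 380) (nat_lit 334)) (XT.lf (nat_lit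 532) (nat_lit 866430105) (nat_lit 0) (nat_lit 3682221052) (nat_lit 456) (nat_lit 2573224968) (nat_lit 244) (nat_lit 1) (nat_lit 237) (nat_lit 1) (nat_lit 243) (nat_lit 1) (nat_lit 307) (nat_lit 380) (nat_lit 333)))) (XT.nd (nat_lit 156) (nat_lit 1444) (nat_lit 0) (XT.nd (nat_lit 78) (nat_lit 456) (nat_lit 0) (XT.lf (nat_lit 76) (nat_lit 1652568600) (nat_lit 0) (nat_lit 1261423640) (nat_lit 608) (nat_lit 4124377121) (nat_lit 230) (nat_lit 1) (nat_lit 229) (nat_lit 1) (nat_lit 237) (nat_lit 1) (nat_lit 308) (nat_lit 380) (nat_lit 332)) (XT.lf (nat_lit 532) (nat_lit 3587397978) (nat_lit 0) (nat_lit 2176828182) (nat_lit 456) (nat_lit 1191910050) (nat_lit 230) (nat_lit 1) (nat_lit 223) (nat_lit 1) (nat_lit 229) (nat_lit 1) (nat_lit 309) (nat_lit 380) (nat_lit 331))) (XT.nd (nat_lit 78) (nat_lit 988) (nat_lit 0) (XT.lf (nat_lit 532) (nat_lit 1405752292) (nat_lit 0) (nat_lit 1472384650) (nat_lit 456) (nat_lit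 3997065744) (nat_lit 224) (nat_lit 1) (nat_lit 217) (nat_lit 1) (nat_lit 223) (nat_lit 1) (nat_lit 310) (nat_lit 380) (nat_lit 330)) (XT.nd (nat_lit 78) (nat_lit 456) (nat_lit 0) (XT.lf (nat_lit 76) (nat_lit 58605220) (nat_lit 0) (nat_lit 746867936) (nat_lit 532) (nat_lit 5990183587) (nat_lit 211) (nat_lit 1) (nat_lit 210) (nat_lit 1) (nat_lit 217) (nat_lit 1) (nat_lit 311) (nat_lit 380) (nat_lit 329)) (XT.lf (nat_lit 532) (nat_lit 3837216364) (nat_lit 0) (nat_lit 152628421) (nat_lit 456) (nat_lit 2727187168) (nat_lit 211) (nat_lit 1) (nat_lit 204) (nat_lit 1) (nat_lit 210) (nat_lit 1) (nat_lit 312) (nat_lit 380) (nat_lit 328))))))) (XT.nd (nat_lit 702) (nat_lit 3040) (nat_lit 0) (XT.nd (nat_lit 312) (nat_lit 1976) (nat_lit 0) (XT.nd (nat_lit 156) (nat_lit 836) (nat_lit 0) (XT.nd (nat_lit 78) (nat_lit 456) (nat_lit 0) (XT.lf (nat_lit 76) (nat_lit 1189108880) (nat_lit 0) (nat_lit 4996722902) (nat_lit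 532) (nat_lit 453943734) (nat_lit 205) (nat_lit 1) (nat_lit 204) (nat_lit 1) (nat_lit 211) (nat_lit 1) (nat_lit 313) (nat_lit 380) (nat_lit 327)) (XT.lf (nat_lit 76) (nat_lit 4996057256) (nat_lit 0) (nat_lit 534286401) (nat_lit 456) (nat_lit 1033292891) (nat_lit 199) (nat_lit 1) (nat_lit 198) (nat_lit 1) (nat_lit 204) (nat_lit 1) (nat_lit 314) (nat_lit 380) (nat_lit 326))) (XT.nd (nat_lit 78) (nat_lit 380) (nat_lit 0) (XT.lf (nat_lit 76) (nat_lit 2218980861) (nat_lit 0) (nat_lit 2676686330) (nat_lit 532) (nat_lit 1592852891) (nat_lit 193) (nat_lit 1) (nat_lit 192) (nat_lit 1) (nat_lit 199) (nat_lit 1) (nat_lit 315) (nat_lit 380) (nat_lit 325)) (XT.lf (nat_lit 456) (nat_lit 1613597829) (nat_lit 0) (nat_lit 4296232428) (nat_lit 380) (nat_lit 504872837) (nat_lit 193) (nat_lit 1) (nat_lit 187) (nat_lit 1) (nat_lit 192) (nat_lit 1) (nat_lit 316) (nat_lit 380) (nat_lit 324)))) (XT.nd (nat_lit 156) (nat_lit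 1140) (nat_lit 0) (XT.nd (nat_lit 78) (nat_lit 380) (nat_lit 0) (XT.lf (nat_lit 76) (nat_lit 3146964450) (nat_lit 0) (nat_lit 568992620) (nat_lit 456) (nat_lit 2625907269) (nat_lit 182) (nat_lit 1) (nat_lit 181) (nat_lit 1) (nat_lit 187) (nat_lit 1) (nat_lit 317) (nat_lit 380) (nat_lit 323)) (XT.lf (nat_lit 76) (nat_lit 454118770) (nat_lit 0) (nat_lit 2707806432) (nat_lit 456) (nat_lit 3108211665) (nat_lit 177) (nat_lit 1) (nat_lit 176) (nat_lit 1) (nat_lit 182) (nat_lit 1) (nat_lit 318) (nat_lit 380) (nat_lit 322))) (XT.nd (nat_lit 78) (nat_lit 760) (nat_lit 0) (XT.lf (nat_lit 456) (nat_lit 1360999105) (nat_lit 0) (nat_lit 2629128630) (nat_lit 380) (nat_lit 2209288952) (nat_lit 177) (nat_lit 1) (nat_lit 171) (nat_lit 1) (nat_lit 176) (nat_lit 1) (nat_lit 319) (nat_lit 380) (nat_lit 321)) (XT.nd (nat_lit 78) (nat_lit 380) (nat_lit 0) (XT.lf (nat_lit 76) (nat_lit 1314563324) (nat_lit 0) (nat_lit 808510331)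 (nat_lit 380) (nat_lit 4006732375) (nat_lit 167) (nat_lit 1) (nat_lit 166) (nat_lit 1) (nat_lit 171) (nat_lit 1) (nat_lit 320) (nat_lit 380) (nat_lit 320)) (XT.lf (nat_lit 456) (nat_lit 3116112269) (nat_lit 0) (nat_lit 1633677248) (nat_lit 380) (nat_lit 1311311989) (nat_lit 167) (nat_lit 1) (nat_lit 161) (nat_lit 1) (nat_lit 166) (nat_lit 1) (nat_lit 321) (nat_lit 380) (nat_lit 319)))))) (XT.nd (nat_lit 390) (nat_lit 1596) (nat_lit 0) (XT.nd (nat_lit 156) (nat_lit 684) (nat_lit 0) (XT.nd (nat_lit 78) (nat_lit 456) (nat_lit 0) (XT.lf (nat_lit 380) (nat_lit 927292585) (nat_lit 0) (nat_lit 1169204855) (nat_lit 304) (nat_lit 3896962117) (nat_lit 162) (nat_lit 1) (nat_lit 157) (nat_lit 1) (nat_lit 161) (nat_lit 1) (nat_lit 322) (nat_lit 380) (nat_lit 318)) (XT.lf (nat_lit 456) (nat_lit 4703290848) (nat_lit 0) (nat_lit 726019501) (nat_lit 380) (nat_lit 497492951) (nat_lit 157) (nat_lit 1) (nat_lit 151)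 (nat_lit 1) (nat_lit 156) (nat_lit 1) (nat_lit 323) (nat_lit 380) (nat_lit 317))) (XT.nd (nat_lit 78) (nat_lit 380) (nat_lit 0) (XT.lf (nat_lit 380) (nat_lit 2509951261) (nat_lit 0) (nat_lit 295028856) (nat_lit 304) (nat_lit 3055968816) (nat_lit 152) (nat_lit 1) (nat_lit 147) (nat_lit 1) (nat_lit 151) (nat_lit 1) (nat_lit 324) (nat_lit 380) (nat_lit 316)) (XT.nd (nat_lit 78) (nat_lit 380) (nat_lit 0) (XT.lf (nat_lit 76) (nat_lit 238670685) (nat_lit 0) (nat_lit 5454421959) (nat_lit 380) (nat_lit 103161918) (nat_lit 148) (nat_lit 1) (nat_lit 147) (nat_lit 1) (nat_lit 152) (nat_lit 1) (nat_lit 325) (nat_lit 380) (nat_lit 315)) (XT.lf (nat_lit 76) (nat_lit 3444325362) (nat_lit 0) (nat_lit 1793716890) (nat_lit 380) (nat_lit 494099217) (nat_lit 143) (nat_lit 1) (nat_lit 142) (nat_lit 1) (nat_lit 147) (nat_lit 1) (nat_lit 326) (nat_lit 380) (nat_lit 314))))) (XT.nd (nat_lit 156) (nat_lit 912) (nat_lit 0)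 (XT.nd (nat_lit 78) (nat_lit 380) (nat_lit 0) (XT.lf (nat_lit 76) (nat_lit 909399590) (nat_lit 0) (nat_lit 3900628998) (nat_lit 380) (nat_lit 859065749) (nat_lit 139) (nat_lit 1) (nat_lit 138) (nat_lit 1) (nat_lit 143) (nat_lit 1) (nat_lit 327) (nat_lit 380) (nat_lit 313)) (XT.lf (nat_lit 76) (nat_lit 4018617899) (nat_lit 0) (nat_lit 380336002) (nat_lit 380) (nat_lit 1207956070) (nat_lit 134) (nat_lit 1) (nat_lit 133) (nat_lit 1) (nat_lit 138) (nat_lit 1) (nat_lit 328) (nat_lit 380) (nat_lit 312))) (XT.nd (nat_lit 78) (nat_lit 608) (nat_lit 0) (XT.lf (nat_lit 76) (nat_lit 1514177117) (nat_lit 0) (nat_lit 2485552738) (nat_lit 380) (nat_lit 1545753592) (nat_lit 130) (nat_lit 1) (nat_lit 129) (nat_lit 1) (nat_lit 134) (nat_lit 1) (nat_lit 329) (nat_lit 380) (nat_lit 311)) (XT.nd (nat_lit 78) (nat_lit 304) (nat_lit 0) (XT.lf (nat_lit 380) (nat_lit 914265462) (nat_lit 0) (nat_lit 3623083819) (nat_lit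 304) (nat_lit 947670722) (nat_lit 130) (nat_lit 1) (nat_lit 125) (nat_lit 1) (nat_lit 129) (nat_lit 1) (nat_lit 330) (nat_lit 380) (nat_lit 310)) (XT.lf (nat_lit 76) (nat_lit 2058333079) (nat_lit 0) (nat_lit 1198288396) (nat_lit 304) (nat_lit 2168650087) (nat_lit 122) (nat_lit 1) (nat_lit 121) (nat_lit 1) (nat_lit 125) (nat_lit 1) (nat_lit 331) (nat_lit 380) (nat_lit 309))))))))
noncomputable def ec105 : XT := (XT.nd (nat_lit 1404) (nat_lit 3648) (nat_lit 0) (XT.nd (nat_lit 702) (nat_lit 1976) (nat_lit 0) (XT.nd (nat_lit 312) (nat_lit 1368) (nat_lit 0) (XT.nd (nat_lit 156) (nat_lit 532) (nat_lit 0) (XT.nd (nat_lit 78) (nat_lit 304) (nat_lit 0) (XT.lf (nat_lit 380) (nat_lit 2091906117) (nat_lit 0) (nat_lit 2909435052) (nat_lit 304) (nat_lit 365070232) (nat_lit 122) (nat_lit 1) (nat_lit 117) (nat_lit 1) (nat_lit 121) (nat_lit 1) (nat_lit 332) (nat_lit 380) (nat_lit 308)) (XT.lf (nat_lit 76) (nat_lit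 2546785884) (nat_lit 0) (nat_lit 28765550) (nat_lit 304) (nat_lit 2732766009) (nat_lit 114) (nat_lit 1) (nat_lit 113) (nat_lit 1) (nat_lit 117) (nat_lit 1) (nat_lit 333) (nat_lit 380) (nat_lit 307))) (XT.nd (nat_lit 78) (nat_lit 228) (nat_lit 0) (XT.lf (nat_lit 76) (nat_lit 159691671) (nat_lit 0) (nat_lit 2094827536) (nat_lit 380) (nat_lit 2996456726) (nat_lit 110) (nat_lit 1) (nat_lit 109) (nat_lit 1) (nat_lit 114) (nat_lit 1) (nat_lit 334) (nat_lit 380) (nat_lit 306)) (XT.lf (nat_lit 304) (nat_lit 1046034227) (nat_lit 0) (nat_lit 1944831216) (nat_lit 228) (nat_lit 2203487014) (nat_lit 110) (nat_lit 1) (nat_lit 106) (nat_lit 1) (nat_lit 109) (nat_lit 1) (nat_lit 335) (nat_lit 380) (nat_lit 305)))) (XT.nd (nat_lit 156) (nat_lit 760) (nat_lit 0) (XT.nd (nat_lit 78) (nat_lit 228) (nat_lit 0) (XT.lf (nat_lit 76) (nat_lit 629103708) (nat_lit 0) (nat_lit 1023633780) (nat_lit 380) (nat_lit 3485827267)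 (nat_lit 102) (nat_lit 1) (nat_lit 101) (nat_lit 1) (nat_lit 106) (nat_lit 1) (nat_lit 336) (nat_lit 380) (nat_lit 304)) (XT.lf (nat_lit 304) (nat_lit 2020034476) (nat_lit 0) (nat_lit 1367465346) (nat_lit 228) (nat_lit 1695897011) (nat_lit 102) (nat_lit 1) (nat_lit 98) (nat_lit 1) (nat_lit 101) (nat_lit 1) (nat_lit 337) (nat_lit 380) (nat_lit 303))) (XT.nd (nat_lit 78) (nat_lit 456) (nat_lit 0) (XT.lf (nat_lit 76) (nat_lit 1052036396) (nat_lit 0) (nat_lit 50200184) (nat_lit 304) (nat_lit 3926866642) (nat_lit 95) (nat_lit 1) (nat_lit 94) (nat_lit 1) (nat_lit 98) (nat_lit 1) (nat_lit 338) (nat_lit 380) (nat_lit 302)) (XT.nd (nat_lit 78) (nat_lit 228) (nat_lit 0) (XT.lf (nat_lit 304) (nat_lit 2900887366) (nat_lit 0) (nat_lit 839527601) (nat_lit 228) (nat_lit 1234920683) (nat_lit 95) (nat_lit 1) (nat_lit 91) (nat_lit 1) (nat_lit 94) (nat_lit 1) (nat_lit 339) (nat_lit 380) (nat_lit 301)) (XT.lf (nat_lit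 304) (nat_lit 844260148) (nat_lit 0) (nat_lit 593478477) (nat_lit 228) (nat_lit 3484628122) (nat_lit 92) (nat_lit 1) (nat_lit 88) (nat_lit 1) (nat_lit 91) (nat_lit 1) (nat_lit 340) (nat_lit 380) (nat_lit 300)))))) (XT.nd (nat_lit 312) (nat_lit 1140) (nat_lit 0) (XT.nd (nat_lit 156) (nat_lit 304) (nat_lit 0) (XT.nd (nat_lit 78) (nat_lit 228) (nat_lit 0) (XT.lf (nat_lit 304) (nat_lit 3696011203) (nat_lit 0) (nat_lit 357211342) (nat_lit 228) (nat_lit 816834524) (nat_lit 88) (nat_lit 1) (nat_lit 84) (nat_lit 1) (nat_lit 87) (nat_lit 1) (nat_lit 341) (nat_lit 380) (nat_lit 299)) (XT.lf (nat_lit 304) (nat_lit 1655363333) (nat_lit 0) (nat_lit 128626548) (nat_lit 228) (nat_lit 3034371028) (nat_lit 85) (nat_lit 1) (nat_lit 81) (nat_lit 1) (nat_lit 84) (nat_lit 1) (nat_lit 342) (nat_lit 380) (nat_lit 298))) (XT.nd (nat_lit 78) (nat_lit 228) (nat_lit 0) (XT.lf (nat_lit 76) (nat_lit 4329792757) (nat_lit 0) (nat_lit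 355739514) (nat_lit 304) (nat_lit 81912580) (nat_lit 81) (nat_lit 1) (nat_lit 80) (nat_lit 1) (nat_lit 84) (nat_lit 1) (nat_lit 343) (nat_lit 380) (nat_lit 297)) (XT.lf (nat_lit 76) (nat_lit 2095628420) (nat_lit 0) (nat_lit 2329799652) (nat_lit 304) (nat_lit 291522797) (nat_lit 78) (nat_lit 1) (nat_lit 77) (nat_lit 1) (nat_lit 81) (nat_lit 1) (nat_lit 344) (nat_lit 380) (nat_lit 296)))) (XT.nd (nat_lit 156) (nat_lit 684) (nat_lit 0) (XT.nd (nat_lit 78) (nat_lit 228) (nat_lit 0) (XT.lf (nat_lit 304) (nat_lit 390486566) (nat_lit 0) (nat_lit 4186774781) (nat_lit 228) (nat_lit 90056863) (nat_lit 78) (nat_lit 1) (nat_lit 74) (nat_lit 1) (nat_lit 77) (nat_lit 1) (nat_lit 345) (nat_lit 380) (nat_lit 295)) (XT.lf (nat_lit 76) (nat_lit 2374325741) (nat_lit 0) (nat_lit 1570933841) (nat_lit 228) (nat_lit 672806292) (nat_lit 72) (nat_lit 1) (nat_lit 71) (nat_lit 1) (nat_lit 74) (nat_lit 1) (nat_lit 346) (nat_lit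 380) (nat_lit 294))) (XT.nd (nat_lit 78) (nat_lit 456) (nat_lit 0) (XT.lf (nat_lit 76) (nat_lit 222908623) (nat_lit 0) (nat_lit 3499555680) (nat_lit 304) (nat_lit 847148494) (nat_lit 69) (nat_lit 1) (nat_lit 68) (nat_lit 1) (nat_lit 72) (nat_lit 1) (nat_lit 347) (nat_lit 380) (nat_lit 293)) (XT.nd (nat_lit 78) (nat_lit 228) (nat_lit 0) (XT.lf (nat_lit 76) (nat_lit 2622032015) (nat_lit 0) (nat_lit 879809812) (nat_lit 228) (nat_lit 1019788503) (nat_lit 66) (nat_lit 1) (nat_lit 65) (nat_lit 1) (nat_lit 68) (nat_lit 1) (nat_lit 348) (nat_lit 380) (nat_lit 292)) (XT.lf (nat_lit 76) (nat_lit 503805023) (nat_lit 0) (nat_lit 2789424404) (nat_lit 304) (nat_lit 1181077777) (nat_lit 63) (nat_lit 1) (nat_lit 62) (nat_lit 1) (nat_lit 66) (nat_lit 1) (nat_lit 349) (nat_lit 380) (nat_lit 291))))))) (XT.nd (nat_lit 702) (nat_lit 1748) (nat_lit 0) (XT.nd (nat_lit 312) (nat_lit 988) (nat_lit 0) (XT.nd (nat_lit 156)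 (nat_lit 456) (nat_lit 0) (XT.nd (nat_lit 78) (nat_lit 228) (nat_lit 0) (XT.lf (nat_lit 76) (nat_lit 2841316339) (nat_lit 0) (nat_lit 251112109) (nat_lit 228) (nat_lit 1335128529) (nat_lit 60) (nat_lit 1) (nat_lit 59) (nat_lit 1) (nat_lit 62) (nat_lit 1) (nat_lit 350) (nat_lit 380) (nat_lit 290)) (XT.lf (nat_lit 76) (nat_lit 756323233) (nat_lit 0) (nat_lit 2140676794) (nat_lit 304) (nat_lit 1484327728) (nat_lit 57) (nat_lit 1) (nat_lit 56) (nat_lit 1) (nat_lit 60) (nat_lit 1) (nat_lit 351) (nat_lit 380) (nat_lit 289))) (XT.nd (nat_lit 78) (nat_lit 304) (nat_lit 0) (XT.lf (nat_lit 228) (nat_lit 324321934) (nat_lit 0) (nat_lit 2712331898) (nat_lit 152) (nat_lit 1299067310) (nat_lit 57) (nat_lit 1) (nat_lit 54) (nat_lit 1) (nat_lit 56) (nat_lit 1) (nat_lit 352) (nat_lit 380) (nat_lit 288)) (XT.lf (nat_lit 76) (nat_lit 982778865) (nat_lit 0) (nat_lit 1548531342) (nat_lit 304) (nat_lit 1759283450) (nat_lit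 51) (nat_lit 1) (nat_lit 50) (nat_lit 1) (nat_lit 54) (nat_lit 1) (nat_lit 353) (nat_lit 380) (nat_lit 287)))) (XT.nd (nat_lit 156) (nat_lit 532) (nat_lit 0) (XT.nd (nat_lit 78) (nat_lit 304) (nat_lit 0) (XT.lf (nat_lit 228) (nat_lit 849405487) (nat_lit 0) (nat_lit 2360021748) (nat_lit 152) (nat_lit 1036633455) (nat_lit 51) (nat_lit 1) (nat_lit 48) (nat_lit 1) (nat_lit 50) (nat_lit 1) (nat_lit 354) (nat_lit 380) (nat_lit 286)) (XT.lf (nat_lit 76) (nat_lit 1185308172) (nat_lit 0) (nat_lit 1008571352) (nat_lit 304) (nat_lit 2008148856) (nat_lit 45) (nat_lit 1) (nat_lit 44) (nat_lit 1) (nat_lit 48) (nat_lit 1) (nat_lit 355) (nat_lit 380) (nat_lit 285))) (XT.nd (nat_lit 78) (nat_lit 380) (nat_lit 0) (XT.lf (nat_lit 228) (nat_lit 1325043820) (nat_lit 0) (nat_lit 2034982849) (nat_lit 152) (nat_lit 798507340) (nat_lit 45) (nat_lit 1) (nat_lit 42) (nat_lit 1) (nat_lit 44) (nat_lit 1) (nat_lit 356) (nat_lit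 380) (nat_lit 284)) (XT.nd (nat_lit 78) (nat_lit 152) (nat_lit 0) (XT.lf (nat_lit 76) (nat_lit 1365881739) (nat_lit 0) (nat_lit 516717228) (nat_lit 228) (nat_lit 2232960402) (nat_lit 40) (nat_lit 1) (nat_lit 39) (nat_lit 1) (nat_lit 42) (nat_lit 1) (nat_lit 357) (nat_lit 380) (nat_lit 283)) (XT.lf (nat_lit 228) (nat_lit 1755154561) (nat_lit 0) (nat_lit 1735180332) (nat_lit 152) (nat_lit 582735413) (nat_lit 40) (nat_lit 1) (nat_lit 37) (nat_lit 1) (nat_lit 39) (nat_lit 1) (nat_lit 358) (nat_lit 380) (nat_lit 282)))))) (XT.nd (nat_lit 390) (nat_lit 836) (nat_lit 0) (XT.nd (nat_lit 156) (nat_lit 532) (nat_lit 0) (XT.nd (nat_lit 78) (nat_lit 152) (nat_lit 0) (XT.lf (nat_lit 76) (nat_lit 1526317135) (nat_lit 0) (nat_lit 69200860) (nat_lit 228) (nat_lit 2435599783) (nat_lit 35) (nat_lit 1) (nat_lit 34) (nat_lit 1) (nat_lit 37) (nat_lit 1) (nat_lit 359) (nat_lit 380) (nat_lit 281)) (XT.lf (nat_lit 228)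 (nat_lit 2143355238) (nat_lit 0) (nat_lit 1458732189) (nat_lit 152) (nat_lit 387514946) (nat_lit 35) (nat_lit 1) (nat_lit 32) (nat_lit 1) (nat_lit 34) (nat_lit 1) (nat_lit 360) (nat_lit 380) (nat_lit 280))) (XT.nd (nat_lit 78) (nat_lit 380) (nat_lit 0) (XT.lf (nat_lit 228) (nat_lit 341942675) (nat_lit 0) (nat_lit 1328568045) (nat_lit 152) (nat_lit 2278083106) (nat_lit 33) (nat_lit 1) (nat_lit 30) (nat_lit 1) (nat_lit 32) (nat_lit 1) (nat_lit 361) (nat_lit 380) (nat_lit 279)) (XT.nd (nat_lit 78) (nat_lit 152) (nat_lit 0) (XT.lf (nat_lit 228) (nat_lit 2492986104) (nat_lit 0) (nat_lit 1203897731) (nat_lit 152) (nat_lit 211182529) (nat_lit 30) (nat_lit 1) (nat_lit 27) (nat_lit 1) (nat_lit 29) (nat_lit 1) (nat_lit 362) (nat_lit 380) (nat_lit 278)) (XT.lf (nat_lit 228) (nat_lit 715862460) (nat_lit 0) (nat_lit 1082133243) (nat_lit 152) (nat_lit 2069969913) (nat_lit 28) (nat_lit 1) (nat_lit 25) (nat_lit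 1) (nat_lit 27) (nat_lit 1) (nat_lit 363) (nat_lit 380) (nat_lit 277))))) (XT.nd (nat_lit 156) (nat_lit 456) (nat_lit 0) (XT.nd (nat_lit 78) (nat_lit 152) (nat_lit 0) (XT.lf (nat_lit 228) (nat_lit 2807131222) (nat_lit 0) (nat_lit 969066902) (nat_lit 152) (nat_lit 52203443) (nat_lit 25) (nat_lit 1) (nat_lit 22) (nat_lit 1) (nat_lit 24) (nat_lit 1) (nat_lit 364) (nat_lit 380) (nat_lit 276)) (XT.lf (nat_lit 228) (nat_lit 1054646896) (nat_lit 0) (nat_lit 855114613) (nat_lit 152) (nat_lit 1879421232) (nat_lit 23) (nat_lit 1) (nat_lit 20) (nat_lit 1) (nat_lit 22) (nat_lit 1) (nat_lit 365) (nat_lit 380) (nat_lit 275))) (XT.nd (nat_lit 78) (nat_lit 304) (nat_lit 0) (XT.lf (nat_lit 76) (nat_lit 89646802) (nat_lit 0) (nat_lit 662502036) (nat_lit 152) (nat_lit 2998389570) (nat_lit 19) (nat_lit 1) (nat_lit 18) (nat_lit 1) (nat_lit 20) (nat_lit 1) (nat_lit 366) (nat_lit 380) (nat_lit 274)) (XT.nd (nat_lit 78)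 (nat_lit 152) (nat_lit 0) (XT.lf (nat_lit 228) (nat_lit 1361073942) (nat_lit 0) (nat_lit 646066062) (nat_lit 152) (nat_lit 1705048539) (nat_lit 19) (nat_lit 1) (nat_lit 16) (nat_lit 1) (nat_lit 18) (nat_lit 1) (nat_lit 367) (nat_lit 380) (nat_lit 273)) (XT.lf (nat_lit 76) (nat_lit 216372863) (nat_lit 0) (nat_lit 335745792) (nat_lit 152) (nat_lit 3122310107) (nat_lit 15) (nat_lit 1) (nat_lit 14) (nat_lit 1) (nat_lit 16) (nat_lit 1) (nat_lit 368) (nat_lit 380) (nat_lit 272))))))))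
noncomputable def ec106 : XT := (XT.nd (nat_lit 1404) (nat_lit 9880) (nat_lit 0) (XT.nd (nat_lit 702) (nat_lit 6156) (nat_lit 0) (XT.nd (nat_lit 312) (nat_lit 3648) (nat_lit 0) (XT.nd (nat_lit 156) (nat_lit 1064) (nat_lit 0) (XT.nd (nat_lit 78) (nat_lit 0) (nat_lit 0) (XT.lf (nat_lit 1976) (nat_lit 1294544857) (nat_lit 0) (nat_lit 1717103106) (nat_lit 1900) (nat_lit 8001912981) (nat_lit 509) (nat_lit 1) (nat_lit 483) (nat_lit 1) (nat_lit 508) (nat_lit 1) (nat_lit 273) (nat_lit 381) (nat_lit 366)) (XT.lf (nat_lit 1976) (nat_lit 7960623882) (nat_lit 76) (nat_lit 810061704) (nat_lit 0) (nat_lit 2093352544) (nat_lit 509) (nat_lit 1) (nat_lit 484) (nat_lit 1) (nat_lit 483) (nat_lit 1) (nat_lit 274) (nat_lit 381) (nat_lit 365))) (XT.nd (nat_lit 78) (nat_lit 1140) (nat_lit 0) (XT.lf (nat_lit 76) (nat_lit 5292009331) (nat_lit 0) (nat_lit 4141099329) (nat_lit 1900) (nat_lit 1284043155) (nat_lit 485) (nat_lit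 1) (nat_lit 484) (nat_lit 1) (nat_lit 509) (nat_lit 1) (nat_lit 275) (nat_lit 381) (nat_lit 364)) (XT.lf (nat_lit 76) (nat_lit 1884713463) (nat_lit 0) (nat_lit 5415812298) (nat_lit 1216) (nat_lit 3272556441) (nat_lit 470) (nat_lit 1) (nat_lit 469) (nat_lit 1) (nat_lit 485) (nat_lit 1) (nat_lit 276) (nat_lit 381) (nat_lit 363)))) (XT.nd (nat_lit 156) (nat_lit 1824) (nat_lit 0) (XT.nd (nat_lit 78) (nat_lit 912) (nat_lit 0) (XT.lf (nat_lit 988) (nat_lit 3701718826) (nat_lit 0) (nat_lit 5253226169) (nat_lit 912) (nat_lit 1476732577) (nat_lit 470) (nat_lit 1) (nat_lit 457) (nat_lit 1) (nat_lit 469) (nat_lit 1) (nat_lit 277) (nat_lit 381) (nat_lit 362)) (XT.lf (nat_lit 988) (nat_lit 2208750104) (nat_lit 0) (nat_lit 3286022705) (nat_lit 912) (nat_lit 4798053766) (nat_lit 458) (nat_lit 1) (nat_lit 445) (nat_lit 1) (nat_lit 457) (nat_lit 1) (nat_lit 278) (nat_lit 381) (nat_lit 361))) (XT.nd (nat_lit 78) (nat_lit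 988) (nat_lit 0) (XT.lf (nat_lit 912) (nat_lit 692723736) (nat_lit 0) (nat_lit 1408879061) (nat_lit 836) (nat_lit 8055112236) (nat_lit 446) (nat_lit 1) (nat_lit 434) (nat_lit 1) (nat_lit 445) (nat_lit 1) (nat_lit 279) (nat_lit 381) (nat_lit 360)) (XT.nd (nat_lit 78) (nat_lit 912) (nat_lit 0) (XT.lf (nat_lit 76) (nat_lit 8789313866) (nat_lit 0) (nat_lit 844223820) (nat_lit 912) (nat_lit 389423126) (nat_lit 434) (nat_lit 1) (nat_lit 433) (nat_lit 1) (nat_lit 445) (nat_lit 1) (nat_lit 280) (nat_lit 381) (nat_lit 359)) (XT.lf (nat_lit 76) (nat_lit 5373984559) (nat_lit 0) (nat_lit 2413737695) (nat_lit 988) (nat_lit 2103569711) (nat_lit 422) (nat_lit 1) (nat_lit 421) (nat_lit 1) (nat_lit 434) (nat_lit 1) (nat_lit 281) (nat_lit 381) (nat_lit 358)))))) (XT.nd (nat_lit 312) (nat_lit 2964) (nat_lit 0) (XT.nd (nat_lit 156) (nat_lit 1520) (nat_lit 0) (XT.nd (nat_lit 78) (nat_lit 836) (nat_lit 0) (XT.lf (nat_lit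 76) (nat_lit 2025780520) (nat_lit 0) (nat_lit 4000359245) (nat_lit 912) (nat_lit 3736061935) (nat_lit 411) (nat_lit 1) (nat_lit 410) (nat_lit 1) (nat_lit 422) (nat_lit 1) (nat_lit 282) (nat_lit 381) (nat_lit 357)) (XT.lf (nat_lit 912) (nat_lit 4024534546) (nat_lit 0) (nat_lit 4337928697) (nat_lit 836) (nat_lit 1273004802) (nat_lit 411) (nat_lit 1) (nat_lit 399) (nat_lit 1) (nat_lit 410) (nat_lit 1) (nat_lit 283) (nat_lit 381) (nat_lit 356))) (XT.nd (nat_lit 78) (nat_lit 760) (nat_lit 0) (XT.lf (nat_lit 836) (nat_lit 2262212328) (nat_lit 0) (nat_lit 2715995749) (nat_lit 760) (nat_lit 4532734928) (nat_lit 400) (nat_lit 1) (nat_lit 389) (nat_lit 1) (nat_lit 399) (nat_lit 1) (nat_lit 284) (nat_lit 381) (nat_lit 355)) (XT.lf (nat_lit 836) (nat_lit 489718386) (nat_lit 0) (nat_lit 1171624283) (nat_lit 760) (nat_lit 7727496327) (nat_lit 390) (nat_lit 1) (nat_lit 379) (nat_lit 1) (nat_lit 389) (nat_lit 1)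 (nat_lit 285) (nat_lit 381) (nat_lit 354)))) (XT.nd (nat_lit 156) (nat_lit 2128) (nat_lit 0) (XT.nd (nat_lit 78) (nat_lit 760) (nat_lit 0) (XT.lf (nat_lit 76) (nat_lit 7668976512) (nat_lit 0) (nat_lit 1287264104) (nat_lit 836) (nat_lit 312445703) (nat_lit 379) (nat_lit 1) (nat_lit 378) (nat_lit 1) (nat_lit 389) (nat_lit 1) (nat_lit 286) (nat_lit 381) (nat_lit 353)) (XT.lf (nat_lit 76) (nat_lit 4344394251) (nat_lit 0) (nat_lit 3083250166) (nat_lit 836) (nat_lit 1722787159) (nat_lit 369) (nat_lit 1) (nat_lit 368) (nat_lit 1) (nat_lit 379) (nat_lit 1) (nat_lit 287) (nat_lit 381) (nat_lit 352))) (XT.nd (nat_lit 78) (nat_lit 1368) (nat_lit 0) (XT.lf (nat_lit 76) (nat_lit 1086782966) (nat_lit 0) (nat_lit 4884988665) (nat_lit 836) (nat_lit 3062688260) (nat_lit 359) (nat_lit 1) (nat_lit 358) (nat_lit 1) (nat_lit 369) (nat_lit 1) (nat_lit 288) (nat_lit 381) (nat_lit 351)) (XT.nd (nat_lit 78) (nat_lit 684)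 (nat_lit 0) (XT.lf (nat_lit 760) (nat_lit 2215136440) (nat_lit 0) (nat_lit 4572399042) (nat_lit 684) (nat_lit 2132909357) (nat_lit 359) (nat_lit 1) (nat_lit 349) (nat_lit 1) (nat_lit 358) (nat_lit 1) (nat_lit 289) (nat_lit 381) (nat_lit 350)) (XT.lf (nat_lit 760) (nat_lit 272371963) (nat_lit 0) (nat_lit 3234751162) (nat_lit 684) (nat_lit 5301357500) (nat_lit 350) (nat_lit 1) (nat_lit 340) (nat_lit 1) (nat_lit 349) (nat_lit 1) (nat_lit 290) (nat_lit 381) (nat_lit 349))))))) (XT.nd (nat_lit 702) (nat_lit 4712) (nat_lit 0) (XT.nd (nat_lit 312) (nat_lit 3116) (nat_lit 0) (XT.nd (nat_lit 156) (nat_lit 608) (nat_lit 0) (XT.nd (nat_lit 78) (nat_lit 684) (nat_lit 0) (XT.lf (nat_lit 76) (nat_lit 304321815) (nat_lit 0) (nat_lit 1648738943) (nat_lit 760) (nat_lit 6745385245) (nat_lit 331) (nat_lit 1) (nat_lit 330) (nat_lit 1) (nat_lit 340) (nat_lit 1) (nat_lit 291) (nat_lit 381) (nat_lit 348)) (XT.lf (nat_lit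 760) (nat_lit 5005776028) (nat_lit 0) (nat_lit 715650119) (nat_lit 684) (nat_lit 2868677769) (nat_lit 331) (nat_lit 1) (nat_lit 321) (nat_lit 1) (nat_lit 330) (nat_lit 1) (nat_lit 292) (nat_lit 381) (nat_lit 347))) (XT.nd (nat_lit 78) (nat_lit 608) (nat_lit 0) (XT.lf (nat_lit 76) (nat_lit 2506470331) (nat_lit 0) (nat_lit 5523115378) (nat_lit 760) (nat_lit 454140217) (nat_lit 322) (nat_lit 1) (nat_lit 321) (nat_lit 1) (nat_lit 331) (nat_lit 1) (nat_lit 293) (nat_lit 381) (nat_lit 346)) (XT.lf (nat_lit 684) (nat_lit 911393438) (nat_lit 0) (nat_lit 6821429121) (nat_lit 608) (nat_lit 646376322) (nat_lit 322) (nat_lit 1) (nat_lit 313) (nat_lit 1) (nat_lit 321) (nat_lit 1) (nat_lit 294) (nat_lit 381) (nat_lit 345)))) (XT.nd (nat_lit 156) (nat_lit 1824) (nat_lit 0) (XT.nd (nat_lit 78) (nat_lit 608) (nat_lit 0) (XT.lf (nat_lit 76) (nat_lit 4516946148) (nat_lit 0) (nat_lit 1133517830) (nat_lit 684) (nat_lit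 2625721935) (nat_lit 305) (nat_lit 1) (nat_lit 304) (nat_lit 1) (nat_lit 313) (nat_lit 1) (nat_lit 295) (nat_lit 381) (nat_lit 344)) (XT.lf (nat_lit 76) (nat_lit 1373465026) (nat_lit 0) (nat_lit 3159883284) (nat_lit 684) (nat_lit 3641657719) (nat_lit 297) (nat_lit 1) (nat_lit 296) (nat_lit 1) (nat_lit 305) (nat_lit 1) (nat_lit 296) (nat_lit 381) (nat_lit 343))) (XT.nd (nat_lit 78) (nat_lit 1216) (nat_lit 0) (XT.lf (nat_lit 684) (nat_lit 2885220716) (nat_lit 0) (nat_lit 3462951948) (nat_lit 608) (nat_lit 1727339212) (nat_lit 297) (nat_lit 1) (nat_lit 288) (nat_lit 1) (nat_lit 296) (nat_lit 1) (nat_lit 297) (nat_lit 381) (nat_lit 342)) (XT.nd (nat_lit 78) (nat_lit 684) (nat_lit 0) (XT.lf (nat_lit 608) (nat_lit 756125404) (nat_lit 0) (nat_lit 2440246710) (nat_lit 532) (nat_lit 4781342923) (nat_lit 289) (nat_lit 1) (nat_lit 281) (nat_lit 1) (nat_lit 288) (nat_lit 1) (nat_lit 298) (nat_lit 381) (nat_lit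 341)) (XT.lf (nat_lit 76) (nat_lit 119178374) (nat_lit 0) (nat_lit 1344602501) (nat_lit 684) (nat_lit 6417798772) (nat_lit 273) (nat_lit 1) (nat_lit 272) (nat_lit 1) (nat_lit 281) (nat_lit 1) (nat_lit 299) (nat_lit 381) (nat_lit 340)))))) (XT.nd (nat_lit 390) (nat_lit 2508) (nat_lit 0) (XT.nd (nat_lit 156) (nat_lit 1672) (nat_lit 0) (XT.nd (nat_lit 78) (nat_lit 0) (nat_lit 0) (XT.lf (nat_lit 608) (nat_lit 4343152965) (nat_lit 0) (nat_lit 516655969) (nat_lit 532) (nat_lit 2926958102) (nat_lit 273) (nat_lit 1) (nat_lit 265) (nat_lit 1) (nat_lit 272) (nat_lit 1) (nat_lit 300) (nat_lit 381) (nat_lit 339)) (XT.lf (nat_lit 76) (nat_lit 1785727967) (nat_lit 0) (nat_lit 5534230176) (nat_lit 608) (nat_lit 373702998) (nat_lit 266) (nat_lit 1) (nat_lit 265) (nat_lit 1) (nat_lit 273) (nat_lit 1) (nat_lit 301) (nat_lit 381) (nat_lit 338))) (XT.nd (nat_lit 78) (nat_lit 1064) (nat_lit 0) (XT.lf (nat_lit 76) (nat_lit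 6365493079) (nat_lit 0) (nat_lit 21519798) (nat_lit 608) (nat_lit 1215052963) (nat_lit 258) (nat_lit 1) (nat_lit 257) (nat_lit 1) (nat_lit 265) (nat_lit 1) (nat_lit 302) (nat_lit 381) (nat_lit 337)) (XT.nd (nat_lit 78) (nat_lit 532) (nat_lit 0) (XT.lf (nat_lit 76) (nat_lit 3307539215) (nat_lit 0) (nat_lit 2171330755) (nat_lit 608) (nat_lit 2032798561) (nat_lit 251) (nat_lit 1) (nat_lit 250) (nat_lit 1) (nat_lit 258) (nat_lit 1) (nat_lit 303) (nat_lit 381) (nat_lit 336)) (XT.lf (nat_lit 76) (nat_lit 314210336) (nat_lit 0) (nat_lit 4306212717) (nat_lit 608) (nat_lit 2802527362) (nat_lit 244) (nat_lit 1) (nat_lit 243) (nat_lit 1) (nat_lit 251) (nat_lit 1) (nat_lit 304) (nat_lit 381) (nat_lit 335))))) (XT.nd (nat_lit 156) (nat_lit 1444) (nat_lit 0) (XT.nd (nat_lit 78) (nat_lit 608) (nat_lit 0) (XT.lf (nat_lit 532) (nat_lit 892423008) (nat_lit 0) (nat_lit 3792687683) (nat_lit 456) (nat_lit 2650421717)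 (nat_lit 244) (nat_lit 1) (nat_lit 237) (nat_lit 1) (nat_lit 243) (nat_lit 1) (nat_lit 305) (nat_lit 381) (nat_lit 334)) (XT.lf (nat_lit 76) (nat_lit 1702145658) (nat_lit 0) (nat_lit 1299266349) (nat_lit 608) (nat_lit 4248108434) (nat_lit 230) (nat_lit 1) (nat_lit 229) (nat_lit 1) (nat_lit 237) (nat_lit 1) (nat_lit 306) (nat_lit 381) (nat_lit 333))) (XT.nd (nat_lit 78) (nat_lit 988) (nat_lit 0) (XT.lf (nat_lit 532) (nat_lit 3695019917) (nat_lit 0) (nat_lit 2242133027) (nat_lit 456) (nat_lit 1227667352) (nat_lit 230) (nat_lit 1) (nat_lit 223) (nat_lit 1) (nat_lit 229) (nat_lit 1) (nat_lit 307) (nat_lit 381) (nat_lit 332)) (XT.nd (nat_lit 78) (nat_lit 532) (nat_lit 0) (XT.lf (nat_lit 532) (nat_lit 1447924861) (nat_lit 0) (nat_lit 1516556189) (nat_lit 456) (nat_lit 4116977716) (nat_lit 224) (nat_lit 1) (nat_lit 217) (nat_lit 1) (nat_lit 223) (nat_lit 1) (nat_lit 308) (nat_lit 381) (nat_lit 331)) (XT.lf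 (nat_lit 76) (nat_lit 60363377) (nat_lit 0) (nat_lit 769273974) (nat_lit 532) (nat_lit 6169889094) (nat_lit 211) (nat_lit 1) (nat_lit 210) (nat_lit 1) (nat_lit 217) (nat_lit 1) (nat_lit 309) (nat_lit 381) (nat_lit 330))))))))
noncomputable def ec107 : XT := (XT.nd (nat_lit 1404) (nat_lit 4864) (nat_lit 0) (XT.nd (nat_lit 702) (nat_lit 2812) (nat_lit 0) (XT.nd (nat_lit 312) (nat_lit 1976) (nat_lit 0) (XT.nd (nat_lit 156) (nat_lit 912) (nat_lit 0) (XT.nd (nat_lit 78) (nat_lit 0) (nat_lit 0) (XT.lf (nat_lit 532) (nat_lit 3952332854) (nat_lit 0) (nat_lit 157207273) (nat_lit 456) (nat_lit 2809002783) (nat_lit 211) (nat_lit 1) (nat_lit 204) (nat_lit 1) (nat_lit 210) (nat_lit 1) (nat_lit 310) (nat_lit 381) (nat_lit 329)) (XT.lf (nat_lit 76) (nat_lit 1224782146) (nat_lit 0) (nat_lit 5146624589) (nat_lit 532) (nat_lit 467562046) (nat_lit 205) (nat_lit 1) (nat_lit 204) (nat_lit 1) (nat_lit 211) (nat_lit 1)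 (nat_lit 311) (nat_lit 381) (nat_lit 328))) (XT.nd (nat_lit 78) (nat_lit 456) (nat_lit 0) (XT.lf (nat_lit 76) (nat_lit 5145938974) (nat_lit 0) (nat_lit 550314993) (nat_lit 456) (nat_lit 1064291677) (nat_lit 199) (nat_lit 1) (nat_lit 198) (nat_lit 1) (nat_lit 204) (nat_lit 1) (nat_lit 312) (nat_lit 381) (nat_lit 327)) (XT.lf (nat_lit 76) (nat_lit 2285550286) (nat_lit 0) (nat_lit 2756986920) (nat_lit 532) (nat_lit 1640638478) (nat_lit 193) (nat_lit 1) (nat_lit 192) (nat_lit 1) (nat_lit 199) (nat_lit 1) (nat_lit 313) (nat_lit 381) (nat_lit 326)))) (XT.nd (nat_lit 156) (nat_lit 1140) (nat_lit 0) (XT.nd (nat_lit 78) (nat_lit 456) (nat_lit 0) (XT.lf (nat_lit 456) (nat_lit 1662005764) (nat_lit 0) (nat_lit 4425119401) (nat_lit 380) (nat_lit 520019022) (nat_lit 193) (nat_lit 1) (nat_lit 187) (nat_lit 1) (nat_lit 192) (nat_lit 1) (nat_lit 314) (nat_lit 381) (nat_lit 325)) (XT.lf (nat_lit 76) (nat_lit 3241373383)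 (nat_lit 0) (nat_lit 586062398) (nat_lit 456) (nat_lit 2704684487) (nat_lit 182) (nat_lit 1) (nat_lit 181) (nat_lit 1) (nat_lit 187) (nat_lit 1) (nat_lit 315) (nat_lit 381) (nat_lit 324))) (XT.nd (nat_lit 78) (nat_lit 760) (nat_lit 0) (XT.lf (nat_lit 76) (nat_lit 467742333) (nat_lit 0) (nat_lit 2789040625) (nat_lit 456) (nat_lit 3201458015) (nat_lit 177) (nat_lit 1) (nat_lit 176) (nat_lit 1) (nat_lit 182) (nat_lit 1) (nat_lit 316) (nat_lit 381) (nat_lit 323)) (XT.nd (nat_lit 78) (nat_lit 380) (nat_lit 0) (XT.lf (nat_lit 456) (nat_lit 1401829079) (nat_lit 0) (nat_lit 2708002489) (nat_lit 380) (nat_lit 2275567620) (nat_lit 177) (nat_lit 1) (nat_lit 171) (nat_lit 1) (nat_lit 176) (nat_lit 1) (nat_lit 317) (nat_lit 381) (nat_lit 322)) (XT.lf (nat_lit 76) (nat_lit 1354000224) (nat_lit 0) (nat_lit 832765641) (nat_lit 380) (nat_lit 4126934346) (nat_lit 167) (nat_lit 1) (nat_lit 166) (nat_lit 1) (nat_lit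 171) (nat_lit 1) (nat_lit 318) (nat_lit 381) (nat_lit 321)))))) (XT.nd (nat_lit 312) (nat_lit 1368) (nat_lit 0) (XT.nd (nat_lit 156) (nat_lit 760) (nat_lit 0) (XT.nd (nat_lit 78) (nat_lit 304) (nat_lit 0) (XT.lf (nat_lit 456) (nat_lit 3209595637) (nat_lit 0) (nat_lit 1682687565) (nat_lit 380) (nat_lit 1350651349) (nat_lit 167) (nat_lit 1) (nat_lit 161) (nat_lit 1) (nat_lit 166) (nat_lit 1) (nat_lit 319) (nat_lit 381) (nat_lit 320)) (XT.lf (nat_lit 380) (nat_lit 955111363) (nat_lit 0) (nat_lit 1204281001) (nat_lit 304) (nat_lit 4013870981) (nat_lit 162) (nat_lit 1) (nat_lit 157) (nat_lit 1) (nat_lit 161) (nat_lit 1) (nat_lit 320) (nat_lit 381) (nat_lit 319))) (XT.nd (nat_lit 78) (nat_lit 304) (nat_lit 0) (XT.lf (nat_lit 456) (nat_lit 4844389573) (nat_lit 0) (nat_lit 747800086) (nat_lit 380) (nat_lit 512417739) (nat_lit 157) (nat_lit 1) (nat_lit 151) (nat_lit 1) (nat_lit 156) (nat_lit 1) (nat_lit 321)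 (nat_lit 381) (nat_lit 318)) (XT.lf (nat_lit 380) (nat_lit 2585249799) (nat_lit 0) (nat_lit 303879722) (nat_lit 304) (nat_lit 3147647880) (nat_lit 152) (nat_lit 1) (nat_lit 147) (nat_lit 1) (nat_lit 151) (nat_lit 1) (nat_lit 322) (nat_lit 381) (nat_lit 317)))) (XT.nd (nat_lit 156) (nat_lit 988) (nat_lit 0) (XT.nd (nat_lit 78) (nat_lit 380) (nat_lit 0) (XT.lf (nat_lit 76) (nat_lit 245830805) (nat_lit 0) (nat_lit 5618054618) (nat_lit 380) (nat_lit 106256776) (nat_lit 148) (nat_lit 1) (nat_lit 147) (nat_lit 1) (nat_lit 152) (nat_lit 1) (nat_lit 323) (nat_lit 381) (nat_lit 316)) (XT.lf (nat_lit 76) (nat_lit 3547655123) (nat_lit 0) (nat_lit 1847528396) (nat_lit 380) (nat_lit 508922193) (nat_lit 143) (nat_lit 1) (nat_lit 142) (nat_lit 1) (nat_lit 147) (nat_lit 1) (nat_lit 324) (nat_lit 381) (nat_lit 315))) (XT.nd (nat_lit 78) (nat_lit 684) (nat_lit 0) (XT.lf (nat_lit 76) (nat_lit 936681578) (nat_lit 0)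 (nat_lit 4017647868) (nat_lit 380) (nat_lit 884837721) (nat_lit 139) (nat_lit 1) (nat_lit 138) (nat_lit 1) (nat_lit 143) (nat_lit 1) (nat_lit 325) (nat_lit 381) (nat_lit 314)) (XT.nd (nat_lit 78) (nat_lit 304) (nat_lit 0) (XT.lf (nat_lit 76) (nat_lit 4139176436) (nat_lit 0) (nat_lit 391746082) (nat_lit 380) (nat_lit 1244194752) (nat_lit 134) (nat_lit 1) (nat_lit 133) (nat_lit 1) (nat_lit 138) (nat_lit 1) (nat_lit 326) (nat_lit 381) (nat_lit 313)) (XT.lf (nat_lit 76) (nat_lit 1559602430) (nat_lit 0) (nat_lit 2560119320) (nat_lit 380) (nat_lit 1592126200) (nat_lit 130) (nat_lit 1) (nat_lit 129) (nat_lit 1) (nat_lit 134) (nat_lit 1) (nat_lit 327) (nat_lit 381) (nat_lit 312))))))) (XT.nd (nat_lit 702) (nat_lit 2204) (nat_lit 0) (XT.nd (nat_lit 312) (nat_lit 1444) (nat_lit 0) (XT.nd (nat_lit 156) (nat_lit 608) (nat_lit 0) (XT.nd (nat_lit 78) (nat_lit 304) (nat_lit 0) (XT.lf (nat_lit 380) (nat_lit 941693426)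 (nat_lit 0) (nat_lit 3731776334) (nat_lit 304) (nat_lit 976100844) (nat_lit 130) (nat_lit 1) (nat_lit 125) (nat_lit 1) (nat_lit 129) (nat_lit 1) (nat_lit 328) (nat_lit 381) (nat_lit 311)) (XT.lf (nat_lit 76) (nat_lit 2120083072) (nat_lit 0) (nat_lit 1234237048) (nat_lit 304) (nat_lit 2233709590) (nat_lit 122) (nat_lit 1) (nat_lit 121) (nat_lit 1) (nat_lit 125) (nat_lit 1) (nat_lit 329) (nat_lit 381) (nat_lit 310))) (XT.nd (nat_lit 78) (nat_lit 304) (nat_lit 0) (XT.lf (nat_lit 380) (nat_lit 2154663300) (nat_lit 0) (nat_lit 2996718104) (nat_lit 304) (nat_lit 376022339) (nat_lit 122) (nat_lit 1) (nat_lit 117) (nat_lit 1) (nat_lit 121) (nat_lit 1) (nat_lit 330) (nat_lit 381) (nat_lit 309)) (XT.lf (nat_lit 76) (nat_lit 2623189461) (nat_lit 0) (nat_lit 29628517) (nat_lit 304) (nat_lit 2814748989) (nat_lit 114) (nat_lit 1) (nat_lit 113) (nat_lit 1) (nat_lit 117) (nat_lit 1) (nat_lit 331) (nat_lit 381) (nat_lit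 308)))) (XT.nd (nat_lit 156) (nat_lit 912) (nat_lit 0) (XT.nd (nat_lit 78) (nat_lit 228) (nat_lit 0) (XT.lf (nat_lit 76) (nat_lit 164482422) (nat_lit 0) (nat_lit 2157672362) (nat_lit 380) (nat_lit 3086350428) (nat_lit 110) (nat_lit 1) (nat_lit 109) (nat_lit 1) (nat_lit 114) (nat_lit 1) (nat_lit 332) (nat_lit 381) (nat_lit 307)) (XT.lf (nat_lit 304) (nat_lit 1077415254) (nat_lit 0) (nat_lit 2003176153) (nat_lit 228) (nat_lit 2269591624) (nat_lit 110) (nat_lit 1) (nat_lit 106) (nat_lit 1) (nat_lit 109) (nat_lit 1) (nat_lit 333) (nat_lit 381) (nat_lit 306))) (XT.nd (nat_lit 78) (nat_lit 532) (nat_lit 0) (XT.lf (nat_lit 76) (nat_lit 647976819) (nat_lit 0) (nat_lit 1054342793) (nat_lit 380) (nat_lit 3590402085) (nat_lit 102) (nat_lit 1) (nat_lit 101) (nat_lit 1) (nat_lit 106) (nat_lit 1) (nat_lit 334) (nat_lit 381) (nat_lit 305)) (XT.nd (nat_lit 78) (nat_lit 304) (nat_lit 0) (XT.lf (nat_lit 304) (nat_lit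 2080635510) (nat_lit 0) (nat_lit 1408489307) (nat_lit 228) (nat_lit 1746773921) (nat_lit 102) (nat_lit 1) (nat_lit 98) (nat_lit 1) (nat_lit 101) (nat_lit 1) (nat_lit 335) (nat_lit 381) (nat_lit 304)) (XT.lf (nat_lit 76) (nat_lit 1083597488) (nat_lit 0) (nat_lit 51706189) (nat_lit 304) (nat_lit 4044672641) (nat_lit 95) (nat_lit 1) (nat_lit 94) (nat_lit 1) (nat_lit 98) (nat_lit 1) (nat_lit 336) (nat_lit 381) (nat_lit 303)))))) (XT.nd (nat_lit 390) (nat_lit 1140) (nat_lit 0) (XT.nd (nat_lit 156) (nat_lit 608) (nat_lit 0) (XT.nd (nat_lit 78) (nat_lit 228) (nat_lit 0) (XT.lf (nat_lit 304) (nat_lit 2987913987) (nat_lit 0) (nat_lit 864713429) (nat_lit 228) (nat_lit 1271968304) (nat_lit 95) (nat_lit 1) (nat_lit 91) (nat_lit 1) (nat_lit 94) (nat_lit 1) (nat_lit 337) (nat_lit 381) (nat_lit 302)) (XT.lf (nat_lit 304) (nat_lit 869587953) (nat_lit 0) (nat_lit 611282831) (nat_lit 228) (nat_lit 3589166966) (nat_lit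 92) (nat_lit 1) (nat_lit 88) (nat_lit 1) (nat_lit 91) (nat_lit 1) (nat_lit 338) (nat_lit 381) (nat_lit 301))) (XT.nd (nat_lit 78) (nat_lit 304) (nat_lit 0) (XT.lf (nat_lit 304) (nat_lit 3806891539) (nat_lit 0) (nat_lit 367927682) (nat_lit 228) (nat_lit 841339560) (nat_lit 88) (nat_lit 1) (nat_lit 84) (nat_lit 1) (nat_lit 87) (nat_lit 1) (nat_lit 339) (nat_lit 381) (nat_lit 300)) (XT.nd (nat_lit 78) (nat_lit 76) (nat_lit 0) (XT.lf (nat_lit 304) (nat_lit 1705024233) (nat_lit 0) (nat_lit 132485345) (nat_lit 228) (nat_lit 3125402158) (nat_lit 85) (nat_lit 1) (nat_lit 81) (nat_lit 1) (nat_lit 84) (nat_lit 1) (nat_lit 340) (nat_lit 381) (nat_lit 299)) (XT.lf (nat_lit 76) (nat_lit 4459686539) (nat_lit 0) (nat_lit 366411699) (nat_lit 304) (nat_lit 84369958) (nat_lit 81) (nat_lit 1) (nat_lit 80) (nat_lit 1) (nat_lit 84) (nat_lit 1) (nat_lit 341) (nat_lit 381) (nat_lit 298))))) (XT.nd (nat_lit 156) (nat_lit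 684) (nat_lit 0) (XT.nd (nat_lit 78) (nat_lit 228) (nat_lit 0) (XT.lf (nat_lit 76) (nat_lit 2158497272) (nat_lit 0) (nat_lit 2399693642) (nat_lit 304) (nat_lit 300268481) (nat_lit 78) (nat_lit 1) (nat_lit 77) (nat_lit 1) (nat_lit 81) (nat_lit 1) (nat_lit 342) (nat_lit 381) (nat_lit 297)) (XT.lf (nat_lit 304) (nat_lit 402201163) (nat_lit 0) (nat_lit 4312378024) (nat_lit 228) (nat_lit 92758569) (nat_lit 78) (nat_lit 1) (nat_lit 74) (nat_lit 1) (nat_lit 77) (nat_lit 1) (nat_lit 343) (nat_lit 381) (nat_lit 296))) (XT.nd (nat_lit 78) (nat_lit 456) (nat_lit 0) (XT.lf (nat_lit 76) (nat_lit 2445555513) (nat_lit 0) (nat_lit 1618061857) (nat_lit 228) (nat_lit 692990481) (nat_lit 72) (nat_lit 1) (nat_lit 71) (nat_lit 1) (nat_lit 74) (nat_lit 1) (nat_lit 344) (nat_lit 381) (nat_lit 295)) (XT.nd (nat_lit 78) (nat_lit 228) (nat_lit 0) (XT.lf (nat_lit 76) (nat_lit 229595882) (nat_lit 0) (nat_lit 3604542351) (nat_lit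 304) (nat_lit 872562949) (nat_lit 69) (nat_lit 1) (nat_lit 68) (nat_lit 1) (nat_lit 72) (nat_lit 1) (nat_lit 345) (nat_lit 381) (nat_lit 294)) (XT.lf (nat_lit 76) (nat_lit 2700692975) (nat_lit 0) (nat_lit 906204106) (nat_lit 228) (nat_lit 1050382158) (nat_lit 66) (nat_lit 1) (nat_lit 65) (nat_lit 1) (nat_lit 68) (nat_lit 1) (nat_lit 346) (nat_lit 381) (nat_lit 293))))))))
noncomputable def ec108 : XT := (XT.nd (nat_lit 1404) (nat_lit 304) (nat_lit 0) (XT.nd (nat_lit 702) (nat_lit 1596) (nat_lit 0) (XT.nd (nat_lit 312) (nat_lit 1140) (nat_lit 0) (XT.nd (nat_lit 156) (nat_lit 380) (nat_lit 0) (XT.nd (nat_lit 78) (nat_lit 228) (nat_lit 0) (XT.lf (nat_lit 76) (nat_lit 518919174) (nat_lit 0) (nat_lit 2873107136) (nat_lit 304) (nat_lit 1216510110) (nat_lit 63) (nat_lit 1) (nat_lit 62) (nat_lit 1) (nat_lit 66) (nat_lit 1) (nat_lit 347) (nat_lit 381) (nat_lit 292)) (XT.lf (nat_lit 76) (nat_lit 2926555829)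 (nat_lit 0) (nat_lit 258645472) (nat_lit 228) (nat_lit 1375182385) (nat_lit 60) (nat_lit 1) (nat_lit 59) (nat_lit 1) (nat_lit 62) (nat_lit 1) (nat_lit 348) (nat_lit 381) (nat_lit 291))) (XT.nd (nat_lit 78) (nat_lit 152) (nat_lit 0) (XT.lf (nat_lit 76) (nat_lit 779012930) (nat_lit 0) (nat_lit 2204897098) (nat_lit 304) (nat_lit 1528857559) (nat_lit 57) (nat_lit 1) (nat_lit 56) (nat_lit 1) (nat_lit 60) (nat_lit 1) (nat_lit 349) (nat_lit 381) (nat_lit 290)) (XT.lf (nat_lit 228) (nat_lit 334051592) (nat_lit 0) (nat_lit 2793701855) (nat_lit 152) (nat_lit 1338039329) (nat_lit 57) (nat_lit 1) (nat_lit 54) (nat_lit 1) (nat_lit 56) (nat_lit 1) (nat_lit 350) (nat_lit 381) (nat_lit 289)))) (XT.nd (nat_lit 156) (nat_lit 684) (nat_lit 0) (XT.nd (nat_lit 78) (nat_lit 152) (nat_lit 0) (XT.lf (nat_lit 76) (nat_lit 1012262231) (nat_lit 0) (nat_lit 1594987282) (nat_lit 304) (nat_lit 1812061954) (nat_lit 51) (nat_lit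 1) (nat_lit 50) (nat_lit 1) (nat_lit 54) (nat_lit 1) (nat_lit 351) (nat_lit 381) (nat_lit 288)) (XT.lf (nat_lit 228) (nat_lit 874887652) (nat_lit 0) (nat_lit 2430822400) (nat_lit 152) (nat_lit 1067732459) (nat_lit 51) (nat_lit 1) (nat_lit 48) (nat_lit 1) (nat_lit 50) (nat_lit 1) (nat_lit 352) (nat_lit 381) (nat_lit 287))) (XT.nd (nat_lit 78) (nat_lit 380) (nat_lit 0) (XT.lf (nat_lit 76) (nat_lit 1220867417) (nat_lit 0) (nat_lit 1038828493) (nat_lit 304) (nat_lit 2068393322) (nat_lit 45) (nat_lit 1) (nat_lit 44) (nat_lit 1) (nat_lit 48) (nat_lit 1) (nat_lit 353) (nat_lit 381) (nat_lit 286)) (XT.nd (nat_lit 78) (nat_lit 228) (nat_lit 0) (XT.lf (nat_lit 228) (nat_lit 1364795135) (nat_lit 0) (nat_lit 2096032335) (nat_lit 152) (nat_lit 822462561) (nat_lit 45) (nat_lit 1) (nat_lit 42) (nat_lit 1) (nat_lit 44) (nat_lit 1) (nat_lit 354) (nat_lit 381) (nat_lit 285)) (XT.lf (nat_lit 76) (nat_lit 1406858191)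 (nat_lit 0) (nat_lit 532218745) (nat_lit 228) (nat_lit 2299949214) (nat_lit 40) (nat_lit 1) (nat_lit 39) (nat_lit 1) (nat_lit 42) (nat_lit 1) (nat_lit 355) (nat_lit 381) (nat_lit 284)))))) (XT.nd (nat_lit 312) (nat_lit 912) (nat_lit 0) (XT.nd (nat_lit 156) (nat_lit 304) (nat_lit 0) (XT.nd (nat_lit 78) (nat_lit 228) (nat_lit 0) (XT.lf (nat_lit 228) (nat_lit 1807809198) (nat_lit 0) (nat_lit 1787235742) (nat_lit 152) (nat_lit 600217476) (nat_lit 40) (nat_lit 1) (nat_lit 37) (nat_lit 1) (nat_lit 39) (nat_lit 1) (nat_lit 356) (nat_lit 381) (nat_lit 283)) (XT.lf (nat_lit 76) (nat_lit 1572106649) (nat_lit 0) (nat_lit 71276886) (nat_lit 228) (nat_lit 2508667776) (nat_lit 35) (nat_lit 1) (nat_lit 34) (nat_lit 1) (nat_lit 37) (nat_lit 1) (nat_lit 357) (nat_lit 381) (nat_lit 282))) (XT.nd (nat_lit 78) (nat_lit 152) (nat_lit 0) (XT.lf (nat_lit 228) (nat_lit 2207655895) (nat_lit 0) (nat_lit 1502494155) (nat_lit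 152) (nat_lit 399140394) (nat_lit 35) (nat_lit 1) (nat_lit 32) (nat_lit 1) (nat_lit 34) (nat_lit 1) (nat_lit 358) (nat_lit 381) (nat_lit 281)) (XT.lf (nat_lit 228) (nat_lit 352200955) (nat_lit 0) (nat_lit 1368425086) (nat_lit 152) (nat_lit 2346425600) (nat_lit 33) (nat_lit 1) (nat_lit 30) (nat_lit 1) (nat_lit 32) (nat_lit 1) (nat_lit 359) (nat_lit 381) (nat_lit 280)))) (XT.nd (nat_lit 156) (nat_lit 532) (nat_lit 0) (XT.nd (nat_lit 78) (nat_lit 152) (nat_lit 0) (XT.lf (nat_lit 228) (nat_lit 2567775687) (nat_lit 0) (nat_lit 1240014662) (nat_lit 152) (nat_lit 217518005) (nat_lit 30) (nat_lit 1) (nat_lit 27) (nat_lit 1) (nat_lit 29) (nat_lit 1) (nat_lit 360) (nat_lit 381) (nat_lit 279)) (XT.lf (nat_lit 228) (nat_lit 737338334) (nat_lit 0) (nat_lit 1114597240) (nat_lit 152) (nat_lit 2132069010) (nat_lit 28) (nat_lit 1) (nat_lit 25) (nat_lit 1) (nat_lit 27) (nat_lit 1) (nat_lit 361) (nat_lit 381) (nat_lit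 278))) (XT.nd (nat_lit 78) (nat_lit 304) (nat_lit 0) (XT.lf (nat_lit 228) (nat_lit 2891345159) (nat_lit 0) (nat_lit 998138909) (nat_lit 152) (nat_lit 53769547) (nat_lit 25) (nat_lit 1) (nat_lit 22) (nat_lit 1) (nat_lit 24) (nat_lit 1) (nat_lit 362) (nat_lit 381) (nat_lit 277)) (XT.nd (nat_lit 78) (nat_lit 152) (nat_lit 0) (XT.lf (nat_lit 228) (nat_lit 1086286303) (nat_lit 0) (nat_lit 880768051) (nat_lit 152) (nat_lit 1935803869) (nat_lit 23) (nat_lit 1) (nat_lit 20) (nat_lit 1) (nat_lit 22) (nat_lit 1) (nat_lit 363) (nat_lit 381) (nat_lit 276)) (XT.lf (nat_lit 76) (nat_lit 92336206) (nat_lit 0) (nat_lit 682377097) (nat_lit 152) (nat_lit 3088341257) (nat_lit 19) (nat_lit 1) (nat_lit 18) (nat_lit 1) (nat_lit 20) (nat_lit 1) (nat_lit 364) (nat_lit 381) (nat_lit 275))))))) (XT.nd (nat_lit 46488) (nat_lit 0) (nat_lit 24016) (XT.nd (nat_lit 46098) (nat_lit 0) (nat_lit 30932) (XT.nd (nat_lit 45942) (nat_lit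 0) (nat_lit 34580) (XT.nd (nat_lit 78) (nat_lit 152) (nat_lit 0) (XT.lf (nat_lit 228) (nat_lit 1401906160) (nat_lit 0) (nat_lit 665448044) (nat_lit 152) (nat_lit 1756199995) (nat_lit 19) (nat_lit 1) (nat_lit 16) (nat_lit 1) (nat_lit 18) (nat_lit 1) (nat_lit 365) (nat_lit 381) (nat_lit 274)) (XT.lf (nat_lit 76) (nat_lit 222864049) (nat_lit 0) (nat_lit 345818165) (nat_lit 152) (nat_lit 3215979410) (nat_lit 15) (nat_lit 1) (nat_lit 14) (nat_lit 1) (nat_lit 16) (nat_lit 1) (nat_lit 366) (nat_lit 381) (nat_lit 273))) (XT.nd (nat_lit 78) (nat_lit 1140) (nat_lit 0) (XT.lf (nat_lit 76) (nat_lit 5450769611) (nat_lit 0) (nat_lit 4265332309) (nat_lit 1900) (nat_lit 1322564449) (nat_lit 485) (nat_lit 1) (nat_lit 484) (nat_lit 1) (nat_lit 509) (nat_lit 1) (nat_lit 273) (nat_lit 382) (nat_lit 365)) (XT.lf (nat_lit 76) (nat_lit 1941254867) (nat_lit 0) (nat_lit 5578286667) (nat_lit 1216) (nat_lit 3370733134) (nat_lit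 470) (nat_lit 1) (nat_lit 469) (nat_lit 1) (nat_lit 485) (nat_lit 1) (nat_lit 274) (nat_lit 382) (nat_lit 364)))) (XT.nd (nat_lit 156) (nat_lit 1824) (nat_lit 0) (XT.nd (nat_lit 78) (nat_lit 912) (nat_lit 0) (XT.lf (nat_lit 988) (nat_lit 3812770391) (nat_lit 0) (nat_lit 5410822954) (nat_lit 912) (nat_lit 1521034554) (nat_lit 470) (nat_lit 1) (nat_lit 457) (nat_lit 1) (nat_lit 469) (nat_lit 1) (nat_lit 275) (nat_lit 382) (nat_lit 363)) (XT.lf (nat_lit 988) (nat_lit 2275012607) (nat_lit 0) (nat_lit 3384603386) (nat_lit 912) (nat_lit 4941995379) (nat_lit 458) (nat_lit 1) (nat_lit 445) (nat_lit 1) (nat_lit 457) (nat_lit 1) (nat_lit 276) (nat_lit 382) (nat_lit 362))) (XT.nd (nat_lit 78) (nat_lit 988) (nat_lit 0) (XT.lf (nat_lit 912) (nat_lit 713505448) (nat_lit 0) (nat_lit 1451145433) (nat_lit 836) (nat_lit 8296765603) (nat_lit 446) (nat_lit 1) (nat_lit 434) (nat_lit 1) (nat_lit 445) (nat_lit 1) (nat_lit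 277) (nat_lit 382) (nat_lit 361)) (XT.nd (nat_lit 78) (nat_lit 912) (nat_lit 0) (XT.lf (nat_lit 76) (nat_lit 9052993282) (nat_lit 0) (nat_lit 869550534) (nat_lit 912) (nat_lit 401105820) (nat_lit 434) (nat_lit 1) (nat_lit 433) (nat_lit 1) (nat_lit 445) (nat_lit 1) (nat_lit 278) (nat_lit 382) (nat_lit 360)) (XT.lf (nat_lit 76) (nat_lit 5535204095) (nat_lit 0) (nat_lit 2486149826) (nat_lit 988) (nat_lit 2166676803) (nat_lit 422) (nat_lit 1) (nat_lit 421) (nat_lit 1) (nat_lit 434) (nat_lit 1) (nat_lit 279) (nat_lit 382) (nat_lit 359)))))) (XT.nd (nat_lit 390) (nat_lit 3648) (nat_lit 0) (XT.nd (nat_lit 156) (nat_lit 1596) (nat_lit 0) (XT.nd (nat_lit 78) (nat_lit 836) (nat_lit 0) (XT.lf (nat_lit 76) (nat_lit 2086553935) (nat_lit 0) (nat_lit 4120370022) (nat_lit 912) (nat_lit 3848143793) (nat_lit 411) (nat_lit 1) (nat_lit 410) (nat_lit 1) (nat_lit 422) (nat_lit 1) (nat_lit 280) (nat_lit 382) (nat_lit 358))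 (XT.lf (nat_lit 912) (nat_lit 4145270583) (nat_lit 0) (nat_lit 4468066558) (nat_lit 836) (nat_lit 1311194946) (nat_lit 411) (nat_lit 1) (nat_lit 399) (nat_lit 1) (nat_lit 410) (nat_lit 1) (nat_lit 281) (nat_lit 382) (nat_lit 357))) (XT.nd (nat_lit 78) (nat_lit 836) (nat_lit 0) (XT.lf (nat_lit 836) (nat_lit 2330078698) (nat_lit 0) (nat_lit 2797475621) (nat_lit 760) (nat_lit 4668716976) (nat_lit 400) (nat_lit 1) (nat_lit 389) (nat_lit 1) (nat_lit 399) (nat_lit 1) (nat_lit 282) (nat_lit 382) (nat_lit 356)) (XT.nd (nat_lit 78) (nat_lit 76) (nat_lit 0) (XT.lf (nat_lit 836) (nat_lit 504409937) (nat_lit 0) (nat_lit 1206773012) (nat_lit 760) (nat_lit 7959321217) (nat_lit 390) (nat_lit 1) (nat_lit 379) (nat_lit 1) (nat_lit 389) (nat_lit 1) (nat_lit 283) (nat_lit 382) (nat_lit 355)) (XT.lf (nat_lit 76) (nat_lit 7899045807) (nat_lit 0) (nat_lit 1325882027) (nat_lit 836) (nat_lit 321819075) (nat_lit 379) (nat_lit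 1) (nat_lit 378) (nat_lit 1) (nat_lit 389) (nat_lit 1) (nat_lit 284) (nat_lit 382) (nat_lit 354))))) (XT.nd (nat_lit 156) (nat_lit 2128) (nat_lit 0) (XT.nd (nat_lit 78) (nat_lit 760) (nat_lit 0) (XT.lf (nat_lit 76) (nat_lit 4474726078) (nat_lit 0) (nat_lit 3175747671) (nat_lit 836) (nat_lit 1774470774) (nat_lit 369) (nat_lit 1) (nat_lit 368) (nat_lit 1) (nat_lit 379) (nat_lit 1) (nat_lit 285) (nat_lit 382) (nat_lit 353)) (XT.lf (nat_lit 76) (nat_lit 1119386454) (nat_lit 0) (nat_lit 5031538325) (nat_lit 836) (nat_lit 3154568907) (nat_lit 359) (nat_lit 1) (nat_lit 358) (nat_lit 1) (nat_lit 369) (nat_lit 1) (nat_lit 286) (nat_lit 382) (nat_lit 352))) (XT.nd (nat_lit 78) (nat_lit 1444) (nat_lit 0) (XT.lf (nat_lit 760) (nat_lit 2281590534) (nat_lit 0) (nat_lit 4709571013) (nat_lit 684) (nat_lit 2196896638) (nat_lit 359) (nat_lit 1) (nat_lit 349) (nat_lit 1) (nat_lit 358) (nat_lit 1) (nat_lit 287) (nat_lit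 382) (nat_lit 351)) (XT.nd (nat_lit 78) (nat_lit 760) (nat_lit 0) (XT.lf (nat_lit 760) (nat_lit 280543122) (nat_lit 0) (nat_lit 3331793697) (nat_lit 684) (nat_lit 5460398225) (nat_lit 350) (nat_lit 1) (nat_lit 340) (nat_lit 1) (nat_lit 349) (nat_lit 1) (nat_lit 288) (nat_lit 382) (nat_lit 350)) (XT.lf (nat_lit 76) (nat_lit 313451469) (nat_lit 0) (nat_lit 1698201111) (nat_lit 760) (nat_lit 6947746802) (nat_lit 331) (nat_lit 1) (nat_lit 330) (nat_lit 1) (nat_lit 340) (nat_lit 1) (nat_lit 289) (nat_lit 382) (nat_lit 349))))))))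
noncomputable def ec109 : XT := (XT.nd (nat_lit 1404) (nat_lit 6460) (nat_lit 0) (XT.nd (nat_lit 702) (nat_lit 4180) (nat_lit 0) (XT.nd (nat_lit 312) (nat_lit 2964) (nat_lit 0) (XT.nd (nat_lit 156) (nat_lit 1292) (nat_lit 0) (XT.nd (nat_lit 78) (nat_lit 0) (nat_lit 0) (XT.lf (nat_lit 760) (nat_lit 5155949309) (nat_lit 0) (nat_lit 737119623) (nat_lit 684) (nat_lit 2954738102) (nat_lit 331) (nat_lit 1) (nat_lit 321) (nat_lit 1) (nat_lit 330) (nat_lit 1) (nat_lit 290) (nat_lit 382) (nat_lit 348)) (XT.lf (nat_lit 76) (nat_lit 2581664441) (nat_lit 0) (nat_lit 5688808839) (nat_lit 760) (nat_lit 467764423) (nat_lit 322) (nat_lit 1) (nat_lit 321) (nat_lit 1) (nat_lit 331) (nat_lit 1) (nat_lit 291) (nat_lit 382) (nat_lit 347))) (XT.nd (nat_lit 78) (nat_lit 684) (nat_lit 0) (XT.lf (nat_lit 684) (nat_lit 938735241) (nat_lit 0) (nat_lit 7026071995) (nat_lit 608) (nat_lit 665767612) (nat_lit 322) (nat_lit 1)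 (nat_lit 313) (nat_lit 1) (nat_lit 321) (nat_lit 1) (nat_lit 292) (nat_lit 382) (nat_lit 346)) (XT.lf (nat_lit 76) (nat_lit 4652454533) (nat_lit 0) (nat_lit 1167523365) (nat_lit 684) (nat_lit 2704493593) (nat_lit 305) (nat_lit 1) (nat_lit 304) (nat_lit 1) (nat_lit 313) (nat_lit 1) (nat_lit 293) (nat_lit 382) (nat_lit 345)))) (XT.nd (nat_lit 156) (nat_lit 1748) (nat_lit 0) (XT.nd (nat_lit 78) (nat_lit 608) (nat_lit 0) (XT.lf (nat_lit 76) (nat_lit 1414668977) (nat_lit 0) (nat_lit 3254679782) (nat_lit 684) (nat_lit 3750907450) (nat_lit 297) (nat_lit 1) (nat_lit 296) (nat_lit 1) (nat_lit 305) (nat_lit 1) (nat_lit 294) (nat_lit 382) (nat_lit 344)) (XT.lf (nat_lit 684) (nat_lit 2971777337) (nat_lit 0) (nat_lit 3566840506) (nat_lit 608) (nat_lit 1779159388) (nat_lit 297) (nat_lit 1) (nat_lit 288) (nat_lit 1) (nat_lit 296) (nat_lit 1) (nat_lit 295) (nat_lit 382) (nat_lit 343))) (XT.nd (nat_lit 78) (nat_lit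 1216) (nat_lit 0) (XT.lf (nat_lit 608) (nat_lit 778809166) (nat_lit 0) (nat_lit 2513454112) (nat_lit 532) (nat_lit 4924783211) (nat_lit 289) (nat_lit 1) (nat_lit 281) (nat_lit 1) (nat_lit 288) (nat_lit 1) (nat_lit 296) (nat_lit 382) (nat_lit 342)) (XT.nd (nat_lit 78) (nat_lit 532) (nat_lit 0) (XT.lf (nat_lit 76) (nat_lit 122753726) (nat_lit 0) (nat_lit 1384940576) (nat_lit 684) (nat_lit 6610332735) (nat_lit 273) (nat_lit 1) (nat_lit 272) (nat_lit 1) (nat_lit 281) (nat_lit 1) (nat_lit 297) (nat_lit 382) (nat_lit 341)) (XT.lf (nat_lit 608) (nat_lit 4473447554) (nat_lit 0) (nat_lit 532155648) (nat_lit 532) (nat_lit 3014766845) (nat_lit 273) (nat_lit 1) (nat_lit 265) (nat_lit 1) (nat_lit 272) (nat_lit 1) (nat_lit 298) (nat_lit 382) (nat_lit 340)))))) (XT.nd (nat_lit 312) (nat_lit 2508) (nat_lit 0) (XT.nd (nat_lit 156) (nat_lit 1064) (nat_lit 0) (XT.nd (nat_lit 78) (nat_lit 608) (nat_lit 0) (XT.lf (nat_lit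 76) (nat_lit 1839299806) (nat_lit 0) (nat_lit 5700257081) (nat_lit 608) (nat_lit 384914088) (nat_lit 266) (nat_lit 1) (nat_lit 265) (nat_lit 1) (nat_lit 273) (nat_lit 1) (nat_lit 299) (nat_lit 382) (nat_lit 339)) (XT.lf (nat_lit 76) (nat_lit 6556457871) (nat_lit 0) (nat_lit 22165392) (nat_lit 608) (nat_lit 1251504552) (nat_lit 258) (nat_lit 1) (nat_lit 257) (nat_lit 1) (nat_lit 265) (nat_lit 1) (nat_lit 300) (nat_lit 382) (nat_lit 338))) (XT.nd (nat_lit 78) (nat_lit 532) (nat_lit 0) (XT.lf (nat_lit 76) (nat_lit 3406765391) (nat_lit 0) (nat_lit 2236470677) (nat_lit 608) (nat_lit 2093782518) (nat_lit 251) (nat_lit 1) (nat_lit 250) (nat_lit 1) (nat_lit 258) (nat_lit 1) (nat_lit 301) (nat_lit 382) (nat_lit 337)) (XT.lf (nat_lit 76) (nat_lit 323636646) (nat_lit 0) (nat_lit 4435399099) (nat_lit 608) (nat_lit 2886603183) (nat_lit 244) (nat_lit 1) (nat_lit 243) (nat_lit 1) (nat_lit 251) (nat_lit 1) (nat_lit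 302) (nat_lit 382) (nat_lit 336)))) (XT.nd (nat_lit 156) (nat_lit 1444) (nat_lit 0) (XT.nd (nat_lit 78) (nat_lit 608) (nat_lit 0) (XT.lf (nat_lit 532) (nat_lit 919195698) (nat_lit 0) (nat_lit 3906468314) (nat_lit 456) (nat_lit 2729934369) (nat_lit 244) (nat_lit 1) (nat_lit 237) (nat_lit 1) (nat_lit 243) (nat_lit 1) (nat_lit 303) (nat_lit 382) (nat_lit 335)) (XT.lf (nat_lit 76) (nat_lit 1753210028) (nat_lit 0) (nat_lit 1338244340) (nat_lit 608) (nat_lit 4375551688) (nat_lit 230) (nat_lit 1) (nat_lit 229) (nat_lit 1) (nat_lit 237) (nat_lit 1) (nat_lit 304) (nat_lit 382) (nat_lit 334))) (XT.nd (nat_lit 78) (nat_lit 988) (nat_lit 0) (XT.lf (nat_lit 532) (nat_lit 3805870514) (nat_lit 0) (nat_lit 2309397018) (nat_lit 456) (nat_lit 1264497372) (nat_lit 230) (nat_lit 1) (nat_lit 223) (nat_lit 1) (nat_lit 229) (nat_lit 1) (nat_lit 305) (nat_lit 382) (nat_lit 333)) (XT.nd (nat_lit 78) (nat_lit 532) (nat_lit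 0) (XT.lf (nat_lit 532) (nat_lit 1491362607) (nat_lit 0) (nat_lit 1562052875) (nat_lit 456) (nat_lit 4240487048) (nat_lit 224) (nat_lit 1) (nat_lit 217) (nat_lit 1) (nat_lit 223) (nat_lit 1) (nat_lit 306) (nat_lit 382) (nat_lit 332)) (XT.lf (nat_lit 76) (nat_lit 62174278) (nat_lit 0) (nat_lit 792352193) (nat_lit 532) (nat_lit 6354985767) (nat_lit 211) (nat_lit 1) (nat_lit 210) (nat_lit 1) (nat_lit 217) (nat_lit 1) (nat_lit 307) (nat_lit 382) (nat_lit 331))))))) (XT.nd (nat_lit 702) (nat_lit 3116) (nat_lit 0) (XT.nd (nat_lit 312) (nat_lit 1976) (nat_lit 0) (XT.nd (nat_lit 156) (nat_lit 912) (nat_lit 0) (XT.nd (nat_lit 78) (nat_lit 0) (nat_lit 0) (XT.lf (nat_lit 532) (nat_lit 4070902840) (nat_lit 0) (nat_lit 161923491) (nat_lit 456) (nat_lit 2893272866) (nat_lit 211) (nat_lit 1) (nat_lit 204) (nat_lit 1) (nat_lit 210) (nat_lit 1) (nat_lit 308) (nat_lit 382) (nat_lit 330)) (XT.lf (nat_lit 76) (nat_lit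 1261525611) (nat_lit 0) (nat_lit 5301023327) (nat_lit 532) (nat_lit 481588907) (nat_lit 205) (nat_lit 1) (nat_lit 204) (nat_lit 1) (nat_lit 211) (nat_lit 1) (nat_lit 309) (nat_lit 382) (nat_lit 329))) (XT.nd (nat_lit 78) (nat_lit 456) (nat_lit 0) (XT.lf (nat_lit 76) (nat_lit 5300317143) (nat_lit 0) (nat_lit 566824443) (nat_lit 456) (nat_lit 1096220428) (nat_lit 199) (nat_lit 1) (nat_lit 198) (nat_lit 1) (nat_lit 204) (nat_lit 1) (nat_lit 310) (nat_lit 382) (nat_lit 328)) (XT.lf (nat_lit 76) (nat_lit 2354116795) (nat_lit 0) (nat_lit 2839696528) (nat_lit 532) (nat_lit 1689857632) (nat_lit 193) (nat_lit 1) (nat_lit 192) (nat_lit 1) (nat_lit 199) (nat_lit 1) (nat_lit 311) (nat_lit 382) (nat_lit 327)))) (XT.nd (nat_lit 156) (nat_lit 1140) (nat_lit 0) (XT.nd (nat_lit 78) (nat_lit 456) (nat_lit 0) (XT.lf (nat_lit 456) (nat_lit 1711865937) (nat_lit 0) (nat_lit 4557872983) (nat_lit 380) (nat_lit 535619593)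 (nat_lit 193) (nat_lit 1) (nat_lit 187) (nat_lit 1) (nat_lit 192) (nat_lit 1) (nat_lit 312) (nat_lit 382) (nat_lit 326)) (XT.lf (nat_lit 76) (nat_lit 3338614585) (nat_lit 0) (nat_lit 603644270) (nat_lit 456) (nat_lit 2785825021) (nat_lit 182) (nat_lit 1) (nat_lit 181) (nat_lit 1) (nat_lit 187) (nat_lit 1) (nat_lit 313) (nat_lit 382) (nat_lit 325))) (XT.nd (nat_lit 78) (nat_lit 760) (nat_lit 0) (XT.lf (nat_lit 76) (nat_lit 481774603) (nat_lit 0) (nat_lit 2872711844) (nat_lit 456) (nat_lit 3297501755) (nat_lit 177) (nat_lit 1) (nat_lit 176) (nat_lit 1) (nat_lit 182) (nat_lit 1) (nat_lit 314) (nat_lit 382) (nat_lit 324)) (XT.nd (nat_lit 78) (nat_lit 380) (nat_lit 0) (XT.lf (nat_lit 456) (nat_lit 1443883951) (nat_lit 0) (nat_lit 2789242564) (nat_lit 380) (nat_lit 2343834649) (nat_lit 177) (nat_lit 1) (nat_lit 171) (nat_lit 1) (nat_lit 176) (nat_lit 1) (nat_lit 315) (nat_lit 382) (nat_lit 323)) (XT.lf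 (nat_lit 76) (nat_lit 1394620230) (nat_lit 0) (nat_lit 857748610) (nat_lit 380) (nat_lit 4250742377) (nat_lit 167) (nat_lit 1) (nat_lit 166) (nat_lit 1) (nat_lit 171) (nat_lit 1) (nat_lit 316) (nat_lit 382) (nat_lit 322)))))) (XT.nd (nat_lit 390) (nat_lit 1672) (nat_lit 0) (XT.nd (nat_lit 156) (nat_lit 760) (nat_lit 0) (XT.nd (nat_lit 78) (nat_lit 304) (nat_lit 0) (XT.lf (nat_lit 456) (nat_lit 3305883506) (nat_lit 0) (nat_lit 1733168192) (nat_lit 380) (nat_lit 1391170889) (nat_lit 167) (nat_lit 1) (nat_lit 161) (nat_lit 1) (nat_lit 166) (nat_lit 1) (nat_lit 317) (nat_lit 382) (nat_lit 321)) (XT.lf (nat_lit 380) (nat_lit 983764703) (nat_lit 0) (nat_lit 1240409431) (nat_lit 304) (nat_lit 4134287110) (nat_lit 162) (nat_lit 1) (nat_lit 157) (nat_lit 1) (nat_lit 161) (nat_lit 1) (nat_lit 318) (nat_lit 382) (nat_lit 320))) (XT.nd (nat_lit 78) (nat_lit 304) (nat_lit 0) (XT.lf (nat_lit 456) (nat_lit 4989721260)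 (nat_lit 0) (nat_lit 770234088) (nat_lit 380) (nat_lit 527790271) (nat_lit 157) (nat_lit 1) (nat_lit 151) (nat_lit 1) (nat_lit 156) (nat_lit 1) (nat_lit 319) (nat_lit 382) (nat_lit 319)) (XT.nd (nat_lit 78) (nat_lit 0) (nat_lit 0) (XT.lf (nat_lit 380) (nat_lit 2662807293) (nat_lit 0) (nat_lit 312996114) (nat_lit 304) (nat_lit 3242077317) (nat_lit 152) (nat_lit 1) (nat_lit 147) (nat_lit 1) (nat_lit 151) (nat_lit 1) (nat_lit 320) (nat_lit 382) (nat_lit 318)) (XT.lf (nat_lit 76) (nat_lit 253205729) (nat_lit 0) (nat_lit 5786596256) (nat_lit 380) (nat_lit 109444479) (nat_lit 148) (nat_lit 1) (nat_lit 147) (nat_lit 1) (nat_lit 152) (nat_lit 1) (nat_lit 321) (nat_lit 382) (nat_lit 317))))) (XT.nd (nat_lit 156) (nat_lit 988) (nat_lit 0) (XT.nd (nat_lit 78) (nat_lit 304) (nat_lit 0) (XT.lf (nat_lit 76) (nat_lit 3654084777) (nat_lit 0) (nat_lit 1902954248) (nat_lit 380) (nat_lit 524189859) (nat_lit 143) (nat_lit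 1) (nat_lit 142) (nat_lit 1) (nat_lit 147) (nat_lit 1) (nat_lit 322) (nat_lit 382) (nat_lit 316)) (XT.lf (nat_lit 76) (nat_lit 964782025) (nat_lit 0) (nat_lit 4138177304) (nat_lit 380) (nat_lit 911382853) (nat_lit 139) (nat_lit 1) (nat_lit 138) (nat_lit 1) (nat_lit 143) (nat_lit 1) (nat_lit 323) (nat_lit 382) (nat_lit 315))) (XT.nd (nat_lit 78) (nat_lit 608) (nat_lit 0) (XT.lf (nat_lit 76) (nat_lit 4263351729) (nat_lit 0) (nat_lit 403498465) (nat_lit 380) (nat_lit 1281520595) (nat_lit 134) (nat_lit 1) (nat_lit 133) (nat_lit 1) (nat_lit 138) (nat_lit 1) (nat_lit 324) (nat_lit 382) (nat_lit 314)) (XT.nd (nat_lit 78) (nat_lit 304) (nat_lit 0) (XT.lf (nat_lit 76) (nat_lit 1606390503) (nat_lit 0) (nat_lit 2636922900) (nat_lit 380) (nat_lit 1639889986) (nat_lit 130) (nat_lit 1) (nat_lit 129) (nat_lit 1) (nat_lit 134) (nat_lit 1) (nat_lit 325) (nat_lit 382) (nat_lit 313)) (XT.lf (nat_lit 380) (nat_lit 969944229)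 (nat_lit 0) (nat_lit 3843729624) (nat_lit 304) (nat_lit 1005383869) (nat_lit 130) (nat_lit 1) (nat_lit 125) (nat_lit 1) (nat_lit 129) (nat_lit 1) (nat_lit 326) (nat_lit 382) (nat_lit 312))))))))
noncomputable def ec110 : XT := (XT.nd (nat_lit 1404) (nat_lit 3724) (nat_lit 0) (XT.nd (nat_lit 702) (nat_lit 1976) (nat_lit 0) (XT.nd (nat_lit 312) (nat_lit 1368) (nat_lit 0) (XT.nd (nat_lit 156) (nat_lit 608) (nat_lit 0) (XT.nd (nat_lit 78) (nat_lit 304) (nat_lit 0) (XT.lf (nat_lit 76) (nat_lit 2183685564) (nat_lit 0) (nat_lit 1271264160) (nat_lit 304) (nat_lit 2300720878) (nat_lit 122) (nat_lit 1) (nat_lit 121) (nat_lit 1) (nat_lit 125) (nat_lit 1) (nat_lit 327) (nat_lit 382) (nat_lit 311)) (XT.lf (nat_lit 380) (nat_lit 2219303199) (nat_lit 0) (nat_lit 3086619647) (nat_lit 304) (nat_lit 387303009) (nat_lit 122) (nat_lit 1) (nat_lit 117) (nat_lit 1) (nat_lit 121) (nat_lit 1) (nat_lit 328) (nat_lit 382)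 (nat_lit 310))) (XT.nd (nat_lit 78) (nat_lit 304) (nat_lit 0) (XT.lf (nat_lit 76) (nat_lit 2701885145) (nat_lit 0) (nat_lit 30517372) (nat_lit 304) (nat_lit 2899191459) (nat_lit 114) (nat_lit 1) (nat_lit 113) (nat_lit 1) (nat_lit 117) (nat_lit 1) (nat_lit 329) (nat_lit 382) (nat_lit 309)) (XT.lf (nat_lit 76) (nat_lit 169416894) (nat_lit 0) (nat_lit 2222402532) (nat_lit 380) (nat_lit 3178940940) (nat_lit 110) (nat_lit 1) (nat_lit 109) (nat_lit 1) (nat_lit 114) (nat_lit 1) (nat_lit 330) (nat_lit 382) (nat_lit 308)))) (XT.nd (nat_lit 156) (nat_lit 760) (nat_lit 0) (XT.nd (nat_lit 78) (nat_lit 380) (nat_lit 0) (XT.lf (nat_lit 304) (nat_lit 1109737711) (nat_lit 0) (nat_lit 2063271437) (nat_lit 228) (nat_lit 2337679373) (nat_lit 110) (nat_lit 1) (nat_lit 106) (nat_lit 1) (nat_lit 109) (nat_lit 1) (nat_lit 331) (nat_lit 382) (nat_lit 307)) (XT.lf (nat_lit 76) (nat_lit 667416124) (nat_lit 0) (nat_lit 1085973077)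 (nat_lit 380) (nat_lit 3698114148) (nat_lit 102) (nat_lit 1) (nat_lit 101) (nat_lit 1) (nat_lit 106) (nat_lit 1) (nat_lit 332) (nat_lit 382) (nat_lit 306))) (XT.nd (nat_lit 78) (nat_lit 532) (nat_lit 0) (XT.lf (nat_lit 304) (nat_lit 2143054575) (nat_lit 0) (nat_lit 1450743986) (nat_lit 228) (nat_lit 1799177139) (nat_lit 102) (nat_lit 1) (nat_lit 98) (nat_lit 1) (nat_lit 101) (nat_lit 1) (nat_lit 333) (nat_lit 382) (nat_lit 305)) (XT.nd (nat_lit 78) (nat_lit 228) (nat_lit 0) (XT.lf (nat_lit 76) (nat_lit 1116105413) (nat_lit 0) (nat_lit 53257375) (nat_lit 304) (nat_lit 4166012821) (nat_lit 95) (nat_lit 1) (nat_lit 94) (nat_lit 1) (nat_lit 98) (nat_lit 1) (nat_lit 334) (nat_lit 382) (nat_lit 304)) (XT.lf (nat_lit 304) (nat_lit 3077551407) (nat_lit 0) (nat_lit 890654832) (nat_lit 228) (nat_lit 1310127353) (nat_lit 95) (nat_lit 1) (nat_lit 91) (nat_lit 1) (nat_lit 94) (nat_lit 1) (nat_lit 335) (nat_lit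 382) (nat_lit 303)))))) (XT.nd (nat_lit 312) (nat_lit 1140) (nat_lit 0) (XT.nd (nat_lit 156) (nat_lit 304) (nat_lit 0) (XT.nd (nat_lit 78) (nat_lit 304) (nat_lit 0) (XT.lf (nat_lit 304) (nat_lit 895675591) (nat_lit 0) (nat_lit 629621316) (nat_lit 228) (nat_lit 3696841975) (nat_lit 92) (nat_lit 1) (nat_lit 88) (nat_lit 1) (nat_lit 91) (nat_lit 1) (nat_lit 336) (nat_lit 382) (nat_lit 302)) (XT.lf (nat_lit 304) (nat_lit 3921098285) (nat_lit 0) (nat_lit 378965513) (nat_lit 228) (nat_lit 866579747) (nat_lit 88) (nat_lit 1) (nat_lit 84) (nat_lit 1) (nat_lit 87) (nat_lit 1) (nat_lit 337) (nat_lit 382) (nat_lit 301))) (XT.nd (nat_lit 78) (nat_lit 76) (nat_lit 0) (XT.lf (nat_lit 304) (nat_lit 1756174959) (nat_lit 0) (nat_lit 136459905) (nat_lit 228) (nat_lit 3219164223) (nat_lit 85) (nat_lit 1) (nat_lit 81) (nat_lit 1) (nat_lit 84) (nat_lit 1) (nat_lit 338) (nat_lit 382) (nat_lit 300)) (XT.lf (nat_lit 76)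 (nat_lit 4593477135) (nat_lit 0) (nat_lit 377404050) (nat_lit 304) (nat_lit 86901056) (nat_lit 81) (nat_lit 1) (nat_lit 80) (nat_lit 1) (nat_lit 84) (nat_lit 1) (nat_lit 339) (nat_lit 382) (nat_lit 299)))) (XT.nd (nat_lit 156) (nat_lit 684) (nat_lit 0) (XT.nd (nat_lit 78) (nat_lit 228) (nat_lit 0) (XT.lf (nat_lit 76) (nat_lit 2223252191) (nat_lit 0) (nat_lit 2471684451) (nat_lit 304) (nat_lit 309276535) (nat_lit 78) (nat_lit 1) (nat_lit 77) (nat_lit 1) (nat_lit 81) (nat_lit 1) (nat_lit 340) (nat_lit 382) (nat_lit 298)) (XT.lf (nat_lit 304) (nat_lit 414267198) (nat_lit 0) (nat_lit 4441749365) (nat_lit 228) (nat_lit 95541326) (nat_lit 78) (nat_lit 1) (nat_lit 74) (nat_lit 1) (nat_lit 77) (nat_lit 1) (nat_lit 341) (nat_lit 382) (nat_lit 297))) (XT.nd (nat_lit 78) (nat_lit 456) (nat_lit 0) (XT.lf (nat_lit 76) (nat_lit 2518922179) (nat_lit 0) (nat_lit 1666603712) (nat_lit 228) (nat_lit 713780195) (nat_lit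 72) (nat_lit 1) (nat_lit 71) (nat_lit 1) (nat_lit 74) (nat_lit 1) (nat_lit 342) (nat_lit 382) (nat_lit 296)) (XT.nd (nat_lit 78) (nat_lit 228) (nat_lit 0) (XT.lf (nat_lit 76) (nat_lit 236483758) (nat_lit 0) (nat_lit 3712678621) (nat_lit 304) (nat_lit 898739837) (nat_lit 69) (nat_lit 1) (nat_lit 68) (nat_lit 1) (nat_lit 72) (nat_lit 1) (nat_lit 343) (nat_lit 382) (nat_lit 295)) (XT.lf (nat_lit 76) (nat_lit 2781713765) (nat_lit 0) (nat_lit 933390229) (nat_lit 228) (nat_lit 1081893623) (nat_lit 66) (nat_lit 1) (nat_lit 65) (nat_lit 1) (nat_lit 68) (nat_lit 1) (nat_lit 344) (nat_lit 382) (nat_lit 294))))))) (XT.nd (nat_lit 702) (nat_lit 1748) (nat_lit 0) (XT.nd (nat_lit 312) (nat_lit 1140) (nat_lit 0) (XT.nd (nat_lit 156) (nat_lit 380) (nat_lit 0) (XT.nd (nat_lit 78) (nat_lit 228) (nat_lit 0) (XT.lf (nat_lit 76) (nat_lit 534486749) (nat_lit 0) (nat_lit 2959300350) (nat_lit 304) (nat_lit 1253005413) (nat_lit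 63) (nat_lit 1) (nat_lit 62) (nat_lit 1) (nat_lit 66) (nat_lit 1) (nat_lit 345) (nat_lit 382) (nat_lit 293)) (XT.lf (nat_lit 76) (nat_lit 3014352504) (nat_lit 0) (nat_lit 266404837) (nat_lit 228) (nat_lit 1416437857) (nat_lit 60) (nat_lit 1) (nat_lit 59) (nat_lit 1) (nat_lit 62) (nat_lit 1) (nat_lit 346) (nat_lit 382) (nat_lit 292))) (XT.nd (nat_lit 78) (nat_lit 152) (nat_lit 0) (XT.lf (nat_lit 76) (nat_lit 802383318) (nat_lit 0) (nat_lit 2271044011) (nat_lit 304) (nat_lit 1574723286) (nat_lit 57) (nat_lit 1) (nat_lit 56) (nat_lit 1) (nat_lit 60) (nat_lit 1) (nat_lit 347) (nat_lit 382) (nat_lit 291)) (XT.lf (nat_lit 228) (nat_lit 344073140) (nat_lit 0) (nat_lit 2877512911) (nat_lit 152) (nat_lit 1378180509) (nat_lit 57) (nat_lit 1) (nat_lit 54) (nat_lit 1) (nat_lit 56) (nat_lit 1) (nat_lit 348) (nat_lit 382) (nat_lit 290)))) (XT.nd (nat_lit 156) (nat_lit 684) (nat_lit 0) (XT.nd (nat_lit 78) (nat_lit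 152) (nat_lit 0) (XT.lf (nat_lit 76) (nat_lit 1042630098) (nat_lit 0) (nat_lit 1642836901) (nat_lit 304) (nat_lit 1866423812) (nat_lit 51) (nat_lit 1) (nat_lit 50) (nat_lit 1) (nat_lit 54) (nat_lit 1) (nat_lit 349) (nat_lit 382) (nat_lit 289)) (XT.lf (nat_lit 228) (nat_lit 901134281) (nat_lit 0) (nat_lit 2503747072) (nat_lit 152) (nat_lit 1099764433) (nat_lit 51) (nat_lit 1) (nat_lit 48) (nat_lit 1) (nat_lit 50) (nat_lit 1) (nat_lit 350) (nat_lit 382) (nat_lit 288))) (XT.nd (nat_lit 78) (nat_lit 380) (nat_lit 0) (XT.lf (nat_lit 76) (nat_lit 1257493439) (nat_lit 0) (nat_lit 1069993348) (nat_lit 304) (nat_lit 2130445122) (nat_lit 45) (nat_lit 1) (nat_lit 44) (nat_lit 1) (nat_lit 48) (nat_lit 1) (nat_lit 351) (nat_lit 382) (nat_lit 287)) (XT.nd (nat_lit 78) (nat_lit 228) (nat_lit 0) (XT.lf (nat_lit 228) (nat_lit 1405738989) (nat_lit 0) (nat_lit 2158913305) (nat_lit 152) (nat_lit 847136437) (nat_lit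 45) (nat_lit 1) (nat_lit 42) (nat_lit 1) (nat_lit 44) (nat_lit 1) (nat_lit 352) (nat_lit 382) (nat_lit 286)) (XT.lf (nat_lit 76) (nat_lit 1449063937) (nat_lit 0) (nat_lit 548185307) (nat_lit 228) (nat_lit 2368947691) (nat_lit 40) (nat_lit 1) (nat_lit 39) (nat_lit 1) (nat_lit 42) (nat_lit 1) (nat_lit 353) (nat_lit 382) (nat_lit 285)))))) (XT.nd (nat_lit 390) (nat_lit 836) (nat_lit 0) (XT.nd (nat_lit 156) (nat_lit 532) (nat_lit 0) (XT.nd (nat_lit 78) (nat_lit 228) (nat_lit 0) (XT.lf (nat_lit 228) (nat_lit 1862043473) (nat_lit 0) (nat_lit 1840852814) (nat_lit 152) (nat_lit 618224000) (nat_lit 40) (nat_lit 1) (nat_lit 37) (nat_lit 1) (nat_lit 39) (nat_lit 1) (nat_lit 354) (nat_lit 382) (nat_lit 284)) (XT.lf (nat_lit 76) (nat_lit 1619269849) (nat_lit 0) (nat_lit 73415193) (nat_lit 228) (nat_lit 2583927810) (nat_lit 35) (nat_lit 1) (nat_lit 34) (nat_lit 1) (nat_lit 37) (nat_lit 1) (nat_lit 355) (nat_lit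 382) (nat_lit 283))) (XT.nd (nat_lit 78) (nat_lit 380) (nat_lit 0) (XT.lf (nat_lit 228) (nat_lit 2273885572) (nat_lit 0) (nat_lit 1547568979) (nat_lit 152) (nat_lit 411114606) (nat_lit 35) (nat_lit 1) (nat_lit 32) (nat_lit 1) (nat_lit 34) (nat_lit 1) (nat_lit 356) (nat_lit 382) (nat_lit 282)) (XT.nd (nat_lit 78) (nat_lit 228) (nat_lit 0) (XT.lf (nat_lit 228) (nat_lit 362766984) (nat_lit 0) (nat_lit 1409477839) (nat_lit 152) (nat_lit 2416818368) (nat_lit 33) (nat_lit 1) (nat_lit 30) (nat_lit 1) (nat_lit 32) (nat_lit 1) (nat_lit 357) (nat_lit 382) (nat_lit 281)) (XT.lf (nat_lit 228) (nat_lit 2644808958) (nat_lit 0) (nat_lit 1277215102) (nat_lit 152) (nat_lit 224043545) (nat_lit 30) (nat_lit 1) (nat_lit 27) (nat_lit 1) (nat_lit 29) (nat_lit 1) (nat_lit 358) (nat_lit 382) (nat_lit 280))))) (XT.nd (nat_lit 156) (nat_lit 456) (nat_lit 0) (XT.nd (nat_lit 78) (nat_lit 228) (nat_lit 0) (XT.lf (nat_lit 228)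 (nat_lit 759458484) (nat_lit 0) (nat_lit 1148035157) (nat_lit 152) (nat_lit 2196031080) (nat_lit 28) (nat_lit 1) (nat_lit 25) (nat_lit 1) (nat_lit 27) (nat_lit 1) (nat_lit 359) (nat_lit 382) (nat_lit 279)) (XT.lf (nat_lit 228) (nat_lit 2978085513) (nat_lit 0) (nat_lit 1028083076) (nat_lit 152) (nat_lit 55382633) (nat_lit 25) (nat_lit 1) (nat_lit 22) (nat_lit 1) (nat_lit 24) (nat_lit 1) (nat_lit 360) (nat_lit 382) (nat_lit 278))) (XT.nd (nat_lit 78) (nat_lit 304) (nat_lit 0) (XT.lf (nat_lit 228) (nat_lit 1118874892) (nat_lit 0) (nat_lit 907191092) (nat_lit 152) (nat_lit 1993877985) (nat_lit 23) (nat_lit 1) (nat_lit 20) (nat_lit 1) (nat_lit 22) (nat_lit 1) (nat_lit 361) (nat_lit 382) (nat_lit 277)) (XT.nd (nat_lit 78) (nat_lit 152) (nat_lit 0) (XT.lf (nat_lit 76) (nat_lit 95106292) (nat_lit 0) (nat_lit 702848410) (nat_lit 152) (nat_lit 3180991494) (nat_lit 19) (nat_lit 1) (nat_lit 18) (nat_lit 1) (nat_lit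 20) (nat_lit 1) (nat_lit 362) (nat_lit 382) (nat_lit 276)) (XT.lf (nat_lit 228) (nat_lit 1443963345) (nat_lit 0) (nat_lit 685411486) (nat_lit 152) (nat_lit 1808885995) (nat_lit 19) (nat_lit 1) (nat_lit 16) (nat_lit 1) (nat_lit 18) (nat_lit 1) (nat_lit 363) (nat_lit 382) (nat_lit 275))))))))
noncomputable def ec111 : XT := (XT.nd (nat_lit 47346) (nat_lit 0) (nat_lit 14136) (XT.nd (nat_lit 46644) (nat_lit 0) (nat_lit 23484) (XT.nd (nat_lit 46254) (nat_lit 0) (nat_lit 28652) (XT.nd (nat_lit 46098) (nat_lit 0) (nat_lit 32072) (XT.nd (nat_lit 78) (nat_lit 152) (nat_lit 0) (XT.lf (nat_lit 76) (nat_lit 229549971) (nat_lit 0) (nat_lit 356192710) (nat_lit 152) (nat_lit 3312458792) (nat_lit 15) (nat_lit 1) (nat_lit 14) (nat_lit 1) (nat_lit 16) (nat_lit 1) (nat_lit 364) (nat_lit 382) (nat_lit 274)) (XT.lf (nat_lit 228) (nat_lit 1737445439) (nat_lit 0) (nat_lit 481277183) (nat_lit 152) (nat_lit 1639695398) (nat_lit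 15) (nat_lit 1) (nat_lit 12) (nat_lit 1) (nat_lit 14) (nat_lit 1) (nat_lit 365) (nat_lit 382) (nat_lit 273))) (XT.nd (nat_lit 78) (nat_lit 836) (nat_lit 0) (XT.lf (nat_lit 988) (nat_lit 2343262985) (nat_lit 0) (nat_lit 3486141488) (nat_lit 912) (nat_lit 5090255240) (nat_lit 458) (nat_lit 1) (nat_lit 445) (nat_lit 1) (nat_lit 457) (nat_lit 1) (nat_lit 274) (nat_lit 383) (nat_lit 363)) (XT.lf (nat_lit 912) (nat_lit 734910612) (nat_lit 0) (nat_lit 1494679796) (nat_lit 836) (nat_lit 8545668571) (nat_lit 446) (nat_lit 1) (nat_lit 434) (nat_lit 1) (nat_lit 445) (nat_lit 1) (nat_lit 275) (nat_lit 383) (nat_lit 362)))) (XT.nd (nat_lit 156) (nat_lit 2432) (nat_lit 0) (XT.nd (nat_lit 78) (nat_lit 912) (nat_lit 0) (XT.lf (nat_lit 76) (nat_lit 9324583080) (nat_lit 0) (nat_lit 895637050) (nat_lit 912) (nat_lit 413138995) (nat_lit 434) (nat_lit 1) (nat_lit 433) (nat_lit 1) (nat_lit 445) (nat_lit 1) (nat_lit 276)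 (nat_lit 383) (nat_lit 361)) (XT.lf (nat_lit 76) (nat_lit 5701260218) (nat_lit 0) (nat_lit 2560734321) (nat_lit 988) (nat_lit 2231677107) (nat_lit 422) (nat_lit 1) (nat_lit 421) (nat_lit 1) (nat_lit 434) (nat_lit 1) (nat_lit 277) (nat_lit 383) (nat_lit 360))) (XT.nd (nat_lit 78) (nat_lit 1596) (nat_lit 0) (XT.lf (nat_lit 76) (nat_lit 2149150553) (nat_lit 0) (nat_lit 4243981123) (nat_lit 912) (nat_lit 3963588107) (nat_lit 411) (nat_lit 1) (nat_lit 410) (nat_lit 1) (nat_lit 422) (nat_lit 1) (nat_lit 278) (nat_lit 383) (nat_lit 359)) (XT.nd (nat_lit 78) (nat_lit 760) (nat_lit 0) (XT.lf (nat_lit 912) (nat_lit 4269628700) (nat_lit 0) (nat_lit 4602108555) (nat_lit 836) (nat_lit 1350530794) (nat_lit 411) (nat_lit 1) (nat_lit 399) (nat_lit 1) (nat_lit 410) (nat_lit 1) (nat_lit 279) (nat_lit 383) (nat_lit 358)) (XT.lf (nat_lit 836) (nat_lit 2399981059) (nat_lit 0) (nat_lit 2881399890) (nat_lit 760) (nat_lit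 4808778485) (nat_lit 400) (nat_lit 1) (nat_lit 389) (nat_lit 1) (nat_lit 399) (nat_lit 1) (nat_lit 280) (nat_lit 383) (nat_lit 357)))))) (XT.nd (nat_lit 312) (nat_lit 2812) (nat_lit 0) (XT.nd (nat_lit 156) (nat_lit 1520) (nat_lit 0) (XT.nd (nat_lit 78) (nat_lit 76) (nat_lit 0) (XT.lf (nat_lit 836) (nat_lit 519542235) (nat_lit 0) (nat_lit 1242976202) (nat_lit 760) (nat_lit 8198100854) (nat_lit 390) (nat_lit 1) (nat_lit 379) (nat_lit 1) (nat_lit 389) (nat_lit 1) (nat_lit 281) (nat_lit 383) (nat_lit 356)) (XT.lf (nat_lit 76) (nat_lit 8136017182) (nat_lit 0) (nat_lit 1365658488) (nat_lit 836) (nat_lit 331473647) (nat_lit 379) (nat_lit 1) (nat_lit 378) (nat_lit 1) (nat_lit 389) (nat_lit 1) (nat_lit 282) (nat_lit 383) (nat_lit 355))) (XT.nd (nat_lit 78) (nat_lit 760) (nat_lit 0) (XT.lf (nat_lit 76) (nat_lit 4608967861) (nat_lit 0) (nat_lit 3271020101) (nat_lit 836) (nat_lit 1827704897) (nat_lit 369) (nat_lit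 1) (nat_lit 368) (nat_lit 1) (nat_lit 379) (nat_lit 1) (nat_lit 283) (nat_lit 383) (nat_lit 354)) (XT.lf (nat_lit 76) (nat_lit 1152968048) (nat_lit 0) (nat_lit 5182484475) (nat_lit 836) (nat_lit 3249205975) (nat_lit 359) (nat_lit 1) (nat_lit 358) (nat_lit 1) (nat_lit 369) (nat_lit 1) (nat_lit 284) (nat_lit 383) (nat_lit 353)))) (XT.nd (nat_lit 156) (nat_lit 1444) (nat_lit 0) (XT.nd (nat_lit 78) (nat_lit 684) (nat_lit 0) (XT.lf (nat_lit 760) (nat_lit 2350038250) (nat_lit 0) (nat_lit 4850858144) (nat_lit 684) (nat_lit 2262803537) (nat_lit 359) (nat_lit 1) (nat_lit 349) (nat_lit 1) (nat_lit 358) (nat_lit 1) (nat_lit 285) (nat_lit 383) (nat_lit 352)) (XT.lf (nat_lit 760) (nat_lit 288959415) (nat_lit 0) (nat_lit 3431747508) (nat_lit 684) (nat_lit 5624210172) (nat_lit 350) (nat_lit 1) (nat_lit 340) (nat_lit 1) (nat_lit 349) (nat_lit 1) (nat_lit 286) (nat_lit 383) (nat_lit 351))) (XT.nd (nat_lit 78) (nat_lit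 684) (nat_lit 0) (XT.lf (nat_lit 76) (nat_lit 322855013) (nat_lit 0) (nat_lit 1749147145) (nat_lit 760) (nat_lit 7156179206) (nat_lit 331) (nat_lit 1) (nat_lit 330) (nat_lit 1) (nat_lit 340) (nat_lit 1) (nat_lit 287) (nat_lit 383) (nat_lit 350)) (XT.nd (nat_lit 78) (nat_lit 0) (nat_lit 0) (XT.lf (nat_lit 760) (nat_lit 5310627788) (nat_lit 0) (nat_lit 759233211) (nat_lit 684) (nat_lit 3043380245) (nat_lit 331) (nat_lit 1) (nat_lit 321) (nat_lit 1) (nat_lit 330) (nat_lit 1) (nat_lit 288) (nat_lit 383) (nat_lit 349)) (XT.lf (nat_lit 76) (nat_lit 2659114374) (nat_lit 0) (nat_lit 5859473104) (nat_lit 760) (nat_lit 481797356) (nat_lit 322) (nat_lit 1) (nat_lit 321) (nat_lit 1) (nat_lit 331) (nat_lit 1) (nat_lit 289) (nat_lit 383) (nat_lit 348))))))) (XT.nd (nat_lit 702) (nat_lit 4484) (nat_lit 0) (XT.nd (nat_lit 312) (nat_lit 2356) (nat_lit 0) (XT.nd (nat_lit 156) (nat_lit 1216) (nat_lit 0) (XT.nd (nat_lit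 78) (nat_lit 684) (nat_lit 0) (XT.lf (nat_lit 684) (nat_lit 966897298) (nat_lit 0) (nat_lit 7236854155) (nat_lit 608) (nat_lit 685740640) (nat_lit 322) (nat_lit 1) (nat_lit 313) (nat_lit 1) (nat_lit 321) (nat_lit 1) (nat_lit 290) (nat_lit 383) (nat_lit 347)) (XT.lf (nat_lit 76) (nat_lit 4792028169) (nat_lit 0) (nat_lit 1202549066) (nat_lit 684) (nat_lit 2785628400) (nat_lit 305) (nat_lit 1) (nat_lit 304) (nat_lit 1) (nat_lit 313) (nat_lit 1) (nat_lit 291) (nat_lit 383) (nat_lit 346))) (XT.nd (nat_lit 78) (nat_lit 608) (nat_lit 0) (XT.lf (nat_lit 76) (nat_lit 1457109046) (nat_lit 0) (nat_lit 3352320176) (nat_lit 684) (nat_lit 3863434674) (nat_lit 297) (nat_lit 1) (nat_lit 296) (nat_lit 1) (nat_lit 305) (nat_lit 1) (nat_lit 292) (nat_lit 383) (nat_lit 345)) (XT.lf (nat_lit 684) (nat_lit 3060930657) (nat_lit 0) (nat_lit 3673845722) (nat_lit 608) (nat_lit 1832534170) (nat_lit 297) (nat_lit 1) (nat_lit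 288) (nat_lit 1) (nat_lit 296) (nat_lit 1) (nat_lit 293) (nat_lit 383) (nat_lit 344)))) (XT.nd (nat_lit 156) (nat_lit 1140) (nat_lit 0) (XT.nd (nat_lit 78) (nat_lit 684) (nat_lit 0) (XT.lf (nat_lit 608) (nat_lit 802173441) (nat_lit 0) (nat_lit 2588857735) (nat_lit 532) (nat_lit 5072526707) (nat_lit 289) (nat_lit 1) (nat_lit 281) (nat_lit 1) (nat_lit 288) (nat_lit 1) (nat_lit 294) (nat_lit 383) (nat_lit 343)) (XT.lf (nat_lit 76) (nat_lit 126436337) (nat_lit 0) (nat_lit 1426488793) (nat_lit 684) (nat_lit 6808642717) (nat_lit 273) (nat_lit 1) (nat_lit 272) (nat_lit 1) (nat_lit 281) (nat_lit 1) (nat_lit 295) (nat_lit 383) (nat_lit 342))) (XT.nd (nat_lit 78) (nat_lit 608) (nat_lit 0) (XT.lf (nat_lit 608) (nat_lit 4607650981) (nat_lit 0) (nat_lit 548120317) (nat_lit 532) (nat_lit 3105209851) (nat_lit 273) (nat_lit 1) (nat_lit 265) (nat_lit 1) (nat_lit 272) (nat_lit 1) (nat_lit 296) (nat_lit 383) (nat_lit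 341)) (XT.nd (nat_lit 78) (nat_lit 608) (nat_lit 0) (XT.lf (nat_lit 76) (nat_lit 1894478800) (nat_lit 0) (nat_lit 5871264794) (nat_lit 608) (nat_lit 396461511) (nat_lit 266) (nat_lit 1) (nat_lit 265) (nat_lit 1) (nat_lit 273) (nat_lit 1) (nat_lit 297) (nat_lit 383) (nat_lit 340)) (XT.lf (nat_lit 76) (nat_lit 6753151607) (nat_lit 0) (nat_lit 22830353) (nat_lit 608) (nat_lit 1289049688) (nat_lit 258) (nat_lit 1) (nat_lit 257) (nat_lit 1) (nat_lit 265) (nat_lit 1) (nat_lit 298) (nat_lit 383) (nat_lit 339)))))) (XT.nd (nat_lit 390) (nat_lit 1900) (nat_lit 0) (XT.nd (nat_lit 156) (nat_lit 1520) (nat_lit 0) (XT.nd (nat_lit 78) (nat_lit 532) (nat_lit 0) (XT.lf (nat_lit 76) (nat_lit 3508968353) (nat_lit 0) (nat_lit 2303564798) (nat_lit 608) (nat_lit 2156595993) (nat_lit 251) (nat_lit 1) (nat_lit 250) (nat_lit 1) (nat_lit 258) (nat_lit 1) (nat_lit 299) (nat_lit 383) (nat_lit 338)) (XT.lf (nat_lit 76) (nat_lit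 333345745) (nat_lit 0) (nat_lit 4568461072) (nat_lit 608) (nat_lit 2973201279) (nat_lit 244) (nat_lit 1) (nat_lit 243) (nat_lit 1) (nat_lit 251) (nat_lit 1) (nat_lit 300) (nat_lit 383) (nat_lit 337))) (XT.nd (nat_lit 78) (nat_lit 1064) (nat_lit 0) (XT.lf (nat_lit 532) (nat_lit 946771569) (nat_lit 0) (nat_lit 4023662363) (nat_lit 456) (nat_lit 2811832400) (nat_lit 244) (nat_lit 1) (nat_lit 237) (nat_lit 1) (nat_lit 243) (nat_lit 1) (nat_lit 301) (nat_lit 383) (nat_lit 336)) (XT.nd (nat_lit 78) (nat_lit 456) (nat_lit 0) (XT.lf (nat_lit 76) (nat_lit 1805806328) (nat_lit 0) (nat_lit 1378391670) (nat_lit 608) (nat_lit 4506818238) (nat_lit 230) (nat_lit 1) (nat_lit 229) (nat_lit 1) (nat_lit 237) (nat_lit 1) (nat_lit 302) (nat_lit 383) (nat_lit 335)) (XT.lf (nat_lit 532) (nat_lit 3920046630) (nat_lit 0) (nat_lit 2378678929) (nat_lit 456) (nat_lit 1302432293) (nat_lit 230) (nat_lit 1) (nat_lit 223) (nat_lit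 1) (nat_lit 229) (nat_lit 1) (nat_lit 303) (nat_lit 383) (nat_lit 334))))) (XT.nd (nat_lit 156) (nat_lit 912) (nat_lit 0) (XT.nd (nat_lit 78) (nat_lit 532) (nat_lit 0) (XT.lf (nat_lit 532) (nat_lit 1536103485) (nat_lit 0) (nat_lit 1608914461) (nat_lit 456) (nat_lit 4367701659) (nat_lit 224) (nat_lit 1) (nat_lit 217) (nat_lit 1) (nat_lit 223) (nat_lit 1) (nat_lit 304) (nat_lit 383) (nat_lit 333)) (XT.lf (nat_lit 76) (nat_lit 64039507) (nat_lit 0) (nat_lit 816122759) (nat_lit 532) (nat_lit 6545635340) (nat_lit 211) (nat_lit 1) (nat_lit 210) (nat_lit 1) (nat_lit 217) (nat_lit 1) (nat_lit 305) (nat_lit 383) (nat_lit 332))) (XT.nd (nat_lit 78) (nat_lit 456) (nat_lit 0) (XT.lf (nat_lit 532) (nat_lit 4193029925) (nat_lit 0) (nat_lit 166781196) (nat_lit 456) (nat_lit 2980071052) (nat_lit 211) (nat_lit 1) (nat_lit 204) (nat_lit 1) (nat_lit 210) (nat_lit 1) (nat_lit 306) (nat_lit 383) (nat_lit 331)) (XT.nd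 (nat_lit 78) (nat_lit 456) (nat_lit 0) (XT.lf (nat_lit 76) (nat_lit 1299371379) (nat_lit 0) (nat_lit 5460054027) (nat_lit 532) (nat_lit 496036575) (nat_lit 205) (nat_lit 1) (nat_lit 204) (nat_lit 1) (nat_lit 211) (nat_lit 1) (nat_lit 307) (nat_lit 383) (nat_lit 330)) (XT.lf (nat_lit 76) (nat_lit 5459326658) (nat_lit 0) (nat_lit 583829177) (nat_lit 456) (nat_lit 1129107041) (nat_lit 199) (nat_lit 1) (nat_lit 198) (nat_lit 1) (nat_lit 204) (nat_lit 1) (nat_lit 308) (nat_lit 383) (nat_lit 329))))))))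
noncomputable def ec112 : XT := (XT.nd (nat_lit 1404) (nat_lit 4636) (nat_lit 0) (XT.nd (nat_lit 702) (nat_lit 2584) (nat_lit 0) (XT.nd (nat_lit 312) (nat_lit 1900) (nat_lit 0) (XT.nd (nat_lit 156) (nat_lit 836) (nat_lit 0) (XT.nd (nat_lit 78) (nat_lit 380) (nat_lit 0) (XT.lf (nat_lit 76) (nat_lit 2424740299) (nat_lit 0) (nat_lit 2924887424) (nat_lit 532) (nat_lit 1740553361) (nat_lit 193) (nat_lit 1) (nat_lit 192) (nat_lit 1) (nat_lit 199) (nat_lit 1) (nat_lit 309) (nat_lit 383) (nat_lit 328)) (XT.lf (nat_lit 456) (nat_lit 1763221915) (nat_lit 0) (nat_lit 4694609173) (nat_lit 380) (nat_lit 551688180) (nat_lit 193) (nat_lit 1) (nat_lit 187) (nat_lit 1) (nat_lit 192) (nat_lit 1) (nat_lit 310) (nat_lit 383) (nat_lit 327))) (XT.nd (nat_lit 78) (nat_lit 380) (nat_lit 0) (XT.lf (nat_lit 76) (nat_lit 3438773022) (nat_lit 0) (nat_lit 621753598) (nat_lit 456) (nat_lit 2869399772) (nat_lit 182) (nat_lit 1)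 (nat_lit 181) (nat_lit 1) (nat_lit 187) (nat_lit 1) (nat_lit 311) (nat_lit 383) (nat_lit 326)) (XT.lf (nat_lit 76) (nat_lit 496227841) (nat_lit 0) (nat_lit 2958893199) (nat_lit 456) (nat_lit 3396426808) (nat_lit 177) (nat_lit 1) (nat_lit 176) (nat_lit 1) (nat_lit 182) (nat_lit 1) (nat_lit 312) (nat_lit 383) (nat_lit 325)))) (XT.nd (nat_lit 156) (nat_lit 1140) (nat_lit 0) (XT.nd (nat_lit 78) (nat_lit 380) (nat_lit 0) (XT.lf (nat_lit 456) (nat_lit 1487200469) (nat_lit 0) (nat_lit 2872919841) (nat_lit 380) (nat_lit 2414149688) (nat_lit 177) (nat_lit 1) (nat_lit 171) (nat_lit 1) (nat_lit 176) (nat_lit 1) (nat_lit 313) (nat_lit 383) (nat_lit 324)) (XT.lf (nat_lit 76) (nat_lit 1436458837) (nat_lit 0) (nat_lit 883481068) (nat_lit 380) (nat_lit 4378264648) (nat_lit 167) (nat_lit 1) (nat_lit 166) (nat_lit 1) (nat_lit 171) (nat_lit 1) (nat_lit 314) (nat_lit 383) (nat_lit 323))) (XT.nd (nat_lit 78) (nat_lit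 760) (nat_lit 0) (XT.lf (nat_lit 456) (nat_lit 3405060011) (nat_lit 0) (nat_lit 1785163238) (nat_lit 380) (nat_lit 1432906016) (nat_lit 167) (nat_lit 1) (nat_lit 161) (nat_lit 1) (nat_lit 166) (nat_lit 1) (nat_lit 315) (nat_lit 383) (nat_lit 322)) (XT.nd (nat_lit 78) (nat_lit 456) (nat_lit 0) (XT.lf (nat_lit 380) (nat_lit 1013277645) (nat_lit 0) (nat_lit 1277621714) (nat_lit 304) (nat_lit 4258315723) (nat_lit 162) (nat_lit 1) (nat_lit 157) (nat_lit 1) (nat_lit 161) (nat_lit 1) (nat_lit 316) (nat_lit 383) (nat_lit 321)) (XT.lf (nat_lit 456) (nat_lit 5139412898) (nat_lit 0) (nat_lit 793341111) (nat_lit 380) (nat_lit 543623980) (nat_lit 157) (nat_lit 1) (nat_lit 151) (nat_lit 1) (nat_lit 156) (nat_lit 1) (nat_lit 317) (nat_lit 383) (nat_lit 320)))))) (XT.nd (nat_lit 312) (nat_lit 1596) (nat_lit 0) (XT.nd (nat_lit 156) (nat_lit 684) (nat_lit 0) (XT.nd (nat_lit 78) (nat_lit 0) (nat_lit 0) (XT.lf (nat_lit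 380) (nat_lit 2742691512) (nat_lit 0) (nat_lit 322385997) (nat_lit 304) (nat_lit 3339339636) (nat_lit 152) (nat_lit 1) (nat_lit 147) (nat_lit 1) (nat_lit 151) (nat_lit 1) (nat_lit 318) (nat_lit 383) (nat_lit 319)) (XT.lf (nat_lit 76) (nat_lit 260801901) (nat_lit 0) (nat_lit 5960194144) (nat_lit 380) (nat_lit 112727814) (nat_lit 148) (nat_lit 1) (nat_lit 147) (nat_lit 1) (nat_lit 152) (nat_lit 1) (nat_lit 319) (nat_lit 383) (nat_lit 318))) (XT.nd (nat_lit 78) (nat_lit 304) (nat_lit 0) (XT.lf (nat_lit 76) (nat_lit 3763707320) (nat_lit 0) (nat_lit 1960042876) (nat_lit 380) (nat_lit 539915555) (nat_lit 143) (nat_lit 1) (nat_lit 142) (nat_lit 1) (nat_lit 147) (nat_lit 1) (nat_lit 320) (nat_lit 383) (nat_lit 317)) (XT.lf (nat_lit 76) (nat_lit 993725486) (nat_lit 0) (nat_lit 4262322623) (nat_lit 380) (nat_lit 938724339) (nat_lit 139) (nat_lit 1) (nat_lit 138) (nat_lit 1) (nat_lit 143) (nat_lit 1) (nat_lit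 321) (nat_lit 383) (nat_lit 316)))) (XT.nd (nat_lit 156) (nat_lit 912) (nat_lit 0) (XT.nd (nat_lit 78) (nat_lit 304) (nat_lit 0) (XT.lf (nat_lit 76) (nat_lit 4391252281) (nat_lit 0) (nat_lit 415603419) (nat_lit 380) (nat_lit 1319966213) (nat_lit 134) (nat_lit 1) (nat_lit 133) (nat_lit 1) (nat_lit 138) (nat_lit 1) (nat_lit 322) (nat_lit 383) (nat_lit 315)) (XT.lf (nat_lit 76) (nat_lit 1654582218) (nat_lit 0) (nat_lit 2716030587) (nat_lit 380) (nat_lit 1689086686) (nat_lit 130) (nat_lit 1) (nat_lit 129) (nat_lit 1) (nat_lit 134) (nat_lit 1) (nat_lit 323) (nat_lit 383) (nat_lit 314))) (XT.nd (nat_lit 78) (nat_lit 608) (nat_lit 0) (XT.lf (nat_lit 380) (nat_lit 999042556) (nat_lit 0) (nat_lit 3959041513) (nat_lit 304) (nat_lit 1035545385) (nat_lit 130) (nat_lit 1) (nat_lit 125) (nat_lit 1) (nat_lit 129) (nat_lit 1) (nat_lit 324) (nat_lit 383) (nat_lit 313)) (XT.nd (nat_lit 78) (nat_lit 304) (nat_lit 0)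 (XT.lf (nat_lit 76) (nat_lit 2249196131) (nat_lit 0) (nat_lit 1309402085) (nat_lit 304) (nat_lit 2369742504) (nat_lit 122) (nat_lit 1) (nat_lit 121) (nat_lit 1) (nat_lit 125) (nat_lit 1) (nat_lit 325) (nat_lit 383) (nat_lit 312)) (XT.lf (nat_lit 380) (nat_lit 2285882295) (nat_lit 0) (nat_lit 3179218237) (nat_lit 304) (nat_lit 398922100) (nat_lit 122) (nat_lit 1) (nat_lit 117) (nat_lit 1) (nat_lit 121) (nat_lit 1) (nat_lit 326) (nat_lit 383) (nat_lit 311))))))) (XT.nd (nat_lit 702) (nat_lit 2128) (nat_lit 0) (XT.nd (nat_lit 312) (nat_lit 1292) (nat_lit 0) (XT.nd (nat_lit 156) (nat_lit 608) (nat_lit 0) (XT.nd (nat_lit 78) (nat_lit 304) (nat_lit 0) (XT.lf (nat_lit 76) (nat_lit 2782941699) (nat_lit 0) (nat_lit 31432894) (nat_lit 304) (nat_lit 2986167203) (nat_lit 114) (nat_lit 1) (nat_lit 113) (nat_lit 1) (nat_lit 117) (nat_lit 1) (nat_lit 327) (nat_lit 383) (nat_lit 310)) (XT.lf (nat_lit 76) (nat_lit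 174499401) (nat_lit 0) (nat_lit 2289074608) (nat_lit 380) (nat_lit 3274309169) (nat_lit 110) (nat_lit 1) (nat_lit 109) (nat_lit 1) (nat_lit 114) (nat_lit 1) (nat_lit 328) (nat_lit 383) (nat_lit 309))) (XT.nd (nat_lit 78) (nat_lit 380) (nat_lit 0) (XT.lf (nat_lit 304) (nat_lit 1143029843) (nat_lit 0) (nat_lit 2125169580) (nat_lit 228) (nat_lit 2407809754) (nat_lit 110) (nat_lit 1) (nat_lit 106) (nat_lit 1) (nat_lit 109) (nat_lit 1) (nat_lit 329) (nat_lit 383) (nat_lit 308)) (XT.lf (nat_lit 76) (nat_lit 687438608) (nat_lit 0) (nat_lit 1118552270) (nat_lit 380) (nat_lit 3809057572) (nat_lit 102) (nat_lit 1) (nat_lit 101) (nat_lit 1) (nat_lit 106) (nat_lit 1) (nat_lit 330) (nat_lit 383) (nat_lit 307)))) (XT.nd (nat_lit 156) (nat_lit 760) (nat_lit 0) (XT.nd (nat_lit 78) (nat_lit 304) (nat_lit 0) (XT.lf (nat_lit 304) (nat_lit 2207346212) (nat_lit 0) (nat_lit 1494266306) (nat_lit 228) (nat_lit 1853152453)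 (nat_lit 102) (nat_lit 1) (nat_lit 98) (nat_lit 1) (nat_lit 101) (nat_lit 1) (nat_lit 331) (nat_lit 383) (nat_lit 306)) (XT.lf (nat_lit 76) (nat_lit 1149588575) (nat_lit 0) (nat_lit 54855096) (nat_lit 304) (nat_lit 4290993205) (nat_lit 95) (nat_lit 1) (nat_lit 94) (nat_lit 1) (nat_lit 98) (nat_lit 1) (nat_lit 332) (nat_lit 383) (nat_lit 305))) (XT.nd (nat_lit 78) (nat_lit 532) (nat_lit 0) (XT.lf (nat_lit 304) (nat_lit 3169877949) (nat_lit 0) (nat_lit 917374477) (nat_lit 228) (nat_lit 1349431174) (nat_lit 95) (nat_lit 1) (nat_lit 91) (nat_lit 1) (nat_lit 94) (nat_lit 1) (nat_lit 333) (nat_lit 383) (nat_lit 304)) (XT.nd (nat_lit 78) (nat_lit 304) (nat_lit 0) (XT.lf (nat_lit 304) (nat_lit 922545859) (nat_lit 0) (nat_lit 648509956) (nat_lit 228) (nat_lit 3807747234) (nat_lit 92) (nat_lit 1) (nat_lit 88) (nat_lit 1) (nat_lit 91) (nat_lit 1) (nat_lit 334) (nat_lit 383) (nat_lit 303)) (XT.lf (nat_lit 304)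 (nat_lit 4038731233) (nat_lit 0) (nat_lit 390334478) (nat_lit 228) (nat_lit 892577139) (nat_lit 88) (nat_lit 1) (nat_lit 84) (nat_lit 1) (nat_lit 87) (nat_lit 1) (nat_lit 335) (nat_lit 383) (nat_lit 302)))))) (XT.nd (nat_lit 390) (nat_lit 1140) (nat_lit 0) (XT.nd (nat_lit 156) (nat_lit 684) (nat_lit 0) (XT.nd (nat_lit 78) (nat_lit 76) (nat_lit 0) (XT.lf (nat_lit 304) (nat_lit 1808860208) (nat_lit 0) (nat_lit 140553702) (nat_lit 228) (nat_lit 3315739150) (nat_lit 85) (nat_lit 1) (nat_lit 81) (nat_lit 1) (nat_lit 84) (nat_lit 1) (nat_lit 336) (nat_lit 383) (nat_lit 301)) (XT.lf (nat_lit 76) (nat_lit 4731281450) (nat_lit 0) (nat_lit 388726172) (nat_lit 304) (nat_lit 89508088) (nat_lit 81) (nat_lit 1) (nat_lit 80) (nat_lit 1) (nat_lit 84) (nat_lit 1) (nat_lit 337) (nat_lit 383) (nat_lit 300))) (XT.nd (nat_lit 78) (nat_lit 456) (nat_lit 0) (XT.lf (nat_lit 76) (nat_lit 2289949756) (nat_lit 0) (nat_lit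 2545834985) (nat_lit 304) (nat_lit 318554831) (nat_lit 78) (nat_lit 1) (nat_lit 77) (nat_lit 1) (nat_lit 81) (nat_lit 1) (nat_lit 338) (nat_lit 383) (nat_lit 299)) (XT.nd (nat_lit 78) (nat_lit 228) (nat_lit 0) (XT.lf (nat_lit 304) (nat_lit 426695214) (nat_lit 0) (nat_lit 4575001846) (nat_lit 228) (nat_lit 98407566) (nat_lit 78) (nat_lit 1) (nat_lit 74) (nat_lit 1) (nat_lit 77) (nat_lit 1) (nat_lit 339) (nat_lit 383) (nat_lit 298)) (XT.lf (nat_lit 76) (nat_lit 2594489844) (nat_lit 0) (nat_lit 1716601824) (nat_lit 228) (nat_lit 735193601) (nat_lit 72) (nat_lit 1) (nat_lit 71) (nat_lit 1) (nat_lit 74) (nat_lit 1) (nat_lit 340) (nat_lit 383) (nat_lit 297))))) (XT.nd (nat_lit 156) (nat_lit 684) (nat_lit 0) (XT.nd (nat_lit 78) (nat_lit 228) (nat_lit 0) (XT.lf (nat_lit 76) (nat_lit 243578271) (nat_lit 0) (nat_lit 3824058980) (nat_lit 304) (nat_lit 925702033) (nat_lit 69) (nat_lit 1) (nat_lit 68) (nat_lit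 1) (nat_lit 72) (nat_lit 1) (nat_lit 341) (nat_lit 383) (nat_lit 296)) (XT.lf (nat_lit 76) (nat_lit 2865165177) (nat_lit 0) (nat_lit 961391936) (nat_lit 228) (nat_lit 1114350431) (nat_lit 66) (nat_lit 1) (nat_lit 65) (nat_lit 1) (nat_lit 68) (nat_lit 1) (nat_lit 342) (nat_lit 383) (nat_lit 295))) (XT.nd (nat_lit 78) (nat_lit 456) (nat_lit 0) (XT.lf (nat_lit 76) (nat_lit 550521351) (nat_lit 0) (nat_lit 3048079360) (nat_lit 304) (nat_lit 1290595576) (nat_lit 63) (nat_lit 1) (nat_lit 62) (nat_lit 1) (nat_lit 66) (nat_lit 1) (nat_lit 343) (nat_lit 383) (nat_lit 294)) (XT.nd (nat_lit 78) (nat_lit 228) (nat_lit 0) (XT.lf (nat_lit 76) (nat_lit 3104783079) (nat_lit 0) (nat_lit 274396982) (nat_lit 228) (nat_lit 1458930992) (nat_lit 60) (nat_lit 1) (nat_lit 59) (nat_lit 1) (nat_lit 62) (nat_lit 1) (nat_lit 344) (nat_lit 383) (nat_lit 293)) (XT.lf (nat_lit 76) (nat_lit 826454818) (nat_lit 0) (nat_lit 2339175331)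 (nat_lit 304) (nat_lit 1621964985) (nat_lit 57) (nat_lit 1) (nat_lit 56) (nat_lit 1) (nat_lit 60) (nat_lit 1) (nat_lit 345) (nat_lit 383) (nat_lit 292))))))))
noncomputable def ec113 : XT := (XT.nd (nat_lit 47658) (nat_lit 0) (nat_lit 19228) (XT.nd (nat_lit 702) (nat_lit 1520) (nat_lit 0) (XT.nd (nat_lit 312) (nat_lit 912) (nat_lit 0) (XT.nd (nat_lit 156) (nat_lit 456) (nat_lit 0) (XT.nd (nat_lit 78) (nat_lit 304) (nat_lit 0) (XT.lf (nat_lit 228) (nat_lit 354395334) (nat_lit 0) (nat_lit 2963838298) (nat_lit 152) (nat_lit 1419525925) (nat_lit 57) (nat_lit 1) (nat_lit 54) (nat_lit 1) (nat_lit 56) (nat_lit 1) (nat_lit 346) (nat_lit 383) (nat_lit 291)) (XT.lf (nat_lit 76) (nat_lit 1073909001) (nat_lit 0) (nat_lit 1692122008) (nat_lit 304) (nat_lit 1922416527) (nat_lit 51) (nat_lit 1) (nat_lit 50) (nat_lit 1) (nat_lit 54) (nat_lit 1) (nat_lit 347) (nat_lit 383) (nat_lit 290))) (XT.nd (nat_lit 78) (nat_lit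 304) (nat_lit 0) (XT.lf (nat_lit 228) (nat_lit 928168310) (nat_lit 0) (nat_lit 2578859484) (nat_lit 152) (nat_lit 1132757365) (nat_lit 51) (nat_lit 1) (nat_lit 48) (nat_lit 1) (nat_lit 50) (nat_lit 1) (nat_lit 348) (nat_lit 383) (nat_lit 289)) (XT.lf (nat_lit 76) (nat_lit 1295218243) (nat_lit 0) (nat_lit 1102093148) (nat_lit 304) (nat_lit 2194358475) (nat_lit 45) (nat_lit 1) (nat_lit 44) (nat_lit 1) (nat_lit 48) (nat_lit 1) (nat_lit 349) (nat_lit 383) (nat_lit 288)))) (XT.nd (nat_lit 156) (nat_lit 532) (nat_lit 0) (XT.nd (nat_lit 78) (nat_lit 228) (nat_lit 0) (XT.lf (nat_lit 228) (nat_lit 1447911159) (nat_lit 0) (nat_lit 2223680704) (nat_lit 152) (nat_lit 872550531) (nat_lit 45) (nat_lit 1) (nat_lit 42) (nat_lit 1) (nat_lit 44) (nat_lit 1) (nat_lit 350) (nat_lit 383) (nat_lit 287)) (XT.lf (nat_lit 76) (nat_lit 1492535855) (nat_lit 0) (nat_lit 564630866) (nat_lit 228) (nat_lit 2440016121) (nat_lit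 40) (nat_lit 1) (nat_lit 39) (nat_lit 1) (nat_lit 42) (nat_lit 1) (nat_lit 351) (nat_lit 383) (nat_lit 286))) (XT.nd (nat_lit 78) (nat_lit 380) (nat_lit 0) (XT.lf (nat_lit 228) (nat_lit 1917904778) (nat_lit 0) (nat_lit 1896078398) (nat_lit 152) (nat_lit 636770720) (nat_lit 40) (nat_lit 1) (nat_lit 37) (nat_lit 1) (nat_lit 39) (nat_lit 1) (nat_lit 352) (nat_lit 383) (nat_lit 285)) (XT.nd (nat_lit 78) (nat_lit 152) (nat_lit 0) (XT.lf (nat_lit 76) (nat_lit 1667847944) (nat_lit 0) (nat_lit 75617649) (nat_lit 228) (nat_lit 2661445644) (nat_lit 35) (nat_lit 1) (nat_lit 34) (nat_lit 1) (nat_lit 37) (nat_lit 1) (nat_lit 353) (nat_lit 383) (nat_lit 284)) (XT.lf (nat_lit 228) (nat_lit 2342102139) (nat_lit 0) (nat_lit 1593996049) (nat_lit 152) (nat_lit 423448044) (nat_lit 35) (nat_lit 1) (nat_lit 32) (nat_lit 1) (nat_lit 34) (nat_lit 1) (nat_lit 354) (nat_lit 383) (nat_lit 283)))))) (XT.nd (nat_lit 312) (nat_lit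 760) (nat_lit 0) (XT.nd (nat_lit 156) (nat_lit 380) (nat_lit 0) (XT.nd (nat_lit 78) (nat_lit 228) (nat_lit 0) (XT.lf (nat_lit 228) (nat_lit 373649993) (nat_lit 0) (nat_lit 1451762174) (nat_lit 152) (nat_lit 2489322919) (nat_lit 33) (nat_lit 1) (nat_lit 30) (nat_lit 1) (nat_lit 32) (nat_lit 1) (nat_lit 355) (nat_lit 383) (nat_lit 282)) (XT.lf (nat_lit 228) (nat_lit 2724153227) (nat_lit 0) (nat_lit 1315531555) (nat_lit 152) (nat_lit 230764851) (nat_lit 30) (nat_lit 1) (nat_lit 27) (nat_lit 1) (nat_lit 29) (nat_lit 1) (nat_lit 356) (nat_lit 383) (nat_lit 281))) (XT.nd (nat_lit 78) (nat_lit 228) (nat_lit 0) (XT.lf (nat_lit 228) (nat_lit 782242239) (nat_lit 0) (nat_lit 1182476212) (nat_lit 152) (nat_lit 2261912013) (nat_lit 28) (nat_lit 1) (nat_lit 25) (nat_lit 1) (nat_lit 27) (nat_lit 1) (nat_lit 357) (nat_lit 383) (nat_lit 280)) (XT.lf (nat_lit 228) (nat_lit 3067428079) (nat_lit 0) (nat_lit 1058925568)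 (nat_lit 152) (nat_lit 57044112) (nat_lit 25) (nat_lit 1) (nat_lit 22) (nat_lit 1) (nat_lit 24) (nat_lit 1) (nat_lit 358) (nat_lit 383) (nat_lit 279)))) (XT.nd (nat_lit 156) (nat_lit 456) (nat_lit 0) (XT.nd (nat_lit 78) (nat_lit 152) (nat_lit 0) (XT.lf (nat_lit 228) (nat_lit 1152441138) (nat_lit 0) (nat_lit 934406825) (nat_lit 152) (nat_lit 2053694324) (nat_lit 23) (nat_lit 1) (nat_lit 20) (nat_lit 1) (nat_lit 22) (nat_lit 1) (nat_lit 359) (nat_lit 383) (nat_lit 278)) (XT.lf (nat_lit 76) (nat_lit 97959481) (nat_lit 0) (nat_lit 723933862) (nat_lit 152) (nat_lit 3276421239) (nat_lit 19) (nat_lit 1) (nat_lit 18) (nat_lit 1) (nat_lit 20) (nat_lit 1) (nat_lit 360) (nat_lit 383) (nat_lit 277))) (XT.nd (nat_lit 78) (nat_lit 304) (nat_lit 0) (XT.lf (nat_lit 228) (nat_lit 1487282245) (nat_lit 0) (nat_lit 705973830) (nat_lit 152) (nat_lit 1863152575) (nat_lit 19) (nat_lit 1) (nat_lit 16) (nat_lit 1) (nat_lit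 18) (nat_lit 1) (nat_lit 361) (nat_lit 383) (nat_lit 276)) (XT.nd (nat_lit 78) (nat_lit 152) (nat_lit 0) (XT.lf (nat_lit 76) (nat_lit 236436470) (nat_lit 0) (nat_lit 366878492) (nat_lit 152) (nat_lit 3411832556) (nat_lit 15) (nat_lit 1) (nat_lit 14) (nat_lit 1) (nat_lit 16) (nat_lit 1) (nat_lit 362) (nat_lit 383) (nat_lit 275)) (XT.lf (nat_lit 228) (nat_lit 1789568803) (nat_lit 0) (nat_lit 495715499) (nat_lit 152) (nat_lit 1688886260) (nat_lit 15) (nat_lit 1) (nat_lit 12) (nat_lit 1) (nat_lit 14) (nat_lit 1) (nat_lit 363) (nat_lit 383) (nat_lit 274))))))) (XT.nd (nat_lit 702) (nat_lit 5700) (nat_lit 0) (XT.nd (nat_lit 312) (nat_lit 2964) (nat_lit 0) (XT.nd (nat_lit 156) (nat_lit 1520) (nat_lit 0) (XT.nd (nat_lit 78) (nat_lit 836) (nat_lit 0) (XT.lf (nat_lit 76) (nat_lit 2213625070) (nat_lit 0) (nat_lit 4371300556) (nat_lit 912) (nat_lit 4082495750) (nat_lit 411) (nat_lit 1) (nat_lit 410) (nat_lit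 1) (nat_lit 422) (nat_lit 1) (nat_lit 276) (nat_lit 384) (nat_lit 360)) (XT.lf (nat_lit 912) (nat_lit 4397717561) (nat_lit 0) (nat_lit 4740171811) (nat_lit 836) (nat_lit 1391046718) (nat_lit 411) (nat_lit 1) (nat_lit 399) (nat_lit 1) (nat_lit 410) (nat_lit 1) (nat_lit 277) (nat_lit 384) (nat_lit 359))) (XT.nd (nat_lit 78) (nat_lit 760) (nat_lit 0) (XT.lf (nat_lit 836) (nat_lit 2471980491) (nat_lit 0) (nat_lit 2967841887) (nat_lit 760) (nat_lit 4953041840) (nat_lit 400) (nat_lit 1) (nat_lit 389) (nat_lit 1) (nat_lit 399) (nat_lit 1) (nat_lit 278) (nat_lit 384) (nat_lit 358)) (XT.lf (nat_lit 836) (nat_lit 535128502) (nat_lit 0) (nat_lit 1280265488) (nat_lit 760) (nat_lit 8444043879) (nat_lit 390) (nat_lit 1) (nat_lit 379) (nat_lit 1) (nat_lit 389) (nat_lit 1) (nat_lit 279) (nat_lit 384) (nat_lit 357)))) (XT.nd (nat_lit 156) (nat_lit 2128) (nat_lit 0) (XT.nd (nat_lit 78) (nat_lit 760) (nat_lit 0) (XT.lf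 (nat_lit 76) (nat_lit 8380097697) (nat_lit 0) (nat_lit 1406628243) (nat_lit 836) (nat_lit 341417856) (nat_lit 379) (nat_lit 1) (nat_lit 378) (nat_lit 1) (nat_lit 389) (nat_lit 1) (nat_lit 280) (nat_lit 384) (nat_lit 356)) (XT.lf (nat_lit 76) (nat_lit 4747236897) (nat_lit 0) (nat_lit 3369150704) (nat_lit 836) (nat_lit 1882536044) (nat_lit 369) (nat_lit 1) (nat_lit 368) (nat_lit 1) (nat_lit 379) (nat_lit 1) (nat_lit 281) (nat_lit 384) (nat_lit 355))) (XT.nd (nat_lit 78) (nat_lit 1368) (nat_lit 0) (XT.lf (nat_lit 76) (nat_lit 1187557090) (nat_lit 0) (nat_lit 5337959009) (nat_lit 836) (nat_lit 3346682154) (nat_lit 359) (nat_lit 1) (nat_lit 358) (nat_lit 1) (nat_lit 369) (nat_lit 1) (nat_lit 282) (nat_lit 384) (nat_lit 354)) (XT.nd (nat_lit 78) (nat_lit 684) (nat_lit 0) (XT.lf (nat_lit 760) (nat_lit 2420539397) (nat_lit 0) (nat_lit 4996383888) (nat_lit 684) (nat_lit 2330687643) (nat_lit 359) (nat_lit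 1) (nat_lit 349) (nat_lit 1) (nat_lit 358) (nat_lit 1) (nat_lit 283) (nat_lit 384) (nat_lit 353)) (XT.lf (nat_lit 760) (nat_lit 297628198) (nat_lit 0) (nat_lit 3534699934) (nat_lit 684) (nat_lit 5792936477) (nat_lit 350) (nat_lit 1) (nat_lit 340) (nat_lit 1) (nat_lit 349) (nat_lit 1) (nat_lit 284) (nat_lit 384) (nat_lit 352)))))) (XT.nd (nat_lit 390) (nat_lit 2964) (nat_lit 0) (XT.nd (nat_lit 156) (nat_lit 1292) (nat_lit 0) (XT.nd (nat_lit 78) (nat_lit 684) (nat_lit 0) (XT.lf (nat_lit 76) (nat_lit 332540664) (nat_lit 0) (nat_lit 1801621559) (nat_lit 760) (nat_lit 7370864583) (nat_lit 331) (nat_lit 1) (nat_lit 330) (nat_lit 1) (nat_lit 340) (nat_lit 1) (nat_lit 285) (nat_lit 384) (nat_lit 351)) (XT.lf (nat_lit 760) (nat_lit 5469946622) (nat_lit 0) (nat_lit 782010208) (nat_lit 684) (nat_lit 3134681652) (nat_lit 331) (nat_lit 1) (nat_lit 321) (nat_lit 1) (nat_lit 330) (nat_lit 1) (nat_lit 286) (nat_lit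 384) (nat_lit 350))) (XT.nd (nat_lit 78) (nat_lit 1292) (nat_lit 0) (XT.lf (nat_lit 76) (nat_lit 2738887805) (nat_lit 0) (nat_lit 6035257297) (nat_lit 760) (nat_lit 496251277) (nat_lit 322) (nat_lit 1) (nat_lit 321) (nat_lit 1) (nat_lit 331) (nat_lit 1) (nat_lit 287) (nat_lit 384) (nat_lit 349)) (XT.nd (nat_lit 78) (nat_lit 684) (nat_lit 0) (XT.lf (nat_lit 684) (nat_lit 995904217) (nat_lit 0) (nat_lit 7453959779) (nat_lit 608) (nat_lit 706312859) (nat_lit 322) (nat_lit 1) (nat_lit 313) (nat_lit 1) (nat_lit 321) (nat_lit 1) (nat_lit 288) (nat_lit 384) (nat_lit 348)) (XT.lf (nat_lit 76) (nat_lit 4935789014) (nat_lit 0) (nat_lit 1238625538) (nat_lit 684) (nat_lit 2869197252) (nat_lit 305) (nat_lit 1) (nat_lit 304) (nat_lit 1) (nat_lit 313) (nat_lit 1) (nat_lit 289) (nat_lit 384) (nat_lit 347))))) (XT.nd (nat_lit 156) (nat_lit 1748) (nat_lit 0) (XT.nd (nat_lit 78) (nat_lit 608) (nat_lit 0) (XT.lf (nat_lit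 76) (nat_lit 1500822317) (nat_lit 0) (nat_lit 3452889781) (nat_lit 684) (nat_lit 3979337714) (nat_lit 297) (nat_lit 1) (nat_lit 296) (nat_lit 1) (nat_lit 305) (nat_lit 1) (nat_lit 290) (nat_lit 384) (nat_lit 346)) (XT.lf (nat_lit 684) (nat_lit 3152758577) (nat_lit 0) (nat_lit 3784061093) (nat_lit 608) (nat_lit 1887510195) (nat_lit 297) (nat_lit 1) (nat_lit 288) (nat_lit 1) (nat_lit 296) (nat_lit 1) (nat_lit 291) (nat_lit 384) (nat_lit 345))) (XT.nd (nat_lit 78) (nat_lit 1216) (nat_lit 0) (XT.lf (nat_lit 608) (nat_lit 826238644) (nat_lit 0) (nat_lit 2666523467) (nat_lit 532) (nat_lit 5224702508) (nat_lit 289) (nat_lit 1) (nat_lit 281) (nat_lit 1) (nat_lit 288) (nat_lit 1) (nat_lit 292) (nat_lit 384) (nat_lit 344)) (XT.nd (nat_lit 78) (nat_lit 532) (nat_lit 0) (XT.lf (nat_lit 76) (nat_lit 130229428) (nat_lit 0) (nat_lit 1469283457) (nat_lit 684) (nat_lit 7012901999) (nat_lit 273) (nat_lit 1) (nat_lit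 272) (nat_lit 1) (nat_lit 281) (nat_lit 1) (nat_lit 293) (nat_lit 384) (nat_lit 343)) (XT.lf (nat_lit 608) (nat_lit 4745880510) (nat_lit 0) (nat_lit 564563927) (nat_lit 532) (nat_lit 3198366146) (nat_lit 273) (nat_lit 1) (nat_lit 265) (nat_lit 1) (nat_lit 272) (nat_lit 1) (nat_lit 294) (nat_lit 384) (nat_lit 342))))))))
noncomputable def ec114 : XT := (XT.nd (nat_lit 1404) (nat_lit 5700) (nat_lit 0) (XT.nd (nat_lit 702) (nat_lit 3344) (nat_lit 0) (XT.nd (nat_lit 312) (nat_lit 2508) (nat_lit 0) (XT.nd (nat_lit 156) (nat_lit 1064) (nat_lit 0) (XT.nd (nat_lit 78) (nat_lit 608) (nat_lit 0) (XT.lf (nat_lit 76) (nat_lit 1951313164) (nat_lit 0) (nat_lit 6047402738) (nat_lit 608) (nat_lit 408355356) (nat_lit 266) (nat_lit 1) (nat_lit 265) (nat_lit 1) (nat_lit 273) (nat_lit 1) (nat_lit 295) (nat_lit 384) (nat_lit 341)) (XT.lf (nat_lit 76) (nat_lit 6955746155) (nat_lit 0) (nat_lit 23515264) (nat_lit 608) (nat_lit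 1327721179) (nat_lit 258) (nat_lit 1) (nat_lit 257) (nat_lit 1) (nat_lit 265) (nat_lit 1) (nat_lit 296) (nat_lit 384) (nat_lit 340))) (XT.nd (nat_lit 78) (nat_lit 532) (nat_lit 0) (XT.lf (nat_lit 76) (nat_lit 3614237404) (nat_lit 0) (nat_lit 2372671741) (nat_lit 608) (nat_lit 2221293873) (nat_lit 251) (nat_lit 1) (nat_lit 250) (nat_lit 1) (nat_lit 258) (nat_lit 1) (nat_lit 297) (nat_lit 384) (nat_lit 339)) (XT.lf (nat_lit 76) (nat_lit 343346118) (nat_lit 0) (nat_lit 4705514904) (nat_lit 608) (nat_lit 3062397317) (nat_lit 244) (nat_lit 1) (nat_lit 243) (nat_lit 1) (nat_lit 251) (nat_lit 1) (nat_lit 298) (nat_lit 384) (nat_lit 338)))) (XT.nd (nat_lit 156) (nat_lit 1444) (nat_lit 0) (XT.nd (nat_lit 78) (nat_lit 608) (nat_lit 0) (XT.lf (nat_lit 532) (nat_lit 975174716) (nat_lit 0) (nat_lit 4144372234) (nat_lit 456) (nat_lit 2896187372) (nat_lit 244) (nat_lit 1) (nat_lit 237) (nat_lit 1) (nat_lit 243)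 (nat_lit 1) (nat_lit 299) (nat_lit 384) (nat_lit 337)) (XT.lf (nat_lit 76) (nat_lit 1859980518) (nat_lit 0) (nat_lit 1419743420) (nat_lit 608) (nat_lit 4642022785) (nat_lit 230) (nat_lit 1) (nat_lit 229) (nat_lit 1) (nat_lit 237) (nat_lit 1) (nat_lit 300) (nat_lit 384) (nat_lit 336))) (XT.nd (nat_lit 78) (nat_lit 988) (nat_lit 0) (XT.lf (nat_lit 532) (nat_lit 4037648029) (nat_lit 0) (nat_lit 2450039297) (nat_lit 456) (nat_lit 1341505262) (nat_lit 230) (nat_lit 1) (nat_lit 223) (nat_lit 1) (nat_lit 229) (nat_lit 1) (nat_lit 301) (nat_lit 384) (nat_lit 335)) (XT.nd (nat_lit 78) (nat_lit 532) (nat_lit 0) (XT.lf (nat_lit 532) (nat_lit 1582186589) (nat_lit 0) (nat_lit 1657181895) (nat_lit 456) (nat_lit 4498732709) (nat_lit 224) (nat_lit 1) (nat_lit 217) (nat_lit 1) (nat_lit 223) (nat_lit 1) (nat_lit 302) (nat_lit 384) (nat_lit 334)) (XT.lf (nat_lit 76) (nat_lit 65960692) (nat_lit 0) (nat_lit 840606442)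 (nat_lit 532) (nat_lit 6742004401) (nat_lit 211) (nat_lit 1) (nat_lit 210) (nat_lit 1) (nat_lit 217) (nat_lit 1) (nat_lit 303) (nat_lit 384) (nat_lit 333)))))) (XT.nd (nat_lit 312) (nat_lit 1976) (nat_lit 0) (XT.nd (nat_lit 156) (nat_lit 912) (nat_lit 0) (XT.nd (nat_lit 78) (nat_lit 0) (nat_lit 0) (XT.lf (nat_lit 532) (nat_lit 4318820823) (nat_lit 0) (nat_lit 171784632) (nat_lit 456) (nat_lit 3069473184) (nat_lit 211) (nat_lit 1) (nat_lit 204) (nat_lit 1) (nat_lit 210) (nat_lit 1) (nat_lit 304) (nat_lit 384) (nat_lit 332)) (XT.lf (nat_lit 76) (nat_lit 1338352521) (nat_lit 0) (nat_lit 5623855647) (nat_lit 532) (nat_lit 510917672) (nat_lit 205) (nat_lit 1) (nat_lit 204) (nat_lit 1) (nat_lit 211) (nat_lit 1) (nat_lit 305) (nat_lit 384) (nat_lit 331))) (XT.nd (nat_lit 78) (nat_lit 456) (nat_lit 0) (XT.lf (nat_lit 76) (nat_lit 5623106457) (nat_lit 0) (nat_lit 601344052) (nat_lit 456) (nat_lit 1162980252)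 (nat_lit 199) (nat_lit 1) (nat_lit 198) (nat_lit 1) (nat_lit 204) (nat_lit 1) (nat_lit 306) (nat_lit 384) (nat_lit 330)) (XT.lf (nat_lit 76) (nat_lit 2497482508) (nat_lit 0) (nat_lit 3012634046) (nat_lit 532) (nat_lit 1792769962) (nat_lit 193) (nat_lit 1) (nat_lit 192) (nat_lit 1) (nat_lit 199) (nat_lit 1) (nat_lit 307) (nat_lit 384) (nat_lit 329)))) (XT.nd (nat_lit 156) (nat_lit 1140) (nat_lit 0) (XT.nd (nat_lit 78) (nat_lit 456) (nat_lit 0) (XT.lf (nat_lit 456) (nat_lit 1816118573) (nat_lit 0) (nat_lit 4835447448) (nat_lit 380) (nat_lit 568238826) (nat_lit 193) (nat_lit 1) (nat_lit 187) (nat_lit 1) (nat_lit 192) (nat_lit 1) (nat_lit 308) (nat_lit 384) (nat_lit 328)) (XT.lf (nat_lit 76) (nat_lit 3541936213) (nat_lit 0) (nat_lit 640406206) (nat_lit 456) (nat_lit 2955481765) (nat_lit 182) (nat_lit 1) (nat_lit 181) (nat_lit 1) (nat_lit 187) (nat_lit 1) (nat_lit 309) (nat_lit 384) (nat_lit 327))) (XT.nd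 (nat_lit 78) (nat_lit 760) (nat_lit 0) (XT.lf (nat_lit 76) (nat_lit 511114676) (nat_lit 0) (nat_lit 3047659995) (nat_lit 456) (nat_lit 3498319612) (nat_lit 177) (nat_lit 1) (nat_lit 176) (nat_lit 1) (nat_lit 182) (nat_lit 1) (nat_lit 310) (nat_lit 384) (nat_lit 326)) (XT.nd (nat_lit 78) (nat_lit 380) (nat_lit 0) (XT.lf (nat_lit 456) (nat_lit 1531816484) (nat_lit 0) (nat_lit 2959107436) (nat_lit 380) (nat_lit 2486574179) (nat_lit 177) (nat_lit 1) (nat_lit 171) (nat_lit 1) (nat_lit 176) (nat_lit 1) (nat_lit 311) (nat_lit 384) (nat_lit 325)) (XT.lf (nat_lit 76) (nat_lit 1479552602) (nat_lit 0) (nat_lit 909985500) (nat_lit 380) (nat_lit 4509612587) (nat_lit 167) (nat_lit 1) (nat_lit 166) (nat_lit 1) (nat_lit 171) (nat_lit 1) (nat_lit 312) (nat_lit 384) (nat_lit 324))))))) (XT.nd (nat_lit 702) (nat_lit 2888) (nat_lit 0) (XT.nd (nat_lit 312) (nat_lit 1368) (nat_lit 0) (XT.nd (nat_lit 156) (nat_lit 760)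 (nat_lit 0) (XT.nd (nat_lit 78) (nat_lit 304) (nat_lit 0) (XT.lf (nat_lit 456) (nat_lit 3507211811) (nat_lit 0) (nat_lit 1838718135) (nat_lit 380) (nat_lit 1475893196) (nat_lit 167) (nat_lit 1) (nat_lit 161) (nat_lit 1) (nat_lit 166) (nat_lit 1) (nat_lit 313) (nat_lit 384) (nat_lit 323)) (XT.lf (nat_lit 380) (nat_lit 1043675974) (nat_lit 0) (nat_lit 1315950365) (nat_lit 304) (nat_lit 4386065195) (nat_lit 162) (nat_lit 1) (nat_lit 157) (nat_lit 1) (nat_lit 161) (nat_lit 1) (nat_lit 314) (nat_lit 384) (nat_lit 322))) (XT.nd (nat_lit 78) (nat_lit 304) (nat_lit 0) (XT.lf (nat_lit 456) (nat_lit 5293595285) (nat_lit 0) (nat_lit 817141344) (nat_lit 380) (nat_lit 559932699) (nat_lit 157) (nat_lit 1) (nat_lit 151) (nat_lit 1) (nat_lit 156) (nat_lit 1) (nat_lit 315) (nat_lit 384) (nat_lit 321)) (XT.lf (nat_lit 380) (nat_lit 2824972257) (nat_lit 0) (nat_lit 332057577) (nat_lit 304) (nat_lit 3439519825) (nat_lit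 152) (nat_lit 1) (nat_lit 147) (nat_lit 1) (nat_lit 151) (nat_lit 1) (nat_lit 316) (nat_lit 384) (nat_lit 320)))) (XT.nd (nat_lit 156) (nat_lit 988) (nat_lit 0) (XT.nd (nat_lit 78) (nat_lit 380) (nat_lit 0) (XT.lf (nat_lit 76) (nat_lit 268625958) (nat_lit 0) (nat_lit 6138999968) (nat_lit 380) (nat_lit 116109648) (nat_lit 148) (nat_lit 1) (nat_lit 147) (nat_lit 1) (nat_lit 152) (nat_lit 1) (nat_lit 317) (nat_lit 384) (nat_lit 319)) (XT.lf (nat_lit 76) (nat_lit 3876618540) (nat_lit 0) (nat_lit 2018844162) (nat_lit 380) (nat_lit 556113021) (nat_lit 143) (nat_lit 1) (nat_lit 142) (nat_lit 1) (nat_lit 147) (nat_lit 1) (nat_lit 318) (nat_lit 384) (nat_lit 318))) (XT.nd (nat_lit 78) (nat_lit 684) (nat_lit 0) (XT.lf (nat_lit 76) (nat_lit 1023537251) (nat_lit 0) (nat_lit 4390192302) (nat_lit 380) (nat_lit 966886069) (nat_lit 139) (nat_lit 1) (nat_lit 138) (nat_lit 1) (nat_lit 143) (nat_lit 1) (nat_lit 319)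 (nat_lit 384) (nat_lit 317)) (XT.nd (nat_lit 78) (nat_lit 304) (nat_lit 0) (XT.lf (nat_lit 76) (nat_lit 4522989849) (nat_lit 0) (nat_lit 428071521) (nat_lit 380) (nat_lit 1359565199) (nat_lit 134) (nat_lit 1) (nat_lit 133) (nat_lit 1) (nat_lit 138) (nat_lit 1) (nat_lit 320) (nat_lit 384) (nat_lit 316)) (XT.lf (nat_lit 76) (nat_lit 1704219685) (nat_lit 0) (nat_lit 2797511505) (nat_lit 380) (nat_lit 1739759286) (nat_lit 130) (nat_lit 1) (nat_lit 129) (nat_lit 1) (nat_lit 134) (nat_lit 1) (nat_lit 321) (nat_lit 384) (nat_lit 315)))))) (XT.nd (nat_lit 390) (nat_lit 1368) (nat_lit 0) (XT.nd (nat_lit 156) (nat_lit 912) (nat_lit 0) (XT.nd (nat_lit 78) (nat_lit 304) (nat_lit 0) (XT.lf (nat_lit 380) (nat_lit 1029013832) (nat_lit 0) (nat_lit 4077812758) (nat_lit 304) (nat_lit 1066611747) (nat_lit 130) (nat_lit 1) (nat_lit 125) (nat_lit 1) (nat_lit 129) (nat_lit 1) (nat_lit 322) (nat_lit 384) (nat_lit 314))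 (XT.lf (nat_lit 76) (nat_lit 2316672015) (nat_lit 0) (nat_lit 1348684147) (nat_lit 304) (nat_lit 2440834779) (nat_lit 122) (nat_lit 1) (nat_lit 121) (nat_lit 1) (nat_lit 125) (nat_lit 1) (nat_lit 323) (nat_lit 384) (nat_lit 313))) (XT.nd (nat_lit 78) (nat_lit 608) (nat_lit 0) (XT.lf (nat_lit 380) (nat_lit 2354458764) (nat_lit 0) (nat_lit 3274594784) (nat_lit 304) (nat_lit 410889763) (nat_lit 122) (nat_lit 1) (nat_lit 117) (nat_lit 1) (nat_lit 121) (nat_lit 1) (nat_lit 324) (nat_lit 384) (nat_lit 312)) (XT.nd (nat_lit 78) (nat_lit 304) (nat_lit 0) (XT.lf (nat_lit 76) (nat_lit 2866429950) (nat_lit 0) (nat_lit 32375881) (nat_lit 304) (nat_lit 3075752219) (nat_lit 114) (nat_lit 1) (nat_lit 113) (nat_lit 1) (nat_lit 117) (nat_lit 1) (nat_lit 325) (nat_lit 384) (nat_lit 311)) (XT.lf (nat_lit 76) (nat_lit 179734383) (nat_lit 0) (nat_lit 2357746847) (nat_lit 380) (nat_lit 3372538444) (nat_lit 110) (nat_lit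 1) (nat_lit 109) (nat_lit 1) (nat_lit 114) (nat_lit 1) (nat_lit 326) (nat_lit 384) (nat_lit 310))))) (XT.nd (nat_lit 156) (nat_lit 760) (nat_lit 0) (XT.nd (nat_lit 78) (nat_lit 380) (nat_lit 0) (XT.lf (nat_lit 304) (nat_lit 1177320738) (nat_lit 0) (nat_lit 2188924668) (nat_lit 228) (nat_lit 2480044047) (nat_lit 110) (nat_lit 1) (nat_lit 106) (nat_lit 1) (nat_lit 109) (nat_lit 1) (nat_lit 327) (nat_lit 384) (nat_lit 309)) (XT.lf (nat_lit 76) (nat_lit 708061766) (nat_lit 0) (nat_lit 1152108838) (nat_lit 380) (nat_lit 3923329299) (nat_lit 102) (nat_lit 1) (nat_lit 101) (nat_lit 1) (nat_lit 106) (nat_lit 1) (nat_lit 328) (nat_lit 384) (nat_lit 308))) (XT.nd (nat_lit 78) (nat_lit 532) (nat_lit 0) (XT.lf (nat_lit 304) (nat_lit 2273566599) (nat_lit 0) (nat_lit 1539094295) (nat_lit 228) (nat_lit 1908747027) (nat_lit 102) (nat_lit 1) (nat_lit 98) (nat_lit 1) (nat_lit 101) (nat_lit 1) (nat_lit 329) (nat_lit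 384) (nat_lit 307)) (XT.nd (nat_lit 78) (nat_lit 228) (nat_lit 0) (XT.lf (nat_lit 76) (nat_lit 1184076233) (nat_lit 0) (nat_lit 56500749) (nat_lit 304) (nat_lit 4419723001) (nat_lit 95) (nat_lit 1) (nat_lit 94) (nat_lit 1) (nat_lit 98) (nat_lit 1) (nat_lit 330) (nat_lit 384) (nat_lit 306)) (XT.lf (nat_lit 304) (nat_lit 3264974288) (nat_lit 0) (nat_lit 944895712) (nat_lit 228) (nat_lit 1389914109) (nat_lit 95) (nat_lit 1) (nat_lit 91) (nat_lit 1) (nat_lit 94) (nat_lit 1) (nat_lit 331) (nat_lit 384) (nat_lit 305))))))))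
noncomputable def ec115 : XT := (XT.nd (nat_lit 1404) (nat_lit 1900) (nat_lit 0) (XT.nd (nat_lit 702) (nat_lit 1976) (nat_lit 0) (XT.nd (nat_lit 312) (nat_lit 1140) (nat_lit 0) (XT.nd (nat_lit 156) (nat_lit 304) (nat_lit 0) (XT.nd (nat_lit 78) (nat_lit 304) (nat_lit 0) (XT.lf (nat_lit 304) (nat_lit 950222235) (nat_lit 0) (nat_lit 667965254) (nat_lit 228) (nat_lit 3921979651) (nat_lit 92) (nat_lit 1) (nat_lit 88) (nat_lit 1) (nat_lit 91) (nat_lit 1) (nat_lit 332) (nat_lit 384) (nat_lit 304)) (XT.lf (nat_lit 304) (nat_lit 4159893171) (nat_lit 0) (nat_lit 402044513) (nat_lit 228) (nat_lit 919354454) (nat_lit 88) (nat_lit 1) (nat_lit 84) (nat_lit 1) (nat_lit 87) (nat_lit 1) (nat_lit 333) (nat_lit 384) (nat_lit 303))) (XT.nd (nat_lit 78) (nat_lit 76) (nat_lit 0) (XT.lf (nat_lit 304) (nat_lit 1863126015) (nat_lit 0) (nat_lit 144770313) (nat_lit 228) (nat_lit 3415211324) (nat_lit 85) (nat_lit 1) (nat_lit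 81) (nat_lit 1) (nat_lit 84) (nat_lit 1) (nat_lit 334) (nat_lit 384) (nat_lit 302)) (XT.lf (nat_lit 76) (nat_lit 4873219893) (nat_lit 0) (nat_lit 400387957) (nat_lit 304) (nat_lit 92193331) (nat_lit 81) (nat_lit 1) (nat_lit 80) (nat_lit 1) (nat_lit 84) (nat_lit 1) (nat_lit 335) (nat_lit 384) (nat_lit 301)))) (XT.nd (nat_lit 156) (nat_lit 684) (nat_lit 0) (XT.nd (nat_lit 78) (nat_lit 228) (nat_lit 0) (XT.lf (nat_lit 76) (nat_lit 2358648249) (nat_lit 0) (nat_lit 2622210034) (nat_lit 304) (nat_lit 328111476) (nat_lit 78) (nat_lit 1) (nat_lit 77) (nat_lit 1) (nat_lit 81) (nat_lit 1) (nat_lit 336) (nat_lit 384) (nat_lit 300)) (XT.lf (nat_lit 304) (nat_lit 439496071) (nat_lit 0) (nat_lit 4712251901) (nat_lit 228) (nat_lit 101359793) (nat_lit 78) (nat_lit 1) (nat_lit 74) (nat_lit 1) (nat_lit 77) (nat_lit 1) (nat_lit 337) (nat_lit 384) (nat_lit 299))) (XT.nd (nat_lit 78) (nat_lit 456) (nat_lit 0) (XT.lf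 (nat_lit 76) (nat_lit 2672324539) (nat_lit 0) (nat_lit 1768099878) (nat_lit 228) (nat_lit 757249409) (nat_lit 72) (nat_lit 1) (nat_lit 71) (nat_lit 1) (nat_lit 74) (nat_lit 1) (nat_lit 338) (nat_lit 384) (nat_lit 298)) (XT.nd (nat_lit 78) (nat_lit 228) (nat_lit 0) (XT.lf (nat_lit 76) (nat_lit 250885619) (nat_lit 0) (nat_lit 3938780749) (nat_lit 304) (nat_lit 953473094) (nat_lit 69) (nat_lit 1) (nat_lit 68) (nat_lit 1) (nat_lit 72) (nat_lit 1) (nat_lit 339) (nat_lit 384) (nat_lit 297)) (XT.lf (nat_lit 76) (nat_lit 2951120133) (nat_lit 0) (nat_lit 990233694) (nat_lit 228) (nat_lit 1147780944) (nat_lit 66) (nat_lit 1) (nat_lit 65) (nat_lit 1) (nat_lit 68) (nat_lit 1) (nat_lit 340) (nat_lit 384) (nat_lit 296)))))) (XT.nd (nat_lit 312) (nat_lit 1140) (nat_lit 0) (XT.nd (nat_lit 156) (nat_lit 380) (nat_lit 0) (XT.nd (nat_lit 78) (nat_lit 228) (nat_lit 0) (XT.lf (nat_lit 76) (nat_lit 567036992) (nat_lit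 0) (nat_lit 3139521741) (nat_lit 304) (nat_lit 1329313443) (nat_lit 63) (nat_lit 1) (nat_lit 62) (nat_lit 1) (nat_lit 66) (nat_lit 1) (nat_lit 341) (nat_lit 384) (nat_lit 295)) (XT.lf (nat_lit 76) (nat_lit 3197926571) (nat_lit 0) (nat_lit 282628891) (nat_lit 228) (nat_lit 1502698922) (nat_lit 60) (nat_lit 1) (nat_lit 59) (nat_lit 1) (nat_lit 62) (nat_lit 1) (nat_lit 342) (nat_lit 384) (nat_lit 294))) (XT.nd (nat_lit 78) (nat_lit 152) (nat_lit 0) (XT.lf (nat_lit 76) (nat_lit 851248462) (nat_lit 0) (nat_lit 2409350591) (nat_lit 304) (nat_lit 1670623934) (nat_lit 57) (nat_lit 1) (nat_lit 56) (nat_lit 1) (nat_lit 60) (nat_lit 1) (nat_lit 343) (nat_lit 384) (nat_lit 293)) (XT.lf (nat_lit 228) (nat_lit 365027194) (nat_lit 0) (nat_lit 3052753447) (nat_lit 152) (nat_lit 1462111702) (nat_lit 57) (nat_lit 1) (nat_lit 54) (nat_lit 1) (nat_lit 56) (nat_lit 1) (nat_lit 344) (nat_lit 384) (nat_lit 292)))) (XT.nd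 (nat_lit 156) (nat_lit 684) (nat_lit 0) (XT.nd (nat_lit 78) (nat_lit 152) (nat_lit 0) (XT.lf (nat_lit 76) (nat_lit 1106126271) (nat_lit 0) (nat_lit 1742885668) (nat_lit 304) (nat_lit 1980089022) (nat_lit 51) (nat_lit 1) (nat_lit 50) (nat_lit 1) (nat_lit 54) (nat_lit 1) (nat_lit 345) (nat_lit 384) (nat_lit 291)) (XT.lf (nat_lit 228) (nat_lit 956013359) (nat_lit 0) (nat_lit 2656225269) (nat_lit 152) (nat_lit 1166740086) (nat_lit 51) (nat_lit 1) (nat_lit 48) (nat_lit 1) (nat_lit 50) (nat_lit 1) (nat_lit 346) (nat_lit 384) (nat_lit 290))) (XT.nd (nat_lit 78) (nat_lit 380) (nat_lit 0) (XT.lf (nat_lit 76) (nat_lit 1334074790) (nat_lit 0) (nat_lit 1135155943) (nat_lit 304) (nat_lit 2260189230) (nat_lit 45) (nat_lit 1) (nat_lit 44) (nat_lit 1) (nat_lit 48) (nat_lit 1) (nat_lit 347) (nat_lit 384) (nat_lit 289)) (XT.nd (nat_lit 78) (nat_lit 228) (nat_lit 0) (XT.lf (nat_lit 228) (nat_lit 1491348494) (nat_lit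 0) (nat_lit 2290391125) (nat_lit 152) (nat_lit 898727047) (nat_lit 45) (nat_lit 1) (nat_lit 42) (nat_lit 1) (nat_lit 44) (nat_lit 1) (nat_lit 348) (nat_lit 384) (nat_lit 288)) (XT.lf (nat_lit 76) (nat_lit 1537311930) (nat_lit 0) (nat_lit 581569792) (nat_lit 228) (nat_lit 2513216605) (nat_lit 40) (nat_lit 1) (nat_lit 39) (nat_lit 1) (nat_lit 42) (nat_lit 1) (nat_lit 349) (nat_lit 384) (nat_lit 287))))))) (XT.nd (nat_lit 702) (nat_lit 304) (nat_lit 0) (XT.nd (nat_lit 312) (nat_lit 912) (nat_lit 0) (XT.nd (nat_lit 156) (nat_lit 304) (nat_lit 0) (XT.nd (nat_lit 78) (nat_lit 228) (nat_lit 0) (XT.lf (nat_lit 228) (nat_lit 1975441921) (nat_lit 0) (nat_lit 1952960750) (nat_lit 152) (nat_lit 655873842) (nat_lit 40) (nat_lit 1) (nat_lit 37) (nat_lit 1) (nat_lit 39) (nat_lit 1) (nat_lit 350) (nat_lit 384) (nat_lit 286)) (XT.lf (nat_lit 76) (nat_lit 1717883382) (nat_lit 0) (nat_lit 77886178) (nat_lit 228) (nat_lit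 2741289013) (nat_lit 35) (nat_lit 1) (nat_lit 34) (nat_lit 1) (nat_lit 37) (nat_lit 1) (nat_lit 351) (nat_lit 384) (nat_lit 285))) (XT.nd (nat_lit 78) (nat_lit 152) (nat_lit 0) (XT.lf (nat_lit 228) (nat_lit 2412365203) (nat_lit 0) (nat_lit 1641815930) (nat_lit 152) (nat_lit 436151485) (nat_lit 35) (nat_lit 1) (nat_lit 32) (nat_lit 1) (nat_lit 34) (nat_lit 1) (nat_lit 352) (nat_lit 384) (nat_lit 284)) (XT.lf (nat_lit 228) (nat_lit 384859493) (nat_lit 0) (nat_lit 1495315039) (nat_lit 152) (nat_lit 2564002606) (nat_lit 33) (nat_lit 1) (nat_lit 30) (nat_lit 1) (nat_lit 32) (nat_lit 1) (nat_lit 353) (nat_lit 384) (nat_lit 283)))) (XT.nd (nat_lit 156) (nat_lit 532) (nat_lit 0) (XT.nd (nat_lit 78) (nat_lit 152) (nat_lit 0) (XT.lf (nat_lit 228) (nat_lit 2805877824) (nat_lit 0) (nat_lit 1354997502) (nat_lit 152) (nat_lit 237687797) (nat_lit 30) (nat_lit 1) (nat_lit 27) (nat_lit 1) (nat_lit 29) (nat_lit 1)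 (nat_lit 354) (nat_lit 384) (nat_lit 282)) (XT.lf (nat_lit 228) (nat_lit 805709506) (nat_lit 0) (nat_lit 1217950498) (nat_lit 152) (nat_lit 2329769373) (nat_lit 28) (nat_lit 1) (nat_lit 25) (nat_lit 1) (nat_lit 27) (nat_lit 1) (nat_lit 355) (nat_lit 384) (nat_lit 281))) (XT.nd (nat_lit 78) (nat_lit 304) (nat_lit 0) (XT.lf (nat_lit 228) (nat_lit 3159450921) (nat_lit 0) (nat_lit 1090693335) (nat_lit 152) (nat_lit 58755436) (nat_lit 25) (nat_lit 1) (nat_lit 22) (nat_lit 1) (nat_lit 24) (nat_lit 1) (nat_lit 356) (nat_lit 384) (nat_lit 280)) (XT.nd (nat_lit 78) (nat_lit 152) (nat_lit 0) (XT.lf (nat_lit 228) (nat_lit 1187014373) (nat_lit 0) (nat_lit 962439030) (nat_lit 152) (nat_lit 2115305154) (nat_lit 23) (nat_lit 1) (nat_lit 20) (nat_lit 1) (nat_lit 22) (nat_lit 1) (nat_lit 357) (nat_lit 384) (nat_lit 279)) (XT.lf (nat_lit 76) (nat_lit 100898265) (nat_lit 0) (nat_lit 745651878) (nat_lit 152) (nat_lit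 3374713877) (nat_lit 19) (nat_lit 1) (nat_lit 18) (nat_lit 1) (nat_lit 20) (nat_lit 1) (nat_lit 358) (nat_lit 384) (nat_lit 278)))))) (XT.nd (nat_lit 46956) (nat_lit 0) (nat_lit 23332) (XT.nd (nat_lit 46722) (nat_lit 0) (nat_lit 26904) (XT.nd (nat_lit 78) (nat_lit 152) (nat_lit 0) (XT.lf (nat_lit 228) (nat_lit 1531900712) (nat_lit 0) (nat_lit 727153045) (nat_lit 152) (nat_lit 1919047152) (nat_lit 19) (nat_lit 1) (nat_lit 16) (nat_lit 1) (nat_lit 18) (nat_lit 1) (nat_lit 359) (nat_lit 384) (nat_lit 277)) (XT.lf (nat_lit 76) (nat_lit 243529564) (nat_lit 0) (nat_lit 377884846) (nat_lit 152) (nat_lit 3514187533) (nat_lit 15) (nat_lit 1) (nat_lit 14) (nat_lit 1) (nat_lit 16) (nat_lit 1) (nat_lit 360) (nat_lit 384) (nat_lit 276))) (XT.nd (nat_lit 78) (nat_lit 836) (nat_lit 0) (XT.lf (nat_lit 836) (nat_lit 551182358) (nat_lit 0) (nat_lit 1318673453) (nat_lit 760) (nat_lit 8697365196) (nat_lit 390) (nat_lit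 1) (nat_lit 379) (nat_lit 1) (nat_lit 389) (nat_lit 1) (nat_lit 277) (nat_lit 385) (nat_lit 358)) (XT.nd (nat_lit 78) (nat_lit 760) (nat_lit 0) (XT.lf (nat_lit 76) (nat_lit 8631500628) (nat_lit 0) (nat_lit 1448827090) (nat_lit 836) (nat_lit 351660392) (nat_lit 379) (nat_lit 1) (nat_lit 378) (nat_lit 1) (nat_lit 389) (nat_lit 1) (nat_lit 278) (nat_lit 385) (nat_lit 357)) (XT.lf (nat_lit 76) (nat_lit 4889654003) (nat_lit 0) (nat_lit 3470225225) (nat_lit 836) (nat_lit 1939012125) (nat_lit 369) (nat_lit 1) (nat_lit 368) (nat_lit 1) (nat_lit 379) (nat_lit 1) (nat_lit 279) (nat_lit 385) (nat_lit 356))))) (XT.nd (nat_lit 156) (nat_lit 2128) (nat_lit 0) (XT.nd (nat_lit 78) (nat_lit 684) (nat_lit 0) (XT.lf (nat_lit 76) (nat_lit 1223183802) (nat_lit 0) (nat_lit 5498097779) (nat_lit 836) (nat_lit 3447082619) (nat_lit 359) (nat_lit 1) (nat_lit 358) (nat_lit 1) (nat_lit 369) (nat_lit 1) (nat_lit 280) (nat_lit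 385) (nat_lit 355)) (XT.lf (nat_lit 760) (nat_lit 2493155579) (nat_lit 0) (nat_lit 5146275405) (nat_lit 684) (nat_lit 2400608273) (nat_lit 359) (nat_lit 1) (nat_lit 349) (nat_lit 1) (nat_lit 358) (nat_lit 1) (nat_lit 281) (nat_lit 385) (nat_lit 354))) (XT.nd (nat_lit 78) (nat_lit 1444) (nat_lit 0) (XT.lf (nat_lit 760) (nat_lit 306557044) (nat_lit 0) (nat_lit 3640740932) (nat_lit 684) (nat_lit 5966724571) (nat_lit 350) (nat_lit 1) (nat_lit 340) (nat_lit 1) (nat_lit 349) (nat_lit 1) (nat_lit 282) (nat_lit 385) (nat_lit 353)) (XT.nd (nat_lit 78) (nat_lit 684) (nat_lit 0) (XT.lf (nat_lit 76) (nat_lit 342516883) (nat_lit 0) (nat_lit 1855670206) (nat_lit 760) (nat_lit 7591990520) (nat_lit 331) (nat_lit 1) (nat_lit 330) (nat_lit 1) (nat_lit 340) (nat_lit 1) (nat_lit 283) (nat_lit 385) (nat_lit 352)) (XT.lf (nat_lit 760) (nat_lit 5634045021) (nat_lit 0) (nat_lit 805470514) (nat_lit 684) (nat_lit 3228722102)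 (nat_lit 331) (nat_lit 1) (nat_lit 321) (nat_lit 1) (nat_lit 330) (nat_lit 1) (nat_lit 284) (nat_lit 385) (nat_lit 351))))))))
noncomputable def ec116 : XT := (XT.nd (nat_lit 1404) (nat_lit 6308) (nat_lit 0) (XT.nd (nat_lit 702) (nat_lit 4636) (nat_lit 0) (XT.nd (nat_lit 312) (nat_lit 2356) (nat_lit 0) (XT.nd (nat_lit 156) (nat_lit 1292) (nat_lit 0) (XT.nd (nat_lit 78) (nat_lit 608) (nat_lit 0) (XT.lf (nat_lit 76) (nat_lit 2821054440) (nat_lit 0) (nat_lit 6216315016) (nat_lit 760) (nat_lit 511138815) (nat_lit 322) (nat_lit 1) (nat_lit 321) (nat_lit 1) (nat_lit 331) (nat_lit 1) (nat_lit 285) (nat_lit 385) (nat_lit 350)) (XT.lf (nat_lit 684) (nat_lit 1025781343) (nat_lit 0) (nat_lit 7677578573) (nat_lit 608) (nat_lit 727502245) (nat_lit 322) (nat_lit 1) (nat_lit 313) (nat_lit 1) (nat_lit 321) (nat_lit 1) (nat_lit 286) (nat_lit 385) (nat_lit 349))) (XT.nd (nat_lit 78) (nat_lit 608) (nat_lit 0) (XT.lf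 (nat_lit 76) (nat_lit 5083862684) (nat_lit 0) (nat_lit 1275784304) (nat_lit 684) (nat_lit 2955273170) (nat_lit 305) (nat_lit 1) (nat_lit 304) (nat_lit 1) (nat_lit 313) (nat_lit 1) (nat_lit 287) (nat_lit 385) (nat_lit 348)) (XT.lf (nat_lit 76) (nat_lit 1545846987) (nat_lit 0) (nat_lit 3556476474) (nat_lit 684) (nat_lit 4098717846) (nat_lit 297) (nat_lit 1) (nat_lit 296) (nat_lit 1) (nat_lit 305) (nat_lit 1) (nat_lit 288) (nat_lit 385) (nat_lit 347)))) (XT.nd (nat_lit 156) (nat_lit 1216) (nat_lit 0) (XT.nd (nat_lit 78) (nat_lit 532) (nat_lit 0) (XT.lf (nat_lit 684) (nat_lit 3247341334) (nat_lit 0) (nat_lit 3897582926) (nat_lit 608) (nat_lit 1944135501) (nat_lit 297) (nat_lit 1) (nat_lit 288) (nat_lit 1) (nat_lit 296) (nat_lit 1) (nat_lit 289) (nat_lit 385) (nat_lit 346)) (XT.lf (nat_lit 608) (nat_lit 851025803) (nat_lit 0) (nat_lit 2746519171) (nat_lit 532) (nat_lit 5381443584) (nat_lit 289) (nat_lit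 1) (nat_lit 281) (nat_lit 1) (nat_lit 288) (nat_lit 1) (nat_lit 290) (nat_lit 385) (nat_lit 345))) (XT.nd (nat_lit 78) (nat_lit 532) (nat_lit 0) (XT.lf (nat_lit 76) (nat_lit 134136310) (nat_lit 0) (nat_lit 1513361961) (nat_lit 684) (nat_lit 7223289059) (nat_lit 273) (nat_lit 1) (nat_lit 272) (nat_lit 1) (nat_lit 281) (nat_lit 1) (nat_lit 291) (nat_lit 385) (nat_lit 344)) (XT.nd (nat_lit 78) (nat_lit 0) (nat_lit 0) (XT.lf (nat_lit 608) (nat_lit 4888256925) (nat_lit 0) (nat_lit 581500845) (nat_lit 532) (nat_lit 3294317131) (nat_lit 273) (nat_lit 1) (nat_lit 265) (nat_lit 1) (nat_lit 272) (nat_lit 1) (nat_lit 292) (nat_lit 385) (nat_lit 343)) (XT.lf (nat_lit 76) (nat_lit 2009852559) (nat_lit 0) (nat_lit 6228824820) (nat_lit 608) (nat_lit 420606017) (nat_lit 266) (nat_lit 1) (nat_lit 265) (nat_lit 1) (nat_lit 273) (nat_lit 1) (nat_lit 293) (nat_lit 385) (nat_lit 342)))))) (XT.nd (nat_lit 312) (nat_lit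 2508) (nat_lit 0) (XT.nd (nat_lit 156) (nat_lit 988) (nat_lit 0) (XT.nd (nat_lit 78) (nat_lit 532) (nat_lit 0) (XT.lf (nat_lit 76) (nat_lit 7164418540) (nat_lit 0) (nat_lit 24220722) (nat_lit 608) (nat_lit 1367552814) (nat_lit 258) (nat_lit 1) (nat_lit 257) (nat_lit 1) (nat_lit 265) (nat_lit 1) (nat_lit 294) (nat_lit 385) (nat_lit 341)) (XT.lf (nat_lit 76) (nat_lit 3722664526) (nat_lit 0) (nat_lit 2443851894) (nat_lit 608) (nat_lit 2287932689) (nat_lit 251) (nat_lit 1) (nat_lit 250) (nat_lit 1) (nat_lit 258) (nat_lit 1) (nat_lit 295) (nat_lit 385) (nat_lit 340))) (XT.nd (nat_lit 78) (nat_lit 456) (nat_lit 0) (XT.lf (nat_lit 76) (nat_lit 353646501) (nat_lit 0) (nat_lit 4846680351) (nat_lit 608) (nat_lit 3154269236) (nat_lit 244) (nat_lit 1) (nat_lit 243) (nat_lit 1) (nat_lit 251) (nat_lit 1) (nat_lit 296) (nat_lit 385) (nat_lit 339)) (XT.lf (nat_lit 532) (nat_lit 1004429958) (nat_lit 0) (nat_lit 4268703401)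 (nat_lit 456) (nat_lit 2983072993) (nat_lit 244) (nat_lit 1) (nat_lit 237) (nat_lit 1) (nat_lit 243) (nat_lit 1) (nat_lit 297) (nat_lit 385) (nat_lit 338)))) (XT.nd (nat_lit 156) (nat_lit 1444) (nat_lit 0) (XT.nd (nat_lit 78) (nat_lit 456) (nat_lit 0) (XT.lf (nat_lit 76) (nat_lit 1915779934) (nat_lit 0) (nat_lit 1462335723) (nat_lit 608) (nat_lit 4781283469) (nat_lit 230) (nat_lit 1) (nat_lit 229) (nat_lit 1) (nat_lit 237) (nat_lit 1) (nat_lit 298) (nat_lit 385) (nat_lit 337)) (XT.lf (nat_lit 532) (nat_lit 4158777470) (nat_lit 0) (nat_lit 2523540476) (nat_lit 456) (nat_lit 1381750420) (nat_lit 230) (nat_lit 1) (nat_lit 223) (nat_lit 1) (nat_lit 229) (nat_lit 1) (nat_lit 299) (nat_lit 385) (nat_lit 336))) (XT.nd (nat_lit 78) (nat_lit 988) (nat_lit 0) (XT.lf (nat_lit 532) (nat_lit 1629652187) (nat_lit 0) (nat_lit 1706897352) (nat_lit 456) (nat_lit 4633694690) (nat_lit 224) (nat_lit 1) (nat_lit 217)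 (nat_lit 1) (nat_lit 223) (nat_lit 1) (nat_lit 300) (nat_lit 385) (nat_lit 335)) (XT.nd (nat_lit 78) (nat_lit 456) (nat_lit 0) (XT.lf (nat_lit 76) (nat_lit 67939513) (nat_lit 0) (nat_lit 865824635) (nat_lit 532) (nat_lit 6944264533) (nat_lit 211) (nat_lit 1) (nat_lit 210) (nat_lit 1) (nat_lit 217) (nat_lit 1) (nat_lit 301) (nat_lit 385) (nat_lit 334)) (XT.lf (nat_lit 532) (nat_lit 4448385448) (nat_lit 0) (nat_lit 176938171) (nat_lit 456) (nat_lit 3161557379) (nat_lit 211) (nat_lit 1) (nat_lit 204) (nat_lit 1) (nat_lit 210) (nat_lit 1) (nat_lit 302) (nat_lit 385) (nat_lit 333))))))) (XT.nd (nat_lit 702) (nat_lit 3040) (nat_lit 0) (XT.nd (nat_lit 312) (nat_lit 1976) (nat_lit 0) (XT.nd (nat_lit 156) (nat_lit 836) (nat_lit 0) (XT.nd (nat_lit 78) (nat_lit 456) (nat_lit 0) (XT.lf (nat_lit 76) (nat_lit 1378503096) (nat_lit 0) (nat_lit 5792571317) (nat_lit 532) (nat_lit 526245202) (nat_lit 205) (nat_lit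 1) (nat_lit 204) (nat_lit 1) (nat_lit 211) (nat_lit 1) (nat_lit 303) (nat_lit 385) (nat_lit 332)) (XT.lf (nat_lit 76) (nat_lit 5791799651) (nat_lit 0) (nat_lit 619384373) (nat_lit 456) (nat_lit 1197869659) (nat_lit 199) (nat_lit 1) (nat_lit 198) (nat_lit 1) (nat_lit 204) (nat_lit 1) (nat_lit 304) (nat_lit 385) (nat_lit 331))) (XT.nd (nat_lit 78) (nat_lit 380) (nat_lit 0) (XT.lf (nat_lit 76) (nat_lit 2572406983) (nat_lit 0) (nat_lit 3103013068) (nat_lit 532) (nat_lit 1846553061) (nat_lit 193) (nat_lit 1) (nat_lit 192) (nat_lit 1) (nat_lit 199) (nat_lit 1) (nat_lit 305) (nat_lit 385) (nat_lit 330)) (XT.lf (nat_lit 456) (nat_lit 1870602130) (nat_lit 0) (nat_lit 4980510871) (nat_lit 380) (nat_lit 585285991) (nat_lit 193) (nat_lit 1) (nat_lit 187) (nat_lit 1) (nat_lit 192) (nat_lit 1) (nat_lit 306) (nat_lit 385) (nat_lit 329)))) (XT.nd (nat_lit 156) (nat_lit 1140) (nat_lit 0) (XT.nd (nat_lit 78) (nat_lit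 380) (nat_lit 0) (XT.lf (nat_lit 76) (nat_lit 3648194299) (nat_lit 0) (nat_lit 659618392) (nat_lit 456) (nat_lit 3044146218) (nat_lit 182) (nat_lit 1) (nat_lit 181) (nat_lit 1) (nat_lit 187) (nat_lit 1) (nat_lit 307) (nat_lit 385) (nat_lit 328)) (XT.lf (nat_lit 76) (nat_lit 526448116) (nat_lit 0) (nat_lit 3139089795) (nat_lit 456) (nat_lit 3603269200) (nat_lit 177) (nat_lit 1) (nat_lit 176) (nat_lit 1) (nat_lit 182) (nat_lit 1) (nat_lit 308) (nat_lit 385) (nat_lit 327))) (XT.nd (nat_lit 78) (nat_lit 760) (nat_lit 0) (XT.lf (nat_lit 456) (nat_lit 1577770978) (nat_lit 0) (nat_lit 3047880659) (nat_lit 380) (nat_lit 2561171404) (nat_lit 177) (nat_lit 1) (nat_lit 171) (nat_lit 1) (nat_lit 176) (nat_lit 1) (nat_lit 309) (nat_lit 385) (nat_lit 326)) (XT.nd (nat_lit 78) (nat_lit 380) (nat_lit 0) (XT.lf (nat_lit 76) (nat_lit 1523939180) (nat_lit 0) (nat_lit 937285065) (nat_lit 380) (nat_lit 4644900965) (nat_lit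 167) (nat_lit 1) (nat_lit 166) (nat_lit 1) (nat_lit 171) (nat_lit 1) (nat_lit 310) (nat_lit 385) (nat_lit 325)) (XT.lf (nat_lit 456) (nat_lit 3612428166) (nat_lit 0) (nat_lit 1893879679) (nat_lit 380) (nat_lit 1520169992) (nat_lit 167) (nat_lit 1) (nat_lit 161) (nat_lit 1) (nat_lit 166) (nat_lit 1) (nat_lit 311) (nat_lit 385) (nat_lit 324)))))) (XT.nd (nat_lit 390) (nat_lit 1596) (nat_lit 0) (XT.nd (nat_lit 156) (nat_lit 684) (nat_lit 0) (XT.nd (nat_lit 78) (nat_lit 456) (nat_lit 0) (XT.lf (nat_lit 380) (nat_lit 1074986253) (nat_lit 0) (nat_lit 1355428876) (nat_lit 304) (nat_lit 4517647151) (nat_lit 162) (nat_lit 1) (nat_lit 157) (nat_lit 1) (nat_lit 161) (nat_lit 1) (nat_lit 312) (nat_lit 385) (nat_lit 323)) (XT.lf (nat_lit 456) (nat_lit 5452403144) (nat_lit 0) (nat_lit 841655585) (nat_lit 380) (nat_lit 576730680) (nat_lit 157) (nat_lit 1) (nat_lit 151) (nat_lit 1) (nat_lit 156) (nat_lit 1) (nat_lit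 313) (nat_lit 385) (nat_lit 322))) (XT.nd (nat_lit 78) (nat_lit 380) (nat_lit 0) (XT.lf (nat_lit 380) (nat_lit 2909721425) (nat_lit 0) (nat_lit 342019304) (nat_lit 304) (nat_lit 3542705420) (nat_lit 152) (nat_lit 1) (nat_lit 147) (nat_lit 1) (nat_lit 151) (nat_lit 1) (nat_lit 314) (nat_lit 385) (nat_lit 321)) (XT.nd (nat_lit 78) (nat_lit 380) (nat_lit 0) (XT.lf (nat_lit 76) (nat_lit 276684737) (nat_lit 0) (nat_lit 6323169967) (nat_lit 380) (nat_lit 119592938) (nat_lit 148) (nat_lit 1) (nat_lit 147) (nat_lit 1) (nat_lit 152) (nat_lit 1) (nat_lit 315) (nat_lit 385) (nat_lit 320)) (XT.lf (nat_lit 76) (nat_lit 3992917096) (nat_lit 0) (nat_lit 2079409487) (nat_lit 380) (nat_lit 572796412) (nat_lit 143) (nat_lit 1) (nat_lit 142) (nat_lit 1) (nat_lit 147) (nat_lit 1) (nat_lit 316) (nat_lit 385) (nat_lit 319))))) (XT.nd (nat_lit 156) (nat_lit 912) (nat_lit 0) (XT.nd (nat_lit 78) (nat_lit 380) (nat_lit 0)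 (XT.lf (nat_lit 76) (nat_lit 1054243368) (nat_lit 0) (nat_lit 4521898071) (nat_lit 380) (nat_lit 995892651) (nat_lit 139) (nat_lit 1) (nat_lit 138) (nat_lit 1) (nat_lit 143) (nat_lit 1) (nat_lit 317) (nat_lit 385) (nat_lit 318)) (XT.lf (nat_lit 76) (nat_lit 4658679545) (nat_lit 0) (nat_lit 440913667) (nat_lit 380) (nat_lit 1400352155) (nat_lit 134) (nat_lit 1) (nat_lit 133) (nat_lit 1) (nat_lit 138) (nat_lit 1) (nat_lit 318) (nat_lit 385) (nat_lit 317))) (XT.nd (nat_lit 78) (nat_lit 608) (nat_lit 0) (XT.lf (nat_lit 76) (nat_lit 1755346275) (nat_lit 0) (nat_lit 2881436850) (nat_lit 380) (nat_lit 1791952065) (nat_lit 130) (nat_lit 1) (nat_lit 129) (nat_lit 1) (nat_lit 134) (nat_lit 1) (nat_lit 319) (nat_lit 385) (nat_lit 316)) (XT.nd (nat_lit 78) (nat_lit 304) (nat_lit 0) (XT.lf (nat_lit 380) (nat_lit 1059884247) (nat_lit 0) (nat_lit 4200147141) (nat_lit 304) (nat_lit 1098610099) (nat_lit 130) (nat_lit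 1) (nat_lit 125) (nat_lit 1) (nat_lit 129) (nat_lit 1) (nat_lit 320) (nat_lit 385) (nat_lit 315)) (XT.lf (nat_lit 76) (nat_lit 2386172175) (nat_lit 0) (nat_lit 1389144672) (nat_lit 304) (nat_lit 2514059823) (nat_lit 122) (nat_lit 1) (nat_lit 121) (nat_lit 1) (nat_lit 125) (nat_lit 1) (nat_lit 321) (nat_lit 385) (nat_lit 314))))))))
noncomputable def ec117 : XT := (XT.nd (nat_lit 1404) (nat_lit 3648) (nat_lit 0) (XT.nd (nat_lit 702) (nat_lit 1976) (nat_lit 0) (XT.nd (nat_lit 312) (nat_lit 1368) (nat_lit 0) (XT.nd (nat_lit 156) (nat_lit 532) (nat_lit 0) (XT.nd (nat_lit 78) (nat_lit 304) (nat_lit 0) (XT.lf (nat_lit 380) (nat_lit 2425092527) (nat_lit 0) (nat_lit 3372832627) (nat_lit 304) (nat_lit 423216455) (nat_lit 122) (nat_lit 1) (nat_lit 117) (nat_lit 1) (nat_lit 121) (nat_lit 1) (nat_lit 322) (nat_lit 385) (nat_lit 313)) (XT.lf (nat_lit 76) (nat_lit 2952422849) (nat_lit 0) (nat_lit 33347157) (nat_lit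 304) (nat_lit 3168024785) (nat_lit 114) (nat_lit 1) (nat_lit 113) (nat_lit 1) (nat_lit 117) (nat_lit 1) (nat_lit 323) (nat_lit 385) (nat_lit 312))) (XT.nd (nat_lit 78) (nat_lit 228) (nat_lit 0) (XT.lf (nat_lit 76) (nat_lit 185126415) (nat_lit 0) (nat_lit 2428479252) (nat_lit 380) (nat_lit 3473714597) (nat_lit 110) (nat_lit 1) (nat_lit 109) (nat_lit 1) (nat_lit 114) (nat_lit 1) (nat_lit 324) (nat_lit 385) (nat_lit 311)) (XT.lf (nat_lit 304) (nat_lit 1212640360) (nat_lit 0) (nat_lit 2254592408) (nat_lit 228) (nat_lit 2554445368) (nat_lit 110) (nat_lit 1) (nat_lit 106) (nat_lit 1) (nat_lit 109) (nat_lit 1) (nat_lit 325) (nat_lit 385) (nat_lit 310)))) (XT.nd (nat_lit 156) (nat_lit 760) (nat_lit 0) (XT.nd (nat_lit 78) (nat_lit 228) (nat_lit 0) (XT.lf (nat_lit 76) (nat_lit 729303619) (nat_lit 0) (nat_lit 1186672103) (nat_lit 380) (nat_lit 4041029178) (nat_lit 102) (nat_lit 1) (nat_lit 101) (nat_lit 1)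 (nat_lit 106) (nat_lit 1) (nat_lit 326) (nat_lit 385) (nat_lit 309)) (XT.lf (nat_lit 304) (nat_lit 2341773597) (nat_lit 0) (nat_lit 1585267124) (nat_lit 228) (nat_lit 1966009438) (nat_lit 102) (nat_lit 1) (nat_lit 98) (nat_lit 1) (nat_lit 101) (nat_lit 1) (nat_lit 327) (nat_lit 385) (nat_lit 308))) (XT.nd (nat_lit 78) (nat_lit 456) (nat_lit 0) (XT.lf (nat_lit 76) (nat_lit 1219598520) (nat_lit 0) (nat_lit 58195772) (nat_lit 304) (nat_lit 4552314692) (nat_lit 95) (nat_lit 1) (nat_lit 94) (nat_lit 1) (nat_lit 98) (nat_lit 1) (nat_lit 328) (nat_lit 385) (nat_lit 307)) (XT.nd (nat_lit 78) (nat_lit 228) (nat_lit 0) (XT.lf (nat_lit 304) (nat_lit 3362923516) (nat_lit 0) (nat_lit 973242583) (nat_lit 228) (nat_lit 1431611532) (nat_lit 95) (nat_lit 1) (nat_lit 91) (nat_lit 1) (nat_lit 94) (nat_lit 1) (nat_lit 329) (nat_lit 385) (nat_lit 306)) (XT.lf (nat_lit 304) (nat_lit 978728902) (nat_lit 0) (nat_lit 688004212)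 (nat_lit 228) (nat_lit 4039639041) (nat_lit 92) (nat_lit 1) (nat_lit 88) (nat_lit 1) (nat_lit 91) (nat_lit 1) (nat_lit 330) (nat_lit 385) (nat_lit 305)))))) (XT.nd (nat_lit 312) (nat_lit 1140) (nat_lit 0) (XT.nd (nat_lit 156) (nat_lit 304) (nat_lit 0) (XT.nd (nat_lit 78) (nat_lit 228) (nat_lit 0) (XT.lf (nat_lit 304) (nat_lit 4284689966) (nat_lit 0) (nat_lit 414105848) (nat_lit 228) (nat_lit 946935087) (nat_lit 88) (nat_lit 1) (nat_lit 84) (nat_lit 1) (nat_lit 87) (nat_lit 1) (nat_lit 331) (nat_lit 385) (nat_lit 304)) (XT.lf (nat_lit 304) (nat_lit 1919019795) (nat_lit 0) (nat_lit 149113423) (nat_lit 228) (nat_lit 3517667664) (nat_lit 85) (nat_lit 1) (nat_lit 81) (nat_lit 1) (nat_lit 84) (nat_lit 1) (nat_lit 332) (nat_lit 385) (nat_lit 303))) (XT.nd (nat_lit 78) (nat_lit 228) (nat_lit 0) (XT.lf (nat_lit 76) (nat_lit 5019416490) (nat_lit 0) (nat_lit 412399596) (nat_lit 304) (nat_lit 94959131) (nat_lit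 81) (nat_lit 1) (nat_lit 80) (nat_lit 1) (nat_lit 84) (nat_lit 1) (nat_lit 333) (nat_lit 385) (nat_lit 302)) (XT.lf (nat_lit 76) (nat_lit 2429407697) (nat_lit 0) (nat_lit 2700876335) (nat_lit 304) (nat_lit 337954820) (nat_lit 78) (nat_lit 1) (nat_lit 77) (nat_lit 1) (nat_lit 81) (nat_lit 1) (nat_lit 334) (nat_lit 385) (nat_lit 301)))) (XT.nd (nat_lit 156) (nat_lit 684) (nat_lit 0) (XT.nd (nat_lit 78) (nat_lit 228) (nat_lit 0) (XT.lf (nat_lit 304) (nat_lit 452680953) (nat_lit 0) (nat_lit 4853619458) (nat_lit 228) (nat_lit 104400587) (nat_lit 78) (nat_lit 1) (nat_lit 74) (nat_lit 1) (nat_lit 77) (nat_lit 1) (nat_lit 335) (nat_lit 385) (nat_lit 300)) (XT.lf (nat_lit 76) (nat_lit 2752494276) (nat_lit 0) (nat_lit 1821142875) (nat_lit 228) (nat_lit 779966891) (nat_lit 72) (nat_lit 1) (nat_lit 71) (nat_lit 1) (nat_lit 74) (nat_lit 1) (nat_lit 336) (nat_lit 385) (nat_lit 299))) (XT.nd (nat_lit 78) (nat_lit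 456) (nat_lit 0) (XT.lf (nat_lit 76) (nat_lit 258412188) (nat_lit 0) (nat_lit 4056944172) (nat_lit 304) (nat_lit 982077286) (nat_lit 69) (nat_lit 1) (nat_lit 68) (nat_lit 1) (nat_lit 72) (nat_lit 1) (nat_lit 337) (nat_lit 385) (nat_lit 298)) (XT.nd (nat_lit 78) (nat_lit 228) (nat_lit 0) (XT.lf (nat_lit 76) (nat_lit 3039653737) (nat_lit 0) (nat_lit 1019940705) (nat_lit 228) (nat_lit 1182214373) (nat_lit 66) (nat_lit 1) (nat_lit 65) (nat_lit 1) (nat_lit 68) (nat_lit 1) (nat_lit 338) (nat_lit 385) (nat_lit 297)) (XT.lf (nat_lit 76) (nat_lit 584048102) (nat_lit 0) (nat_lit 3233707394) (nat_lit 304) (nat_lit 1369192846) (nat_lit 63) (nat_lit 1) (nat_lit 62) (nat_lit 1) (nat_lit 66) (nat_lit 1) (nat_lit 339) (nat_lit 385) (nat_lit 296))))))) (XT.nd (nat_lit 702) (nat_lit 1748) (nat_lit 0) (XT.nd (nat_lit 312) (nat_lit 988) (nat_lit 0) (XT.nd (nat_lit 156) (nat_lit 456) (nat_lit 0) (XT.nd (nat_lit 78) (nat_lit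 228) (nat_lit 0) (XT.lf (nat_lit 76) (nat_lit 3293864368) (nat_lit 0) (nat_lit 291107758) (nat_lit 228) (nat_lit 1547779890) (nat_lit 60) (nat_lit 1) (nat_lit 59) (nat_lit 1) (nat_lit 62) (nat_lit 1) (nat_lit 340) (nat_lit 385) (nat_lit 295)) (XT.lf (nat_lit 76) (nat_lit 876785916) (nat_lit 0) (nat_lit 2481631109) (nat_lit 304) (nat_lit 1720742652) (nat_lit 57) (nat_lit 1) (nat_lit 56) (nat_lit 1) (nat_lit 60) (nat_lit 1) (nat_lit 341) (nat_lit 385) (nat_lit 294))) (XT.nd (nat_lit 78) (nat_lit 304) (nat_lit 0) (XT.lf (nat_lit 228) (nat_lit 375978010) (nat_lit 0) (nat_lit 3144336051) (nat_lit 152) (nat_lit 1505975053) (nat_lit 57) (nat_lit 1) (nat_lit 54) (nat_lit 1) (nat_lit 56) (nat_lit 1) (nat_lit 342) (nat_lit 385) (nat_lit 293)) (XT.lf (nat_lit 76) (nat_lit 1139310059) (nat_lit 0) (nat_lit 1795172238) (nat_lit 304) (nat_lit 2039491693) (nat_lit 51) (nat_lit 1) (nat_lit 50) (nat_lit 1) (nat_lit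 54) (nat_lit 1) (nat_lit 343) (nat_lit 385) (nat_lit 292)))) (XT.nd (nat_lit 156) (nat_lit 532) (nat_lit 0) (XT.nd (nat_lit 78) (nat_lit 304) (nat_lit 0) (XT.lf (nat_lit 228) (nat_lit 984693760) (nat_lit 0) (nat_lit 2735912027) (nat_lit 152) (nat_lit 1201742289) (nat_lit 51) (nat_lit 1) (nat_lit 48) (nat_lit 1) (nat_lit 50) (nat_lit 1) (nat_lit 344) (nat_lit 385) (nat_lit 291)) (XT.lf (nat_lit 76) (nat_lit 1374097034) (nat_lit 0) (nat_lit 1169210621) (nat_lit 304) (nat_lit 2327994906) (nat_lit 45) (nat_lit 1) (nat_lit 44) (nat_lit 1) (nat_lit 48) (nat_lit 1) (nat_lit 345) (nat_lit 385) (nat_lit 290))) (XT.nd (nat_lit 78) (nat_lit 380) (nat_lit 0) (XT.lf (nat_lit 228) (nat_lit 1536088948) (nat_lit 0) (nat_lit 2359102859) (nat_lit 152) (nat_lit 925688858) (nat_lit 45) (nat_lit 1) (nat_lit 42) (nat_lit 1) (nat_lit 44) (nat_lit 1) (nat_lit 346) (nat_lit 385) (nat_lit 289)) (XT.nd (nat_lit 78) (nat_lit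 152) (nat_lit 0) (XT.lf (nat_lit 76) (nat_lit 1583431288) (nat_lit 0) (nat_lit 599016886) (nat_lit 228) (nat_lit 2588613103) (nat_lit 40) (nat_lit 1) (nat_lit 39) (nat_lit 1) (nat_lit 42) (nat_lit 1) (nat_lit 347) (nat_lit 385) (nat_lit 288)) (XT.lf (nat_lit 228) (nat_lit 2034705179) (nat_lit 0) (nat_lit 2011549573) (nat_lit 152) (nat_lit 675550057) (nat_lit 40) (nat_lit 1) (nat_lit 37) (nat_lit 1) (nat_lit 39) (nat_lit 1) (nat_lit 348) (nat_lit 385) (nat_lit 287)))))) (XT.nd (nat_lit 390) (nat_lit 836) (nat_lit 0) (XT.nd (nat_lit 156) (nat_lit 532) (nat_lit 0) (XT.nd (nat_lit 78) (nat_lit 152) (nat_lit 0) (XT.lf (nat_lit 76) (nat_lit 1769419884) (nat_lit 0) (nat_lit 80222764) (nat_lit 228) (nat_lit 2823527684) (nat_lit 35) (nat_lit 1) (nat_lit 34) (nat_lit 1) (nat_lit 37) (nat_lit 1) (nat_lit 349) (nat_lit 385) (nat_lit 286)) (XT.lf (nat_lit 228) (nat_lit 2484736159) (nat_lit 0) (nat_lit 1691070408)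 (nat_lit 152) (nat_lit 449236030) (nat_lit 35) (nat_lit 1) (nat_lit 32) (nat_lit 1) (nat_lit 34) (nat_lit 1) (nat_lit 350) (nat_lit 385) (nat_lit 285))) (XT.nd (nat_lit 78) (nat_lit 380) (nat_lit 0) (XT.lf (nat_lit 228) (nat_lit 396405278) (nat_lit 0) (nat_lit 1540174490) (nat_lit 152) (nat_lit 2640922684) (nat_lit 33) (nat_lit 1) (nat_lit 30) (nat_lit 1) (nat_lit 32) (nat_lit 1) (nat_lit 351) (nat_lit 385) (nat_lit 284)) (XT.nd (nat_lit 78) (nat_lit 152) (nat_lit 0) (XT.lf (nat_lit 228) (nat_lit 2890054158) (nat_lit 0) (nat_lit 1395647427) (nat_lit 152) (nat_lit 244818431) (nat_lit 30) (nat_lit 1) (nat_lit 27) (nat_lit 1) (nat_lit 29) (nat_lit 1) (nat_lit 352) (nat_lit 385) (nat_lit 283)) (XT.lf (nat_lit 228) (nat_lit 829880791) (nat_lit 0) (nat_lit 1254489013) (nat_lit 152) (nat_lit 2399662455) (nat_lit 28) (nat_lit 1) (nat_lit 25) (nat_lit 1) (nat_lit 27) (nat_lit 1) (nat_lit 353) (nat_lit 385)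 (nat_lit 282))))) (XT.nd (nat_lit 156) (nat_lit 456) (nat_lit 0) (XT.nd (nat_lit 78) (nat_lit 152) (nat_lit 0) (XT.lf (nat_lit 228) (nat_lit 3254234449) (nat_lit 0) (nat_lit 1123414135) (nat_lit 152) (nat_lit 60518099) (nat_lit 25) (nat_lit 1) (nat_lit 22) (nat_lit 1) (nat_lit 24) (nat_lit 1) (nat_lit 354) (nat_lit 385) (nat_lit 281)) (XT.lf (nat_lit 228) (nat_lit 1222624804) (nat_lit 0) (nat_lit 991312201) (nat_lit 152) (nat_lit 2178764309) (nat_lit 23) (nat_lit 1) (nat_lit 20) (nat_lit 1) (nat_lit 22) (nat_lit 1) (nat_lit 355) (nat_lit 385) (nat_lit 280))) (XT.nd (nat_lit 78) (nat_lit 304) (nat_lit 0) (XT.lf (nat_lit 76) (nat_lit 103925213) (nat_lit 0) (nat_lit 768021435) (nat_lit 152) (nat_lit 3475955293) (nat_lit 19) (nat_lit 1) (nat_lit 18) (nat_lit 1) (nat_lit 20) (nat_lit 1) (nat_lit 356) (nat_lit 385) (nat_lit 279)) (XT.nd (nat_lit 78) (nat_lit 152) (nat_lit 0) (XT.lf (nat_lit 228) (nat_lit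 1577857734) (nat_lit 0) (nat_lit 748967637) (nat_lit 152) (nat_lit 1976618567) (nat_lit 19) (nat_lit 1) (nat_lit 16) (nat_lit 1) (nat_lit 18) (nat_lit 1) (nat_lit 357) (nat_lit 385) (nat_lit 278)) (XT.lf (nat_lit 76) (nat_lit 250835451) (nat_lit 0) (nat_lit 389221392) (nat_lit 152) (nat_lit 3619613159) (nat_lit 15) (nat_lit 1) (nat_lit 14) (nat_lit 1) (nat_lit 16) (nat_lit 1) (nat_lit 358) (nat_lit 385) (nat_lit 277))))))))
noncomputable def ec118 : XT := (XT.nd (nat_lit 1404) (nat_lit 6916) (nat_lit 0) (XT.nd (nat_lit 702) (nat_lit 4484) (nat_lit 0) (XT.nd (nat_lit 312) (nat_lit 2508) (nat_lit 0) (XT.nd (nat_lit 156) (nat_lit 1444) (nat_lit 0) (XT.nd (nat_lit 78) (nat_lit 684) (nat_lit 0) (XT.lf (nat_lit 760) (nat_lit 2567950246) (nat_lit 0) (nat_lit 5300663667) (nat_lit 684) (nat_lit 2472626521) (nat_lit 359) (nat_lit 1) (nat_lit 349) (nat_lit 1) (nat_lit 358) (nat_lit 1) (nat_lit 279) (nat_lit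 386) (nat_lit 355)) (XT.lf (nat_lit 760) (nat_lit 315753755) (nat_lit 0) (nat_lit 3749963160) (nat_lit 684) (nat_lit 6145726308) (nat_lit 350) (nat_lit 1) (nat_lit 340) (nat_lit 1) (nat_lit 349) (nat_lit 1) (nat_lit 280) (nat_lit 386) (nat_lit 354))) (XT.nd (nat_lit 78) (nat_lit 684) (nat_lit 0) (XT.lf (nat_lit 76) (nat_lit 352792390) (nat_lit 0) (nat_lit 1911340312) (nat_lit 760) (nat_lit 7819750236) (nat_lit 331) (nat_lit 1) (nat_lit 330) (nat_lit 1) (nat_lit 340) (nat_lit 1) (nat_lit 281) (nat_lit 386) (nat_lit 353)) (XT.lf (nat_lit 760) (nat_lit 5803066371) (nat_lit 0) (nat_lit 829634629) (nat_lit 684) (nat_lit 3325583765) (nat_lit 331) (nat_lit 1) (nat_lit 321) (nat_lit 1) (nat_lit 330) (nat_lit 1) (nat_lit 282) (nat_lit 386) (nat_lit 352)))) (XT.nd (nat_lit 156) (nat_lit 1900) (nat_lit 0) (XT.nd (nat_lit 78) (nat_lit 608) (nat_lit 0) (XT.lf (nat_lit 76) (nat_lit 2905686073) (nat_lit 0) (nat_lit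 6402804467) (nat_lit 760) (nat_lit 526472980) (nat_lit 322) (nat_lit 1) (nat_lit 321) (nat_lit 1) (nat_lit 331) (nat_lit 1) (nat_lit 283) (nat_lit 386) (nat_lit 351)) (XT.lf (nat_lit 684) (nat_lit 1056554784) (nat_lit 0) (nat_lit 7907905930) (nat_lit 608) (nat_lit 749327313) (nat_lit 322) (nat_lit 1) (nat_lit 313) (nat_lit 1) (nat_lit 321) (nat_lit 1) (nat_lit 284) (nat_lit 386) (nat_lit 350))) (XT.nd (nat_lit 78) (nat_lit 1216) (nat_lit 0) (XT.lf (nat_lit 76) (nat_lit 5236378565) (nat_lit 0) (nat_lit 1314057833) (nat_lit 684) (nat_lit 3043931365) (nat_lit 305) (nat_lit 1) (nat_lit 304) (nat_lit 1) (nat_lit 313) (nat_lit 1) (nat_lit 285) (nat_lit 386) (nat_lit 349)) (XT.nd (nat_lit 78) (nat_lit 608) (nat_lit 0) (XT.lf (nat_lit 76) (nat_lit 1592222396) (nat_lit 0) (nat_lit 3663170769) (nat_lit 684) (nat_lit 4221679381) (nat_lit 297) (nat_lit 1) (nat_lit 296) (nat_lit 1) (nat_lit 305) (nat_lit 1) (nat_lit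 286) (nat_lit 386) (nat_lit 348)) (XT.lf (nat_lit 684) (nat_lit 3344761574) (nat_lit 0) (nat_lit 4014510414) (nat_lit 608) (nat_lit 2002459566) (nat_lit 297) (nat_lit 1) (nat_lit 288) (nat_lit 1) (nat_lit 296) (nat_lit 1) (nat_lit 287) (nat_lit 386) (nat_lit 347)))))) (XT.nd (nat_lit 312) (nat_lit 2736) (nat_lit 0) (XT.nd (nat_lit 156) (nat_lit 532) (nat_lit 0) (XT.nd (nat_lit 78) (nat_lit 684) (nat_lit 0) (XT.lf (nat_lit 608) (nat_lit 876556577) (nat_lit 0) (nat_lit 2828914746) (nat_lit 532) (nat_lit 5542886891) (nat_lit 289) (nat_lit 1) (nat_lit 281) (nat_lit 1) (nat_lit 288) (nat_lit 1) (nat_lit 288) (nat_lit 386) (nat_lit 346)) (XT.lf (nat_lit 76) (nat_lit 138160400) (nat_lit 0) (nat_lit 1558762820) (nat_lit 684) (nat_lit 7439987731) (nat_lit 273) (nat_lit 1) (nat_lit 272) (nat_lit 1) (nat_lit 281) (nat_lit 1) (nat_lit 289) (nat_lit 386) (nat_lit 345))) (XT.nd (nat_lit 78) (nat_lit 0) (nat_lit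 0) (XT.lf (nat_lit 608) (nat_lit 5034904633) (nat_lit 0) (nat_lit 598945870) (nat_lit 532) (nat_lit 3393146645) (nat_lit 273) (nat_lit 1) (nat_lit 265) (nat_lit 1) (nat_lit 272) (nat_lit 1) (nat_lit 290) (nat_lit 386) (nat_lit 344)) (XT.lf (nat_lit 76) (nat_lit 2070148136) (nat_lit 0) (nat_lit 6415689564) (nat_lit 608) (nat_lit 433224198) (nat_lit 266) (nat_lit 1) (nat_lit 265) (nat_lit 1) (nat_lit 273) (nat_lit 1) (nat_lit 291) (nat_lit 386) (nat_lit 343)))) (XT.nd (nat_lit 156) (nat_lit 1596) (nat_lit 0) (XT.nd (nat_lit 78) (nat_lit 532) (nat_lit 0) (XT.lf (nat_lit 76) (nat_lit 7379351096) (nat_lit 0) (nat_lit 24947344) (nat_lit 608) (nat_lit 1408579399) (nat_lit 258) (nat_lit 1) (nat_lit 257) (nat_lit 1) (nat_lit 265) (nat_lit 1) (nat_lit 292) (nat_lit 386) (nat_lit 342)) (XT.lf (nat_lit 76) (nat_lit 3834344462) (nat_lit 0) (nat_lit 2517167451) (nat_lit 608) (nat_lit 2356570670) (nat_lit 251)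 (nat_lit 1) (nat_lit 250) (nat_lit 1) (nat_lit 258) (nat_lit 1) (nat_lit 293) (nat_lit 386) (nat_lit 341))) (XT.nd (nat_lit 78) (nat_lit 1064) (nat_lit 0) (XT.lf (nat_lit 76) (nat_lit 364255896) (nat_lit 0) (nat_lit 4992080761) (nat_lit 608) (nat_lit 3248897314) (nat_lit 244) (nat_lit 1) (nat_lit 243) (nat_lit 1) (nat_lit 251) (nat_lit 1) (nat_lit 294) (nat_lit 386) (nat_lit 340)) (XT.nd (nat_lit 78) (nat_lit 608) (nat_lit 0) (XT.lf (nat_lit 532) (nat_lit 1034562856) (nat_lit 0) (nat_lit 4396764503) (nat_lit 456) (nat_lit 3072565183) (nat_lit 244) (nat_lit 1) (nat_lit 237) (nat_lit 1) (nat_lit 243) (nat_lit 1) (nat_lit 295) (nat_lit 386) (nat_lit 339)) (XT.lf (nat_lit 76) (nat_lit 1973253332) (nat_lit 0) (nat_lit 1506205795) (nat_lit 608) (nat_lit 4924721973) (nat_lit 230) (nat_lit 1) (nat_lit 229) (nat_lit 1) (nat_lit 237) (nat_lit 1) (nat_lit 296) (nat_lit 386) (nat_lit 338))))))) (XT.nd (nat_lit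 702) (nat_lit 3268) (nat_lit 0) (XT.nd (nat_lit 312) (nat_lit 1748) (nat_lit 0) (XT.nd (nat_lit 156) (nat_lit 988) (nat_lit 0) (XT.nd (nat_lit 78) (nat_lit 456) (nat_lit 0) (XT.lf (nat_lit 532) (nat_lit 4283540794) (nat_lit 0) (nat_lit 2599246690) (nat_lit 456) (nat_lit 1423202933) (nat_lit 230) (nat_lit 1) (nat_lit 223) (nat_lit 1) (nat_lit 229) (nat_lit 1) (nat_lit 297) (nat_lit 386) (nat_lit 337)) (XT.lf (nat_lit 532) (nat_lit 1678541753) (nat_lit 0) (nat_lit 1758104272) (nat_lit 456) (nat_lit 4772705531) (nat_lit 224) (nat_lit 1) (nat_lit 217) (nat_lit 1) (nat_lit 223) (nat_lit 1) (nat_lit 298) (nat_lit 386) (nat_lit 336))) (XT.nd (nat_lit 78) (nat_lit 456) (nat_lit 0) (XT.lf (nat_lit 76) (nat_lit 69977698) (nat_lit 0) (nat_lit 891799374) (nat_lit 532) (nat_lit 7152592469) (nat_lit 211) (nat_lit 1) (nat_lit 210) (nat_lit 1) (nat_lit 217) (nat_lit 1) (nat_lit 299) (nat_lit 386) (nat_lit 335))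 (XT.lf (nat_lit 532) (nat_lit 4581837011) (nat_lit 0) (nat_lit 182246316) (nat_lit 456) (nat_lit 3256404101) (nat_lit 211) (nat_lit 1) (nat_lit 204) (nat_lit 1) (nat_lit 210) (nat_lit 1) (nat_lit 300) (nat_lit 386) (nat_lit 334)))) (XT.nd (nat_lit 156) (nat_lit 1292) (nat_lit 0) (XT.nd (nat_lit 78) (nat_lit 456) (nat_lit 0) (XT.lf (nat_lit 76) (nat_lit 1419858189) (nat_lit 0) (nat_lit 5966348456) (nat_lit 532) (nat_lit 542032558) (nat_lit 205) (nat_lit 1) (nat_lit 204) (nat_lit 1) (nat_lit 211) (nat_lit 1) (nat_lit 301) (nat_lit 386) (nat_lit 333)) (XT.lf (nat_lit 76) (nat_lit 5965553641) (nat_lit 0) (nat_lit 637965905) (nat_lit 456) (nat_lit 1233805749) (nat_lit 199) (nat_lit 1) (nat_lit 198) (nat_lit 1) (nat_lit 204) (nat_lit 1) (nat_lit 302) (nat_lit 386) (nat_lit 332))) (XT.nd (nat_lit 78) (nat_lit 836) (nat_lit 0) (XT.lf (nat_lit 76) (nat_lit 2649579193) (nat_lit 0) (nat_lit 3196103460) (nat_lit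 532) (nat_lit 1901949653) (nat_lit 193) (nat_lit 1) (nat_lit 192) (nat_lit 1) (nat_lit 199) (nat_lit 1) (nat_lit 303) (nat_lit 386) (nat_lit 331)) (XT.nd (nat_lit 78) (nat_lit 456) (nat_lit 0) (XT.lf (nat_lit 456) (nat_lit 1926720194) (nat_lit 0) (nat_lit 5129926197) (nat_lit 380) (nat_lit 602844570) (nat_lit 193) (nat_lit 1) (nat_lit 187) (nat_lit 1) (nat_lit 192) (nat_lit 1) (nat_lit 304) (nat_lit 386) (nat_lit 330)) (XT.lf (nat_lit 76) (nat_lit 3757640128) (nat_lit 0) (nat_lit 679406944) (nat_lit 456) (nat_lit 3135470605) (nat_lit 182) (nat_lit 1) (nat_lit 181) (nat_lit 1) (nat_lit 187) (nat_lit 1) (nat_lit 305) (nat_lit 386) (nat_lit 329)))))) (XT.nd (nat_lit 390) (nat_lit 1444) (nat_lit 0) (XT.nd (nat_lit 156) (nat_lit 1064) (nat_lit 0) (XT.nd (nat_lit 78) (nat_lit 380) (nat_lit 0) (XT.lf (nat_lit 76) (nat_lit 542241560) (nat_lit 0) (nat_lit 3233262489) (nat_lit 456) (nat_lit 3711367276) (nat_lit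 177) (nat_lit 1) (nat_lit 176) (nat_lit 1) (nat_lit 182) (nat_lit 1) (nat_lit 306) (nat_lit 386) (nat_lit 328)) (XT.lf (nat_lit 456) (nat_lit 1625104107) (nat_lit 0) (nat_lit 3139317079) (nat_lit 380) (nat_lit 2638006547) (nat_lit 177) (nat_lit 1) (nat_lit 171) (nat_lit 1) (nat_lit 176) (nat_lit 1) (nat_lit 307) (nat_lit 386) (nat_lit 327))) (XT.nd (nat_lit 78) (nat_lit 684) (nat_lit 0) (XT.lf (nat_lit 76) (nat_lit 1569657356) (nat_lit 0) (nat_lit 965403617) (nat_lit 380) (nat_lit 4784247994) (nat_lit 167) (nat_lit 1) (nat_lit 166) (nat_lit 1) (nat_lit 171) (nat_lit 1) (nat_lit 308) (nat_lit 386) (nat_lit 326)) (XT.nd (nat_lit 78) (nat_lit 304) (nat_lit 0) (XT.lf (nat_lit 456) (nat_lit 3720801011) (nat_lit 0) (nat_lit 1950696070) (nat_lit 380) (nat_lit 1565775092) (nat_lit 167) (nat_lit 1) (nat_lit 161) (nat_lit 1) (nat_lit 166) (nat_lit 1) (nat_lit 309) (nat_lit 386) (nat_lit 325)) (XT.lf (nat_lit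 380) (nat_lit 1107235841) (nat_lit 0) (nat_lit 1396091742) (nat_lit 304) (nat_lit 4653176565) (nat_lit 162) (nat_lit 1) (nat_lit 157) (nat_lit 1) (nat_lit 161) (nat_lit 1) (nat_lit 310) (nat_lit 386) (nat_lit 324))))) (XT.nd (nat_lit 156) (nat_lit 684) (nat_lit 0) (XT.nd (nat_lit 78) (nat_lit 304) (nat_lit 0) (XT.lf (nat_lit 456) (nat_lit 5615975238) (nat_lit 0) (nat_lit 866905252) (nat_lit 380) (nat_lit 594032600) (nat_lit 157) (nat_lit 1) (nat_lit 151) (nat_lit 1) (nat_lit 156) (nat_lit 1) (nat_lit 311) (nat_lit 386) (nat_lit 323)) (XT.lf (nat_lit 380) (nat_lit 2997013067) (nat_lit 0) (nat_lit 352279883) (nat_lit 304) (nat_lit 3648986583) (nat_lit 152) (nat_lit 1) (nat_lit 147) (nat_lit 1) (nat_lit 151) (nat_lit 1) (nat_lit 312) (nat_lit 386) (nat_lit 322))) (XT.nd (nat_lit 78) (nat_lit 684) (nat_lit 0) (XT.lf (nat_lit 76) (nat_lit 284985279) (nat_lit 0) (nat_lit 6512865066) (nat_lit 380) (nat_lit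 123180726) (nat_lit 148) (nat_lit 1) (nat_lit 147) (nat_lit 1) (nat_lit 152) (nat_lit 1) (nat_lit 313) (nat_lit 386) (nat_lit 321)) (XT.nd (nat_lit 78) (nat_lit 304) (nat_lit 0) (XT.lf (nat_lit 76) (nat_lit 4112704609) (nat_lit 0) (nat_lit 2141791771) (nat_lit 380) (nat_lit 589980304) (nat_lit 143) (nat_lit 1) (nat_lit 142) (nat_lit 1) (nat_lit 147) (nat_lit 1) (nat_lit 314) (nat_lit 386) (nat_lit 320)) (XT.lf (nat_lit 76) (nat_lit 1085870669) (nat_lit 0) (nat_lit 4657555013) (nat_lit 380) (nat_lit 1025769430) (nat_lit 139) (nat_lit 1) (nat_lit 138) (nat_lit 1) (nat_lit 143) (nat_lit 1) (nat_lit 315) (nat_lit 386) (nat_lit 319))))))))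
noncomputable def ec119 : XT := (XT.nd (nat_lit 1404) (nat_lit 3952) (nat_lit 0) (XT.nd (nat_lit 702) (nat_lit 2052) (nat_lit 0) (XT.nd (nat_lit 312) (nat_lit 1520) (nat_lit 0) (XT.nd (nat_lit 156) (nat_lit 608) (nat_lit 0) (XT.nd (nat_lit 78) (nat_lit 304) (nat_lit 0) (XT.lf (nat_lit 76) (nat_lit 4798439931) (nat_lit 0) (nat_lit 454141077) (nat_lit 380) (nat_lit 1442362720) (nat_lit 134) (nat_lit 1) (nat_lit 133) (nat_lit 1) (nat_lit 138) (nat_lit 1) (nat_lit 316) (nat_lit 386) (nat_lit 318)) (XT.lf (nat_lit 76) (nat_lit 1808006663) (nat_lit 0) (nat_lit 2967879955) (nat_lit 380) (nat_lit 1845710627) (nat_lit 130) (nat_lit 1) (nat_lit 129) (nat_lit 1) (nat_lit 134) (nat_lit 1) (nat_lit 317) (nat_lit 386) (nat_lit 317))) (XT.nd (nat_lit 78) (nat_lit 304) (nat_lit 0) (XT.lf (nat_lit 380) (nat_lit 1091680775) (nat_lit 0) (nat_lit 4326151555) (nat_lit 304) (nat_lit 1131568402) (nat_lit 130) (nat_lit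 1) (nat_lit 125) (nat_lit 1) (nat_lit 129) (nat_lit 1) (nat_lit 318) (nat_lit 386) (nat_lit 316)) (XT.lf (nat_lit 76) (nat_lit 2457757340) (nat_lit 0) (nat_lit 1430819012) (nat_lit 304) (nat_lit 2589481617) (nat_lit 122) (nat_lit 1) (nat_lit 121) (nat_lit 1) (nat_lit 125) (nat_lit 1) (nat_lit 319) (nat_lit 386) (nat_lit 315)))) (XT.nd (nat_lit 156) (nat_lit 912) (nat_lit 0) (XT.nd (nat_lit 78) (nat_lit 304) (nat_lit 0) (XT.lf (nat_lit 380) (nat_lit 2497845303) (nat_lit 0) (nat_lit 3474017606) (nat_lit 304) (nat_lit 435912949) (nat_lit 122) (nat_lit 1) (nat_lit 117) (nat_lit 1) (nat_lit 121) (nat_lit 1) (nat_lit 320) (nat_lit 386) (nat_lit 314)) (XT.lf (nat_lit 76) (nat_lit 3040995534) (nat_lit 0) (nat_lit 34347572) (nat_lit 304) (nat_lit 3263065529) (nat_lit 114) (nat_lit 1) (nat_lit 113) (nat_lit 1) (nat_lit 117) (nat_lit 1) (nat_lit 321) (nat_lit 386) (nat_lit 313))) (XT.nd (nat_lit 78) (nat_lit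 608) (nat_lit 0) (XT.lf (nat_lit 76) (nat_lit 190680207) (nat_lit 0) (nat_lit 2501333630) (nat_lit 380) (nat_lit 3577926035) (nat_lit 110) (nat_lit 1) (nat_lit 109) (nat_lit 1) (nat_lit 114) (nat_lit 1) (nat_lit 322) (nat_lit 386) (nat_lit 312)) (XT.nd (nat_lit 78) (nat_lit 380) (nat_lit 0) (XT.lf (nat_lit 304) (nat_lit 1249019571) (nat_lit 0) (nat_lit 2322230180) (nat_lit 228) (nat_lit 2631078729) (nat_lit 110) (nat_lit 1) (nat_lit 106) (nat_lit 1) (nat_lit 109) (nat_lit 1) (nat_lit 323) (nat_lit 386) (nat_lit 311)) (XT.lf (nat_lit 76) (nat_lit 751182728) (nat_lit 0) (nat_lit 1222272266) (nat_lit 380) (nat_lit 4162260054) (nat_lit 102) (nat_lit 1) (nat_lit 101) (nat_lit 1) (nat_lit 106) (nat_lit 1) (nat_lit 324) (nat_lit 386) (nat_lit 310)))))) (XT.nd (nat_lit 312) (nat_lit 1064) (nat_lit 0) (XT.nd (nat_lit 156) (nat_lit 456) (nat_lit 0) (XT.nd (nat_lit 78) (nat_lit 304) (nat_lit 0) (XT.lf (nat_lit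 304) (nat_lit 2412026805) (nat_lit 0) (nat_lit 1632825137) (nat_lit 228) (nat_lit 2024989721) (nat_lit 102) (nat_lit 1) (nat_lit 98) (nat_lit 1) (nat_lit 101) (nat_lit 1) (nat_lit 325) (nat_lit 386) (nat_lit 309)) (XT.lf (nat_lit 76) (nat_lit 1256186475) (nat_lit 0) (nat_lit 59941645) (nat_lit 304) (nat_lit 4688884132) (nat_lit 95) (nat_lit 1) (nat_lit 94) (nat_lit 1) (nat_lit 98) (nat_lit 1) (nat_lit 326) (nat_lit 386) (nat_lit 308))) (XT.nd (nat_lit 78) (nat_lit 228) (nat_lit 0) (XT.lf (nat_lit 304) (nat_lit 3463811222) (nat_lit 0) (nat_lit 1002439860) (nat_lit 228) (nat_lit 1474559878) (nat_lit 95) (nat_lit 1) (nat_lit 91) (nat_lit 1) (nat_lit 94) (nat_lit 1) (nat_lit 327) (nat_lit 386) (nat_lit 307)) (XT.lf (nat_lit 304) (nat_lit 1008090769) (nat_lit 0) (nat_lit 708644338) (nat_lit 228) (nat_lit 4160828212) (nat_lit 92) (nat_lit 1) (nat_lit 88) (nat_lit 1) (nat_lit 91) (nat_lit 1) (nat_lit 328)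 (nat_lit 386) (nat_lit 306)))) (XT.nd (nat_lit 156) (nat_lit 532) (nat_lit 0) (XT.nd (nat_lit 78) (nat_lit 228) (nat_lit 0) (XT.lf (nat_lit 304) (nat_lit 4413230665) (nat_lit 0) (nat_lit 426529023) (nat_lit 228) (nat_lit 975343140) (nat_lit 88) (nat_lit 1) (nat_lit 84) (nat_lit 1) (nat_lit 87) (nat_lit 1) (nat_lit 329) (nat_lit 386) (nat_lit 305)) (XT.lf (nat_lit 304) (nat_lit 1976590389) (nat_lit 0) (nat_lit 153586825) (nat_lit 228) (nat_lit 3623197694) (nat_lit 85) (nat_lit 1) (nat_lit 81) (nat_lit 1) (nat_lit 84) (nat_lit 1) (nat_lit 330) (nat_lit 386) (nat_lit 304))) (XT.nd (nat_lit 78) (nat_lit 456) (nat_lit 0) (XT.lf (nat_lit 76) (nat_lit 5169998985) (nat_lit 0) (nat_lit 424771584) (nat_lit 304) (nat_lit 97807905) (nat_lit 81) (nat_lit 1) (nat_lit 80) (nat_lit 1) (nat_lit 84) (nat_lit 1) (nat_lit 331) (nat_lit 386) (nat_lit 303)) (XT.nd (nat_lit 78) (nat_lit 228) (nat_lit 0) (XT.lf (nat_lit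 76) (nat_lit 2502289927) (nat_lit 0) (nat_lit 2781902625) (nat_lit 304) (nat_lit 348093465) (nat_lit 78) (nat_lit 1) (nat_lit 77) (nat_lit 1) (nat_lit 81) (nat_lit 1) (nat_lit 332) (nat_lit 386) (nat_lit 302)) (XT.lf (nat_lit 304) (nat_lit 466261381) (nat_lit 0) (nat_lit 4999228042) (nat_lit 228) (nat_lit 107532604) (nat_lit 78) (nat_lit 1) (nat_lit 74) (nat_lit 1) (nat_lit 77) (nat_lit 1) (nat_lit 333) (nat_lit 386) (nat_lit 301))))))) (XT.nd (nat_lit 702) (nat_lit 1976) (nat_lit 0) (XT.nd (nat_lit 312) (nat_lit 1064) (nat_lit 0) (XT.nd (nat_lit 156) (nat_lit 456) (nat_lit 0) (XT.nd (nat_lit 78) (nat_lit 228) (nat_lit 0) (XT.lf (nat_lit 76) (nat_lit 2835069104) (nat_lit 0) (nat_lit 1875777161) (nat_lit 228) (nat_lit 803365898) (nat_lit 72) (nat_lit 1) (nat_lit 71) (nat_lit 1) (nat_lit 74) (nat_lit 1) (nat_lit 334) (nat_lit 386) (nat_lit 300)) (XT.lf (nat_lit 76) (nat_lit 266164553) (nat_lit 0) (nat_lit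 4178652497) (nat_lit 304) (nat_lit 1011539605) (nat_lit 69) (nat_lit 1) (nat_lit 68) (nat_lit 1) (nat_lit 72) (nat_lit 1) (nat_lit 335) (nat_lit 386) (nat_lit 299))) (XT.nd (nat_lit 78) (nat_lit 228) (nat_lit 0) (XT.lf (nat_lit 76) (nat_lit 3130843349) (nat_lit 0) (nat_lit 1050538927) (nat_lit 228) (nat_lit 1217680804) (nat_lit 66) (nat_lit 1) (nat_lit 65) (nat_lit 1) (nat_lit 68) (nat_lit 1) (nat_lit 336) (nat_lit 386) (nat_lit 298)) (XT.lf (nat_lit 76) (nat_lit 601569545) (nat_lit 0) (nat_lit 3330718615) (nat_lit 304) (nat_lit 1410268632) (nat_lit 63) (nat_lit 1) (nat_lit 62) (nat_lit 1) (nat_lit 66) (nat_lit 1) (nat_lit 337) (nat_lit 386) (nat_lit 297)))) (XT.nd (nat_lit 156) (nat_lit 608) (nat_lit 0) (XT.nd (nat_lit 78) (nat_lit 228) (nat_lit 0) (XT.lf (nat_lit 76) (nat_lit 3392680299) (nat_lit 0) (nat_lit 299840991) (nat_lit 228) (nat_lit 1594213287) (nat_lit 60) (nat_lit 1) (nat_lit 59) (nat_lit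 1) (nat_lit 62) (nat_lit 1) (nat_lit 338) (nat_lit 386) (nat_lit 296)) (XT.lf (nat_lit 76) (nat_lit 903089494) (nat_lit 0) (nat_lit 2556080042) (nat_lit 304) (nat_lit 1772364932) (nat_lit 57) (nat_lit 1) (nat_lit 56) (nat_lit 1) (nat_lit 60) (nat_lit 1) (nat_lit 339) (nat_lit 386) (nat_lit 295))) (XT.nd (nat_lit 78) (nat_lit 456) (nat_lit 0) (XT.lf (nat_lit 228) (nat_lit 387257350) (nat_lit 0) (nat_lit 3238666132) (nat_lit 152) (nat_lit 1551154305) (nat_lit 57) (nat_lit 1) (nat_lit 54) (nat_lit 1) (nat_lit 56) (nat_lit 1) (nat_lit 340) (nat_lit 386) (nat_lit 294)) (XT.nd (nat_lit 78) (nat_lit 152) (nat_lit 0) (XT.lf (nat_lit 76) (nat_lit 1173489361) (nat_lit 0) (nat_lit 1849027405) (nat_lit 304) (nat_lit 2100676444) (nat_lit 51) (nat_lit 1) (nat_lit 50) (nat_lit 1) (nat_lit 54) (nat_lit 1) (nat_lit 341) (nat_lit 386) (nat_lit 293)) (XT.lf (nat_lit 228) (nat_lit 1014234573) (nat_lit 0) (nat_lit 2817989388)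 (nat_lit 152) (nat_lit 1237794558) (nat_lit 51) (nat_lit 1) (nat_lit 48) (nat_lit 1) (nat_lit 50) (nat_lit 1) (nat_lit 342) (nat_lit 386) (nat_lit 292)))))) (XT.nd (nat_lit 390) (nat_lit 912) (nat_lit 0) (XT.nd (nat_lit 156) (nat_lit 608) (nat_lit 0) (XT.nd (nat_lit 78) (nat_lit 152) (nat_lit 0) (XT.lf (nat_lit 76) (nat_lit 1415319945) (nat_lit 0) (nat_lit 1204286940) (nat_lit 304) (nat_lit 2397834754) (nat_lit 45) (nat_lit 1) (nat_lit 44) (nat_lit 1) (nat_lit 48) (nat_lit 1) (nat_lit 343) (nat_lit 386) (nat_lit 291)) (XT.lf (nat_lit 228) (nat_lit 1582171617) (nat_lit 0) (nat_lit 2429875945) (nat_lit 152) (nat_lit 953459524) (nat_lit 45) (nat_lit 1) (nat_lit 42) (nat_lit 1) (nat_lit 44) (nat_lit 1) (nat_lit 344) (nat_lit 386) (nat_lit 290))) (XT.nd (nat_lit 78) (nat_lit 380) (nat_lit 0) (XT.lf (nat_lit 76) (nat_lit 1630934227) (nat_lit 0) (nat_lit 616987393) (nat_lit 228) (nat_lit 2666271496) (nat_lit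 40) (nat_lit 1) (nat_lit 39) (nat_lit 1) (nat_lit 42) (nat_lit 1) (nat_lit 345) (nat_lit 386) (nat_lit 289)) (XT.nd (nat_lit 78) (nat_lit 228) (nat_lit 0) (XT.lf (nat_lit 228) (nat_lit 2095746334) (nat_lit 0) (nat_lit 2071896060) (nat_lit 152) (nat_lit 695816559) (nat_lit 40) (nat_lit 1) (nat_lit 37) (nat_lit 1) (nat_lit 39) (nat_lit 1) (nat_lit 346) (nat_lit 386) (nat_lit 288)) (XT.lf (nat_lit 76) (nat_lit 1822502480) (nat_lit 0) (nat_lit 82629446) (nat_lit 228) (nat_lit 2908233514) (nat_lit 35) (nat_lit 1) (nat_lit 34) (nat_lit 1) (nat_lit 37) (nat_lit 1) (nat_lit 347) (nat_lit 386) (nat_lit 287))))) (XT.nd (nat_lit 156) (nat_lit 608) (nat_lit 0) (XT.nd (nat_lit 78) (nat_lit 152) (nat_lit 0) (XT.lf (nat_lit 228) (nat_lit 2559278244) (nat_lit 0) (nat_lit 1741802520) (nat_lit 152) (nat_lit 462713111) (nat_lit 35) (nat_lit 1) (nat_lit 32) (nat_lit 1) (nat_lit 34) (nat_lit 1) (nat_lit 348) (nat_lit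 386) (nat_lit 286)) (XT.lf (nat_lit 228) (nat_lit 408297436) (nat_lit 0) (nat_lit 1586379725) (nat_lit 152) (nat_lit 2720150365) (nat_lit 33) (nat_lit 1) (nat_lit 30) (nat_lit 1) (nat_lit 32) (nat_lit 1) (nat_lit 349) (nat_lit 386) (nat_lit 285))) (XT.nd (nat_lit 78) (nat_lit 380) (nat_lit 0) (XT.lf (nat_lit 228) (nat_lit 2976755783) (nat_lit 0) (nat_lit 1437516850) (nat_lit 152) (nat_lit 252162983) (nat_lit 30) (nat_lit 1) (nat_lit 27) (nat_lit 1) (nat_lit 29) (nat_lit 1) (nat_lit 350) (nat_lit 386) (nat_lit 284)) (XT.nd (nat_lit 78) (nat_lit 228) (nat_lit 0) (XT.lf (nat_lit 228) (nat_lit 854777215) (nat_lit 0) (nat_lit 1292123684) (nat_lit 152) (nat_lit 2471652328) (nat_lit 28) (nat_lit 1) (nat_lit 25) (nat_lit 1) (nat_lit 27) (nat_lit 1) (nat_lit 351) (nat_lit 386) (nat_lit 283)) (XT.lf (nat_lit 228) (nat_lit 3351861482) (nat_lit 0) (nat_lit 1157116560) (nat_lit 152) (nat_lit 62333642) (nat_lit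 25) (nat_lit 1) (nat_lit 22) (nat_lit 1) (nat_lit 24) (nat_lit 1) (nat_lit 352) (nat_lit 386) (nat_lit 282))))))))
noncomputable def ec120 : XT := (XT.nd (nat_lit 48672) (nat_lit 0) (nat_lit 8892) (XT.nd (nat_lit 47970) (nat_lit 0) (nat_lit 15732) (XT.nd (nat_lit 47580) (nat_lit 0) (nat_lit 20140) (XT.nd (nat_lit 156) (nat_lit 152) (nat_lit 0) (XT.nd (nat_lit 78) (nat_lit 152) (nat_lit 0) (XT.lf (nat_lit 228) (nat_lit 1259303548) (nat_lit 0) (nat_lit 1021051567) (nat_lit 152) (nat_lit 2244127238) (nat_lit 23) (nat_lit 1) (nat_lit 20) (nat_lit 1) (nat_lit 22) (nat_lit 1) (nat_lit 353) (nat_lit 386) (nat_lit 281)) (XT.lf (nat_lit 76) (nat_lit 107042970) (nat_lit 0) (nat_lit 791062078) (nat_lit 152) (nat_lit 3580233952) (nat_lit 19) (nat_lit 1) (nat_lit 18) (nat_lit 1) (nat_lit 20) (nat_lit 1) (nat_lit 354) (nat_lit 386) (nat_lit 280))) (XT.nd (nat_lit 47346) (nat_lit 0) (nat_lit 23180) (XT.lf (nat_lit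 228) (nat_lit 1625193466) (nat_lit 0) (nat_lit 771436666) (nat_lit 152) (nat_lit 2035917124) (nat_lit 19) (nat_lit 1) (nat_lit 16) (nat_lit 1) (nat_lit 18) (nat_lit 1) (nat_lit 355) (nat_lit 386) (nat_lit 279)) (XT.lf (nat_lit 76) (nat_lit 2992856655) (nat_lit 0) (nat_lit 6594888601) (nat_lit 760) (nat_lit 542267169) (nat_lit 322) (nat_lit 1) (nat_lit 321) (nat_lit 1) (nat_lit 331) (nat_lit 1) (nat_lit 281) (nat_lit 387) (nat_lit 352)))) (XT.nd (nat_lit 156) (nat_lit 1748) (nat_lit 0) (XT.nd (nat_lit 78) (nat_lit 684) (nat_lit 0) (XT.lf (nat_lit 684) (nat_lit 1088251427) (nat_lit 0) (nat_lit 8145143108) (nat_lit 608) (nat_lit 771807132) (nat_lit 322) (nat_lit 1) (nat_lit 313) (nat_lit 1) (nat_lit 321) (nat_lit 1) (nat_lit 282) (nat_lit 387) (nat_lit 351)) (XT.lf (nat_lit 76) (nat_lit 5393469922) (nat_lit 0) (nat_lit 1353479568) (nat_lit 684) (nat_lit 3135249306) (nat_lit 305) (nat_lit 1) (nat_lit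 304) (nat_lit 1) (nat_lit 313) (nat_lit 1) (nat_lit 283) (nat_lit 387) (nat_lit 350))) (XT.nd (nat_lit 78) (nat_lit 1140) (nat_lit 0) (XT.lf (nat_lit 76) (nat_lit 1639989068) (nat_lit 0) (nat_lit 3773065892) (nat_lit 684) (nat_lit 4348329763) (nat_lit 297) (nat_lit 1) (nat_lit 296) (nat_lit 1) (nat_lit 305) (nat_lit 1) (nat_lit 284) (nat_lit 387) (nat_lit 349)) (XT.nd (nat_lit 78) (nat_lit 532) (nat_lit 0) (XT.lf (nat_lit 684) (nat_lit 3445104421) (nat_lit 0) (nat_lit 4134945726) (nat_lit 608) (nat_lit 2062533353) (nat_lit 297) (nat_lit 1) (nat_lit 288) (nat_lit 1) (nat_lit 296) (nat_lit 1) (nat_lit 285) (nat_lit 387) (nat_lit 348)) (XT.lf (nat_lit 608) (nat_lit 902853275) (nat_lit 0) (nat_lit 2913782189) (nat_lit 532) (nat_lit 5709173498) (nat_lit 289) (nat_lit 1) (nat_lit 281) (nat_lit 1) (nat_lit 288) (nat_lit 1) (nat_lit 286) (nat_lit 387) (nat_lit 347)))))) (XT.nd (nat_lit 312) (nat_lit 2584)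 (nat_lit 0) (XT.nd (nat_lit 156) (nat_lit 608) (nat_lit 0) (XT.nd (nat_lit 78) (nat_lit 532) (nat_lit 0) (XT.lf (nat_lit 76) (nat_lit 142305212) (nat_lit 0) (nat_lit 1605525704) (nat_lit 684) (nat_lit 7663187362) (nat_lit 273) (nat_lit 1) (nat_lit 272) (nat_lit 1) (nat_lit 281) (nat_lit 1) (nat_lit 287) (nat_lit 387) (nat_lit 346)) (XT.lf (nat_lit 608) (nat_lit 5185951772) (nat_lit 0) (nat_lit 616914246) (nat_lit 532) (nat_lit 3494941044) (nat_lit 273) (nat_lit 1) (nat_lit 265) (nat_lit 1) (nat_lit 272) (nat_lit 1) (nat_lit 288) (nat_lit 387) (nat_lit 345))) (XT.nd (nat_lit 78) (nat_lit 608) (nat_lit 0) (XT.lf (nat_lit 76) (nat_lit 2132252580) (nat_lit 0) (nat_lit 6608160251) (nat_lit 608) (nat_lit 446220924) (nat_lit 266) (nat_lit 1) (nat_lit 265) (nat_lit 1) (nat_lit 273) (nat_lit 1) (nat_lit 289) (nat_lit 387) (nat_lit 344)) (XT.lf (nat_lit 76) (nat_lit 7600731629) (nat_lit 0) (nat_lit 25695764)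 (nat_lit 608) (nat_lit 1450836781) (nat_lit 258) (nat_lit 1) (nat_lit 257) (nat_lit 1) (nat_lit 265) (nat_lit 1) (nat_lit 290) (nat_lit 387) (nat_lit 343)))) (XT.nd (nat_lit 156) (nat_lit 1520) (nat_lit 0) (XT.nd (nat_lit 78) (nat_lit 532) (nat_lit 0) (XT.lf (nat_lit 76) (nat_lit 3949374796) (nat_lit 0) (nat_lit 2592682474) (nat_lit 608) (nat_lit 2427267790) (nat_lit 251) (nat_lit 1) (nat_lit 250) (nat_lit 1) (nat_lit 258) (nat_lit 1) (nat_lit 291) (nat_lit 387) (nat_lit 342)) (XT.lf (nat_lit 76) (nat_lit 375183573) (nat_lit 0) (nat_lit 5141843184) (nat_lit 608) (nat_lit 3346364233) (nat_lit 244) (nat_lit 1) (nat_lit 243) (nat_lit 1) (nat_lit 251) (nat_lit 1) (nat_lit 292) (nat_lit 387) (nat_lit 341))) (XT.nd (nat_lit 78) (nat_lit 1064) (nat_lit 0) (XT.lf (nat_lit 532) (nat_lit 1065599742) (nat_lit 0) (nat_lit 4528667438) (nat_lit 456) (nat_lit 3164742138) (nat_lit 244) (nat_lit 1) (nat_lit 237)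 (nat_lit 1) (nat_lit 243) (nat_lit 1) (nat_lit 293) (nat_lit 387) (nat_lit 340)) (XT.nd (nat_lit 78) (nat_lit 456) (nat_lit 0) (XT.lf (nat_lit 76) (nat_lit 2032450932) (nat_lit 0) (nat_lit 1551391968) (nat_lit 608) (nat_lit 5072463632) (nat_lit 230) (nat_lit 1) (nat_lit 229) (nat_lit 1) (nat_lit 237) (nat_lit 1) (nat_lit 294) (nat_lit 387) (nat_lit 339)) (XT.lf (nat_lit 532) (nat_lit 4412047018) (nat_lit 0) (nat_lit 2677224091) (nat_lit 456) (nat_lit 1465899021) (nat_lit 230) (nat_lit 1) (nat_lit 223) (nat_lit 1) (nat_lit 229) (nat_lit 1) (nat_lit 295) (nat_lit 387) (nat_lit 338))))))) (XT.nd (nat_lit 702) (nat_lit 3268) (nat_lit 0) (XT.nd (nat_lit 312) (nat_lit 2128) (nat_lit 0) (XT.nd (nat_lit 156) (nat_lit 456) (nat_lit 0) (XT.nd (nat_lit 78) (nat_lit 532) (nat_lit 0) (XT.lf (nat_lit 532) (nat_lit 1728898005) (nat_lit 0) (nat_lit 1810847401) (nat_lit 456) (nat_lit 4915886697) (nat_lit 224) (nat_lit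 1) (nat_lit 217) (nat_lit 1) (nat_lit 223) (nat_lit 1) (nat_lit 296) (nat_lit 387) (nat_lit 337)) (XT.lf (nat_lit 76) (nat_lit 72077029) (nat_lit 0) (nat_lit 918553355) (nat_lit 532) (nat_lit 7367170243) (nat_lit 211) (nat_lit 1) (nat_lit 210) (nat_lit 1) (nat_lit 217) (nat_lit 1) (nat_lit 297) (nat_lit 387) (nat_lit 336))) (XT.nd (nat_lit 78) (nat_lit 0) (nat_lit 0) (XT.lf (nat_lit 532) (nat_lit 4719292122) (nat_lit 0) (nat_lit 187713706) (nat_lit 456) (nat_lit 3354096224) (nat_lit 211) (nat_lit 1) (nat_lit 204) (nat_lit 1) (nat_lit 210) (nat_lit 1) (nat_lit 298) (nat_lit 387) (nat_lit 335)) (XT.lf (nat_lit 76) (nat_lit 1462453935) (nat_lit 0) (nat_lit 6145338910) (nat_lit 532) (nat_lit 558293535) (nat_lit 205) (nat_lit 1) (nat_lit 204) (nat_lit 1) (nat_lit 211) (nat_lit 1) (nat_lit 299) (nat_lit 387) (nat_lit 334)))) (XT.nd (nat_lit 156) (nat_lit 1216) (nat_lit 0) (XT.nd (nat_lit 78) (nat_lit 456)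 (nat_lit 0) (XT.lf (nat_lit 76) (nat_lit 6144520250) (nat_lit 0) (nat_lit 657104882) (nat_lit 456) (nat_lit 1270819922) (nat_lit 199) (nat_lit 1) (nat_lit 198) (nat_lit 1) (nat_lit 204) (nat_lit 1) (nat_lit 300) (nat_lit 387) (nat_lit 333)) (XT.lf (nat_lit 76) (nat_lit 2729066568) (nat_lit 0) (nat_lit 3291986564) (nat_lit 532) (nat_lit 1959008143) (nat_lit 193) (nat_lit 1) (nat_lit 192) (nat_lit 1) (nat_lit 199) (nat_lit 1) (nat_lit 301) (nat_lit 387) (nat_lit 332))) (XT.nd (nat_lit 78) (nat_lit 836) (nat_lit 0) (XT.lf (nat_lit 456) (nat_lit 1984521800) (nat_lit 0) (nat_lit 5283823983) (nat_lit 380) (nat_lit 620929907) (nat_lit 193) (nat_lit 1) (nat_lit 187) (nat_lit 1) (nat_lit 192) (nat_lit 1) (nat_lit 302) (nat_lit 387) (nat_lit 331)) (XT.nd (nat_lit 78) (nat_lit 380) (nat_lit 0) (XT.lf (nat_lit 76) (nat_lit 3870369332) (nat_lit 0) (nat_lit 699789153) (nat_lit 456) (nat_lit 3229534723) (nat_lit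 182) (nat_lit 1) (nat_lit 181) (nat_lit 1) (nat_lit 187) (nat_lit 1) (nat_lit 303) (nat_lit 387) (nat_lit 330)) (XT.lf (nat_lit 76) (nat_lit 558508807) (nat_lit 0) (nat_lit 3330260364) (nat_lit 456) (nat_lit 3822708295) (nat_lit 177) (nat_lit 1) (nat_lit 176) (nat_lit 1) (nat_lit 182) (nat_lit 1) (nat_lit 304) (nat_lit 387) (nat_lit 329)))))) (XT.nd (nat_lit 390) (nat_lit 1368) (nat_lit 0) (XT.nd (nat_lit 156) (nat_lit 1140) (nat_lit 0) (XT.nd (nat_lit 78) (nat_lit 380) (nat_lit 0) (XT.lf (nat_lit 456) (nat_lit 1673857231) (nat_lit 0) (nat_lit 3233496591) (nat_lit 380) (nat_lit 2717146743) (nat_lit 177) (nat_lit 1) (nat_lit 171) (nat_lit 1) (nat_lit 176) (nat_lit 1) (nat_lit 305) (nat_lit 387) (nat_lit 328)) (XT.lf (nat_lit 76) (nat_lit 1616747077) (nat_lit 0) (nat_lit 994365726) (nat_lit 380) (nat_lit 4927775434) (nat_lit 167) (nat_lit 1) (nat_lit 166) (nat_lit 1) (nat_lit 171) (nat_lit 1) (nat_lit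 306) (nat_lit 387) (nat_lit 327))) (XT.nd (nat_lit 78) (nat_lit 760) (nat_lit 0) (XT.lf (nat_lit 456) (nat_lit 3832425041) (nat_lit 0) (nat_lit 2009216952) (nat_lit 380) (nat_lit 1612748345) (nat_lit 167) (nat_lit 1) (nat_lit 161) (nat_lit 1) (nat_lit 166) (nat_lit 1) (nat_lit 307) (nat_lit 387) (nat_lit 326)) (XT.nd (nat_lit 78) (nat_lit 456) (nat_lit 0) (XT.lf (nat_lit 380) (nat_lit 1140452916) (nat_lit 0) (nat_lit 1437974495) (nat_lit 304) (nat_lit 4792771862) (nat_lit 162) (nat_lit 1) (nat_lit 157) (nat_lit 1) (nat_lit 161) (nat_lit 1) (nat_lit 308) (nat_lit 387) (nat_lit 325)) (XT.lf (nat_lit 456) (nat_lit 5784454495) (nat_lit 0) (nat_lit 892912410) (nat_lit 380) (nat_lit 611853578) (nat_lit 157) (nat_lit 1) (nat_lit 151) (nat_lit 1) (nat_lit 156) (nat_lit 1) (nat_lit 309) (nat_lit 387) (nat_lit 324))))) (XT.nd (nat_lit 156) (nat_lit 1064) (nat_lit 0) (XT.nd (nat_lit 78) (nat_lit 0) (nat_lit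 0) (XT.lf (nat_lit 380) (nat_lit 3086923459) (nat_lit 0) (nat_lit 362848280) (nat_lit 304) (nat_lit 3758456180) (nat_lit 152) (nat_lit 1) (nat_lit 147) (nat_lit 1) (nat_lit 151) (nat_lit 1) (nat_lit 310) (nat_lit 387) (nat_lit 323)) (XT.lf (nat_lit 76) (nat_lit 293534838) (nat_lit 0) (nat_lit 6708251018) (nat_lit 380) (nat_lit 126876147) (nat_lit 148) (nat_lit 1) (nat_lit 147) (nat_lit 1) (nat_lit 152) (nat_lit 1) (nat_lit 311) (nat_lit 387) (nat_lit 322))) (XT.nd (nat_lit 78) (nat_lit 684) (nat_lit 0) (XT.lf (nat_lit 76) (nat_lit 4236085747) (nat_lit 0) (nat_lit 2206045525) (nat_lit 380) (nat_lit 607679713) (nat_lit 143) (nat_lit 1) (nat_lit 142) (nat_lit 1) (nat_lit 147) (nat_lit 1) (nat_lit 312) (nat_lit 387) (nat_lit 321)) (XT.nd (nat_lit 78) (nat_lit 380) (nat_lit 0) (XT.lf (nat_lit 76) (nat_lit 1118446790) (nat_lit 0) (nat_lit 4797281664) (nat_lit 380) (nat_lit 1056542513) (nat_lit 139) (nat_lit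 1) (nat_lit 138) (nat_lit 1) (nat_lit 143) (nat_lit 1) (nat_lit 313) (nat_lit 387) (nat_lit 320)) (XT.lf (nat_lit 76) (nat_lit 4942393129) (nat_lit 0) (nat_lit 467765309) (nat_lit 380) (nat_lit 1485633601) (nat_lit 134) (nat_lit 1) (nat_lit 133) (nat_lit 1) (nat_lit 138) (nat_lit 1) (nat_lit 314) (nat_lit 387) (nat_lit 319))))))))
noncomputable def ec121 : XT := (XT.nd (nat_lit 1404) (nat_lit 3876) (nat_lit 0) (XT.nd (nat_lit 702) (nat_lit 2052) (nat_lit 0) (XT.nd (nat_lit 312) (nat_lit 1444) (nat_lit 0) (XT.nd (nat_lit 156) (nat_lit 608) (nat_lit 0) (XT.nd (nat_lit 78) (nat_lit 304) (nat_lit 0) (XT.lf (nat_lit 76) (nat_lit 1862246863) (nat_lit 0) (nat_lit 3056916354) (nat_lit 380) (nat_lit 1901081945) (nat_lit 130) (nat_lit 1) (nat_lit 129) (nat_lit 1) (nat_lit 134) (nat_lit 1) (nat_lit 315) (nat_lit 387) (nat_lit 318)) (XT.lf (nat_lit 380) (nat_lit 1124431198) (nat_lit 0) (nat_lit 4455936102) (nat_lit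 304) (nat_lit 1165515454) (nat_lit 130) (nat_lit 1) (nat_lit 125) (nat_lit 1) (nat_lit 129) (nat_lit 1) (nat_lit 316) (nat_lit 387) (nat_lit 317))) (XT.nd (nat_lit 78) (nat_lit 304) (nat_lit 0) (XT.lf (nat_lit 76) (nat_lit 2531490061) (nat_lit 0) (nat_lit 1473743582) (nat_lit 304) (nat_lit 2667166066) (nat_lit 122) (nat_lit 1) (nat_lit 121) (nat_lit 1) (nat_lit 125) (nat_lit 1) (nat_lit 317) (nat_lit 387) (nat_lit 316)) (XT.lf (nat_lit 380) (nat_lit 2572780662) (nat_lit 0) (nat_lit 3578238134) (nat_lit 304) (nat_lit 448990338) (nat_lit 122) (nat_lit 1) (nat_lit 117) (nat_lit 1) (nat_lit 121) (nat_lit 1) (nat_lit 318) (nat_lit 387) (nat_lit 315)))) (XT.nd (nat_lit 156) (nat_lit 836) (nat_lit 0) (XT.nd (nat_lit 78) (nat_lit 304) (nat_lit 0) (XT.lf (nat_lit 76) (nat_lit 3132225400) (nat_lit 0) (nat_lit 35377999) (nat_lit 304) (nat_lit 3360957495) (nat_lit 114) (nat_lit 1) (nat_lit 113) (nat_lit 1) (nat_lit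 117) (nat_lit 1) (nat_lit 319) (nat_lit 387) (nat_lit 314)) (XT.lf (nat_lit 76) (nat_lit 196400613) (nat_lit 0) (nat_lit 2576373639) (nat_lit 380) (nat_lit 3685263816) (nat_lit 110) (nat_lit 1) (nat_lit 109) (nat_lit 1) (nat_lit 114) (nat_lit 1) (nat_lit 320) (nat_lit 387) (nat_lit 313))) (XT.nd (nat_lit 78) (nat_lit 608) (nat_lit 0) (XT.lf (nat_lit 304) (nat_lit 1286490158) (nat_lit 0) (nat_lit 2391897086) (nat_lit 228) (nat_lit 2710011091) (nat_lit 110) (nat_lit 1) (nat_lit 106) (nat_lit 1) (nat_lit 109) (nat_lit 1) (nat_lit 321) (nat_lit 387) (nat_lit 312)) (XT.nd (nat_lit 78) (nat_lit 228) (nat_lit 0) (XT.lf (nat_lit 76) (nat_lit 773718209) (nat_lit 0) (nat_lit 1258940434) (nat_lit 380) (nat_lit 4287127855) (nat_lit 102) (nat_lit 1) (nat_lit 101) (nat_lit 1) (nat_lit 106) (nat_lit 1) (nat_lit 322) (nat_lit 387) (nat_lit 311)) (XT.lf (nat_lit 304) (nat_lit 2484387609) (nat_lit 0) (nat_lit 1681809891)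 (nat_lit 228) (nat_lit 2085739412) (nat_lit 102) (nat_lit 1) (nat_lit 98) (nat_lit 1) (nat_lit 101) (nat_lit 1) (nat_lit 323) (nat_lit 387) (nat_lit 310)))))) (XT.nd (nat_lit 312) (nat_lit 988) (nat_lit 0) (XT.nd (nat_lit 156) (nat_lit 532) (nat_lit 0) (XT.nd (nat_lit 78) (nat_lit 228) (nat_lit 0) (XT.lf (nat_lit 76) (nat_lit 1293872070) (nat_lit 0) (nat_lit 61739894) (nat_lit 304) (nat_lit 4829550656) (nat_lit 95) (nat_lit 1) (nat_lit 94) (nat_lit 1) (nat_lit 98) (nat_lit 1) (nat_lit 324) (nat_lit 387) (nat_lit 309)) (XT.lf (nat_lit 304) (nat_lit 3567725558) (nat_lit 0) (nat_lit 1032513056) (nat_lit 228) (nat_lit 1518796675) (nat_lit 95) (nat_lit 1) (nat_lit 91) (nat_lit 1) (nat_lit 94) (nat_lit 1) (nat_lit 325) (nat_lit 387) (nat_lit 308))) (XT.nd (nat_lit 78) (nat_lit 304) (nat_lit 0) (XT.lf (nat_lit 304) (nat_lit 1038333492) (nat_lit 0) (nat_lit 729903668) (nat_lit 228) (nat_lit 4285653059) (nat_lit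 92) (nat_lit 1) (nat_lit 88) (nat_lit 1) (nat_lit 91) (nat_lit 1) (nat_lit 326) (nat_lit 387) (nat_lit 307)) (XT.lf (nat_lit 304) (nat_lit 4545627585) (nat_lit 0) (nat_lit 439324894) (nat_lit 228) (nat_lit 1004603434) (nat_lit 88) (nat_lit 1) (nat_lit 84) (nat_lit 1) (nat_lit 87) (nat_lit 1) (nat_lit 327) (nat_lit 387) (nat_lit 306)))) (XT.nd (nat_lit 156) (nat_lit 684) (nat_lit 0) (XT.nd (nat_lit 78) (nat_lit 76) (nat_lit 0) (XT.lf (nat_lit 304) (nat_lit 2035888101) (nat_lit 0) (nat_lit 158194430) (nat_lit 228) (nat_lit 3731893625) (nat_lit 85) (nat_lit 1) (nat_lit 81) (nat_lit 1) (nat_lit 84) (nat_lit 1) (nat_lit 328) (nat_lit 387) (nat_lit 305)) (XT.lf (nat_lit 76) (nat_lit 5325098954) (nat_lit 0) (nat_lit 437514731) (nat_lit 304) (nat_lit 100742142) (nat_lit 81) (nat_lit 1) (nat_lit 80) (nat_lit 1) (nat_lit 84) (nat_lit 1) (nat_lit 329) (nat_lit 387) (nat_lit 304))) (XT.nd (nat_lit 78) (nat_lit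 456) (nat_lit 0) (XT.lf (nat_lit 76) (nat_lit 2577358625) (nat_lit 0) (nat_lit 2865359704) (nat_lit 304) (nat_lit 358536269) (nat_lit 78) (nat_lit 1) (nat_lit 77) (nat_lit 1) (nat_lit 81) (nat_lit 1) (nat_lit 330) (nat_lit 387) (nat_lit 303)) (XT.nd (nat_lit 78) (nat_lit 228) (nat_lit 0) (XT.lf (nat_lit 304) (nat_lit 480249223) (nat_lit 0) (nat_lit 5149204883) (nat_lit 228) (nat_lit 110758583) (nat_lit 78) (nat_lit 1) (nat_lit 74) (nat_lit 1) (nat_lit 77) (nat_lit 1) (nat_lit 331) (nat_lit 387) (nat_lit 302)) (XT.lf (nat_lit 76) (nat_lit 2920121177) (nat_lit 0) (nat_lit 1932050476) (nat_lit 228) (nat_lit 827466875) (nat_lit 72) (nat_lit 1) (nat_lit 71) (nat_lit 1) (nat_lit 74) (nat_lit 1) (nat_lit 332) (nat_lit 387) (nat_lit 301))))))) (XT.nd (nat_lit 702) (nat_lit 1824) (nat_lit 0) (XT.nd (nat_lit 312) (nat_lit 1140) (nat_lit 0) (XT.nd (nat_lit 156) (nat_lit 456) (nat_lit 0) (XT.nd (nat_lit 78)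 (nat_lit 228) (nat_lit 0) (XT.lf (nat_lit 76) (nat_lit 274149490) (nat_lit 0) (nat_lit 4304012072) (nat_lit 304) (nat_lit 1041885793) (nat_lit 69) (nat_lit 1) (nat_lit 68) (nat_lit 1) (nat_lit 72) (nat_lit 1) (nat_lit 333) (nat_lit 387) (nat_lit 300)) (XT.lf (nat_lit 76) (nat_lit 3224768649) (nat_lit 0) (nat_lit 1082055094) (nat_lit 228) (nat_lit 1254211228) (nat_lit 66) (nat_lit 1) (nat_lit 65) (nat_lit 1) (nat_lit 68) (nat_lit 1) (nat_lit 334) (nat_lit 387) (nat_lit 299))) (XT.nd (nat_lit 78) (nat_lit 228) (nat_lit 0) (XT.lf (nat_lit 76) (nat_lit 619616631) (nat_lit 0) (nat_lit 3430640174) (nat_lit 304) (nat_lit 1452576691) (nat_lit 63) (nat_lit 1) (nat_lit 62) (nat_lit 1) (nat_lit 66) (nat_lit 1) (nat_lit 335) (nat_lit 387) (nat_lit 298)) (XT.lf (nat_lit 76) (nat_lit 3494460708) (nat_lit 0) (nat_lit 308836220) (nat_lit 228) (nat_lit 1642039685) (nat_lit 60) (nat_lit 1) (nat_lit 59) (nat_lit 1)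 (nat_lit 62) (nat_lit 1) (nat_lit 336) (nat_lit 387) (nat_lit 297)))) (XT.nd (nat_lit 156) (nat_lit 760) (nat_lit 0) (XT.nd (nat_lit 78) (nat_lit 152) (nat_lit 0) (XT.lf (nat_lit 76) (nat_lit 930182178) (nat_lit 0) (nat_lit 2632762443) (nat_lit 304) (nat_lit 1825535880) (nat_lit 57) (nat_lit 1) (nat_lit 56) (nat_lit 1) (nat_lit 60) (nat_lit 1) (nat_lit 337) (nat_lit 387) (nat_lit 296)) (XT.lf (nat_lit 228) (nat_lit 398875071) (nat_lit 0) (nat_lit 3335826116) (nat_lit 152) (nat_lit 1597688934) (nat_lit 57) (nat_lit 1) (nat_lit 54) (nat_lit 1) (nat_lit 56) (nat_lit 1) (nat_lit 338) (nat_lit 387) (nat_lit 295))) (XT.nd (nat_lit 78) (nat_lit 456) (nat_lit 0) (XT.lf (nat_lit 76) (nat_lit 1208694042) (nat_lit 0) (nat_lit 1904498228) (nat_lit 304) (nat_lit 2163696737) (nat_lit 51) (nat_lit 1) (nat_lit 50) (nat_lit 1) (nat_lit 54) (nat_lit 1) (nat_lit 339) (nat_lit 387) (nat_lit 294)) (XT.nd (nat_lit 78)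 (nat_lit 304) (nat_lit 0) (XT.lf (nat_lit 228) (nat_lit 1044661610) (nat_lit 0) (nat_lit 2902529069) (nat_lit 152) (nat_lit 1274928395) (nat_lit 51) (nat_lit 1) (nat_lit 48) (nat_lit 1) (nat_lit 50) (nat_lit 1) (nat_lit 340) (nat_lit 387) (nat_lit 293)) (XT.lf (nat_lit 76) (nat_lit 1457779543) (nat_lit 0) (nat_lit 1240415548) (nat_lit 304) (nat_lit 2469769796) (nat_lit 45) (nat_lit 1) (nat_lit 44) (nat_lit 1) (nat_lit 48) (nat_lit 1) (nat_lit 341) (nat_lit 387) (nat_lit 292)))))) (XT.nd (nat_lit 390) (nat_lit 912) (nat_lit 0) (XT.nd (nat_lit 156) (nat_lit 532) (nat_lit 0) (XT.nd (nat_lit 78) (nat_lit 228) (nat_lit 0) (XT.lf (nat_lit 228) (nat_lit 1629636765) (nat_lit 0) (nat_lit 2502772223) (nat_lit 152) (nat_lit 982063309) (nat_lit 45) (nat_lit 1) (nat_lit 42) (nat_lit 1) (nat_lit 44) (nat_lit 1) (nat_lit 342) (nat_lit 387) (nat_lit 291)) (XT.lf (nat_lit 76) (nat_lit 1679862254) (nat_lit 0) (nat_lit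 635497014) (nat_lit 228) (nat_lit 2746259641) (nat_lit 40) (nat_lit 1) (nat_lit 39) (nat_lit 1) (nat_lit 42) (nat_lit 1) (nat_lit 343) (nat_lit 387) (nat_lit 290))) (XT.nd (nat_lit 78) (nat_lit 380) (nat_lit 0) (XT.lf (nat_lit 228) (nat_lit 2158618724) (nat_lit 0) (nat_lit 2134052942) (nat_lit 152) (nat_lit 716691056) (nat_lit 40) (nat_lit 1) (nat_lit 37) (nat_lit 1) (nat_lit 39) (nat_lit 1) (nat_lit 344) (nat_lit 387) (nat_lit 289)) (XT.nd (nat_lit 78) (nat_lit 152) (nat_lit 0) (XT.lf (nat_lit 76) (nat_lit 1877177555) (nat_lit 0) (nat_lit 85108330) (nat_lit 228) (nat_lit 2995480520) (nat_lit 35) (nat_lit 1) (nat_lit 34) (nat_lit 1) (nat_lit 37) (nat_lit 1) (nat_lit 345) (nat_lit 387) (nat_lit 288)) (XT.lf (nat_lit 228) (nat_lit 2636056592) (nat_lit 0) (nat_lit 1794056596) (nat_lit 152) (nat_lit 476594504) (nat_lit 35) (nat_lit 1) (nat_lit 32) (nat_lit 1) (nat_lit 34) (nat_lit 1) (nat_lit 346) (nat_lit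 387) (nat_lit 287))))) (XT.nd (nat_lit 156) (nat_lit 532) (nat_lit 0) (XT.nd (nat_lit 78) (nat_lit 228) (nat_lit 0) (XT.lf (nat_lit 228) (nat_lit 420546359) (nat_lit 0) (nat_lit 1633971117) (nat_lit 152) (nat_lit 2801754876) (nat_lit 33) (nat_lit 1) (nat_lit 30) (nat_lit 1) (nat_lit 32) (nat_lit 1) (nat_lit 347) (nat_lit 387) (nat_lit 286)) (XT.lf (nat_lit 228) (nat_lit 3066058457) (nat_lit 0) (nat_lit 1480642356) (nat_lit 152) (nat_lit 259727873) (nat_lit 30) (nat_lit 1) (nat_lit 27) (nat_lit 1) (nat_lit 29) (nat_lit 1) (nat_lit 348) (nat_lit 387) (nat_lit 285))) (XT.nd (nat_lit 78) (nat_lit 380) (nat_lit 0) (XT.lf (nat_lit 228) (nat_lit 880420531) (nat_lit 0) (nat_lit 1330887394) (nat_lit 152) (nat_lit 2545801898) (nat_lit 28) (nat_lit 1) (nat_lit 25) (nat_lit 1) (nat_lit 27) (nat_lit 1) (nat_lit 349) (nat_lit 387) (nat_lit 284)) (XT.nd (nat_lit 78) (nat_lit 152) (nat_lit 0) (XT.lf (nat_lit 228)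 (nat_lit 3452417327) (nat_lit 0) (nat_lit 1191830056) (nat_lit 152) (nat_lit 64203651) (nat_lit 25) (nat_lit 1) (nat_lit 22) (nat_lit 1) (nat_lit 24) (nat_lit 1) (nat_lit 350) (nat_lit 387) (nat_lit 283)) (XT.lf (nat_lit 228) (nat_lit 1297082654) (nat_lit 0) (nat_lit 1051683114) (nat_lit 152) (nat_lit 2311451055) (nat_lit 23) (nat_lit 1) (nat_lit 20) (nat_lit 1) (nat_lit 22) (nat_lit 1) (nat_lit 351) (nat_lit 387) (nat_lit 282))))))))
noncomputable def ec122 : XT := (XT.nd (nat_lit 49140) (nat_lit 0) (nat_lit 6688) (XT.nd (nat_lit 48438) (nat_lit 0) (nat_lit 12844) (XT.nd (nat_lit 48048) (nat_lit 0) (nat_lit 16644) (XT.nd (nat_lit 47892) (nat_lit 0) (nat_lit 18772) (XT.nd (nat_lit 47814) (nat_lit 0) (nat_lit 19988) (XT.lf (nat_lit 76) (nat_lit 110254259) (nat_lit 0) (nat_lit 814793940) (nat_lit 152) (nat_lit 3687640970) (nat_lit 19) (nat_lit 1) (nat_lit 18) (nat_lit 1) (nat_lit 20) (nat_lit 1) (nat_lit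 352) (nat_lit 387) (nat_lit 281)) (XT.lf (nat_lit 608) (nat_lit 929938873) (nat_lit 0) (nat_lit 3001195654) (nat_lit 532) (nat_lit 5880448703) (nat_lit 289) (nat_lit 1) (nat_lit 281) (nat_lit 1) (nat_lit 288) (nat_lit 1) (nat_lit 284) (nat_lit 388) (nat_lit 348))) (XT.nd (nat_lit 78) (nat_lit 532) (nat_lit 0) (XT.lf (nat_lit 76) (nat_lit 146574368) (nat_lit 0) (nat_lit 1653691475) (nat_lit 684) (nat_lit 7893082983) (nat_lit 273) (nat_lit 1) (nat_lit 272) (nat_lit 1) (nat_lit 281) (nat_lit 1) (nat_lit 285) (nat_lit 388) (nat_lit 347)) (XT.lf (nat_lit 608) (nat_lit 5341530325) (nat_lit 0) (nat_lit 635421674) (nat_lit 532) (nat_lit 3599789275) (nat_lit 273) (nat_lit 1) (nat_lit 265) (nat_lit 1) (nat_lit 272) (nat_lit 1) (nat_lit 286) (nat_lit 388) (nat_lit 346)))) (XT.nd (nat_lit 156) (nat_lit 1520) (nat_lit 0) (XT.nd (nat_lit 78) (nat_lit 608) (nat_lit 0) (XT.lf (nat_lit 76) (nat_lit 2196220158) (nat_lit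 0) (nat_lit 6806405059) (nat_lit 608) (nat_lit 459607551) (nat_lit 266) (nat_lit 1) (nat_lit 265) (nat_lit 1) (nat_lit 273) (nat_lit 1) (nat_lit 287) (nat_lit 388) (nat_lit 345)) (XT.lf (nat_lit 76) (nat_lit 7828753578) (nat_lit 0) (nat_lit 26466637) (nat_lit 608) (nat_lit 1494361884) (nat_lit 258) (nat_lit 1) (nat_lit 257) (nat_lit 1) (nat_lit 265) (nat_lit 1) (nat_lit 288) (nat_lit 388) (nat_lit 344))) (XT.nd (nat_lit 78) (nat_lit 988) (nat_lit 0) (XT.lf (nat_lit 76) (nat_lit 4067856039) (nat_lit 0) (nat_lit 2670462948) (nat_lit 608) (nat_lit 2500085824) (nat_lit 251) (nat_lit 1) (nat_lit 250) (nat_lit 1) (nat_lit 258) (nat_lit 1) (nat_lit 289) (nat_lit 388) (nat_lit 343)) (XT.nd (nat_lit 78) (nat_lit 456) (nat_lit 0) (XT.lf (nat_lit 76) (nat_lit 386439081) (nat_lit 0) (nat_lit 5296098480) (nat_lit 608) (nat_lit 3446755160) (nat_lit 244) (nat_lit 1) (nat_lit 243) (nat_lit 1) (nat_lit 251) (nat_lit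 1) (nat_lit 290) (nat_lit 388) (nat_lit 342)) (XT.lf (nat_lit 532) (nat_lit 1097567734) (nat_lit 0) (nat_lit 4664527461) (nat_lit 456) (nat_lit 3259684402) (nat_lit 244) (nat_lit 1) (nat_lit 237) (nat_lit 1) (nat_lit 243) (nat_lit 1) (nat_lit 291) (nat_lit 388) (nat_lit 341)))))) (XT.nd (nat_lit 312) (nat_lit 1748) (nat_lit 0) (XT.nd (nat_lit 156) (nat_lit 988) (nat_lit 0) (XT.nd (nat_lit 78) (nat_lit 456) (nat_lit 0) (XT.lf (nat_lit 76) (nat_lit 2093424460) (nat_lit 0) (nat_lit 1597933728) (nat_lit 608) (nat_lit 5224637541) (nat_lit 230) (nat_lit 1) (nat_lit 229) (nat_lit 1) (nat_lit 237) (nat_lit 1) (nat_lit 292) (nat_lit 388) (nat_lit 340)) (XT.lf (nat_lit 532) (nat_lit 4544408428) (nat_lit 0) (nat_lit 2757540813) (nat_lit 456) (nat_lit 1509875991) (nat_lit 230) (nat_lit 1) (nat_lit 223) (nat_lit 1) (nat_lit 229) (nat_lit 1) (nat_lit 293) (nat_lit 388) (nat_lit 339))) (XT.nd (nat_lit 78) (nat_lit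 532) (nat_lit 0) (XT.lf (nat_lit 532) (nat_lit 1780764946) (nat_lit 0) (nat_lit 1865172823) (nat_lit 456) (nat_lit 5063363298) (nat_lit 224) (nat_lit 1) (nat_lit 217) (nat_lit 1) (nat_lit 223) (nat_lit 1) (nat_lit 294) (nat_lit 388) (nat_lit 338)) (XT.lf (nat_lit 76) (nat_lit 74239340) (nat_lit 0) (nat_lit 946109956) (nat_lit 532) (nat_lit 7588185350) (nat_lit 211) (nat_lit 1) (nat_lit 210) (nat_lit 1) (nat_lit 217) (nat_lit 1) (nat_lit 295) (nat_lit 388) (nat_lit 337)))) (XT.nd (nat_lit 156) (nat_lit 1292) (nat_lit 0) (XT.nd (nat_lit 78) (nat_lit 0) (nat_lit 0) (XT.lf (nat_lit 532) (nat_lit 4860870885) (nat_lit 0) (nat_lit 193345117) (nat_lit 456) (nat_lit 3454719110) (nat_lit 211) (nat_lit 1) (nat_lit 204) (nat_lit 1) (nat_lit 210) (nat_lit 1) (nat_lit 296) (nat_lit 388) (nat_lit 336)) (XT.lf (nat_lit 76) (nat_lit 1506327553) (nat_lit 0) (nat_lit 6329699077) (nat_lit 532) (nat_lit 575042341) (nat_lit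 205) (nat_lit 1) (nat_lit 204) (nat_lit 1) (nat_lit 211) (nat_lit 1) (nat_lit 297) (nat_lit 388) (nat_lit 335))) (XT.nd (nat_lit 78) (nat_lit 836) (nat_lit 0) (XT.lf (nat_lit 76) (nat_lit 6328855857) (nat_lit 0) (nat_lit 676818028) (nat_lit 456) (nat_lit 1308944519) (nat_lit 199) (nat_lit 1) (nat_lit 198) (nat_lit 1) (nat_lit 204) (nat_lit 1) (nat_lit 298) (nat_lit 388) (nat_lit 334)) (XT.nd (nat_lit 78) (nat_lit 380) (nat_lit 0) (XT.lf (nat_lit 76) (nat_lit 2810938566) (nat_lit 0) (nat_lit 3390746161) (nat_lit 532) (nat_lit 2017778387) (nat_lit 193) (nat_lit 1) (nat_lit 192) (nat_lit 1) (nat_lit 199) (nat_lit 1) (nat_lit 299) (nat_lit 388) (nat_lit 333)) (XT.lf (nat_lit 456) (nat_lit 2044057454) (nat_lit 0) (nat_lit 5442338703) (nat_lit 380) (nat_lit 639557805) (nat_lit 193) (nat_lit 1) (nat_lit 187) (nat_lit 1) (nat_lit 192) (nat_lit 1) (nat_lit 300) (nat_lit 388) (nat_lit 332))))))) (XT.nd (nat_lit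 702) (nat_lit 3116) (nat_lit 0) (XT.nd (nat_lit 312) (nat_lit 1444) (nat_lit 0) (XT.nd (nat_lit 156) (nat_lit 760) (nat_lit 0) (XT.nd (nat_lit 78) (nat_lit 380) (nat_lit 0) (XT.lf (nat_lit 76) (nat_lit 3986480412) (nat_lit 0) (nat_lit 720782827) (nat_lit 456) (nat_lit 3326420765) (nat_lit 182) (nat_lit 1) (nat_lit 181) (nat_lit 1) (nat_lit 187) (nat_lit 1) (nat_lit 301) (nat_lit 388) (nat_lit 331)) (XT.lf (nat_lit 76) (nat_lit 575264071) (nat_lit 0) (nat_lit 3430168175) (nat_lit 456) (nat_lit 3937389544) (nat_lit 177) (nat_lit 1) (nat_lit 176) (nat_lit 1) (nat_lit 182) (nat_lit 1) (nat_lit 302) (nat_lit 388) (nat_lit 330))) (XT.nd (nat_lit 78) (nat_lit 380) (nat_lit 0) (XT.lf (nat_lit 456) (nat_lit 1724072948) (nat_lit 0) (nat_lit 3330501489) (nat_lit 380) (nat_lit 2798661145) (nat_lit 177) (nat_lit 1) (nat_lit 171) (nat_lit 1) (nat_lit 176) (nat_lit 1) (nat_lit 303) (nat_lit 388) (nat_lit 329))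 (XT.lf (nat_lit 76) (nat_lit 1665249489) (nat_lit 0) (nat_lit 1024196698) (nat_lit 380) (nat_lit 5075608697) (nat_lit 167) (nat_lit 1) (nat_lit 166) (nat_lit 1) (nat_lit 171) (nat_lit 1) (nat_lit 304) (nat_lit 388) (nat_lit 328)))) (XT.nd (nat_lit 156) (nat_lit 760) (nat_lit 0) (XT.nd (nat_lit 78) (nat_lit 304) (nat_lit 0) (XT.lf (nat_lit 456) (nat_lit 3947397792) (nat_lit 0) (nat_lit 2069493460) (nat_lit 380) (nat_lit 1661130795) (nat_lit 167) (nat_lit 1) (nat_lit 161) (nat_lit 1) (nat_lit 166) (nat_lit 1) (nat_lit 305) (nat_lit 388) (nat_lit 327)) (XT.lf (nat_lit 380) (nat_lit 1174666504) (nat_lit 0) (nat_lit 1481113729) (nat_lit 304) (nat_lit 4936555018) (nat_lit 162) (nat_lit 1) (nat_lit 157) (nat_lit 1) (nat_lit 161) (nat_lit 1) (nat_lit 306) (nat_lit 388) (nat_lit 326))) (XT.nd (nat_lit 78) (nat_lit 304) (nat_lit 0) (XT.lf (nat_lit 456) (nat_lit 5957988130) (nat_lit 0) (nat_lit 919699782) (nat_lit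 380) (nat_lit 630209186) (nat_lit 157) (nat_lit 1) (nat_lit 151) (nat_lit 1) (nat_lit 156) (nat_lit 1) (nat_lit 307) (nat_lit 388) (nat_lit 325)) (XT.nd (nat_lit 78) (nat_lit 0) (nat_lit 0) (XT.lf (nat_lit 380) (nat_lit 3179531163) (nat_lit 0) (nat_lit 373733728) (nat_lit 304) (nat_lit 3871209865) (nat_lit 152) (nat_lit 1) (nat_lit 147) (nat_lit 1) (nat_lit 151) (nat_lit 1) (nat_lit 308) (nat_lit 388) (nat_lit 324)) (XT.lf (nat_lit 76) (nat_lit 302340883) (nat_lit 0) (nat_lit 6909498549) (nat_lit 380) (nat_lit 130682432) (nat_lit 148) (nat_lit 1) (nat_lit 147) (nat_lit 1) (nat_lit 152) (nat_lit 1) (nat_lit 309) (nat_lit 388) (nat_lit 323)))))) (XT.nd (nat_lit 390) (nat_lit 1444) (nat_lit 0) (XT.nd (nat_lit 156) (nat_lit 988) (nat_lit 0) (XT.nd (nat_lit 78) (nat_lit 304) (nat_lit 0) (XT.lf (nat_lit 76) (nat_lit 4363168320) (nat_lit 0) (nat_lit 2272226890) (nat_lit 380) (nat_lit 625910105) (nat_lit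 143) (nat_lit 1) (nat_lit 142) (nat_lit 1) (nat_lit 147) (nat_lit 1) (nat_lit 310) (nat_lit 388) (nat_lit 322)) (XT.lf (nat_lit 76) (nat_lit 1152000193) (nat_lit 0) (nat_lit 4941200113) (nat_lit 380) (nat_lit 1088238789) (nat_lit 139) (nat_lit 1) (nat_lit 138) (nat_lit 1) (nat_lit 143) (nat_lit 1) (nat_lit 311) (nat_lit 388) (nat_lit 321))) (XT.nd (nat_lit 78) (nat_lit 608) (nat_lit 0) (XT.lf (nat_lit 76) (nat_lit 5090664923) (nat_lit 0) (nat_lit 481798269) (nat_lit 380) (nat_lit 1530202609) (nat_lit 134) (nat_lit 1) (nat_lit 133) (nat_lit 1) (nat_lit 138) (nat_lit 1) (nat_lit 312) (nat_lit 388) (nat_lit 320)) (XT.nd (nat_lit 78) (nat_lit 304) (nat_lit 0) (XT.lf (nat_lit 76) (nat_lit 1918114269) (nat_lit 0) (nat_lit 3148623845) (nat_lit 380) (nat_lit 1958114404) (nat_lit 130) (nat_lit 1) (nat_lit 129) (nat_lit 1) (nat_lit 134) (nat_lit 1) (nat_lit 313) (nat_lit 388) (nat_lit 319)) (XT.lf (nat_lit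 380) (nat_lit 1158164134) (nat_lit 0) (nat_lit 4589614185) (nat_lit 304) (nat_lit 1200480918) (nat_lit 130) (nat_lit 1) (nat_lit 125) (nat_lit 1) (nat_lit 129) (nat_lit 1) (nat_lit 314) (nat_lit 388) (nat_lit 318))))) (XT.nd (nat_lit 156) (nat_lit 836) (nat_lit 0) (XT.nd (nat_lit 78) (nat_lit 304) (nat_lit 0) (XT.lf (nat_lit 76) (nat_lit 2607434763) (nat_lit 0) (nat_lit 1517955890) (nat_lit 304) (nat_lit 2747181048) (nat_lit 122) (nat_lit 1) (nat_lit 121) (nat_lit 1) (nat_lit 125) (nat_lit 1) (nat_lit 315) (nat_lit 388) (nat_lit 317)) (XT.lf (nat_lit 380) (nat_lit 2649964082) (nat_lit 0) (nat_lit 3685585278) (nat_lit 304) (nat_lit 462460048) (nat_lit 122) (nat_lit 1) (nat_lit 117) (nat_lit 1) (nat_lit 121) (nat_lit 1) (nat_lit 316) (nat_lit 388) (nat_lit 316))) (XT.nd (nat_lit 78) (nat_lit 532) (nat_lit 0) (XT.lf (nat_lit 76) (nat_lit 3226192162) (nat_lit 0) (nat_lit 36439339) (nat_lit 304) (nat_lit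 3461786220) (nat_lit 114) (nat_lit 1) (nat_lit 113) (nat_lit 1) (nat_lit 117) (nat_lit 1) (nat_lit 317) (nat_lit 388) (nat_lit 315)) (XT.nd (nat_lit 78) (nat_lit 228) (nat_lit 0) (XT.lf (nat_lit 76) (nat_lit 202292632) (nat_lit 0) (nat_lit 2653664848) (nat_lit 380) (nat_lit 3795821730) (nat_lit 110) (nat_lit 1) (nat_lit 109) (nat_lit 1) (nat_lit 114) (nat_lit 1) (nat_lit 318) (nat_lit 388) (nat_lit 314)) (XT.lf (nat_lit 304) (nat_lit 1325084863) (nat_lit 0) (nat_lit 2463653998) (nat_lit 228) (nat_lit 2791311424) (nat_lit 110) (nat_lit 1) (nat_lit 106) (nat_lit 1) (nat_lit 109) (nat_lit 1) (nat_lit 319) (nat_lit 388) (nat_lit 313))))))))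
noncomputable def ec123 : XT := (XT.nd (nat_lit 1404) (nat_lit 2128) (nat_lit 0) (XT.nd (nat_lit 702) (nat_lit 2052) (nat_lit 0) (XT.nd (nat_lit 312) (nat_lit 1064) (nat_lit 0) (XT.nd (nat_lit 156) (nat_lit 532) (nat_lit 0) (XT.nd (nat_lit 78) (nat_lit 228) (nat_lit 0) (XT.lf (nat_lit 76) (nat_lit 796929756) (nat_lit 0) (nat_lit 1296708647) (nat_lit 380) (nat_lit 4415741691) (nat_lit 102) (nat_lit 1) (nat_lit 101) (nat_lit 1) (nat_lit 106) (nat_lit 1) (nat_lit 320) (nat_lit 388) (nat_lit 312)) (XT.lf (nat_lit 304) (nat_lit 2558919237) (nat_lit 0) (nat_lit 1732264188) (nat_lit 228) (nat_lit 2148311595) (nat_lit 102) (nat_lit 1) (nat_lit 98) (nat_lit 1) (nat_lit 101) (nat_lit 1) (nat_lit 321) (nat_lit 388) (nat_lit 311))) (XT.nd (nat_lit 78) (nat_lit 228) (nat_lit 0) (XT.lf (nat_lit 76) (nat_lit 1332688232) (nat_lit 0) (nat_lit 63592091) (nat_lit 304) (nat_lit 4974437176) (nat_lit 95) (nat_lit 1) (nat_lit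 94) (nat_lit 1) (nat_lit 98) (nat_lit 1) (nat_lit 322) (nat_lit 388) (nat_lit 310)) (XT.lf (nat_lit 304) (nat_lit 3674757325) (nat_lit 0) (nat_lit 1063488448) (nat_lit 228) (nat_lit 1564360575) (nat_lit 95) (nat_lit 1) (nat_lit 91) (nat_lit 1) (nat_lit 94) (nat_lit 1) (nat_lit 323) (nat_lit 388) (nat_lit 309)))) (XT.nd (nat_lit 156) (nat_lit 532) (nat_lit 0) (XT.nd (nat_lit 78) (nat_lit 304) (nat_lit 0) (XT.lf (nat_lit 304) (nat_lit 1069483497) (nat_lit 0) (nat_lit 751800778) (nat_lit 228) (nat_lit 4414222650) (nat_lit 92) (nat_lit 1) (nat_lit 88) (nat_lit 1) (nat_lit 91) (nat_lit 1) (nat_lit 324) (nat_lit 388) (nat_lit 308)) (XT.lf (nat_lit 304) (nat_lit 4681996412) (nat_lit 0) (nat_lit 452504641) (nat_lit 228) (nat_lit 1034741537) (nat_lit 88) (nat_lit 1) (nat_lit 84) (nat_lit 1) (nat_lit 87) (nat_lit 1) (nat_lit 325) (nat_lit 388) (nat_lit 307))) (XT.nd (nat_lit 78) (nat_lit 304) (nat_lit 0) (XT.lf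 (nat_lit 304) (nat_lit 2096964744) (nat_lit 0) (nat_lit 162940263) (nat_lit 228) (nat_lit 3843850434) (nat_lit 85) (nat_lit 1) (nat_lit 81) (nat_lit 1) (nat_lit 84) (nat_lit 1) (nat_lit 326) (nat_lit 388) (nat_lit 306)) (XT.nd (nat_lit 78) (nat_lit 228) (nat_lit 0) (XT.lf (nat_lit 76) (nat_lit 5484851923) (nat_lit 0) (nat_lit 450640173) (nat_lit 304) (nat_lit 103764406) (nat_lit 81) (nat_lit 1) (nat_lit 80) (nat_lit 1) (nat_lit 84) (nat_lit 1) (nat_lit 327) (nat_lit 388) (nat_lit 305)) (XT.lf (nat_lit 76) (nat_lit 2654679384) (nat_lit 0) (nat_lit 2951320495) (nat_lit 304) (nat_lit 369292357) (nat_lit 78) (nat_lit 1) (nat_lit 77) (nat_lit 1) (nat_lit 81) (nat_lit 1) (nat_lit 328) (nat_lit 388) (nat_lit 304)))))) (XT.nd (nat_lit 312) (nat_lit 1140) (nat_lit 0) (XT.nd (nat_lit 156) (nat_lit 456) (nat_lit 0) (XT.nd (nat_lit 78) (nat_lit 228) (nat_lit 0) (XT.lf (nat_lit 304) (nat_lit 494656700) (nat_lit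 0) (nat_lit 5303681030) (nat_lit 228) (nat_lit 114081340) (nat_lit 78) (nat_lit 1) (nat_lit 74) (nat_lit 1) (nat_lit 77) (nat_lit 1) (nat_lit 329) (nat_lit 388) (nat_lit 303)) (XT.lf (nat_lit 76) (nat_lit 3007724812) (nat_lit 0) (nat_lit 1990011990) (nat_lit 228) (nat_lit 852290881) (nat_lit 72) (nat_lit 1) (nat_lit 71) (nat_lit 1) (nat_lit 74) (nat_lit 1) (nat_lit 330) (nat_lit 388) (nat_lit 302))) (XT.nd (nat_lit 78) (nat_lit 228) (nat_lit 0) (XT.lf (nat_lit 76) (nat_lit 282373975) (nat_lit 0) (nat_lit 4433132434) (nat_lit 304) (nat_lit 1073142367) (nat_lit 69) (nat_lit 1) (nat_lit 68) (nat_lit 1) (nat_lit 72) (nat_lit 1) (nat_lit 331) (nat_lit 388) (nat_lit 301)) (XT.lf (nat_lit 76) (nat_lit 3321511709) (nat_lit 0) (nat_lit 1114516747) (nat_lit 228) (nat_lit 1291837565) (nat_lit 66) (nat_lit 1) (nat_lit 65) (nat_lit 1) (nat_lit 68) (nat_lit 1) (nat_lit 332) (nat_lit 388) (nat_lit 300)))) (XT.nd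 (nat_lit 156) (nat_lit 684) (nat_lit 0) (XT.nd (nat_lit 78) (nat_lit 228) (nat_lit 0) (XT.lf (nat_lit 76) (nat_lit 638205130) (nat_lit 0) (nat_lit 3533559379) (nat_lit 304) (nat_lit 1496153992) (nat_lit 63) (nat_lit 1) (nat_lit 62) (nat_lit 1) (nat_lit 66) (nat_lit 1) (nat_lit 333) (nat_lit 388) (nat_lit 299)) (XT.lf (nat_lit 76) (nat_lit 3599294530) (nat_lit 0) (nat_lit 318101307) (nat_lit 228) (nat_lit 1691300876) (nat_lit 60) (nat_lit 1) (nat_lit 59) (nat_lit 1) (nat_lit 62) (nat_lit 1) (nat_lit 334) (nat_lit 388) (nat_lit 298))) (XT.nd (nat_lit 78) (nat_lit 456) (nat_lit 0) (XT.lf (nat_lit 76) (nat_lit 958087644) (nat_lit 0) (nat_lit 2711745317) (nat_lit 304) (nat_lit 1880301956) (nat_lit 57) (nat_lit 1) (nat_lit 56) (nat_lit 1) (nat_lit 60) (nat_lit 1) (nat_lit 335) (nat_lit 388) (nat_lit 297)) (XT.nd (nat_lit 78) (nat_lit 304) (nat_lit 0) (XT.lf (nat_lit 228) (nat_lit 410841323) (nat_lit 0)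 (nat_lit 3435900900) (nat_lit 152) (nat_lit 1645619602) (nat_lit 57) (nat_lit 1) (nat_lit 54) (nat_lit 1) (nat_lit 56) (nat_lit 1) (nat_lit 336) (nat_lit 388) (nat_lit 296)) (XT.lf (nat_lit 76) (nat_lit 1244954863) (nat_lit 0) (nat_lit 1961633174) (nat_lit 304) (nat_lit 2228607639) (nat_lit 51) (nat_lit 1) (nat_lit 50) (nat_lit 1) (nat_lit 54) (nat_lit 1) (nat_lit 337) (nat_lit 388) (nat_lit 295))))))) (XT.nd (nat_lit 702) (nat_lit 380) (nat_lit 0) (XT.nd (nat_lit 312) (nat_lit 912) (nat_lit 0) (XT.nd (nat_lit 156) (nat_lit 380) (nat_lit 0) (XT.nd (nat_lit 78) (nat_lit 304) (nat_lit 0) (XT.lf (nat_lit 228) (nat_lit 1076001458) (nat_lit 0) (nat_lit 2989604941) (nat_lit 152) (nat_lit 1313176246) (nat_lit 51) (nat_lit 1) (nat_lit 48) (nat_lit 1) (nat_lit 50) (nat_lit 1) (nat_lit 338) (nat_lit 388) (nat_lit 294)) (XT.lf (nat_lit 76) (nat_lit 1501512929) (nat_lit 0) (nat_lit 1277628014) (nat_lit 304)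 (nat_lit 2543862890) (nat_lit 45) (nat_lit 1) (nat_lit 44) (nat_lit 1) (nat_lit 48) (nat_lit 1) (nat_lit 339) (nat_lit 388) (nat_lit 293))) (XT.nd (nat_lit 78) (nat_lit 228) (nat_lit 0) (XT.lf (nat_lit 228) (nat_lit 1678525868) (nat_lit 0) (nat_lit 2577855390) (nat_lit 152) (nat_lit 1011525209) (nat_lit 45) (nat_lit 1) (nat_lit 42) (nat_lit 1) (nat_lit 44) (nat_lit 1) (nat_lit 340) (nat_lit 388) (nat_lit 292)) (XT.lf (nat_lit 76) (nat_lit 1730258121) (nat_lit 0) (nat_lit 654561925) (nat_lit 228) (nat_lit 2828647431) (nat_lit 40) (nat_lit 1) (nat_lit 39) (nat_lit 1) (nat_lit 42) (nat_lit 1) (nat_lit 341) (nat_lit 388) (nat_lit 291)))) (XT.nd (nat_lit 156) (nat_lit 532) (nat_lit 0) (XT.nd (nat_lit 78) (nat_lit 228) (nat_lit 0) (XT.lf (nat_lit 228) (nat_lit 2223377286) (nat_lit 0) (nat_lit 2198074530) (nat_lit 152) (nat_lit 738191787) (nat_lit 40) (nat_lit 1) (nat_lit 37) (nat_lit 1) (nat_lit 39) (nat_lit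 1) (nat_lit 342) (nat_lit 388) (nat_lit 290)) (XT.lf (nat_lit 76) (nat_lit 1933492882) (nat_lit 0) (nat_lit 87661580) (nat_lit 228) (nat_lit 3085344935) (nat_lit 35) (nat_lit 1) (nat_lit 34) (nat_lit 1) (nat_lit 37) (nat_lit 1) (nat_lit 343) (nat_lit 388) (nat_lit 289))) (XT.nd (nat_lit 78) (nat_lit 380) (nat_lit 0) (XT.lf (nat_lit 228) (nat_lit 2715138289) (nat_lit 0) (nat_lit 1847878294) (nat_lit 152) (nat_lit 490892339) (nat_lit 35) (nat_lit 1) (nat_lit 32) (nat_lit 1) (nat_lit 34) (nat_lit 1) (nat_lit 344) (nat_lit 388) (nat_lit 288)) (XT.nd (nat_lit 78) (nat_lit 228) (nat_lit 0) (XT.lf (nat_lit 228) (nat_lit 433162750) (nat_lit 0) (nat_lit 1682990250) (nat_lit 152) (nat_lit 2885807522) (nat_lit 33) (nat_lit 1) (nat_lit 30) (nat_lit 1) (nat_lit 32) (nat_lit 1) (nat_lit 345) (nat_lit 388) (nat_lit 287)) (XT.lf (nat_lit 228) (nat_lit 3158040210) (nat_lit 0) (nat_lit 1525061626) (nat_lit 152) (nat_lit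 267519709) (nat_lit 30) (nat_lit 1) (nat_lit 27) (nat_lit 1) (nat_lit 29) (nat_lit 1) (nat_lit 346) (nat_lit 388) (nat_lit 286)))))) (XT.nd (nat_lit 48672) (nat_lit 0) (nat_lit 13832) (XT.nd (nat_lit 48438) (nat_lit 0) (nat_lit 16340) (XT.nd (nat_lit 78) (nat_lit 228) (nat_lit 0) (XT.lf (nat_lit 228) (nat_lit 906833147) (nat_lit 0) (nat_lit 1370814016) (nat_lit 152) (nat_lit 2622175955) (nat_lit 28) (nat_lit 1) (nat_lit 25) (nat_lit 1) (nat_lit 27) (nat_lit 1) (nat_lit 347) (nat_lit 388) (nat_lit 285)) (XT.lf (nat_lit 228) (nat_lit 3555989847) (nat_lit 0) (nat_lit 1227584958) (nat_lit 152) (nat_lit 66129760) (nat_lit 25) (nat_lit 1) (nat_lit 22) (nat_lit 1) (nat_lit 24) (nat_lit 1) (nat_lit 348) (nat_lit 388) (nat_lit 284))) (XT.nd (nat_lit 78) (nat_lit 988) (nat_lit 0) (XT.lf (nat_lit 76) (nat_lit 4189891721) (nat_lit 0) (nat_lit 2750576837) (nat_lit 608) (nat_lit 2575088398) (nat_lit 251) (nat_lit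 1) (nat_lit 250) (nat_lit 1) (nat_lit 258) (nat_lit 1) (nat_lit 287) (nat_lit 389) (nat_lit 344)) (XT.nd (nat_lit 78) (nat_lit 456) (nat_lit 0) (XT.lf (nat_lit 76) (nat_lit 398032253) (nat_lit 0) (nat_lit 5454981434) (nat_lit 608) (nat_lit 3550157815) (nat_lit 244) (nat_lit 1) (nat_lit 243) (nat_lit 1) (nat_lit 251) (nat_lit 1) (nat_lit 288) (nat_lit 389) (nat_lit 343)) (XT.lf (nat_lit 532) (nat_lit 1130494766) (nat_lit 0) (nat_lit 4804463285) (nat_lit 456) (nat_lit 3357474934) (nat_lit 244) (nat_lit 1) (nat_lit 237) (nat_lit 1) (nat_lit 243) (nat_lit 1) (nat_lit 289) (nat_lit 389) (nat_lit 342))))) (XT.nd (nat_lit 156) (nat_lit 1444) (nat_lit 0) (XT.nd (nat_lit 78) (nat_lit 456) (nat_lit 0) (XT.lf (nat_lit 76) (nat_lit 2156227194) (nat_lit 0) (nat_lit 1645871739) (nat_lit 608) (nat_lit 5381376667) (nat_lit 230) (nat_lit 1) (nat_lit 229) (nat_lit 1) (nat_lit 237) (nat_lit 1) (nat_lit 290) (nat_lit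 389) (nat_lit 341)) (XT.lf (nat_lit 532) (nat_lit 4680740681) (nat_lit 0) (nat_lit 2840267038) (nat_lit 456) (nat_lit 1555172271) (nat_lit 230) (nat_lit 1) (nat_lit 223) (nat_lit 1) (nat_lit 229) (nat_lit 1) (nat_lit 291) (nat_lit 389) (nat_lit 340))) (XT.nd (nat_lit 78) (nat_lit 988) (nat_lit 0) (XT.lf (nat_lit 532) (nat_lit 1834187894) (nat_lit 0) (nat_lit 1921128007) (nat_lit 456) (nat_lit 5215264197) (nat_lit 224) (nat_lit 1) (nat_lit 217) (nat_lit 1) (nat_lit 223) (nat_lit 1) (nat_lit 292) (nat_lit 389) (nat_lit 339)) (XT.nd (nat_lit 78) (nat_lit 456) (nat_lit 0) (XT.lf (nat_lit 76) (nat_lit 76466520) (nat_lit 0) (nat_lit 974493255) (nat_lit 532) (nat_lit 7815830910) (nat_lit 211) (nat_lit 1) (nat_lit 210) (nat_lit 1) (nat_lit 217) (nat_lit 1) (nat_lit 293) (nat_lit 389) (nat_lit 338)) (XT.lf (nat_lit 532) (nat_lit 5006697012) (nat_lit 0) (nat_lit 199145470) (nat_lit 456) (nat_lit 3558360684)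 (nat_lit 211) (nat_lit 1) (nat_lit 204) (nat_lit 1) (nat_lit 210) (nat_lit 1) (nat_lit 294) (nat_lit 389) (nat_lit 337))))))))
noncomputable def ec124 : XT := (XT.nd (nat_lit 1404) (nat_lit 4788) (nat_lit 0) (XT.nd (nat_lit 702) (nat_lit 2736) (nat_lit 0) (XT.nd (nat_lit 312) (nat_lit 1976) (nat_lit 0) (XT.nd (nat_lit 156) (nat_lit 836) (nat_lit 0) (XT.nd (nat_lit 78) (nat_lit 456) (nat_lit 0) (XT.lf (nat_lit 76) (nat_lit 1551517379) (nat_lit 0) (nat_lit 6519590050) (nat_lit 532) (nat_lit 592293611) (nat_lit 205) (nat_lit 1) (nat_lit 204) (nat_lit 1) (nat_lit 211) (nat_lit 1) (nat_lit 295) (nat_lit 389) (nat_lit 336)) (XT.lf (nat_lit 76) (nat_lit 6518721533) (nat_lit 0) (nat_lit 697122569) (nat_lit 456) (nat_lit 1348212855) (nat_lit 199) (nat_lit 1) (nat_lit 198) (nat_lit 1) (nat_lit 204) (nat_lit 1) (nat_lit 296) (nat_lit 389) (nat_lit 335))) (XT.nd (nat_lit 78) (nat_lit 380) (nat_lit 0) (XT.lf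 (nat_lit 76) (nat_lit 2895266722) (nat_lit 0) (nat_lit 3492468546) (nat_lit 532) (nat_lit 2078311738) (nat_lit 193) (nat_lit 1) (nat_lit 192) (nat_lit 1) (nat_lit 199) (nat_lit 1) (nat_lit 297) (nat_lit 389) (nat_lit 334)) (XT.lf (nat_lit 456) (nat_lit 2105379177) (nat_lit 0) (nat_lit 5605608864) (nat_lit 380) (nat_lit 658744539) (nat_lit 193) (nat_lit 1) (nat_lit 187) (nat_lit 1) (nat_lit 192) (nat_lit 1) (nat_lit 298) (nat_lit 389) (nat_lit 333)))) (XT.nd (nat_lit 156) (nat_lit 1140) (nat_lit 0) (XT.nd (nat_lit 78) (nat_lit 380) (nat_lit 0) (XT.lf (nat_lit 76) (nat_lit 4106074825) (nat_lit 0) (nat_lit 742406312) (nat_lit 456) (nat_lit 3426213387) (nat_lit 182) (nat_lit 1) (nat_lit 181) (nat_lit 1) (nat_lit 187) (nat_lit 1) (nat_lit 299) (nat_lit 389) (nat_lit 332)) (XT.lf (nat_lit 76) (nat_lit 592521993) (nat_lit 0) (nat_lit 3533073220) (nat_lit 456) (nat_lit 4055511230) (nat_lit 177) (nat_lit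 1) (nat_lit 176) (nat_lit 1) (nat_lit 182) (nat_lit 1) (nat_lit 300) (nat_lit 389) (nat_lit 331))) (XT.nd (nat_lit 78) (nat_lit 760) (nat_lit 0) (XT.lf (nat_lit 456) (nat_lit 1775795136) (nat_lit 0) (nat_lit 3430416534) (nat_lit 380) (nat_lit 2882620980) (nat_lit 177) (nat_lit 1) (nat_lit 171) (nat_lit 1) (nat_lit 176) (nat_lit 1) (nat_lit 301) (nat_lit 389) (nat_lit 330)) (XT.nd (nat_lit 78) (nat_lit 380) (nat_lit 0) (XT.lf (nat_lit 76) (nat_lit 1715206974) (nat_lit 0) (nat_lit 1054922599) (nat_lit 380) (nat_lit 5227876958) (nat_lit 167) (nat_lit 1) (nat_lit 166) (nat_lit 1) (nat_lit 171) (nat_lit 1) (nat_lit 302) (nat_lit 389) (nat_lit 329)) (XT.lf (nat_lit 456) (nat_lit 4065819726) (nat_lit 0) (nat_lit 2131578264) (nat_lit 380) (nat_lit 1710964719) (nat_lit 167) (nat_lit 1) (nat_lit 161) (nat_lit 1) (nat_lit 166) (nat_lit 1) (nat_lit 303) (nat_lit 389) (nat_lit 328)))))) (XT.nd (nat_lit 312) (nat_lit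 1672) (nat_lit 0) (XT.nd (nat_lit 156) (nat_lit 304) (nat_lit 0) (XT.nd (nat_lit 78) (nat_lit 456) (nat_lit 0) (XT.lf (nat_lit 380) (nat_lit 1209906499) (nat_lit 0) (nat_lit 1525547141) (nat_lit 304) (nat_lit 5084651669) (nat_lit 162) (nat_lit 1) (nat_lit 157) (nat_lit 1) (nat_lit 161) (nat_lit 1) (nat_lit 304) (nat_lit 389) (nat_lit 327)) (XT.lf (nat_lit 456) (nat_lit 6136727774) (nat_lit 0) (nat_lit 947290776) (nat_lit 380) (nat_lit 649115461) (nat_lit 157) (nat_lit 1) (nat_lit 151) (nat_lit 1) (nat_lit 156) (nat_lit 1) (nat_lit 305) (nat_lit 389) (nat_lit 326))) (XT.nd (nat_lit 78) (nat_lit 0) (nat_lit 0) (XT.lf (nat_lit 380) (nat_lit 3274917098) (nat_lit 0) (nat_lit 384945740) (nat_lit 304) (nat_lit 3987346161) (nat_lit 152) (nat_lit 1) (nat_lit 147) (nat_lit 1) (nat_lit 151) (nat_lit 1) (nat_lit 306) (nat_lit 389) (nat_lit 325)) (XT.lf (nat_lit 76) (nat_lit 311411109) (nat_lit 0) (nat_lit 7116783505)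 (nat_lit 380) (nat_lit 134602905) (nat_lit 148) (nat_lit 1) (nat_lit 147) (nat_lit 1) (nat_lit 152) (nat_lit 1) (nat_lit 307) (nat_lit 389) (nat_lit 324)))) (XT.nd (nat_lit 156) (nat_lit 988) (nat_lit 0) (XT.nd (nat_lit 78) (nat_lit 304) (nat_lit 0) (XT.lf (nat_lit 76) (nat_lit 4494063369) (nat_lit 0) (nat_lit 2340393697) (nat_lit 380) (nat_lit 644687408) (nat_lit 143) (nat_lit 1) (nat_lit 142) (nat_lit 1) (nat_lit 147) (nat_lit 1) (nat_lit 308) (nat_lit 389) (nat_lit 323)) (XT.lf (nat_lit 76) (nat_lit 1186560199) (nat_lit 0) (nat_lit 5089436117) (nat_lit 380) (nat_lit 1120885952) (nat_lit 139) (nat_lit 1) (nat_lit 138) (nat_lit 1) (nat_lit 143) (nat_lit 1) (nat_lit 309) (nat_lit 389) (nat_lit 322))) (XT.nd (nat_lit 78) (nat_lit 608) (nat_lit 0) (XT.lf (nat_lit 76) (nat_lit 5243384871) (nat_lit 0) (nat_lit 496252217) (nat_lit 380) (nat_lit 1576108688) (nat_lit 134) (nat_lit 1) (nat_lit 133) (nat_lit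 1) (nat_lit 138) (nat_lit 1) (nat_lit 310) (nat_lit 389) (nat_lit 321)) (XT.nd (nat_lit 78) (nat_lit 304) (nat_lit 0) (XT.lf (nat_lit 76) (nat_lit 1975657697) (nat_lit 0) (nat_lit 3243082560) (nat_lit 380) (nat_lit 2016857836) (nat_lit 130) (nat_lit 1) (nat_lit 129) (nat_lit 1) (nat_lit 134) (nat_lit 1) (nat_lit 311) (nat_lit 389) (nat_lit 320)) (XT.lf (nat_lit 380) (nat_lit 1192909058) (nat_lit 0) (nat_lit 4727302610) (nat_lit 304) (nat_lit 1236495345) (nat_lit 130) (nat_lit 1) (nat_lit 125) (nat_lit 1) (nat_lit 129) (nat_lit 1) (nat_lit 312) (nat_lit 389) (nat_lit 319))))))) (XT.nd (nat_lit 702) (nat_lit 2204) (nat_lit 0) (XT.nd (nat_lit 312) (nat_lit 1368) (nat_lit 0) (XT.nd (nat_lit 156) (nat_lit 608) (nat_lit 0) (XT.nd (nat_lit 78) (nat_lit 304) (nat_lit 0) (XT.lf (nat_lit 76) (nat_lit 2685657805) (nat_lit 0) (nat_lit 1563494566) (nat_lit 304) (nat_lit 2829596479) (nat_lit 122) (nat_lit 1) (nat_lit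 121) (nat_lit 1) (nat_lit 125) (nat_lit 1) (nat_lit 313) (nat_lit 389) (nat_lit 318)) (XT.lf (nat_lit 380) (nat_lit 2729463004) (nat_lit 0) (nat_lit 3796152837) (nat_lit 304) (nat_lit 476333849) (nat_lit 122) (nat_lit 1) (nat_lit 117) (nat_lit 1) (nat_lit 121) (nat_lit 1) (nat_lit 314) (nat_lit 389) (nat_lit 317))) (XT.nd (nat_lit 78) (nat_lit 304) (nat_lit 0) (XT.lf (nat_lit 76) (nat_lit 3322977927) (nat_lit 0) (nat_lit 37532519) (nat_lit 304) (nat_lit 3565639806) (nat_lit 114) (nat_lit 1) (nat_lit 113) (nat_lit 1) (nat_lit 117) (nat_lit 1) (nat_lit 315) (nat_lit 389) (nat_lit 316)) (XT.lf (nat_lit 76) (nat_lit 208361411) (nat_lit 0) (nat_lit 2733274793) (nat_lit 380) (nat_lit 3909696382) (nat_lit 110) (nat_lit 1) (nat_lit 109) (nat_lit 1) (nat_lit 114) (nat_lit 1) (nat_lit 316) (nat_lit 389) (nat_lit 315)))) (XT.nd (nat_lit 156) (nat_lit 760) (nat_lit 0) (XT.nd (nat_lit 78) (nat_lit 380) (nat_lit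 0) (XT.lf (nat_lit 304) (nat_lit 1364837409) (nat_lit 0) (nat_lit 2537563618) (nat_lit 228) (nat_lit 2875050767) (nat_lit 110) (nat_lit 1) (nat_lit 106) (nat_lit 1) (nat_lit 109) (nat_lit 1) (nat_lit 317) (nat_lit 389) (nat_lit 314)) (XT.lf (nat_lit 76) (nat_lit 820837648) (nat_lit 0) (nat_lit 1335609906) (nat_lit 380) (nat_lit 4548213942) (nat_lit 102) (nat_lit 1) (nat_lit 101) (nat_lit 1) (nat_lit 106) (nat_lit 1) (nat_lit 318) (nat_lit 389) (nat_lit 313))) (XT.nd (nat_lit 78) (nat_lit 532) (nat_lit 0) (XT.lf (nat_lit 304) (nat_lit 2635686814) (nat_lit 0) (nat_lit 1784232114) (nat_lit 228) (nat_lit 2212760943) (nat_lit 102) (nat_lit 1) (nat_lit 98) (nat_lit 1) (nat_lit 101) (nat_lit 1) (nat_lit 319) (nat_lit 389) (nat_lit 312)) (XT.nd (nat_lit 78) (nat_lit 228) (nat_lit 0) (XT.lf (nat_lit 76) (nat_lit 1372668879) (nat_lit 0) (nat_lit 65499854) (nat_lit 304) (nat_lit 5123670291) (nat_lit 95) (nat_lit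 1) (nat_lit 94) (nat_lit 1) (nat_lit 98) (nat_lit 1) (nat_lit 320) (nat_lit 389) (nat_lit 311)) (XT.lf (nat_lit 304) (nat_lit 3785000045) (nat_lit 0) (nat_lit 1095393101) (nat_lit 228) (nat_lit 1611291392) (nat_lit 95) (nat_lit 1) (nat_lit 91) (nat_lit 1) (nat_lit 94) (nat_lit 1) (nat_lit 321) (nat_lit 389) (nat_lit 310)))))) (XT.nd (nat_lit 390) (nat_lit 1140) (nat_lit 0) (XT.nd (nat_lit 156) (nat_lit 532) (nat_lit 0) (XT.nd (nat_lit 78) (nat_lit 304) (nat_lit 0) (XT.lf (nat_lit 304) (nat_lit 1101568002) (nat_lit 0) (nat_lit 774354802) (nat_lit 228) (nat_lit 4546649330) (nat_lit 92) (nat_lit 1) (nat_lit 88) (nat_lit 1) (nat_lit 91) (nat_lit 1) (nat_lit 322) (nat_lit 389) (nat_lit 309)) (XT.lf (nat_lit 304) (nat_lit 4822456305) (nat_lit 0) (nat_lit 466079780) (nat_lit 228) (nat_lit 1065783783) (nat_lit 88) (nat_lit 1) (nat_lit 84) (nat_lit 1) (nat_lit 87) (nat_lit 1) (nat_lit 323) (nat_lit 389) (nat_lit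 308))) (XT.nd (nat_lit 78) (nat_lit 304) (nat_lit 0) (XT.lf (nat_lit 304) (nat_lit 2159873686) (nat_lit 0) (nat_lit 167828471) (nat_lit 228) (nat_lit 3959165947) (nat_lit 85) (nat_lit 1) (nat_lit 81) (nat_lit 1) (nat_lit 84) (nat_lit 1) (nat_lit 324) (nat_lit 389) (nat_lit 307)) (XT.nd (nat_lit 78) (nat_lit 228) (nat_lit 0) (XT.lf (nat_lit 76) (nat_lit 5649397480) (nat_lit 0) (nat_lit 464159378) (nat_lit 304) (nat_lit 106877338) (nat_lit 81) (nat_lit 1) (nat_lit 80) (nat_lit 1) (nat_lit 84) (nat_lit 1) (nat_lit 325) (nat_lit 389) (nat_lit 306)) (XT.lf (nat_lit 76) (nat_lit 2734319766) (nat_lit 0) (nat_lit 3039860110) (nat_lit 304) (nat_lit 380371128) (nat_lit 78) (nat_lit 1) (nat_lit 77) (nat_lit 1) (nat_lit 81) (nat_lit 1) (nat_lit 326) (nat_lit 389) (nat_lit 305))))) (XT.nd (nat_lit 156) (nat_lit 684) (nat_lit 0) (XT.nd (nat_lit 78) (nat_lit 228) (nat_lit 0) (XT.lf (nat_lit 304) (nat_lit 509496401)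 (nat_lit 0) (nat_lit 5462791461) (nat_lit 228) (nat_lit 117503780) (nat_lit 78) (nat_lit 1) (nat_lit 74) (nat_lit 1) (nat_lit 77) (nat_lit 1) (nat_lit 327) (nat_lit 389) (nat_lit 304)) (XT.lf (nat_lit 76) (nat_lit 3097956557) (nat_lit 0) (nat_lit 2049712350) (nat_lit 228) (nat_lit 877859608) (nat_lit 72) (nat_lit 1) (nat_lit 71) (nat_lit 1) (nat_lit 74) (nat_lit 1) (nat_lit 328) (nat_lit 389) (nat_lit 303))) (XT.nd (nat_lit 78) (nat_lit 456) (nat_lit 0) (XT.lf (nat_lit 76) (nat_lit 290845194) (nat_lit 0) (nat_lit 4566126407) (nat_lit 304) (nat_lit 1105336638) (nat_lit 69) (nat_lit 1) (nat_lit 68) (nat_lit 1) (nat_lit 72) (nat_lit 1) (nat_lit 329) (nat_lit 389) (nat_lit 302)) (XT.nd (nat_lit 78) (nat_lit 228) (nat_lit 0) (XT.lf (nat_lit 76) (nat_lit 3421157060) (nat_lit 0) (nat_lit 1147952250) (nat_lit 228) (nat_lit 1330592692) (nat_lit 66) (nat_lit 1) (nat_lit 65) (nat_lit 1) (nat_lit 68) (nat_lit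 1) (nat_lit 330) (nat_lit 389) (nat_lit 301)) (XT.lf (nat_lit 76) (nat_lit 657351284) (nat_lit 0) (nat_lit 3639566160) (nat_lit 304) (nat_lit 1541038611) (nat_lit 63) (nat_lit 1) (nat_lit 62) (nat_lit 1) (nat_lit 66) (nat_lit 1) (nat_lit 331) (nat_lit 389) (nat_lit 300))))))))
noncomputable def ec125 : XT := (XT.nd (nat_lit 50310) (nat_lit 0) (nat_lit 6232) (XT.nd (nat_lit 702) (nat_lit 760) (nat_lit 0) (XT.nd (nat_lit 312) (nat_lit 988) (nat_lit 0) (XT.nd (nat_lit 156) (nat_lit 456) (nat_lit 0) (XT.nd (nat_lit 78) (nat_lit 228) (nat_lit 0) (XT.lf (nat_lit 76) (nat_lit 3707273366) (nat_lit 0) (nat_lit 327644346) (nat_lit 228) (nat_lit 1742039902) (nat_lit 60) (nat_lit 1) (nat_lit 59) (nat_lit 1) (nat_lit 62) (nat_lit 1) (nat_lit 332) (nat_lit 389) (nat_lit 299)) (XT.lf (nat_lit 76) (nat_lit 986830273) (nat_lit 0) (nat_lit 2793097676) (nat_lit 304) (nat_lit 1936711015) (nat_lit 57) (nat_lit 1) (nat_lit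 56) (nat_lit 1) (nat_lit 60) (nat_lit 1) (nat_lit 333) (nat_lit 389) (nat_lit 298))) (XT.nd (nat_lit 78) (nat_lit 304) (nat_lit 0) (XT.lf (nat_lit 228) (nat_lit 423166563) (nat_lit 0) (nat_lit 3538977927) (nat_lit 152) (nat_lit 1694988190) (nat_lit 57) (nat_lit 1) (nat_lit 54) (nat_lit 1) (nat_lit 56) (nat_lit 1) (nat_lit 334) (nat_lit 389) (nat_lit 297)) (XT.lf (nat_lit 76) (nat_lit 1282303509) (nat_lit 0) (nat_lit 2020482170) (nat_lit 304) (nat_lit 2295465869) (nat_lit 51) (nat_lit 1) (nat_lit 50) (nat_lit 1) (nat_lit 54) (nat_lit 1) (nat_lit 335) (nat_lit 389) (nat_lit 296)))) (XT.nd (nat_lit 156) (nat_lit 532) (nat_lit 0) (XT.nd (nat_lit 78) (nat_lit 304) (nat_lit 0) (XT.lf (nat_lit 228) (nat_lit 1108281502) (nat_lit 0) (nat_lit 3079293090) (nat_lit 152) (nat_lit 1352571534) (nat_lit 51) (nat_lit 1) (nat_lit 48) (nat_lit 1) (nat_lit 50) (nat_lit 1) (nat_lit 336) (nat_lit 389) (nat_lit 295)) (XT.lf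 (nat_lit 76) (nat_lit 1546558317) (nat_lit 0) (nat_lit 1315956855) (nat_lit 304) (nat_lit 2620178777) (nat_lit 45) (nat_lit 1) (nat_lit 44) (nat_lit 1) (nat_lit 48) (nat_lit 1) (nat_lit 337) (nat_lit 389) (nat_lit 294))) (XT.nd (nat_lit 78) (nat_lit 380) (nat_lit 0) (XT.lf (nat_lit 228) (nat_lit 1728881644) (nat_lit 0) (nat_lit 2655191052) (nat_lit 152) (nat_lit 1041870965) (nat_lit 45) (nat_lit 1) (nat_lit 42) (nat_lit 1) (nat_lit 44) (nat_lit 1) (nat_lit 338) (nat_lit 389) (nat_lit 293)) (XT.nd (nat_lit 78) (nat_lit 152) (nat_lit 0) (XT.lf (nat_lit 76) (nat_lit 1782165865) (nat_lit 0) (nat_lit 674198783) (nat_lit 228) (nat_lit 2913506854) (nat_lit 40) (nat_lit 1) (nat_lit 39) (nat_lit 1) (nat_lit 42) (nat_lit 1) (nat_lit 339) (nat_lit 389) (nat_lit 292)) (XT.lf (nat_lit 228) (nat_lit 2290078604) (nat_lit 0) (nat_lit 2264016766) (nat_lit 152) (nat_lit 760337541) (nat_lit 40) (nat_lit 1) (nat_lit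 37) (nat_lit 1) (nat_lit 39) (nat_lit 1) (nat_lit 340) (nat_lit 389) (nat_lit 291)))))) (XT.nd (nat_lit 49218) (nat_lit 0) (nat_lit 12540) (XT.nd (nat_lit 156) (nat_lit 380) (nat_lit 0) (XT.nd (nat_lit 78) (nat_lit 152) (nat_lit 0) (XT.lf (nat_lit 76) (nat_lit 1991497668) (nat_lit 0) (nat_lit 90291427) (nat_lit 228) (nat_lit 3177905283) (nat_lit 35) (nat_lit 1) (nat_lit 34) (nat_lit 1) (nat_lit 37) (nat_lit 1) (nat_lit 341) (nat_lit 389) (nat_lit 290)) (XT.lf (nat_lit 228) (nat_lit 2796592438) (nat_lit 0) (nat_lit 1903314643) (nat_lit 152) (nat_lit 505619110) (nat_lit 35) (nat_lit 1) (nat_lit 32) (nat_lit 1) (nat_lit 34) (nat_lit 1) (nat_lit 342) (nat_lit 389) (nat_lit 289))) (XT.nd (nat_lit 78) (nat_lit 228) (nat_lit 0) (XT.lf (nat_lit 228) (nat_lit 446157633) (nat_lit 0) (nat_lit 1733479958) (nat_lit 152) (nat_lit 2972381748) (nat_lit 33) (nat_lit 1) (nat_lit 30) (nat_lit 1) (nat_lit 32) (nat_lit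 1) (nat_lit 343) (nat_lit 389) (nat_lit 288)) (XT.lf (nat_lit 228) (nat_lit 3252781417) (nat_lit 0) (nat_lit 1570813475) (nat_lit 152) (nat_lit 275545300) (nat_lit 30) (nat_lit 1) (nat_lit 27) (nat_lit 1) (nat_lit 29) (nat_lit 1) (nat_lit 344) (nat_lit 389) (nat_lit 287)))) (XT.nd (nat_lit 156) (nat_lit 912) (nat_lit 0) (XT.nd (nat_lit 78) (nat_lit 456) (nat_lit 0) (XT.lf (nat_lit 76) (nat_lit 78760516) (nat_lit 0) (nat_lit 1003728052) (nat_lit 532) (nat_lit 8050305838) (nat_lit 211) (nat_lit 1) (nat_lit 210) (nat_lit 1) (nat_lit 217) (nat_lit 1) (nat_lit 291) (nat_lit 390) (nat_lit 339)) (XT.lf (nat_lit 532) (nat_lit 5156897922) (nat_lit 0) (nat_lit 205119835) (nat_lit 456) (nat_lit 3665111504) (nat_lit 211) (nat_lit 1) (nat_lit 204) (nat_lit 1) (nat_lit 210) (nat_lit 1) (nat_lit 292) (nat_lit 390) (nat_lit 338))) (XT.nd (nat_lit 78) (nat_lit 912) (nat_lit 0) (XT.lf (nat_lit 76) (nat_lit 1598062901)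 (nat_lit 0) (nat_lit 6715177751) (nat_lit 532) (nat_lit 610062419) (nat_lit 205) (nat_lit 1) (nat_lit 204) (nat_lit 1) (nat_lit 211) (nat_lit 1) (nat_lit 293) (nat_lit 390) (nat_lit 337)) (XT.nd (nat_lit 78) (nat_lit 456) (nat_lit 0) (XT.lf (nat_lit 76) (nat_lit 6714283179) (nat_lit 0) (nat_lit 718036246) (nat_lit 456) (nat_lit 1388659241) (nat_lit 199) (nat_lit 1) (nat_lit 198) (nat_lit 1) (nat_lit 204) (nat_lit 1) (nat_lit 294) (nat_lit 390) (nat_lit 336)) (XT.lf (nat_lit 76) (nat_lit 2982124724) (nat_lit 0) (nat_lit 3597242602) (nat_lit 532) (nat_lit 2140661091) (nat_lit 193) (nat_lit 1) (nat_lit 192) (nat_lit 1) (nat_lit 199) (nat_lit 1) (nat_lit 295) (nat_lit 390) (nat_lit 335))))))) (XT.nd (nat_lit 702) (nat_lit 2888) (nat_lit 0) (XT.nd (nat_lit 312) (nat_lit 1824) (nat_lit 0) (XT.nd (nat_lit 156) (nat_lit 760) (nat_lit 0) (XT.nd (nat_lit 78) (nat_lit 456) (nat_lit 0) (XT.lf (nat_lit 456) (nat_lit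 2168540553) (nat_lit 0) (nat_lit 5773777130) (nat_lit 380) (nat_lit 678506875) (nat_lit 193) (nat_lit 1) (nat_lit 187) (nat_lit 1) (nat_lit 192) (nat_lit 1) (nat_lit 296) (nat_lit 390) (nat_lit 334)) (XT.lf (nat_lit 76) (nat_lit 4229257069) (nat_lit 0) (nat_lit 764678501) (nat_lit 456) (nat_lit 3528999789) (nat_lit 182) (nat_lit 1) (nat_lit 181) (nat_lit 1) (nat_lit 187) (nat_lit 1) (nat_lit 297) (nat_lit 390) (nat_lit 333))) (XT.nd (nat_lit 78) (nat_lit 380) (nat_lit 0) (XT.lf (nat_lit 76) (nat_lit 610297653) (nat_lit 0) (nat_lit 3639065417) (nat_lit 456) (nat_lit 4177176567) (nat_lit 177) (nat_lit 1) (nat_lit 176) (nat_lit 1) (nat_lit 182) (nat_lit 1) (nat_lit 298) (nat_lit 390) (nat_lit 332)) (XT.lf (nat_lit 456) (nat_lit 1829068990) (nat_lit 0) (nat_lit 3533329030) (nat_lit 380) (nat_lit 2969099609) (nat_lit 177) (nat_lit 1) (nat_lit 171) (nat_lit 1) (nat_lit 176) (nat_lit 1) (nat_lit 299) (nat_lit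 390) (nat_lit 331)))) (XT.nd (nat_lit 156) (nat_lit 1064) (nat_lit 0) (XT.nd (nat_lit 78) (nat_lit 380) (nat_lit 0) (XT.lf (nat_lit 76) (nat_lit 1766663183) (nat_lit 0) (nat_lit 1086570277) (nat_lit 380) (nat_lit 5384713267) (nat_lit 167) (nat_lit 1) (nat_lit 166) (nat_lit 1) (nat_lit 171) (nat_lit 1) (nat_lit 300) (nat_lit 390) (nat_lit 330)) (XT.lf (nat_lit 456) (nat_lit 4187794318) (nat_lit 0) (nat_lit 2195525612) (nat_lit 380) (nat_lit 1762293661) (nat_lit 167) (nat_lit 1) (nat_lit 161) (nat_lit 1) (nat_lit 166) (nat_lit 1) (nat_lit 301) (nat_lit 390) (nat_lit 329))) (XT.nd (nat_lit 78) (nat_lit 760) (nat_lit 0) (XT.lf (nat_lit 380) (nat_lit 1246203694) (nat_lit 0) (nat_lit 1571313556) (nat_lit 304) (nat_lit 5237191219) (nat_lit 162) (nat_lit 1) (nat_lit 157) (nat_lit 1) (nat_lit 161) (nat_lit 1) (nat_lit 302) (nat_lit 390) (nat_lit 328)) (XT.nd (nat_lit 78) (nat_lit 304) (nat_lit 0) (XT.lf (nat_lit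 456) (nat_lit 6320829607) (nat_lit 0) (nat_lit 975709499) (nat_lit 380) (nat_lit 668588925) (nat_lit 157) (nat_lit 1) (nat_lit 151) (nat_lit 1) (nat_lit 156) (nat_lit 1) (nat_lit 303) (nat_lit 390) (nat_lit 327)) (XT.lf (nat_lit 380) (nat_lit 3373164611) (nat_lit 0) (nat_lit 396494112) (nat_lit 304) (nat_lit 4106966546) (nat_lit 152) (nat_lit 1) (nat_lit 147) (nat_lit 1) (nat_lit 151) (nat_lit 1) (nat_lit 304) (nat_lit 390) (nat_lit 326)))))) (XT.nd (nat_lit 390) (nat_lit 1520) (nat_lit 0) (XT.nd (nat_lit 156) (nat_lit 988) (nat_lit 0) (XT.nd (nat_lit 78) (nat_lit 380) (nat_lit 0) (XT.lf (nat_lit 76) (nat_lit 320753442) (nat_lit 0) (nat_lit 7330287011) (nat_lit 380) (nat_lit 138640992) (nat_lit 148) (nat_lit 1) (nat_lit 147) (nat_lit 1) (nat_lit 152) (nat_lit 1) (nat_lit 305) (nat_lit 390) (nat_lit 325)) (XT.lf (nat_lit 76) (nat_lit 4628885270) (nat_lit 0) (nat_lit 2410605508) (nat_lit 380) (nat_lit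 664028030) (nat_lit 143) (nat_lit 1) (nat_lit 142) (nat_lit 1) (nat_lit 147) (nat_lit 1) (nat_lit 306) (nat_lit 390) (nat_lit 324))) (XT.nd (nat_lit 78) (nat_lit 684) (nat_lit 0) (XT.lf (nat_lit 76) (nat_lit 1222157005) (nat_lit 0) (nat_lit 5242119200) (nat_lit 380) (nat_lit 1154512531) (nat_lit 139) (nat_lit 1) (nat_lit 138) (nat_lit 1) (nat_lit 143) (nat_lit 1) (nat_lit 307) (nat_lit 390) (nat_lit 323)) (XT.nd (nat_lit 78) (nat_lit 304) (nat_lit 0) (XT.lf (nat_lit 76) (nat_lit 5400686417) (nat_lit 0) (nat_lit 511139783) (nat_lit 380) (nat_lit 1623391948) (nat_lit 134) (nat_lit 1) (nat_lit 133) (nat_lit 1) (nat_lit 138) (nat_lit 1) (nat_lit 308) (nat_lit 390) (nat_lit 322)) (XT.lf (nat_lit 76) (nat_lit 2034927428) (nat_lit 0) (nat_lit 3340375037) (nat_lit 380) (nat_lit 2077363571) (nat_lit 130) (nat_lit 1) (nat_lit 129) (nat_lit 1) (nat_lit 134) (nat_lit 1) (nat_lit 309) (nat_lit 390) (nat_lit 321)))))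 (XT.nd (nat_lit 156) (nat_lit 912) (nat_lit 0) (XT.nd (nat_lit 78) (nat_lit 304) (nat_lit 0) (XT.lf (nat_lit 380) (nat_lit 1228696330) (nat_lit 0) (nat_lit 4869121689) (nat_lit 304) (nat_lit 1273590206) (nat_lit 130) (nat_lit 1) (nat_lit 125) (nat_lit 1) (nat_lit 129) (nat_lit 1) (nat_lit 310) (nat_lit 390) (nat_lit 320)) (XT.lf (nat_lit 76) (nat_lit 2766227540) (nat_lit 0) (nat_lit 1610399403) (nat_lit 304) (nat_lit 2914484374) (nat_lit 122) (nat_lit 1) (nat_lit 121) (nat_lit 1) (nat_lit 125) (nat_lit 1) (nat_lit 311) (nat_lit 390) (nat_lit 319))) (XT.nd (nat_lit 78) (nat_lit 608) (nat_lit 0) (XT.lf (nat_lit 380) (nat_lit 2811346895) (nat_lit 0) (nat_lit 3910037422) (nat_lit 304) (nat_lit 490623865) (nat_lit 122) (nat_lit 1) (nat_lit 117) (nat_lit 1) (nat_lit 121) (nat_lit 1) (nat_lit 312) (nat_lit 390) (nat_lit 318)) (XT.nd (nat_lit 78) (nat_lit 304) (nat_lit 0) (XT.lf (nat_lit 76) (nat_lit 3422667265)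 (nat_lit 0) (nat_lit 38658495) (nat_lit 304) (nat_lit 3672609000) (nat_lit 114) (nat_lit 1) (nat_lit 113) (nat_lit 1) (nat_lit 117) (nat_lit 1) (nat_lit 313) (nat_lit 390) (nat_lit 317)) (XT.lf (nat_lit 76) (nat_lit 214612253) (nat_lit 0) (nat_lit 2815273037) (nat_lit 380) (nat_lit 4026987274) (nat_lit 110) (nat_lit 1) (nat_lit 109) (nat_lit 1) (nat_lit 114) (nat_lit 1) (nat_lit 314) (nat_lit 390) (nat_lit 316))))))))
noncomputable def ec126 : XT := (XT.nd (nat_lit 1404) (nat_lit 1520) (nat_lit 0) (XT.nd (nat_lit 702) (nat_lit 1976) (nat_lit 0) (XT.nd (nat_lit 312) (nat_lit 1064) (nat_lit 0) (XT.nd (nat_lit 156) (nat_lit 532) (nat_lit 0) (XT.nd (nat_lit 78) (nat_lit 380) (nat_lit 0) (XT.lf (nat_lit 304) (nat_lit 1405782531) (nat_lit 0) (nat_lit 2613690527) (nat_lit 228) (nat_lit 2961302290) (nat_lit 110) (nat_lit 1) (nat_lit 106) (nat_lit 1) (nat_lit 109) (nat_lit 1) (nat_lit 315) (nat_lit 390) (nat_lit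 315)) (XT.lf (nat_lit 76) (nat_lit 845462778) (nat_lit 0) (nat_lit 1375678204) (nat_lit 380) (nat_lit 4684660360) (nat_lit 102) (nat_lit 1) (nat_lit 101) (nat_lit 1) (nat_lit 106) (nat_lit 1) (nat_lit 316) (nat_lit 390) (nat_lit 314))) (XT.nd (nat_lit 78) (nat_lit 304) (nat_lit 0) (XT.lf (nat_lit 304) (nat_lit 2714757419) (nat_lit 0) (nat_lit 1837759077) (nat_lit 228) (nat_lit 2279143771) (nat_lit 102) (nat_lit 1) (nat_lit 98) (nat_lit 1) (nat_lit 101) (nat_lit 1) (nat_lit 317) (nat_lit 390) (nat_lit 313)) (XT.lf (nat_lit 76) (nat_lit 1413848945) (nat_lit 0) (nat_lit 67464850) (nat_lit 304) (nat_lit 5277380400) (nat_lit 95) (nat_lit 1) (nat_lit 94) (nat_lit 1) (nat_lit 98) (nat_lit 1) (nat_lit 318) (nat_lit 390) (nat_lit 312)))) (XT.nd (nat_lit 156) (nat_lit 608) (nat_lit 0) (XT.nd (nat_lit 78) (nat_lit 228) (nat_lit 0) (XT.lf (nat_lit 304) (nat_lit 3898550046) (nat_lit 0) (nat_lit 1128254894) (nat_lit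 228) (nat_lit 1659630134) (nat_lit 95) (nat_lit 1) (nat_lit 91) (nat_lit 1) (nat_lit 94) (nat_lit 1) (nat_lit 319) (nat_lit 390) (nat_lit 311)) (XT.lf (nat_lit 304) (nat_lit 1134615042) (nat_lit 0) (nat_lit 797585446) (nat_lit 228) (nat_lit 4683048810) (nat_lit 92) (nat_lit 1) (nat_lit 88) (nat_lit 1) (nat_lit 91) (nat_lit 1) (nat_lit 320) (nat_lit 390) (nat_lit 310))) (XT.nd (nat_lit 78) (nat_lit 304) (nat_lit 0) (XT.lf (nat_lit 304) (nat_lit 4967129994) (nat_lit 0) (nat_lit 480062174) (nat_lit 228) (nat_lit 1097757297) (nat_lit 88) (nat_lit 1) (nat_lit 84) (nat_lit 1) (nat_lit 87) (nat_lit 1) (nat_lit 321) (nat_lit 390) (nat_lit 309)) (XT.nd (nat_lit 78) (nat_lit 76) (nat_lit 0) (XT.lf (nat_lit 304) (nat_lit 2224669897) (nat_lit 0) (nat_lit 172863325) (nat_lit 228) (nat_lit 4077940925) (nat_lit 85) (nat_lit 1) (nat_lit 81) (nat_lit 1) (nat_lit 84) (nat_lit 1) (nat_lit 322) (nat_lit 390) (nat_lit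 308)) (XT.lf (nat_lit 76) (nat_lit 5818879405) (nat_lit 0) (nat_lit 478084160) (nat_lit 304) (nat_lit 110083658) (nat_lit 81) (nat_lit 1) (nat_lit 80) (nat_lit 1) (nat_lit 84) (nat_lit 1) (nat_lit 323) (nat_lit 390) (nat_lit 307)))))) (XT.nd (nat_lit 312) (nat_lit 1064) (nat_lit 0) (XT.nd (nat_lit 156) (nat_lit 456) (nat_lit 0) (XT.nd (nat_lit 78) (nat_lit 228) (nat_lit 0) (XT.lf (nat_lit 76) (nat_lit 2816349359) (nat_lit 0) (nat_lit 3131055913) (nat_lit 304) (nat_lit 391782262) (nat_lit 78) (nat_lit 1) (nat_lit 77) (nat_lit 1) (nat_lit 81) (nat_lit 1) (nat_lit 324) (nat_lit 390) (nat_lit 306)) (XT.lf (nat_lit 304) (nat_lit 524781293) (nat_lit 0) (nat_lit 5626675204) (nat_lit 228) (nat_lit 121028894) (nat_lit 78) (nat_lit 1) (nat_lit 74) (nat_lit 1) (nat_lit 77) (nat_lit 1) (nat_lit 325) (nat_lit 390) (nat_lit 305))) (XT.nd (nat_lit 78) (nat_lit 228) (nat_lit 0) (XT.lf (nat_lit 76) (nat_lit 3190895253)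 (nat_lit 0) (nat_lit 2111203720) (nat_lit 228) (nat_lit 904195396) (nat_lit 72) (nat_lit 1) (nat_lit 71) (nat_lit 1) (nat_lit 74) (nat_lit 1) (nat_lit 326) (nat_lit 390) (nat_lit 304)) (XT.lf (nat_lit 76) (nat_lit 299570550) (nat_lit 0) (nat_lit 4703110199) (nat_lit 304) (nat_lit 1138496737) (nat_lit 69) (nat_lit 1) (nat_lit 68) (nat_lit 1) (nat_lit 72) (nat_lit 1) (nat_lit 327) (nat_lit 390) (nat_lit 303)))) (XT.nd (nat_lit 156) (nat_lit 608) (nat_lit 0) (XT.nd (nat_lit 78) (nat_lit 228) (nat_lit 0) (XT.lf (nat_lit 76) (nat_lit 3523791772) (nat_lit 0) (nat_lit 1182390817) (nat_lit 228) (nat_lit 1370510473) (nat_lit 66) (nat_lit 1) (nat_lit 65) (nat_lit 1) (nat_lit 68) (nat_lit 1) (nat_lit 328) (nat_lit 390) (nat_lit 302)) (XT.lf (nat_lit 76) (nat_lit 677071822) (nat_lit 0) (nat_lit 3748753145) (nat_lit 304) (nat_lit 1587269770) (nat_lit 63) (nat_lit 1) (nat_lit 62) (nat_lit 1) (nat_lit 66) (nat_lit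 1) (nat_lit 329) (nat_lit 390) (nat_lit 301))) (XT.nd (nat_lit 78) (nat_lit 380) (nat_lit 0) (XT.lf (nat_lit 76) (nat_lit 3818491567) (nat_lit 0) (nat_lit 337473677) (nat_lit 228) (nat_lit 1794301099) (nat_lit 60) (nat_lit 1) (nat_lit 59) (nat_lit 1) (nat_lit 62) (nat_lit 1) (nat_lit 330) (nat_lit 390) (nat_lit 300)) (XT.nd (nat_lit 78) (nat_lit 152) (nat_lit 0) (XT.lf (nat_lit 76) (nat_lit 1016435181) (nat_lit 0) (nat_lit 2876890606) (nat_lit 304) (nat_lit 1994812346) (nat_lit 57) (nat_lit 1) (nat_lit 56) (nat_lit 1) (nat_lit 60) (nat_lit 1) (nat_lit 331) (nat_lit 390) (nat_lit 299)) (XT.lf (nat_lit 228) (nat_lit 435861560) (nat_lit 0) (nat_lit 3645147265) (nat_lit 152) (nat_lit 1745837836) (nat_lit 57) (nat_lit 1) (nat_lit 54) (nat_lit 1) (nat_lit 56) (nat_lit 1) (nat_lit 332) (nat_lit 390) (nat_lit 298))))))) (XT.nd (nat_lit 50466) (nat_lit 0) (nat_lit 6916) (XT.nd (nat_lit 312) (nat_lit 608)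 (nat_lit 0) (XT.nd (nat_lit 156) (nat_lit 456) (nat_lit 0) (XT.nd (nat_lit 78) (nat_lit 152) (nat_lit 0) (XT.lf (nat_lit 76) (nat_lit 1320772614) (nat_lit 0) (nat_lit 2081096635) (nat_lit 304) (nat_lit 2364329845) (nat_lit 51) (nat_lit 1) (nat_lit 50) (nat_lit 1) (nat_lit 54) (nat_lit 1) (nat_lit 333) (nat_lit 390) (nat_lit 297)) (XT.lf (nat_lit 228) (nat_lit 1141529947) (nat_lit 0) (nat_lit 3171671882) (nat_lit 152) (nat_lit 1393148680) (nat_lit 51) (nat_lit 1) (nat_lit 48) (nat_lit 1) (nat_lit 50) (nat_lit 1) (nat_lit 334) (nat_lit 390) (nat_lit 296))) (XT.nd (nat_lit 78) (nat_lit 152) (nat_lit 0) (XT.lf (nat_lit 76) (nat_lit 1592955067) (nat_lit 0) (nat_lit 1355435560) (nat_lit 304) (nat_lit 2698784140) (nat_lit 45) (nat_lit 1) (nat_lit 44) (nat_lit 1) (nat_lit 48) (nat_lit 1) (nat_lit 335) (nat_lit 390) (nat_lit 295)) (XT.lf (nat_lit 228) (nat_lit 1780748094) (nat_lit 0) (nat_lit 2734846783)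 (nat_lit 152) (nat_lit 1073127094) (nat_lit 45) (nat_lit 1) (nat_lit 42) (nat_lit 1) (nat_lit 44) (nat_lit 1) (nat_lit 336) (nat_lit 390) (nat_lit 294)))) (XT.nd (nat_lit 156) (nat_lit 228) (nat_lit 0) (XT.nd (nat_lit 78) (nat_lit 152) (nat_lit 0) (XT.lf (nat_lit 76) (nat_lit 1835630841) (nat_lit 0) (nat_lit 694424746) (nat_lit 228) (nat_lit 3000912059) (nat_lit 40) (nat_lit 1) (nat_lit 39) (nat_lit 1) (nat_lit 42) (nat_lit 1) (nat_lit 337) (nat_lit 390) (nat_lit 293)) (XT.lf (nat_lit 228) (nat_lit 2358780963) (nat_lit 0) (nat_lit 2331937269) (nat_lit 152) (nat_lit 783147667) (nat_lit 40) (nat_lit 1) (nat_lit 37) (nat_lit 1) (nat_lit 39) (nat_lit 1) (nat_lit 338) (nat_lit 390) (nat_lit 292))) (XT.nd (nat_lit 49842) (nat_lit 0) (nat_lit 10032) (XT.lf (nat_lit 76) (nat_lit 2051242598) (nat_lit 0) (nat_lit 93000170) (nat_lit 228) (nat_lit 3273242442) (nat_lit 35) (nat_lit 1) (nat_lit 34) (nat_lit 1)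 (nat_lit 37) (nat_lit 1) (nat_lit 339) (nat_lit 390) (nat_lit 291)) (XT.nd (nat_lit 78) (nat_lit 380) (nat_lit 0) (XT.lf (nat_lit 456) (nat_lit 1883941060) (nat_lit 0) (nat_lit 3639328901) (nat_lit 380) (nat_lit 3058172597) (nat_lit 177) (nat_lit 1) (nat_lit 171) (nat_lit 1) (nat_lit 176) (nat_lit 1) (nat_lit 297) (nat_lit 391) (nat_lit 332)) (XT.lf (nat_lit 76) (nat_lit 1819663078) (nat_lit 0) (nat_lit 1119167385) (nat_lit 380) (nat_lit 5546254665) (nat_lit 167) (nat_lit 1) (nat_lit 166) (nat_lit 1) (nat_lit 171) (nat_lit 1) (nat_lit 298) (nat_lit 391) (nat_lit 331)))))) (XT.nd (nat_lit 390) (nat_lit 1672) (nat_lit 0) (XT.nd (nat_lit 156) (nat_lit 760) (nat_lit 0) (XT.nd (nat_lit 78) (nat_lit 304) (nat_lit 0) (XT.lf (nat_lit 456) (nat_lit 4313428148) (nat_lit 0) (nat_lit 2261391381) (nat_lit 380) (nat_lit 1815162471) (nat_lit 167) (nat_lit 1) (nat_lit 161) (nat_lit 1) (nat_lit 166) (nat_lit 1) (nat_lit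 299) (nat_lit 391) (nat_lit 330)) (XT.lf (nat_lit 380) (nat_lit 1283589804) (nat_lit 0) (nat_lit 1618452962) (nat_lit 304) (nat_lit 5394306956) (nat_lit 162) (nat_lit 1) (nat_lit 157) (nat_lit 1) (nat_lit 161) (nat_lit 1) (nat_lit 300) (nat_lit 391) (nat_lit 329))) (XT.nd (nat_lit 78) (nat_lit 304) (nat_lit 0) (XT.lf (nat_lit 456) (nat_lit 6510454495) (nat_lit 0) (nat_lit 1004980784) (nat_lit 380) (nat_lit 688646593) (nat_lit 157) (nat_lit 1) (nat_lit 151) (nat_lit 1) (nat_lit 156) (nat_lit 1) (nat_lit 301) (nat_lit 391) (nat_lit 328)) (XT.nd (nat_lit 78) (nat_lit 0) (nat_lit 0) (XT.lf (nat_lit 380) (nat_lit 3474359549) (nat_lit 0) (nat_lit 408388936) (nat_lit 304) (nat_lit 4230175543) (nat_lit 152) (nat_lit 1) (nat_lit 147) (nat_lit 1) (nat_lit 151) (nat_lit 1) (nat_lit 302) (nat_lit 391) (nat_lit 327)) (XT.lf (nat_lit 76) (nat_lit 330376046) (nat_lit 0) (nat_lit 7550195621) (nat_lit 380) (nat_lit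 142800222) (nat_lit 148) (nat_lit 1) (nat_lit 147) (nat_lit 1) (nat_lit 152) (nat_lit 1) (nat_lit 303) (nat_lit 391) (nat_lit 326))))) (XT.nd (nat_lit 156) (nat_lit 988) (nat_lit 0) (XT.nd (nat_lit 78) (nat_lit 304) (nat_lit 0) (XT.lf (nat_lit 76) (nat_lit 4767751828) (nat_lit 0) (nat_lit 2482923673) (nat_lit 380) (nat_lit 683948871) (nat_lit 143) (nat_lit 1) (nat_lit 142) (nat_lit 1) (nat_lit 147) (nat_lit 1) (nat_lit 304) (nat_lit 391) (nat_lit 325)) (XT.lf (nat_lit 76) (nat_lit 1258821715) (nat_lit 0) (nat_lit 5399382776) (nat_lit 380) (nat_lit 1189147907) (nat_lit 139) (nat_lit 1) (nat_lit 138) (nat_lit 1) (nat_lit 143) (nat_lit 1) (nat_lit 305) (nat_lit 391) (nat_lit 324))) (XT.nd (nat_lit 78) (nat_lit 608) (nat_lit 0) (XT.lf (nat_lit 76) (nat_lit 5562707009) (nat_lit 0) (nat_lit 526473977) (nat_lit 380) (nat_lit 1672093707) (nat_lit 134) (nat_lit 1) (nat_lit 133) (nat_lit 1) (nat_lit 138) (nat_lit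 1) (nat_lit 306) (nat_lit 391) (nat_lit 323)) (XT.nd (nat_lit 78) (nat_lit 304) (nat_lit 0) (XT.lf (nat_lit 76) (nat_lit 2095975251) (nat_lit 0) (nat_lit 3440586288) (nat_lit 380) (nat_lit 2139684478) (nat_lit 130) (nat_lit 1) (nat_lit 129) (nat_lit 1) (nat_lit 134) (nat_lit 1) (nat_lit 307) (nat_lit 391) (nat_lit 322)) (XT.lf (nat_lit 380) (nat_lit 1265557220) (nat_lit 0) (nat_lit 5015195339) (nat_lit 304) (nat_lit 1311797912) (nat_lit 130) (nat_lit 1) (nat_lit 125) (nat_lit 1) (nat_lit 129) (nat_lit 1) (nat_lit 308) (nat_lit 391) (nat_lit 321))))))))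
noncomputable def ec127 : XT := (XT.nd (nat_lit 1404) (nat_lit 1292) (nat_lit 0) (XT.nd (nat_lit 702) (nat_lit 1976) (nat_lit 0) (XT.nd (nat_lit 312) (nat_lit 1368) (nat_lit 0) (XT.nd (nat_lit 156) (nat_lit 608) (nat_lit 0) (XT.nd (nat_lit 78) (nat_lit 304) (nat_lit 0) (XT.lf (nat_lit 76) (nat_lit 2849214366) (nat_lit 0) (nat_lit 1658711385) (nat_lit 304) (nat_lit 3001918905) (nat_lit 122) (nat_lit 1) (nat_lit 121) (nat_lit 1) (nat_lit 125) (nat_lit 1) (nat_lit 309) (nat_lit 391) (nat_lit 320)) (XT.lf (nat_lit 380) (nat_lit 2895687301) (nat_lit 0) (nat_lit 4027338544) (nat_lit 304) (nat_lit 505342581) (nat_lit 122) (nat_lit 1) (nat_lit 117) (nat_lit 1) (nat_lit 121) (nat_lit 1) (nat_lit 310) (nat_lit 391) (nat_lit 319))) (XT.nd (nat_lit 78) (nat_lit 304) (nat_lit 0) (XT.lf (nat_lit 76) (nat_lit 3525347283) (nat_lit 0) (nat_lit 39818249) (nat_lit 304) (nat_lit 3782787270) (nat_lit 114) (nat_lit 1)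 (nat_lit 113) (nat_lit 1) (nat_lit 117) (nat_lit 1) (nat_lit 311) (nat_lit 391) (nat_lit 318)) (XT.lf (nat_lit 76) (nat_lit 221050621) (nat_lit 0) (nat_lit 2899731228) (nat_lit 380) (nat_lit 4147796892) (nat_lit 110) (nat_lit 1) (nat_lit 109) (nat_lit 1) (nat_lit 114) (nat_lit 1) (nat_lit 312) (nat_lit 391) (nat_lit 317)))) (XT.nd (nat_lit 156) (nat_lit 760) (nat_lit 0) (XT.nd (nat_lit 78) (nat_lit 380) (nat_lit 0) (XT.lf (nat_lit 304) (nat_lit 1447956007) (nat_lit 0) (nat_lit 2692101243) (nat_lit 228) (nat_lit 3050141359) (nat_lit 110) (nat_lit 1) (nat_lit 106) (nat_lit 1) (nat_lit 109) (nat_lit 1) (nat_lit 313) (nat_lit 391) (nat_lit 316)) (XT.lf (nat_lit 76) (nat_lit 870826661) (nat_lit 0) (nat_lit 1416948550) (nat_lit 380) (nat_lit 4825200171) (nat_lit 102) (nat_lit 1) (nat_lit 101) (nat_lit 1) (nat_lit 106) (nat_lit 1) (nat_lit 314) (nat_lit 391) (nat_lit 315))) (XT.nd (nat_lit 78) (nat_lit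 532) (nat_lit 0) (XT.lf (nat_lit 304) (nat_lit 2796200141) (nat_lit 0) (nat_lit 1892891850) (nat_lit 228) (nat_lit 2347518084) (nat_lit 102) (nat_lit 1) (nat_lit 98) (nat_lit 1) (nat_lit 101) (nat_lit 1) (nat_lit 315) (nat_lit 391) (nat_lit 314)) (XT.nd (nat_lit 78) (nat_lit 228) (nat_lit 0) (XT.lf (nat_lit 76) (nat_lit 1456264413) (nat_lit 0) (nat_lit 69488795) (nat_lit 304) (nat_lit 5435701812) (nat_lit 95) (nat_lit 1) (nat_lit 94) (nat_lit 1) (nat_lit 98) (nat_lit 1) (nat_lit 316) (nat_lit 391) (nat_lit 313)) (XT.lf (nat_lit 304) (nat_lit 4015506548) (nat_lit 0) (nat_lit 1162102541) (nat_lit 228) (nat_lit 1709419038) (nat_lit 95) (nat_lit 1) (nat_lit 91) (nat_lit 1) (nat_lit 94) (nat_lit 1) (nat_lit 317) (nat_lit 391) (nat_lit 312)))))) (XT.nd (nat_lit 312) (nat_lit 1140) (nat_lit 0) (XT.nd (nat_lit 156) (nat_lit 304) (nat_lit 0) (XT.nd (nat_lit 78) (nat_lit 304) (nat_lit 0) (XT.lf (nat_lit 304)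 (nat_lit 1168653493) (nat_lit 0) (nat_lit 821513009) (nat_lit 228) (nat_lit 4823540274) (nat_lit 92) (nat_lit 1) (nat_lit 88) (nat_lit 1) (nat_lit 91) (nat_lit 1) (nat_lit 318) (nat_lit 391) (nat_lit 311)) (XT.lf (nat_lit 304) (nat_lit 5116143893) (nat_lit 0) (nat_lit 494464039) (nat_lit 228) (nat_lit 1130690016) (nat_lit 88) (nat_lit 1) (nat_lit 84) (nat_lit 1) (nat_lit 87) (nat_lit 1) (nat_lit 319) (nat_lit 391) (nat_lit 310))) (XT.nd (nat_lit 78) (nat_lit 76) (nat_lit 0) (XT.lf (nat_lit 304) (nat_lit 2291409993) (nat_lit 0) (nat_lit 178049225) (nat_lit 228) (nat_lit 4200279153) (nat_lit 85) (nat_lit 1) (nat_lit 81) (nat_lit 1) (nat_lit 84) (nat_lit 1) (nat_lit 320) (nat_lit 391) (nat_lit 309)) (XT.lf (nat_lit 76) (nat_lit 5993445787) (nat_lit 0) (nat_lit 492426685) (nat_lit 304) (nat_lit 113386168) (nat_lit 81) (nat_lit 1) (nat_lit 80) (nat_lit 1) (nat_lit 84) (nat_lit 1) (nat_lit 321) (nat_lit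 391) (nat_lit 308)))) (XT.nd (nat_lit 156) (nat_lit 684) (nat_lit 0) (XT.nd (nat_lit 78) (nat_lit 228) (nat_lit 0) (XT.lf (nat_lit 76) (nat_lit 2900839839) (nat_lit 0) (nat_lit 3224987591) (nat_lit 304) (nat_lit 403535729) (nat_lit 78) (nat_lit 1) (nat_lit 77) (nat_lit 1) (nat_lit 81) (nat_lit 1) (nat_lit 322) (nat_lit 391) (nat_lit 307)) (XT.lf (nat_lit 304) (nat_lit 540524731) (nat_lit 0) (nat_lit 5795475460) (nat_lit 228) (nat_lit 124659761) (nat_lit 78) (nat_lit 1) (nat_lit 74) (nat_lit 1) (nat_lit 77) (nat_lit 1) (nat_lit 323) (nat_lit 391) (nat_lit 306))) (XT.nd (nat_lit 78) (nat_lit 456) (nat_lit 0) (XT.lf (nat_lit 76) (nat_lit 3286622111) (nat_lit 0) (nat_lit 2174539832) (nat_lit 228) (nat_lit 931321258) (nat_lit 72) (nat_lit 1) (nat_lit 71) (nat_lit 1) (nat_lit 74) (nat_lit 1) (nat_lit 324) (nat_lit 391) (nat_lit 305)) (XT.nd (nat_lit 78) (nat_lit 228) (nat_lit 0) (XT.lf (nat_lit 76) (nat_lit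 308557666) (nat_lit 0) (nat_lit 4844203505) (nat_lit 304) (nat_lit 1172651639) (nat_lit 69) (nat_lit 1) (nat_lit 68) (nat_lit 1) (nat_lit 72) (nat_lit 1) (nat_lit 325) (nat_lit 391) (nat_lit 304)) (XT.lf (nat_lit 76) (nat_lit 3629505525) (nat_lit 0) (nat_lit 1217862542) (nat_lit 228) (nat_lit 1411625787) (nat_lit 66) (nat_lit 1) (nat_lit 65) (nat_lit 1) (nat_lit 68) (nat_lit 1) (nat_lit 326) (nat_lit 391) (nat_lit 303))))))) (XT.nd (nat_lit 51870) (nat_lit 0) (nat_lit 2204) (XT.nd (nat_lit 312) (nat_lit 456) (nat_lit 0) (XT.nd (nat_lit 156) (nat_lit 380) (nat_lit 0) (XT.nd (nat_lit 78) (nat_lit 228) (nat_lit 0) (XT.lf (nat_lit 76) (nat_lit 697383977) (nat_lit 0) (nat_lit 3861215740) (nat_lit 304) (nat_lit 1634887863) (nat_lit 63) (nat_lit 1) (nat_lit 62) (nat_lit 1) (nat_lit 66) (nat_lit 1) (nat_lit 327) (nat_lit 391) (nat_lit 302)) (XT.lf (nat_lit 76) (nat_lit 3933046314) (nat_lit 0) (nat_lit 347597887)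 (nat_lit 228) (nat_lit 1848130132) (nat_lit 60) (nat_lit 1) (nat_lit 59) (nat_lit 1) (nat_lit 62) (nat_lit 1) (nat_lit 328) (nat_lit 391) (nat_lit 301))) (XT.nd (nat_lit 78) (nat_lit 152) (nat_lit 0) (XT.lf (nat_lit 76) (nat_lit 1046928237) (nat_lit 0) (nat_lit 2963197325) (nat_lit 304) (nat_lit 2054656716) (nat_lit 57) (nat_lit 1) (nat_lit 56) (nat_lit 1) (nat_lit 60) (nat_lit 1) (nat_lit 329) (nat_lit 391) (nat_lit 300)) (XT.lf (nat_lit 228) (nat_lit 448937406) (nat_lit 0) (nat_lit 3754501683) (nat_lit 152) (nat_lit 1798212971) (nat_lit 57) (nat_lit 1) (nat_lit 54) (nat_lit 1) (nat_lit 56) (nat_lit 1) (nat_lit 330) (nat_lit 391) (nat_lit 299)))) (XT.nd (nat_lit 51324) (nat_lit 0) (nat_lit 4636) (XT.nd (nat_lit 78) (nat_lit 152) (nat_lit 0) (XT.lf (nat_lit 76) (nat_lit 1360395793) (nat_lit 0) (nat_lit 2143529534) (nat_lit 304) (nat_lit 2435259740) (nat_lit 51) (nat_lit 1) (nat_lit 50) (nat_lit 1)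 (nat_lit 54) (nat_lit 1) (nat_lit 331) (nat_lit 391) (nat_lit 298)) (XT.lf (nat_lit 228) (nat_lit 1175775846) (nat_lit 0) (nat_lit 3266822039) (nat_lit 152) (nat_lit 1434943140) (nat_lit 51) (nat_lit 1) (nat_lit 48) (nat_lit 1) (nat_lit 50) (nat_lit 1) (nat_lit 332) (nat_lit 391) (nat_lit 297))) (XT.nd (nat_lit 78) (nat_lit 608) (nat_lit 0) (XT.lf (nat_lit 380) (nat_lit 2982557920) (nat_lit 0) (nat_lit 4148158701) (nat_lit 304) (nat_lit 520502858) (nat_lit 122) (nat_lit 1) (nat_lit 117) (nat_lit 1) (nat_lit 121) (nat_lit 1) (nat_lit 308) (nat_lit 392) (nat_lit 320)) (XT.nd (nat_lit 78) (nat_lit 304) (nat_lit 0) (XT.lf (nat_lit 76) (nat_lit 3631107701) (nat_lit 0) (nat_lit 41012797) (nat_lit 304) (nat_lit 3896270888) (nat_lit 114) (nat_lit 1) (nat_lit 113) (nat_lit 1) (nat_lit 117) (nat_lit 1) (nat_lit 309) (nat_lit 392) (nat_lit 319)) (XT.lf (nat_lit 76) (nat_lit 227682139) (nat_lit 0) (nat_lit 2986723165)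 (nat_lit 380) (nat_lit 4272230799) (nat_lit 110) (nat_lit 1) (nat_lit 109) (nat_lit 1) (nat_lit 114) (nat_lit 1) (nat_lit 310) (nat_lit 392) (nat_lit 318)))))) (XT.nd (nat_lit 390) (nat_lit 1064) (nat_lit 0) (XT.nd (nat_lit 156) (nat_lit 760) (nat_lit 0) (XT.nd (nat_lit 78) (nat_lit 380) (nat_lit 0) (XT.lf (nat_lit 304) (nat_lit 1491394687) (nat_lit 0) (nat_lit 2772864280) (nat_lit 228) (nat_lit 3141645599) (nat_lit 110) (nat_lit 1) (nat_lit 106) (nat_lit 1) (nat_lit 109) (nat_lit 1) (nat_lit 311) (nat_lit 392) (nat_lit 317)) (XT.lf (nat_lit 76) (nat_lit 896951461) (nat_lit 0) (nat_lit 1459457006) (nat_lit 380) (nat_lit 4969956176) (nat_lit 102) (nat_lit 1) (nat_lit 101) (nat_lit 1) (nat_lit 106) (nat_lit 1) (nat_lit 312) (nat_lit 392) (nat_lit 316))) (XT.nd (nat_lit 78) (nat_lit 532) (nat_lit 0) (XT.lf (nat_lit 304) (nat_lit 2880086146) (nat_lit 0) (nat_lit 1949678605) (nat_lit 228) (nat_lit 2417943627)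 (nat_lit 102) (nat_lit 1) (nat_lit 98) (nat_lit 1) (nat_lit 101) (nat_lit 1) (nat_lit 313) (nat_lit 392) (nat_lit 315)) (XT.nd (nat_lit 78) (nat_lit 228) (nat_lit 0) (XT.lf (nat_lit 76) (nat_lit 1499952346) (nat_lit 0) (nat_lit 71573459) (nat_lit 304) (nat_lit 5598772866) (nat_lit 95) (nat_lit 1) (nat_lit 94) (nat_lit 1) (nat_lit 98) (nat_lit 1) (nat_lit 314) (nat_lit 392) (nat_lit 314)) (XT.lf (nat_lit 304) (nat_lit 4135971744) (nat_lit 0) (nat_lit 1196965618) (nat_lit 228) (nat_lit 1760701609) (nat_lit 95) (nat_lit 1) (nat_lit 91) (nat_lit 1) (nat_lit 94) (nat_lit 1) (nat_lit 315) (nat_lit 392) (nat_lit 313))))) (XT.nd (nat_lit 156) (nat_lit 532) (nat_lit 0) (XT.nd (nat_lit 78) (nat_lit 304) (nat_lit 0) (XT.lf (nat_lit 304) (nat_lit 1203713098) (nat_lit 0) (nat_lit 846158400) (nat_lit 228) (nat_lit 4968246482) (nat_lit 92) (nat_lit 1) (nat_lit 88) (nat_lit 1) (nat_lit 91) (nat_lit 1) (nat_lit 316)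 (nat_lit 392) (nat_lit 312)) (XT.lf (nat_lit 304) (nat_lit 5269628210) (nat_lit 0) (nat_lit 509297960) (nat_lit 228) (nat_lit 1164610716) (nat_lit 88) (nat_lit 1) (nat_lit 84) (nat_lit 1) (nat_lit 87) (nat_lit 1) (nat_lit 317) (nat_lit 392) (nat_lit 311))) (XT.nd (nat_lit 78) (nat_lit 304) (nat_lit 0) (XT.lf (nat_lit 304) (nat_lit 2360152293) (nat_lit 0) (nat_lit 183390702) (nat_lit 228) (nat_lit 4326287527) (nat_lit 85) (nat_lit 1) (nat_lit 81) (nat_lit 1) (nat_lit 84) (nat_lit 1) (nat_lit 318) (nat_lit 392) (nat_lit 310)) (XT.nd (nat_lit 78) (nat_lit 228) (nat_lit 0) (XT.lf (nat_lit 76) (nat_lit 6173249161) (nat_lit 0) (nat_lit 507199485) (nat_lit 304) (nat_lit 116787753) (nat_lit 81) (nat_lit 1) (nat_lit 80) (nat_lit 1) (nat_lit 84) (nat_lit 1) (nat_lit 319) (nat_lit 392) (nat_lit 309)) (XT.lf (nat_lit 76) (nat_lit 2987865035) (nat_lit 0) (nat_lit 3321737218) (nat_lit 304) (nat_lit 415641801)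 (nat_lit 78) (nat_lit 1) (nat_lit 77) (nat_lit 1) (nat_lit 81) (nat_lit 1) (nat_lit 320) (nat_lit 392) (nat_lit 308))))))))

set_option maxRecDepth 10000000 in
noncomputable def Tp : PT := (PT.nd (nat_lit 9360936) (PT.nd (nat_lit 8406762) (PT.nd (nat_lit 7503990) (PT.nd (nat_lit 6707610) (PT.nd (nat_lit 6017934) (PT.nd (nat_lit 5593302) pc0 pc1) (PT.nd (nat_lit 371436) pc2 pc3)) (PT.nd (nat_lit 425022) (PT.nd (nat_lit 212628) pc4 pc5) (PT.nd (nat_lit 211926) pc6 pc7))) (PT.nd (nat_lit 530790) (PT.nd (nat_lit 265824) (PT.nd (nat_lit 159120) pc8 pc9) (PT.nd (nat_lit 158496) pc10 pc11)) (PT.nd (nat_lit 212004) (PT.nd (nat_lit 106158) pc12 pc13) (PT.nd (nat_lit 105768) pc14 pc15)))) (PT.nd (nat_lit 582270) (PT.nd (nat_lit 317928) (PT.nd (nat_lit 159276) (PT.nd (nat_lit 105378) pc16 pc17) (PT.nd (nat_lit 104910) pc18 pc19)) (PT.nd (nat_lit 107094) (PT.nd (nat_lit 53586) pc20 pc21) (PT.nd (nat_lit 53430)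 pc22 pc23))) (PT.nd (nat_lit 161616) (PT.nd (nat_lit 106002) (PT.nd (nat_lit 53040) pc24 pc25) (PT.nd (nat_lit 2652) pc26 pc27)) (PT.nd (nat_lit 105378) (PT.nd (nat_lit 52728) pc28 pc29) (PT.nd (nat_lit 52494) pc30 pc31))))) (PT.nd (nat_lit 531726) (PT.nd (nat_lit 267774) (PT.nd (nat_lit 158964) (PT.nd (nat_lit 54834) (PT.nd (nat_lit 52182) pc32 pc33) (PT.nd (nat_lit 52104) pc34 pc35)) (PT.nd (nat_lit 54444) (PT.nd (nat_lit 2652) pc36 pc37) (PT.nd (nat_lit 51636) pc38 pc39))) (PT.nd (nat_lit 156702) (PT.nd (nat_lit 102804) (PT.nd (nat_lit 51480) pc40 pc41) (PT.nd (nat_lit 2652) pc42 pc43)) (PT.nd (nat_lit 53664) (PT.nd (nat_lit 2652) pc44 pc45) (PT.nd (nat_lit 2652) pc46 pc47)))) (PT.nd (nat_lit 368628) (PT.nd (nat_lit 156936) (PT.nd (nat_lit 54288) (PT.nd (nat_lit 50700) pc48 pc49) (PT.nd (nat_lit 50466) pc50 pc51)) (PT.nd (nat_lit 58032) (PT.nd (nat_lit 52494) pc52 pc53) (PT.nd (nat_lit 53196)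 pc54 pc55))) (PT.nd (nat_lit 271752) (PT.nd (nat_lit 111774) (PT.nd (nat_lit 53430) pc56 pc57) (PT.nd (nat_lit 100308) pc58 pc59)) (PT.nd (nat_lit 212784) (PT.nd (nat_lit 106158) pc60 pc61) (PT.nd (nat_lit 151242) pc62 pc63))))))

set_option maxRecDepth 10000000 in
noncomputable def Tx : XT := (XT.nd (nat_lit 15756312) (nat_lit 0) (nat_lit 760) XT.nil (XT.nd (nat_lit 5628714) (nat_lit 0) (nat_lit 0) (XT.nd (nat_lit 2651532) (nat_lit 0) (nat_lit 6460) (XT.nd (nat_lit 1804998) (nat_lit 0) (nat_lit 2888) (XT.nd (nat_lit 1272102) (nat_lit 0) (nat_lit 1368) (XT.nd (nat_lit 849498) (nat_lit 0) (nat_lit 684) (XT.nd (nat_lit 583596) (nat_lit 0) (nat_lit 152) (XT.nd (nat_lit 371904) (nat_lit 0) (nat_lit 76) (XT.nd (nat_lit 265122) (nat_lit 0) (nat_lit 0) xc0 xc1) (XT.nd (nat_lit 106158) (nat_lit 0) (nat_lit 0) xc2 xc3)) (XT.nd (nat_lit 158652) (nat_lit 0) (nat_lit 304) (XT.nd (nat_lit 104910) (nat_lit 0)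 (nat_lit 228) xc4 xc5) (XT.nd (nat_lit 53664) (nat_lit 0) (nat_lit 228) xc6 xc7))) (XT.nd (nat_lit 212550) (nat_lit 0) (nat_lit 304) (XT.nd (nat_lit 106548) (nat_lit 0) (nat_lit 76) (XT.nd (nat_lit 53352) (nat_lit 0) (nat_lit 76) xc8 xc9) (XT.nd (nat_lit 53040) (nat_lit 0) (nat_lit 152) xc10 xc11)) (XT.nd (nat_lit 105300) (nat_lit 0) (nat_lit 152) (XT.nd (nat_lit 52728) (nat_lit 0) (nat_lit 152) xc12 xc13) (XT.nd (nat_lit 52416) (nat_lit 0) (nat_lit 152) xc14 xc15)))) (XT.nd (nat_lit 268242) (nat_lit 0) (nat_lit 684) (XT.nd (nat_lit 158964) (nat_lit 0) (nat_lit 304) (XT.nd (nat_lit 55146) (nat_lit 0) (nat_lit 152) (XT.nd (nat_lit 52104) (nat_lit 0) (nat_lit 2888) xc16 xc17) (XT.nd (nat_lit 51948) (nat_lit 0) (nat_lit 152) xc18 xc19)) (XT.nd (nat_lit 54678) (nat_lit 0) (nat_lit 228) (XT.nd (nat_lit 3042) (nat_lit 760) (nat_lit 0) xc20 xc21) (XT.nd (nat_lit 51480) (nat_lit 0) (nat_lit 760) xc22 xc23)))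 (XT.nd (nat_lit 156780) (nat_lit 0) (nat_lit 608) (XT.nd (nat_lit 102570) (nat_lit 0) (nat_lit 380) (XT.nd (nat_lit 51324) (nat_lit 0) (nat_lit 228) xc24 xc25) (XT.nd (nat_lit 3042) (nat_lit 2508) (nat_lit 0) xc26 xc27)) (XT.nd (nat_lit 53976) (nat_lit 0) (nat_lit 0) (XT.nd (nat_lit 50934) (nat_lit 0) (nat_lit 7144) xc28 xc29) (XT.nd (nat_lit 50778) (nat_lit 0) (nat_lit 3800) xc30 xc31))))) (XT.nd (nat_lit 425490) (nat_lit 0) (nat_lit 1520) (XT.nd (nat_lit 260832) (nat_lit 0) (nat_lit 1064) (XT.nd (nat_lit 107250) (nat_lit 0) (nat_lit 456) (XT.nd (nat_lit 53664) (nat_lit 0) (nat_lit 152) (XT.nd (nat_lit 50622) (nat_lit 0) (nat_lit 1824) xc32 xc33) (XT.nd (nat_lit 50466) (nat_lit 0) (nat_lit 456) xc34 xc35)) (XT.nd (nat_lit 100464) (nat_lit 0) (nat_lit 228) (XT.nd (nat_lit 50310) (nat_lit 0) (nat_lit 0) xc36 xc37) (XT.nd (nat_lit 3042) (nat_lit 12768) (nat_lit 0) xc38 xc39))) (XT.nd (nat_lit 105846)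 (nat_lit 0) (nat_lit 456) (XT.nd (nat_lit 52962) (nat_lit 0) (nat_lit 304) (XT.nd (nat_lit 3042) (nat_lit 12920) (nat_lit 0) xc40 xc41) (XT.nd (nat_lit 3042) (nat_lit 13680) (nat_lit 0) xc42 xc43)) (XT.nd (nat_lit 6084) (nat_lit 304) (nat_lit 0) (XT.nd (nat_lit 3042) (nat_lit 15428) (nat_lit 0) xc44 xc45) (XT.nd (nat_lit 49608) (nat_lit 0) (nat_lit 1748) xc46 xc47)))) (XT.nd (nat_lit 209898) (nat_lit 0) (nat_lit 988) (XT.nd (nat_lit 104910) (nat_lit 0) (nat_lit 456) (XT.nd (nat_lit 52494) (nat_lit 0) (nat_lit 304) (XT.nd (nat_lit 49452) (nat_lit 0) (nat_lit 4332) xc48 xc49) (XT.nd (nat_lit 49296) (nat_lit 0) (nat_lit 7600) xc50 xc51)) (XT.nd (nat_lit 52416) (nat_lit 0) (nat_lit 228) (XT.nd (nat_lit 49374) (nat_lit 0) (nat_lit 11932) xc52 xc53) (XT.nd (nat_lit 49452) (nat_lit 0) (nat_lit 16188) xc54 xc55))) (XT.nd (nat_lit 105378) (nat_lit 0) (nat_lit 532) (XT.nd (nat_lit 52572) (nat_lit 0) (nat_lit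 532) (XT.nd (nat_lit 49530) (nat_lit 0) (nat_lit 20596) xc56 xc57) (XT.nd (nat_lit 3042) (nat_lit 1596) (nat_lit 0) xc58 xc59)) (XT.nd (nat_lit 52806) (nat_lit 0) (nat_lit 228) (XT.nd (nat_lit 3042) (nat_lit 2812) (nat_lit 0) xc60 xc61) (XT.nd (nat_lit 3042) (nat_lit 4256) (nat_lit 0) xc62 xc63)))))) (XT.nd (nat_lit 956358) (nat_lit 0) (nat_lit 6536) (XT.nd (nat_lit 426504) (nat_lit 0) (nat_lit 2584) (XT.nd (nat_lit 212472) (nat_lit 0) (nat_lit 1444) (XT.nd (nat_lit 106002) (nat_lit 0) (nat_lit 456) (XT.nd (nat_lit 52962) (nat_lit 0) (nat_lit 228) (XT.nd (nat_lit 3042) (nat_lit 5092) (nat_lit 0) xc64 xc65) (XT.nd (nat_lit 3042) (nat_lit 6004) (nat_lit 0) xc66 xc67)) (XT.nd (nat_lit 53118) (nat_lit 0) (nat_lit 608) (XT.nd (nat_lit 3042) (nat_lit 6536) (nat_lit 0) xc68 xc69) (XT.nd (nat_lit 3042) (nat_lit 6004) (nat_lit 0) xc70 xc71))) (XT.nd (nat_lit 106860) (nat_lit 0) (nat_lit 228) (XT.nd (nat_lit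 53352) (nat_lit 0) (nat_lit 0) (XT.nd (nat_lit 3042) (nat_lit 4788) (nat_lit 0) xc72 xc73) (XT.nd (nat_lit 3042) (nat_lit 4028) (nat_lit 0) xc74 xc75)) (XT.nd (nat_lit 53508) (nat_lit 0) (nat_lit 380) (XT.nd (nat_lit 3042) (nat_lit 2280) (nat_lit 0) xc76 xc77) (XT.nd (nat_lit 3042) (nat_lit 532) (nat_lit 0) xc78 xc79)))) (XT.nd (nat_lit 263718) (nat_lit 0) (nat_lit 1672) (XT.nd (nat_lit 107640) (nat_lit 0) (nat_lit 988) (XT.nd (nat_lit 53742) (nat_lit 0) (nat_lit 380) (XT.nd (nat_lit 50700) (nat_lit 0) (nat_lit 10944) xc80 xc81) (XT.nd (nat_lit 50778) (nat_lit 0) (nat_lit 5852) xc82 xc83)) (XT.nd (nat_lit 53976) (nat_lit 0) (nat_lit 76) (XT.nd (nat_lit 50934) (nat_lit 0) (nat_lit 1140) xc84 xc85) (XT.nd (nat_lit 51012) (nat_lit 304) (nat_lit 0) xc86 xc87))) (XT.nd (nat_lit 108576) (nat_lit 0) (nat_lit 1216) (XT.nd (nat_lit 54210) (nat_lit 0) (nat_lit 456) (XT.nd (nat_lit 3042) (nat_lit 7068) (nat_lit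 0) xc88 xc89) (XT.nd (nat_lit 3042) (nat_lit 1064) (nat_lit 0) xc90 xc91)) (XT.nd (nat_lit 54444) (nat_lit 0) (nat_lit 304) (XT.nd (nat_lit 51402) (nat_lit 0) (nat_lit 3344) xc92 xc93) (XT.nd (nat_lit 51480) (nat_lit 0) (nat_lit 380) xc94 xc95))))) (XT.nd (nat_lit 639132) (nat_lit 0) (nat_lit 6916) (XT.nd (nat_lit 268632) (nat_lit 0) (nat_lit 2736) (XT.nd (nat_lit 109590) (nat_lit 0) (nat_lit 836) (XT.nd (nat_lit 54678) (nat_lit 0) (nat_lit 456) (XT.nd (nat_lit 3042) (nat_lit 3724) (nat_lit 0) xc96 xc97) (XT.nd (nat_lit 51792) (nat_lit 0) (nat_lit 2280) xc98 xc99)) (XT.nd (nat_lit 103818) (nat_lit 0) (nat_lit 1368) (XT.nd (nat_lit 51870) (nat_lit 0) (nat_lit 532) xc100 xc101) (XT.nd (nat_lit 52104) (nat_lit 0) (nat_lit 3648) xc102 xc103))) (XT.nd (nat_lit 209352) (nat_lit 0) (nat_lit 1976) (XT.nd (nat_lit 104442) (nat_lit 0) (nat_lit 912) (XT.nd (nat_lit 52182) (nat_lit 0) (nat_lit 456) xc104 xc105)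 (XT.nd (nat_lit 52338) (nat_lit 0) (nat_lit 608) xc106 xc107)) (XT.nd (nat_lit 55614) (nat_lit 0) (nat_lit 532) (XT.nd (nat_lit 3042) (nat_lit 4028) (nat_lit 0) xc108 xc109) (XT.nd (nat_lit 52650) (nat_lit 0) (nat_lit 1140) xc110 xc111)))) (XT.nd (nat_lit 426192) (nat_lit 0) (nat_lit 5852) (XT.nd (nat_lit 212238) (nat_lit 0) (nat_lit 2508) (XT.nd (nat_lit 105846) (nat_lit 0) (nat_lit 1216) (XT.nd (nat_lit 52884) (nat_lit 0) (nat_lit 684) xc112 xc113) (XT.nd (nat_lit 53118) (nat_lit 0) (nat_lit 608) xc114 xc115)) (XT.nd (nat_lit 106704) (nat_lit 0) (nat_lit 1900) (XT.nd (nat_lit 53274) (nat_lit 0) (nat_lit 1216) xc116 xc117) (XT.nd (nat_lit 53508) (nat_lit 0) (nat_lit 760) xc118 xc119))) (XT.nd (nat_lit 318162) (nat_lit 0) (nat_lit 6460) (XT.nd (nat_lit 158574) (nat_lit 0) (nat_lit 3040) (XT.nd (nat_lit 104598) (nat_lit 0) (nat_lit 2280) xc120 xc121) (XT.nd (nat_lit 105222) (nat_lit 0) (nat_lit 1596)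 xc122 xc123)) (XT.nd (nat_lit 212394) (nat_lit 0) (nat_lit 3724) (XT.nd (nat_lit 105924) (nat_lit 0) (nat_lit 1748) xc124 xc125) (XT.nd (nat_lit 159042) (nat_lit 0) (nat_lit 1064) xc126 xc127))))))) XT.nil))

set_option maxRecDepth 10000000 in
noncomputable def Te : XT := (XT.nd (nat_lit 16868514) (nat_lit 0) (nat_lit 912) XT.nil (XT.nd (nat_lit 3978780) (nat_lit 0) (nat_lit 0) (XT.nd (nat_lit 2545530) (nat_lit 3572) (nat_lit 0) (XT.nd (nat_lit 1750398) (nat_lit 6992) (nat_lit 0) (XT.nd (nat_lit 1218438) (nat_lit 7524) (nat_lit 0) (XT.nd (nat_lit 796536) (nat_lit 7524) (nat_lit 0) (XT.nd (nat_lit 531102) (nat_lit 6460) (nat_lit 0) (XT.nd (nat_lit 371124) (nat_lit 3648) (nat_lit 0) (XT.nd (nat_lit 212628) (nat_lit 1140) (nat_lit 0) ec0 ec1) (XT.nd (nat_lit 105846) (nat_lit 1748) (nat_lit 0) ec2 ec3)) (XT.nd (nat_lit 158574) (nat_lit 2280) (nat_lit 0) (XT.nd (nat_lit 104910) (nat_lit 1520) (nat_lit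 0) ec4 ec5) (XT.nd (nat_lit 53508) (nat_lit 1444) (nat_lit 0) ec6 ec7))) (XT.nd (nat_lit 212160) (nat_lit 3496) (nat_lit 0) (XT.nd (nat_lit 106392) (nat_lit 1900) (nat_lit 0) (XT.nd (nat_lit 53274) (nat_lit 1444) (nat_lit 0) ec8 ec9) (XT.nd (nat_lit 52962) (nat_lit 1292) (nat_lit 0) ec10 ec11)) (XT.nd (nat_lit 105144) (nat_lit 1140) (nat_lit 0) (XT.nd (nat_lit 52650) (nat_lit 1216) (nat_lit 0) ec12 ec13) (XT.nd (nat_lit 52338) (nat_lit 532) (nat_lit 0) ec14 ec15)))) (XT.nd (nat_lit 267696) (nat_lit 3572) (nat_lit 0) (XT.nd (nat_lit 158730) (nat_lit 912) (nat_lit 0) (XT.nd (nat_lit 54990) (nat_lit 2052) (nat_lit 0) (XT.nd (nat_lit 2886) (nat_lit 3344) (nat_lit 0) ec16 ec17) (XT.nd (nat_lit 51948) (nat_lit 988) (nat_lit 0) ec18 ec19)) (XT.nd (nat_lit 54522) (nat_lit 456) (nat_lit 0) (XT.nd (nat_lit 2886) (nat_lit 6992) (nat_lit 0) ec20 ec21) (XT.nd (nat_lit 51558) (nat_lit 0) (nat_lit 6308) ec22 ec23)))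 (XT.nd (nat_lit 156624) (nat_lit 1140) (nat_lit 0) (XT.nd (nat_lit 54288) (nat_lit 1140) (nat_lit 0) (XT.nd (nat_lit 51402) (nat_lit 456) (nat_lit 0) ec24 ec25) (XT.nd (nat_lit 51246) (nat_lit 760) (nat_lit 0) ec26 ec27)) (XT.nd (nat_lit 53898) (nat_lit 760) (nat_lit 0) (XT.nd (nat_lit 2886) (nat_lit 5168) (nat_lit 0) ec28 ec29) (XT.nd (nat_lit 2886) (nat_lit 1140) (nat_lit 0) ec30 ec31))))) (XT.nd (nat_lit 425022) (nat_lit 2964) (nat_lit 0) (XT.nd (nat_lit 213564) (nat_lit 2052) (nat_lit 0) (XT.nd (nat_lit 107016) (nat_lit 988) (nat_lit 0) (XT.nd (nat_lit 53586) (nat_lit 684) (nat_lit 0) (XT.nd (nat_lit 50700) (nat_lit 0) (nat_lit 9500) ec32 ec33) (XT.nd (nat_lit 50544) (nat_lit 0) (nat_lit 7524) ec34 ec35)) (XT.nd (nat_lit 53352) (nat_lit 608) (nat_lit 0) (XT.nd (nat_lit 50466) (nat_lit 0) (nat_lit 5396) ec36 ec37) (XT.nd (nat_lit 50310) (nat_lit 0) (nat_lit 5092) ec38 ec39))) (XT.nd (nat_lit 106002)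 (nat_lit 1140) (nat_lit 0) (XT.nd (nat_lit 53040) (nat_lit 304) (nat_lit 0) (XT.nd (nat_lit 50154) (nat_lit 0) (nat_lit 5320) ec40 ec41) (XT.nd (nat_lit 50076) (nat_lit 0) (nat_lit 5624) ec42 ec43)) (XT.nd (nat_lit 52806) (nat_lit 608) (nat_lit 0) (XT.nd (nat_lit 49920) (nat_lit 0) (nat_lit 6992) ec44 ec45) (XT.nd (nat_lit 49764) (nat_lit 0) (nat_lit 9044) ec46 ec47)))) (XT.nd (nat_lit 209118) (nat_lit 1140) (nat_lit 0) (XT.nd (nat_lit 104988) (nat_lit 1064) (nat_lit 0) (XT.nd (nat_lit 52572) (nat_lit 456) (nat_lit 0) (XT.nd (nat_lit 49686) (nat_lit 0) (nat_lit 11856) ec48 ec49) (XT.nd (nat_lit 49530) (nat_lit 0) (nat_lit 15808) ec50 ec51)) (XT.nd (nat_lit 52104) (nat_lit 228) (nat_lit 0) (XT.nd (nat_lit 2886) (nat_lit 2204) (nat_lit 0) ec52 ec53) (XT.nd (nat_lit 2886) (nat_lit 5548) (nat_lit 0) ec54 ec55))) (XT.nd (nat_lit 57642) (nat_lit 684) (nat_lit 0) (XT.nd (nat_lit 51870) (nat_lit 0) (nat_lit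 2888) (XT.nd (nat_lit 2886) (nat_lit 10336) (nat_lit 0) ec56 ec57) (XT.nd (nat_lit 2886) (nat_lit 14440) (nat_lit 0) ec58 ec59)) (XT.nd (nat_lit 51714) (nat_lit 228) (nat_lit 0) (XT.nd (nat_lit 48828) (nat_lit 0) (nat_lit 8284) ec60 ec61) (XT.nd (nat_lit 48750) (nat_lit 0) (nat_lit 15656) ec62 ec63)))))) (XT.nd (nat_lit 634920) (nat_lit 608) (nat_lit 0) (XT.nd (nat_lit 318864) (nat_lit 1064) (nat_lit 0) (XT.nd (nat_lit 159900) (nat_lit 1064) (nat_lit 0) (XT.nd (nat_lit 102804) (nat_lit 152) (nat_lit 0) (XT.nd (nat_lit 51402) (nat_lit 304) (nat_lit 0) (XT.nd (nat_lit 2808) (nat_lit 3040) (nat_lit 0) ec64 ec65) (XT.nd (nat_lit 2886) (nat_lit 9196) (nat_lit 0) ec66 ec67)) (XT.nd (nat_lit 5772) (nat_lit 4028) (nat_lit 0) (XT.nd (nat_lit 2886) (nat_lit 14212) (nat_lit 0) ec68 ec69) (XT.nd (nat_lit 48438) (nat_lit 0) (nat_lit 10944) ec70 ec71))) (XT.nd (nat_lit 102258) (nat_lit 380) (nat_lit 0) (XT.nd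 (nat_lit 51168) (nat_lit 228) (nat_lit 0) (XT.nd (nat_lit 2886) (nat_lit 912) (nat_lit 0) ec72 ec73) (XT.nd (nat_lit 2886) (nat_lit 6840) (nat_lit 0) ec74 ec75)) (XT.nd (nat_lit 5772) (nat_lit 3572) (nat_lit 0) (XT.nd (nat_lit 2886) (nat_lit 12844) (nat_lit 0) ec76 ec77) (XT.nd (nat_lit 48048) (nat_lit 0) (nat_lit 11628) ec78 ec79)))) (XT.nd (nat_lit 158106) (nat_lit 532) (nat_lit 0) (XT.nd (nat_lit 101634) (nat_lit 228) (nat_lit 0) (XT.nd (nat_lit 50856) (nat_lit 152) (nat_lit 0) (XT.nd (nat_lit 2886) (nat_lit 1368) (nat_lit 0) ec80 ec81) (XT.nd (nat_lit 2886) (nat_lit 8512) (nat_lit 0) ec82 ec83)) (XT.nd (nat_lit 5772) (nat_lit 6004) (nat_lit 0) (XT.nd (nat_lit 2886) (nat_lit 14440) (nat_lit 0) ec84 ec85) (XT.nd (nat_lit 47814) (nat_lit 0) (nat_lit 16416) ec86 ec87))) (XT.nd (nat_lit 56394) (nat_lit 380) (nat_lit 0) (XT.nd (nat_lit 50622) (nat_lit 0) (nat_lit 2584) (XT.nd (nat_lit 2886) (nat_lit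 4180) (nat_lit 0) ec88 ec89) (XT.nd (nat_lit 2886) (nat_lit 11020) (nat_lit 0) ec90 ec91)) (XT.nd (nat_lit 50700) (nat_lit 0) (nat_lit 0) (XT.nd (nat_lit 47814) (nat_lit 0) (nat_lit 10716) ec92 ec93) (XT.nd (nat_lit 2886) (nat_lit 1292) (nat_lit 0) ec94 ec95))))) (XT.nd (nat_lit 319332) (nat_lit 0) (nat_lit 0) (XT.nd (nat_lit 158886) (nat_lit 152) (nat_lit 0) (XT.nd (nat_lit 56706) (nat_lit 304) (nat_lit 0) (XT.nd (nat_lit 50934) (nat_lit 0) (nat_lit 4788) (XT.nd (nat_lit 2886) (nat_lit 7828) (nat_lit 0) ec96 ec97) (XT.nd (nat_lit 2886) (nat_lit 12844) (nat_lit 0) ec98 ec99)) (XT.nd (nat_lit 51012) (nat_lit 152) (nat_lit 0) (XT.nd (nat_lit 48126) (nat_lit 0) (nat_lit 12540) ec100 ec101) (XT.nd (nat_lit 2886) (nat_lit 2584) (nat_lit 0) ec102 ec103))) (XT.nd (nat_lit 57174) (nat_lit 152) (nat_lit 0) (XT.nd (nat_lit 51402) (nat_lit 0) (nat_lit 3876) (XT.nd (nat_lit 2886) (nat_lit 8132) (nat_lit 0) ec104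 ec105) (XT.nd (nat_lit 2886) (nat_lit 11020) (nat_lit 0) ec106 ec107)) (XT.nd (nat_lit 51558) (nat_lit 152) (nat_lit 0) (XT.nd (nat_lit 48672) (nat_lit 0) (nat_lit 8436) ec108 ec109) (XT.nd (nat_lit 2886) (nat_lit 304) (nat_lit 0) ec110 ec111)))) (XT.nd (nat_lit 162786) (nat_lit 0) (nat_lit 304) (XT.nd (nat_lit 104364) (nat_lit 0) (nat_lit 152) (XT.nd (nat_lit 52026) (nat_lit 0) (nat_lit 152) (XT.nd (nat_lit 2886) (nat_lit 3344) (nat_lit 0) ec112 ec113) (XT.nd (nat_lit 2886) (nat_lit 5852) (nat_lit 0) ec114 ec115)) (XT.nd (nat_lit 52650) (nat_lit 0) (nat_lit 608) (XT.nd (nat_lit 2886) (nat_lit 8132) (nat_lit 0) ec116 ec117) (XT.nd (nat_lit 2886) (nat_lit 8816) (nat_lit 0) ec118 ec119))) (XT.nd (nat_lit 154830) (nat_lit 0) (nat_lit 836) (XT.nd (nat_lit 53040) (nat_lit 0) (nat_lit 152) (XT.nd (nat_lit 50154) (nat_lit 0) (nat_lit 304) ec120 ec121) (XT.nd (nat_lit 50622) (nat_lit 0) (nat_lit 304) ec122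 ec123)) (XT.nd (nat_lit 54678) (nat_lit 0) (nat_lit 532) (XT.nd (nat_lit 2886) (nat_lit 2660) (nat_lit 0) ec124 ec125) (XT.nd (nat_lit 52650) (nat_lit 0) (nat_lit 1064) ec126 ec127))))))) XT.nil))

set_option maxRecDepth 10000000 in
noncomputable def Tz : ZL := (ZL.cons (nat_lit 9804) (nat_lit 6) (nat_lit 227594281740801796782) (ZL.cons (nat_lit 9880) (nat_lit 6) (nat_lit 224507034892831443002) (ZL.cons (nat_lit 9956) (nat_lit 3) (nat_lit 112205400027701781833) (ZL.cons (nat_lit 10108) (nat_lit 6) (nat_lit 221327170639421978604) (ZL.cons (nat_lit 10184) (nat_lit 6) (nat_lit 218340699059386766422) (ZL.cons (nat_lit 10260) (nat_lit 3) (nat_lit 109123633589194412662) (ZL.cons (nat_lit 10336) (nat_lit 6) (nat_lit 215448775777024109946) (ZL.cons (nat_lit 10412) (nat_lit 6) (nat_lit 215264633331950497876) (ZL.cons (nat_lit 10488) (nat_lit 6) (nat_lit 212376662915192632678) (ZL.cons (nat_lit 10564) (nat_lit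 3) (nat_lit 106142976175558480853) (ZL.cons (nat_lit 10640) (nat_lit 6) (nat_lit 209580832458819033532) (ZL.cons (nat_lit 10716) (nat_lit 6) (nat_lit 209402053385932031522) (ZL.cons (nat_lit 10792) (nat_lit 6) (nat_lit 206610416524678555442) (ZL.cons (nat_lit 10868) (nat_lit 3) (nat_lit 103261174007933612202) (ZL.cons (nat_lit 10944) (nat_lit 6) (nat_lit 203908602473011748880) (ZL.cons (nat_lit 11020) (nat_lit 6) (nat_lit 203735030557587475082) (ZL.cons (nat_lit 11096) (nat_lit 6) (nat_lit 201037665490983607078) (ZL.cons (nat_lit 11172) (nat_lit 3) (nat_lit 100476081042185332159) (ZL.cons (nat_lit 11248) (nat_lit 6) (nat_lit 198427895895123636428) (ZL.cons (nat_lit 11324) (nat_lit 6) (nat_lit 198259379472381623032) (ZL.cons (nat_lit 11400) (nat_lit 6) (nat_lit 195654329804774923902) (ZL.cons (nat_lit 11476) (nat_lit 3) (nat_lit 97785658394322926633) (ZL.cons (nat_lit 11552) (nat_lit 6) (nat_lit 193134736824559454276)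 (ZL.cons (nat_lit 11628) (nat_lit 6) (nat_lit 192971128647140023798) (ZL.cons (nat_lit 11704) (nat_lit 6) (nat_lit 190698398945635996758) (ZL.cons (nat_lit 11780) (nat_lit 6) (nat_lit 190456543038808449926) (ZL.cons (nat_lit 11856) (nat_lit 3) (nat_lit 95187973938759045042) (ZL.cons (nat_lit 11932) (nat_lit 6) (nat_lit 188025362752925405034) (ZL.cons (nat_lit 12008) (nat_lit 6) (nat_lit 187866519862226928838) (ZL.cons (nat_lit 12084) (nat_lit 6) (nat_lit 185675463457202253448) (ZL.cons (nat_lit 12160) (nat_lit 6) (nat_lit 185440651897175508952) (ZL.cons (nat_lit 12236) (nat_lit 3) (nat_lit 92681202083883696299) (ZL.cons (nat_lit 12312) (nat_lit 6) (nat_lit 183096224291908931122) (ZL.cons (nat_lit 12388) (nat_lit 6) (nat_lit 182942007893172546468) (ZL.cons (nat_lit 12464) (nat_lit 6) (nat_lit 180831188517451719702) (ZL.cons (nat_lit 12540) (nat_lit 6) (nat_lit 180603216129076239606) (ZL.cons (nat_lit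 12616) (nat_lit 3) (nat_lit 90263623729873985653) (ZL.cons (nat_lit 12692) (nat_lit 6) (nat_lit 178343985271024407282) (ZL.cons (nat_lit 12768) (nat_lit 6) (nat_lit 178194260612057043540) (ZL.cons (nat_lit 12844) (nat_lit 6) (nat_lit 176162341233801276052) (ZL.cons (nat_lit 12920) (nat_lit 6) (nat_lit 175941008817902751688) (ZL.cons (nat_lit 12996) (nat_lit 3) (nat_lit 87933626414131828123) (ZL.cons (nat_lit 13072) (nat_lit 6) (nat_lit 173765523216494087140) (ZL.cons (nat_lit 13148) (nat_lit 6) (nat_lit 173620159469923831076) (ZL.cons (nat_lit 13224) (nat_lit 6) (nat_lit 171665902898082246210) (ZL.cons (nat_lit 13300) (nat_lit 6) (nat_lit 171451017057404067214) (ZL.cons (nat_lit 13376) (nat_lit 3) (nat_lit 85689704650236453296) (ZL.cons (nat_lit 13452) (nat_lit 6) (nat_lit 169640313242971529230) (ZL.cons (nat_lit 13528) (nat_lit 6) (nat_lit 169357930223547793990) (ZL.cons (nat_lit 13604) (nat_lit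 6) (nat_lit 169216800372508710436) (ZL.cons (nat_lit 13680) (nat_lit 6) (nat_lit 167339070057529311744) (ZL.cons (nat_lit 13756) (nat_lit 6) (nat_lit 167130443027744671946) (ZL.cons (nat_lit 13832) (nat_lit 3) (nat_lit 83530460466818374507) (ZL.cons (nat_lit 13908) (nat_lit 6) (nat_lit 165392672506776371324) (ZL.cons (nat_lit 13984) (nat_lit 6) (nat_lit 165118514235491191480) (ZL.cons (nat_lit 14060) (nat_lit 6) (nat_lit 164981494962637712304) (ZL.cons (nat_lit 14136) (nat_lit 6) (nat_lit 163179255999716202892) (ZL.cons (nat_lit 14212) (nat_lit 6) (nat_lit 162976705485362183670) (ZL.cons (nat_lit 14288) (nat_lit 3) (nat_lit 81454604153308313713) (ZL.cons (nat_lit 14364) (nat_lit 6) (nat_lit 161310973822932135802) (ZL.cons (nat_lit 14440) (nat_lit 6) (nat_lit 161044800744014485468) (ZL.cons (nat_lit 14516) (nat_lit 6) (nat_lit 160911772323768389178) (ZL.cons (nat_lit 14592) (nat_lit 6) (nat_lit 159512035225567042968)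 (ZL.cons (nat_lit 14668) (nat_lit 6) (nat_lit 159184092666490527478) (ZL.cons (nat_lit 14744) (nat_lit 6) (nat_lit 158987441681680800076) (ZL.cons (nat_lit 14820) (nat_lit 3) (nat_lit 79460955220090130015) (ZL.cons (nat_lit 14896) (nat_lit 6) (nat_lit 157392955391363347014) (ZL.cons (nat_lit 14972) (nat_lit 6) (nat_lit 157134534926394754456) (ZL.cons (nat_lit 15048) (nat_lit 6) (nat_lit 157005381120330583298) (ZL.cons (nat_lit 15124) (nat_lit 6) (nat_lit 155669823847227493142) (ZL.cons (nat_lit 15200) (nat_lit 6) (nat_lit 155351433013172623734) (ZL.cons (nat_lit 15276) (nat_lit 6) (nat_lit 155160509726949587420) (ZL.cons (nat_lit 15352) (nat_lit 3) (nat_lit 77548443581192978154) (ZL.cons (nat_lit 15428) (nat_lit 6) (nat_lit 153636577891798971098) (ZL.cons (nat_lit 15504) (nat_lit 6) (nat_lit 153385684236489657934) (ZL.cons (nat_lit 15580) (nat_lit 6) (nat_lit 153260292191767161666) (ZL.cons (nat_lit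 15656) (nat_lit 6) (nat_lit 151988471145177450636) (ZL.cons (nat_lit 15732) (nat_lit 6) (nat_lit 151679353830561072568) (ZL.cons (nat_lit 15808) (nat_lit 6) (nat_lit 151493991416752299450) (ZL.cons (nat_lit 15884) (nat_lit 3) (nat_lit 75716110968296717147) (ZL.cons (nat_lit 15960) (nat_lit 6) (nat_lit 150405672680034315392) (ZL.cons (nat_lit 16036) (nat_lit 6) (nat_lit 150040027540847971398) (ZL.cons (nat_lit 16112) (nat_lit 6) (nat_lit 149796441467732133376) (ZL.cons (nat_lit 16188) (nat_lit 6) (nat_lit 149674701618486991370) (ZL.cons (nat_lit 16264) (nat_lit 6) (nat_lit 148466272946320508022) (ZL.cons (nat_lit 16340) (nat_lit 6) (nat_lit 148166159048634704074) (ZL.cons (nat_lit 16416) (nat_lit 6) (nat_lit 147986195540082497164) (ZL.cons (nat_lit 16492) (nat_lit 3) (nat_lit 73963112585498110157) (ZL.cons (nat_lit 16568) (nat_lit 6) (nat_lit 146956714921604823492) (ZL.cons (nat_lit 16644) (nat_lit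 6) (nat_lit 146601719640841382722) (ZL.cons (nat_lit 16720) (nat_lit 6) (nat_lit 146365228307719209886) (ZL.cons (nat_lit 16796) (nat_lit 6) (nat_lit 146247034279325868132) (ZL.cons (nat_lit 16872) (nat_lit 6) (nat_lit 145101756258461864478) (ZL.cons (nat_lit 16948) (nat_lit 6) (nat_lit 144810383542262054820) (ZL.cons (nat_lit 17024) (nat_lit 6) (nat_lit 144635661689298747140) (ZL.cons (nat_lit 17100) (nat_lit 3) (nat_lit 72288719014995841118) (ZL.cons (nat_lit 17176) (nat_lit 6) (nat_lit 143664958253880477918) (ZL.cons (nat_lit 17252) (nat_lit 6) (nat_lit 143320302641488787850) (ZL.cons (nat_lit 17328) (nat_lit 6) (nat_lit 143090699405447843348) (ZL.cons (nat_lit 17404) (nat_lit 6) (nat_lit 142975947921570812518) (ZL.cons (nat_lit 17480) (nat_lit 6) (nat_lit 142290070172530113090) (ZL.cons (nat_lit 17556) (nat_lit 6) (nat_lit 141893683592961840102) (ZL.cons (nat_lit 17632) (nat_lit 6) (nat_lit 141610797460729015190)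 (ZL.cons (nat_lit 17708) (nat_lit 6) (nat_lit 141441164593774347538) (ZL.cons (nat_lit 17784) (nat_lit 3) (nat_lit 70692318384602190806) (ZL.cons (nat_lit 17860) (nat_lit 6) (nat_lit 140529279836347547252) (ZL.cons (nat_lit 17936) (nat_lit 6) (nat_lit 140194662736938139420) (ZL.cons (nat_lit 18012) (nat_lit 6) (nat_lit 139971746973791591358) (ZL.cons (nat_lit 18088) (nat_lit 6) (nat_lit 139860337766143988610) (ZL.cons (nat_lit 18164) (nat_lit 6) (nat_lit 139225899174188673508) (ZL.cons (nat_lit 18240) (nat_lit 6) (nat_lit 138841057834802000704) (ZL.cons (nat_lit 18316) (nat_lit 6) (nat_lit 138566411104478869722) (ZL.cons (nat_lit 18392) (nat_lit 6) (nat_lit 138401719000639386564) (ZL.cons (nat_lit 18468) (nat_lit 3) (nat_lit 69173418808780874871) (ZL.cons (nat_lit 18544) (nat_lit 6) (nat_lit 137982402730178478108) (ZL.cons (nat_lit 18620) (nat_lit 6) (nat_lit 137548799992755625720) (ZL.cons (nat_lit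 18696) (nat_lit 6) (nat_lit 137223929022455229766) (ZL.cons (nat_lit 18772) (nat_lit 6) (nat_lit 137007505951439163688) (ZL.cons (nat_lit 18848) (nat_lit 6) (nat_lit 136899341672169646456) (ZL.cons (nat_lit 18924) (nat_lit 6) (nat_lit 136316760053461304044) (ZL.cons (nat_lit 19000) (nat_lit 6) (nat_lit 135943127685124728506) (ZL.cons (nat_lit 19076) (nat_lit 6) (nat_lit 135676480374131397456) (ZL.cons (nat_lit 19152) (nat_lit 6) (nat_lit 135516585127685297304) (ZL.cons (nat_lit 19228) (nat_lit 3) (nat_lit 67731651115746708447) (ZL.cons (nat_lit 19304) (nat_lit 6) (nat_lit 135143861477166254230) (ZL.cons (nat_lit 19380) (nat_lit 6) (nat_lit 134722887945687756764) (ZL.cons (nat_lit 19456) (nat_lit 6) (nat_lit 134407479236658246130) (ZL.cons (nat_lit 19532) (nat_lit 6) (nat_lit 134197359750234881006) (ZL.cons (nat_lit 19608) (nat_lit 6) (nat_lit 134092345886866417676) (ZL.cons (nat_lit 19684) (nat_lit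 6) (nat_lit 134029079401036820410) (ZL.cons (nat_lit 19760) (nat_lit 6) (nat_lit 133562143575245777382) (ZL.cons (nat_lit 19836) (nat_lit 6) (nat_lit 133199393703074344820) (ZL.cons (nat_lit 19912) (nat_lit 6) (nat_lit 132940512818614800112) (ZL.cons (nat_lit 19988) (nat_lit 6) (nat_lit 132785274715269071810) (ZL.cons (nat_lit 20064) (nat_lit 3) (nat_lit 66366771874046244445) (ZL.cons (nat_lit 20140) (nat_lit 6) (nat_lit 132459880331145006108) (ZL.cons (nat_lit 20216) (nat_lit 6) (nat_lit 132051168164661027984) (ZL.cons (nat_lit 20292) (nat_lit 6) (nat_lit 131744946117059561348) (ZL.cons (nat_lit 20368) (nat_lit 6) (nat_lit 131540946615677653462) (ZL.cons (nat_lit 20444) (nat_lit 6) (nat_lit 131438991408523805570) (ZL.cons (nat_lit 20520) (nat_lit 6) (nat_lit 131415135070744966534) (ZL.cons (nat_lit 20596) (nat_lit 6) (nat_lit 130961799317549779132) (ZL.cons (nat_lit 20672) (nat_lit 6) (nat_lit 130609614975635766934)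 (ZL.cons (nat_lit 20748) (nat_lit 6) (nat_lit 130358274311111937120) (ZL.cons (nat_lit 20824) (nat_lit 6) (nat_lit 130207557705921909644) (ZL.cons (nat_lit 20900) (nat_lit 3) (nat_lit 65078666732972322336) (ZL.cons (nat_lit 20976) (nat_lit 6) (nat_lit 130426994909837542126) (ZL.cons (nat_lit 21052) (nat_lit 6) (nat_lit 129930335286048947652) (ZL.cons (nat_lit 21128) (nat_lit 6) (nat_lit 129533527357423726176) (ZL.cons (nat_lit 21204) (nat_lit 6) (nat_lit 129236224398587350800) (ZL.cons (nat_lit 21280) (nat_lit 6) (nat_lit 129038166630255401396) (ZL.cons (nat_lit 21356) (nat_lit 6) (nat_lit 128939180992241956840) (ZL.cons (nat_lit 21432) (nat_lit 6) (nat_lit 128955874790907707582) (ZL.cons (nat_lit 21508) (nat_lit 6) (nat_lit 128515742991689079034) (ZL.cons (nat_lit 21584) (nat_lit 6) (nat_lit 128173816446141494380) (ZL.cons (nat_lit 21660) (nat_lit 6) (nat_lit 127929796383496999414) (ZL.cons (nat_lit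 21736) (nat_lit 6) (nat_lit 127783469582341632930) (ZL.cons (nat_lit 21812) (nat_lit 3) (nat_lit 63867354092152726673) (ZL.cons (nat_lit 21888) (nat_lit 6) (nat_lit 128037566361790498612) (ZL.cons (nat_lit 21964) (nat_lit 6) (nat_lit 127555372552287008832) (ZL.cons (nat_lit 22040) (nat_lit 6) (nat_lit 127170122136146017106) (ZL.cons (nat_lit 22116) (nat_lit 6) (nat_lit 126881478486790312862) (ZL.cons (nat_lit 22192) (nat_lit 6) (nat_lit 126689189391322400816) (ZL.cons (nat_lit 22268) (nat_lit 6) (nat_lit 126593086830144299304) (ZL.cons (nat_lit 22344) (nat_lit 6) (nat_lit 127174607593273820266) (ZL.cons (nat_lit 22420) (nat_lit 6) (nat_lit 126651576880581144824) (ZL.cons (nat_lit 22496) (nat_lit 6) (nat_lit 126224264454155291866) (ZL.cons (nat_lit 22572) (nat_lit 6) (nat_lit 125892296934206180550) (ZL.cons (nat_lit 22648) (nat_lit 6) (nat_lit 125655384252027059226) (ZL.cons (nat_lit 22724) (nat_lit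 6) (nat_lit 125513319396536412152) (ZL.cons (nat_lit 22800) (nat_lit 3) (nat_lit 62732989116697245112) (ZL.cons (nat_lit 22876) (nat_lit 6) (nat_lit 126366244443715279336) (ZL.cons (nat_lit 22952) (nat_lit 6) (nat_lit 125803566252198151792) (ZL.cons (nat_lit 23028) (nat_lit 6) (nat_lit 125335416922583113172) (ZL.cons (nat_lit 23104) (nat_lit 6) (nat_lit 124961387392349140624) (ZL.cons (nat_lit 23180) (nat_lit 6) (nat_lit 124681150839576612228) (ZL.cons (nat_lit 23256) (nat_lit 6) (nat_lit 124494462397374755876) (ZL.cons (nat_lit 23332) (nat_lit 6) (nat_lit 124401158939920288386) (ZL.cons (nat_lit 23408) (nat_lit 6) (nat_lit 125010599686977306732) (ZL.cons (nat_lit 23484) (nat_lit 6) (nat_lit 124502802878537816010) (ZL.cons (nat_lit 23560) (nat_lit 6) (nat_lit 124087936445114657800) (ZL.cons (nat_lit 23636) (nat_lit 6) (nat_lit 123765637882057268172) (ZL.cons (nat_lit 23712) (nat_lit 6) (nat_lit 123535625569262004748)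 (ZL.cons (nat_lit 23788) (nat_lit 6) (nat_lit 123397698525096327980) (ZL.cons (nat_lit 23864) (nat_lit 3) (nat_lit 61675868115391891209) (ZL.cons (nat_lit 23940) (nat_lit 6) (nat_lit 124271984301512105990) (ZL.cons (nat_lit 24016) (nat_lit 6) (nat_lit 123725694795184797698) (ZL.cons (nat_lit 24092) (nat_lit 6) (nat_lit 123271180882937187386) (ZL.cons (nat_lit 24168) (nat_lit 6) (nat_lit 122908045416690612096) (ZL.cons (nat_lit 24244) (nat_lit 6) (nat_lit 122635971093610487440) (ZL.cons (nat_lit 24320) (nat_lit 6) (nat_lit 122454720178851403600) (ZL.cons (nat_lit 24396) (nat_lit 6) (nat_lit 122364134297827648760) (ZL.cons (nat_lit 24472) (nat_lit 6) (nat_lit 123587074703718162502) (ZL.cons (nat_lit 24548) (nat_lit 6) (nat_lit 123003413646043458508) (ZL.cons (nat_lit 24624) (nat_lit 6) (nat_lit 122510407035908030626) (ZL.cons (nat_lit 24700) (nat_lit 6) (nat_lit 122107624090837003234) (ZL.cons (nat_lit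 24776) (nat_lit 6) (nat_lit 121794712864567692916) (ZL.cons (nat_lit 24852) (nat_lit 6) (nat_lit 121571399939523747844) (ZL.cons (nat_lit 24928) (nat_lit 6) (nat_lit 121437490187906585932) (ZL.cons (nat_lit 25004) (nat_lit 3) (nat_lit 60696433300597688327) (ZL.cons (nat_lit 25080) (nat_lit 6) (nat_lit 122955272428898374760) (ZL.cons (nat_lit 25156) (nat_lit 6) (nat_lit 122335328311663092414) (ZL.cons (nat_lit 25232) (nat_lit 6) (nat_lit 121804950150180268830) (ZL.cons (nat_lit 25308) (nat_lit 6) (nat_lit 121363674507221423868) (ZL.cons (nat_lit 25384) (nat_lit 6) (nat_lit 121011115802127661448) (ZL.cons (nat_lit 25460) (nat_lit 6) (nat_lit 120746965973894530714) (ZL.cons (nat_lit 25536) (nat_lit 6) (nat_lit 120570994211992507570) (ZL.cons (nat_lit 25612) (nat_lit 6) (nat_lit 120483046754687891220) (ZL.cons (nat_lit 25688) (nat_lit 6) (nat_lit 121720855028159289394) (ZL.cons (nat_lit 25764) (nat_lit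 6) (nat_lit 121154193807115887458) (ZL.cons (nat_lit 25840) (nat_lit 6) (nat_lit 120675546612809646794) (ZL.cons (nat_lit 25916) (nat_lit 6) (nat_lit 120284495209828066804) (ZL.cons (nat_lit 25992) (nat_lit 6) (nat_lit 119980697902770483968) (ZL.cons (nat_lit 26068) (nat_lit 6) (nat_lit 119763889237679275162) (ZL.cons (nat_lit 26144) (nat_lit 6) (nat_lit 119633879770089797580) (ZL.cons (nat_lit 26220) (nat_lit 3) (nat_lit 59795277949748195254) (ZL.cons (nat_lit 26296) (nat_lit 6) (nat_lit 121159456877128987866) (ZL.cons (nat_lit 26372) (nat_lit 6) (nat_lit 120557569384667548696) (ZL.cons (nat_lit 26448) (nat_lit 6) (nat_lit 120042639130800729680) (ZL.cons (nat_lit 26524) (nat_lit 6) (nat_lit 119614216176471753988) (ZL.cons (nat_lit 26600) (nat_lit 6) (nat_lit 119271926171526353582) (ZL.cons (nat_lit 26676) (nat_lit 6) (nat_lit 119015470027610692674) (ZL.cons (nat_lit 26752) (nat_lit 6) (nat_lit 118844623656832029430)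 (ZL.cons (nat_lit 26828) (nat_lit 6) (nat_lit 118759237775953761126) (ZL.cons (nat_lit 26904) (nat_lit 6) (nat_lit 120650643316498472036) (ZL.cons (nat_lit 26980) (nat_lit 6) (nat_lit 120014555560524375358) (ZL.cons (nat_lit 27056) (nat_lit 6) (nat_lit 119464399035239519108) (ZL.cons (nat_lit 27132) (nat_lit 6) (nat_lit 118999693021349965064) (ZL.cons (nat_lit 27208) (nat_lit 6) (nat_lit 118620031465057168956) (ZL.cons (nat_lit 27284) (nat_lit 6) (nat_lit 118325082623253690478) (ZL.cons (nat_lit 27360) (nat_lit 6) (nat_lit 118114588773650575132) (ZL.cons (nat_lit 27436) (nat_lit 6) (nat_lit 117988365989583121166) (ZL.cons (nat_lit 27512) (nat_lit 3) (nat_lit 58973151989649129967) (ZL.cons (nat_lit 27588) (nat_lit 6) (nat_lit 119435491680699625190) (ZL.cons (nat_lit 27664) (nat_lit 6) (nat_lit 119789037148163160494) (ZL.cons (nat_lit 27740) (nat_lit 6) (nat_lit 120193969751894375432) (ZL.cons (nat_lit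 27816) (nat_lit 6) (nat_lit 119524677856587601560) (ZL.cons (nat_lit 27892) (nat_lit 6) (nat_lit 118940321067790087802) (ZL.cons (nat_lit 27968) (nat_lit 6) (nat_lit 118440388782482496524) (ZL.cons (nat_lit 28044) (nat_lit 6) (nat_lit 118024444166629122064) (ZL.cons (nat_lit 28120) (nat_lit 6) (nat_lit 117692123773478247884) (ZL.cons (nat_lit 28196) (nat_lit 6) (nat_lit 117443137225987314968) (ZL.cons (nat_lit 28272) (nat_lit 6) (nat_lit 117277266963095408900) (ZL.cons (nat_lit 28348) (nat_lit 6) (nat_lit 117194368049621362006) (ZL.cons (nat_lit 28424) (nat_lit 3) (nat_lit 58725669225113491530) (ZL.cons (nat_lit 28500) (nat_lit 6) (nat_lit 117476786658194616008) (ZL.cons (nat_lit 28576) (nat_lit 6) (nat_lit 117553153518395739002) (ZL.cons (nat_lit 28652) (nat_lit 6) (nat_lit 117680505759154799622) (ZL.cons (nat_lit 28728) (nat_lit 6) (nat_lit 117858954659128771804) (ZL.cons (nat_lit 28804) (nat_lit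 6) (nat_lit 118088656144540933782) (ZL.cons (nat_lit 28880) (nat_lit 6) (nat_lit 118369810925427082586) (ZL.cons (nat_lit 28956) (nat_lit 6) (nat_lit 118702664671013235236) (ZL.cons (nat_lit 29032) (nat_lit 6) (nat_lit 119087508224378059252) (ZL.cons (nat_lit 29108) (nat_lit 6) (nat_lit 118469947296247868300) (ZL.cons (nat_lit 29184) (nat_lit 6) (nat_lit 117935814747427619514) (ZL.cons (nat_lit 29260) (nat_lit 6) (nat_lit 117484643860156207820) (ZL.cons (nat_lit 29336) (nat_lit 6) (nat_lit 117116040407444755288) (ZL.cons (nat_lit 29412) (nat_lit 6) (nat_lit 116829682308606426670) (ZL.cons (nat_lit 29488) (nat_lit 6) (nat_lit 116625319347826703032) (ZL.cons (nat_lit 29564) (nat_lit 6) (nat_lit 116502772955528204036) (ZL.cons (nat_lit 29640) (nat_lit 3) (nat_lit 58230968026169509187) (ZL.cons (nat_lit 29716) (nat_lit 6) (nat_lit 116600694684562950272) (ZL.cons (nat_lit 29792) (nat_lit 6) (nat_lit 116652354546737245160)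 (ZL.cons (nat_lit 29868) (nat_lit 6) (nat_lit 116755719410771229948) (ZL.cons (nat_lit 29944) (nat_lit 6) (nat_lit 116910879595478138218) (ZL.cons (nat_lit 30020) (nat_lit 6) (nat_lit 117117970677718393482) (ZL.cons (nat_lit 30096) (nat_lit 6) (nat_lit 117377173610864827030) (ZL.cons (nat_lit 30172) (nat_lit 6) (nat_lit 117688714882917275552) (ZL.cons (nat_lit 30248) (nat_lit 6) (nat_lit 118052866714404716914) (ZL.cons (nat_lit 30324) (nat_lit 6) (nat_lit 117485530026251790934) (ZL.cons (nat_lit 30400) (nat_lit 6) (nat_lit 117000158875467721732) (ZL.cons (nat_lit 30476) (nat_lit 6) (nat_lit 116596329151338231966) (ZL.cons (nat_lit 30552) (nat_lit 6) (nat_lit 116273687992939324996) (ZL.cons (nat_lit 30628) (nat_lit 6) (nat_lit 116031953480812205656) (ZL.cons (nat_lit 30704) (nat_lit 6) (nat_lit 115870914390625889090) (ZL.cons (nat_lit 30780) (nat_lit 6) (nat_lit 115790430008612251326) (ZL.cons (nat_lit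 30856) (nat_lit 3) (nat_lit 57900137579438091228) (ZL.cons (nat_lit 30932) (nat_lit 6) (nat_lit 115826486813082844396) (ZL.cons (nat_lit 31008) (nat_lit 6) (nat_lit 115905144679090001078) (ZL.cons (nat_lit 31084) (nat_lit 6) (nat_lit 116036317487071833516) (ZL.cons (nat_lit 31160) (nat_lit 6) (nat_lit 116220119854045024868) (ZL.cons (nat_lit 31236) (nat_lit 6) (nat_lit 116456712384019551702) (ZL.cons (nat_lit 31312) (nat_lit 6) (nat_lit 116746301808332284968) (ZL.cons (nat_lit 31388) (nat_lit 6) (nat_lit 117089141166286022202) (ZL.cons (nat_lit 31464) (nat_lit 6) (nat_lit 116570565876169275806) (ZL.cons (nat_lit 31540) (nat_lit 6) (nat_lit 116132535888527128532) (ZL.cons (nat_lit 31616) (nat_lit 6) (nat_lit 115774668458710184328) (ZL.cons (nat_lit 31692) (nat_lit 6) (nat_lit 115496650887022486636) (ZL.cons (nat_lit 31768) (nat_lit 6) (nat_lit 115298240245488774368) (ZL.cons (nat_lit 31844) (nat_lit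 6) (nat_lit 115179263165587319034) (ZL.cons (nat_lit 31920) (nat_lit 3) (nat_lit 57569807843381433466) (ZL.cons (nat_lit 31996) (nat_lit 6) (nat_lit 115074828685432256164) (ZL.cons (nat_lit 32072) (nat_lit 6) (nat_lit 115128038343471779898) (ZL.cons (nat_lit 32148) (nat_lit 6) (nat_lit 115234504153426784230) (ZL.cons (nat_lit 32224) (nat_lit 6) (nat_lit 115394319143674899750) (ZL.cons (nat_lit 32300) (nat_lit 6) (nat_lit 115607622958382362672) (ZL.cons (nat_lit 32376) (nat_lit 6) (nat_lit 115874601979523189224) (ZL.cons (nat_lit 32452) (nat_lit 6) (nat_lit 116195489489737211202) (ZL.cons (nat_lit 32528) (nat_lit 6) (nat_lit 115724255362762386734) (ZL.cons (nat_lit 32604) (nat_lit 6) (nat_lit 115332187669432785022) (ZL.cons (nat_lit 32680) (nat_lit 6) (nat_lit 115018943826327050096) (ZL.cons (nat_lit 32756) (nat_lit 6) (nat_lit 114784250125232759476) (ZL.cons (nat_lit 32832) (nat_lit 6) (nat_lit 114627901493983908440)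 (ZL.cons (nat_lit 32908) (nat_lit 6) (nat_lit 114549761317271638768) (ZL.cons (nat_lit 32984) (nat_lit 3) (nat_lit 57198361687565125900) (ZL.cons (nat_lit 33060) (nat_lit 6) (nat_lit 114423721378963113594) (ZL.cons (nat_lit 33136) (nat_lit 6) (nat_lit 114504738980950484978) (ZL.cons (nat_lit 33212) (nat_lit 6) (nat_lit 114639846973171772392) (ZL.cons (nat_lit 33288) (nat_lit 6) (nat_lit 114829163411154159482) (ZL.cons (nat_lit 33364) (nat_lit 6) (nat_lit 115072853717027922122) (ZL.cons (nat_lit 33440) (nat_lit 6) (nat_lit 115371130824070037386) (ZL.cons (nat_lit 33516) (nat_lit 6) (nat_lit 114945858991407758480) (ZL.cons (nat_lit 33592) (nat_lit 6) (nat_lit 114598414884789366046) (ZL.cons (nat_lit 33668) (nat_lit 6) (nat_lit 114328494912277038192) (ZL.cons (nat_lit 33744) (nat_lit 6) (nat_lit 114135863221467608804) (ZL.cons (nat_lit 33820) (nat_lit 6) (nat_lit 114020351493407943430) (ZL.cons (nat_lit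 33896) (nat_lit 3) (nat_lit 56990929397760062930) (ZL.cons (nat_lit 33972) (nat_lit 6) (nat_lit 113791578362973654792) (ZL.cons (nat_lit 34048) (nat_lit 6) (nat_lit 113846384310754364236) (ZL.cons (nat_lit 34124) (nat_lit 6) (nat_lit 113956044095008018702) (ZL.cons (nat_lit 34200) (nat_lit 6) (nat_lit 114120653534963577686) (ZL.cons (nat_lit 34276) (nat_lit 6) (nat_lit 114340356464112264494) (ZL.cons (nat_lit 34352) (nat_lit 6) (nat_lit 114615344855887315846) (ZL.cons (nat_lit 34428) (nat_lit 6) (nat_lit 114234696609936246218) (ZL.cons (nat_lit 34504) (nat_lit 6) (nat_lit 113930576373911260856) (ZL.cons (nat_lit 34580) (nat_lit 6) (nat_lit 113702718411683794234) (ZL.cons (nat_lit 34656) (nat_lit 6) (nat_lit 113550923624063550508) (ZL.cons (nat_lit 34732) (nat_lit 6) (nat_lit 113475059374828337236) (ZL.cons (nat_lit 34808) (nat_lit 3) (nat_lit 56615528468764133531) (ZL.cons (nat_lit 34884) (nat_lit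 6) (nat_lit 113258864881476114712) (ZL.cons (nat_lit 34960) (nat_lit 6) (nat_lit 113342313011523107238) (ZL.cons (nat_lit 35036) (nat_lit 6) (nat_lit 113481474243511033274) (ZL.cons (nat_lit 35112) (nat_lit 6) (nat_lit 113676470174632891976) (ZL.cons (nat_lit 35188) (nat_lit 6) (nat_lit 113927471189682867496) (ZL.cons (nat_lit 35264) (nat_lit 6) (nat_lit 113590146814325204940) (ZL.cons (nat_lit 35340) (nat_lit 6) (nat_lit 113328088588585080810) (ZL.cons (nat_lit 35416) (nat_lit 6) (nat_lit 113141067529546799850) (ZL.cons (nat_lit 35492) (nat_lit 6) (nat_lit 113028920220751008226) (ZL.cons (nat_lit 35568) (nat_lit 3) (nat_lit 56495774334701806262) (ZL.cons (nat_lit 35644) (nat_lit 6) (nat_lit 112741667326624134054) (ZL.cons (nat_lit 35720) (nat_lit 6) (nat_lit 112798117452838264786) (ZL.cons (nat_lit 35796) (nat_lit 6) (nat_lit 112911067030619528882) (ZL.cons (nat_lit 35872) (nat_lit 6) (nat_lit 113080614753773754636)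 (ZL.cons (nat_lit 35948) (nat_lit 6) (nat_lit 113306908770796902050) (ZL.cons (nat_lit 36024) (nat_lit 6) (nat_lit 113011646405724100726) (ZL.cons (nat_lit 36100) (nat_lit 6) (nat_lit 112790425083173162258) (ZL.cons (nat_lit 36176) (nat_lit 6) (nat_lit 112643051502959333400) (ZL.cons (nat_lit 36252) (nat_lit 6) (nat_lit 112569396892051359346) (ZL.cons (nat_lit 36328) (nat_lit 3) (nat_lit 56147169863002431139) (ZL.cons (nat_lit 36404) (nat_lit 6) (nat_lit 112322981908271145360) (ZL.cons (nat_lit 36480) (nat_lit 6) (nat_lit 112408933482219547662) (ZL.cons (nat_lit 36556) (nat_lit 6) (nat_lit 112552269551167111476) (ZL.cons (nat_lit 36632) (nat_lit 6) (nat_lit 112753115360222625942) (ZL.cons (nat_lit 36708) (nat_lit 6) (nat_lit 112498689898339010280) (ZL.cons (nat_lit 36784) (nat_lit 6) (nat_lit 112317116054612523914) (ZL.cons (nat_lit 36860) (nat_lit 6) (nat_lit 112208235172286512626) (ZL.cons (nat_lit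 36936) (nat_lit 3) (nat_lit 56085976056362967137) (ZL.cons (nat_lit 37012) (nat_lit 6) (nat_lit 111916491210841059246) (ZL.cons (nat_lit 37088) (nat_lit 6) (nat_lit 111974634840841613898) (ZL.cons (nat_lit 37164) (nat_lit 6) (nat_lit 112090972905956315918) (ZL.cons (nat_lit 37240) (nat_lit 6) (nat_lit 112265607060805168444) (ZL.cons (nat_lit 37316) (nat_lit 6) (nat_lit 112050829077746004884) (ZL.cons (nat_lit 37392) (nat_lit 6) (nat_lit 111907747931907336088) (ZL.cons (nat_lit 37468) (nat_lit 6) (nat_lit 111836238600928720502) (ZL.cons (nat_lit 37544) (nat_lit 3) (nat_lit 55789145087250854158) (ZL.cons (nat_lit 37620) (nat_lit 6) (nat_lit 111607791622235979886) (ZL.cons (nat_lit 37696) (nat_lit 6) (nat_lit 111696321743402834256) (ZL.cons (nat_lit 37772) (nat_lit 6) (nat_lit 111843957894418824988) (ZL.cons (nat_lit 37848) (nat_lit 6) (nat_lit 111667672609247478998) (ZL.cons (nat_lit 37924) (nat_lit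 6) (nat_lit 111561963014756205904) (ZL.cons (nat_lit 38000) (nat_lit 3) (nat_lit 55763368371669084335) (ZL.cons (nat_lit 38076) (nat_lit 6) (nat_lit 111308083283784446526) (ZL.cons (nat_lit 38152) (nat_lit 6) (nat_lit 111367971222685017814) (ZL.cons (nat_lit 38228) (nat_lit 6) (nat_lit 111487799429753160896) (ZL.cons (nat_lit 38304) (nat_lit 6) (nat_lit 111348885695929210608) (ZL.cons (nat_lit 38380) (nat_lit 6) (nat_lit 111279459160998515866) (ZL.cons (nat_lit 38456) (nat_lit 3) (nat_lit 55537623972207290219) (ZL.cons (nat_lit 38532) (nat_lit 6) (nat_lit 111105634435580880156) (ZL.cons (nat_lit 38608) (nat_lit 6) (nat_lit 111196820460382740156) (ZL.cons (nat_lit 38684) (nat_lit 6) (nat_lit 111094189786119368220) (ZL.cons (nat_lit 38760) (nat_lit 3) (nat_lit 55529994761303355356) (ZL.cons (nat_lit 38836) (nat_lit 6) (nat_lit 110909082155771592420) (ZL.cons (nat_lit 38912) (nat_lit 6) (nat_lit 110970766732839180850)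 (ZL.cons (nat_lit 38988) (nat_lit 6) (nat_lit 110903362329993846148) (ZL.cons (nat_lit 39064) (nat_lit 3) (nat_lit 55389071319273320818) (ZL.cons (nat_lit 39140) (nat_lit 6) (nat_lit 110809440724447930348) (ZL.cons (nat_lit 39216) (nat_lit 3) (nat_lit 55388118292557626577) (ZL.cons (nat_lit 39292) (nat_lit 6) (nat_lit 110712701470735637072) (ZL.cons (nat_lit 39368) (nat_lit 1) (nat_lit 18446744073709551617) ZL.nil)))))))))))))))))))))))))))))))))))))))))))))))))))))))))))))))))))))))))))))))))))))))))))))))))))))))))))))))))))))))))))))))))))))))))))))))))))))))))))))))))))))))))))))))))))))))))))))))))))))))))))))))))))))))))))))))))))))))))))))))))))))))))))))))))))))))))))))))))))))))))))))))))))))))))))))))))))))))))))))))))))))))))))))))))))))))))))))))))))))))))))))))))))))))))))))))))))))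

noncomputable def vl : XL := ⟨(nat_lit 0), (nat_lit 0), (nat_lit 536870912), (nat_lit 0), (nat_lit 0), (nat_lit 0), (nat_lit 0), (nat_lit 0), (nat_lit 0), (nat_lit 1), (nat_lit 0), (nat_lit 1), (nat_lit 0), (nat_lit 0), (nat_lit 0), (nat_lit 0)⟩

noncomputable def cp0 : Nat := (nat_lit 69338415475181799892298641187121718711643251334726532172477708822469659546515138980876914541241066569495658189837488841287846092968576707458464152778851970799652076223085345191489714768629482278855274078380517998403543420301463655971516566456396905521609883361403314757152136769418428056984214463862255768477350446765235792036809607874010112427652801237235936684754571978106630574812420298112911846831403275863493618720460216696553838122324109273007284160369099886891401046000516459436922781821819286368838458714742243436972103242820072202281378280377882377618167425676899965489629642394395513833714874074025408148963759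264539489498108765527138317951794147891700396513907977675236490856179547622880447041986733476429506969588038134320660399235980374661604584891769199797461386965585185377707708340775526430776702545470636179203369441446933915588073541976993703196578224057165102694209413063081958552516192393998096510380752364354723481732043275932454781009791432922968736063992810420551136742345501184282404508466690113895006618789989152260604239306115881653169712385384839386757496794933421809393121343864374828322648239693713776535826633897886210363253529416585221327656144692051662981323703171545842438356168681932299692083605383304441453418395361602745004743374126450357816240152208253466936160766241306954228247720346134910476675577585365591624634309761064426831733066681976087689414836653640895946600158737940929628458506314996854416360604629343622370474314764956534195159383549993240507536337405287365567053625406548801300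023135897508398336036523265874193249351565540318762552459625304442131673223286768186879667867126745520368500279390125405236260301896729707752547347209733172082110278137724126509181321333598489506409943615097062802112065870134876255774510393151859824111659601505656454749938092310346003656373014135935539148697206385753955127782759224977709466767345273919067303171080181349973416799965697292022069466159016928057219426450824938593372531450454625934047189104815081113327855703461160881222381226858436460793243103915493983615443111994499609147429938765666203732075025300533598798717444724696717320682850285429139910920345392908941923355571456065642098698796186358778323593100173054746842768075532381710728966318123952308539676100707070151846388833994040986872376717495551643957882275587223800433319925659741086038114032813570987061201425266993064024717977789517661830842224681940435930095728377446985345568383514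536789305696313807159767495624757615188468340333724074458646128294053083522936960727305367551415230478827058140769322821340831628208980786446047307080187609130246787548910398863440140339946247382988666680863218698424380058731438331167317543155072960625869408099144976098735041769998296907078691359786153117718643678824302981465263585219351866717776799534065394687337807586868113766680122936988716534781188403012062627609165729327937059281302269457383201488526525938551988667562547506586522018534594796595185645126772689430237153302762955005687680000218878486078699916401699267109334586436547413278437707615120265061152700714991135080047239195396879003337155309888825459316286138525806333586172102610720748203584104449503916637230528754495212091286214693890209102421041578330274350065034287445117900240909301264478027939435128795903853381491317630854345840736838525562806152475256257989405911259776282896665931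558707223445702962077884283564027476623699534742084363571400580966062511775057196141952490519669426789646530863080436192768638882389907275658207170146699572246894431363467908385711368861288742899518931292613999978332444161587265379458509293247363858943740433743897462839010332536223185398945845988695041721974856387609431587327808362192344537776270442380964946215697780774861405153280266550404038102765230065568998295265847838679889613009052814370197350957521779040007091173126262000423911356967249468824401728264085336699982861188134217608867822368339822530776225345921388904121809624699087556164475405371361298903496102909269736131660165144216945597943165710191731151319992282438553736520806666482139801367320023930820820344977776020666952060329651043020227651577341116611085247743478421953354646352481468243495781304166432501939210831282746677212767918890979729149973486204405685926495896455244828763799006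723088941409121224193336543354111953160089658636789401625375808834497611203401080245854985854332610702381337457816955332247326128395025499327024182461687265526481091214480507717426324328118390324582888154072624063102098817327329059755135245792785286834300017943489767218254181659162000536444267582287213486906289131500099317454591224281932246213336198512830491210065522107912875108743037007133598050182029264570607125093417027516576133013774159866186810922259560067108547502908876537520798744820734981103118740231585951182951944104665258664907486932053406779163299738477056269685508878805613526054353991579975362169962007420218487641398666022637465475401454638251894640187244518076928055097548238542529697287514111591321660678210133589954983342754597145512051831165134406430112165123572710320971309585334409543470127786912937648309364847003109887837123218344017257313707949871534386158834896392027856640366037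216228980617324305111068355894586262846869719069356374572671377749787851813935339855542139532214983277113597109578962291663455234679571744267037394249577053239090263975868845534361652781929714724412537732916999694051723654036225306879504882628079976487110033950805581014267548064384655141031328003871672695990955378892923138232111247815297418677877292077420073542528109151649450129594537343861874597418489031776517294879481345012304021202600921228493543948509125276941516610564107957435435729688447066367231974989773308253402625900721715499423514034648347299682848953126879525639340175372722610502297299457380957786550792994127425559759696690151122670544802841216190093646789845651627428135627065733562623691949626939108043464264977316317896071190037760968526585370122739977644460414974531958219968798566076966993648379331404897335024856198942388115661723657151119981796316647434085169120689038313125338476193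767341344837203623767906103282817350326720054520609080561040516634693634640437337477429659891120169483738973074829988400425096770844241866736937705991582196576636073425924718747749404110060679253378513417493984898809063745757591338536303661348407493696966254617892468549391894746431887935260216491427904607615795809585939022692749996829202255712975662731268478853973136674080705108832510319976912318475021373926741165650065761489905394530153437671772243514278788242904356287788366305741856809648208164867462190965951196343395455491699468178301324702048739229235153819814497630132411579901969052980320589766214602768618721000490042192096517122102125699843459716197124938461001079219181777982043328523851086724894052422923364536428584018260025877981188129389993065833708423176412515960961600549993362448296691497414602445998061194358432290043984028880419445892596802217709424747656270417289342097661615605204131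778786862333766839743646460367453026021950173500467995438911470385741730154121267321366207733748505265337366815455872179151729245100094255769157790361860476182553302919912196767704997698568234979088806933882683770786915084451429745976244024493530121067655469981671683039376053501000192720316627679864018808167072779153201897583482680271369171818600859785257110058702388678045771035768148722938358805323966405494470829391728821928512470107157142767953219961100288380217360141590589154998690884194416315145316476556774424669487352676851994309712725368639027229297790107295003891652665336706540810713439703556776056472648132758763994080223081426063892105586299240549540682233156939993999348726591096790660427477682233805655943703156393300108878188672854116219519079487667693990750977197165178569134359220548939266850941874852113977196297926496236234107545473064070294558656961915405969155530773363183909045278135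465292923639004708312400643359623763051223480682190911707573723198498453437763219527540575494291443212988581501183001527069844143360328160728463126106370336272735546012917833360140379715943466861828657687671534699944082678269226015062329662357111205508308560132029252909193348166954910106274415389551489651122416902100409760840316265002054949757072089699459521355427728354702526327060746905818544838931242188041923466814930461537145433131435433445843007780374842294908444623173259826692358436168233504046447591724935345128403288156609916446867867397772735107215069966603598485139917665236270429604332465573499162828712679909927589059394002509582472844422662481190363058363934978038396207236892104530172407641006899470015136336200515595332697372454355102140561633935581677613264469892410200613360151996767534074005851209790533198981776119679640135323186709961619933035402370382342075766580636516759786587209754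622882994469123256755290703699361036068433750632659047989983670117273952066532099848759494852267012673074932659899987849461630875116359854479030029236775543941847430137682839566033283151503798685299761985999567198218757016471396292570375389669058634076351434878521502064026574769406054342959664026415203279841313808274169241654473647510635636925948701009284415563818469825341986877776757156401717236425338962103236304181497130484072970982368798169805028761717714927589080227667985830472849520072580090032233871308411190870704274804185859330494645803534638523870606429066456141632851034835684492214595897356934468224773566774416439351616450656987568425634646595842894466490922284441928951956509938798418137878037722798147365556859976930514279757758043532668466903617973765549624471823150751834598360397319317370506306529187551842115650260083148062017004602684912236728006331661071102335286446131322440677487177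871472560293821992081227845054447820521931411811341903422347504451507125215669264168104700163971626115211494827409677836148212033967880282422484578475239293611554598602328266333948903611721063053144585680068458543582191635862825330133797080931357043028824479198778247040982539027625580831992245321218123422080739965255281640154903066819649923286909747078379733095610386035446930169603096804717191674370811433067864568836309215496827707762332537437185499023016287011113315861477750255517527945720024597018188486861706443797212932697371166706488552339410363824816228513341446662375254144530091305111072175762380849955879296254768203857172315016585311359090050755944111824762956037651019907972507808390803312714181477016164474241621709009401219531316394145343096361924487605374192299043569648400802846658684723890967483219115165587432780287840909362113687831955189116322449559254430347310557138942054119645400164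522886374615576803191301401287114392559187323813496814139953098812118139973157771118673433538352236657942767106541852483134572945633052213983733004838786901501053546402026316221820793696420469660276901913085427119456884472967818264974448303227047274518972118973028932295870142881286997357995572160642339356697942751832589464989531074042204004782174494042563148070913619436983105061719290617977701238238556613449311968550766307564097192533513587305898229328794632089603584087609076163450561747523619284673498641328662791870122862766671394089977518201454986059408096407137520438050732856561123489682115395591447487869101775142473699184809936054924895331654111038878642688108942458883233147081479465002972086376066247427026270607404695838209724772357624774673700734160722262508328768001915723347296248812321433070701015504022974328374301162279497359655313725714725246553576360243279193373111039949206575149201857148633816496458123515795264713821521679169247826783835571347399908207614773570026451819576096674046816698066162398001408726089586973982803848145861198291509639600701267155071448502684351846305910797832543680339670858900627102428889432079394227771964957935482631008935996947103599135280590720738463400070281656791075018135632384768282793607168)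

noncomputable def cp1 : Nat := (nat_lit 238030457730902979824836784485938093851379456030585772115055355582011349843299770310890790561223256998981474717275329387026765292976753673554082024099095553230143695622899657296862452973021392442757298066422934915502400945223312407738537046864982338748348600027759944548778924178849120223548100417985071202102109769149846455871114804142436040819210035645667195159214414335993771831074693628715655515671406547696721367066742483792392251965412341234776652848732198768622724583156933083147903431949319591601951914119618870189673514532622644174689162836073548993771993428498214642125568320397779291198911545630989794567310862661964267333465109485569920115046881114768873709706209503684851810428438542820752740795253539776972918054497190549094744365156051375636627450333941225645837137582193355731688711800732178778030148823515462156980739884420773708874752591078257456508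299912563342565260221534976349795471107469044142434886795933912039181048274968101592998098594631714095316215641060562951809124321598082616279714389291424697447017314063480752667469309423340060236931192479977119298308528999630888185057258457341506814986820592148181113927904837058123482842237547360540645126124169959322401267767460863725518546074616001141599150565889003824053476167888551817313601785724703119958951867885950604900165253724581006317263768335672197047204409372677970773080807931116776466554682572867196538665889335262005252146425282014838711009620563115450654591829961102084422410593232319864424069990389473955053911614301045652230916338754267230915801865692917964957587397878392092399804785857101868243375724139972091468246889536628296445497735636560211770844601304638745887936980714148360232308683319668217633194467561298825416758847445801654956780336399453824654789640669422291477127152648567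904575577825653663286322171941061241625978891491336752001549415298714439130782456165756929477802489099065101973036398461847091095848156666076267692119257100427052506032704323856541454051778731032341725841836924807090569415491339743204046640481979153906798763774427673808048521436500289100931691186600277963452641255293741410403672646219670477448724143339592378114064801607547381512224610245865404259904288385761770878996671034476587711759276062386034234012402848278810436790828546667965532761134635424711943722339233417987569953071746307578512449630439797439074662340690236441475985211199030491271020716426401086650819324721235562069913153594381599120057853529089768939051212828175847018811122147721179794466249608924161138981428043715656141536554569946819548084157080910844136390553962172016816340319871750419241152038022794922281946506134169350589755600464305346987220161238262673551050067529594327866777689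438837749080637472348722948683531200582119360054828608595869889189265218224941728684217272353912157326675392072840190745399756137556452993956122423811360938586521357786316502827539392048016598713647863035679125974466971414518450381097578978683912032600611323300866390799158281738623280529941959963321081837497657603997045784955649703134323634483206640900947602125923624446255958811447922547312994995435856409904853458241790712335370936361943478430436813725488618215314560956884390544377632047908309745881445991081374164277950848500512525009395641414183463005872472719370197364651277717810210538938183002829213628043013076059905017381837487339820141612610779067323063103669328036724741606929226113787979812721196348412243673853341550321107374901229296419898652052750340169934444536315830119539189095791360372891475577483050735082457465396433624996718717169269262012423950107550059750285119058331143934958004486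278111855361561321493380672351146242238384949633847735903734531986637448082217617443949604017794738892119193769931712134087453112619956734342254321984534197465181251971569687704067895338277591929336496797697975332961891552556788240073277921931707757454241620890876694599901025709244840425907909309480535972529214815310132034237662545028579715219758932915349055737461467840262864168901183228669839524599955017886968196880246753027332539238820766507613641166201755692100234782297226957518279191649733212572405382648552038062557939957633589743029238751885937555454032539772740374403610161485650517576905474653867619664643345880775829852515245991962258493158687169600109101736264941542800828909867239123158632002805305562765105475283510048700039799988582493201112106540657535690595772415562972270476613173295080817266068447207396830548436627973607671810974058938933254002884100650862590651459619146452032806906111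776900865623289348551039654013558831035822966746382349710081537344866559307602927041569514321059802795156936838346230972053506280376032188646077078641582390016463313170794617374603113342989179956681165907430824810142538302490313554482542181961466252789588925147587853771834640891763151801814454223861899923743130123024491933502114057043101042395200680100098843387686628777603322900936303308393165391637887675116542323043308885880809013148965720097812195141297633117117452146871451892422768005347224769860093822525653019733736750582000476298310349776469987871302774554076762163481668534481080215440673297892668436512075436461030727353685253395898767873510106296527735478498297870445153416038414977022234808450627458912984136914935265074697226246235610649757032532401469507652430159271887787792698127659233040971078834188769779936895377112345160948924287475569835765023961474068188911401183028188455623886867651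387753628683295213793699910639778787564071926722942605061350339793839598162332817792491649150280842309927310211232357083516553350482376364986552973281124662514349167189891750233619342905337517197682003768553096169119799232619588487116842117809832690710826905958802496226939075321847749562792279237544103819955114506269893128184147712063639418396065037838535911776383947513121907711394549714892228319427316925360933779381533016112935539895625947738766542983335106545828310463018071525441466323398585616662283000506358474755464948109649584390657555462889872018382131686180519233348090079596242334614594345101453620242655605017831717546427334684066725551225246717053178708942976265174657162294059123411818709185534970404416258848089980524841024560086590706916748079202192164498102510460938403122041696939846893934365626036729459624284375004436619878842159312580043541514553863633481579771525814231087095844389698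678202268865393826275492680108415780270707466641062300275495072851511381715494375019838311746142192784316852728034736638709529309193462501647492414252841438843818286933684554220962091162854311892606247281973234292055537032137948549611403353494086273297249259486660039607004474116545594560664877149744034015059719814304718016819380501242548592998917952541186434185647302311695220184915674130337579828961074821165012350790146460039121545720281747102834538864635335103702423807096015683612281720615464846935743002705420531113140700963741984600094534841787947106235407856165898627525531554852395589621160654793103540692433042541750282755681971610525790064353627733557329574268315932558610165363707135504067230487307031414407483642762503671763223895741633943776102135353500562350827568239185207312345454826736245401616734627494213742117901951443947807337904125586480670951891668191086438794123760861666523110779788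301502107802826700133300400334280281860778688908632034481919239024951525798896623704327259040497714875585865046517576714804163147064065311322828434051421648749734449400201343454420092631547093575121647299166989237871681626389729955977178279773897881641314608410297736996401993205766686379540331399017577930749709667006033506476580502535028348412220202756069665395259610337727687336969395757276629545401728860795845596210530658371691378335926624195469753962465287019622748458280732889084318216678709760141141601176324946205339775994632267991124550437098340740361796462390493797745656736501214564553091569652851396166218869170850704430879366401099074061450605408421453584864712595654273393691826606071137363018458724042832308710062128265569364571884611252681314275832185069355031703077330354598752429788959532749779634340687946575901957086522398314167522701960737409548660805554118982783701939687345262125781827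891565646927837038484340802641039225756638280557040483441748706962630249029702646612150899745274837174820060799928493113719826342611473246623343689395499002457670531548165297867085904575158128107841953900890773840667382129596904047973708445131201094803769310587147664053901862967563312750824209456686256914901665636297524184306138146921445223094171123472875079052485229619898064966830241660920554090702566908139740740337215591497148677117899823945358201079553575009416712185597426223491643379537479661660389011903063263883936074139861834465343677803280762752948605130333837559334845149076037357534460782008695900155607444416929311373036790627430011531662416283827444830505394618792244385994483781145815987675594279970849621693985961759341512575643031908405523982293054873684335973179028369383488765781780323803294829621238023927643276620851398449222294288870126283387737689242596714196356128512989451310733945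752565946726908235137027571472224586564761605878568580320020019514509523024778210817877922153158784507215623203898083683309321192473574050500909420031743684187186396944546449091725306264286286292623861470835999707289887096199528627694081339812242568969522220041811252498396999328524489582266881450691013331023985171465278556165549285764966456630771938769442852872420931565910430199087812422527561669711247708015595948654238174972403207886745609873586372494883212473858197998699251573453471663481221537691236987964469743126544806215515752446609671201703568463048269033617895905110907850259068789978121527876534674180040826943016011926632111965921137178059465942008845678360009228254777460798857682919127515806827842271623170633402150010423447973530441585604849577068533538140580634469956871186144231647588198671840202993016343542791657418213518793472605225656925518185777475751415984855284012331596914997808708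185151801731192298317660417537031719568805636685857827125679940817934893220375689104658222145824972721063500303266617067022869297406860905859885074147977979116662859975979069899721420776252126481152666855391164701723782024268983837932264370249338879891479121842997296514536435326584764315442818762977227925231346037780122098298236949583507876320201933626662374015874437531474429670361405424651832439143380392404181648475467817167428222285932385585225407389166048969774457132603869677278026941654098638577703809083137502418074161117180867122374881429406537161385060194176037167536795271797602496510691307620015556090775552056956837148931657517810357298187216639036560082520044044040154825300488250681043500411376887496873011222156910058441213803757986420548362538334145873468259722678216211449425452142958765923367411103687850187763539976403021603212891775556179351886462148012566823144426018906801878330986020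177584330086993988208295243640309529707273270681637685488069627315079438578783532166358577075548193750242835050271058031041094625136766478784880600799034010772881669733882276579084934523904911664563394165221862948845102467811251699267601260157991162268375327504045876958197659610463931976090507507001471200338399003329858954931688086498181279592642564327060779673226453272106135171107841943632307098124331391355628598303512457442021090903286168598119475921788591962761802052397867808590106772364208378010450151010266297657427151367643177218082179405660690767302660174545606785377531005816491451734347701317008273184554852988153580870874998021766337145910538244810815727587233471289942492545086159006990276176662364571343622829692526846266407816663819005755006442812321928571756492376586703124697948936514964502294301330248054036193673859307314529782079447629350323896217062518803561152591217276602726071900274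287274657755540323375941604739790650223547979195653435640187106171224983217405689027464795694434670650148317400017421069450595230108986837248925729614737936778051006562648841782273008950496614444445572068484037311505912649239052274920205677521687791556665211237096786710193292186927717727378193286411780943880868186574074463263254931764607568467464517383618674470534983424706928347852712576846427859186413185726570690943709199006131787118185810150409645279276105831372380276681372094673865549840041430345077149842749744309745474038098178262937568125508022956597016761838313728593611893567770948417687618308422873338523340199810533312328357434686390683745910888838503867078135179690644588844738760316995547590379485535727929296834051868620970451870221586879162464914040855192510516145908600933783209572505624546193411886420143183112402190872113767442506707243259287009281018210173227776350611334339860827513062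840045485288298237116369072117417114313118727029971221144477549106573429411921165168236879974918781157890574790407190542385440869120057147467625111701356462249617562667681253269079844234488347116486947814192818603522660148155152148187748237520128907251141031477077347267822388941437705531645602056784933352287267997988810061344245985260269446626668424826394642991590302942309943716678088175800853794525950069097063466858053356137488897649988017294932398604626242401411946148808856312665963156102066325509842172284402212458143297716825401209703059465709478373194254739558442012553502545582621709941722270802509573888363347112353484980621159154967237571303261935214253642412104353397741562905958922480102503440530439223063141853679328609349212585976922407455417304387005896191380564315005434551388530017715198397153968026677741249509595333092887849410248982450230949590931493979090801277269486799605671279277380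560565771842427259087236197840929628518966553668805983722367924920672470921429983748266164483651273900350706888163311836799385981566461692786541241711555124753467465281763627280264632942733908298775884803772048326585569363460420540091680285483456585127324227447361109372799033346332412167943414620192207289303995196927459104386241716369891251909967917634817965288770812728697363123242880916844559912177957665179594111730555353559163787216622648423156446315970869872717425804687142991403705455565112380608888076502379566419888351337063835147390282802570469033197721973275352698058510805426896281816595311987446464826891831723223947217878310684104810512375310896817807938184835849644021354261079789285074098677996165836911388470803773917667472780124445685750788026807948547884591711330290303168377362364309443249517161283900837098051722021604179578086330314817278008696110396349608131448886930677500751549691449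360335402375749018818899257514622381036653439891198852329217406394780774742063574091669992390747312524877486716465618020833839541047511853109295552068008660834164790463688450010945408339931154791658749006274210567198403153193862615921430000731522368331534271237474144858432077880827959865959276565691710260701739626656698418730675084188898222880470076378135479770124754355032902350515336141893795946530431597143805808196947026873357549493854540796727163362667850982436098868508697279039347184606113496818743978580134533777196689337651029609095580329310521878696833306476867806122558772463590868302233347752540447036148535968585124964411130799234543619675377384102798782191101807446241668731893623256429020333362781300033638854393706629390214405134629820025231535952255323330931893548187509698441773056740566128939886240447953971559670014455586632694737351863778264520269430424868815153043990622723966093348836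357720345613888630736834352410467297950728885555654496846802414891422349004741501557811130860157969941658393406804478331278088691077388977309159701661821126214768709073038533794107775134302143313109247558029063309218897563011697372466420444026368734381837348707121721677213860284274369471055302149156308446893644960163266799806371178379230350284623470341148692194318479229149383484758556970784384617645457610226276063167660203185055881336068600593521515099293814463767559680223891384252960684295785195755053159289663511618335392648509723395849961110273135431474351962095698535170226489663416093342377614802709839067451276046192546532542005639280109865187936917341203740627019439086865310388839454446112888385800733336232232595028233049220679133259461717288664042569831831223823596523045413855090822714076436949205518069496177191355482450165846036966384981348200951174936034667065853687523162608001265266895005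152739739720712159975457681097159233165672440329087332790056916817471230364658100990843501483693457482916275074283031386259230742898831971803822646808645825940454815530804429477624411032866891647752935864814992455935614810643244112418140836723049493879749348195955643842031161610918121975127392760712388655128149667366116279700312248709855702878770953125611227834820100039736048983843497661842789006446950475477134851303271227375490202314845341007401248101910228465060813237819271536061897897446507736342440441173223467622889173796509420501434975218776703146320425332054205987782153922285814848321362793186959322541392517223180720591868559435456215813013692638549997385098957078715752878596075278545982779951709831192537508226305863888310454240760954717730409915272128676307115853703584721204517224633488900208886846011855288157404904450803654130290402171833208049742259352377484496371463141917388161738283973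574999634569916444157868451162868732715471174947043380520576490320439332788541006726311807711466423187832280249618677132514897554191363979759763593029927997109680170066185636587765267839704209917393830366851060245531378297609169769876640673450887244864928032213977015975583151020116172375234089234849559695389988201881042888950933128906689911182976313272547331328178245343020475842645961787088396251564837715549053929057370701368948683779908050476763882746122983871741139202577361209844342262138359951909216952267332487771521786214173663456571523685666742823295901597560251816616786235363369544491339510986916411601252981569841308019508732344807612628682037512195214113264719140644696749844692753568115024470717337969081387043295277322877819873736206006806490896143315982959578666047079549733948430314093262097805657810879147706847185570949347493237530540234323998637514148251909169809395796372186796748920376538433754870664856577342532528373048888544350677536838729078975977635465624184621495341685399409417627018173554557842926813090093310205157685645207958604805843668344391289695379371137401663366373560678414453872033738930679786715937326203020277508750350447348670734243598426660723835579602672553755441938957826174899603911972891686092220905923861833369412468855232623158842251651438841167872)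

noncomputable def rc0 : Nat := (nat_lit 238030457730902979824836784485938093851379456030585772115055355582011349843299770310890790561223256998981474717275329387026765292976753673554082024099095553230143695622899657296862452973021392442757298066422934915502400945223312407738537046864982338748348600027759944548778924178849120223548100417985071202102109769149846455871114804142436040819210035645667195159214414335993771831074693628715655515671406547696721367066742483792392251965412341234776652848732198768622724583156933083147903431949319591601951914119618870189673514532622644174689162836073548993771993428498214642125568320397779291198911545630989794567310862661964267333465109485569920115046881114768873709706209503684851810428438542820752740795253539776972918054497190549094744365156051375636627450333941225645837137582193355731688711800732178778030148823515462156980739884420773708874752591078257456508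299912563342565260221534976349795471107469044142434886795933912039181048274968101592998098594631714095316215641060562951809124321598082616279714389291424697447017314063480752667469309423340060236931192479977119298308528999630888185057258457341506814986820592148181113927904837058123482842237547360540645126124169959322401267767460863725518546074616001141599150565889003824053476167888551817313601785724703119958951867885950604900165253724581006317263768335672197047204409372677970773080807931116776466554682572867196538665889335262005252146425282014838711009620563115450654591829961102084422410593232319864424069990389473955053911614301045652230916338754267230915801865692917964957587397878392092399804785857101868243375724139972091468246889536628296445497735636560211770844601304638745887936980714148360232308683319668217633194467561298825416758847445801654956780336399453824654789640669422291477127152648567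904575577825653663286322171941061241625978891491336752001549415298714439130782456165756929477802489099065101973036398461847091095848156666076267692119257100427052506032704323856541454051778731032341725841836924807090569415491339743204046640481979153906798763774427673808048521436500289100931691186600277963452641255293741410403672646219670477448724143339592378114064801607547381512224610245865404259904288385761770878996671034476587711759276062386034234012402848278810436790828546667965532761134635424711943722339233417987569953071746307578512449630439797439074662340690236441475985211199030491271020716426401086650819324721235562069913153594381599120057853529089768939051212828175847018811122147721179794466249608924161138981428043715656141536554569946819548084157080910844136390553962172016816340319871750419241152038022794922281946506134169350589755600464305346987220161238262673551050067529594327866777689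438837749080637472348722948683531200582119360054828608595869889189265218224941728684217272353912157326675392072840190745399756137556452993956122423811360938586521357786316502827539392048016598713647863035679125974466971414518450381097578978683912032600611323300866390799158281738623280529941959963321081837497657603997045784955649703134323634483206640900947602125923624446255958811447922547312994995435856409904853458241790712335370936361943478430436813725488618215314560956884390544377632047908309745881445991081374164277950848500512525009395641414183463005872472719370197364651277717810210538938183002829213628043013076059905017381837487339820141612610779067323063103669328036724741606929226113787979812721196348412243673853341550321107374901229296419898652052750340169934444536315830119539189095791360372891475577483050735082457465396433624996718717169269262012423950107550059750285119058331143934958004486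278111855361561321493380672351146242238384949633847735903734531986637448082217617443949604017794738892119193769931712134087453112619956734342254321984534197465181251971569687704067895338277591929336496797697975332961891552556788240073277921931707757454241620890876694599901025709244840425907909309480535972529214815310132034237662545028579715219758932915349055737461467840262864168901183228669839524599955017886968196880246753027332539238820766507613641166201755692100234782297226957518279191649733212572405382648552038062557939957633589743029238751885937555454032539772740374403610161485650517576905474653867619664643345880775829852515245991962258493158687169600109101736264941542800828909867239123158632002805305562765105475283510048700039799988582493201112106540657535690595772415562972270476613173295080817266068447207396830548436627973607671810974058938933254002884100650862590651459619146452032806906111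776900865623289348551039654013558831035822966746382349710081537344866559307602927041569514321059802795156936838346230972053506280376032188646077078641582390016463313170794617374603113342989179956681165907430824810142538302490313554482542181961466252789588925147587853771834640891763151801814454223861899923743130123024491933502114057043101042395200680100098843387686628777603322900936303308393165391637887675116542323043308885880809013148965720097812195141297633117117452146871451892422768005347224769860093822525653019733736750582000476298310349776469987871302774554076762163481668534481080215440673297892668436512075436461030727353685253395898767873510106296527735478498297870445153416038414977022234808450627458912984136914935265074697226246235610649757032532401469507652430159271887787792698127659233040971078834188769779936895377112345160948924287475569835765023961474068188911401183028188455623886867651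387753628683295213793699910639778787564071926722942605061350339793839598162332817792491649150280842309927310211232357083516553350482376364986552973281124662514349167189891750233619342905337517197682003768553096169119799232619588487116842117809832690710826905958802496226939075321847749562792279237544103819955114506269893128184147712063639418396065037838535911776383947513121907711394549714892228319427316925360933779381533016112935539895625947738766542983335106545828310463018071525441466323398585616662283000506358474755464948109649584390657555462889872018382131686180519233348090079596242334614594345101453620242655605017831717546427334684066725551225246717053178708942976265174657162294059123411818709185534970404416258848089980524841024560086590706916748079202192164498102510460938403122041696939846893934365626036729459624284375004436619878842159312580043541514553863633481579771525814231087095844389698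678202268865393826275492680108415780270707466641062300275495072851511381715494375019838311746142192784316852728034736638709529309193462501647492414252841438843818286933684554220962091162854311892606247281973234292055537032137948549611403353494086273297249259486660039607004474116545594560664877149744034015059719814304718016819380501242548592998917952541186434185647302311695220184915674130337579828961074821165012350790146460039121545720281747102834538864635335103702423807096015683612281720615464846935743002705420531113140700963741984600094534841787947106235407856165898627525531554852395589621160654793103540692433042541750282755681971610525790064353627733557329574268315932558610165363707135504067230487307031414407483642762503671763223895741633943776102135353500562350827568239185207312345454826736245401616734627494213742117901951443947807337904125586480670951891668191086438794123760861666523110779788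301502107802826700133300400334280281860778688908632034481919239024951525798896623704327259040497714875585865046517576714804163147064065311322828434051421648749734449400201343454420092631547093575121647299166989237871681626389729955977178279773897881641314608410297736996401993205766686379540331399017577930749709667006033506476580502535028348412220202756069665395259610337727687336969395757276629545401728860795845596210530658371691378335926624195469753962465287019622748458280732889084318216678709760141141601176324946205339775994632267991124550437098340740361796462390493797745656736501214564553091569652851396166218869170850704430879366401099074061450605408421453584864712595654273393691826606071137363018458724042832308710062128265569364571884611252681314275832185069355031703077330354598752429788959532749779634340687946575901957086522398314167522701960737409548660805554118982783701939687345262125781827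891565646927837038484340802641039225756638280557040483441748706962630249029702646612150899745274837174820060799928493113719826342611473246623343689395499002457670531548165297867085904575158128107841953900890773840667382129596904047973708445131201094803769310587147664053901862967563312750824209456686256914901665636297524184306138146921445223094171123472875079052485229619898064966830241660920554090702566908139740740337215591497148677117899823945358201079553575009416712185597426223491643379537479661660389011903063263883936074139861834465343677803280762752948605130333837559334845149076037357534460782008695900155607444416929311373036790627430011531662416283827444830505394618792244385994483781145815987675594279970849621693985961759341512575643031908405523982293054873684335973179028369383488765781780323803294829621238023927643276620851398449222294288870126283387737689242596714196356128512989451310733945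752565946726908235137027571472224586564761605878568580320020019514509523024778210817877922153158784507215623203898083683309321192473574050500909420031743684187186396944546449091725306264286286292623861470835999707289887096199528627694081339812242568969522220041811252498396999328524489582266881450691013331023985171465278556165549285764966456630771938769442852872420931565910430199087812422527561669711247708015595948654238174972403207886745609873586372494883212473858197998699251573453471663481221537691236987964469743126544806215515752446609671201703568463048269033617895905110907850259068789978121527876534674180040826943016011926632111965921137178059465942008845678360009228254777460798857682919127515806827842271623170633402150010423447973530441585604849577068533538140580634469956871186144231647588198671840202993016343542791657418213518793472605225656925518185777475751415984855284012331596914997808708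185151801731192298317660417537031719568805636685857827125679940817934893220375689104658222145824972721063500303266617067022869297406860905859885074147977979116662859975979069899721420776252126481152666855391164701723782024268983837932264370249338879891479121842997296514536435326584764315442818762977227925231346037780122098298236949583507876320201933626662374015874437531474429670361405424651832439143380392404181648475467817167428222285932385585225407389166048969774457132603869677278026941654098638577703809083137502418074161117180867122374881429406537161385060194176037167536795271797602496510691307620015556090775552056956837148931657517810357298187216639036560082520044044040154825300488250681043500411376887496873011222156910058441213803757986420548362538334145873468259722678216211449425452142958765923367411103687850187763539976403021603212891775556179351886462148012566823144426018906801878330986020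177584330086993988208295243640309529707273270681637685488069627315079438578783532166358577075548193750242835050271058031041094625136766478784880600799034010772881669733882276579084934523904911664563394165221862948845102467811251699267601260157991162268375327504045876958197659610463931976090507507001471200338399003329858954931688086498181279592642564327060779673226453272106135171107841943632307098124331391355628598303512457442021090903286168598119475921788591962761802052397867808590106772364208378010450151010266297657427151367643177218082179405660690767302660174545606785377531005816491451734347701317008273184554852988153580870874998021766337145910538244810815727587233471289942492545086159006990276176662364571343622829692526846266407816663819005755006442812321928571756492376586703124697948936514964502294301330248054036193673859307314529782079447629350323896217062518803561152591217276602726071900274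287274657755540323375941604739790650223547979195653435640187106171224983217405689027464795694434670650148317400017421069450595230108986837248925729614737936778051006562648841782273008950496614444445572068484037311505912649239052274920205677521687791556665211237096786710193292186927717727378193286411780943880868186574074463263254931764607568467464517383618674470534983424706928347852712576846427859186413185726570690943709199006131787118185810150409645279276105831372380276681372094673865549840041430345077149842749744309745474038098178262937568125508022956597016761838313728593611893567770948417687618308422873338523340199810533312328357434686390683745910888838503867078135179690644588844738760316995547590379485535727929296834051868620970451870221586879162464914040855192510516145908600933783209572505624546193411886420143183112402190872113767442506707243259287009281018210173227776350611334339860827513062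840045485288298237116369072117417114313118727029971221144477549106573429411921165168236879974918781157890574790407190542385440869120057147467625111701356462249617562667681253269079844234488347116486947814192818603522660148155152148187748237520128907251141031477077347267822388941437705531645602056784933352287267997988810061344245985260269446626668424826394642991590302942309943716678088175800853794525950069097063466858053356137488897649988017294932398604626242401411946148808856312665963156102066325509842172284402212458143297716825401209703059465709478373194254739558442012553502545582621709941722270802509573888363347112353484980621159154967237571303261935214253642412104353397741562905958922480102503440530439223063141853679328609349212585976922407455417304387005896191380564315005434551388530017715198397153968026677741249509595333092887849410248982450230949590931493979090801277269486799605671279277380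560565771842427259087236197840929628518966553668805983722367924920672470921429983748266164483651273900350706888163311836799385981566461692786541241711555124753467465281763627280264632942733908298775884803772048326585569363460420540091680285483456585127324227447361109372799033346332412167943414620192207289303995196927459104386241716369891251909967917634817965288770812728697363123242880916844559912177957665179594111730555353559163787216622648423156446315970869872717425804687142991403705455565112380608888076502379566419888351337063835147390282802570469033197721973275352698058510805426896281816595311987446464826891831723223947217878310684104810512375310896817807938184835849644021354261079789285074098677996165836911388470803773917667472780124445685750788026807948547884591711330290303168377362364309443249517161283900837098051722021604179578086330314817278008696110396349608131448886930677500751549691449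360335402375749018818899257514622381036653439891198852329217406394780774742063574091669992390747312524877486716465618020833839541047511853109295552068008660834164790463688450010945408339931154791658749006274210567198403153193862615921430000731522368331534271237474144858432077880827959865959276565691710260701739626656698418730675084188898222880470076378135479770124754355032902350515336141893795946530431597143805808196947026873357549493854540796727163362667850982436098868508697279039347184606113496818743978580134533777196689337651029609095580329310521878696833306476867806122558772463590868302233347752540447036148535968585124964411130799234543619675377384102798782191101807446241668731893623256429020333362781300033638854393706629390214405134629820025231535952255323330931893548187509698441773056740566128939886240447953971559670014455586632694737351863778264520269430424868815153043990622723966093348836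357720345613888630736834352410467297950728885555654496846802414891422349004741501557811130860157969941658393406804478331278088691077388977309159701661821126214768709073038533794107775134302143313109247558029063309218897563011697372466420444026368734381837348707121721677213860284274369471055302149156308446893644960163266799806371178379230350284623470341148692194318479229149383484758556970784384617645457610226276063167660203185055881336068600593521515099293814463767559680223891384252960684295785195755053159289663511618335392648509723395849961110273135431474351962095698535170226489663416093342377614802709839067451276046192546532542005639280109865187936917341203740627019439086865310388839454446112888385800733336232232595028233049220679133259461717288664042569831831223823596523045413855090822714076436949205518069496177191355482450165846036966384981348200951174936034667065853687523162608001265266895005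152739739720712159975457681097159233165672440329087332790056916817471230364658100990843501483693457482916275074283031386259230742898831971803822646808645825940454815530804429477624411032866891647752935864814992455935614810643244112418140836723049493879749348195955643842031161610918121975127392760712388655128149667366116279700312248709855702878770953125611227834820100039736048983843497661842789006446950475477134851303271227375490202314845341007401248101910228465060813237819271536061897897446507736342440441173223467622889173796509420501434975218776703146320425332054205987782153922285814848321362793186959322541392517223180720591868559435456215813013692638549997385098957078715752878596075278545982779951709831192537508226305863888310454240760954717730409915272128676307115853703584721204517224633488900208886846011855288157404904450803654130290402171833208049742259352377484496371463141917388161738283973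574999634569916444157868451162868732715471174947043380520576490320439332788541006726311807711466423187832280249618677132514897554191363979759763593029927997109680170066185636587765267839704209917393830366851060245531378297609169769876640673450887244864928032213977015975583151020116172375234089234849559695389988201881042888950933128906689911182976313272547331328178245343020475842645961787088396251564837715549053929057370701368948683779908050476763882746122983871741139202577361209844342262138359951909216952267332487771521786214173663456571523685666742823295901597560251816616786235363369544491339510986916411601252981569841308019508732344807612628682037512195214113264719140644696749844692753568115024470717337969081387043295277322877819873736206006806490896143315982959578666047079549733948430314093262097805657810879147706847185570949347493237530540234323998637514148251909169809395796372186796748920376538433754870664856577342532528373048888544350677536838729078975977635465624184621495341685399409417627018173554557842926813090093310205157685645207958604805843668344391289695379371137401663366373560678414453872033738930679786715937326203020277508750350447348670734243598426660723835579602672553755441938957826174899603911972891686092220905923861833369412468855232623158842251651438841167872)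

end Vale.Agent.Lib.P154.PChain.BA.S8
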